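import Crest.Agent.R257.HoA_843

/-!
# Row 257, task C-HO (helper843), file B: transfer between `XX d` and parametrisations

`lvE u z w`, `dbE S z w`: Levi form and `∂̄S(w)` on a complex normed space.
If `θ` is analytic at `z`, `d.h ∘ θ = 0` near `z`, `tail ∘ θ` has invertible derivative `L` at `z` and
`vv y = θ z`, then for functions `u`, `S` of the ambient space, smooth along `θ`:
smoothness, `lev` and `∂̄` on `XX d` at `y` are those of `u ∘ θ`, `S ∘ θ` at `z`.
-/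

set_option autoImplicit false
set_option linter.unusedSectionVars false

noncomputable section

open Set Filter Topology MeasureTheory ComplexConjugate
open scoped ENNReal

namespace Crest.Agent.R257.HoB_843

open Crest.Agent.R271 Crest.Agent.R271.Ho51 Crest.Agent.R273.Dir73
open Crest.Agent.R257.OtK_331 Crest.Agent.R257.HoA_843
open Crest.Agent.R271.W792 (lev)

section cal

variable {E F G : Type*} [NormedAddCommGroup E] [NormedSpace ℂ E] [NormedSpace ℝ E]
  [IsScalarTower ℝ ℂ E] [NormedAddCommGroup F] [NormedSpace ℂ F] [NormedSpace ℝ F]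
  [IsScalarTower ℝ ℂ F] [NormedAddCommGroup G] [NormedSpace ℝ G]

/-- Levi form -/
def lvE (u : E → ℝ) (z w : E) : ℝ :=
  (1 / 4) * (fderiv ℝ (fderiv ℝ u) z w w +
    fderiv ℝ (fderiv ℝ u) z (Complex.I • w) (Complex.I • w))

/-- `∂̄S(w)` -/
def dbE (S : E → ℂ) (z w : E) : ℂ :=
  (1 / 2) * (fderiv ℝ S z w + Complex.I * fderiv ℝ S z (Complex.I • w))

lemma lvE_congr {u v : E → ℝ} {z : E} (h : u =ᶠ[𝓝 z] v) (w : E) : lvE u z w = lvE v z w := by
  unfold lvE
  rw [(h.fderiv (𝕜 := ℝ)).fderiv_eq]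

lemma dbE_congr {u v : E → ℂ} {z : E} (h : u =ᶠ[𝓝 z] v) (w : E) : dbE u z w = dbE v z w := by
  unfold dbE
  rw [h.fderiv_eq]

lemma fd2_comp {T : E → F} {u : F → G} {z : E} (hT : ContDiffAt ℝ 2 T z)
    (hu : ContDiffAt ℝ 2 u (T z)) (v w : E) :
    fderiv ℝ (fderiv ℝ (u ∘ T)) z v w =
      fderiv ℝ (fderiv ℝ u) (T z) (fderiv ℝ T z v) (fderiv ℝ T z w) +
        fderiv ℝ u (T z) (fderiv ℝ (fderiv ℝ T) z v w) := by
  have hT1 : ∀ᶠ x in 𝓝 z, DifferentiableAt ℝ T x :=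
    (hT.eventually (by simp)).mono fun x hx => hx.differentiableAt (by norm_num)
  have hu1 : ∀ᶠ x in 𝓝 z, DifferentiableAt ℝ u (T x) :=
    hT.continuousAt.eventually ((hu.eventually (by simp)).mono fun x hx =>
      hx.differentiableAt (by norm_num))
  have h1 : fderiv ℝ (u ∘ T) =ᶠ[𝓝 z] fun x => (fderiv ℝ u (T x)).comp (fderiv ℝ T x) := by
    filter_upwards [hT1, hu1] with x hx1 hx2
    exact fderiv_comp x hx2 hx1
  have hA0 : HasFDerivAt (fderiv ℝ u) (fderiv ℝ (fderiv ℝ u) (T z)) (T z) :=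
    ((hu.fderiv_right (m := 1) (by norm_num)).differentiableAt (by norm_num)).hasFDerivAt
  have hA : HasFDerivAt (fun x => fderiv ℝ u (T x))
      ((fderiv ℝ (fderiv ℝ u) (T z)).comp (fderiv ℝ T z)) z :=
    hA0.comp z (hT.differentiableAt (by norm_num)).hasFDerivAt
  have hB : HasFDerivAt (fderiv ℝ T) (fderiv ℝ (fderiv ℝ T) z) z :=
    ((hT.fderiv_right (m := 1) (by norm_num)).differentiableAt (by norm_num)).hasFDerivAt
  rw [h1.fderiv_eq, (hA.clm_comp hB).fderiv]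
  simp [add_comm]

lemma fd2_hol {T : E → F} {z : E} (hT : ContDiffAt ℂ 2 T z) (v w : E) :
    fderiv ℝ (fderiv ℝ T) z v w = fderiv ℂ (fderiv ℂ T) z v w := by
  have hT1 : ∀ᶠ x in 𝓝 z, DifferentiableAt ℂ T x :=
    (hT.eventually (by simp)).mono fun x hx => hx.differentiableAt (by norm_num)
  have hTR : ContDiffAt ℝ 2 T z := hT.restrict_scalars ℝ
  have h1 : DifferentiableAt ℝ (fderiv ℝ T) z :=
    (hTR.fderiv_right (m := 1) (by norm_num)).differentiableAt (by norm_num)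
  have h2 : DifferentiableAt ℂ (fderiv ℂ T) z :=
    (hT.fderiv_right (m := 1) (by norm_num)).differentiableAt (by norm_num)
  have e1 : fderiv ℝ (fderiv ℝ T) z v w = fderiv ℝ (fun x => fderiv ℝ T x w) z v := by
    rw [fderiv_clm_apply h1 (differentiableAt_const w)]
    simp
  have e2 : (fun x => fderiv ℝ T x w) =ᶠ[𝓝 z] fun x => fderiv ℂ T x w := by
    filter_upwards [hT1] with x hx
    rw [hx.fderiv_restrictScalars ℝ]
    rfl
  have h3 : DifferentiableAt ℂ (fun x => fderiv ℂ T x w) z :=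
    h2.clm_apply (differentiableAt_const w)
  rw [e1, e2.fderiv_eq, h3.fderiv_restrictScalars ℝ]
  rw [fderiv_clm_apply h2 (differentiableAt_const w)]
  simp

lemma lvE_comp {T : E → F} {u : F → ℝ} {z : E} (hT : ContDiffAt ℂ 2 T z)
    (hu : ContDiffAt ℝ 2 u (T z)) (w : E) :
    lvE (u ∘ T) z w = lvE u (T z) (fderiv ℂ T z w) := by
  have hTR : ContDiffAt ℝ 2 T z := hT.restrict_scalars ℝ
  have hd : DifferentiableAt ℂ T z := hT.differentiableAt (by norm_num)
  have h1 : fderiv ℝ T z w = fderiv ℂ T z w := by rw [hd.fderiv_restrictScalars ℝ]; rfl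
  have h2 : fderiv ℝ T z (Complex.I • w) = Complex.I • fderiv ℂ T z w := by
    rw [hd.fderiv_restrictScalars ℝ]
    exact (fderiv ℂ T z).map_smul _ _
  unfold lvE
  rw [fd2_comp hTR hu, fd2_comp hTR hu, fd2_hol hT, fd2_hol hT, h1, h2]
  have h3 : fderiv ℂ (fderiv ℂ T) z (Complex.I • w) (Complex.I • w) =
      - fderiv ℂ (fderiv ℂ T) z w w := by
    rw [map_smul, ContinuousLinearMap.map_smul, _root_.smul_apply, smul_smul, Complex.I_mul_I,
      neg_one_smul]
  rw [h3, map_neg]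
  ring

lemma dbE_comp {T : E → F} {S : F → ℂ} {z : E} (hT : DifferentiableAt ℂ T z)
    (hS : DifferentiableAt ℝ S (T z)) (w : E) :
    dbE (S ∘ T) z w = dbE S (T z) (fderiv ℂ T z w) := by
  have hTR : DifferentiableAt ℝ T z := hT.restrictScalars ℝ
  have h2 : ∀ v, fderiv ℝ T z v = fderiv ℂ T z v := by
    intro v; rw [hT.fderiv_restrictScalars ℝ]; rfl
  unfold dbE
  rw [fderiv_comp z hS hTR]
  simp only [ContinuousLinearMap.comp_apply, h2, map_smul]

end cal

/-! ### `lev`, `db` in a chart of a Riemann domain -/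

section rd

variable {n : ℕ} {M : Type*} [TopologicalSpace M] [RDom n M]

lemma DD_chart {φ : M → ℝ} (hφ : Sm φ) (x : M) (v w : Fin n → ℂ) :
    D (fun y => D φ y v) x w = fderiv ℝ (fderiv ℝ (φ ∘ (ch x).symm)) (cp x) w v := by
  have h1 : ((fun y => Ho51.D φ y v) ∘ (ch x).symm) =ᶠ[𝓝 (cp x)]
      fun z => fderiv ℝ (φ ∘ (ch x).symm) z v := by
    filter_upwards [(ch x).open_target.mem_nhds ((isCh_ch x).cp_mem (mem_ch x))] with z hz
    simp only [Function.comp_apply]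
    rw [D_symm (isCh_ch x) hz φ]
  have h2 : Ho51.D (fun y => Ho51.D φ y v) x =
      fderiv ℝ (fun z => fderiv ℝ (φ ∘ (ch x).symm) z v) (cp x) := h1.fderiv_eq
  rw [h2]
  have h3 : DifferentiableAt ℝ (fderiv ℝ (φ ∘ (ch x).symm)) (cp x) :=
    ((hφ x).fderiv_right (m := 1) one_add_one_le_top').differentiableAt (by simp)
  rw [fderiv_clm_apply h3 (differentiableAt_const v)]
  simp

lemma lev_chart {φ : M → ℝ} (hφ : Sm φ) (x : M) (w : Fin n → ℂ) :
    lev φ x w = lvE (φ ∘ (ch x).symm) (cp x) w := by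
  unfold W792.lev lvE
  rw [DD_chart hφ, DD_chart hφ]

lemma db_chart {S : M → ℂ} (x : M) (w : Fin n → ℂ) :
    ∑ j, db j S x * conj (w j) = dbE (S ∘ (ch x).symm) (cp x) w := by
  have h1 : ∀ v, fderiv ℝ (S ∘ (ch x).symm) (cp x) v = D S x v := fun v => rfl
  unfold dbE
  rw [h1, h1, W792.D_wirtinger, W792.D_wirtinger, Finset.mul_sum, ← Finset.sum_add_distrib,
    Finset.mul_sum]
  refine Finset.sum_congr rfl fun j _ => ?_
  simp only [Pi.smul_apply, smul_eq_mul, map_mul, Complex.conj_I]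
  linear_combination (-(1 / 2 : ℂ) * (dz j S x * w j - db j S x * conj (w j))) * Complex.I_mul_I

end rd

/-! ### parametrisations of `{h = 0}` -/

section par

variable {n : ℕ} {d : Dat n}

lemma inducing_vv : IsInducing (vv : XX d → Fin (n + 1) → ℂ) :=
  oe_v.isInducing.comp isEmbedding_ι.isInducing

variable {E G : Type*} [NormedAddCommGroup E] [NormedSpace ℂ E] [NormedSpace ℝ E]
  [IsScalarTower ℝ ℂ E] [CompleteSpace E] [NormedAddCommGroup G] [NormedSpace ℝ G]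

/-- `θ` parametrises `{h = 0}` near `z`, with `tail ∘ θ` a local biholomorphism -/
structure Par (d : Dat n) (θ : E → Fin (n + 1) → ℂ) (z : E) (L : E ≃L[ℂ] (Fin n → ℂ)) : Prop where
  an : AnalyticAt ℂ θ z
  zero : ∀ᶠ x in 𝓝 z, d.h (θ x) = 0
  der : HasFDerivAt (fun x => Fin.tail (θ x)) (L : E →L[ℂ] (Fin n → ℂ)) z

variable {θ : E → Fin (n + 1) → ℂ} {z : E} {L : E ≃L[ℂ] (Fin n → ℂ)}

/-- the tail, as a continuous linear map -/
def tl (n : ℕ) : (Fin (n + 1) → ℂ) →L[ℂ] (Fin n → ℂ) :=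
  ContinuousLinearMap.pi fun j => ContinuousLinearMap.proj (R := ℂ) j.succ

lemma tl_apply (x : Fin (n + 1) → ℂ) : tl n x = Fin.tail x := rfl

lemma Par.an_q (h : Par d θ z L) : AnalyticAt ℂ (fun x => Fin.tail (θ x)) z :=
  ((tl n).analyticAt _).comp h.an

lemma Par.germ (h : Par d θ z L) {y : XX d} (hy : vv y = θ z) :
    (fun x => vv ((ch y).symm (Fin.tail (θ x)))) =ᶠ[𝓝 z] θ := by
  obtain ⟨W, hW, hWe⟩ := inducing_vv.isOpen_iff.1 (ch y).open_source
  have hc : ContinuousAt θ z := h.an.continuousAt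
  have hW' : θ z ∈ W := by
    have h2 : y ∈ vv ⁻¹' W := by rw [hWe]; exact mem_ch y
    rw [← hy]; exact h2
  have hU : θ z ∈ d.U := by rw [← hy]; exact vv_mem y
  filter_upwards [hc.eventually_mem (hW.mem_nhds hW'), hc.eventually_mem (d.isOpen_U.mem_nhds hU),
    h.zero] with x hx1 hx2 hx3
  have h3 : mkX (θ x) hx2 hx3 ∈ (ch y).source := by
    rw [← hWe]; exact hx1
  have h4 := (isCh_ch y).symm_cp h3
  rw [show Fin.tail (θ x) = cp (mkX (θ x) hx2 hx3) from rfl, h4]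
  rfl

lemma Par.comp_germ (h : Par d θ z L) {y : XX d} (hy : vv y = θ z) {A : Type*}
    (u : (Fin (n + 1) → ℂ) → A) :
    ((fun y => u (vv y)) ∘ (ch y).symm) ∘ (fun x => Fin.tail (θ x)) =ᶠ[𝓝 z] u ∘ θ := by
  filter_upwards [h.germ hy] with x hx
  simp only [Function.comp_apply]
  exact congrArg u hx

lemma Par.inv (h : Par d θ z L) :
    ∃ r : (Fin n → ℂ) → E, ContDiffAt ℂ (⊤ : ℕ∞) r (Fin.tail (θ z)) ∧ r (Fin.tail (θ z)) = z ∧
      ∀ᶠ p in 𝓝 (Fin.tail (θ z)), Fin.tail (θ (r p)) = p := by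
  have hc : ContDiffAt ℂ (⊤ : ℕ∞) (fun x => Fin.tail (θ x)) z := h.an_q.contDiffAt
  have hs : HasStrictFDerivAt (fun x => Fin.tail (θ x)) (L : E →L[ℂ] (Fin n → ℂ)) z :=
    hc.hasStrictFDerivAt' h.der (by simp)
  refine ⟨hc.localInverse h.der (by simp), hc.to_localInverse h.der (by simp),
    hs.localInverse_apply_image, hs.eventually_right_inverse⟩

lemma Par.cp_eq {y : XX d} (hy : vv y = θ z) : cp y = Fin.tail (θ z) := by
  rw [cp_vv, hy]

lemma Par.sm (h : Par d θ z L) {y : XX d} (hy : vv y = θ z) {u : (Fin (n + 1) → ℂ) → G}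
    (hu : ContDiffAt ℝ (⊤ : ℕ∞) (u ∘ θ) z) :
    ContDiffAt ℝ (⊤ : ℕ∞) ((fun y => u (vv y)) ∘ (ch y).symm) (cp y) := by
  obtain ⟨r, hr, hrz, hri⟩ := h.inv
  rw [Par.cp_eq hy]
  have h1 : ContDiffAt ℝ (⊤ : ℕ∞) ((u ∘ θ) ∘ r) (Fin.tail (θ z)) := by
    apply ContDiffAt.comp
    · rw [hrz]; exact hu
    · exact hr.restrict_scalars ℝ
  refine h1.congr_of_eventuallyEq ?_
  have h2 : Tendsto r (𝓝 (Fin.tail (θ z))) (𝓝 z) := by
    have := hr.continuousAt
    rwa [ContinuousAt, hrz] at this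
  filter_upwards [hri, h2.eventually (h.comp_germ hy u)] with p hp1 hp2
  have h3 : (((fun y => u (vv y)) ∘ (ch y).symm) ∘ (fun x => Fin.tail (θ x))) (r p) =
      ((fun y => u (vv y)) ∘ (ch y).symm) p := by
    simp only [Function.comp_apply]
    rw [hp1]
  rw [← h3, hp2]
  rfl

lemma Par.lev (h : Par d θ z L) {y : XX d} (hy : vv y = θ z) {u : (Fin (n + 1) → ℂ) → ℝ}
    (hu : Sm (fun y : XX d => u (vv y))) (w : E) :
    lvE (u ∘ θ) z w = W792.lev (fun y : XX d => u (vv y)) y (L w) := by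
  rw [lev_chart hu, ← lvE_congr (h.comp_germ hy u), lvE_comp, h.der.fderiv, Par.cp_eq hy]
  · rfl
  · exact h.an_q.contDiffAt
  · have h1 : ContDiffAt ℝ 2 ((fun y => u (vv y)) ∘ (ch y).symm) (cp y) :=
      (hu y).of_le two_le_top'
    rwa [Par.cp_eq hy] at h1

lemma Par.db (h : Par d θ z L) {y : XX d} (hy : vv y = θ z) {S : (Fin (n + 1) → ℂ) → ℂ}
    (hS : Sm (fun y : XX d => S (vv y))) (w : E) :
    dbE (S ∘ θ) z w = ∑ j, Ho51.db j (fun y : XX d => S (vv y)) y * conj ((L w) j) := by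
  rw [db_chart, ← dbE_congr (h.comp_germ hy S), dbE_comp, h.der.fderiv, Par.cp_eq hy]
  · rfl
  · exact h.der.differentiableAt
  · have h1 := hS.differentiableAt y
    rwa [Par.cp_eq hy] at h1

end par

end Crest.Agent.R257.HoB_843
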