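import Crest.Agent.R257.HoG_843

/-!
# Row 257, task C-HO (helper843), file H: **the Hörmander step at `W`-level**

`hoW` : `S`, `Φ` functions on `W = {(z, s, y') | f (z, A (s^N, y')) = 0}` (no invariance), all
hypotheses in parametrisations of `W ∩ {s ≠ 0, a (s, y') ≠ 0}`, all integrals for `|η|²` of
`{f = 0}`; output: `g` holomorphic near `0 ∈ ℂ³` with
`g (z, A (s^N, y')) = (1/N) ∑_{ξ^N = 1} V (z, ξ s, y')`, `V = G / s^(N-1)`, `G` holomorphic on the
polydisc of `(z,s,y')`-space, and `∫ |V - S|² e^{-Φ} |η|² ≤ 2 K`.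
-/

set_option autoImplicit false
set_option linter.unusedSectionVars false

noncomputable section

open Set Filter Topology MeasureTheory ComplexConjugate
open scoped ENNReal

namespace Crest.Agent.R257.HoH_843

open Crest.AlgGeometry.Germ
open Crest.Agent.R271 Crest.Agent.R271.Ho51
open Crest.Agent.R257.OtK_331 Crest.Agent.R257.HoB_843 Crest.Agent.R257.HoE_843
open Crest.Agent.R257.HoF_843 Crest.Agent.R257.HoG_843
open Crest.Agent.R257.Defs_219 Crest.Agent.R257.Fr_808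
open Polynomial (nthRootsFinset)

lemma meas_ind {X : Type*} [TopologicalSpace X] [MeasurableSpace X] [BorelSpace X] {O : Set X}
    (hO : IsOpen O) {F : X → ℝ} (hF : ContinuousOn F O) : Measurable (O.indicator F) := by
  classical
  rw [← Set.piecewise_eq_indicator]
  exact hF.measurable_piecewise continuousOn_const hO.measurableSet

/-- `∂̄ (F S) = F ∂̄ S` for holomorphic `F` -/
lemma dbE_mul {E : Type*} [NormedAddCommGroup E] [NormedSpace ℂ E] {F S : E → ℂ} {z : E}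
    (hF : DifferentiableAt ℂ F z) (hS : DifferentiableAt ℝ S z) (w : E) :
    dbE (fun x => F x * S x) z w = F z * dbE S z w := by
  have hFR : HasFDerivAt F ((fderiv ℂ F z).restrictScalars ℝ) z :=
    hF.hasFDerivAt.restrictScalars ℝ
  have h1 := hFR.mul hS.hasFDerivAt
  unfold dbE
  rw [show (fun x => F x * S x) = F * S from rfl, h1.fderiv]
  simp only [_root_.add_apply, _root_.smul_apply, ContinuousLinearMap.coe_restrictScalars',
    smul_eq_mul, map_smul]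
  have := Complex.I_mul_I
  linear_combination (1 / 2 * S z * (fderiv ℂ F z w)) * this

variable {f : E3 → ℂ} {A : (ℂ × ℂ) ≃L[ℂ] (ℂ × ℂ)} {N : ℕ}

/-- **the Hörmander step at `W`-level** -/
theorem hoW (hN : 0 < N) {R : Fin 3 → ℝ} (hR : ∀ i, 0 < R i)
    (hf : ∀ u ∈ Pd R, DifferentiableAt ℂ f (piW A N u))
    {a : ℂ × ℂ → ℂ} (ha : DifferentiableOn ℂ a {q | ‖q.1‖ < R 1 ∧ ‖q.2‖ < R 2})
    (ha0 : ∃ q : ℂ × ℂ, ‖q.1‖ < R 1 ∧ ‖q.2‖ < R 2 ∧ a q ≠ 0)
    (h1 : ∃ u ∈ Pd R, coordDeriv f 0 (piW A N u) ≠ 0) {ι : Type*} [Countable ι]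
    {O : ι → Set (ℂ × ℂ)} (hO : ∀ c, IsOpen (O c))
    {θ : ι → ℂ × ℂ → E3} (hθ : ∀ c, DifferentiableOn ℂ (θ c) (O c))
    (hz : ∀ c, ∀ p ∈ O c, f (piW A N (θ c p)) = 0) (hJ : ∀ c, ∀ p ∈ O c, jac2 (θ c) p ≠ 0)
    (hcov : ∀ u ∈ Pd R, u 1 ≠ 0 → f (piW A N u) = 0 → coordDeriv f 0 (piW A N u) ≠ 0 →
      a (u 1, u 2) ≠ 0 → ∃ c, ∃ p ∈ O c, θ c p = u)
    {Φ : E3 → ℝ} {S : E3 → ℂ} {κ : ι → ℂ × ℂ → ℝ}
    (hΦ : ∀ c, ∀ p ∈ O c, ContDiffAt ℝ (⊤ : ℕ∞) (Φ ∘ θ c) p)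
    (hS : ∀ c, ∀ p ∈ O c, ContDiffAt ℝ (⊤ : ℕ∞) (S ∘ θ c) p)
    (hL : ∀ c, ∀ p ∈ O c, ∀ w, 0 ≤ lvE (Φ ∘ θ c) p w)
    (hκ0 : ∀ c p, 0 ≤ κ c p) (hκm : ∀ c, Measurable (κ c))
    (hk : ∀ c, ∀ p ∈ O c, ∀ w, ‖dbE (S ∘ θ c) p w‖ ^ 2 ≤ κ c p * lvE (Φ ∘ θ c) p w)
    {C : ℝ} (hC : ∀ c, ∀ p ∈ O c, Φ (θ c p) ≤ C) {K : ℝ≥0∞} (hKt : K ≠ ∞)
    (hK : ∑' c, ∫⁻ p in O c, ENNReal.ofReal (κ c p * Real.exp (-Φ (θ c p)) *
      den2 f (fun q => piW A N (θ c q)) p) ≤ K)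
    (hSi : ∑' c, ∫⁻ p in O c, ENNReal.ofReal (‖S (θ c p)‖ ^ 2 *
      den2 f (fun q => piW A N (θ c q)) p) ≠ ∞) :
    ∃ g G V : E3 → ℂ, DifferentiableOn ℂ G (Pd R) ∧ (∀ u, V u = G u / u 1 ^ (N - 1)) ∧
      AnalyticAt ℂ g 0 ∧
      (∀ u ∈ Pd R, u 1 ≠ 0 → g (piW A N u) =
        1 / N * ∑ ξ ∈ nthRootsFinset N (1 : ℂ), V ![u 0, ξ * u 1, u 2]) ∧
      ∀ (U : Set (ℂ × ℂ)) (τ : ℂ × ℂ → E3) (N' : ℕ), IsOpen U → DifferentiableOn ℂ τ U →
        (∀ p ∈ U, τ p ∈ Pd R ∧ τ p 1 ≠ 0 ∧ f (piW A N (τ p)) = 0 ∧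
          coordDeriv f 0 (piW A N (τ p)) ≠ 0 ∧ a (τ p 1, τ p 2) ≠ 0) →
        (∀ x, {p | p ∈ U ∧ τ p = x}.encard ≤ N') →
        ∫⁻ p in U, ENNReal.ofReal (‖V (τ p) - S (τ p)‖ ^ 2 * Real.exp (-Φ (τ p)) *
          den2 f (fun q => piW A N (τ q)) p) ≤ N' * (2 * K) := by
  set O' : ι → Set (ℂ × ℂ) := fun c => O c ∩ θ c ⁻¹' (Pd R) with hO'
  have hO'o : ∀ c, IsOpen (O' c) := fun c =>
    (hθ c).continuousOn.isOpen_inter_preimage (hO c) (isOpen_Pd R)
  have hdθ : ∀ c, ∀ p ∈ O c, DifferentiableAt ℂ (θ c) p := fun c p hp =>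
    (hθ c).differentiableAt ((hO c).mem_nhds hp)
  have hθ1 : ∀ c, ∀ p ∈ O c, DifferentiableAt ℂ (fun q => θ c q 1 ^ (N - 1)) p := fun c p hp =>
    (((ContinuousLinearMap.proj (R := ℂ) (φ := fun _ : Fin 3 => ℂ) 1).differentiableAt.comp p
      (hdθ c p hp))).pow _
  have hden : ∀ c, ∀ p ∈ O' c, den2 f (fun q => piW A N (θ c q)) p =
      cA A N * ((‖θ c p 1‖ ^ (N - 1)) ^ 2 * den2 (hW f A N) (θ c) p) := fun c p hp =>
    den_piW (hdθ c p hp.1) (hf _ hp.2)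
  have hcA := cA_pos (A := A) hN
  -- the new data
  set S' : E3 → ℂ := fun u => u 1 ^ (N - 1) * S u with hS'
  set κ' : ι → ℂ × ℂ → ℝ := fun c => fun p =>
    (O' c).indicator (fun q => (‖θ c q 1‖ ^ (N - 1)) ^ 2) p * κ c p with hκ'
  have hfd : DifferentiableOn ℂ (hW f A N) (Pd R) := fun u hu =>
    ((hf u hu).comp u (diff_piW u)).differentiableWithinAt
  have hda : DifferentiableOn ℂ (fun q : ℂ × ℂ => q.1 * a q) {q | ‖q.1‖ < R 1 ∧ ‖q.2‖ < R 2} :=
    differentiable_fst.differentiableOn.mul ha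
  have hbo : IsOpen {q : ℂ × ℂ | ‖q.1‖ < R 1 ∧ ‖q.2‖ < R 2} :=
    (isOpen_lt continuous_fst.norm continuous_const).inter
      (isOpen_lt continuous_snd.norm continuous_const)
  have hda0 : ∃ q : ℂ × ℂ, ‖q.1‖ < R 1 ∧ ‖q.2‖ < R 2 ∧ q.1 * a q ≠ 0 := by
    obtain ⟨q, hq1, hq2, hq3⟩ := ha0
    have hev : ∀ᶠ x in 𝓝 q, (‖x.1‖ < R 1 ∧ ‖x.2‖ < R 2) ∧ a x ≠ 0 := by
      filter_upwards [hbo.mem_nhds (show q ∈ {q : ℂ × ℂ | ‖q.1‖ < R 1 ∧ ‖q.2‖ < R 2} from
        ⟨hq1, hq2⟩), (ha.continuousOn.continuousAt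
          (hbo.mem_nhds ⟨hq1, hq2⟩)).eventually_ne hq3] with x hx1 hx2 using ⟨hx1, hx2⟩
    have ht : Tendsto (fun t : ℂ => (q.1 + t, q.2)) (𝓝 0) (𝓝 q) := by
      have : Continuous fun t : ℂ => (q.1 + t, q.2) := by fun_prop
      simpa using this.tendsto 0
    have h2 : ∀ᶠ t : ℂ in 𝓝 0, t ≠ 0 → q.1 + t ≠ 0 ∨ q.1 ≠ 0 := by
      refine Eventually.of_forall fun t ht => ?_
      by_cases h : q.1 = 0
      · left; rw [h, zero_add]; exact ht
      · right; exact h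
    by_cases h : q.1 = 0
    · obtain ⟨t, ⟨⟨ht1, ht2⟩, ht3⟩, ht4⟩ :=
        ((ht.eventually hev).filter_mono nhdsWithin_le_nhds |>.and
          (self_mem_nhdsWithin (a := (0 : ℂ)) (s := {0}ᶜ))).exists
      refine ⟨(q.1 + t, q.2), ht1, ht2, mul_ne_zero ?_ ht3⟩
      show q.1 + t ≠ 0
      rw [h, zero_add]
      exact ht4
    · exact ⟨q, hq1, hq2, mul_ne_zero h hq3⟩
  have hh1 : ∃ x ∈ Pd R, coordDeriv (hW f A N) 0 x ≠ 0 := by
    obtain ⟨u, hu, hu1⟩ := h1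
    exact ⟨u, hu, by rwa [cd_hW (hf u hu)]⟩
  have hS'c : ∀ c, S' ∘ θ c = fun q => θ c q 1 ^ (N - 1) * (S ∘ θ c) q := fun c => rfl
  obtain ⟨G, hG, hGb⟩ := ho2 (f := hW f A N) hfd hda hda0 hh1 (O := O') hO'o (θ := θ)
    (fun c => (hθ c).mono inter_subset_left) (fun c p hp => hz c p hp.1)
    (fun c p hp => hJ c p hp.1)
    (by
      intro x hx hx0 hx1 hxa
      rw [cd_hW (hf x hx)] at hx1
      obtain ⟨c, p, hp, hpx⟩ := hcov x hx (left_ne_zero_of_mul hxa) hx0 hx1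
        (right_ne_zero_of_mul hxa)
      exact ⟨c, p, ⟨hp, by show θ c p ∈ Pd R; rw [hpx]; exact hx⟩, hpx⟩)
    (Φ := Φ) (S := S') (κ := κ') (fun c p hp => hΦ c p hp.1)
    (by
      intro c p hp
      rw [hS'c]
      have h2 : ContDiffAt ℂ (⊤ : ℕ∞) (θ c) p :=
        ((R266.SCV.analyticOnNhd_of_differentiableOn (hO c) (hθ c)) p hp.1).contDiffAt
      have h3 : ContDiffAt ℂ (⊤ : ℕ∞) (fun q => θ c q 1 ^ (N - 1)) p :=
        ((ContinuousLinearMap.proj (R := ℂ) (φ := fun _ : Fin 3 => ℂ) 1).contDiff.contDiffAt.comp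
          p h2).pow _
      exact (h3.restrict_scalars ℝ).mul (hS c p hp.1))
    (fun c p hp => hL c p hp.1)
    (by
      intro c p
      refine mul_nonneg (Set.indicator_nonneg (fun q _ => by positivity) p) (hκ0 c p))
    (by
      intro c
      refine Measurable.mul (meas_ind (hO'o c) ?_) (hκm c)
      exact ((((continuous_apply 1).comp_continuousOn
        ((hθ c).continuousOn.mono inter_subset_left)).norm).pow _).pow _)
    (by
      intro c p hp w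
      have h2 : dbE (S' ∘ θ c) p w = θ c p 1 ^ (N - 1) * dbE (S ∘ θ c) p w := by
        rw [hS'c]
        exact dbE_mul (hθ1 c p hp.1) ((hS c p hp.1).differentiableAt (by simp)) w
      rw [h2, norm_mul, mul_pow, norm_pow]
      have h3 : κ' c p = (‖θ c p 1‖ ^ (N - 1)) ^ 2 * κ c p := by
        simp only [hκ']
        rw [Set.indicator_of_mem hp]
      rw [h3, mul_assoc]
      exact mul_le_mul_of_nonneg_left (hk c p hp.1 w) (by positivity))
    (C := C) (fun c p hp => hC c p hp.1) (K := ENNReal.ofReal (cA A N)⁻¹ * K)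
    (ENNReal.mul_ne_top ENNReal.ofReal_ne_top hKt)
    (by
      refine le_trans ?_ (mul_le_mul' (le_refl (ENNReal.ofReal (cA A N)⁻¹)) hK)
      rw [← ENNReal.tsum_mul_left]
      refine ENNReal.tsum_le_tsum fun c => ?_
      refine le_trans ?_ (mul_le_mul' le_rfl (lintegral_mono_set
        (inter_subset_left : O' c ⊆ O c)))
      rw [← lintegral_const_mul' _ _ ENNReal.ofReal_ne_top]
      refine (setLIntegral_congr_fun (hO'o c).measurableSet fun p hp => ?_).le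
      rw [← ENNReal.ofReal_mul (by positivity), hden c p hp]
      congr 1
      have h3 : κ' c p = (‖θ c p 1‖ ^ (N - 1)) ^ 2 * κ c p := by
        simp only [hκ']
        rw [Set.indicator_of_mem hp]
      rw [h3]
      field_simp)
    (by
      refine ne_top_of_le_ne_top (ENNReal.mul_ne_top ENNReal.ofReal_ne_top hSi)
        (b := ENNReal.ofReal (cA A N)⁻¹ * _) ?_
      rw [← ENNReal.tsum_mul_left]
      refine ENNReal.tsum_le_tsum fun c => ?_
      refine le_trans ?_ (mul_le_mul' le_rfl (lintegral_mono_set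
        (inter_subset_left : O' c ⊆ O c)))
      rw [← lintegral_const_mul' _ _ ENNReal.ofReal_ne_top]
      refine (setLIntegral_congr_fun (hO'o c).measurableSet fun p hp => ?_).le
      rw [← ENNReal.ofReal_mul (by positivity), hden c p hp]
      congr 1
      show ‖θ c p 1 ^ (N - 1) * S (θ c p)‖ ^ 2 * _ = _
      rw [norm_mul, norm_pow]
      field_simp)
  obtain ⟨g₁, hg₁, hg₁e⟩ := descend hN hR hG
  set V : E3 → ℂ := fun u => G u / u 1 ^ (N - 1) with hV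
  set L : E3 → E3 := fun x => ![x 0, (A.symm (x 1, x 2)).1, (A.symm (x 1, x 2)).2] with hL'
  refine ⟨fun x => g₁ (L x), G, V, hG, fun u => rfl, ?_, ?_, ?_⟩
  · have hLd : AnalyticAt ℂ L 0 := by
      have hd : Differentiable ℂ L := by
        intro x
        refine differentiableAt_pi.2 fun i => ?_
        have h2 : DifferentiableAt ℂ (fun x : E3 => A.symm (x 1, x 2)) x := by
          refine A.symm.differentiable.differentiableAt.comp x ?_
          exact (diff_co 1 x).prodMk (diff_co 2 x)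
        fin_cases i
        · exact diff_co 0 x
        · exact h2.fst
        · exact h2.snd
      exact (R266.SCV.analyticOnNhd_of_differentiableOn isOpen_univ hd.differentiableOn) 0
        (mem_univ _)
    have hL0 : L 0 = 0 := by
      have h2 : A.symm ((0 : E3) 1, (0 : E3) 2) = 0 := by
        show A.symm ((0, 0) : ℂ × ℂ) = 0
        exact map_zero _
      simp only [hL']
      rw [h2]
      funext i
      fin_cases i <;> rfl
    have h3 : AnalyticAt ℂ g₁ (L 0) := by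
      rw [hL0]
      refine (R266.SCV.analyticOnNhd_of_differentiableOn (isOpen_Pd _) hg₁) 0 ?_
      rw [mem_Pd3]
      refine ⟨?_, ?_, ?_⟩
      · simpa [Rd] using hR 0
      · simpa [Rd] using pow_pos (hR 1) N
      · simpa [Rd] using hR 2
    exact h3.comp hLd
  · intro u hu hu1
    have h2 : L (piW A N u) = ![u 0, u 1 ^ N, u 2] := by
      simp only [hL', piW]
      show ![u 0, (A.symm (A (u 1 ^ N, u 2))).1, (A.symm (A (u 1 ^ N, u 2))).2] = _
      rw [A.symm_apply_apply]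
    show g₁ (L (piW A N u)) = _
    rw [h2, hg₁e u hu hu1]
    rfl
  · intro U τ N' hU hτ hτU hN'
    have h2 := hGb U τ N' hU hτ
      (fun p hp => by
        obtain ⟨b1, b2, b3, b4, b5⟩ := hτU p hp
        exact ⟨b1, b3, by rwa [cd_hW (hf _ b1)], mul_ne_zero b2 b5⟩) hN'
    have h3 : ∫⁻ p in U, ENNReal.ofReal (‖V (τ p) - S (τ p)‖ ^ 2 * Real.exp (-Φ (τ p)) *
        den2 f (fun q => piW A N (τ q)) p) = ENNReal.ofReal (cA A N) *
        ∫⁻ p in U, ENNReal.ofReal (‖G (τ p) - S' (τ p)‖ ^ 2 * Real.exp (-Φ (τ p)) *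
          den2 (hW f A N) τ p) := by
      rw [← lintegral_const_mul' _ _ ENNReal.ofReal_ne_top]
      refine setLIntegral_congr_fun hU.measurableSet fun p hp => ?_
      obtain ⟨b1, b2, b3, b4, b5⟩ := hτU p hp
      rw [← ENNReal.ofReal_mul hcA.le, den_piW (hτ.differentiableAt (hU.mem_nhds hp)) (hf _ b1)]
      congr 1
      have h4 : G (τ p) - S' (τ p) = τ p 1 ^ (N - 1) * (V (τ p) - S (τ p)) := by
        simp only [hV, hS']
        have := pow_ne_zero (N - 1) b2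
        field_simp
      rw [h4, norm_mul, norm_pow]
      ring
    rw [h3]
    refine (mul_le_mul' le_rfl h2).trans (le_of_eq ?_)
    have h5 : ENNReal.ofReal (cA A N) * ENNReal.ofReal (cA A N)⁻¹ = 1 := by
      rw [← ENNReal.ofReal_mul hcA.le, mul_inv_cancel₀ hcA.ne', ENNReal.ofReal_one]
    calc ENNReal.ofReal (cA A N) * (↑N' * (2 * (ENNReal.ofReal (cA A N)⁻¹ * K)))
        = (ENNReal.ofReal (cA A N) * ENNReal.ofReal (cA A N)⁻¹) * (N' * (2 * K)) := by ring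
      _ = _ := by rw [h5, one_mul]

end Crest.Agent.R257.HoH_843
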