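import Mathlib
import Crest.Agent.R257.HoH_843
import Crest.Agent.R257.BPDefs_258

/-!
Row 257, part C, task C-DATA (helper250), file A: cut-off functions and elementary estimates.
-/

set_option autoImplicit false
set_option linter.unusedSectionVars false

noncomputable section

open Set Filter Topology MeasureTheory Metric
open scoped ENNReal

namespace Crest.Agent.R257.CDataA_250

open Crest.Agent.R257.HoB_843

/-! ### the cut-off function of one variable -/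

/-- `1` for `‖z‖ ≤ a`, `0` for `‖z‖ ≥ b` -/
def ct (a b : ℝ) (z : ℂ) : ℝ := Real.smoothTransition ((b ^ 2 - ‖z‖ ^ 2) / (b ^ 2 - a ^ 2))

variable {a b : ℝ}

lemma ct_smooth : ContDiff ℝ (⊤ : ℕ∞) (ct a b) := by
  unfold ct
  refine Real.smoothTransition.contDiff.comp ?_
  exact (contDiff_const.sub (contDiff_norm_sq ℝ)).div_const _

lemma ct_one (ha : 0 < a) (hab : a < b) {z : ℂ} (hz : ‖z‖ ≤ a) : ct a b z = 1 := by
  have h0 : 0 < b ^ 2 - a ^ 2 := by nlinarith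
  refine Real.smoothTransition.one_of_one_le ?_
  rw [le_div_iff₀ h0]
  nlinarith [norm_nonneg z]

lemma ct_zero (ha : 0 < a) (hab : a < b) {z : ℂ} (hz : b ≤ ‖z‖) : ct a b z = 0 := by
  have h0 : 0 < b ^ 2 - a ^ 2 := by nlinarith
  refine Real.smoothTransition.zero_of_nonpos ?_
  refine div_nonpos_of_nonpos_of_nonneg ?_ h0.le
  nlinarith

lemma ct_nonneg (z : ℂ) : 0 ≤ ct a b z := Real.smoothTransition.nonneg _

lemma ct_le_one (z : ℂ) : ct a b z ≤ 1 := Real.smoothTransition.le_one _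

lemma ct_congr {z z' : ℂ} (h : ‖z‖ = ‖z'‖) : ct a b z = ct a b z' := by
  unfold ct; rw [h]

lemma ct_fderiv_zero (ha : 0 < a) (hab : a < b) {z : ℂ} (hz : ‖z‖ < a ∨ b < ‖z‖) :
    fderiv ℝ (ct a b) z = 0 := by
  rcases hz with h | h
  · have h1 : ct a b =ᶠ[𝓝 z] fun _ => (1 : ℝ) := by
      filter_upwards [(isOpen_lt continuous_norm continuous_const).mem_nhds h] with y hy
      exact ct_one ha hab (le_of_lt hy)
    rw [h1.fderiv_eq]; simp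
  · have h1 : ct a b =ᶠ[𝓝 z] fun _ => (0 : ℝ) := by
      filter_upwards [(isOpen_lt continuous_const continuous_norm).mem_nhds h] with y hy
      exact ct_zero ha hab (le_of_lt hy)
    rw [h1.fderiv_eq]; simp

lemma ct_bd (ha : 0 < a) (hab : a < b) : ∃ C, 0 < C ∧ ∀ z, ‖fderiv ℝ (ct a b) z‖ ≤ C := by
  have hcs : HasCompactSupport (ct a b) := by
    refine HasCompactSupport.of_support_subset_isCompact (isCompact_closedBall (0 : ℂ) b) ?_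
    intro z hz
    by_contra h
    exact hz (ct_zero ha hab (by simpa using (not_le.1 (fun h2 => h (by simpa using h2))).le))
  have hc : Continuous (fderiv ℝ (ct a b)) :=
    ct_smooth.continuous_fderiv (by simp)
  obtain ⟨C, hC⟩ := (hcs.fderiv (𝕜 := ℝ)).exists_bound_of_continuous hc
  exact ⟨max C 1, by positivity, fun z => (hC z).trans (le_max_left _ _)⟩

/-! ### `∂̄` of cut-off functions on `ℂ × ℂ` -/

lemma sq_norm_le (w : ℂ × ℂ) : ‖w‖ ^ 2 ≤ ‖w.1‖ ^ 2 + ‖w.2‖ ^ 2 := by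
  rw [Prod.norm_def]
  rcases le_total ‖w.1‖ ‖w.2‖ with h | h
  · rw [max_eq_right h]; nlinarith [sq_nonneg ‖w.1‖]
  · rw [max_eq_left h]; nlinarith [sq_nonneg ‖w.2‖]

lemma norm_dbE_le {χ : ℂ × ℂ → ℝ} {p : ℂ × ℂ} (hχ : DifferentiableAt ℝ χ p) (w : ℂ × ℂ) :
    ‖dbE (fun q => (χ q : ℂ)) p w‖ ≤ ‖fderiv ℝ χ p‖ * ‖w‖ := by
  have h1 : HasFDerivAt (fun q => (χ q : ℂ)) (Complex.ofRealCLM.comp (fderiv ℝ χ p)) p :=
    Complex.ofRealCLM.hasFDerivAt.comp p hχ.hasFDerivAt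
  unfold dbE
  rw [h1.fderiv]
  simp only [ContinuousLinearMap.comp_apply, Complex.ofRealCLM_apply]
  have h2 : ‖(fderiv ℝ χ p) w‖ ≤ ‖fderiv ℝ χ p‖ * ‖w‖ := ContinuousLinearMap.le_opNorm _ _
  have h3 : ‖(fderiv ℝ χ p) (Complex.I • w)‖ ≤ ‖fderiv ℝ χ p‖ * ‖w‖ := by
    refine (ContinuousLinearMap.le_opNorm _ _).trans (le_of_eq ?_)
    rw [norm_smul, Complex.norm_I, one_mul]
  rw [norm_mul]
  have h4 : ‖(((fderiv ℝ χ p) w : ℝ) : ℂ) + Complex.I * (((fderiv ℝ χ p) (Complex.I • w) : ℝ) : ℂ)‖ ≤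
      ‖(fderiv ℝ χ p) w‖ + ‖(fderiv ℝ χ p) (Complex.I • w)‖ := by
    refine (norm_add_le _ _).trans ?_
    rw [norm_mul, Complex.norm_I, one_mul, Complex.norm_real, Complex.norm_real]
  have h5 : ‖(1 / 2 : ℂ)‖ = 1 / 2 := by simp
  rw [h5]
  linarith

lemma dbE_mul_le {F : ℂ × ℂ → ℂ} {χ : ℂ × ℂ → ℝ} {p : ℂ × ℂ} (hF : DifferentiableAt ℂ F p)
    (hχ : DifferentiableAt ℝ χ p) {C : ℝ} (hC : ‖fderiv ℝ χ p‖ ≤ C) (w : ℂ × ℂ) :
    ‖dbE (fun q => F q * (χ q : ℂ)) p w‖ ^ 2 ≤ ‖F p‖ ^ 2 * C ^ 2 * (‖w.1‖ ^ 2 + ‖w.2‖ ^ 2) := by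
  have h0 : DifferentiableAt ℝ (fun q => (χ q : ℂ)) p :=
    Complex.ofRealCLM.differentiableAt.comp p hχ
  rw [HoH_843.dbE_mul hF h0 w, norm_mul, mul_pow, mul_assoc]
  refine mul_le_mul_of_nonneg_left ?_ (by positivity)
  have h1 : ‖dbE (fun q => (χ q : ℂ)) p w‖ ≤ C * ‖w‖ :=
    (norm_dbE_le hχ w).trans (mul_le_mul_of_nonneg_right hC (norm_nonneg _))
  calc ‖dbE (fun q => (χ q : ℂ)) p w‖ ^ 2 ≤ (C * ‖w‖) ^ 2 := by
        exact pow_le_pow_left₀ (norm_nonneg _) h1 2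
    _ = C ^ 2 * ‖w‖ ^ 2 := by ring
    _ ≤ _ := mul_le_mul_of_nonneg_left (sq_norm_le w) (by positivity)

lemma dbE_add {E : Type*} [NormedAddCommGroup E] [NormedSpace ℂ E] {F S : E → ℂ} {z : E}
    (hF : DifferentiableAt ℝ F z) (hS : DifferentiableAt ℝ S z) (w : E) :
    dbE (fun x => F x + S x) z w = dbE F z w + dbE S z w := by
  unfold dbE
  rw [fderiv_fun_add hF hS]
  simp only [_root_.add_apply]
  ring

lemma dbE_hol {E : Type*} [NormedAddCommGroup E] [NormedSpace ℂ E] {F : E → ℂ} {z : E}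
    (hF : DifferentiableAt ℂ F z) (w : E) : dbE F z w = 0 := by
  have hFR : HasFDerivAt F ((fderiv ℂ F z).restrictScalars ℝ) z :=
    hF.hasFDerivAt.restrictScalars ℝ
  unfold dbE
  rw [hFR.fderiv]
  simp only [ContinuousLinearMap.coe_restrictScalars', map_smul, smul_eq_mul]
  have := Complex.I_mul_I
  linear_combination (1 / 2 * (fderiv ℂ F z w)) * this

/-- the cut-off function on `ℂ × ℂ` -/
def c2 (a b : ℝ) (p : ℂ × ℂ) : ℝ := ct a b p.1 * ct a b p.2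

lemma c2_smooth : ContDiff ℝ (⊤ : ℕ∞) (c2 a b) :=
  (ct_smooth.comp contDiff_fst).mul (ct_smooth.comp contDiff_snd)

lemma c2_one (ha : 0 < a) (hab : a < b) {p : ℂ × ℂ} (h1 : ‖p.1‖ ≤ a) (h2 : ‖p.2‖ ≤ a) :
    c2 a b p = 1 := by
  unfold c2; rw [ct_one ha hab h1, ct_one ha hab h2, one_mul]

lemma c2_zero (ha : 0 < a) (hab : a < b) {p : ℂ × ℂ} (h : b ≤ ‖p.1‖ ∨ b ≤ ‖p.2‖) :
    c2 a b p = 0 := by
  unfold c2
  rcases h with h | h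
  · rw [ct_zero ha hab h, zero_mul]
  · rw [ct_zero ha hab h, mul_zero]

lemma c2_nonneg (p : ℂ × ℂ) : 0 ≤ c2 a b p := mul_nonneg (ct_nonneg _) (ct_nonneg _)

lemma c2_le_one (p : ℂ × ℂ) : c2 a b p ≤ 1 :=
  mul_le_one₀ (ct_le_one _) (ct_nonneg _) (ct_le_one _)

lemma c2_congr {p p' : ℂ × ℂ} (h1 : ‖p.1‖ = ‖p'.1‖) (h2 : ‖p.2‖ = ‖p'.2‖) :
    c2 a b p = c2 a b p' := by
  unfold c2; rw [ct_congr h1, ct_congr h2]

lemma c2_fderiv (p : ℂ × ℂ) : fderiv ℝ (c2 a b) p =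
    ct a b p.1 • (fderiv ℝ (ct a b) p.2).comp (ContinuousLinearMap.snd ℝ ℂ ℂ) +
      ct a b p.2 • (fderiv ℝ (ct a b) p.1).comp (ContinuousLinearMap.fst ℝ ℂ ℂ) := by
  have h1 : HasFDerivAt (fun p : ℂ × ℂ => ct a b p.1)
      ((fderiv ℝ (ct a b) p.1).comp (ContinuousLinearMap.fst ℝ ℂ ℂ)) p :=
    ((ct_smooth.differentiable (by simp)).differentiableAt.hasFDerivAt).comp p hasFDerivAt_fst
  have h2 : HasFDerivAt (fun p : ℂ × ℂ => ct a b p.2)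
      ((fderiv ℝ (ct a b) p.2).comp (ContinuousLinearMap.snd ℝ ℂ ℂ)) p :=
    ((ct_smooth.differentiable (by simp)).differentiableAt.hasFDerivAt).comp p hasFDerivAt_snd
  exact (h1.mul h2).fderiv

lemma c2_fderiv_zero (ha : 0 < a) (hab : a < b) {p : ℂ × ℂ} (h1 : ‖p.1‖ < a) (h2 : ‖p.2‖ < a) :
    fderiv ℝ (c2 a b) p = 0 := by
  rw [c2_fderiv, ct_fderiv_zero ha hab (Or.inl h1), ct_fderiv_zero ha hab (Or.inl h2)]
  simp

lemma c2_bd (ha : 0 < a) (hab : a < b) : ∃ C, 0 < C ∧ ∀ p, ‖fderiv ℝ (c2 a b) p‖ ≤ C := by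
  obtain ⟨C, hC0, hC⟩ := ct_bd ha hab
  refine ⟨C + C, by positivity, fun p => ?_⟩
  rw [c2_fderiv]
  refine (norm_add_le _ _).trans (add_le_add ?_ ?_)
  · rw [norm_smul, Real.norm_of_nonneg (ct_nonneg _)]
    refine (mul_le_mul (ct_le_one _) ((ContinuousLinearMap.opNorm_comp_le _ _).trans
      (mul_le_mul (hC _) (ContinuousLinearMap.norm_snd_le _ _ _) (norm_nonneg _) hC0.le))
      (norm_nonneg _) zero_le_one).trans (le_of_eq (by ring))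
  · rw [norm_smul, Real.norm_of_nonneg (ct_nonneg _)]
    refine (mul_le_mul (ct_le_one _) ((ContinuousLinearMap.opNorm_comp_le _ _).trans
      (mul_le_mul (hC _) (ContinuousLinearMap.norm_fst_le _ _ _) (norm_nonneg _) hC0.le))
      (norm_nonneg _) zero_le_one).trans (le_of_eq (by ring))

/-! ### estimates and integrals -/

lemma rpow_le_of {u a x : ℝ} (ha : 0 < a) (hu : a ≤ u) (hu1 : u ≤ 1) : u ^ x ≤ a ^ (-|x|) := by
  have hu0 : 0 < u := ha.trans_le hu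
  calc u ^ x ≤ u ^ (-|x|) :=
        Real.rpow_le_rpow_of_exponent_ge hu0 hu1 (neg_abs_le x)
    _ ≤ a ^ (-|x|) := by
        rw [Real.rpow_neg hu0.le, Real.rpow_neg ha.le]
        exact inv_anti₀ (Real.rpow_pos_of_pos ha _)
          (Real.rpow_le_rpow ha.le hu (abs_nonneg x))

lemma exp_log_sq {u y : ℝ} (hu : 0 < u) : Real.exp (-(y * Real.log (u ^ 2))) = u ^ (-2 * y) := by
  rw [Real.rpow_def_of_pos hu, Real.log_pow]
  congr 1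
  push_cast
  ring

lemma pw {u : ℝ} (hu : 0 < u) (m : ℕ) (n : ℤ) (y : ℝ) :
    (u ^ m) ^ 2 * u ^ (-2 * y) * (u ^ (-n - 1)) ^ 2 = u ^ (2 * (m - y - n) - 2) := by
  rw [← Real.rpow_natCast u m, ← Real.rpow_intCast u (-n - 1), ← Real.rpow_natCast _ 2,
    ← Real.rpow_natCast _ 2, ← Real.rpow_mul hu.le, ← Real.rpow_mul hu.le, ← Real.rpow_add hu,
    ← Real.rpow_add hu]
  congr 1
  push_cast
  ring

/-- the estimate in the zone `a ≤ |β|` -/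
lemma zone1 {m1 m2 : ℕ} {y1 y2 t C K a δ : ℝ} {n1 n2 : ℤ} (ha : 0 < a) (ht : 0 ≤ t) (hδ : 0 < δ)
    (u v Θ : ℝ) (hu : 0 < u) (hv : a ≤ v) (hv1 : v ≤ 1) (hΘ : δ ≤ Θ) (Φ dn : ℝ)
    (hΦ : y1 * Real.log (u ^ 2) + y2 * Real.log (v ^ 2) + t * Real.log Θ - C ≤ Φ)
    (hd : 0 ≤ dn) (hdn : dn ≤ K * (u ^ (-n1 - 1) * v ^ (-n2 - 1))) :
    (u ^ m1 * v ^ m2) ^ 2 * Real.exp (-Φ) * dn ^ 2 ≤
      (Real.exp C * δ ^ (-t) * K ^ 2 * a ^ (-|2 * ((m2 : ℝ) - y2 - n2) - 2|)) *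
        u ^ (2 * ((m1 : ℝ) - y1 - n1) - 2) := by
  have hv0 : 0 < v := ha.trans_le hv
  have hs : 0 < Θ := hδ.trans_le hΘ
  have h1 : Real.exp (-Φ) ≤ Real.exp C * (u ^ (-2 * y1) * v ^ (-2 * y2) * δ ^ (-t)) := by
    have e1 : Real.exp (-Φ) ≤ Real.exp (C + (-(y1 * Real.log (u ^ 2)) + -(y2 * Real.log (v ^ 2)) +
        -(t * Real.log Θ))) := Real.exp_le_exp.2 (by linarith)
    refine e1.trans ?_
    rw [Real.exp_add, Real.exp_add, Real.exp_add, exp_log_sq hu, exp_log_sq hv0]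
    have e2 : Real.exp (-(t * Real.log Θ)) ≤ δ ^ (-t) := by
      have e3 : Real.exp (-(t * Real.log Θ)) = Θ ^ (-t) := by
        rw [Real.rpow_def_of_pos hs]; congr 1; ring
      rw [e3]
      exact Real.rpow_le_rpow_of_nonpos hδ hΘ (by linarith)
    gcongr
  have h2 : dn ^ 2 ≤ K ^ 2 * ((u ^ (-n1 - 1)) ^ 2 * (v ^ (-n2 - 1)) ^ 2) := by
    calc dn ^ 2 ≤ (K * (u ^ (-n1 - 1) * v ^ (-n2 - 1))) ^ 2 := pow_le_pow_left₀ hd hdn 2
      _ = _ := by ring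
  calc (u ^ m1 * v ^ m2) ^ 2 * Real.exp (-Φ) * dn ^ 2
      ≤ (u ^ m1 * v ^ m2) ^ 2 * (Real.exp C * (u ^ (-2 * y1) * v ^ (-2 * y2) * δ ^ (-t))) *
        (K ^ 2 * ((u ^ (-n1 - 1)) ^ 2 * (v ^ (-n2 - 1)) ^ 2)) := by gcongr
    _ = (Real.exp C * δ ^ (-t) * K ^ 2 *
        ((v ^ m2) ^ 2 * v ^ (-2 * y2) * (v ^ (-n2 - 1)) ^ 2)) *
        ((u ^ m1) ^ 2 * u ^ (-2 * y1) * (u ^ (-n1 - 1)) ^ 2) := by ring
    _ ≤ _ := by
        rw [pw hu, pw hv0]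
        have h3 := rpow_le_of (x := 2 * ((m2 : ℝ) - y2 - n2) - 2) ha hv hv1
        gcongr

/-- the estimate without weight -/
lemma zone0 {m1 m2 : ℕ} {K : ℝ} {n1 n2 : ℤ} (u v : ℝ) (hu : 0 < u) (hv : 0 < v) (dn : ℝ)
    (hd : 0 ≤ dn) (hdn : dn ≤ K * (u ^ (-n1 - 1) * v ^ (-n2 - 1))) :
    (u ^ m1 * v ^ m2) ^ 2 * dn ^ 2 ≤
      K ^ 2 * (u ^ (2 * ((m1 : ℝ) - n1) - 2) * v ^ (2 * ((m2 : ℝ) - n2) - 2)) := by
  have h2 : dn ^ 2 ≤ K ^ 2 * ((u ^ (-n1 - 1)) ^ 2 * (v ^ (-n2 - 1)) ^ 2) := by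
    calc dn ^ 2 ≤ (K * (u ^ (-n1 - 1) * v ^ (-n2 - 1))) ^ 2 := pow_le_pow_left₀ hd hdn 2
      _ = _ := by ring
  have e1 := pw hu m1 n1 0
  have e2 := pw hv m2 n2 0
  simp only [mul_zero, Real.rpow_zero, mul_one, sub_zero] at e1 e2
  calc (u ^ m1 * v ^ m2) ^ 2 * dn ^ 2
      ≤ (u ^ m1 * v ^ m2) ^ 2 * (K ^ 2 * ((u ^ (-n1 - 1)) ^ 2 * (v ^ (-n2 - 1)) ^ 2)) := by
        gcongr
    _ = K ^ 2 * (((u ^ m1) ^ 2 * (u ^ (-n1 - 1)) ^ 2) * ((v ^ m2) ^ 2 * (v ^ (-n2 - 1)) ^ 2)) := by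
        ring
    _ = _ := by rw [e1, e2]

lemma ae_ne1 : ∀ᵐ p : ℂ × ℂ, p.1 ≠ 0 := by
  have h1 : ∀ᵐ z : ℂ, z ≠ 0 := by
    simp [ae_iff]
  have h2 := (Measure.quasiMeasurePreserving_fst (μ := (volume : Measure ℂ))
    (ν := (volume : Measure ℂ))).ae h1
  exact h2

lemma ae_ne2 : ∀ᵐ p : ℂ × ℂ, p.2 ≠ 0 := by
  have h1 : ∀ᵐ z : ℂ, z ≠ 0 := by
    simp [ae_iff]
  have h2 := (Measure.quasiMeasurePreserving_snd (μ := (volume : Measure ℂ))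
    (ν := (volume : Measure ℂ))).ae h1
  exact h2

/-- finiteness of an integral from a bound by `|α|^(2e-2) |β|^(2e'-2)`, `e, e' > 0` -/
lemma fin_int {A : Set (ℂ × ℂ)} (hA : MeasurableSet A) {R : ℝ}
    (hAR : ∀ p ∈ A, ‖p.1‖ < R ∧ ‖p.2‖ < R) {G : ℂ × ℂ → ℝ} {C e e' : ℝ} (he : 0 < e) (he' : 0 < e')
    (hC : 0 ≤ C)
    (hG : ∀ p ∈ A, p.1 ≠ 0 → p.2 ≠ 0 → G p ≤ C * (‖p.1‖ ^ (2 * e - 2) * ‖p.2‖ ^ (2 * e' - 2))) :
    ∫⁻ p in A, ENNReal.ofReal (G p) ≠ ∞ := by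
  have h1 : ∫⁻ p in A, ENNReal.ofReal (G p) ≤
      ∫⁻ p in A, ENNReal.ofReal C * ENNReal.ofReal (‖p.1‖ ^ (2 * e - 2) * ‖p.2‖ ^ (2 * e' - 2)) := by
    refine lintegral_mono_ae ?_
    filter_upwards [ae_restrict_mem hA, ae_restrict_of_ae ae_ne1, ae_restrict_of_ae ae_ne2]
      with p h1 h2 h3
    rw [← ENNReal.ofReal_mul hC]
    exact ENNReal.ofReal_le_ofReal (hG p h1 h2 h3)
  refine ne_top_of_le_ne_top ?_ h1
  rw [lintegral_const_mul' _ _ ENNReal.ofReal_ne_top]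
  refine ENNReal.mul_ne_top ENNReal.ofReal_ne_top ?_
  refine ne_top_of_le_ne_top (Ord_757.int2 he he' R R).ne ?_
  refine lintegral_mono_set fun p hp => ?_
  exact ⟨by simpa using (hAR p hp).1, by simpa using (hAR p hp).2⟩

end Crest.Agent.R257.CDataA_250
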