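import Crest.Agent.R257.Sh9_297

/-!
# Row 257, leaf D-SH (helper297), part 10: generic simplicity of the zeros (Sard)
-/

set_option autoImplicit false
set_option linter.unusedSectionVars false

open MeasureTheory Set Metric Topology Filter
open scoped ENNReal

namespace Crest.Agent.R257.Sh_297

noncomputable section

section Sard

variable {Y : Type*} [NormedAddCommGroup Y] [NormedSpace ℂ Y] [FiniteDimensional ℂ Y]
  [MeasurableSpace Y] [BorelSpace Y] [SecondCountableTopology Y]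

/-- a real linear map which is not surjective has determinant `0` -/
lemma det_eq_zero_of_not_surj {E : Type*} [NormedAddCommGroup E] [NormedSpace ℝ E]
    [FiniteDimensional ℝ E] (A : E →L[ℝ] E) (h : ¬ Function.Surjective A) : A.det = 0 := by
  by_contra hd
  have h1 : IsUnit (LinearMap.det (A : E →ₗ[ℝ] E)) := isUnit_iff_ne_zero.2 hd
  rw [← LinearMap.isUnit_iff_isUnit_det, Module.End.isUnit_iff] at h1
  exact h h1.2

theorem sard_local (μ : Measure Y) [μ.IsAddHaarMeasure] {V : Set (Y × ℂ)} (hV : IsOpen V)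
    {f : Y × ℂ → ℂ} (hf : AnalyticOnNhd ℂ f V) {p : Y × ℂ} (hp : p ∈ V)
    (hpd : fderiv ℂ f p ≠ 0) (hpv : vd f p = 0) :
    ∃ U ∈ 𝓝 p, μ (Prod.fst '' {q | q ∈ U ∧ q ∈ V ∧ f q = 0 ∧ vd f q = 0 ∧ fderiv ℂ f q ≠ 0}) = 0 := by
  have : CompleteSpace Y := FiniteDimensional.complete ℂ Y
  have : FiniteDimensional ℝ Y := FiniteDimensional.complexToReal Y
  have hsplit : ∀ q : Y × ℂ, ∀ a : Y, ∀ b : ℂ,
      fderiv ℂ f q (a, b) = fderiv ℂ f q (a, 0) + b * fderiv ℂ f q (0, 1) := by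
    intro q a b
    rw [← smul_eq_mul, ← map_smul, ← map_add]; simp
  have hpv' : fderiv ℂ f p (0, 1) = 0 := by rw [← vd_eq (hf p hp).differentiableAt]; exact hpv
  set ℓ : Y →L[ℂ] ℂ := (fderiv ℂ f p).comp (ContinuousLinearMap.inl ℂ Y ℂ) with hℓ
  have hℓ0 : ∃ v₀, ℓ v₀ ≠ 0 := by
    by_contra hcon
    push Not at hcon
    refine hpd (ContinuousLinearMap.ext fun w => ?_)
    obtain ⟨a, b⟩ := w
    rw [hsplit, hpv', mul_zero, add_zero]
    exact hcon a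
  obtain ⟨v₀, hv₀⟩ := hℓ0
  set v : Y := (ℓ v₀)⁻¹ • v₀ with hv
  have hℓv : ℓ v = 1 := by rw [hv, map_smul, smul_eq_mul, inv_mul_cancel₀ hv₀]
  set pr : Y →L[ℂ] Y := ContinuousLinearMap.id ℂ Y - ℓ.smulRight v with hpr
  have hpra : ∀ a, pr a = a - ℓ a • v := fun a => rfl
  have hℓpr : ∀ a, ℓ (pr a) = 0 := by
    intro a; rw [hpra, map_sub, map_smul, hℓv, smul_eq_mul, mul_one, sub_self]
  have hprv : pr v = 0 := by rw [hpra, hℓv, one_smul, sub_self]
  have hprpr : ∀ a, pr (pr a) = pr a := by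
    intro a; rw [hpra (pr a), hℓpr, zero_smul, sub_zero]
  -- the chart
  set Φ : Y × ℂ → Y × ℂ := fun q => (pr q.1 + f q • v, q.2) with hΦ
  set A : Y × ℂ → (Y × ℂ →L[ℂ] Y × ℂ) := fun q =>
    (pr.comp (ContinuousLinearMap.fst ℂ Y ℂ) + (fderiv ℂ f q).smulRight v).prod
      (ContinuousLinearMap.snd ℂ Y ℂ) with hA
  have hAapp : ∀ q w, A q w = (pr w.1 + fderiv ℂ f q w • v, w.2) := fun q w => rfl
  have hstrict : ∀ q ∈ V, HasStrictFDerivAt Φ (A q) q := by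
    intro q hq
    have h1 : HasStrictFDerivAt (fun q : Y × ℂ => pr q.1) (pr.comp (ContinuousLinearMap.fst ℂ Y ℂ)) q :=
      (pr.comp (ContinuousLinearMap.fst ℂ Y ℂ)).hasStrictFDerivAt
    have h2 : HasStrictFDerivAt (fun q : Y × ℂ => f q • v) ((fderiv ℂ f q).smulRight v) q :=
      (hf q hq).hasStrictFDerivAt.smul_const v
    exact (h1.add h2).prodMk hasStrictFDerivAt_snd
  have hAp : A p = ((ContinuousLinearEquiv.refl ℂ (Y × ℂ) : (Y × ℂ) ≃L[ℂ] (Y × ℂ)) :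
      Y × ℂ →L[ℂ] Y × ℂ) := by
    refine ContinuousLinearMap.ext fun w => ?_
    obtain ⟨a, b⟩ := w
    have h1 : fderiv ℂ f p (a, b) = ℓ a := by rw [hsplit, hpv', mul_zero, add_zero]; rfl
    rw [hAapp, h1]
    simp only
    rw [hpra, sub_add_cancel]
    rfl
  have hsp := hstrict p hp
  rw [hAp] at hsp
  set e := hsp.toOpenPartialHomeomorph Φ with he
  have hecoe : (e : Y × ℂ → Y × ℂ) = Φ := hsp.toOpenPartialHomeomorph_coe
  have hes : p ∈ e.source := hsp.mem_toOpenPartialHomeomorph_source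
  -- invertibility near `p`
  have hAc : ContinuousAt A p := by
    rw [continuousAt_clm_apply]
    intro w
    have h1 : ContinuousAt (fun q => fderiv ℂ f q w) p :=
      ((ContinuousLinearMap.apply ℂ ℂ w).continuous.continuousAt).comp (hf.fderiv p hp).continuousAt
    exact (continuousAt_const.add (h1.smul continuousAt_const)).prodMk continuousAt_const
  have hinv : ∀ᶠ q in 𝓝 p, ∃ B : (Y × ℂ) ≃L[ℂ] (Y × ℂ), (B : Y × ℂ →L[ℂ] Y × ℂ) = A q := by
    have h1 := ContinuousLinearEquiv.nhds (ContinuousLinearEquiv.refl ℂ (Y × ℂ))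
    rw [← hAp] at h1
    exact hAc.eventually h1
  set ι : Y → Y × ℂ := fun x => (pr x, ℓ x) with hι
  have hιd : ∀ x, HasFDerivAt ι (pr.prod ℓ) x := fun x => (pr.prod ℓ).hasFDerivAt
  set τ : Y → Y := fun x => (e.symm (ι x)).1 with hτ
  set N : Set (Y × ℂ) := {q | q ∈ V ∧ f q = 0 ∧ vd f q = 0 ∧ fderiv ℂ f q ≠ 0 ∧
    ∃ B : (Y × ℂ) ≃L[ℂ] (Y × ℂ), (B : Y × ℂ →L[ℂ] Y × ℂ) = A q} with hN
  set S : Set Y := {x | ι x ∈ e.target ∧ e.symm (ι x) ∈ N} with hS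
  have hcov : Prod.fst '' {q | q ∈ (e.source ∩ {q | ∃ B : (Y × ℂ) ≃L[ℂ] (Y × ℂ),
      (B : Y × ℂ →L[ℂ] Y × ℂ) = A q}) ∧ q ∈ V ∧ f q = 0 ∧ vd f q = 0 ∧ fderiv ℂ f q ≠ 0} ⊆
      τ '' S := by
    rintro _ ⟨q, ⟨⟨hq1, hq2⟩, hq3, hq4, hq5, hq6⟩, rfl⟩
    have h1 : ι (pr q.1 + q.2 • v) = e q := by
      rw [hecoe, hΦ, hι]
      simp only [map_add, map_smul, hprpr, hprv, smul_zero, add_zero, hℓpr, hℓv, smul_eq_mul,
        mul_one, zero_add, hq4, zero_smul]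
    have h2 : e.symm (ι (pr q.1 + q.2 • v)) = q := by rw [h1]; exact e.left_inv hq1
    refine ⟨pr q.1 + q.2 • v, ⟨?_, ?_⟩, ?_⟩
    · rw [h1]; exact e.map_source hq1
    · rw [h2]; exact ⟨hq3, hq4, hq5, hq6, hq2⟩
    · rw [hτ]; simp only; rw [h2]
  refine ⟨e.source ∩ {q | ∃ B : (Y × ℂ) ≃L[ℂ] (Y × ℂ), (B : Y × ℂ →L[ℂ] Y × ℂ) = A q},
    inter_mem (e.open_source.mem_nhds hes) hinv, measure_mono_null hcov ?_⟩
  -- Sard
  have hder : ∀ x ∈ S, ∃ T : Y →L[ℝ] Y, HasFDerivWithinAt τ T S x ∧ T.det = 0 := by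
    rintro x ⟨hx1, hx2, hx3, hx4, hx5, B, hB⟩
    set q := e.symm (ι x) with hq
    have h1 : HasFDerivAt e (B : Y × ℂ →L[ℂ] Y × ℂ) (e.symm (ι x)) := by
      rw [hB, hecoe]; exact (hstrict q hx2).hasFDerivAt
    have h2 : HasFDerivAt e.symm (B.symm : Y × ℂ →L[ℂ] Y × ℂ) (ι x) := e.hasFDerivAt_symm hx1 h1
    have h3 : HasFDerivAt (fun x => e.symm (ι x)) ((B.symm : Y × ℂ →L[ℂ] Y × ℂ).comp (pr.prod ℓ)) x :=
      h2.comp x (hιd x)
    have h4 : HasFDerivAt τ ((ContinuousLinearMap.fst ℂ Y ℂ).comp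
        ((B.symm : Y × ℂ →L[ℂ] Y × ℂ).comp (pr.prod ℓ))) x :=
      (ContinuousLinearMap.fst ℂ Y ℂ).hasFDerivAt.comp x h3
    refine ⟨_, (h4.restrictScalars ℝ).hasFDerivWithinAt, det_eq_zero_of_not_surj _ ?_⟩
    intro hsurj
    refine hx5 (ContinuousLinearMap.ext fun w => ?_)
    obtain ⟨a, b⟩ := w
    have hv1 : fderiv ℂ f q (0, 1) = 0 := by
      rw [← vd_eq (hf q hx2).differentiableAt]; exact hx4
    rw [hsplit, hv1, mul_zero, add_zero]
    obtain ⟨u, hu⟩ := hsurj a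
    set z := B.symm (pr u, ℓ u) with hz
    have hz1 : z.1 = a := hu
    have hBz : A q z = (pr u, ℓ u) := by
      rw [← hB]
      exact B.apply_symm_apply _
    rw [hAapp, Prod.mk.injEq] at hBz
    have h5 := congrArg ℓ hBz.1
    rw [map_add, hℓpr, hℓpr, map_smul, hℓv, smul_eq_mul, mul_one, zero_add] at h5
    have h6 : fderiv ℂ f q z = fderiv ℂ f q (z.1, 0) + z.2 * fderiv ℂ f q (0, 1) := hsplit q z.1 z.2
    rw [h5, hv1, mul_zero, add_zero, hz1] at h6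
    exact h6.symm
  choose! T hT1 hT2 using hder
  exact addHaar_image_eq_zero_of_det_fderivWithin_eq_zero μ hT1 hT2

/-- Sard: over almost every `y` all zeros of `f (y, ·)` are simple -/
theorem ae_simple [Nontrivial Y] (μ : Measure Y) [μ.IsAddHaarMeasure] {V : Set (Y × ℂ)}
    (hV : IsOpen V) {f : Y × ℂ → ℂ} (hf : AnalyticOnNhd ℂ f V)
    (hiso : ∀ p ∈ V, p ≠ 0 → f p = 0 → fderiv ℂ f p ≠ 0) :
    ∀ᵐ y ∂μ, ∀ z, (y, z) ∈ V → f (y, z) = 0 → vd f (y, z) ≠ 0 := by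
  have : FiniteDimensional ℝ Y := FiniteDimensional.complexToReal Y
  set N : Set (Y × ℂ) := {q | q ∈ V ∧ f q = 0 ∧ vd f q = 0 ∧ fderiv ℂ f q ≠ 0} with hN
  have hnull : μ (Prod.fst '' N) = 0 := by
    have hL : IsLindelof N := HereditarilyLindelofSpace.isLindelof N
    have h1 := hL.induction_on (p := fun S => μ (Prod.fst '' (S ∩ N)) = 0) ?_ ?_ ?_
    · rwa [inter_self] at h1
    · intro s t hst ht
      exact measure_mono_null (image_mono (inter_subset_inter_left _ hst)) ht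
    · intro S hSc hS
      rw [sUnion_eq_biUnion, iUnion₂_inter, image_iUnion₂]
      exact (measure_biUnion_null_iff hSc).2 fun s hs => hS s hs
    · rintro p ⟨hp1, hp2, hp3, hp4⟩
      obtain ⟨U, hU, h2⟩ := sard_local μ hV hf hp1 hp4 hp3
      refine ⟨U, mem_nhdsWithin_of_mem_nhds hU, measure_mono_null (image_mono ?_) h2⟩
      rintro q ⟨hq1, hq2, hq3, hq4, hq5⟩
      exact ⟨hq1, hq2, hq3, hq4, hq5⟩
  have h0 : μ {(0 : Y)} = 0 := by
    have : Nontrivial Y := inferInstance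
    exact measure_singleton _
  rw [ae_iff]
  refine measure_mono_null ?_ (measure_union_null hnull h0)
  intro y hy
  rw [mem_ofPred_eq] at hy
  push Not at hy
  obtain ⟨z, hz1, hz2, hz3⟩ := hy
  by_cases hy0 : y = 0
  · right; exact hy0
  · left
    refine ⟨(y, z), ⟨hz1, hz2, hz3, hiso _ hz1 ?_ hz2⟩, rfl⟩
    intro h
    exact hy0 (congrArg Prod.fst h)

end Sard

end

end Crest.Agent.R257.Sh_297
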