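import Crest.Agent.R257.Sh8_297
import Crest.Agent.R275.Loc2C_879

/-!
# Row 257, leaf D-SH (helper297), part 9: existence of Weierstrass boxes
-/

set_option autoImplicit false
set_option linter.unusedSectionVars false

open MeasureTheory Set Metric Topology Filter Polynomial
open scoped ENNReal Real

namespace Crest.Agent.R257.Sh_297

noncomputable section

open Crest.Agent.R275.Loc2879

universe u

section WP

variable {Y : Type u} [NormedAddCommGroup Y] [NormedSpace ℂ Y] [FiniteDimensional ℂ Y]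

lemma gm_sum {E : Type*} [NormedAddCommGroup E] [NormedSpace ℂ E] {p : E} {ι : Type*} (s : Finset ι)
    (f : ι → E → ℂ) (hf : ∀ i, AnalyticAt ℂ (f i) p) :
    ∑ i ∈ s, gm (f i) (hf i) = gm (fun x => ∑ i ∈ s, f i x)
      (Finset.analyticAt_fun_sum _ fun i _ => hf i) := by
  classical
  induction s using Finset.induction_on with
  | empty =>
    rw [Finset.sum_empty]
    rw [gm_zero, gm_eq_gm]
    exact Eventually.of_forall fun x => by simp
  | insert a s ha ih =>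
    rw [Finset.sum_insert ha, ih, gm_add, gm_eq_gm]
    exact Eventually.of_forall fun x => by simp [Finset.sum_insert ha]

/-- Weierstrass preparation for functions -/
theorem exists_wpoly {F : Y × ℂ → ℂ} {y₀ : Y} (hF : AnalyticAt ℂ F (y₀, 0)) {d : ℕ}
    (hord : analyticOrderAt (fun z => F (y₀, z)) 0 = d) :
    ∃ (w : ℕ → Y → ℂ) (v : Y × ℂ → ℂ), (∀ j, AnalyticAt ℂ (w j) y₀) ∧ (∀ y, w d y = 1) ∧
      (∀ j < d, w j y₀ = 0) ∧ (∀ j, d < j → w j = 0) ∧ AnalyticAt ℂ v (y₀, 0) ∧ v (y₀, 0) ≠ 0 ∧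
      ∀ᶠ p in 𝓝 ((y₀, (0 : ℂ)) : Y × ℂ), F p = v p * Wf w d p.1 p.2 := by
  obtain ⟨P, v, hm, hn, hfu, h0⟩ := wprep (reg_iff_order (hF := hF) |>.2 hord)
  obtain ⟨V, hV, hVe⟩ := exists_gm (v : OO ((y₀, (0 : ℂ)) : Y × ℂ))
  choose w' hw' hw'e using fun j => exists_gm (P.coeff j)
  set w : ℕ → Y → ℂ := fun j => if j < d then w' j else if j = d then 1 else 0 with hw
  have hwa : ∀ j, AnalyticAt ℂ (w j) y₀ := by
    intro j
    simp only [hw]
    split_ifs with h1 h2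
    · exact hw' j
    · exact analyticAt_const
    · exact analyticAt_const
  have hwe : ∀ j ∈ Finset.range (d + 1), gm (w j) (hwa j) = P.coeff j := by
    intro j hj
    rw [Finset.mem_range] at hj
    rcases lt_or_eq_of_le (Nat.lt_succ_iff.1 hj) with h | h
    · rw [← hw'e j, gm_eq_gm]
      refine Eventually.of_forall fun y => ?_
      simp only [hw, if_pos h]
    · have h1 : P.coeff j = 1 := by rw [h, ← hn]; exact hm
      rw [h1, gm_one, gm_eq_gm]
      refine Eventually.of_forall fun y => ?_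
      simp only [hw, h, lt_irrefl, if_false, if_true]
  refine ⟨w, V, hwa, ?_, ?_, ?_, hV, ?_, ?_⟩
  · intro y
    simp only [hw, lt_irrefl, if_false, if_true]
    rfl
  · intro j hj
    have h1 := h0 j hj
    rw [← hw'e j, evp_gm] at h1
    simp only [hw, if_pos hj]
    exact h1
  · intro j hj
    simp only [hw]
    rw [if_neg (by omega), if_neg (by omega)]
  · rw [← isUnit_gm (hf := hV), hVe]
    exact v.isUnit
  · have hfst : ∀ j, AnalyticAt ℂ (fun p : Y × ℂ => w j p.1) (y₀, 0) := fun j =>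
      AnalyticAt.comp (g := w j) (f := Prod.fst) (hwa j) analyticAt_fst
    have hterm : ∀ j, AnalyticAt ℂ (fun p : Y × ℂ => w j p.1 * p.2 ^ j) (y₀, 0) := fun j =>
      (hfst j).mul (analyticAt_snd.pow j)
    have hWa : AnalyticAt ℂ (fun p : Y × ℂ => Wf w d p.1 p.2) (y₀, 0) := by
      exact Finset.analyticAt_fun_sum (f := fun j (p : Y × ℂ) => w j p.1 * p.2 ^ j)
        (Finset.range (d + 1)) fun j _ => hterm j
    have hev : ev y₀ P = gm (p := ((y₀, (0 : ℂ)) : Y × ℂ)) (fun p : Y × ℂ => Wf w d p.1 p.2) hWa := by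
      conv_lhs => rw [P.as_sum_range_C_mul_X_pow, hn]
      rw [map_sum]
      have h1 : ∀ j ∈ Finset.range (d + 1), ev y₀ (C (P.coeff j) * X ^ j) =
          gm (fun p : Y × ℂ => w j p.1 * p.2 ^ j) (hterm j) := by
        intro j hj
        rw [map_mul, map_pow, ev_C, ev_X, ← hwe j hj, iot, pull_gm, Wv, gm_pow, gm_mul, gm_eq_gm]
        exact Eventually.of_forall fun p => by simp
      rw [Finset.sum_congr rfl h1, gm_sum, gm_eq_gm]
      exact Eventually.of_forall fun p => rfl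
    rw [hev, ← hVe, gm_mul, gm_eq_gm] at hfu
    exact hfu

lemma hasDerivAt_Wf (w : ℕ → Y → ℂ) (d : ℕ) (y : Y) (z : ℂ) :
    HasDerivAt (fun z => Wf w d y z) ((Wp w d y).derivative.eval z) z := by
  have h1 := (Wp w d y).hasDerivAt z
  refine h1.congr_of_eventuallyEq (Eventually.of_forall fun z => ?_)
  exact (eval_Wp w d y z).symm

/-- the discriminant -/
def Dsc (w : ℕ → Y → ℂ) (d : ℕ) (y : Y) : ℂ :=
  resultant (Wp w d y) (Wp w d y).derivative d d

lemma Dsc_analytic {w : ℕ → Y → ℂ} {d : ℕ} {y : Y} (hw : ∀ j, AnalyticAt ℂ (w j) y) :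
    AnalyticAt ℂ (Dsc w d) y := by
  have hc : ∀ k, AnalyticAt ℂ (fun y => (Wp w d y).coeff k) y := by
    intro k
    simp_rw [coeff_Wp]
    split_ifs
    · exact hw k
    · exact analyticAt_const
  have hc' : ∀ k, AnalyticAt ℂ (fun y => (Wp w d y).derivative.coeff k) y := by
    intro k
    simp_rw [coeff_derivative]
    exact (hc _).mul analyticAt_const
  have hent : ∀ i j, AnalyticAt ℂ (fun y =>
      sylvester (Wp w d y) (Wp w d y).derivative d d i j) y := by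
    intro i j
    refine Fin.addCases (fun j₁ => ?_) (fun j₁ => ?_) j
    · simp only [sylvester, Matrix.of_apply, Fin.addCases_left]
      split_ifs
      · exact hc' _
      · exact analyticAt_const
    · simp only [sylvester, Matrix.of_apply, Fin.addCases_right]
      split_ifs
      · exact hc _
      · exact analyticAt_const
  unfold Dsc resultant
  simp_rw [Matrix.det_apply']
  refine Finset.analyticAt_fun_sum _ fun σ _ => ?_
  refine analyticAt_const.fun_mul ?_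
  exact Finset.analyticAt_fun_prod _ fun i _ => hent _ _

lemma Dsc_ne_zero_iff {w : ℕ → Y → ℂ} {d : ℕ} {y : Y} (hw : w d y = 1) :
    Dsc w d y ≠ 0 ↔ ∀ z, Wf w d y z = 0 → (Wp w d y).derivative.eval z ≠ 0 := by
  have hm : (Wp w d y).Monic := by
    refine monic_of_natDegree_le_of_coeff_eq_one d (degree_Wp_le w d y) ?_
    rw [coeff_Wp, if_pos (Nat.lt_succ_self d), hw]
  have hn : (Wp w d y).natDegree = d := by
    refine le_antisymm (degree_Wp_le w d y) (le_natDegree_of_ne_zero ?_)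
    rw [coeff_Wp, if_pos (Nat.lt_succ_self d), hw]
    exact one_ne_zero
  have h1 := resultant_eq_prod_eval (Wp w d y) (Wp w d y).derivative d
    ((natDegree_derivative_le _).trans (by omega)) (IsAlgClosed.splits _)
  rw [hn, hm.leadingCoeff, one_pow, one_mul] at h1
  unfold Dsc
  rw [h1, ne_eq, Multiset.prod_eq_zero_iff, Multiset.mem_map]
  constructor
  · intro h z hz hz'
    refine h ⟨z, ?_, hz'⟩
    rw [Polynomial.mem_roots hm.ne_zero, IsRoot, eval_Wp]
    exact hz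
  · rintro h ⟨z, hz, hz'⟩
    rw [Polynomial.mem_roots hm.ne_zero, IsRoot, eval_Wp] at hz
    exact h z hz hz'

lemma nodup_of_Dsc {w : ℕ → Y → ℂ} {d : ℕ} {y : Y} (hw : w d y = 1) (h : Dsc w d y ≠ 0) :
    (Wp w d y).roots.Nodup := by
  have hm : (Wp w d y).Monic := by
    refine monic_of_natDegree_le_of_coeff_eq_one d (degree_Wp_le w d y) ?_
    rw [coeff_Wp, if_pos (Nat.lt_succ_self d), hw]
  rw [Dsc_ne_zero_iff hw] at h
  rw [Multiset.nodup_iff_count_le_one]
  intro z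
  rw [count_roots]
  by_contra hc
  rw [not_le, one_lt_rootMultiplicity_iff_isRoot hm.ne_zero] at hc
  exact h z (by rw [← eval_Wp]; exact hc.1) hc.2

lemma root_bound {w : ℕ → Y → ℂ} {d : ℕ} {y : Y} (hw1 : w d y = 1) {ρ : ℝ} (hρ : 0 < ρ)
    (hb : ∀ j < d, ‖w j y‖ < ρ ^ (d - j) / (d + 1)) {z : ℂ} (hz : Wf w d y z = 0) : ‖z‖ < ρ := by
  by_contra hcon
  push Not at hcon
  have hz0 : 0 < ‖z‖ := hρ.trans_le hcon
  have h1 : z ^ d = - ∑ j ∈ Finset.range d, w j y * z ^ j := by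
    unfold Wf at hz
    rw [Finset.sum_range_succ, hw1, one_mul] at hz
    linear_combination hz
  have h2 : ‖z‖ ^ d ≤ d * (‖z‖ ^ d / (d + 1)) := by
    calc ‖z‖ ^ d = ‖∑ j ∈ Finset.range d, w j y * z ^ j‖ := by rw [← norm_pow, h1, norm_neg]
      _ ≤ ∑ j ∈ Finset.range d, ‖w j y * z ^ j‖ := norm_sum_le _ _
      _ ≤ ∑ j ∈ Finset.range d, ‖z‖ ^ d / (d + 1) := by
        refine Finset.sum_le_sum fun j hj => ?_
        rw [Finset.mem_range] at hj
        rw [norm_mul, norm_pow]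
        calc ‖w j y‖ * ‖z‖ ^ j ≤ (ρ ^ (d - j) / (d + 1)) * ‖z‖ ^ j := by
              gcongr
              exact (hb j hj).le
          _ ≤ (‖z‖ ^ (d - j) / (d + 1)) * ‖z‖ ^ j := by gcongr
          _ = ‖z‖ ^ d / (d + 1) := by
              rw [div_mul_eq_mul_div, ← pow_add, Nat.sub_add_cancel hj.le]
      _ = _ := by rw [Finset.sum_const, Finset.card_range, nsmul_eq_mul]
  have h3 : 0 < ‖z‖ ^ d := by positivity
  have h4 : d * (‖z‖ ^ d / (d + 1)) < ‖z‖ ^ d := by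
    rw [← mul_div_assoc, div_lt_iff₀ (by positivity)]
    nlinarith
  linarith

/-- existence of Weierstrass boxes -/
theorem exists_wbox {F : Y × ℂ → ℂ} {Ω : Set (Y × ℂ)} (hΩ : IsOpen Ω)
    (h0 : ((0 : Y), (0 : ℂ)) ∈ Ω) (hF : AnalyticOnNhd ℂ F Ω) {d : ℕ}
    (hord : analyticOrderAt (fun z => F (0, z)) 0 = d) {δ' : ℝ} (hδ' : 0 < δ')
    (hs : ∃ᶠ y in 𝓝 (0 : Y), ∀ z ∈ ball (0 : ℂ) δ', F (y, z) = 0 → vd F (y, z) ≠ 0) :
    ∃ ρ > 0, ρ ≤ δ' ∧ ∃ (w : ℕ → Y → ℂ) (D : Y → ℂ), ∃ δ₀ > 0, ∀ δ > 0, δ ≤ δ₀ →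
      WBox F Ω (ball 0 δ) ρ w d D := by
  obtain ⟨w, v, hwa, hw1, hw0, hwz, hv, hv0, hFe⟩ := exists_wpoly (hF _ h0) hord
  have hev : ∀ᶠ p in 𝓝 (((0 : Y), (0 : ℂ)) : Y × ℂ), p ∈ Ω ∧ AnalyticAt ℂ v p ∧ v p ≠ 0 ∧
      F p = v p * Wf w d p.1 p.2 := by
    filter_upwards [hΩ.mem_nhds h0, hv.eventually_analyticAt, hv.continuousAt.eventually_ne hv0,
      hFe] with p h1 h2 h3 h4 using ⟨h1, h2, h3, h4⟩
  obtain ⟨ε, hε, hεb⟩ := Metric.eventually_nhds_iff_ball.1 hev
  set ρ : ℝ := min (ε / 2) δ' with hρdef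
  have hρ : 0 < ρ := lt_min (by positivity) hδ'
  have hρε : ρ < ε := (min_le_left _ _).trans_lt (by linarith)
  have hw2 : ∀ᶠ y in 𝓝 (0 : Y), ∀ j ∈ Finset.range d, ‖w j y‖ < ρ ^ (d - j) / (d + 1) := by
    refine (Finset.eventually_all _).2 fun j hj => ?_
    rw [Finset.mem_range] at hj
    refine (hwa j).continuousAt.norm.tendsto.eventually (gt_mem_nhds ?_)
    rw [hw0 j hj, norm_zero]
    positivity
  have hw3 : ∀ᶠ y in 𝓝 (0 : Y), ∀ j ∈ Finset.range (d + 1), AnalyticAt ℂ (w j) y :=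
    (Finset.eventually_all _).2 fun j _ => (hwa j).eventually_analyticAt
  obtain ⟨δ₁, hδ₁, hδ₁b⟩ := Metric.eventually_nhds_iff_ball.1 (hw2.and hw3)
  have han : ∀ y ∈ ball (0 : Y) δ₁, ∀ j, AnalyticAt ℂ (w j) y := by
    intro y hy j
    rcases lt_or_ge d j with h | h
    · rw [hwz j h]; exact analyticAt_const
    · exact (hδ₁b y hy).2 j (Finset.mem_range.2 (by omega))
  refine ⟨ρ, hρ, min_le_right _ _, w, Dsc w d, min δ₁ (ε / 2), lt_min hδ₁ (by positivity),
    fun δ hδ hδle => ?_⟩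
  have hδ1 : ∀ y ∈ ball (0 : Y) δ, y ∈ ball (0 : Y) δ₁ := fun y hy =>
    ball_subset_ball (hδle.trans (min_le_left _ _)) hy
  have hmem : ∀ y ∈ ball (0 : Y) δ, ∀ z ∈ closedBall (0 : ℂ) ρ,
      (y, z) ∈ ball (((0 : Y), (0 : ℂ)) : Y × ℂ) ε := by
    intro y hy z hz
    rw [mem_ball, Prod.dist_eq, max_lt_iff]
    have h1 : dist y 0 < δ := hy
    have h2 : dist z 0 ≤ ρ := hz
    have h3 : δ ≤ ε / 2 := hδle.trans (min_le_right _ _)
    constructor
    · simpa using h1.trans_le (by linarith)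
    · simpa using h2.trans_lt hρε
  have hroots : ∀ y ∈ ball (0 : Y) δ, ∀ z, Wf w d y z = 0 → z ∈ ball (0 : ℂ) ρ := by
    intro y hy z hz
    rw [mem_ball, dist_zero_right]
    exact root_bound (hw1 y) hρ (fun j hj => (hδ₁b y (hδ1 y hy)).1 j (Finset.mem_range.2 hj)) hz
  have hzer : ∀ y ∈ ball (0 : Y) δ, ∀ z ∈ closedBall (0 : ℂ) ρ,
      (F (y, z) = 0 ↔ Wf w d y z = 0) := by
    intro y hy z hz
    obtain ⟨-, -, h3, h4⟩ := hεb _ (hmem y hy z hz)
    rw [h4, mul_eq_zero, or_iff_right h3]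
  have hsim : ∀ y ∈ ball (0 : Y) δ, ∀ z ∈ ball (0 : ℂ) ρ, Wf w d y z = 0 →
      (vd F (y, z) ≠ 0 ↔ (Wp w d y).derivative.eval z ≠ 0) := by
    intro y hy z hz hW
    have hm := hmem y hy z (ball_subset_closedBall hz)
    obtain ⟨-, h2, h3, -⟩ := hεb _ hm
    have h5 : HasDerivAt (fun z => v (y, z)) (deriv (fun z => v (y, z)) z) z := by
      have h6 : DifferentiableAt ℂ (fun z : ℂ => ((y, z) : Y × ℂ)) z :=
        (differentiableAt_const y).prodMk differentiableAt_id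
      exact (h2.differentiableAt.comp z h6).hasDerivAt
    have h7 := h5.mul (hasDerivAt_Wf w d y z)
    rw [hW, mul_zero, zero_add] at h7
    have h8 : (fun z => F (y, z)) =ᶠ[𝓝 z] fun z => v (y, z) * Wf w d y z := by
      have h9 : ∀ᶠ z' in 𝓝 z, (y, z') ∈ ball (((0 : Y), (0 : ℂ)) : Y × ℂ) ε :=
        (isOpen_ball.preimage (by fun_prop : Continuous fun z' : ℂ => ((y, z') : Y × ℂ))).mem_nhds hm
      filter_upwards [h9] with z' hz'
      exact (hεb _ hz').2.2.2
    have h10 : vd F (y, z) = v (y, z) * (Wp w d y).derivative.eval z :=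
      (h7.congr_of_eventuallyEq h8).deriv
    rw [h10, mul_ne_zero_iff, and_iff_right h3]
  refine ⟨hΩ, isOpen_ball, (convex_ball (0 : Y) δ).isPreconnected, hρ, ?_, hF, ?_, fun y _ => hw1 y,
    hzer, hroots, hsim, ?_, ?_, ?_⟩
  · rintro ⟨y, z⟩ ⟨hy, hz⟩
    exact (hεb _ (hmem y hy z hz)).1
  · exact fun j y hy => han y (hδ1 y hy) j
  · exact fun y hy => Dsc_analytic (han y (hδ1 y hy))
  · obtain ⟨y, hy, hyδ⟩ := (hs.and_eventually (ball_mem_nhds (0 : Y) hδ)).exists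
    refine ⟨y, hyδ, (Dsc_ne_zero_iff (hw1 y)).2 fun z hz => ?_⟩
    have h1 := hroots y hyδ z hz
    rw [← hsim y hyδ z h1 hz]
    exact hy z (ball_subset_ball (min_le_right _ _) h1)
      ((hzer y hyδ z (ball_subset_closedBall h1)).2 hz)
  · exact fun y _ hy => nodup_of_Dsc (hw1 y) hy

end WP

end

end Crest.Agent.R257.Sh_297
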