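import Mathlib
import Crest.Agent.R257.AJ4_387
import Crest.Agent.R257.Sh9_297

/-!
Row 257 (S0395), part C, T-frame, file 1: square-free parts and **Puiseux** (helper387).
-/

set_option autoImplicit false
set_option linter.unusedSectionVars false

open Polynomial Set Filter Topology Metric

noncomputable section

namespace Crest.Agent.R257.T387

/-- square-free part of a monic polynomial over an integrally closed domain of characteristic zero -/
theorem exists_sqfree {R : Type*} [CommRing R] [IsDomain R] [IsIntegrallyClosed R] [CharZero R]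
    (Q : R[X]) (hQ : Q.Monic) : ∃ q : R[X], q.Monic ∧ q ∣ Q ∧ (∃ k : ℕ, Q ∣ q ^ k) ∧
      ∃ a b : R[X], ∃ c : R, c ≠ 0 ∧ a * q + b * derivative q = C c := by
  classical
  let K := FractionRing R
  have hex : ∃ n : ℕ, ∃ q : R[X], q.Monic ∧ q ∣ Q ∧ (∃ k : ℕ, Q ∣ q ^ k) ∧ q.natDegree = n :=
    ⟨Q.natDegree, Q, hQ, dvd_rfl, ⟨1, by simp⟩, rfl⟩
  obtain ⟨q, hq, hqQ, ⟨k, hk⟩, hn⟩ := Nat.find_spec hex
  have hmin := fun m (hm : m < Nat.find hex) => Nat.find_min hex hm
  refine ⟨q, hq, hqQ, ⟨k, hk⟩, ?_⟩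
  have hinj : Function.Injective (algebraMap R K) := IsFractionRing.injective R K
  have : CharZero K := charZero_of_injective_algebraMap hinj
  have hqK : (q.map (algebraMap R K)).Monic := hq.map _
  have hsq : Squarefree (q.map (algebraMap R K)) := by
    intro x hx
    by_contra hxu
    obtain ⟨y, hy⟩ := hx
    have hx0 : x ≠ 0 := by
      rintro rfl
      rw [zero_mul, zero_mul] at hy
      exact hqK.ne_zero hy
    have hy0 : y ≠ 0 := by
      rintro rfl
      rw [mul_zero] at hy
      exact hqK.ne_zero hy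
    have hg : x * y ∣ q.map (algebraMap R K) := ⟨x, by rw [hy]; ring⟩
    obtain ⟨g, hg'⟩ := IsIntegrallyClosed.eq_map_mul_C_of_dvd K hq hg
    have hl0 : (x * y).leadingCoeff ≠ 0 := leadingCoeff_ne_zero.2 (mul_ne_zero hx0 hy0)
    have hgm : g.Monic := by
      have h1 : (g.map (algebraMap R K) * C (x * y).leadingCoeff).leadingCoeff =
        (x * y).leadingCoeff := by rw [hg']
      rw [leadingCoeff_mul, leadingCoeff_C] at h1
      have h2 : (g.map (algebraMap R K)).leadingCoeff = 1 := by
        have := mul_right_cancel₀ hl0 (h1.trans (one_mul _).symm)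
        exact this
      exact monic_of_injective hinj h2
    have hxdeg : 0 < x.natDegree := by
      rcases Nat.eq_zero_or_pos x.natDegree with h | h
      · exfalso
        apply hxu
        rw [eq_C_of_natDegree_eq_zero h] at hx0 ⊢
        exact isUnit_C.2 (isUnit_iff_ne_zero.2 fun h0 => hx0 (by rw [h0, C_0]))
      · exact h
    have hdeg : g.natDegree < q.natDegree := by
      have h1 : (q.map (algebraMap R K)).natDegree = x.natDegree + x.natDegree + y.natDegree := by
        rw [hy, natDegree_mul (mul_ne_zero hx0 hx0) hy0, natDegree_mul hx0 hx0]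
      have h2 : (g.map (algebraMap R K)).natDegree = x.natDegree + y.natDegree := by
        rw [← natDegree_mul hx0 hy0, ← hg', natDegree_mul_C hl0]
      rw [natDegree_map_eq_of_injective hinj] at h1 h2
      omega
    have hgq : g ∣ q := hq.dvd_of_fraction_map_dvd_fraction_map (K := K) hgm (by
      refine dvd_trans ?_ hg
      exact ⟨C (x * y).leadingCoeff, hg'.symm⟩)
    have hqg : q ∣ g ^ 2 := (hgm.pow 2).dvd_of_fraction_map_dvd_fraction_map (K := K) hq (by
      rw [Polynomial.map_pow]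
      have h1 : q.map (algebraMap R K) ∣ (g.map (algebraMap R K) * C (x * y).leadingCoeff) ^ 2 := by
        rw [hg', hy]
        exact ⟨y, by ring⟩
      rw [mul_pow] at h1
      have h2 : IsUnit (C (x * y).leadingCoeff ^ 2 : K[X]) :=
        (isUnit_C.2 (isUnit_iff_ne_zero.2 hl0)).pow 2
      exact (h2.dvd_mul_right).1 h1)
    refine hmin g.natDegree (by rw [← hn]; exact hdeg) ⟨g, hgm, hgq.trans hqQ, ⟨2 * k, ?_⟩, rfl⟩
    rw [pow_mul]
    exact hk.trans (pow_dvd_pow_of_dvd hqg k)
  have hsep : (q.map (algebraMap R K)).Separable := PerfectField.separable_iff_squarefree.2 hsq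
  obtain ⟨a, b, hab⟩ := hsep
  obtain ⟨c1, hc1, h1⟩ := IsLocalization.integerNormalization_spec (nonZeroDivisors R) a
  obtain ⟨c2, hc2, h2⟩ := IsLocalization.integerNormalization_spec (nonZeroDivisors R) b
  refine ⟨C c2 * IsLocalization.integerNormalization (nonZeroDivisors R) a,
    C c1 * IsLocalization.integerNormalization (nonZeroDivisors R) b, c1 * c2,
    mul_ne_zero (nonZeroDivisors.ne_zero hc1) (nonZeroDivisors.ne_zero hc2), ?_⟩
  have e : ∀ (c : R) (p : K[X]), c • p = C (algebraMap R K c) * p := fun c p => by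
    rw [← smul_eq_C_mul, algebraMap_smul]
  apply Polynomial.map_injective _ hinj
  rw [Polynomial.map_add, Polynomial.map_mul, Polynomial.map_mul, Polynomial.map_mul,
    Polynomial.map_mul, h1, h2, ← derivative_map, e, e]
  have e2 : Polynomial.map (algebraMap R K) (C (c1 * c2)) =
      C (algebraMap R K c1) * C (algebraMap R K c2) := by rw [map_C, map_mul, C_mul]
  rw [e2, map_C, map_C]
  linear_combination (C (algebraMap R K c1) * C (algebraMap R K c2)) * hab

section Rel

variable {E : Type*} [NormedAddCommGroup E] [NormedSpace ℂ E] [FiniteDimensional ℂ E] {e : E}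

open Crest.Agent.R275.Loc2879

/-- the polynomial `p` with germ coefficients is represented by the family `f` -/
def Rel (p : (OO e)[X]) (f : E → ℂ[X]) : Prop :=
  ∀ j, ∃ h : AnalyticAt ℂ (fun x => (f x).coeff j) e, gm _ h = p.coeff j

lemma Rel.mul {p q : (OO e)[X]} {f g : E → ℂ[X]} (hf : Rel p f) (hg : Rel q g) :
    Rel (p * q) (fun x => f x * g x) := by
  intro n
  have h0 : (fun x => (f x * g x).coeff n) =
      fun x => ∑ i ∈ Finset.HasAntidiagonal.antidiagonal n, (f x).coeff i.1 * (g x).coeff i.2 := by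
    funext x
    exact coeff_mul _ _ _
  have ha : ∀ i : ℕ × ℕ, AnalyticAt ℂ (fun x => (f x).coeff i.1 * (g x).coeff i.2) e := fun i =>
    (hf i.1).choose.mul (hg i.2).choose
  have h1 : AnalyticAt ℂ (fun x => (f x * g x).coeff n) e := by
    rw [h0]
    exact Finset.analyticAt_fun_sum _ fun i _ => ha i
  refine ⟨h1, ?_⟩
  rw [coeff_mul]
  have h2 : ∀ i : ℕ × ℕ, p.coeff i.1 * q.coeff i.2 = gm _ (ha i) := by
    intro i
    rw [← (hf i.1).choose_spec, ← (hg i.2).choose_spec, gm_mul]
    rfl
  simp_rw [h2]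
  rw [Crest.Agent.R257.Sh_297.gm_sum, gm_eq_gm]
  exact Eventually.of_forall fun x => by rw [h0]

lemma Rel.add {p q : (OO e)[X]} {f g : E → ℂ[X]} (hf : Rel p f) (hg : Rel q g) :
    Rel (p + q) (fun x => f x + g x) := by
  intro n
  have h1 : AnalyticAt ℂ (fun x => (f x + g x).coeff n) e := by
    simp only [coeff_add]
    exact (hf n).choose.add (hg n).choose
  refine ⟨h1, ?_⟩
  rw [coeff_add, ← (hf n).choose_spec, ← (hg n).choose_spec, gm_add, gm_eq_gm]
  exact Eventually.of_forall fun x => by simp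

lemma Rel.derivative {p : (OO e)[X]} {f : E → ℂ[X]} (hf : Rel p f) :
    Rel (derivative p) (fun x => Polynomial.derivative (f x)) := by
  intro n
  have h1 : AnalyticAt ℂ (fun x => (Polynomial.derivative (f x)).coeff n) e := by
    simp only [coeff_derivative]
    exact (hf (n + 1)).choose.mul analyticAt_const
  refine ⟨h1, ?_⟩
  rw [coeff_derivative, ← (hf (n + 1)).choose_spec]
  have h2 : ((n : OO e) + 1) = gm (fun _ => ((n : ℂ) + 1)) analyticAt_const := by
    have h3 : ((n : OO e) + 1) = algebraMap ℂ (OO e) ((n : ℂ) + 1) := by simp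
    rw [h3, Crest.Agent.R275.Loc2879.algebraMap_apply]
  rw [h2, gm_mul, gm_eq_gm]
  exact Eventually.of_forall fun x => by simp [coeff_derivative]

lemma Rel.pow {p : (OO e)[X]} {f : E → ℂ[X]} (hf : Rel p f) (k : ℕ) :
    Rel (p ^ k) (fun x => f x ^ k) := by
  induction k with
  | zero =>
    intro n
    have h1 : AnalyticAt ℂ (fun x => (f x ^ 0).coeff n) e := by
      simp only [pow_zero]; exact analyticAt_const
    refine ⟨h1, ?_⟩
    rw [pow_zero, coeff_one]
    split_ifs with h
    · rw [gm_one, gm_eq_gm]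
      exact Eventually.of_forall fun x => by simp [h, coeff_one]
    · rw [gm_zero, gm_eq_gm]
      exact Eventually.of_forall fun x => by simp [coeff_one, h]
  | succ k ih =>
    have := ih.mul hf
    simpa only [pow_succ] using this

lemma Rel.C {c : E → ℂ} (hc : AnalyticAt ℂ c e) : Rel (Polynomial.C (gm c hc)) fun x => Polynomial.C (c x) := by
  intro n
  have h1 : AnalyticAt ℂ (fun x => (Polynomial.C (c x)).coeff n) e := by
    simp only [coeff_C]
    split_ifs
    · exact hc
    · exact analyticAt_const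
  refine ⟨h1, ?_⟩
  rw [coeff_C]
  split_ifs with h
  · rw [gm_eq_gm]
    exact Eventually.of_forall fun x => by simp [h]
  · rw [gm_zero, gm_eq_gm]
    exact Eventually.of_forall fun x => by simp [coeff_C, h]

lemma Rel.eq {p : (OO e)[X]} {f g : E → ℂ[X]} (hf : Rel p f) (hg : Rel p g) {D : ℕ}
    (hfD : ∀ᶠ x in 𝓝 e, (f x).natDegree ≤ D) (hgD : ∀ᶠ x in 𝓝 e, (g x).natDegree ≤ D) :
    ∀ᶠ x in 𝓝 e, f x = g x := by
  have h1 : ∀ᶠ x in 𝓝 e, ∀ j ∈ Finset.range (D + 1), (f x).coeff j = (g x).coeff j := by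
    refine (Finset.eventually_all _).2 fun j _ => ?_
    obtain ⟨h1, h2⟩ := hf j
    obtain ⟨h3, h4⟩ := hg j
    exact gm_eq_gm.1 (h2.trans h4.symm)
  filter_upwards [h1, hfD, hgD] with x h1 h2 h3
  ext j
  rcases le_or_gt j D with h | h
  · exact h1 j (Finset.mem_range.2 (by omega))
  · rw [coeff_eq_zero_of_natDegree_lt (by omega), coeff_eq_zero_of_natDegree_lt (by omega)]

lemma Rel.exists (p : (OO e)[X]) : ∃ f : E → ℂ[X], Rel p f ∧ (∀ x, (f x).natDegree ≤ p.natDegree) ∧
    (p.Monic → ∀ x, (f x).Monic ∧ (f x).natDegree = p.natDegree) := by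
  classical
  choose h ha hh using fun j => exists_gm (p.coeff j)
  let w : ℕ → E → ℂ := fun j => if j = p.natDegree ∧ p.Monic then fun _ => 1 else h j
  have hw : ∀ j, AnalyticAt ℂ (w j) e := fun j => by
    simp only [w]; split_ifs
    · exact analyticAt_const
    · exact ha j
  have hwp : ∀ j, gm (w j) (hw j) = p.coeff j := fun j => by
    by_cases hj : j = p.natDegree ∧ p.Monic
    · have h1 : p.coeff j = 1 := by rw [hj.1]; exact hj.2
      rw [h1, gm_one, gm_eq_gm]
      exact Eventually.of_forall fun x => by simp only [w]; rw [if_pos hj]; rfl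
    · rw [← hh j, gm_eq_gm]
      exact Eventually.of_forall fun x => by simp only [w]; rw [if_neg hj]
  let f : E → ℂ[X] := fun x => ∑ j ∈ Finset.range (p.natDegree + 1), Polynomial.C (w j x) * X ^ j
  have hcf : ∀ x j, (f x).coeff j = if j ≤ p.natDegree then w j x else 0 := by
    intro x j
    simp only [f, finsetSum_coeff, coeff_C_mul, coeff_X_pow]
    split_ifs with hj
    · rw [Finset.sum_eq_single j]
      · simp
      · intro i _ hi; rw [if_neg (Ne.symm hi), mul_zero]
      · intro h; exact absurd (Finset.mem_range.2 (by omega)) h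
    · refine Finset.sum_eq_zero fun i hi => ?_
      have := Finset.mem_range.1 hi
      rw [if_neg (by omega), mul_zero]
  have hfd : ∀ x, (f x).natDegree ≤ p.natDegree := fun x => by
    rw [natDegree_le_iff_coeff_eq_zero]
    intro j hj
    rw [hcf, if_neg (by omega)]
  refine ⟨f, fun j => ?_, hfd, fun hm x => ?_⟩
  · have h1 : AnalyticAt ℂ (fun x => (f x).coeff j) e := by
      simp only [hcf]
      split_ifs
      · exact hw j
      · exact analyticAt_const
    refine ⟨h1, ?_⟩
    by_cases hj : j ≤ p.natDegree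
    · rw [← hwp j, gm_eq_gm]
      exact Eventually.of_forall fun x => by simp only [hcf, if_pos hj]
    · rw [coeff_eq_zero_of_natDegree_lt (by omega), gm_zero, gm_eq_gm]
      exact Eventually.of_forall fun x => by simp [hcf, if_neg hj]
  · have h1 : (f x).coeff p.natDegree = 1 := by
      rw [hcf, if_pos le_rfl]
      simp [w, hm]
    have h2 : (f x).Monic := monic_of_natDegree_le_of_coeff_eq_one _ (hfd x) h1
    exact ⟨h2, natDegree_eq_of_le_of_coeff_ne_zero (hfd x) (by rw [h1]; exact one_ne_zero)⟩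

end Rel

section Puiseux

open Crest.Agent.R275.Loc2879 Crest.Agent.R257.AJ387

instance : CharZero (OO (0 : ℂ)) :=
  charZero_of_injective_algebraMap (algebraMap ℂ (OO (0 : ℂ))).injective

/-- square-free part of a family of monic polynomials over the disc -/
theorem sqf_family {n : ℕ} {Q : ℂ → ℂ[X]} (hQ : ∀ᶠ x in 𝓝 (0 : ℂ), (Q x).Monic ∧ (Q x).natDegree = n)
    (hc : ∀ j, AnalyticAt ℂ (fun x => (Q x).coeff j) 0) :
    ∃ (m : ℕ) (q : ℂ → ℂ[X]), (∀ x, (q x).Monic ∧ (q x).natDegree = m) ∧
      (∀ j, AnalyticAt ℂ (fun x => (q x).coeff j) 0) ∧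
      (∀ᶠ x in 𝓝 (0 : ℂ), ∀ y, (Q x).eval y = 0 ↔ (q x).eval y = 0) ∧
      ∀ᶠ x in 𝓝[≠] (0 : ℂ), (q x).roots.Nodup := by
  classical
  -- the germ polynomial
  let w : ℕ → ℂ → ℂ := fun j => if j = n then fun _ => 1 else fun x => (Q x).coeff j
  have hw : ∀ j, AnalyticAt ℂ (w j) 0 := fun j => by
    simp only [w]; split_ifs
    · exact analyticAt_const
    · exact hc j
  let G : (OO (0 : ℂ))[X] := ∑ j ∈ Finset.range (n + 1), Polynomial.C (gm (w j) (hw j)) * X ^ j
  have hcG : ∀ j, G.coeff j = if j ≤ n then gm (w j) (hw j) else 0 := by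
    intro j
    simp only [G, finsetSum_coeff, coeff_C_mul, coeff_X_pow]
    split_ifs with hj
    · rw [Finset.sum_eq_single j]
      · simp
      · intro i _ hi; rw [if_neg (Ne.symm hi), mul_zero]
      · intro h; exact absurd (Finset.mem_range.2 (by omega)) h
    · refine Finset.sum_eq_zero fun i hi => ?_
      have := Finset.mem_range.1 hi
      rw [if_neg (by omega), mul_zero]
  have hGd : G.natDegree ≤ n := by
    rw [natDegree_le_iff_coeff_eq_zero]
    intro j hj
    rw [hcG, if_neg (by omega)]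
  have hGm : G.Monic := by
    refine monic_of_natDegree_le_of_coeff_eq_one n hGd ?_
    rw [hcG, if_pos le_rfl, gm_one, gm_eq_gm]
    exact Eventually.of_forall fun x => by simp [w]
  have hRG : Rel G Q := by
    intro j
    refine ⟨hc j, ?_⟩
    rw [hcG]
    split_ifs with hj
    · rw [gm_eq_gm]
      filter_upwards [hQ] with x hx
      by_cases h : j = n
      · simp only [w, h, if_true]
        rw [← hx.2]; exact hx.1
      · simp only [w]; rw [if_neg h]
    · rw [gm_zero, gm_eq_gm]
      filter_upwards [hQ] with x hx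
      exact coeff_eq_zero_of_natDegree_lt (by omega)
  obtain ⟨q, hq, ⟨r, hr⟩, ⟨k, t, ht⟩, a, b, c, hc0, hab⟩ := exists_sqfree G hGm
  obtain ⟨q', hqr, hqd, hqm⟩ := Rel.exists q
  obtain ⟨r', hrr, hrd, -⟩ := Rel.exists r
  obtain ⟨t', htr, htd, -⟩ := Rel.exists t
  obtain ⟨a', har, had, -⟩ := Rel.exists a
  obtain ⟨b', hbr, hbd, -⟩ := Rel.exists b
  obtain ⟨cf, hcf, rfl⟩ := exists_gm c
  have hQn : ∀ᶠ x in 𝓝 (0 : ℂ), (Q x).natDegree ≤ n := hQ.mono fun x hx => hx.2.le
  have e1 : ∀ᶠ x in 𝓝 (0 : ℂ), Q x = q' x * r' x := by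
    refine Rel.eq hRG (hr ▸ hqr.mul hrr) (D := n + (q.natDegree + r.natDegree))
      (hQn.mono fun x hx => by omega) (Eventually.of_forall fun x => ?_)
    have := natDegree_mul_le (p := q' x) (q := r' x)
    have := hqd x
    have := hrd x
    omega
  have e2 : ∀ᶠ x in 𝓝 (0 : ℂ), q' x ^ k = Q x * t' x := by
    refine Rel.eq (hqr.pow k) (ht ▸ hRG.mul htr) (D := k * q.natDegree + (n + t.natDegree))
      (Eventually.of_forall fun x => ?_) (hQn.mono fun x hx => ?_)
    · have h1 := natDegree_pow_le (p := q' x) (n := k)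
      have h2 := Nat.mul_le_mul_left k (hqd x)
      omega
    · have := natDegree_mul_le (p := Q x) (q := t' x)
      have := htd x
      omega
  have e3 : ∀ᶠ x in 𝓝 (0 : ℂ), a' x * q' x + b' x * derivative (q' x) = Polynomial.C (cf x) := by
    refine Rel.eq (hab ▸ (har.mul hqr).add (hbr.mul hqr.derivative)) (Rel.C hcf)
      (D := (a.natDegree + q.natDegree) + (b.natDegree + q.natDegree))
      (Eventually.of_forall fun x => ?_) (Eventually.of_forall fun x => ?_)
    · refine (natDegree_add_le _ _).trans (max_le ?_ ?_)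
      · have := natDegree_mul_le (p := a' x) (q := q' x)
        have := hqd x
        have := had x
        omega
      · have := natDegree_mul_le (p := b' x) (q := derivative (q' x))
        have := natDegree_derivative_le (q' x)
        have := hqd x
        have := hbd x
        omega
    · rw [natDegree_C]; exact Nat.zero_le _
  refine ⟨q.natDegree, q', fun x => hqm hq x, fun j => (hqr j).choose, ?_, ?_⟩
  · filter_upwards [e1, e2] with x h1 h2 y
    constructor
    · intro hy
      have h3 : (q' x ^ k).eval y = 0 := by rw [h2, eval_mul, hy, zero_mul]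
      rw [eval_pow] at h3
      exact pow_eq_zero_iff (by
        rintro rfl
        rw [pow_zero] at h3
        exact one_ne_zero h3) |>.1 h3
    · intro hy
      rw [h1, eval_mul, hy, zero_mul]
  · have hcne : ∀ᶠ x in 𝓝[≠] (0 : ℂ), cf x ≠ 0 := by
      rcases hcf.eventually_eq_zero_or_eventually_ne_zero with h | h
      · exact absurd (gm_eq_zero.2 h) hc0
      · exact h
    filter_upwards [hcne, e3.filter_mono nhdsWithin_le_nhds] with x h1 h2
    refine nodup_roots ?_
    refine ⟨Polynomial.C (cf x)⁻¹ * a' x, Polynomial.C (cf x)⁻¹ * b' x, ?_⟩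
    have h3 : Polynomial.C (cf x)⁻¹ * Polynomial.C (cf x) = 1 := by
      rw [← C_mul, inv_mul_cancel₀ h1, C_1]
    linear_combination Polynomial.C (cf x)⁻¹ * h2 + h3

/-- **Puiseux** -/
theorem puiseux {n : ℕ} {Q : ℂ → ℂ[X]} (hQ : ∀ᶠ x in 𝓝 (0 : ℂ), (Q x).Monic ∧ (Q x).natDegree = n)
    (hc : ∀ j, AnalyticAt ℂ (fun x => (Q x).coeff j) 0) :
    ∃ (m N : ℕ) (r : ℝ) (φ : Fin m → ℂ → ℂ), 0 < N ∧ 0 < r ∧
      (∀ i, AnalyticOnNhd ℂ (φ i) (ball 0 r)) ∧
      (∀ s ∈ ball (0 : ℂ) r, ∀ y, (Q (s ^ N)).eval y = 0 ↔ ∃ i, y = φ i s) ∧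
      ∀ s ∈ ball (0 : ℂ) r, s ≠ 0 → Function.Injective fun i => φ i s := by
  obtain ⟨m, q, hqm, hqc, hqe, hqn⟩ := sqf_family hQ hc
  obtain ⟨r₁, hr₁, h1⟩ := Metric.eventually_nhds_iff_ball.1 hqe
  obtain ⟨r₂, hr₂, h2⟩ := Metric.mem_nhdsWithin_iff.1 hqn
  have h3 : ∀ᶠ x in 𝓝 (0 : ℂ), ∀ j ∈ Finset.range (m + 1), AnalyticAt ℂ (fun x => (q x).coeff j) x :=
    (Finset.eventually_all _).2 fun j _ => (hqc j).eventually_analyticAt
  obtain ⟨r₃, hr₃, h3⟩ := Metric.eventually_nhds_iff_ball.1 h3
  set R := min (min r₁ r₂) (min r₃ 1) with hR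
  have hR0 : 0 < R := by positivity
  have hR1 : R ≤ r₁ := (min_le_left _ _).trans (min_le_left _ _)
  have hR2 : R ≤ r₂ := (min_le_left _ _).trans (min_le_right _ _)
  have hR3 : R ≤ r₃ := (min_le_right _ _).trans (min_le_left _ _)
  have hR4 : R ≤ 1 := (min_le_right _ _).trans (min_le_right _ _)
  have hmem : ∀ p ∈ BD R R, p.1 ∈ ball (0 : ℂ) R := fun p hp => by simpa using hp.1
  let 𝒟 : Data m R R :=
    { P := fun p => q p.1
      h₁ := hR0
      h₂ := hR0
      monic := fun p _ => (hqm p.1).1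
      deg := fun p _ => (hqm p.1).2
      an := fun i p hp => by
        have h4 : AnalyticAt ℂ (fun x => (q x).coeff i) p.1 := by
          rcases le_or_gt i m with hi | hi
          · exact h3 _ (ball_subset_ball hR3 (hmem p hp)) i (Finset.mem_range.2 (by omega))
          · have : (fun x => (q x).coeff i) = fun _ => 0 := by
              funext x
              exact coeff_eq_zero_of_natDegree_lt (by rw [(hqm x).2]; exact hi)
            rw [this]; exact analyticAt_const
        exact h4.comp analyticAt_fst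
      nodup := fun p hp h0 => h2 ⟨ball_subset_ball hR2 (hmem p hp), left_ne_zero_of_mul h0⟩ }
  obtain ⟨ζ, hζ, hζe⟩ := 𝒟.abhyankar_jung
  set N := m.factorial with hN
  have hN0 : 0 < N := Nat.factorial_pos m
  have hRN : ∀ s ∈ ball (0 : ℂ) R, ‖s‖ ^ N < R := fun s hs => by
    have hs1 : ‖s‖ < R := by simpa using hs
    calc ‖s‖ ^ N ≤ ‖s‖ ^ 1 := pow_le_pow_of_le_one (norm_nonneg _) (hs1.le.trans hR4) hN0
      _ < R := by rw [pow_one]; exact hs1
  set β : ℂ := ((R / 2 : ℝ) : ℂ) with hβ
  have hβn : ‖β‖ = R / 2 := by rw [hβ, Complex.norm_real, Real.norm_of_nonneg (by positivity)]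
  have hβR : β ∈ ball (0 : ℂ) R := by rw [mem_ball, dist_zero_right, hβn]; linarith
  have hβ0 : β ≠ 0 := by rw [← norm_pos_iff, hβn]; positivity
  have hKD : ∀ s ∈ ball (0 : ℂ) R, ((s, β) : ℂ × ℂ) ∈ Data.KD N R R := fun s hs =>
    ⟨hRN s hs, hRN β hβR⟩
  have hprod : ∀ s ∈ ball (0 : ℂ) R, q (s ^ N) = ∏ j, (X - Polynomial.C (ζ j (s, β))) := fun s hs =>
    hζe (s, β) (hKD s hs)
  refine ⟨m, N, R, fun i s => ζ i (s, β), hN0, hR0, fun i s hs => ?_, fun s hs y => ?_,
    fun s hs h0 => ?_⟩
  · have h4 : AnalyticAt ℂ (fun s : ℂ => ((s, β) : ℂ × ℂ)) s := AnalyticAt.prod analyticAt_id analyticAt_const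
    exact AnalyticAt.comp (g := ζ i) (hζ i _ (hKD s hs)) h4
  · have hsN : s ^ N ∈ ball (0 : ℂ) r₁ := by
      rw [mem_ball, dist_zero_right, norm_pow]
      exact (hRN s hs).trans_le hR1
    rw [h1 _ hsN, hprod s hs, eval_prod]
    simp only [eval_sub, eval_X, eval_C, Finset.prod_eq_zero_iff, Finset.mem_univ, true_and,
      sub_eq_zero]
  · have h5 : (q (s ^ N)).roots.Nodup := h2 ⟨by
      rw [mem_ball, dist_zero_right, norm_pow]
      exact (hRN s hs).trans_le hR2, pow_ne_zero N h0⟩
    have h6 : (∏ j, (X - Polynomial.C (ζ j (s, β))) : ℂ[X]).roots =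
        Finset.univ.val.map fun j => ζ j (s, β) := by
      have h7 : (∏ j, (X - Polynomial.C (ζ j (s, β))) : ℂ[X]) =
          ((Finset.univ.val.map fun j => ζ j (s, β)).map fun a => X - Polynomial.C a).prod := by
        rw [Multiset.map_map]; rfl
      rw [h7, roots_multiset_prod_X_sub_C]
    rw [hprod s hs, h6] at h5
    intro i j hij
    exact Multiset.inj_on_of_nodup_map h5 i (Finset.mem_univ i) j (Finset.mem_univ j) hij

end Puiseux

end Crest.Agent.R257.T387
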