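import Mathlib
import Crest.Agent.R257.T5_387
import Crest.Agent.R257.T0_387
import Crest.Agent.R257.FrDefs_808

/-!
Row 257 (S0395), part C, T-frame, file 6 (helper387): `∂f/∂z` and the Jacobian in the charts.
-/

set_option autoImplicit false
set_option linter.unusedSectionVars false

open Polynomial Set Filter Topology Metric
open Crest.AlgGeometry.Germ Crest.Agent.R257.AJ387 Crest.Agent.R257.Defs_219
open Crest.Agent.R257.T0_387 (ptL ptL_apply an_coordDeriv isolated)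
open Crest.Agent.R257.Fr_808 (jac2)

noncomputable section

namespace Crest.Agent.R257.T387

/-! ### residues -/

/-- `dx₁ ∧ dx₂ / f_z` is holomorphic on the pull back of the regular part of `{f = 0}` -/
theorem exists_res {f : E3 → ℂ} {F : ℂ × ℂ → E3} {p₀ : ℂ × ℂ} (hF : AnalyticAt ℂ F p₀)
    (hf : AnalyticAt ℂ f (F p₀)) (h0 : ∀ᶠ p in 𝓝 p₀, f (F p) = 0)
    (hreg : ∃ j, coordDeriv f j (F p₀) ≠ 0) :
    ∃ H : ℂ × ℂ → ℂ, AnalyticAt ℂ H p₀ ∧ ∀ᶠ p in 𝓝 p₀, jac2 F p = coordDeriv f 0 (F p) * H p := by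
  have hFt : Tendsto F (𝓝 p₀) (𝓝 (F p₀)) := hF.continuousAt.tendsto
  -- partial derivatives
  have han : ∀ (v : ℂ × ℂ) (i : Fin 3), AnalyticAt ℂ (fun p => fderiv ℂ F p v i) p₀ := by
    intro v i
    have h1 : AnalyticAt ℂ (fun p => fderiv ℂ F p v) p₀ :=
      ((ContinuousLinearMap.apply ℂ E3 v).analyticAt _).comp hF.fderiv
    exact AnalyticAt.comp (g := fun x : E3 => x i) (f := fun p => fderiv ℂ F p v)
      ((ContinuousLinearMap.proj (R := ℂ) (φ := fun _ : Fin 3 => ℂ) i).analyticAt _) h1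
  have hcd : ∀ j, AnalyticAt ℂ (fun p => coordDeriv f j (F p)) p₀ := fun j =>
    AnalyticAt.comp (g := coordDeriv f j) (f := F) (an_coordDeriv hf j) hF
  have hrel : ∀ᶠ p in 𝓝 p₀, ∀ v : ℂ × ℂ, fderiv ℂ F p v 0 * coordDeriv f 0 (F p) +
      fderiv ℂ F p v 1 * coordDeriv f 1 (F p) + fderiv ℂ F p v 2 * coordDeriv f 2 (F p) = 0 := by
    filter_upwards [h0.eventually_nhds, hF.eventually_analyticAt,
      hFt.eventually hf.eventually_analyticAt] with p h1 h2 h3 v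
    have h4 : fderiv ℂ (fun p => f (F p)) p = 0 := by
      have h5 : (fun p => f (F p)) =ᶠ[𝓝 p] fun _ => 0 := h1
      rw [h5.fderiv_eq]
      simp
    have h6 : fderiv ℂ (fun p => f (F p)) p = (fderiv ℂ f (F p)).comp (fderiv ℂ F p) :=
      fderiv_comp p h3.differentiableAt h2.differentiableAt
    rw [h6] at h4
    have h7 : fderiv ℂ f (F p) (fderiv ℂ F p v) = 0 := by
      have := congrArg (fun L => L v) h4
      simpa using this
    rw [Crest.Agent.R257.Node_547.fderiv_apply_eq, Fin.sum_univ_three] at h7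
    exact h7
  obtain ⟨j, hj⟩ := hreg
  have hne : ∀ᶠ p in 𝓝 p₀, coordDeriv f j (F p) ≠ 0 := (hcd j).continuousAt.eventually_ne hj
  fin_cases j
  · -- `f_z ≠ 0`
    refine ⟨fun p => jac2 F p / coordDeriv f 0 (F p), ?_, ?_⟩
    · refine AnalyticAt.div ?_ (hcd 0) hj
      exact ((han _ _).mul (han _ _)).sub ((han _ _).mul (han _ _))
    · filter_upwards [hne] with p hp
      rw [mul_div_cancel₀]
      exact hp
  · refine ⟨fun p => -(fderiv ℂ F p (1, 0) 0 * fderiv ℂ F p (0, 1) 2 -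
      fderiv ℂ F p (1, 0) 2 * fderiv ℂ F p (0, 1) 0) / coordDeriv f 1 (F p), ?_, ?_⟩
    · exact AnalyticAt.div (((han _ _).mul (han _ _)).sub ((han _ _).mul (han _ _))).neg (hcd 1) hj
    · filter_upwards [hne, hrel] with p hp hr
      have hp' : coordDeriv f 1 (F p) ≠ 0 := hp
      have h1 := hr (1, 0)
      have h2 := hr (0, 1)
      rw [mul_div_assoc', eq_div_iff hp']
      simp only [jac2]
      linear_combination (fderiv ℂ F p (0, 1) 2) * h1 - (fderiv ℂ F p (1, 0) 2) * h2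
  · refine ⟨fun p => -(fderiv ℂ F p (1, 0) 1 * fderiv ℂ F p (0, 1) 0 -
      fderiv ℂ F p (1, 0) 0 * fderiv ℂ F p (0, 1) 1) / coordDeriv f 2 (F p), ?_, ?_⟩
    · exact AnalyticAt.div (((han _ _).mul (han _ _)).sub ((han _ _).mul (han _ _))).neg (hcd 2) hj
    · filter_upwards [hne, hrel] with p hp hr
      have hp' : coordDeriv f 2 (F p) ≠ 0 := hp
      have h1 := hr (1, 0)
      have h2 := hr (0, 1)
      rw [mul_div_assoc', eq_div_iff hp']
      simp only [jac2]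
      linear_combination (fderiv ℂ F p (1, 0) 1) * h2 - (fderiv ℂ F p (0, 1) 1) * h1

/-- comparison of exponents -/
theorem exp_le {a n : ℕ} {u v : ℂ → ℂ} (hu : ContinuousAt u 0) (hu0 : u 0 ≠ 0)
    (hv : ContinuousAt v 0) (h : ∀ᶠ t in 𝓝[≠] (0 : ℂ), t ^ n * u t = t ^ a * v t) : a ≤ n := by
  by_contra hcon
  push Not at hcon
  have h1 : Tendsto (fun t : ℂ => t ^ (a - n) * v t) (𝓝[≠] 0) (𝓝 0) := by
    have h2 : ContinuousAt (fun t : ℂ => t ^ (a - n) * v t) 0 :=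
      ((continuous_pow (a - n)).continuousAt).mul hv
    have h3 := h2.tendsto
    have h4 : a - n ≠ 0 := by omega
    simp only [zero_pow h4, zero_mul] at h3
    exact h3.mono_left nhdsWithin_le_nhds
  have h2 : Tendsto u (𝓝[≠] 0) (𝓝 (u 0)) := hu.tendsto.mono_left nhdsWithin_le_nhds
  have h3 : ∀ᶠ t in 𝓝[≠] (0 : ℂ), t ^ (a - n) * v t = u t := by
    filter_upwards [h, self_mem_nhdsWithin] with t h4 h5
    have h6 : t ^ a = t ^ n * t ^ (a - n) := by rw [← pow_add]; congr 1; omega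
    rw [h6, mul_assoc] at h4
    exact (mul_left_cancel₀ (pow_ne_zero n h5) h4).symm
  have h4 := tendsto_nhds_unique (h1.congr' h3) h2
  exact hu0 h4.symm

/-! ### derivative of a split polynomial -/

lemma eval_deriv_prod {d : ℕ} (z : Fin d → ℂ) (j : Fin d) :
    ((∏ l, (X - C (z l)) : ℂ[X]).derivative).eval (z j) = ∏ l ∈ Finset.univ.erase j, (z j - z l) := by
  rw [Polynomial.derivative_prod_finset, Polynomial.eval_finsetSum]
  rw [Finset.sum_eq_single j]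
  · simp [Polynomial.eval_prod]
  · intro l _ hl
    rw [Polynomial.eval_mul, Polynomial.eval_prod]
    have : (∏ i ∈ Finset.univ.erase l, (X - C (z i)).eval (z j)) = 0 :=
      Finset.prod_eq_zero (i := j) (Finset.mem_erase.2 ⟨fun h => hl h.symm, Finset.mem_univ _⟩) (by simp)
    rw [this, zero_mul]
  · intro h; exact absurd (Finset.mem_univ j) h

namespace TB

variable {f : (Fin 3 → ℂ) → ℂ} (T : TB f)

/-- the determinant of the rotation -/
def detA : ℂ := (T.A (1, 0)).1 * (T.A (0, 1)).2 - (T.A (1, 0)).2 * (T.A (0, 1)).1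

lemma A_apply (a b : ℂ) : T.A (a, b) = a • T.A (1, 0) + b • T.A (0, 1) := by
  rw [← map_smul, ← map_smul, ← map_add]
  congr 1
  simp

lemma detA_ne : T.detA ≠ 0 := by
  intro h
  have h1 : T.A ((T.A (0, 1)).2, -(T.A (1, 0)).2) = T.A (0, 0) ∧
      T.A ((T.A (0, 1)).1, -(T.A (1, 0)).1) = T.A (0, 0) := by
    unfold detA at h
    constructor
    · rw [A_apply, show ((0 : ℂ), (0 : ℂ)) = 0 from rfl, map_zero]
      refine Prod.ext ?_ ?_
      · simp only [Prod.fst_add, Prod.smul_fst, smul_eq_mul, Prod.fst_zero]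
        linear_combination h
      · simp only [Prod.snd_add, Prod.smul_snd, smul_eq_mul, Prod.snd_zero]
        ring
    · rw [A_apply, show ((0 : ℂ), (0 : ℂ)) = 0 from rfl, map_zero]
      refine Prod.ext ?_ ?_
      · simp only [Prod.fst_add, Prod.smul_fst, smul_eq_mul, Prod.fst_zero]
        ring
      · simp only [Prod.snd_add, Prod.smul_snd, smul_eq_mul, Prod.snd_zero]
        linear_combination -h
  have h2 := T.A.injective h1.1
  have h3 := T.A.injective h1.2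
  simp only [Prod.mk.injEq] at h2 h3
  have h4 : T.A (0, 1) = T.A (0, 0) := by
    rw [show ((0 : ℂ), (0 : ℂ)) = 0 from rfl, map_zero]
    exact Prod.ext h3.1 h2.1
  have h5 := T.A.injective h4
  simp at h5

/-- the Jacobian of `p ↦ pt (z p) (A (s ^ N, g s + m))` -/
theorem jac_gen {z s m : ℂ × ℂ → ℂ} {g : ℂ → ℂ} {p : ℂ × ℂ} (n : ℕ) {z' s' m' : ℂ × ℂ →L[ℂ] ℂ} {g' : ℂ}
    (hz : HasFDerivAt z z' p) (hs : HasFDerivAt s s' p) (hm : HasFDerivAt m m' p)
    (hg : HasDerivAt g g' (s p)) :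
    jac2 (fun p => pt (z p) (T.A (s p ^ n, g (s p) + m p))) p =
      T.detA * (n * s p ^ (n - 1)) * (s' (1, 0) * m' (0, 1) - s' (0, 1) * m' (1, 0)) := by
  have h1 : HasFDerivAt (fun p => s p ^ n) ((n * s p ^ (n - 1)) • s') p :=
    (hasDerivAt_pow n (s p)).comp_hasFDerivAt p hs
  have h2 : HasFDerivAt (fun p => g (s p) + m p) (g' • s' + m') p :=
    (hg.comp_hasFDerivAt p hs).add hm
  have h3 : HasFDerivAt (fun p => ((T.A (s p ^ n, g (s p) + m p), z p) : (ℂ × ℂ) × ℂ))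
      ((((T.A : ℂ × ℂ →L[ℂ] ℂ × ℂ)).comp (((n * s p ^ (n - 1)) • s').prod (g' • s' + m'))).prod z') p :=
    ((T.A : ℂ × ℂ →L[ℂ] ℂ × ℂ).hasFDerivAt.comp p (h1.prodMk h2)).prodMk hz
  have h4 : HasFDerivAt (fun p => pt (z p) (T.A (s p ^ n, g (s p) + m p)))
      (ptL.comp ((((T.A : ℂ × ℂ →L[ℂ] ℂ × ℂ)).comp
        (((n * s p ^ (n - 1)) • s').prod (g' • s' + m'))).prod z')) p := by
    have h5 := ptL.hasFDerivAt.comp p h3
    refine h5.congr_of_eventuallyEq (Eventually.of_forall fun q => ?_)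
    show pt (z q) (T.A (s q ^ n, g (s q) + m q)) = ptL (T.A (s q ^ n, g (s q) + m q), z q)
    rw [ptL_apply]
  have h6 : ∀ v : ℂ × ℂ, fderiv ℂ (fun p => pt (z p) (T.A (s p ^ n, g (s p) + m p))) p v =
      pt (z' v) (T.A (n * s p ^ (n - 1) * s' v, g' * s' v + m' v)) := by
    intro v
    rw [h4.fderiv]
    show ptL (T.A _, z' v) = _
    rw [ptL_apply]
    rfl
  have h7 : ∀ (a : ℂ) (q : ℂ × ℂ), pt a q 1 = q.1 := fun _ _ => rfl
  have h8 : ∀ (a : ℂ) (q : ℂ × ℂ), pt a q 2 = q.2 := fun _ _ => rfl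
  unfold jac2
  rw [h6, h6, h7, h7, h8, h8, A_apply T (n * s p ^ (n - 1) * s' (1, 0)),
    A_apply T (n * s p ^ (n - 1) * s' (0, 1))]
  simp only [Prod.fst_add, Prod.snd_add, Prod.smul_fst, Prod.smul_snd, smul_eq_mul, detA]
  ring

/-- branch of the chart -/
def ix : Ch T.m → Fin T.m
  | .edge i _ _ => i
  | .leg i => i
  | .vert i _ _ => i

/-- `s` in the chart -/
def sc : Ch T.m → ℂ × ℂ → ℂ
  | .edge _ _ _, p => p.1 * p.2
  | .leg _, p => p.1
  | .vert _ _ _, p => p.1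

/-- `y' - φ` in the chart -/
def mc : Ch T.m → ℂ × ℂ → ℂ
  | .edge _ k k', p => p.1 ^ (T.M * k) * p.2 ^ (T.M * k')
  | .leg i, p => p.1 ^ (T.M * T.top i) * p.2 ^ T.M
  | .vert _ k w₀, p => p.1 ^ (T.M * k) * (w₀ + p.2)

lemma map_eq (c : Ch T.m) (p : ℂ × ℂ) :
    T.map c p = (T.sc c p, T.φ (T.ix c) (T.sc c p ^ T.M) + T.mc c p) := by
  cases c <;> rfl

lemma map_fst (c : Ch T.m) (p : ℂ × ℂ) : (T.map c p).1 = T.sc c p := by rw [T.map_eq]

lemma sc_an (c : Ch T.m) (p : ℂ × ℂ) : AnalyticAt ℂ (T.sc c) p := by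
  cases c with
  | edge i k k' => exact analyticAt_fst.mul analyticAt_snd
  | leg i => exact analyticAt_fst
  | vert i k w₀ => exact analyticAt_fst

lemma mc_an (c : Ch T.m) (p : ℂ × ℂ) : AnalyticAt ℂ (T.mc c) p := by
  cases c with
  | edge i k k' => exact (analyticAt_fst.pow _).mul (analyticAt_snd.pow _)
  | leg i => exact (analyticAt_fst.pow _).mul (analyticAt_snd.pow _)
  | vert i k w₀ => exact (analyticAt_fst.pow _).mul (analyticAt_const.add analyticAt_snd)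

lemma gg_an (i : Fin T.m) {s : ℂ} (hs : ‖s‖ ^ T.M < T.ρ) :
    AnalyticAt ℂ (fun s : ℂ => T.φ i (s ^ T.M)) s :=
  AnalyticAt.comp (g := T.φ i) (f := fun s : ℂ => s ^ T.M)
    (T.φ_an i _ (by rwa [mem_ball_zero_iff, norm_pow])) (analyticAt_id.pow _)

lemma map_an (c : Ch T.m) {p : ℂ × ℂ} (hp : ‖(T.map c p).1‖ ^ T.M < T.ρ) :
    AnalyticAt ℂ (T.map c) p := by
  have h1 : T.map c = fun p => (T.sc c p, T.φ (T.ix c) (T.sc c p ^ T.M) + T.mc c p) :=
    funext fun p => T.map_eq c p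
  rw [h1]
  rw [T.map_fst] at hp
  exact (T.sc_an c p).prod ((AnalyticAt.comp (g := fun s : ℂ => T.φ (T.ix c) (s ^ T.M))
    (f := T.sc c) (T.gg_an _ hp) (T.sc_an c p)).add (T.mc_an c p))

/-- exponents of the Jacobian -/
def jx : Ch T.m → ℕ × ℕ
  | .edge _ k k' => (T.N - 1 + T.M * k, T.N - 1 + T.M * k')
  | .leg i => (T.N - 1 + T.M * T.top i, T.M - 1)
  | .vert _ k _ => (T.N - 1 + T.M * k, 0)

/-- the constant of the Jacobian -/
def jk : Ch T.m → ℂ
  | .edge _ k k' => T.detA * T.N * ((T.M * k' : ℕ) - (T.M * k : ℕ))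
  | .leg _ => T.detA * T.N * T.M
  | .vert _ _ _ => T.detA * T.N

lemma jk_ne {c : Ch T.m} (hc : T.Valid c) : T.jk c ≠ 0 := by
  have h1 : (T.N : ℂ) ≠ 0 := by exact_mod_cast T.N_pos.ne'
  have h2 : (T.M : ℂ) ≠ 0 := by exact_mod_cast T.M_pos.ne'
  cases c with
  | edge i k k' =>
    refine mul_ne_zero (mul_ne_zero T.detA_ne h1) ?_
    rw [sub_ne_zero]
    have h3 : k < k' := hc.2.2.1
    have h4 : T.M * k < T.M * k' := Nat.mul_lt_mul_of_pos_left h3 T.M_pos
    exact_mod_cast h4.ne'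
  | leg i => exact mul_ne_zero (mul_ne_zero T.detA_ne h1) h2
  | vert i k w₀ => exact mul_ne_zero T.detA_ne h1

lemma fd_mono (a b : ℕ) (p : ℂ × ℂ) : ∃ L : ℂ × ℂ →L[ℂ] ℂ,
    HasFDerivAt (fun p : ℂ × ℂ => p.1 ^ a * p.2 ^ b) L p ∧
      L (1, 0) = a * p.1 ^ (a - 1) * p.2 ^ b ∧ L (0, 1) = p.1 ^ a * (b * p.2 ^ (b - 1)) := by
  have h1 : HasFDerivAt (fun p : ℂ × ℂ => p.1 ^ a)
      ((a * p.1 ^ (a - 1)) • ContinuousLinearMap.fst ℂ ℂ ℂ) p :=
    (hasDerivAt_pow a p.1).comp_hasFDerivAt p hasFDerivAt_fst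
  have h2 : HasFDerivAt (fun p : ℂ × ℂ => p.2 ^ b)
      ((b * p.2 ^ (b - 1)) • ContinuousLinearMap.snd ℂ ℂ ℂ) p :=
    (hasDerivAt_pow b p.2).comp_hasFDerivAt p hasFDerivAt_snd
  refine ⟨_, h1.mul h2, ?_, ?_⟩
  · simp
    ring
  · simp

/-- **the Jacobian in the charts** -/
theorem jac_chart {c : Ch T.m} {z : ℂ × ℂ → ℂ} {p : ℂ × ℂ} (hc : T.Valid c)
    (hp : ‖(T.map c p).1‖ ^ T.M < T.ρ) (hz : DifferentiableAt ℂ z p) :
    jac2 (T.th c z) p = T.jk c * p.1 ^ (T.jx c).1 * p.2 ^ (T.jx c).2 := by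
  have h1 : T.th c z = fun p => pt (z p) (T.A (T.sc c p ^ T.N,
      (fun s : ℂ => T.φ (T.ix c) (s ^ T.M)) (T.sc c p) + T.mc c p)) := by
    funext p
    show pt (z p) (T.base (T.map c p)) = _
    rw [T.map_eq]
    rfl
  rw [h1]
  rw [T.map_fst] at hp
  have hN := T.N_pos
  have hg := (T.gg_an (T.ix c) hp).differentiableAt.hasDerivAt
  have hsc := (T.sc_an c p).differentiableAt.hasFDerivAt
  cases c with
  | edge i k k' =>
    obtain ⟨L, hL, hL1, hL2⟩ := fd_mono 1 1 p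
    obtain ⟨K, hK, hK1, hK2⟩ := fd_mono (T.M * k) (T.M * k') p
    have hL' : HasFDerivAt (T.sc (.edge i k k')) L p := by
      refine hL.congr_of_eventuallyEq (Eventually.of_forall fun q => ?_)
      simp [sc]
    rw [T.jac_gen T.N hz.hasFDerivAt hL' (m := T.mc (.edge i k k')) hK hg, hL1, hL2, hK1, hK2]
    have h3 : k < k' := hc.2.2.1
    have h4 : T.M * k' = (T.M * k' - 1) + 1 := by
      have : 0 < T.M * k' := Nat.mul_pos T.M_pos (by omega)
      omega
    have e2 : p.2 * p.2 ^ (T.M * k' - 1) = p.2 ^ (T.M * k') := by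
      conv_rhs => rw [h4, pow_succ]
      ring
    have e1 : (T.M * k : ℕ) * (p.1 * p.1 ^ (T.M * k - 1)) = (T.M * k : ℕ) * p.1 ^ (T.M * k) := by
      rcases Nat.eq_zero_or_pos (T.M * k) with h | h
      · rw [h]; simp
      · have h5 : T.M * k = (T.M * k - 1) + 1 := by omega
        congr 1
        conv_rhs => rw [h5, pow_succ]
        ring
    simp only [sc, jk, jx, Nat.sub_self, pow_zero, Nat.cast_one, one_mul, mul_one, pow_one, pow_add,
      mul_pow]
    linear_combination (T.detA * (T.N * (p.1 ^ (T.N - 1) * p.2 ^ (T.N - 1))) * p.1 ^ (T.M * k) *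
      (T.M * k' : ℕ)) * e2 - (T.detA * (T.N * (p.1 ^ (T.N - 1) * p.2 ^ (T.N - 1))) *
        p.2 ^ (T.M * k')) * e1
  | leg i =>
    obtain ⟨K, hK, hK1, hK2⟩ := fd_mono (T.M * T.top i) T.M p
    have hL' : HasFDerivAt (T.sc (.leg i)) (ContinuousLinearMap.fst ℂ ℂ ℂ) p := hasFDerivAt_fst
    rw [T.jac_gen T.N hz.hasFDerivAt hL' (m := T.mc (.leg i)) hK hg, hK1, hK2]
    simp only [ContinuousLinearMap.coe_fst', sc, jk, jx, one_mul, zero_mul, sub_zero, pow_add]
    ring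
  | vert i k w₀ =>
    obtain ⟨K, hK, hK1, hK2⟩ := fd_mono (T.M * k) 0 p
    obtain ⟨K', hK', hK1', hK2'⟩ := fd_mono (T.M * k) 1 p
    have hL' : HasFDerivAt (T.sc (.vert i k w₀)) (ContinuousLinearMap.fst ℂ ℂ ℂ) p := hasFDerivAt_fst
    have hm : HasFDerivAt (T.mc (.vert i k w₀)) (w₀ • K + K') p := by
      refine ((hK.const_mul w₀).add hK').congr_of_eventuallyEq (Eventually.of_forall fun q => ?_)
      simp [mc]
      ring
    rw [T.jac_gen T.N hz.hasFDerivAt hL' hm hg]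
    simp only [ContinuousLinearMap.coe_fst', sc, jk, jx, one_mul, zero_mul, sub_zero, pow_add,
      add_apply, smul_apply, smul_eq_mul, hK2, hK2',
      Nat.cast_zero, zero_mul, mul_zero, zero_add, Nat.cast_one, Nat.sub_self, pow_zero, mul_one]
    ring

end TB

end Crest.Agent.R257.T387
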