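import Mathlib
import Crest.Agent.R257.CDataA_250
import Crest.Agent.R257.T7_387

/-!
Row 257, part C, task C-DATA (helper250), file B: charts, the list of properties of the data,
smallness near the non exceptional axes.
-/

set_option autoImplicit false
set_option linter.unusedSectionVars false

noncomputable section

open Set Filter Topology MeasureTheory Metric
open scoped ENNReal

namespace Crest.Agent.R257.CDataB_250

open Crest.AlgGeometry.Germ Crest.Agent.R257.AJ387 Crest.Agent.R257.T387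
open Crest.Agent.R257.Gr1_157 Crest.Agent.R257.HoB_843 Crest.Agent.R257.BP_258
open Crest.Agent.R257.CDataA_250
open Crest.Agent.R257.T0_387 (ptL ptL_apply)

variable {f : (Fin 3 → ℂ) → ℂ} {T : TB f} {U : Tub T} {S : Sh T}

/-- **admissible data for the Hörmander step**: `D` the function, `O` the open sets, `κ` the bound -/
structure Adm (S : Sh T) (F : Finset (Ch T.m)) (Φ : (Fin 3 → ℂ) → ℝ) (ρ : ℝ)
    (D : (Fin 3 → ℂ) → ℂ) (O : Ch T.m → Fin T.d → Set (ℂ × ℂ))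
    (κ : Ch T.m → Fin T.d → ℂ × ℂ → ℝ) : Prop where
  op : ∀ c ∈ F, ∀ j, IsOpen (O c j)
  sub : ∀ c ∈ F, ∀ j, ∀ p ∈ O c j, p ∈ Og (S := S) c ρ ∧ ‖(T.map c p).2‖ < ρ
  cov : ∀ c ∈ F, ∀ j, ∀ p ∈ Og (S := S) c ρ, ‖(T.map c p).2‖ < ρ →
    (∀ i, (T.map c p).2 ≠ T.φ i ((T.map c p).1 ^ T.M)) →
    ∃ c' ∈ F, ∃ j', ∃ p' ∈ O c' j', wc S c' j' p' = wc S c j p
  sm : ∀ c ∈ F, ∀ j, ∀ p ∈ O c j, ContDiffAt ℝ (⊤ : ℕ∞) (D ∘ wc S c j) p
  nn : ∀ c j p, 0 ≤ κ c j p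
  me : ∀ c j, Measurable (κ c j)
  db : ∀ c ∈ F, ∀ j, ∀ p ∈ O c j, ∀ w,
    ‖dbE (D ∘ wc S c j) p w‖ ^ 2 ≤ κ c j p * lvE (Φ ∘ wc S c j) p w
  iK : ∀ c ∈ F, ∀ j, ∫⁻ p in O c j, ENNReal.ofReal (κ c j p * Real.exp (-Φ (wc S c j p)) *
    dn S c j p ^ 2) ≠ ∞
  iD : ∀ c ∈ F, ∀ j, ∫⁻ p in O c j, ENNReal.ofReal (‖D (wc S c j p)‖ ^ 2 * dn S c j p ^ 2) ≠ ∞

/-- what is used of the weight: `κ` the set of sheets on which the data live, `τ₀ < τ₁` -/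
structure WTk (L : Lab U S) (y : II U → ℝ) (F : Finset (Ch T.m)) (κ : Set (Ch T.m × Fin T.d))
    (τ₀ τ₁ : ℝ) (Φ : (Fin 3 → ℂ) → ℝ) (ρ₀ C c₀ : ℝ) : Prop where
  ρ_pos : 0 < ρ₀
  c_pos : 0 < c₀
  psh : ∀ c ∈ F, ∀ j, ∀ p ∈ Og (S := S) c ρ₀, ∀ w, 0 ≤ lvE (Φ ∘ wc S c j) p w
  lo : ∀ c ∈ F, ∀ j, (c, j) ∈ κ → ∀ p ∈ Og (S := S) c ρ₀, p ∈ BD τ₁ τ₁ →
    (τ₀ ≤ ‖p.1‖ ∨ τ₀ ≤ ‖p.2‖) → yo y (L.e1 c j) * Real.log (‖p.1‖ ^ 2) +
      yo y (L.e2 c j) * Real.log (‖p.2‖ ^ 2) - C ≤ Φ (wc S c j p)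
  st1 : ∀ c ∈ F, ∀ j, (c, j) ∈ κ → ∀ p ∈ Og (S := S) c ρ₀, p ∈ BD τ₁ τ₁ → L.e1 c j ≠ none →
    τ₀ ≤ ‖p.2‖ → ∀ w, c₀ * (‖w.1‖ ^ 2 + ‖w.2‖ ^ 2) ≤ lvE (Φ ∘ wc S c j) p w
  st2 : ∀ c ∈ F, ∀ j, (c, j) ∈ κ → ∀ p ∈ Og (S := S) c ρ₀, p ∈ BD τ₁ τ₁ → L.e2 c j ≠ none →
    τ₀ ≤ ‖p.1‖ → ∀ w, c₀ * (‖w.1‖ ^ 2 + ‖w.2‖ ^ 2) ≤ lvE (Φ ∘ wc S c j) p w

/-! ### charts -/

lemma mem2 {c : Ch T.m} {p : ℂ × ℂ} (h1 : ‖p.1‖ ≤ S.r c) (h2 : ‖p.2‖ ≤ S.r c) :
    p ∈ BD (2 * S.r c) (2 * S.r c) := by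
  have := S.pos c
  exact ⟨by linarith, by linarith⟩

lemma wc_an {c : Ch T.m} (hc : T.Valid c) (j : Fin T.d) {p : ℂ × ℂ}
    (hp : p ∈ BD (2 * S.r c) (2 * S.r c)) : AnalyticAt ℂ (wc S c j) p := by
  have hS := S.sheets c hc
  have h1 : wc S c j = fun p => ptL (T.map c p, S.ζ c j p) := by
    funext p
    rw [ptL_apply]
    rfl
  rw [h1]
  exact (ptL.analyticAt _).comp ((hS.map_an hp).prod (hS.an j p hp))

lemma map_wc {c c' : Ch T.m} {j j' : Fin T.d} {p p' : ℂ × ℂ} (h : wc S c j p = wc S c' j' p') :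
    T.map c p = T.map c' p' := by
  have h1 := congrFun h 1
  have h2 := congrFun h 2
  exact Prod.ext h1 h2

lemma isOpen_Gen (c : Ch T.m) : IsOpen {p | T.Gen c p} := by
  cases c with
  | edge i k k' =>
    exact (isOpen_ne_fun continuous_fst continuous_const).inter
      (isOpen_ne_fun continuous_snd continuous_const)
  | leg i =>
    exact (isOpen_ne_fun continuous_fst continuous_const).inter
      (isOpen_ne_fun continuous_snd continuous_const)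
  | vert i k w₀ => exact isOpen_ne_fun continuous_fst continuous_const

lemma gen_fst {c : Ch T.m} {p : ℂ × ℂ} (h : T.Gen c p) : p.1 ≠ 0 := by
  cases c with
  | edge i k k' => exact h.1
  | leg i => exact h.1
  | vert i k w₀ => exact h

lemma sc_ne {c : Ch T.m} {p : ℂ × ℂ} (h : T.Gen c p) : (T.map c p).1 ≠ 0 := by
  rw [T.map_fst]
  cases c with
  | edge i k k' => exact mul_ne_zero h.1 h.2
  | leg i => exact h.1
  | vert i k w₀ => exact h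

lemma continuous_map1 (c : Ch T.m) : Continuous fun p => (T.map c p).1 := by
  have h1 : (fun p => (T.map c p).1) = T.sc c := funext fun p => T.map_fst c p
  rw [h1]
  exact continuous_iff_continuousAt.2 fun p => (T.sc_an c p).continuousAt

lemma isOpen_Og (c : Ch T.m) (ρ : ℝ) : IsOpen (Og (S := S) c ρ) := by
  have h1 : Og (S := S) c ρ = ({p | ‖p.1‖ < S.r c} ∩ {p | ‖p.2‖ < S.r c}) ∩
      ({p | T.Gen c p} ∩ {p | ‖(T.map c p).1‖ < ρ}) := by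
    ext p
    simp only [Og, mem_ofPred_eq, mem_inter_iff]
    tauto
  rw [h1]
  refine ((isOpen_lt continuous_fst.norm continuous_const).inter
    (isOpen_lt continuous_snd.norm continuous_const)).inter ((isOpen_Gen c).inter
    (isOpen_lt (continuous_map1 c).norm continuous_const))

lemma Og_mem2 {c : Ch T.m} {ρ : ℝ} {p : ℂ × ℂ} (hp : p ∈ Og (S := S) c ρ) :
    p ∈ BD (2 * S.r c) (2 * S.r c) := mem2 hp.1.le hp.2.1.le

lemma Og_mono {c : Ch T.m} {ρ ρ' : ℝ} (h : ρ ≤ ρ') : Og (S := S) c ρ ⊆ Og (S := S) c ρ' :=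
  fun _ hp => ⟨hp.1, hp.2.1, hp.2.2.1, hp.2.2.2.trans_le h⟩

/-- two points of one chart with the same image in the `(s, y')`-plane -/
lemma mono_inv {c : Ch T.m} (hc : T.Valid c) {p p' : ℂ × ℂ} (hp : T.Gen c p) (hp' : T.Gen c p')
    (h : T.map c p = T.map c p') :
    ∃ ω : ℂ, ‖ω‖ = 1 ∧ (match c with
      | .edge _ k k' => ω ^ (T.M * (k' - k)) = 1 ∧ p'.1 = ω⁻¹ * p.1
      | .leg _ => ω ^ T.M = 1 ∧ p'.1 = p.1
      | .vert _ _ _ => ω = 1 ∧ p'.1 = p.1) ∧ p'.2 = ω * p.2 := by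
  have hM := T.M_pos
  have e1 := congrArg Prod.fst h
  have e2 := congrArg Prod.snd h
  cases c with
  | edge i k k' =>
    simp only [TB.map] at e1 e2
    have hk : k < k' := hc.2.2.1
    have hl : 0 < T.M * (k' - k) := Nat.mul_pos hM (by omega)
    rw [e1] at e2
    have e3 := add_left_cancel e2
    have e4 : T.M * k' = T.M * k + T.M * (k' - k) := by
      rw [← mul_add]; congr 1; omega
    rw [e4, pow_add, pow_add, ← mul_assoc, ← mul_assoc, ← mul_pow, ← mul_pow, e1] at e3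
    have h0 : p'.1 * p'.2 ≠ 0 := mul_ne_zero hp'.1 hp'.2
    have e5 := mul_left_cancel₀ (pow_ne_zero _ h0) e3
    have hω : (p'.2 / p.2) ^ (T.M * (k' - k)) = 1 := by
      rw [div_pow, ← e5, div_self (pow_ne_zero _ hp.2)]
    refine ⟨p'.2 / p.2, ?_, ⟨hω, ?_⟩, ?_⟩
    · exact (pow_eq_one_iff_of_nonneg (norm_nonneg _) hl.ne').1 (by rw [← norm_pow, hω, norm_one])
    · have h2 := hp.2
      have h3 := hp'.2
      rw [inv_div]
      field_simp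
      rw [mul_comm p.2 p.1, e1]
    · rw [div_mul_cancel₀ _ hp.2]
  | leg i =>
    simp only [TB.map] at e1 e2
    rw [e1] at e2
    have e3 := mul_left_cancel₀ (pow_ne_zero _ hp'.1) (add_left_cancel e2)
    have hω : (p'.2 / p.2) ^ T.M = 1 := by
      rw [div_pow, ← e3, div_self (pow_ne_zero _ hp.2)]
    refine ⟨p'.2 / p.2, ?_, ⟨hω, e1.symm⟩, ?_⟩
    · exact (pow_eq_one_iff_of_nonneg (norm_nonneg _) hM.ne').1 (by rw [← norm_pow, hω, norm_one])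
    · rw [div_mul_cancel₀ _ hp.2]
  | vert i k w₀ =>
    simp only [TB.map] at e1 e2
    rw [e1] at e2
    have e3 := mul_left_cancel₀ (pow_ne_zero _ hp') (add_left_cancel e2)
    have e4 := add_left_cancel e3
    exact ⟨1, norm_one, ⟨rfl, e1.symm⟩, by rw [one_mul, e4]⟩

/-- the divisibility which makes `α^m1 β^m2` a function of the point -/
def Dv (T : TB f) : Ch T.m → ℕ → ℕ → Prop
  | .edge _ k k', m1, m2 => T.M * (k' - k) ∣ m1 ∧ T.M * (k' - k) ∣ m2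
  | .leg _, _, m2 => T.M ∣ m2
  | .vert _ _ _, _, _ => True

lemma pow_of_dvd {ω : ℂ} {l m : ℕ} (h : ω ^ l = 1) (hd : l ∣ m) : ω ^ m = 1 := by
  obtain ⟨n, rfl⟩ := hd
  rw [pow_mul, h, one_pow]

lemma mono_eq {c : Ch T.m} (hc : T.Valid c) {p p' : ℂ × ℂ} (hp : T.Gen c p) (hp' : T.Gen c p')
    (h : T.map c p = T.map c p') {m1 m2 : ℕ} (hd : Dv T c m1 m2) :
    p'.1 ^ m1 * p'.2 ^ m2 = p.1 ^ m1 * p.2 ^ m2 ∧ ‖p'.1‖ = ‖p.1‖ ∧ ‖p'.2‖ = ‖p.2‖ := by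
  obtain ⟨ω, h1, h2, h3⟩ := mono_inv hc hp hp' h
  cases c with
  | edge i k k' =>
    obtain ⟨h4, h5⟩ := h2
    refine ⟨?_, ?_, ?_⟩
    · rw [h5, h3, mul_pow, mul_pow, inv_pow, pow_of_dvd h4 hd.1, pow_of_dvd h4 hd.2]
      simp
    · rw [h5, norm_mul, norm_inv, h1, inv_one, one_mul]
    · rw [h3, norm_mul, h1, one_mul]
  | leg i =>
    obtain ⟨h4, h5⟩ := h2
    refine ⟨?_, ?_, ?_⟩
    · have h6 : ω ^ m2 = 1 := pow_of_dvd h4 hd
      rw [h5, h3, mul_pow, h6, one_mul]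
    · rw [h5]
    · rw [h3, norm_mul, h1, one_mul]
  | vert i k w₀ =>
    obtain ⟨h4, h5⟩ := h2
    rw [h4, one_mul] at h3
    rw [h5, h3]
    exact ⟨rfl, rfl, rfl⟩

/-- near the origin of the `(s, y')`-plane the charts stay away from the non exceptional axes -/
lemma small (c : Ch T.m) (hc : T.Valid c) {τ : ℝ} (hτ : 0 < τ) : ∃ δ > 0, ∀ p : ℂ × ℂ,
    ‖p.1‖ ≤ S.r c → ‖p.2‖ ≤ S.r c →
    (v1 T c = none ∧ τ ≤ ‖p.2‖) ∨ (v2 T c = none ∧ τ ≤ ‖p.1‖) → δ ≤ ‖T.map c p‖ := by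
  set A : Set (ℂ × ℂ) := (closedBall (0 : ℂ) (S.r c) ×ˢ closedBall (0 : ℂ) (S.r c)) ∩
    {p | (v1 T c = none ∧ τ ≤ ‖p.2‖) ∨ (v2 T c = none ∧ τ ≤ ‖p.1‖)} with hA
  have hAc : IsCompact A := by
    refine ((isCompact_closedBall _ _).prod (isCompact_closedBall _ _)).inter_right ?_
    have h1 : {p : ℂ × ℂ | (v1 T c = none ∧ τ ≤ ‖p.2‖) ∨ (v2 T c = none ∧ τ ≤ ‖p.1‖)} =
        ({p | v1 T c = none} ∩ {p | τ ≤ ‖p.2‖}) ∪ ({p | v2 T c = none} ∩ {p | τ ≤ ‖p.1‖}) := rfl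
    rw [h1]
    refine (IsClosed.inter ?_ (isClosed_le continuous_const continuous_snd.norm)).union
      (IsClosed.inter ?_ (isClosed_le continuous_const continuous_fst.norm))
    · exact isClosed_const
    · exact isClosed_const
  have hm : ContinuousOn (T.map c) A := fun p hp => by
    have h2 : p ∈ BD (2 * S.r c) (2 * S.r c) := mem2 (by simpa using hp.1.1) (by simpa using hp.1.2)
    exact ((S.sheets c hc).map_an h2).continuousAt.continuousWithinAt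
  rcases A.eq_empty_or_nonempty with he | hne
  · refine ⟨1, one_pos, fun p h1 h2 h3 => ?_⟩
    have : p ∈ A := ⟨⟨by simpa using h1, by simpa using h2⟩, h3⟩
    rw [he] at this
    exact this.elim
  · obtain ⟨p₀, hp₀, hmin⟩ := hAc.exists_isMinOn hne hm.norm
    refine ⟨‖T.map c p₀‖, ?_, fun p h1 h2 h3 => ?_⟩
    · rw [gt_iff_lt, norm_pos_iff]
      intro h0
      rw [T.map_eq_zero hc] at h0
      cases c with
      | edge i k k' =>
        rcases hp₀.2 with h | h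
        · have hk : k = 0 := by
            by_contra hk
            simp only [v1, hk, if_false] at h
            exact absurd h.1 (by simp)
          rcases h0 with h4 | h4
          · exact h4.1 hk
          · rw [h4, norm_zero] at h; linarith [h.2]
        · exact absurd h.1 (by simp [v2])
      | leg i =>
        rcases hp₀.2 with h | h
        · exact absurd h.1 (by simp [v1])
        · have h4 : p₀.1 = 0 := h0
          rw [h4, norm_zero] at h; linarith [h.2]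
      | vert i k w₀ =>
        rcases hp₀.2 with h | h
        · exact absurd h.1 (by simp [v1])
        · have h4 : p₀.1 = 0 := h0
          rw [h4, norm_zero] at h; linarith [h.2]
    · exact hmin (⟨⟨by simpa using h1, by simpa using h2⟩, h3⟩ : p ∈ A)

lemma v1_none {L : Lab U S} {c : Ch T.m} (hc : Ok S c) {j : Fin T.d} (h : L.e1 c j = none) :
    v1 T c = none := by
  have := L.v_e1 c hc j
  rw [h] at this
  exact this.symm

lemma v2_none {L : Lab U S} {c : Ch T.m} (hc : Ok S c) {j : Fin T.d} (h : L.e2 c j = none) :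
    v2 T c = none := by
  have := L.v_e2 c hc j
  rw [h] at this
  exact this.symm

/-- uniform version of `small` -/
lemma small_F {F : Finset (Ch T.m)} (hF : ∀ c ∈ F, Ok S c) (L : Lab U S) {τ : ℝ} (hτ : 0 < τ) :
    ∃ δ > 0, ∀ c ∈ F, ∀ j, ∀ p : ℂ × ℂ, ‖p.1‖ ≤ S.r c → ‖p.2‖ ≤ S.r c →
      ‖(T.map c p).1‖ < δ → ‖(T.map c p).2‖ < δ →
      (τ ≤ ‖p.2‖ → L.e1 c j ≠ none) ∧ (τ ≤ ‖p.1‖ → L.e2 c j ≠ none) := by
  classical
  have h1 : ∀ c : Ch T.m, ∃ δ > 0, c ∈ F → ∀ p : ℂ × ℂ, ‖p.1‖ ≤ S.r c → ‖p.2‖ ≤ S.r c →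
      (v1 T c = none ∧ τ ≤ ‖p.2‖) ∨ (v2 T c = none ∧ τ ≤ ‖p.1‖) → δ ≤ ‖T.map c p‖ := by
    intro c
    by_cases hc : c ∈ F
    · obtain ⟨δ, hδ, h⟩ := small (S := S) c (hF c hc).1 hτ
      exact ⟨δ, hδ, fun _ => h⟩
    · exact ⟨1, one_pos, fun h => absurd h hc⟩
  choose δ hδ h using h1
  obtain ⟨ε, hε, hεF⟩ : ∃ ε > 0, ∀ c ∈ F, ε ≤ δ c := by
    rcases F.eq_empty_or_nonempty with he | hne
    · exact ⟨1, one_pos, fun c hc => by rw [he] at hc; simp at hc⟩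
    · obtain ⟨c₀, hc₀, hmin⟩ := F.exists_min_image δ hne
      exact ⟨δ c₀, hδ c₀, fun c hc => hmin c hc⟩
  refine ⟨ε, hε, fun c hc j p hp1 hp2 hs hy => ?_⟩
  have hlt : ‖T.map c p‖ < ε := by
    rw [Prod.norm_def]; exact max_lt hs hy
  constructor
  · intro h2 h3
    exact absurd (h c hc p hp1 hp2 (Or.inl ⟨v1_none (hF c hc) h3, h2⟩))
      (not_le.2 (hlt.trans_le (hεF c hc)))
  · intro h2 h3
    exact absurd (h c hc p hp1 hp2 (Or.inr ⟨v2_none (hF c hc) h3, h2⟩))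
      (not_le.2 (hlt.trans_le (hεF c hc)))

end Crest.Agent.R257.CDataB_250
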