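import Mathlib
import Crest.Agent.R257.CDataB_250

/-!
Row 257, part C, task C-DATA (helper250), file C: **the data at the kills**: `D = α^m1 β^m2 χ` in the killed
bidiscs, `0` elsewhere.
-/

set_option autoImplicit false
set_option linter.unusedSectionVars false

noncomputable section

open Set Filter Topology MeasureTheory Metric
open scoped ENNReal

namespace Crest.Agent.R257.CDataC_250

open Crest.AlgGeometry.Germ Crest.Agent.R257.AJ387 Crest.Agent.R257.T387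
open Crest.Agent.R257.Gr1_157 Crest.Agent.R257.HoB_843 Crest.Agent.R257.BP_258
open Crest.Agent.R257.CDataA_250 Crest.Agent.R257.CDataB_250

variable {f : (Fin 3 → ℂ) → ℂ} {T : TB f} {U : Tub T} {S : Sh T} {F : Finset (Ch T.m)}

/-- representation of a point in a killed bidisc -/
def Rep (S : Sh T) (κ : Set (Ch T.m × Fin T.d)) (r : ℝ) (x : Fin 3 → ℂ)
    (q : (Ch T.m × Fin T.d) × (ℂ × ℂ)) : Prop :=
  q.1 ∈ κ ∧ q.2 ∈ BD r r ∧ T.Gen q.1.1 q.2 ∧ wc S q.1.1 q.1.2 q.2 = x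

open Classical in
/-- the data -/
def Dk (S : Sh T) (κ : Set (Ch T.m × Fin T.d)) (m1 m2 : Ch T.m → ℕ) (a b r : ℝ)
    (x : Fin 3 → ℂ) : ℂ :=
  if h : ∃ q, Rep S κ r x q then h.choose.2.1 ^ m1 h.choose.1.1 * h.choose.2.2 ^ m2 h.choose.1.1 *
    (c2 a b h.choose.2 : ℂ) else 0

/-- the closed set containing the support -/
def Zk (S : Sh T) (κ : Set (Ch T.m × Fin T.d)) (b : ℝ) : Set (Fin 3 → ℂ) :=
  ⋃ a ∈ κ, wc S a.1 a.2 '' (closedBall (0 : ℂ) b ×ˢ closedBall (0 : ℂ) b)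

variable {κ : Set (Ch T.m × Fin T.d)} {m1 m2 : Ch T.m → ℕ} {a b r : ℝ}

lemma Dk_eq (hex : ∀ q ∈ κ, ∀ q' ∈ κ, ∀ p p', p ∈ BD r r → p' ∈ BD r r → T.Gen q.1 p →
      T.Gen q'.1 p' → wc S q.1 q.2 p = wc S q'.1 q'.2 p' → q'.1 = q.1)
    (hv : ∀ q ∈ κ, T.Valid q.1) (hd : ∀ q ∈ κ, Dv T q.1 (m1 q.1) (m2 q.1))
    {q : Ch T.m × Fin T.d} (hq : q ∈ κ) {p : ℂ × ℂ} (hp : p ∈ BD r r) (hg : T.Gen q.1 p) :
    Dk S κ m1 m2 a b r (wc S q.1 q.2 p) = p.1 ^ m1 q.1 * p.2 ^ m2 q.1 * (c2 a b p : ℂ) := by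
  have h : ∃ q', Rep S κ r (wc S q.1 q.2 p) q' := ⟨(q, p), hq, hp, hg, rfl⟩
  unfold Dk
  rw [dif_pos h]
  obtain ⟨h1, h2, h3, h4⟩ := h.choose_spec
  have h5 : h.choose.1.1 = q.1 := hex q hq _ h1 p _ hp h2 hg h3 h4.symm
  have h6 : T.map h.choose.1.1 h.choose.2 = T.map q.1 p := map_wc h4
  generalize h.choose = q' at h1 h2 h3 h4 h5 h6
  rw [h5] at h3 h6 ⊢
  obtain ⟨e1, e2, e3⟩ := mono_eq (hv q hq) hg h3 h6.symm (hd q hq)
  rw [e1, c2_congr e2 e3]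

lemma Dk_zero (ha : 0 < a) (hab : a < b) {x : Fin 3 → ℂ} (hx : x ∉ Zk S κ b) :
    Dk S κ m1 m2 a b r x = 0 := by
  unfold Dk
  split_ifs with h
  · obtain ⟨h1, h2, h3, h4⟩ := h.choose_spec
    have h5 : b ≤ ‖h.choose.2.1‖ ∨ b ≤ ‖h.choose.2.2‖ := by
      by_contra h6
      push Not at h6
      apply hx
      simp only [Zk, mem_iUnion]
      exact ⟨h.choose.1, h1, h.choose.2, ⟨by simpa using h6.1.le, by simpa using h6.2.le⟩, h4⟩
    rw [c2_zero ha hab h5]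
    simp
  · rfl

lemma Dk_ne {x : Fin 3 → ℂ} (hx : Dk S κ m1 m2 a b r x ≠ 0) :
    ∃ q ∈ κ, ∃ p ∈ BD r r, T.Gen q.1 p ∧ x = wc S q.1 q.2 p := by
  unfold Dk at hx
  split_ifs at hx with h
  · obtain ⟨h1, h2, h3, h4⟩ := h.choose_spec
    exact ⟨_, h1, _, h2, h3, h4.symm⟩
  · exact absurd rfl hx

lemma finite_κ (hκF : ∀ q ∈ κ, q.1 ∈ F) : κ.Finite := by
  refine ((F ×ˢ (Finset.univ : Finset (Fin T.d))).finite_toSet).subset fun q hq => ?_
  simp [hκF q hq]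

lemma isClosed_Zk (hF : ∀ c ∈ F, Ok S c) (hκF : ∀ q ∈ κ, q.1 ∈ F) (hb : ∀ c ∈ F, b ≤ S.r c) : IsClosed (Zk S κ b) := by
  refine (finite_κ hκF).isClosed_biUnion fun q hq => ?_
  refine IsCompact.isClosed ?_
  refine ((isCompact_closedBall _ _).prod (isCompact_closedBall _ _)).image_of_continuousOn ?_
  intro p hp
  have hqF := hκF q hq
  have h2 : p ∈ BD (2 * S.r q.1) (2 * S.r q.1) :=
    mem2 ((by simpa using hp.1 : ‖p.1‖ ≤ b).trans (hb _ hqF))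
      ((by simpa using hp.2 : ‖p.2‖ ≤ b).trans (hb _ hqF))
  exact (wc_an (hF _ hqF).1 q.2 h2).continuousAt.continuousWithinAt

lemma gen_of {c c' : Ch T.m} {p p' : ℂ × ℂ} (hp : T.Gen c p) (h : T.map c' p' = T.map c p)
    (hoff : ∀ i, (T.map c p).2 ≠ T.φ i ((T.map c p).1 ^ T.M)) : T.Gen c' p' := by
  have hs := sc_ne hp
  rw [← h] at hs hoff
  cases c' with
  | edge i k k' => exact ⟨left_ne_zero_of_mul hs, right_ne_zero_of_mul hs⟩
  | leg i =>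
    refine ⟨hs, fun h0 => hoff i ?_⟩
    show T.φ i (p'.1 ^ T.M) + p'.1 ^ (T.M * T.top i) * p'.2 ^ T.M = T.φ i (p'.1 ^ T.M)
    rw [h0, zero_pow T.M_pos.ne', mul_zero, add_zero]
  | vert i k w₀ => exact hs

open Classical in
/-- **the data at the kills** -/
theorem kill_data (L : Lab U S) {nu : II U → ℤ} {n1 n2 : Ch T.m → Fin T.d → ℤ}
    (J : Jac L nu n1 n2) {y : II U → ℝ} (hF : ∀ c ∈ F, Ok S c) (κs : Set (Ch T.m × Fin T.d))
    (hκF : ∀ q ∈ κs, q.1 ∈ F)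
    (hex₀ : ∃ r > 0, ∀ q ∈ κs, ∀ q' ∈ κs, ∀ p p', p ∈ BD r r → p' ∈ BD r r → T.Gen q.1 p →
      T.Gen q'.1 p' → wc S q.1 q.2 p = wc S q'.1 q'.2 p' → q'.1 = q.1)
    (m1 m2 : Ch T.m → ℕ) (hd : ∀ q ∈ κs, Dv T q.1 (m1 q.1) (m2 q.1))
    (hn1 : ∀ q ∈ κs, n1 q.1 q.2 < m1 q.1) (hn2 : ∀ q ∈ κs, n2 q.1 q.2 < m2 q.1)
    (hy1 : ∀ q ∈ κs, L.e1 q.1 q.2 ≠ none → yo y (L.e1 q.1 q.2) + n1 q.1 q.2 < m1 q.1)
    (hy2 : ∀ q ∈ κs, L.e2 q.1 q.2 ≠ none → yo y (L.e2 q.1 q.2) + n2 q.1 q.2 < m2 q.1)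
    {r₀ : ℝ} (hr₀ : 0 < r₀) {τ₁ : ℝ} (hτ₁ : 0 < τ₁) :
    ∃ τ > 0, τ < τ₁ ∧ ∀ (Φ : (Fin 3 → ℂ) → ℝ) (ρ₀ C c₀ : ℝ), WTk L y F κs τ τ₁ Φ ρ₀ C c₀ →
      ∃ ρ > 0, ρ ≤ ρ₀ ∧ ∃ (D : (Fin 3 → ℂ) → ℂ) (O : Ch T.m → Fin T.d → Set (ℂ × ℂ))
        (κ : Ch T.m → Fin T.d → ℂ × ℂ → ℝ), Adm S F Φ ρ D O κ ∧
        (∀ q ∈ κs, ∀ p ∈ BD τ τ, T.Gen q.1 p →
          D (wc S q.1 q.2 p) = p.1 ^ m1 q.1 * p.2 ^ m2 q.1) ∧
        (∀ x, D x ≠ 0 → ∃ q ∈ κs, ∃ p ∈ BD r₀ r₀, T.Gen q.1 p ∧ x = wc S q.1 q.2 p) := by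
  obtain ⟨r₁, hr₁, hex₁⟩ := hex₀
  obtain ⟨r₂, hr₂, hr₂F⟩ : ∃ ε > 0, ∀ c ∈ F, ε ≤ S.r c := by
    rcases F.eq_empty_or_nonempty with he | hne
    · exact ⟨1, one_pos, fun c hc => by rw [he] at hc; simp at hc⟩
    · obtain ⟨c₀, hc₀, hmin⟩ := F.exists_min_image S.r hne
      exact ⟨S.r c₀, S.pos c₀, fun c hc => hmin c hc⟩
  set r : ℝ := min (min r₁ τ₁) (min r₂ r₀) with hr
  have hr0 : 0 < r := by positivity
  have hrr₁ : r ≤ r₁ := (min_le_left _ _).trans (min_le_left _ _)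
  have hrτ₁ : r ≤ τ₁ := (min_le_left _ _).trans (min_le_right _ _)
  have hrr₂ : r ≤ r₂ := (min_le_right _ _).trans (min_le_left _ _)
  have hrr₀ : r ≤ r₀ := (min_le_right _ _).trans (min_le_right _ _)
  have hrF : ∀ c ∈ F, r ≤ S.r c := fun c hc => hrr₂.trans (hr₂F c hc)
  have hex : ∀ q ∈ κs, ∀ q' ∈ κs, ∀ p p', p ∈ BD r r → p' ∈ BD r r → T.Gen q.1 p →
      T.Gen q'.1 p' → wc S q.1 q.2 p = wc S q'.1 q'.2 p' → q'.1 = q.1 := by
    intro q hq q' hq' p p' hp hp' hg hg' h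
    have hm : ∀ p : ℂ × ℂ, p ∈ BD r r → p ∈ BD r₁ r₁ := fun p hp =>
      ⟨lt_of_lt_of_le hp.1 hrr₁, lt_of_lt_of_le hp.2 hrr₁⟩
    exact hex₁ q hq q' hq' p p' (hm p hp) (hm p' hp') hg hg' h
  have hv : ∀ q ∈ κs, T.Valid q.1 := fun q hq => (hF _ (hκF q hq)).1
  set τ : ℝ := r / 3 with hτ
  set b : ℝ := r / 2 with hb
  have hτ0 : 0 < τ := by positivity
  have hτb : τ < b := by rw [hτ, hb]; linarith
  have hbr : b < r := by rw [hb]; linarith
  obtain ⟨Cχ, hCχ0, hCχ⟩ := c2_bd hτ0 hτb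
  have hBDτ₁ : ∀ p : ℂ × ℂ, p ∈ BD r r → p ∈ BD τ₁ τ₁ := fun p hp =>
    ⟨lt_of_lt_of_le hp.1 hrτ₁, lt_of_lt_of_le hp.2 hrτ₁⟩
  refine ⟨τ, hτ0, (hτb.trans hbr).trans_le hrτ₁, fun Φ ρ₀ C c₀ hW => ?_⟩
  have hρ₀ := hW.ρ_pos
  have hc₀ := hW.c_pos
  obtain ⟨δ, hδ, hδF⟩ := small_F hF L hτ0
  set ρ : ℝ := min ρ₀ δ with hρ
  have hρ0 : 0 < ρ := lt_min hρ₀ hδ
  have hρρ : ρ ≤ ρ₀ := min_le_left _ _
  set D : (Fin 3 → ℂ) → ℂ := Dk S κs m1 m2 τ b r with hD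
  set Z : Set (Fin 3 → ℂ) := Zk S κs b with hZ
  have hZc : IsClosed Z := isClosed_Zk hF hκF fun c hc => hbr.le.trans (hrF c hc)
  set O : Ch T.m → Fin T.d → Set (ℂ × ℂ) := fun c j => {p | p ∈ Og (S := S) c ρ ∧
    ‖(T.map c p).2‖ < ρ ∧ (((c, j) ∈ κs ∧ p ∈ BD r r) ∨ wc S c j p ∉ Z)} with hO
  set κ : Ch T.m → Fin T.d → ℂ × ℂ → ℝ := fun c j => if (c, j) ∈ κs then
    {p : ℂ × ℂ | p ∈ BD r r ∧ (τ ≤ ‖p.1‖ ∨ τ ≤ ‖p.2‖)}.indicator
      (fun p => Cχ ^ 2 / c₀ * (‖p.1‖ ^ m1 c * ‖p.2‖ ^ m2 c) ^ 2) else 0 with hκ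
  have hDeq : ∀ q ∈ κs, ∀ p ∈ BD r r, T.Gen q.1 p →
      D (wc S q.1 q.2 p) = p.1 ^ m1 q.1 * p.2 ^ m2 q.1 * (c2 τ b p : ℂ) := fun q hq p hp hg =>
    Dk_eq hex hv hd hq hp hg
  have hDz : ∀ x, x ∉ Z → D x = 0 := fun x hx => Dk_zero hτ0 hτb hx
  have hBDo : IsOpen (BD r r) := (isOpen_lt continuous_fst.norm continuous_const).inter
    (isOpen_lt continuous_snd.norm continuous_const)
  -- local form of the data
  have hloc1 : ∀ q ∈ κs, ∀ p ∈ BD r r, T.Gen q.1 p → D ∘ wc S q.1 q.2 =ᶠ[𝓝 p]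
      fun p => (p.1 ^ m1 q.1 * p.2 ^ m2 q.1) * (c2 τ b p : ℂ) := by
    intro q hq p hp hg
    filter_upwards [hBDo.mem_nhds hp, (isOpen_Gen q.1).mem_nhds hg] with p' h1 h2
    exact hDeq q hq p' h1 h2
  have hcont : ∀ c ∈ F, ∀ j, ContinuousOn (wc S c j) (Og (S := S) c ρ) := fun c hc j p hp =>
    (wc_an (hF c hc).1 j (Og_mem2 hp)).continuousAt.continuousWithinAt
  have hA2 : ∀ c ∈ F, ∀ j, IsOpen (Og (S := S) c ρ ∩ wc S c j ⁻¹' Zᶜ) := fun c hc j =>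
    (hcont c hc j).isOpen_inter_preimage (isOpen_Og c ρ) hZc.isOpen_compl
  have hloc2 : ∀ c ∈ F, ∀ j, ∀ p ∈ Og (S := S) c ρ, wc S c j p ∉ Z → D ∘ wc S c j =ᶠ[𝓝 p]
      fun _ => (0 : ℂ) := by
    intro c hc j p hp hpZ
    filter_upwards [(hA2 c hc j).mem_nhds ⟨hp, hpZ⟩] with p' h1
    exact hDz _ h1.2
  have hc2s : ∀ p : ℂ × ℂ, ContDiffAt ℝ (⊤ : ℕ∞) (fun p : ℂ × ℂ => (c2 τ b p : ℂ)) p := fun p =>
    (Complex.ofRealCLM.contDiff.comp (c2_smooth (a := τ) (b := b))).contDiffAt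
  have hmo : ∀ (n1 n2 : ℕ) (p : ℂ × ℂ), DifferentiableAt ℂ (fun p : ℂ × ℂ => p.1 ^ n1 * p.2 ^ n2) p :=
    fun n1 n2 p => (differentiableAt_fst.pow _).mul (differentiableAt_snd.pow _)
  have hmos : ∀ (n1 n2 : ℕ) (p : ℂ × ℂ),
      ContDiffAt ℝ (⊤ : ℕ∞) (fun p : ℂ × ℂ => p.1 ^ n1 * p.2 ^ n2) p :=
    fun n1 n2 p => (contDiffAt_fst.pow _).mul (contDiffAt_snd.pow _)
  -- zones
  have hzone : ∀ c ∈ F, ∀ j, ∀ p ∈ O c j, (τ ≤ ‖p.2‖ → L.e1 c j ≠ none) ∧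
      (τ ≤ ‖p.1‖ → L.e2 c j ≠ none) := by
    intro c hc j p hp
    obtain ⟨⟨h1, h2, h3, h4⟩, h5, -⟩ := hp
    exact hδF c hc j p h1.le h2.le (h4.trans_le (min_le_right _ _)) (h5.trans_le (min_le_right _ _))
  have hκ_in : ∀ c j, (c, j) ∈ κs → ∀ p, p ∈ BD r r → (τ ≤ ‖p.1‖ ∨ τ ≤ ‖p.2‖) →
      κ c j p = Cχ ^ 2 / c₀ * (‖p.1‖ ^ m1 c * ‖p.2‖ ^ m2 c) ^ 2 := by
    intro c j h p h1 h2
    simp only [hκ, if_pos h]
    exact indicator_of_mem (show p ∈ {p : ℂ × ℂ | p ∈ BD r r ∧ (τ ≤ ‖p.1‖ ∨ τ ≤ ‖p.2‖)} from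
      ⟨h1, h2⟩) _
  have hκ0 : ∀ c j p, 0 ≤ κ c j p := by
    intro c j p
    simp only [hκ]
    split_ifs with h
    · exact indicator_nonneg (fun p _ => by positivity) p
    · exact le_rfl
  have hκ_out : ∀ c j p, p ∉ BD r r → κ c j p = 0 := by
    intro c j p hp
    simp only [hκ]
    split_ifs with h
    · exact indicator_of_notMem (fun h2 => hp h2.1) _
    · rfl
  have hopen : ∀ c ∈ F, ∀ j, IsOpen (O c j) := by
    intro c hc j
    have hA1 : IsOpen (Og (S := S) c ρ ∩ wc S c j ⁻¹' {x | ‖x 2‖ < ρ}) :=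
      (hcont c hc j).isOpen_inter_preimage (isOpen_Og c ρ)
        (isOpen_lt (continuous_apply 2).norm continuous_const)
    have h1 : O c j = (Og (S := S) c ρ ∩ wc S c j ⁻¹' {x | ‖x 2‖ < ρ}) ∩
        (({p | (c, j) ∈ κs} ∩ BD r r) ∪ (Og (S := S) c ρ ∩ wc S c j ⁻¹' Zᶜ)) := by
      ext p
      constructor
      · rintro ⟨h1, h2, h3⟩
        refine ⟨⟨h1, h2⟩, ?_⟩
        rcases h3 with h3 | h3
        · exact Or.inl h3
        · exact Or.inr ⟨h1, h3⟩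
      · rintro ⟨⟨h1, h2⟩, h3⟩
        refine ⟨h1, h2, ?_⟩
        rcases h3 with h3 | h3
        · exact Or.inl h3
        · exact Or.inr h3.2
    rw [h1]
    exact hA1.inter ((isOpen_const.inter hBDo).union (hA2 c hc j))
  refine ⟨ρ, hρ0, hρρ, D, O, κ, ⟨hopen, ?_, ?_, ?_, hκ0, ?_, ?_, ?_, ?_⟩, ?_, ?_⟩
  · -- sub
    intro c hc j p hp
    exact ⟨hp.1, hp.2.1⟩
  · -- cov
    intro c hc j p hp h2 hoff
    by_cases hz : wc S c j p ∈ Z
    · have hz' := hz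
      rw [hZ] at hz'
      simp only [Zk, mem_iUnion] at hz'
      obtain ⟨q, hq, p', hp', hpp⟩ := hz'
      have hqF := hκF q hq
      have hm : T.map q.1 p' = T.map c p := map_wc hpp
      have h1 : ‖p'.1‖ < r := (by simpa using hp'.1 : ‖p'.1‖ ≤ b).trans_lt hbr
      have h3 : ‖p'.2‖ < r := (by simpa using hp'.2 : ‖p'.2‖ ≤ b).trans_lt hbr
      refine ⟨q.1, hqF, q.2, p', ⟨⟨h1.trans_le (hrF _ hqF), h3.trans_le (hrF _ hqF),
        gen_of hp.2.2.1 hm hoff, ?_⟩, ?_, Or.inl ⟨hq, h1, h3⟩⟩, hpp⟩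
      · rw [hm]; exact hp.2.2.2
      · rw [hm]; exact h2
    · exact ⟨c, hc, j, p, ⟨hp, h2, Or.inr hz⟩, rfl⟩
  · -- smooth
    intro c hc j p hp
    rcases hp.2.2 with h | h
    · refine ContDiffAt.congr_of_eventuallyEq ?_ (hloc1 _ h.1 p h.2 hp.1.2.2.1)
      exact (hmos _ _ p).mul (hc2s p)
    · exact contDiffAt_const.congr_of_eventuallyEq (hloc2 c hc j p hp.1 h)
  · -- measurable
    intro c j
    simp only [hκ]
    split_ifs with h
    · refine Measurable.indicator ?_ ?_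
      · exact ((((measurable_fst.norm).pow_const _).mul ((measurable_snd.norm).pow_const _)).pow_const
          _).const_mul _
      · refine hBDo.measurableSet.inter (MeasurableSet.union ?_ ?_)
        · exact (isClosed_le continuous_const continuous_fst.norm).measurableSet
        · exact (isClosed_le continuous_const continuous_snd.norm).measurableSet
    · exact measurable_const
  · -- the bound of `∂̄ D`
    intro c hc j p hp w
    have hpsh : 0 ≤ lvE (Φ ∘ wc S c j) p w := hW.psh c hc j p (Og_mono hρρ hp.1) w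
    rcases hp.2.2 with h | h
    · rw [dbE_congr (hloc1 _ h.1 p h.2 hp.1.2.2.1)]
      by_cases hzn : τ ≤ ‖p.1‖ ∨ τ ≤ ‖p.2‖
      · have h1 := dbE_mul_le (hmo (m1 c) (m2 c) p)
          ((c2_smooth (a := τ) (b := b)).differentiable (by simp) p) (hCχ p) w
        refine h1.trans ?_
        have h2 : c₀ * (‖w.1‖ ^ 2 + ‖w.2‖ ^ 2) ≤ lvE (Φ ∘ wc S c j) p w := by
          rcases hzn with h4 | h4
          · exact hW.st2 c hc j h.1 p (Og_mono hρρ hp.1) (hBDτ₁ p h.2) ((hzone c hc j p hp).2 h4)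
              h4 w
          · exact hW.st1 c hc j h.1 p (Og_mono hρρ hp.1) (hBDτ₁ p h.2) ((hzone c hc j p hp).1 h4)
              h4 w
        rw [hκ_in c j h.1 p h.2 hzn, norm_mul, norm_pow, norm_pow]
        calc (‖p.1‖ ^ m1 c * ‖p.2‖ ^ m2 c) ^ 2 * Cχ ^ 2 * (‖w.1‖ ^ 2 + ‖w.2‖ ^ 2)
            = (Cχ ^ 2 / c₀ * (‖p.1‖ ^ m1 c * ‖p.2‖ ^ m2 c) ^ 2) *
              (c₀ * (‖w.1‖ ^ 2 + ‖w.2‖ ^ 2)) := by field_simp
          _ ≤ _ := mul_le_mul_of_nonneg_left h2 (by positivity)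
      · push Not at hzn
        have h1 := dbE_mul_le (hmo (m1 c) (m2 c) p)
          ((c2_smooth (a := τ) (b := b)).differentiable (by simp) p) (C := 0)
          (by rw [c2_fderiv_zero hτ0 hτb hzn.1 hzn.2, norm_zero]) w
        refine h1.trans ?_
        simp only [ne_eq, OfNat.ofNat_ne_zero, not_false_eq_true, zero_pow, mul_zero, zero_mul]
        exact mul_nonneg (hκ0 _ _ _) hpsh
    · rw [dbE_congr (hloc2 c hc j p hp.1 h), dbE_hol (differentiableAt_const _) w, norm_zero]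
      simp only [ne_eq, OfNat.ofNat_ne_zero, not_false_eq_true, zero_pow]
      exact mul_nonneg (hκ0 _ _ _) hpsh
  · -- the integral of `κ`
    intro c hc j
    have hOm : MeasurableSet (O c j) := (hopen c hc j).measurableSet
    have hOR : ∀ p ∈ O c j, ‖p.1‖ < S.r c ∧ ‖p.2‖ < S.r c := fun p hp => ⟨hp.1.1, hp.1.2.1⟩
    have hZ1m : MeasurableSet {p : ℂ × ℂ | τ ≤ ‖p.2‖} :=
      (isClosed_le continuous_const continuous_snd.norm).measurableSet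
    have hZ2m : MeasurableSet {p : ℂ × ℂ | τ ≤ ‖p.1‖} :=
      (isClosed_le continuous_const continuous_fst.norm).measurableSet
    obtain ⟨Kd, hKd, hbd⟩ := J.bd c (hF c hc) j
    have hdn0 : ∀ p, 0 ≤ dn S c j p := fun p => by unfold dn; positivity
    by_cases h : (c, j) ∈ κs
    · have hsub : O c j ⊆ (O c j ∩ {p | τ ≤ ‖p.2‖}) ∪ ((O c j ∩ {p | τ ≤ ‖p.1‖}) ∪
          (O c j ∩ ({p | τ ≤ ‖p.2‖} ∪ {p | τ ≤ ‖p.1‖})ᶜ)) := by
        intro p hp
        by_cases h1 : τ ≤ ‖p.2‖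
        · exact Or.inl ⟨hp, h1⟩
        · by_cases h2 : τ ≤ ‖p.1‖
          · exact Or.inr (Or.inl ⟨hp, h2⟩)
          · exact Or.inr (Or.inr ⟨hp, fun h3 => h3.elim h1 h2⟩)
      refine ne_top_of_le_ne_top ?_ ((lintegral_mono_set hsub).trans ((lintegral_union_le _ _ _).trans
        (add_le_add le_rfl (lintegral_union_le _ _ _))))
      refine ENNReal.add_ne_top.2 ⟨?_, ENNReal.add_ne_top.2 ⟨?_, ?_⟩⟩
      · -- zone `|β| ≥ τ`
        by_cases he : L.e1 c j = none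
        · refine fin_int (hOm.inter hZ1m) (fun p hp => hOR p hp.1) (e := 1) (e' := 1) (C := 0)
            one_pos one_pos le_rfl fun p hp _ _ => ?_
          exact absurd he ((hzone c hc j p hp.1).1 hp.2)
        · have hpos := hy1 _ h he
          simp only at hpos
          refine fin_int (hOm.inter hZ1m) (fun p hp => hOR p hp.1)
            (e := (m1 c : ℝ) - yo y (L.e1 c j) - n1 c j) (e' := 1)
            (C := Cχ ^ 2 / c₀ * (Real.exp C * (1 : ℝ) ^ (-(0 : ℝ)) * Kd ^ 2 *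
              τ ^ (-|2 * ((m2 c : ℝ) - yo y (L.e2 c j) - n2 c j) - 2|)))
            (by linarith) one_pos (by positivity) fun p hp hp1 hp2 => ?_
          have hO1 := hp.1
          have hOg := hO1.1
          have hv : τ ≤ ‖p.2‖ := hp.2
          by_cases hBD : p ∈ BD r r
          · rw [hκ_in c j h p hBD (Or.inr hv)]
            have hΦ := hW.lo c hc j h p (Og_mono hρρ hOg) (hBDτ₁ p hBD) (Or.inr hv)
            have h5 := zone1 (m1 := m1 c) (m2 := m2 c) (n1 := n1 c j) (n2 := n2 c j) (t := 0) hτ0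
              le_rfl (δ := 1) (K := Kd) (C := C) (y1 := yo y (L.e1 c j)) (y2 := yo y (L.e2 c j))
              one_pos ‖p.1‖ ‖p.2‖ 1 (norm_pos_iff.2 hp1) hv
              (hOg.2.1.le.trans ((S.le c).trans (by norm_num)))
              le_rfl (Φ (wc S c j p)) (dn S c j p) (by rw [zero_mul, add_zero]; exact hΦ)
              (hdn0 p) (hbd p hOg.1.le hOg.2.1.le hOg.2.2.1).2.1
            have h6 : ‖p.2‖ ^ (2 * (1 : ℝ) - 2) = 1 := by
              rw [show 2 * (1 : ℝ) - 2 = 0 by norm_num, Real.rpow_zero]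
            rw [h6, mul_one]
            calc Cχ ^ 2 / c₀ * (‖p.1‖ ^ m1 c * ‖p.2‖ ^ m2 c) ^ 2 * Real.exp (-Φ (wc S c j p)) *
                  dn S c j p ^ 2
                = Cχ ^ 2 / c₀ * ((‖p.1‖ ^ m1 c * ‖p.2‖ ^ m2 c) ^ 2 * Real.exp (-Φ (wc S c j p)) *
                  dn S c j p ^ 2) := by ring
              _ ≤ Cχ ^ 2 / c₀ * _ := mul_le_mul_of_nonneg_left h5 (by positivity)
              _ = _ := by ring
          · rw [hκ_out c j p hBD]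
            simp only [zero_mul]
            positivity
      · -- zone `|α| ≥ τ`
        by_cases he : L.e2 c j = none
        · refine fin_int (hOm.inter hZ2m) (fun p hp => hOR p hp.1) (e := 1) (e' := 1) (C := 0)
            one_pos one_pos le_rfl fun p hp _ _ => ?_
          exact absurd he ((hzone c hc j p hp.1).2 hp.2)
        · have hpos := hy2 _ h he
          simp only at hpos
          refine fin_int (hOm.inter hZ2m) (fun p hp => hOR p hp.1)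
            (e' := (m2 c : ℝ) - yo y (L.e2 c j) - n2 c j) (e := 1)
            (C := Cχ ^ 2 / c₀ * (Real.exp C * (1 : ℝ) ^ (-(0 : ℝ)) * Kd ^ 2 *
              τ ^ (-|2 * ((m1 c : ℝ) - yo y (L.e1 c j) - n1 c j) - 2|)))
            one_pos (by linarith) (by positivity) fun p hp hp1 hp2 => ?_
          have hO1 := hp.1
          have hOg := hO1.1
          have hv : τ ≤ ‖p.1‖ := hp.2
          by_cases hBD : p ∈ BD r r
          · rw [hκ_in c j h p hBD (Or.inl hv)]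
            have hΦ := hW.lo c hc j h p (Og_mono hρρ hOg) (hBDτ₁ p hBD) (Or.inl hv)
            have h5 := zone1 (m1 := m2 c) (m2 := m1 c) (n1 := n2 c j) (n2 := n1 c j) (t := 0) hτ0
              le_rfl (δ := 1) (K := Kd) (C := C) (y1 := yo y (L.e2 c j)) (y2 := yo y (L.e1 c j))
              one_pos ‖p.2‖ ‖p.1‖ 1 (norm_pos_iff.2 hp2) hv
              (hOg.1.le.trans ((S.le c).trans (by norm_num)))
              le_rfl (Φ (wc S c j p)) (dn S c j p)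
              (by rw [zero_mul, add_zero, add_comm (yo y (L.e2 c j) * _)]; exact hΦ)
              (hdn0 p) ((hbd p hOg.1.le hOg.2.1.le hOg.2.2.1).2.1.trans (le_of_eq (by ring)))
            have h6 : ‖p.1‖ ^ (2 * (1 : ℝ) - 2) = 1 := by
              rw [show 2 * (1 : ℝ) - 2 = 0 by norm_num, Real.rpow_zero]
            rw [h6, one_mul]
            calc Cχ ^ 2 / c₀ * (‖p.1‖ ^ m1 c * ‖p.2‖ ^ m2 c) ^ 2 * Real.exp (-Φ (wc S c j p)) *
                  dn S c j p ^ 2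
                = Cχ ^ 2 / c₀ * ((‖p.2‖ ^ m2 c * ‖p.1‖ ^ m1 c) ^ 2 * Real.exp (-Φ (wc S c j p)) *
                  dn S c j p ^ 2) := by ring
              _ ≤ Cχ ^ 2 / c₀ * _ := mul_le_mul_of_nonneg_left h5 (by positivity)
              _ = _ := by ring
          · rw [hκ_out c j p hBD]
            simp only [zero_mul]
            positivity
      · -- elsewhere
        refine fin_int (hOm.inter (hZ1m.union hZ2m).compl) (fun p hp => hOR p hp.1) (e := 1)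
          (e' := 1) (C := 0) one_pos one_pos le_rfl fun p hp _ _ => ?_
        have h1 : κ c j p = 0 := by
          simp only [hκ, if_pos h]
          refine indicator_of_notMem (fun h2 => ?_) _
          exact hp.2 (h2.2.symm)
        rw [h1]
        simp
    · refine fin_int hOm hOR (e := 1) (e' := 1) (C := 0) one_pos one_pos le_rfl fun p hp _ _ => ?_
      have h1 : κ c j p = 0 := by
        simp only [hκ, if_neg h]
        rfl
      rw [h1]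
      simp
  · -- the integral of `|D|²`
    intro c hc j
    have hOm : MeasurableSet (O c j) := (hopen c hc j).measurableSet
    have hOR : ∀ p ∈ O c j, ‖p.1‖ < S.r c ∧ ‖p.2‖ < S.r c := fun p hp => ⟨hp.1.1, hp.1.2.1⟩
    obtain ⟨Kd, hKd, hbd⟩ := J.bd c (hF c hc) j
    have hdn0 : ∀ p, 0 ≤ dn S c j p := fun p => by unfold dn; positivity
    by_cases h : (c, j) ∈ κs
    · have e1 : (0 : ℝ) < (m1 c : ℝ) - n1 c j := by
        have := hn1 _ h
        simp only at this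
        have h2 : (n1 c j : ℝ) < ((m1 c : ℤ) : ℝ) := by exact_mod_cast this
        push_cast at h2
        linarith
      have e2 : (0 : ℝ) < (m2 c : ℝ) - n2 c j := by
        have := hn2 _ h
        simp only at this
        have h2 : (n2 c j : ℝ) < ((m2 c : ℤ) : ℝ) := by exact_mod_cast this
        push_cast at h2
        linarith
      refine fin_int hOm hOR (e := (m1 c : ℝ) - n1 c j) (e' := (m2 c : ℝ) - n2 c j) (C := Kd ^ 2)
        e1 e2 (by positivity) fun p hp hp1 hp2 => ?_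
      have hOg := hp.1
      have h5 := zone0 (m1 := m1 c) (m2 := m2 c) (n1 := n1 c j) (n2 := n2 c j) (K := Kd) ‖p.1‖ ‖p.2‖
        (norm_pos_iff.2 hp1) (norm_pos_iff.2 hp2) (dn S c j p) (hdn0 p)
        (hbd p hOg.1.le hOg.2.1.le hOg.2.2.1).2.1
      refine le_trans (mul_le_mul_of_nonneg_right ?_ (by positivity)) h5
      refine pow_le_pow_left₀ (norm_nonneg _) ?_ 2
      rcases hp.2.2 with h6 | h6
      · rw [hDeq _ h p h6.2 hOg.2.2.1, norm_mul, norm_mul, norm_pow, norm_pow, Complex.norm_real,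
          Real.norm_of_nonneg (c2_nonneg _)]
        exact mul_le_of_le_one_right (by positivity) (c2_le_one _)
      · rw [hDz _ h6, norm_zero]
        positivity
    · refine fin_int hOm hOR (e := 1) (e' := 1) (C := 0) one_pos one_pos le_rfl fun p hp _ _ => ?_
      have h6 : wc S c j p ∉ Z := by
        rcases hp.2.2 with h6 | h6
        · exact absurd h6.1 h
        · exact h6
      rw [hDz _ h6, norm_zero]
      simp
  · intro q hq p hp hg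
    have h1 : p ∈ BD r r := ⟨hp.1.trans (hτb.trans hbr), hp.2.trans (hτb.trans hbr)⟩
    rw [hDeq q hq p h1 hg, c2_one hτ0 hτb hp.1.le hp.2.le]
    simp
  · intro x hx
    obtain ⟨q, hq, p, hp, hg, h⟩ := Dk_ne hx
    exact ⟨q, hq, p, ⟨hp.1.trans_le hrr₀, hp.2.trans_le hrr₀⟩, hg, h⟩

end Crest.Agent.R257.CDataC_250
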