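import Mathlib
import Crest.Agent.R257.BPDefs_258
import Crest.Agent.R257.Cpt1_419

/-!
Row 257 (S0395), C-WT, file 0 (helper258): **the literal statement consumed from the analysis on
Riemann surfaces** (176 / 844): weights with prescribed slopes on a finite étale cover of `ℂ ∖ S`,
end-free form, with interior poles `Q`.
-/

set_option autoImplicit false
set_option linter.unusedSectionVars false

open Set Filter Topology Metric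
open Crest.Agent.R257.HoB_843 Crest.Agent.R257.Cpt1_419

noncomputable section

namespace Crest.Agent.R257.Wt_258

/-- `h` is smooth with positive Laplacian (in the coordinate `pr`) off `Q` -/
def SmPos {X : Type} [TopologicalSpace X] (pr : X → ℂ) (Q : Set X) (h : X → ℝ) : Prop :=
  ∀ (w₀ : ℂ) (ρ : ℝ) (σ : ℂ → X), 0 < ρ → ContinuousOn σ (ball w₀ ρ) →
    (∀ w ∈ ball w₀ ρ, pr (σ w) = w) → σ w₀ ∉ Q →
    ContDiffAt ℝ (⊤ : ℕ∞) (h ∘ σ) w₀ ∧ 0 < lvE (h ∘ σ) w₀ 1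

/-- separated punctured discs around the points of `S` and around `∞` -/
structure Sep (S : Finset ℂ) (r : ℝ) : Prop where
  pos : 0 < r
  sep : ∀ c ∈ S, ∀ c' ∈ S, c ≠ c' → 2 * r ≤ ‖c - c'‖
  inf : ∀ c ∈ S, ‖c‖ + 2 * r ≤ r⁻¹

open Classical in
/-- **weights on a finite étale cover** -/
def RSWStmt : Prop := ∀ (S : Finset ℂ) (X : Type) (_ : TopologicalSpace X) (_ : T2Space X)
  (P : FCov (↑S : Set ℂ) X) (Q : Finset X) (t : X → ℝ) (lam : Option ℂ → X → ℝ) (r : ℝ),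
  Sep S r → (∀ q ∈ Q, (∀ c ∈ S, r ≤ ‖(P.p q).1 - c‖) ∧ ‖(P.p q).1‖ ≤ r⁻¹) →
  (∀ c ∈ S, ∀ x, ‖(P.p x).1 - c‖ < r → ∀ᶠ y in 𝓝 x, lam (some c) y = lam (some c) x) →
  (∀ x, r⁻¹ < ‖(P.p x).1‖ → ∀ᶠ y in 𝓝 x, lam none y = lam none x) →
  (∀ E : ConnectedComponents X, ∃ w : Option ℂ → ℂ,
    (∀ c ∈ S, 0 < ‖w (some c) - c‖ ∧ ‖w (some c) - c‖ < r) ∧ r⁻¹ < ‖w none‖ ∧
    (∑ c ∈ S, ∑ᶠ x ∈ {x : X | (P.p x).1 = w (some c) ∧ (x : ConnectedComponents X) = E},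
        lam (some c) x) +
      (∑ᶠ x ∈ {x : X | (P.p x).1 = w none ∧ (x : ConnectedComponents X) = E}, lam none x) +
      (∑ q ∈ Q, if (q : ConnectedComponents X) = E then t q else 0) < 0) →
  ∃ (h : X → ℝ) (C : ℝ), SmPos (fun x => (P.p x).1) (↑Q) h ∧
    (∀ c ∈ S, ∀ x, ‖(P.p x).1 - c‖ < r / 2 →
      |h x - lam (some c) x * Real.log (‖(P.p x).1 - c‖ ^ 2)| ≤ C) ∧
    (∀ x, 2 * r⁻¹ < ‖(P.p x).1‖ → |h x + lam none x * Real.log (‖(P.p x).1‖ ^ 2)| ≤ C) ∧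
    ∀ q ∈ Q, ∀ᶠ x in 𝓝 q, x ≠ q → |h x - t q * Real.log (‖(P.p x).1 - (P.p q).1‖ ^ 2)| ≤ C

end Crest.Agent.R257.Wt_258
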