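import Mathlib
import Crest.Agent.R257.BPDefs_258
import Crest.Agent.R257.Cpt1_419
import Crest.Agent.R257.Wt0_258

/-!
Row 257 (S0395), part C, ExN / ExT (helper843): **the literal statement (N) consumed from the analysis
on Riemann surfaces** (176 / 844): invariant zero-free functions with prescribed exponents on a
connected finite étale cover of `ℂ ∖ S` with a finite group acting over rotations about `0`.
-/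

set_option autoImplicit false
set_option linter.unusedSectionVars false

open Set Filter Topology Metric
open Crest.Agent.R257.Cpt1_419 Crest.Agent.R257.Wt_258

noncomputable section

namespace Crest.Agent.R257.Rsn_843

/-- holomorphic in the coordinate `pr` -/
def HolX {X : Type} [TopologicalSpace X] (pr : X → ℂ) (f : X → ℂ) : Prop :=
  ∀ (w₀ : ℂ) (ρ : ℝ) (σ : ℂ → X), 0 < ρ → ContinuousOn σ (ball w₀ ρ) →
    (∀ w ∈ ball w₀ ρ, pr (σ w) = w) → AnalyticAt ℂ (f ∘ σ) w₀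

/-- the growth of a holomorphic form `g dw` at the ends, `n` at least the number of sheets -/
def EndL {X : Type} (pr : X → ℂ) (S : Finset ℂ) (r : ℝ) (n : ℕ) (g : X → ℂ) : Prop :=
  ∃ C : ℝ, (∀ c ∈ S, ∀ x, ‖pr x - c‖ < r → ‖g x‖ ≤ C * ‖pr x - c‖ ^ (-1 + 1 / (n : ℝ))) ∧
    ∀ x, r⁻¹ < ‖pr x‖ → ‖g x‖ ≤ C * ‖pr x‖ ^ (-1 - 1 / (n : ℝ))

/-- no invariant holomorphic form `g dw` -/
def NoTh {X Γ : Type} [TopologicalSpace X] [Group Γ] [MulAction Γ X] (pr : X → ℂ) (χ : Γ → ℂ)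
    (S : Finset ℂ) (r : ℝ) (n : ℕ) : Prop :=
  ∀ g : X → ℂ, HolX pr g → (∀ (γ : Γ) (x : X), χ γ * g (γ • x) = g x) → EndL pr S r n g →
    ∀ x, g x = 0

/-- **(N): invariant zero-free functions with prescribed exponents** -/
def RSNStmt : Prop := ∀ (S : Finset ℂ) (X : Type) (_ : TopologicalSpace X) (_ : T2Space X)
  (_ : ConnectedSpace X) (P : FCov (↑S : Set ℂ) X) (Γ : Type) (_ : Group Γ) (_ : Fintype Γ)
  (_ : MulAction Γ X) (χ : Γ → ℂ) (n : ℕ) (mu : X → ℤ) (r : ℝ),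
  Sep S r → (∀ w, (P.p ⁻¹' {w}).ncard ≤ n) →
  (∀ γ : Γ, Continuous fun x : X => γ • x) → (∀ (γ : Γ) x, (P.p (γ • x)).1 = χ γ * (P.p x).1) →
  (∀ γ : Γ, ‖χ γ‖ = 1) →
  NoTh (Γ := Γ) (fun x => (P.p x).1) χ S r n →
  (∀ x, ((∃ c ∈ S, ‖(P.p x).1 - c‖ < r) ∨ r⁻¹ < ‖(P.p x).1‖) → ∀ᶠ y in 𝓝 x, mu y = mu x) →
  (∀ (γ : Γ) x, mu (γ • x) = mu x) → (∀ x, (Fintype.card Γ : ℤ) ∣ mu x) →
  (∃ w : Option ℂ → ℂ, (∀ c ∈ S, 0 < ‖w (some c) - c‖ ∧ ‖w (some c) - c‖ < r) ∧ r⁻¹ < ‖w none‖ ∧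
    (∑ c ∈ S, ∑ᶠ x ∈ {x : X | (P.p x).1 = w (some c)}, mu x) +
      ∑ᶠ x ∈ {x : X | (P.p x).1 = w none}, mu x = 0) →
  ∃ (f : X → ℂ) (C : ℝ), HolX (fun x => (P.p x).1) f ∧ (∀ x, f x ≠ 0) ∧
    (∀ (γ : Γ) x, f (γ • x) = f x) ∧ 0 < C ∧
    (∀ c ∈ S, ∀ x, ‖(P.p x).1 - c‖ < r / 2 →
      C⁻¹ * ‖(P.p x).1 - c‖ ^ mu x ≤ ‖f x‖ ∧ ‖f x‖ ≤ C * ‖(P.p x).1 - c‖ ^ mu x) ∧
    ∀ x, 2 * r⁻¹ < ‖(P.p x).1‖ →
      C⁻¹ * ‖(P.p x).1‖ ^ (-mu x) ≤ ‖f x‖ ∧ ‖f x‖ ≤ C * ‖(P.p x).1‖ ^ (-mu x)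

end Crest.Agent.R257.Rsn_843
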