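import Mathlib
import Crest.Agent.R257.BPDefs_258
import Crest.Agent.R257.Cpt3_419

/-!
Row 257 (S0395), part C, **C-TUBE** (helper941), file 1: for every `U : Tub T`
* `retStmt U : RetStmt U` (existence and uniqueness of the retraction, local form);
* `covV U hv : FCov (sp T v) (XV U v)` with `p = pV`; `finite_cc`, `exists_over`;
* `Fintype (II U)`;
* `ret`, `continuous_ret`, `cc_const` (the component is constant along connected sets).
-/

set_option autoImplicit false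
set_option linter.unusedSectionVars false

open Polynomial Set Filter Topology Metric
open Crest.AlgGeometry.Germ Crest.Agent.R257.AJ387 Crest.Agent.R257.T387
open Crest.Agent.R257.Cpt1_419 Crest.Agent.R257.BP_258

noncomputable section

namespace Crest.Agent.R257.Tb_941

/-! ### finite coverings of `ℂ ∖ S`: components -/

section cov

variable {S : Finset ℂ} {X : Type} [TopologicalSpace X] [T2Space X]

/-- every component lies over every point -/
theorem exists_over (P : FCov (S : Set ℂ) X) (x : X) {w : ℂ} (hw : w ∉ S) :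
    ∃ y, (P.p y).1 = w ∧ (y : ConnectedComponents X) = x := by
  have h1 : (1 : Cardinal) < Module.rank ℝ ℂ := by
    rw [Complex.rank_real_complex]; norm_num
  have h2 := S.finite_toSet.countable.isPathConnected_compl_of_one_lt_rank h1
  have h3 : JoinedIn ((S : Set ℂ)ᶜ) (P.p x).1 w := h2.joinedIn _ (P.p x).2 _ (by simpa using hw)
  obtain ⟨γ, hγ⟩ := h3
  let g : C(unitInterval, {w : ℂ // w ∉ (S : Set ℂ)}) :=
    ⟨fun t => ⟨γ t, hγ t⟩, Continuous.subtype_mk γ.continuous _⟩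
  have hg0 : g 0 = P.p x := Subtype.ext γ.source
  obtain ⟨Γ, hΓ, hΓ0⟩ := P.cov.exists_path_lifts g x hg0
  refine ⟨Γ 1, ?_, ?_⟩
  · have h4 : P.p (Γ 1) = g 1 := congrFun hΓ 1
    rw [h4]
    exact γ.target
  · rw [ConnectedComponents.coe_eq_coe']
    have h5 : IsPreconnected (range Γ) := isPreconnected_range Γ.continuous
    have h6 := h5.subset_connectedComponent (x := x) ⟨0, hΓ0⟩
    exact h6 ⟨1, rfl⟩

theorem finite_cc (P : FCov (S : Set ℂ) X) : Finite (ConnectedComponents X) := by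
  obtain ⟨w, hw⟩ : ∃ w : ℂ, w ∉ S := by
    have h1 : ((S : Finset ℂ) : Set ℂ) ≠ univ := by
      intro h
      have := S.finite_toSet
      rw [h] at this
      exact Set.infinite_univ this
    obtain ⟨w, hw⟩ := (Set.ne_univ_iff_exists_notMem _).1 h1
    exact ⟨w, hw⟩
  have hfin : Finite (P.fb w) := P.fb_finite w
  refine Finite.of_surjective (fun y : P.fb w => (y.1 : ConnectedComponents X)) ?_
  intro E
  obtain ⟨x, rfl⟩ := ConnectedComponents.surjective_coe E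
  obtain ⟨y, hy1, hy2⟩ := exists_over P x hw
  exact ⟨⟨y, hy1⟩, hy2⟩

end cov

variable {f : (Fin 3 → ℂ) → ℂ} {T : TB f}

lemma wv_yv {v : Vtx} {s : ℂ} (hs : s ≠ 0) (w : ℂ) : wv T v (s, yv T v (s, w)) = w := by
  have h : s ^ (T.M * v.1) ≠ 0 := pow_ne_zero _ hs
  simp only [wv, yv]
  rw [add_sub_cancel_left, mul_div_cancel_left₀ _ h]

lemma yv_wv {v : Vtx} {s : ℂ} (hs : s ≠ 0) (y : ℂ) : yv T v (s, wv T v (s, y)) = y := by
  have h : s ^ (T.M * v.1) ≠ 0 := pow_ne_zero _ hs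
  simp only [wv, yv]
  rw [mul_div_cancel₀ _ h]; ring

lemma continuous_yv (v : Vtx) : Continuous (yv T v) := by
  unfold yv
  fun_prop

lemma continuousAt_wv (v : Vtx) {q : ℂ × ℂ} (hq : q.1 ≠ 0) : ContinuousAt (wv T v) q := by
  unfold wv
  refine ContinuousAt.div ?_ ?_ (pow_ne_zero _ hq)
  · fun_prop
  · fun_prop

variable (U : Tub T)

/-- local sheets of the tube -/
structure LS (v : Vtx) (w₀ : ℂ) (r R : ℝ) (Z : Fin T.d → ℂ × ℂ → ℂ) : Prop where
  r_pos : 0 < r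
  R_pos : 0 < R
  nsp : ∀ w ∈ ball w₀ r, w ∉ sp T v ∧ U.ρ v w < R
  an : ∀ j, AnalyticOnNhd ℂ (Z j) (ball 0 R ×ˢ ball w₀ r)
  split : ∀ q ∈ ball (0 : ℂ) R ×ˢ ball w₀ r, (q.1, yv T v q) ∈ BD 1 T.R ∧ ‖q.1‖ ^ T.M < T.ρ ∧
    T.Q (q.1, yv T v q) = ∏ j, (X - C (Z j q))
  inj : ∀ q ∈ ball (0 : ℂ) R ×ˢ ball w₀ r, q.1 ≠ 0 → Function.Injective fun j => Z j q

variable {U}

theorem exists_LS {v : Vtx} (hv : v ∈ Vs T) {w₀ : ℂ} (hw : w₀ ∉ sp T v) :
    ∃ r R Z, LS U v w₀ r R Z := by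
  obtain ⟨r, hr, R, hR, Z, h1, h2, h3, h4⟩ := U.loc v hv w₀ hw
  exact ⟨r, R, Z, hr, hR, h1, h2, h3, h4⟩

lemma ep_ne {v : Vtx} (hv : v ∈ Vs T) {w : ℂ} (hw : w ∉ sp T v) : ep U v w ≠ 0 := by
  have := U.pos v hv w hw
  unfold ep
  exact_mod_cast (by positivity : U.ρ v w / 2 ≠ 0)

lemma norm_ep {v : Vtx} (hv : v ∈ Vs T) {w : ℂ} (hw : w ∉ sp T v) :
    ‖ep U v w‖ = U.ρ v w / 2 := by
  have := U.pos v hv w hw
  unfold ep
  rw [Complex.norm_real, Real.norm_of_nonneg (by positivity)]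

lemma norm_ep_lt {v : Vtx} (hv : v ∈ Vs T) {w : ℂ} (hw : w ∉ sp T v) :
    ‖ep U v w‖ < U.ρ v w := by
  rw [norm_ep hv hw]
  linarith [U.pos v hv w hw]

lemma continuousOn_ep {v : Vtx} (hv : v ∈ Vs T) : ContinuousOn (ep U v) {w | w ∉ sp T v} := by
  unfold ep
  exact Complex.continuous_ofReal.comp_continuousOn ((U.cont v hv).div_const 2)

instance (v : Vtx) : T2Space (XV U v) :=
  inferInstanceAs (T2Space {q : ℂ × ℂ // v ∈ Vs T ∧ q.1 ∉ sp T v ∧
    (T.Q (ep U v q.1, yv T v (ep U v q.1, q.1))).eval q.2 = 0})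

/-- the underlying point -/
def val (v : Vtx) (q : XV U v) : ℂ × ℂ := q.1

lemma isInducing_val (v : Vtx) : Topology.IsInducing (val (U := U) v) := ⟨rfl⟩

lemma continuous_co (v : Vtx) (i : Fin 3) :
    Continuous fun x : {x : Fin 3 → ℂ // InT U v x} => x.1 i :=
  (continuous_apply i).comp continuous_subtype_val

namespace LS

variable {v : Vtx} {w₀ : ℂ} {r R : ℝ} {Z : Fin T.d → ℂ × ℂ → ℂ} (h : LS U v w₀ r R Z)

include h

lemma root {q : ℂ × ℂ} (hq : q ∈ ball (0 : ℂ) R ×ˢ ball w₀ r) (j : Fin T.d) :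
    (T.Q (q.1, yv T v q)).eval (Z j q) = 0 := by
  rw [(h.split q hq).2.2, eval_prod]
  exact Finset.prod_eq_zero (Finset.mem_univ j) (by simp)

lemma exists_j {q : ℂ × ℂ} (hq : q ∈ ball (0 : ℂ) R ×ˢ ball w₀ r) {z : ℂ}
    (hz : (T.Q (q.1, yv T v q)).eval z = 0) : ∃ j, z = Z j q := by
  rw [(h.split q hq).2.2, eval_prod, Finset.prod_eq_zero_iff] at hz
  obtain ⟨j, -, hj⟩ := hz
  refine ⟨j, ?_⟩
  simpa [sub_eq_zero] using hj

lemma mem_of {s w : ℂ} (hw : w ∈ ball w₀ r) (hs : ‖s‖ < U.ρ v w) :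
    (s, w) ∈ ball (0 : ℂ) R ×ˢ ball w₀ r :=
  ⟨by simpa using hs.trans (h.nsp w hw).2, hw⟩

lemma mem_ep (hv : v ∈ Vs T) {w : ℂ} (hw : w ∈ ball w₀ r) :
    (ep U v w, w) ∈ ball (0 : ℂ) R ×ˢ ball w₀ r :=
  h.mem_of hw (norm_ep_lt hv (h.nsp w hw).1)

/-- the sections -/
def sg0 (hv : v ∈ Vs T) (j : Fin T.d) (w : ball w₀ r) : XV U v :=
  ⟨(w.1, Z j (ep U v w.1, w.1)), hv, (h.nsp w.1 w.2).1, h.root (h.mem_ep hv w.2) j⟩

omit h in
open Classical in
/-- the sections, total -/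
def sg (h : LS U v w₀ r R Z) (hv : v ∈ Vs T) (j : Fin T.d) (w : ℂ) : XV U v :=
  if hw : w ∈ ball w₀ r then h.sg0 hv j ⟨w, hw⟩ else h.sg0 hv j ⟨w₀, mem_ball_self h.r_pos⟩

lemma sg_val (hv : v ∈ Vs T) (j : Fin T.d) {w : ℂ} (hw : w ∈ ball w₀ r) :
    (h.sg hv j w).1 = (w, Z j (ep U v w, w)) := by
  unfold sg
  rw [dif_pos hw]
  rfl

lemma pV_sg (hv : v ∈ Vs T) (j : Fin T.d) {w : ℂ} (hw : w ∈ ball w₀ r) :
    pV U v (h.sg hv j w) = w := by
  unfold pV
  rw [h.sg_val hv j hw]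

lemma continuousOn_sg (hv : v ∈ Vs T) (j : Fin T.d) : ContinuousOn (h.sg hv j) (ball w₀ r) := by
  rw [(isInducing_val v).continuousOn_iff]
  have h1 : ContinuousOn (fun w => (w, Z j (ep U v w, w))) (ball w₀ r) := by
    have h2 : ContinuousOn (fun w => (ep U v w, w)) (ball w₀ r) :=
      ((continuousOn_ep hv).mono fun w hw => (h.nsp w hw).1).prodMk continuousOn_id
    exact continuousOn_id.prodMk ((h.an j).continuousOn.comp h2 fun w hw => h.mem_ep hv hw)
  exact h1.congr fun w hw => h.sg_val hv j hw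

lemma sg_inj (hv : v ∈ Vs T) {w : ℂ} (hw : w ∈ ball w₀ r) :
    Function.Injective fun j => h.sg hv j w := by
  intro i j hij
  have h1 := congrArg (fun q : XV U v => q.1.2) hij
  simp only [h.sg_val hv _ hw] at h1
  exact h.inj _ (h.mem_ep hv hw) (ep_ne hv (h.nsp w hw).1) h1

lemma sg_surj (hv : v ∈ Vs T) (q : XV U v) (hq : pV U v q ∈ ball w₀ r) :
    ∃ j, h.sg hv j (pV U v q) = q := by
  obtain ⟨j, hj⟩ := h.exists_j (h.mem_ep hv hq) q.2.2.2
  refine ⟨j, Subtype.ext ?_⟩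
  rw [h.sg_val hv j hq]
  exact Prod.ext rfl hj.symm

/-- analytic root functions on discs are sheets -/
lemma eq_sheet {w : ℂ} (hw : w ∈ ball w₀ r) {R' : ℝ} (hR' : 0 < R') {Y : ℂ → ℂ}
    (hY : AnalyticOnNhd ℂ Y (ball 0 R'))
    (hroot : ∀ s ∈ ball (0 : ℂ) R', (T.Q (s, yv T v (s, w))).eval (Y s) = 0) :
    ∃ j, ∀ s ∈ ball (0 : ℂ) (min R R'), Y s = Z j (s, w) := by
  have hm : 0 < min R R' := lt_min h.R_pos hR'
  have h1 : ∀ s ∈ ball (0 : ℂ) (min R R'), ∃ j, Y s = Z j (s, w) := by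
    intro s hs
    have hs' : s ∈ ball (0 : ℂ) R := ball_subset_ball (min_le_left _ _) hs
    exact h.exists_j (q := (s, w)) ⟨hs', hw⟩ (hroot s (ball_subset_ball (min_le_right _ _) hs))
  have h2 : ∃ j, ∃ᶠ s in 𝓝[≠] (0 : ℂ), Y s = Z j (s, w) := by
    by_contra hcon
    push Not at hcon
    have h3 : ∀ᶠ s in 𝓝[≠] (0 : ℂ), ∀ j, Y s ≠ Z j (s, w) := by
      rw [eventually_all]
      intro j
      simpa using hcon j
    have h4 : ∀ᶠ s in 𝓝[≠] (0 : ℂ), s ∈ ball (0 : ℂ) (min R R') :=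
      nhdsWithin_le_nhds (ball_mem_nhds _ hm)
    obtain ⟨s, hs1, hs2⟩ := (h3.and h4).exists
    obtain ⟨j, hj⟩ := h1 s hs2
    exact hs1 j hj
  obtain ⟨j, hj⟩ := h2
  refine ⟨j, ?_⟩
  have h5 : AnalyticOnNhd ℂ (fun s => Z j (s, w)) (ball 0 (min R R')) := by
    intro s hs
    have hs' : (s, w) ∈ ball (0 : ℂ) R ×ˢ ball w₀ r :=
      ⟨ball_subset_ball (min_le_left _ _) hs, hw⟩
    exact AnalyticAt.comp_of_eq (h.an j _ hs') (by fun_prop) rfl
  exact (hY.mono (ball_subset_ball (min_le_right _ _))).eqOn_of_preconnected_of_frequently_eq h5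
    (convex_ball _ _).isPreconnected (mem_ball_self hm) hj

lemma isRet (hv : v ∈ Vs T) (j : Fin T.d) {w : ℂ} (hw : w ∈ ball w₀ r) {s : ℂ} (hs0 : s ≠ 0)
    (hs : ‖s‖ < U.ρ v w) :
    IsRet U v (pt (Z j (s, w)) (s, yv T v (s, w))) (h.sg hv j w) := by
  have e0 : pt (Z j (s, w)) (s, yv T v (s, w)) 0 = Z j (s, w) := rfl
  have e1 : pt (Z j (s, w)) (s, yv T v (s, w)) 1 = s := rfl
  have e2 : pt (Z j (s, w)) (s, yv T v (s, w)) 2 = yv T v (s, w) := rfl
  have hm := h.mem_of hw hs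
  have h0 : (h.sg hv j w).1 = (w, Z j (ep U v w, w)) := h.sg_val hv j hw
  refine ⟨⟨hv, ?_, ?_, ?_, ?_⟩, ?_, R, ?_, fun t => Z j (t, w), ?_, ?_, ?_, ?_⟩
  · rw [e1]; exact hs0
  · rw [e1, e2, wv_yv hs0]; exact (h.nsp w hw).1
  · rw [e1, e2, wv_yv hs0]; exact hs
  · rw [e0, e1, e2]; exact h.root (q := (s, w)) hm j
  · rw [e1, e2, wv_yv hs0, h0]
  · rw [h0]; exact (h.nsp w hw).2
  · intro t ht
    exact AnalyticAt.comp_of_eq (h.an j (t, w) ⟨ht, hw⟩) (by fun_prop) rfl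
  · intro t ht
    rw [h0]
    exact h.root (q := (t, w)) ⟨ht, hw⟩ j
  · rw [e0, e1]
  · rw [h0]

/-- every point of the tube over the ball is on a sheet -/
lemma exists_pt {x : Fin 3 → ℂ} (hx : InT U v x) (hw : wv T v (x 1, x 2) ∈ ball w₀ r) :
    ∃ j, x = pt (Z j (x 1, wv T v (x 1, x 2)))
      (x 1, yv T v (x 1, wv T v (x 1, x 2))) := by
  obtain ⟨j, hj⟩ := h.exists_j (q := (x 1, wv T v (x 1, x 2))) (h.mem_of hw hx.lt) (z := x 0) (by
    simp only
    rw [yv_wv hx.ne]; exact hx.root)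
  refine ⟨j, ?_⟩
  rw [← hj, yv_wv hx.ne]
  funext i
  fin_cases i <;> rfl

/-- uniqueness of the retraction -/
lemma ret_eq (hv : v ∈ Vs T) {x : Fin 3 → ℂ} {q : XV U v} (hq : IsRet U v x q)
    (hw : wv T v (x 1, x 2) ∈ ball w₀ r) {j : Fin T.d}
    (hj : x 0 = Z j (x 1, wv T v (x 1, x 2))) : q = h.sg hv j (wv T v (x 1, x 2)) := by
  obtain ⟨hx, hq1, R', hR', Y, hY, hYr, hYx, hYe⟩ := hq
  rw [hq1] at hR' hYr hYe
  have hsp := (h.nsp _ hw).1
  have hρ := U.pos v hv _ hsp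
  obtain ⟨i, hi⟩ := h.eq_sheet hw (hρ.trans hR') hY hYr
  have hlt : U.ρ v (wv T v (x 1, x 2)) < min R R' := lt_min (h.nsp _ hw).2 hR'
  have h1 := hi (x 1) (by simpa using hx.lt.trans hlt)
  rw [hYx, hj] at h1
  have h2 : j = i := h.inj _ (h.mem_of hw hx.lt) hx.ne h1
  subst h2
  have h3 := hi (ep U v (wv T v (x 1, x 2))) (by simpa using (norm_ep_lt hv hsp).trans hlt)
  apply Subtype.ext
  rw [h.sg_val hv j hw]
  refine Prod.ext hq1 ?_
  rw [← hYe, h3]

end LS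

/-- **existence and uniqueness of the retraction, and its local form** -/
theorem retStmt (U : Tub T) : RetStmt U := by
  intro v hv
  constructor
  · intro x hx
    obtain ⟨r, R, Z, h⟩ := exists_LS (U := U) hv hx.nsp
    have hw : wv T v (x 1, x 2) ∈ ball (wv T v (x 1, x 2)) r := mem_ball_self h.r_pos
    obtain ⟨j, hj⟩ := h.exists_pt hx hw
    have hj0 : x 0 = Z j (x 1, wv T v (x 1, x 2)) := by
      conv_lhs => rw [hj]
      rfl
    refine ⟨h.sg hv j (wv T v (x 1, x 2)), ?_, fun q hq => h.ret_eq hv hq hw hj0⟩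
    have h1 := h.isRet hv j hw hx.ne hx.lt
    rw [← hj] at h1
    exact h1
  · intro w₀ hw₀
    obtain ⟨r, R, Z, h⟩ := exists_LS (U := U) hv hw₀
    exact ⟨r, h.r_pos, R, h.R_pos, Z, h.sg hv, h.nsp, h.an, h.split, h.inj,
      h.continuousOn_sg hv, fun j w hw => h.pV_sg hv j hw, fun w hw => h.sg_inj hv hw,
      fun q hq => h.sg_surj hv q hq, fun j w hw s hs0 hs => h.isRet hv j hw hs0 hs⟩

/-! ### the retraction as a map -/

/-- the retraction -/
def ret (U : Tub T) (v : Vtx) (x : {x : Fin 3 → ℂ // InT U v x}) : XV U v :=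
  ((retStmt U v x.2.mem).1 x.1 x.2).choose

lemma isRet_ret (v : Vtx) (x : {x : Fin 3 → ℂ // InT U v x}) : IsRet U v x.1 (ret U v x) :=
  ((retStmt U v x.2.mem).1 x.1 x.2).choose_spec.1

lemma isRet_iff {v : Vtx} {x : Fin 3 → ℂ} (hx : InT U v x) {q : XV U v} :
    IsRet U v x q ↔ q = ret U v ⟨x, hx⟩ :=
  ⟨fun h => ((retStmt U v hx.mem).1 x hx).choose_spec.2 q h, fun h => h ▸ isRet_ret v ⟨x, hx⟩⟩

lemma pV_ret (v : Vtx) (x : {x : Fin 3 → ℂ // InT U v x}) :
    pV U v (ret U v x) = wv T v (x.1 1, x.1 2) := (isRet_ret v x).2.1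

theorem continuous_ret (v : Vtx) : Continuous (ret U v) := by
  rw [continuous_iff_continuousAt]
  rintro ⟨x₀, hx₀⟩
  have hv := hx₀.mem
  set w₀ := wv T v (x₀ 1, x₀ 2) with hw₀
  obtain ⟨r, R, Z, h⟩ := exists_LS (U := U) hv hx₀.nsp
  rw [← hw₀] at h
  have hw : w₀ ∈ ball w₀ r := mem_ball_self h.r_pos
  obtain ⟨j, hj⟩ := h.exists_pt hx₀ hw
  have hj0 : x₀ 0 = Z j (x₀ 1, w₀) := by
    conv_lhs => rw [hj]
    rfl
  -- continuity of `w`
  have hwc : ContinuousAt (fun x : {x : Fin 3 → ℂ // InT U v x} => wv T v (x.1 1, x.1 2))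
      ⟨x₀, hx₀⟩ := by
    refine ContinuousAt.comp (g := wv T v)
      (f := fun x : {x : Fin 3 → ℂ // InT U v x} => (x.1 1, x.1 2)) ?_ ?_
    · exact continuousAt_wv v hx₀.ne
    · exact ((continuous_co v 1).prodMk (continuous_co v 2)).continuousAt
  have hqc : ContinuousAt (fun x : {x : Fin 3 → ℂ // InT U v x} => (x.1 1, wv T v (x.1 1, x.1 2)))
      ⟨x₀, hx₀⟩ :=
    ContinuousAt.prodMk (continuous_co v 1).continuousAt hwc
  have hm₀ : (x₀ 1, w₀) ∈ ball (0 : ℂ) R ×ˢ ball w₀ r := h.mem_of hw hx₀.lt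
  have hzc : ∀ i, ContinuousAt (fun x : {x : Fin 3 → ℂ // InT U v x} =>
      Z i (x.1 1, wv T v (x.1 1, x.1 2)) - x.1 0) ⟨x₀, hx₀⟩ := by
    intro i
    refine ContinuousAt.sub ?_ (continuous_co v 0).continuousAt
    exact ContinuousAt.comp (g := Z i)
      (f := fun x : {x : Fin 3 → ℂ // InT U v x} => (x.1 1, wv T v (x.1 1, x.1 2)))
      (h.an i _ hm₀).continuousAt hqc
  have hev : ∀ᶠ x in 𝓝 (⟨x₀, hx₀⟩ : {x : Fin 3 → ℂ // InT U v x}), ∀ i, i ≠ j →
      Z i (x.1 1, wv T v (x.1 1, x.1 2)) - x.1 0 ≠ 0 := by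
    rw [eventually_all]
    intro i
    by_cases hij : i = j
    · exact Eventually.of_forall fun x hx => absurd hij hx
    · have h1 : Z i (x₀ 1, w₀) - x₀ 0 ≠ 0 := by
        rw [hj0, sub_ne_zero]
        intro h2
        exact hij (h.inj _ hm₀ hx₀.ne h2)
      filter_upwards [(hzc i).eventually_ne h1] with x hx _
      exact hx
  have hball : ∀ᶠ x in 𝓝 (⟨x₀, hx₀⟩ : {x : Fin 3 → ℂ // InT U v x}),
      wv T v (x.1 1, x.1 2) ∈ ball w₀ r := hwc.eventually (ball_mem_nhds _ h.r_pos)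
  have heq : ∀ᶠ x in 𝓝 (⟨x₀, hx₀⟩ : {x : Fin 3 → ℂ // InT U v x}),
      ret U v x = h.sg hv j (wv T v (x.1 1, x.1 2)) := by
    filter_upwards [hev, hball] with x h1 h2
    obtain ⟨i, hi⟩ := h.exists_pt x.2 h2
    have hi0 : x.1 0 = Z i (x.1 1, wv T v (x.1 1, x.1 2)) := by
      conv_lhs => rw [hi]
      rfl
    have hij : i = j := by
      by_contra hne
      exact h1 i hne (by rw [hi0, sub_self])
    subst hij
    exact h.ret_eq hv (isRet_ret v x) h2 hi0
  have hs : ContinuousAt (fun x : {x : Fin 3 → ℂ // InT U v x} =>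
      h.sg hv j (wv T v (x.1 1, x.1 2))) ⟨x₀, hx₀⟩ := by
    refine ContinuousAt.comp (g := h.sg hv j)
      (f := fun x : {x : Fin 3 → ℂ // InT U v x} => wv T v (x.1 1, x.1 2)) ?_ hwc
    exact (h.continuousOn_sg hv j).continuousAt (isOpen_ball.mem_nhds hw)
  exact hs.congr (heq.mono fun x hx => hx.symm)

/-- **the component of the retraction is constant along connected sets** -/
theorem cc_const {α : Type*} [TopologicalSpace α] {v : Vtx} {A : Set α} (hA : IsPreconnected A)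
    {F : α → Fin 3 → ℂ} (hF : ContinuousOn F A) (hin : ∀ a ∈ A, InT U v (F a)) {a b : α}
    (ha : a ∈ A) (hb : b ∈ A) {q q' : XV U v} (hq : IsRet U v (F a) q)
    (hq' : IsRet U v (F b) q') :
    (q : ConnectedComponents (XV U v)) = (q' : ConnectedComponents (XV U v)) := by
  let G : A → XV U v := fun a => ret U v ⟨F a.1, hin a.1 a.2⟩
  have hG : Continuous G := by
    refine (continuous_ret v).comp ?_
    exact Continuous.subtype_mk (continuousOn_iff_continuous_domRestrict.1 hF) _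
  have hA' : PreconnectedSpace A := isPreconnected_iff_preconnectedSpace.1 hA
  have h1 : IsPreconnected (range G) := isPreconnected_range hG
  rw [(isRet_iff (hin a ha)).1 hq, (isRet_iff (hin b hb)).1 hq', ConnectedComponents.coe_eq_coe']
  have h2 := h1.subset_connectedComponent (x := G ⟨b, hb⟩) ⟨_, rfl⟩
  exact h2 ⟨⟨a, ha⟩, rfl⟩

/-! ### the covering -/

lemma memR {q : ℂ × ℂ} {y : ℂ} (h1 : (q.1, y) ∈ BD 1 T.R) (h2 : ‖q.1‖ ^ T.M < T.ρ) :
    (q.1 ^ T.N, y) ∈ BD T.R T.R := by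
  refine ⟨?_, h1.2⟩
  have h3 := T.ρ_R (q.1 ^ T.M) (by simpa using h2)
  simpa [TB.N, ← pow_mul, mul_comm] using h3

/-- the family of polynomials over a vertex -/
def fam {v : Vtx} (hv : v ∈ Vs T) : AJ387.Fam {w : ℂ // w ∉ ((sp T v : Finset ℂ) : Set ℂ)} T.d where
  Q w := T.Q (ep U v w.1, yv T v (ep U v w.1, w.1))
  monic w := by
    obtain ⟨r, R, Z, h⟩ := exists_LS (U := U) hv w.2
    have h1 := h.split _ (h.mem_ep hv (mem_ball_self h.r_pos))
    exact T.monic _ (memR (q := (ep U v w.1, w.1)) h1.1 h1.2.1)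
  deg w := by
    obtain ⟨r, R, Z, h⟩ := exists_LS (U := U) hv w.2
    have h1 := h.split _ (h.mem_ep hv (mem_ball_self h.r_pos))
    exact T.deg _ (memR (q := (ep U v w.1, w.1)) h1.1 h1.2.1)
  cont i := by
    rw [continuous_iff_continuousAt]
    intro w
    obtain ⟨r, R, Z, h⟩ := exists_LS (U := U) hv w.2
    have h1 := h.split _ (h.mem_ep hv (mem_ball_self h.r_pos))
    have h2 := (T.coeff_an i _ (memR (q := (ep U v w.1, w.1)) h1.1 h1.2.1)).continuousAt
    refine ContinuousAt.comp (g := fun q => (T.P q).coeff i)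
      (f := fun w : {w : ℂ // w ∉ ((sp T v : Finset ℂ) : Set ℂ)} =>
        ((ep U v w.1) ^ T.N, yv T v (ep U v w.1, w.1))) h2 ?_
    have h3 : Continuous (fun w : {w : ℂ // w ∉ ((sp T v : Finset ℂ) : Set ℂ)} => ep U v w.1) :=
      continuousOn_iff_continuous_domRestrict.1 (continuousOn_ep (U := U) hv)
    exact ((h3.pow _).prodMk ((continuous_yv v).comp
      (h3.prodMk continuous_subtype_val))).continuousAt
  nodup w := by
    obtain ⟨r, R, Z, h⟩ := exists_LS (U := U) hv w.2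
    have hm := h.mem_ep hv (mem_ball_self h.r_pos)
    have h1 := (h.split _ hm).2.2
    have h2 := h.inj _ hm (ep_ne hv w.2)
    simp only at h1
    rw [h1]
    have h3 : (∏ j, (X - C (Z j (ep U v w.1, w.1)))) =
        (Multiset.map (fun a => X - C a)
          (Multiset.map (fun j => Z j (ep U v w.1, w.1)) Finset.univ.val)).prod := by
      rw [Multiset.map_map]; rfl
    rw [h3, Polynomial.roots_multiset_prod_X_sub_C]
    exact Multiset.Nodup.map h2 Finset.univ.nodup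

/-- the curve over a vertex is the covering of roots -/
def homV {v : Vtx} (hv : v ∈ Vs T) : XV U v ≃ₜ (fam (U := U) hv).E where
  toFun q := ⟨(⟨q.1.1, q.2.2.1⟩, q.1.2), q.2.2.2⟩
  invFun e := ⟨(e.1.1.1, e.1.2), hv, e.1.1.2, e.2⟩
  left_inv _ := rfl
  right_inv _ := rfl
  continuous_toFun := by
    have h1 : Continuous (Subtype.val : XV U v → ℂ × ℂ) := continuous_subtype_val
    exact Continuous.subtype_mk ((Continuous.subtype_mk (continuous_fst.comp h1) _).prodMk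
      (continuous_snd.comp h1)) _
  continuous_invFun := by
    refine Continuous.subtype_mk ?_ _
    exact (continuous_subtype_val.comp (continuous_fst.comp continuous_subtype_val)).prodMk
      (continuous_snd.comp continuous_subtype_val)

/-- `X v → ℂ ∖ sp v` is a finite covering -/
def covV {v : Vtx} (hv : v ∈ Vs T) : FCov ((sp T v : Finset ℂ) : Set ℂ) (XV U v) where
  p q := ⟨q.1.1, q.2.2.1⟩
  cl := (fam (U := U) hv).pr_closed.comp (homV (U := U) hv).isClosedMap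
  lh := (fam (U := U) hv).pr_localHomeo.comp (homV (U := U) hv).isLocalHomeomorph
  fin s := by
    refine Set.Finite.of_finite_image (f := homV (U := U) hv)
      (((ofFam (fam (U := U) hv)).fin s).subset ?_) (homV (U := U) hv).injective.injOn
    rintro _ ⟨e, he, rfl⟩
    exact he

lemma covV_p {v : Vtx} (hv : v ∈ Vs T) (q : XV U v) : ((covV hv).p q).1 = pV U v q := rfl

instance (v : {v // v ∈ Vs T}) : Finite (ConnectedComponents (XV U v.1)) := finite_cc (covV v.2)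

instance finite_II : Finite (II U) := inferInstance

noncomputable instance : Fintype (II U) := Fintype.ofFinite _

/-- every component lies over every ordinary point -/
theorem exists_pV {v : Vtx} (hv : v ∈ Vs T) (x : XV U v) {w : ℂ} (hw : w ∉ sp T v) :
    ∃ y : XV U v, pV U v y = w ∧
      (y : ConnectedComponents (XV U v)) = (x : ConnectedComponents (XV U v)) :=
  exists_over (covV hv) x hw

lemma continuous_pV (v : Vtx) : Continuous (pV U v) :=
  continuous_fst.comp continuous_subtype_val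

end Crest.Agent.R257.Tb_941
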