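import Crest.Agent.R257.Vt4_558

/-!
Row 257 (S0395), part C: the vertex coordinates in the charts (helper558, task C-JAC).

* `exists_tail`      : `φ i t = (tr i k) t + t ^ k g t`, `g 0 = co i k`;
* `sp_vx`            : `co i k + w ∈ sp (vx i k) ↔ w ∈ Sp i k`;
* `exists_W1`, `exists_W2` : the coordinate `w` of the vertex of an axis is analytic near the axis;
* `att1`, `att2`     : near a point of the axis the sheets of the chart are sheets of the tube and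
  their retractions are `σ l (W p)`.
-/

set_option autoImplicit false
set_option linter.unusedSectionVars false

open Polynomial Set Filter Topology Metric
open Crest.AlgGeometry.Germ Crest.Agent.R257.AJ387 Crest.Agent.R257.T387
open Crest.Agent.R257.Frm_547 (mul_ev prod_ev)
open Crest.Agent.R257.Rot1_558 Crest.Agent.R257.BP_258 Crest.Agent.R257.Vt1_558
open Crest.Agent.R257.Vt2_558 Crest.Agent.R257.Vt3_558

noncomputable section

namespace Crest.Agent.R257.Vt5_558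

variable {f : (Fin 3 → ℂ) → ℂ} {T : TB f} {U : Tub T}

lemma poly_an (p : ℂ[X]) (z : ℂ) : AnalyticAt ℂ (fun t => p.eval t) z := by
  have h : Differentiable ℂ fun t => p.eval t := p.differentiable
  exact h.analyticAt z

/-- the tail of a branch -/
theorem exists_tail (i : Fin T.m) (k : ℕ) : ∃ g : ℂ → ℂ, AnalyticAt ℂ g 0 ∧ g 0 = co T i k ∧
    ∀ᶠ t in 𝓝 (0 : ℂ), T.φ i t = (tr T i k).eval t + t ^ k * g t := by
  have hp := poly_an (tr T i k) 0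
  have hh : AnalyticAt ℂ (T.φ i - fun t => (tr T i k).eval t) 0 := (phi_an0 i).sub hp
  have hd : ∀ n, iteratedDeriv n (T.φ i - fun t => (tr T i k).eval t) 0 =
      (n.factorial : ℂ) * (co T i n - (tr T i k).coeff n) := by
    intro n
    rw [iteratedDeriv_sub (phi_an0 i).contDiffAt hp.contDiffAt, iterDeriv_poly, mul_sub]
    congr 1
    rw [co, mul_div_cancel₀ _ (fac_ne n)]
  have h1 : (k : ℕ∞) ≤ analyticOrderAt (T.φ i - fun t => (tr T i k).eval t) 0 := by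
    rw [natCast_le_analyticOrderAt_iff_iteratedDeriv_eq_zero hh]
    intro n hn
    rw [hd, tr_coeff, if_pos hn, sub_self, mul_zero]
  obtain ⟨g, hg, he⟩ := (natCast_le_analyticOrderAt hh).1 h1
  have he' : ∀ᶠ t in 𝓝 (0 : ℂ), (T.φ i - fun t => (tr T i k).eval t) t = t ^ k * g t := by
    filter_upwards [he] with t ht
    rw [ht, sub_zero, smul_eq_mul]
  refine ⟨g, hg, ?_, ?_⟩
  · have h2 := iterDeriv_pow_mul k hg le_rfl he'
    rw [hd, if_pos rfl, tr_coeff, if_neg (lt_irrefl k), sub_zero] at h2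
    exact (mul_left_cancel₀ (fac_ne k) h2).symm
  · filter_upwards [he'] with t ht
    rw [← ht]
    simp

theorem sp_vx {i : Fin T.m} {k : ℕ} {w : ℂ} : co T i k + w ∈ sp T (vx T i k) ↔ w ∈ T.Sp i k := by
  rw [Rot1_558.mem_Sp, mem_sp]
  constructor
  · rintro ⟨j, h1, h2⟩
    by_cases hj : j = i
    · subst hj
      left
      have h2' : co T j k = co T j k + w := h2
      simpa using h2'.symm
    · have h3 : tr T i k = tr T j k := h1.symm
      have h4 := (tr_eq_iff_del (Ne.symm hj)).1 h3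
      have h5 := co_sub (Ne.symm hj) h4
      have h2' : co T j k = co T i k + w := h2
      rw [h2'] at h5
      rcases h4.eq_or_lt with h6 | h6
      · right
        rw [if_pos h6] at h5
        exact ⟨j, ⟨hj, h6.symm⟩, by rw [← h5]; ring⟩
      · left
        rw [if_neg h6.ne] at h5
        have : -w = 0 := by rw [← h5]; ring
        exact neg_eq_zero.1 this
  · rintro (h | ⟨j, ⟨hj, hk⟩, hw⟩)
    · exact ⟨i, rfl, by rw [h, add_zero]; rfl⟩
    · have h1 := co_sub hj.symm (le_refl (T.del i j))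
      rw [if_pos rfl, hk] at h1
      refine ⟨j, ((tr_eq_iff_del hj.symm).2 hk.ge).symm, ?_⟩
      show co T j k = co T i k + w
      rw [← hw, ← h1]; ring

lemma comp0 {g : ℂ → ℂ} (hg : AnalyticAt ℂ g 0) {h : ℂ × ℂ → ℂ} {p : ℂ × ℂ}
    (hh : AnalyticAt ℂ h p) (h0 : h p = 0) : AnalyticAt ℂ (fun q => g (h q)) p :=
  AnalyticAt.comp (g := g) (f := h) (by rw [h0]; exact hg) hh

lemma tend0 {h : ℂ × ℂ → ℂ} {p : ℂ × ℂ}
    (hh : AnalyticAt ℂ h p) (h0 : h p = 0) : Tendsto h (𝓝 p) (𝓝 0) := by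
  have := hh.continuousAt.tendsto
  rwa [h0] at this

variable (S : Sh T)

/-- the coordinate of the vertex of `{α = 0}` -/
theorem exists_W1 {c : Ch T.m} (hc : T.Valid c) {v : Vtx} (hv : v1 T c = some v) {b₀ : ℂ}
    (hb : ‖b₀‖ ≤ 2 * S.r c) (hb' : b₀ ≠ 0 ∨ IsV c) : ∃ W : ℂ × ℂ → ℂ,
    AnalyticAt ℂ W ((0 : ℂ), b₀) ∧ W ((0 : ℂ), b₀) ∉ sp T v ∧
    ∀ᶠ p in 𝓝 ((0 : ℂ), b₀), (T.map c p).2 = yv T v ((T.map c p).1, W p) := by
  have hM := T.M_pos.ne'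
  cases c with
  | edge i k k' =>
    have hk : k < k' := hc.2.2.1
    simp only [v1] at hv
    split_ifs at hv with hk0
    cases hv
    have hb0 : b₀ ≠ 0 := hb'.resolve_right fun h => h
    obtain ⟨g, hg, hg0, hge⟩ := exists_tail i k
    have hs : AnalyticAt ℂ (fun p : ℂ × ℂ => (p.1 * p.2) ^ T.M) ((0 : ℂ), b₀) :=
      (analyticAt_fst.mul analyticAt_snd).pow _
    have hs0 : (fun p : ℂ × ℂ => (p.1 * p.2) ^ T.M) ((0 : ℂ), b₀) = 0 := by
      simp [hM]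
    refine ⟨fun p => g ((p.1 * p.2) ^ T.M) + p.2 ^ (T.M * (k' - k)), ?_, ?_, ?_⟩
    · exact (comp0 hg hs hs0).add (analyticAt_snd.pow _)
    · show g (((0 : ℂ) * b₀) ^ T.M) + b₀ ^ (T.M * (k' - k)) ∉ _
      rw [zero_mul, zero_pow hM, hg0, sp_vx]
      exact (S.fare i k k' hc b₀ hb0 hb).1
    · have h1 : Tendsto (fun p : ℂ × ℂ => (p.1 * p.2) ^ T.M) (𝓝 ((0 : ℂ), b₀)) (𝓝 0) :=
        tend0 hs hs0
      filter_upwards [h1.eventually hge] with p hp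
      simp only [TB.map, yv, vx]
      rw [hp]
      have e3 : T.M * k' = T.M * k + T.M * (k' - k) := by
        rw [← Nat.mul_add]; congr 1; omega
      rw [e3, pow_add, mul_pow, mul_pow, pow_mul, pow_mul p.2 T.M k]
      ring
  | leg i =>
    simp only [v1] at hv
    cases hv
    have hb0 : b₀ ≠ 0 := hb'.resolve_right fun h => h
    obtain ⟨g, hg, hg0, hge⟩ := exists_tail i (T.top i)
    have hs : AnalyticAt ℂ (fun p : ℂ × ℂ => p.1 ^ T.M) ((0 : ℂ), b₀) := analyticAt_fst.pow _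
    have hs0 : (fun p : ℂ × ℂ => p.1 ^ T.M) ((0 : ℂ), b₀) = 0 := by
      simp [hM]
    refine ⟨fun p => g (p.1 ^ T.M) + p.2 ^ T.M, ?_, ?_, ?_⟩
    · exact (comp0 hg hs hs0).add (analyticAt_snd.pow _)
    · show g ((0 : ℂ) ^ T.M) + b₀ ^ T.M ∉ _
      rw [zero_pow hM, hg0, sp_vx]
      exact S.farl i b₀ hb0 hb
    · have h1 : Tendsto (fun p : ℂ × ℂ => p.1 ^ T.M) (𝓝 ((0 : ℂ), b₀)) (𝓝 0) :=
        tend0 hs hs0
      filter_upwards [h1.eventually hge] with p hp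
      simp only [TB.map, yv, vx]
      rw [hp, pow_mul]
      ring
  | vert i k w₀ =>
    simp only [v1] at hv
    cases hv
    obtain ⟨g, hg, hg0, hge⟩ := exists_tail i k
    have hs : AnalyticAt ℂ (fun p : ℂ × ℂ => p.1 ^ T.M) ((0 : ℂ), b₀) := analyticAt_fst.pow _
    have hs0 : (fun p : ℂ × ℂ => p.1 ^ T.M) ((0 : ℂ), b₀) = 0 := by
      simp [hM]
    refine ⟨fun p => g (p.1 ^ T.M) + (w₀ + p.2), ?_, ?_, ?_⟩
    · exact (comp0 hg hs hs0).add
        (analyticAt_const.add analyticAt_snd)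
    · show g ((0 : ℂ) ^ T.M) + (w₀ + b₀) ∉ _
      rw [zero_pow hM, hg0, sp_vx]
      exact S.far i k w₀ hc _ (by simpa using hb)
    · have h1 : Tendsto (fun p : ℂ × ℂ => p.1 ^ T.M) (𝓝 ((0 : ℂ), b₀)) (𝓝 0) :=
        tend0 hs hs0
      filter_upwards [h1.eventually hge] with p hp
      simp only [TB.map, yv, vx]
      rw [hp, pow_mul]
      ring

/-- the coordinate of the vertex of `{β = 0}` -/
theorem exists_W2 {c : Ch T.m} (hc : T.Valid c) {v : Vtx} (hv : v2 T c = some v) {a₀ : ℂ}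
    (ha : ‖a₀‖ ≤ 2 * S.r c) (ha' : a₀ ≠ 0) : ∃ W : ℂ × ℂ → ℂ,
    AnalyticAt ℂ W (a₀, (0 : ℂ)) ∧ W (a₀, (0 : ℂ)) ∉ sp T v ∧
    ∀ᶠ p in 𝓝 (a₀, (0 : ℂ)), (T.map c p).2 = yv T v ((T.map c p).1, W p) := by
  have hM := T.M_pos.ne'
  cases c with
  | edge i k k' =>
    have hk : k < k' := hc.2.2.1
    simp only [v2] at hv
    cases hv
    obtain ⟨g, hg, hg0, hge⟩ := exists_tail i k'
    have hs : AnalyticAt ℂ (fun p : ℂ × ℂ => (p.1 * p.2) ^ T.M) (a₀, (0 : ℂ)) :=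
      (analyticAt_fst.mul analyticAt_snd).pow _
    have hs0 : (fun p : ℂ × ℂ => (p.1 * p.2) ^ T.M) (a₀, (0 : ℂ)) = 0 := by
      simp [hM]
    refine ⟨fun p => g ((p.1 * p.2) ^ T.M) + (p.1 ^ (T.M * (k' - k)))⁻¹, ?_, ?_, ?_⟩
    · exact (comp0 hg hs hs0).add
        ((analyticAt_fst.pow _).inv (pow_ne_zero _ ha'))
    · show g ((a₀ * (0 : ℂ)) ^ T.M) + (a₀ ^ (T.M * (k' - k)))⁻¹ ∉ _
      rw [mul_zero, zero_pow hM, hg0, sp_vx]
      exact (S.fare i k k' hc a₀ ha' ha).2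
    · have h1 : Tendsto (fun p : ℂ × ℂ => (p.1 * p.2) ^ T.M) (𝓝 (a₀, (0 : ℂ))) (𝓝 0) :=
        tend0 hs hs0
      have h2 : ∀ᶠ p : ℂ × ℂ in 𝓝 (a₀, (0 : ℂ)), p.1 ≠ 0 :=
        continuous_fst.continuousAt.eventually_ne ha'
      filter_upwards [h1.eventually hge, h2] with p hp hp1
      simp only [TB.map, yv, vx]
      rw [hp]
      have e3 : T.M * k' = T.M * k + T.M * (k' - k) := by
        rw [← Nat.mul_add]; congr 1; omega
      have e4 : p.1 ^ (T.M * k') = p.1 ^ (T.M * k) * p.1 ^ (T.M * (k' - k)) := by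
        rw [← pow_add, ← e3]
      have e5 : p.1 ^ (T.M * (k' - k)) ≠ 0 := pow_ne_zero _ hp1
      have e6 : (p.1 * p.2) ^ (T.M * k') * (p.1 ^ (T.M * (k' - k)))⁻¹ =
          p.1 ^ (T.M * k) * p.2 ^ (T.M * k') := by
        rw [mul_pow, e4]
        field_simp
      rw [mul_add, e6, ← pow_mul]
      ring
  | leg i => simp [v2] at hv
  | vert i k w₀ => simp [v2] at hv

lemma map_an_fst {c : Ch T.m} (hc : T.Valid c) {p : ℂ × ℂ} (hp : p ∈ BD (2 * S.r c) (2 * S.r c)) :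
    AnalyticAt ℂ (fun p => (T.map c p).1) p := by
  cases c with
  | edge i k k' => exact analyticAt_fst.mul analyticAt_snd
  | leg i => exact analyticAt_fst
  | vert i k w => exact analyticAt_fst

lemma wc_root {c : Ch T.m} (hc : T.Valid c) (j : Fin T.d) {p : ℂ × ℂ}
    (hp : p ∈ BD (2 * S.r c) (2 * S.r c)) : (T.Q (T.map c p)).eval (S.ζ c j p) = 0 := by
  rw [(S.sheets c hc).split p hp, eval_prod]
  exact Finset.prod_eq_zero (Finset.mem_univ j) (by simp)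

/-- **near a point of an axis the retraction of a sheet is `σ l (W p)`** -/
theorem att_gen {c : Ch T.m} (hc : T.Valid c) {p₀ : ℂ × ℂ} (hp₀ : p₀ ∈ BD (2 * S.r c) (2 * S.r c))
    (h0 : (T.map c p₀).1 = 0) {v : Vtx} {W : ℂ × ℂ → ℂ} (hW : AnalyticAt ℂ W p₀)
    (he : ∀ᶠ p in 𝓝 p₀, (T.map c p).2 = yv T v ((T.map c p).1, W p)) (D : LD U v (W p₀))
    (j : Fin T.d) : ∃ l, ∀ᶠ p in 𝓝 p₀, W p ∈ ball (W p₀) D.r ∧
      S.ζ c j p = D.Z l ((T.map c p).1, W p) ∧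
      ((T.map c p).1 ≠ 0 → IsRet U v (wc S c j p) (D.σ l (W p))) := by
  have hBD : ∀ᶠ p in 𝓝 p₀, p ∈ BD (2 * S.r c) (2 * S.r c) := (isOpen_BD _ _).mem_nhds hp₀
  obtain ⟨l, hl⟩ := D.attach_ret (μ := T.map c) (ζ := S.ζ c j) (W := W) (p₀ := p₀)
    (map_an_fst S hc hp₀) ((S.sheets c hc).an j p₀ hp₀) hW h0 D.w0_mem (by
      filter_upwards [he, hBD] with p h1 h2
      exact ⟨h1, wc_root S hc j h2⟩)
  refine ⟨l, ?_⟩
  filter_upwards [hl, hW.continuousAt.eventually (isOpen_ball.mem_nhds D.w0_mem)] with p h1 h2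
  exact ⟨h2, h1⟩

/-- **near `{α = 0}`** -/
theorem att1 (hR : RetStmt U) {c : Ch T.m} (hc : T.Valid c) {v : Vtx} (hvV : v ∈ Vs T)
    (hv : v1 T c = some v) {b₀ : ℂ}
    (hb : ‖b₀‖ < 2 * S.r c) (hb' : b₀ ≠ 0 ∨ IsV c) (j : Fin T.d) :
    ∃ (w₀ : ℂ) (D : LD U v w₀) (W : ℂ × ℂ → ℂ) (l : Fin T.d), AnalyticAt ℂ W ((0 : ℂ), b₀) ∧
      W ((0 : ℂ), b₀) = w₀ ∧ ∀ᶠ p in 𝓝 ((0 : ℂ), b₀),
      (T.map c p).2 = yv T v ((T.map c p).1, W p) ∧ W p ∈ ball w₀ D.r ∧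
      S.ζ c j p = D.Z l ((T.map c p).1, W p) ∧
      ((T.map c p).1 ≠ 0 → IsRet U v (wc S c j p) (D.σ l (W p))) := by
  obtain ⟨W, hW, hsp, he⟩ := exists_W1 S hc hv hb.le hb'
  obtain ⟨D⟩ := exists_LD hR hvV hsp
  have hp₀ : ((0 : ℂ), b₀) ∈ BD (2 * S.r c) (2 * S.r c) :=
    ⟨by have := S.pos c; simp [this], hb⟩
  have h0 : (T.map c ((0 : ℂ), b₀)).1 = 0 := by cases c <;> simp [TB.map]
  obtain ⟨l, hl⟩ := att_gen S hc hp₀ h0 hW he D j
  refine ⟨_, D, W, l, hW, rfl, ?_⟩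
  filter_upwards [he, hl] with p h1 h2
  exact ⟨h1, h2⟩

/-- **near `{β = 0}`** -/
theorem att2 (hR : RetStmt U) {c : Ch T.m} (hc : T.Valid c) {v : Vtx} (hvV : v ∈ Vs T)
    (hv : v2 T c = some v) {a₀ : ℂ}
    (ha : ‖a₀‖ < 2 * S.r c) (ha' : a₀ ≠ 0) (j : Fin T.d) :
    ∃ (w₀ : ℂ) (D : LD U v w₀) (W : ℂ × ℂ → ℂ) (l : Fin T.d), AnalyticAt ℂ W (a₀, (0 : ℂ)) ∧
      W (a₀, (0 : ℂ)) = w₀ ∧ ∀ᶠ p in 𝓝 (a₀, (0 : ℂ)),
      (T.map c p).2 = yv T v ((T.map c p).1, W p) ∧ W p ∈ ball w₀ D.r ∧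
      S.ζ c j p = D.Z l ((T.map c p).1, W p) ∧
      ((T.map c p).1 ≠ 0 → IsRet U v (wc S c j p) (D.σ l (W p))) := by
  obtain ⟨W, hW, hsp, he⟩ := exists_W2 S hc hv ha.le ha'
  obtain ⟨D⟩ := exists_LD hR hvV hsp
  have hp₀ : (a₀, (0 : ℂ)) ∈ BD (2 * S.r c) (2 * S.r c) :=
    ⟨ha, by have := S.pos c; simp [this]⟩
  have h0 : (T.map c (a₀, (0 : ℂ))).1 = 0 := by
    cases c with
    | edge i k k' => simp [TB.map]
    | leg i => simp [v2] at hv
    | vert i k w => simp [v2] at hv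
  obtain ⟨l, hl⟩ := att_gen S hc hp₀ h0 hW he D j
  refine ⟨_, D, W, l, hW, rfl, ?_⟩
  filter_upwards [he, hl] with p h1 h2
  exact ⟨h1, h2⟩

end Crest.Agent.R257.Vt5_558
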