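import Mathlib
import Crest.Agent.R257.Wt0_258

/-!
Row 257 (S0395), C-WT, definitions (helper258): ends of the curves `XV U v` seen in the charts
(`EndStmt`), functions `h v : XV U v → ℝ` with slopes prescribed by the weights (`HVStmt`).
-/

set_option autoImplicit false
set_option linter.unusedSectionVars false

open Polynomial Set Filter Topology Metric
open Crest.AlgGeometry.Germ Crest.Agent.R257.AJ387 Crest.Agent.R257.T387
open Crest.Agent.R257.Gr1_157 Crest.Agent.R257.HoB_843 Crest.Agent.R257.BP_258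

noncomputable section

namespace Crest.Agent.R257.Wt_258

variable {f : (Fin 3 → ℂ) → ℂ} {T : TB f} {U : Tub T} {S : Sh T} (L : Lab U S)

variable (T) in
/-- the exponent of a chart: `w - c ≈ β ^ l` along `{α = 0}` -/
def lx : Ch T.m → ℕ
  | .edge _ k k' => T.M * (k' - k)
  | .leg _ => T.M
  | .vert _ _ _ => 1

variable (T) in
/-- the special point at which the chart is attached to the vertex `v1` -/
def cx : Ch T.m → ℂ
  | .edge i k _ => co T i k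
  | .leg i => co T i (T.top i)
  | .vert _ _ w₀ => w₀

/-- the punctured disc of radius `2 r c` -/
def PDc (S : Sh T) (c : Ch T.m) : Set ℂ := {b | 0 < ‖b‖ ∧ ‖b‖ < 2 * S.r c}

/-- the punctured disc; the full disc for vertex charts -/
def PDv (S : Sh T) (c : Ch T.m) : Set ℂ := {b | (IsV c ∨ 0 < ‖b‖) ∧ ‖b‖ < 2 * S.r c}

variable (U) in
/-- `γ j b` = point of `XV U v` on `{α = 0}` of the sheet `j` of the chart `c` at `(0, b)` -/
structure End1 (S : Sh T) (c : Ch T.m) (v : Vtx) (γ : Fin T.d → ℂ → XV U v) : Prop where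
  cont : ∀ j, ContinuousOn (γ j) (PDv S c)
  pr : ∀ j, ∀ b ∈ PDv S c, pV U v (γ j b) = cx T c + b ^ lx T c
  inj : ∀ b ∈ PDv S c, Function.Injective fun j => γ j b
  surj : ∀ b ∈ PDv S c, ∀ q, pV U v q = cx T c + b ^ lx T c → ∃ j, γ j b = q
  lim : ∀ j, ∀ b ∈ PDv S c, (∀ᶠ p in 𝓝 ((0 : ℂ), b), p.1 ≠ 0 → InT U v (wc S c j p)) ∧
    ∀ O ∈ 𝓝 (γ j b), ∀ᶠ p in 𝓝 ((0 : ℂ), b), p.1 ≠ 0 → ∀ q, IsRet U v (wc S c j p) q → q ∈ O

variable (U) in
/-- the same on `{β = 0}` (edges) -/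
structure End2 (S : Sh T) (c : Ch T.m) (v : Vtx) (γ : Fin T.d → ℂ → XV U v) : Prop where
  cont : ∀ j, ContinuousOn (γ j) (PDc S c)
  pr : ∀ j, ∀ a ∈ PDc S c, pV U v (γ j a) = (a ^ lx T c)⁻¹
  inj : ∀ a ∈ PDc S c, Function.Injective fun j => γ j a
  surj : ∀ a ∈ PDc S c, ∀ q, pV U v q = (a ^ lx T c)⁻¹ → ∃ j, γ j a = q
  lim : ∀ j, ∀ a ∈ PDc S c, (∀ᶠ p in 𝓝 (a, (0 : ℂ)), p.2 ≠ 0 → InT U v (wc S c j p)) ∧
    ∀ O ∈ 𝓝 (γ j a), ∀ᶠ p in 𝓝 (a, (0 : ℂ)), p.2 ≠ 0 → ∀ q, IsRet U v (wc S c j p) q → q ∈ O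

variable (U) in
/-- the component of a point -/
def lab (v : {v // v ∈ Vs T}) (q : XV U v.1) : II U := ⟨v, (q : ConnectedComponents (XV U v.1))⟩

/-- **the ends seen in the charts** (leaf C-END) -/
def EndStmt : Prop := ∀ c, Ok S c → ∀ v : {v // v ∈ Vs T},
  (v1 T c = some v.1 → ∃ γ, End1 U S c v.1 γ ∧ ∀ j, ∀ b ∈ PDv S c, L.e1 c j = some (lab U v (γ j b))) ∧
  (v2 T c = some v.1 → ∃ γ, End2 U S c v.1 γ ∧ ∀ j, ∀ a ∈ PDc S c, L.e2 c j = some (lab U v (γ j a)))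

/-- labels are well defined -/
def LabWD : Prop := ∀ c, Ok S c → ∀ j j' p p', p ∈ BD (2 * S.r c) (2 * S.r c) →
  p' ∈ BD (2 * S.r c) (2 * S.r c) → T.Gen c p → T.Gen c p' → wc S c j p = wc S c j' p' →
  L.e1 c j = L.e1 c j' ∧ L.e2 c j = L.e2 c j'

open Classical in
/-- excess at a kill, `0` else -/
def tk {F : Finset (Ch T.m)} (K : Kill (S := S) F) (c : Ch T.m) (j : Fin T.d) : ℝ :=
  if (c, j) ∈ K.κ then K.t (c, j) else 0

open Classical in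
/-- exact slope along `{α = 0}` in the variable `β` -/
def s1 (y : II U → ℝ) {F : Finset (Ch T.m)} (K : Kill (S := S) F) (c : Ch T.m) (j : Fin T.d) : ℝ :=
  (if IsE c then yo y (L.e2 c j) - yo y (L.e1 c j) else 0) + tk K c j

/-- exact slope along `{β = 0}` in the variable `α` (edges) -/
def s2 (y : II U → ℝ) {F : Finset (Ch T.m)} (K : Kill (S := S) F) (c : Ch T.m) (j : Fin T.d) : ℝ :=
  yo y (L.e1 c j) - yo y (L.e2 c j) + tk K c j

/-- killed points of the curve over `v` -/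
def Qk {F : Finset (Ch T.m)} (K : Kill (S := S) F) (v : Vtx) : Set (XV U v) :=
  {q | ∃ c j γ, (c, j) ∈ K.κ ∧ IsV c ∧ v1 T c = some v ∧ End1 U S c v γ ∧ q = γ j 0}

/-- **functions with prescribed slopes** (leaf C-HV, from `RSWStmt`) -/
def HVStmt [Fintype (II U)] : Prop := ∀ (y : II U → ℝ) (F : Finset (Ch T.m)) (K : Kill (S := S) F),
  (∀ c ∈ F, Ok S c) → (∀ E, KSup L y K E) →
  ∃ (δ τ₁ C : ℝ) (h : ∀ v, XV U v → ℝ), 0 < δ ∧ 0 < τ₁ ∧
    (∀ v ∈ Vs T, SmPos (pV U v) (Qk K v) (h v)) ∧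
    ∀ c, Ok S c → ∀ v : {v // v ∈ Vs T},
      (v1 T c = some v.1 → ∀ γ, End1 U S c v.1 γ → ∀ j, (IsV c → (c, j) ∈ K.κ) →
        ∀ b : ℂ, 0 < ‖b‖ → ‖b‖ < τ₁ → ‖b‖ < S.r c →
        |h v.1 (γ j b) - (s1 L y K c j + δ) * Real.log (‖b‖ ^ 2)| ≤ C) ∧
      (v2 T c = some v.1 → ∀ γ, End2 U S c v.1 γ → ∀ j,
        ∀ a : ℂ, 0 < ‖a‖ → ‖a‖ < τ₁ → ‖a‖ < S.r c →
        |h v.1 (γ j a) - (s2 L y K c j + δ) * Real.log (‖a‖ ^ 2)| ≤ C)

end Crest.Agent.R257.Wt_258
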