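import Mathlib
import Crest.Agent.R257.CDataC_250
import Crest.Agent.R257.Vt5_558
import Crest.Agent.R257.Tb1_941
import Crest.Agent.R257.WtD_258
import Crest.Agent.R257.RsnD_843

/-!
Row 257, part C, task C-DATA (helper250), file E: a function of the retraction, in the charts.

`o : Bool` is the orientation of an edge: `cA o` = the coordinate vanishing on the axis of the vertex `v`,
`cB o` = the coordinate along the axis.
-/

set_option autoImplicit false
set_option linter.unusedSectionVars false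

noncomputable section

open Set Filter Topology MeasureTheory Metric
open scoped ENNReal

namespace Crest.Agent.R257.CDataE_250

open Crest.AlgGeometry.Germ Crest.Agent.R257.AJ387 Crest.Agent.R257.T387
open Crest.Agent.R257.Gr1_157 Crest.Agent.R257.HoB_843 Crest.Agent.R257.BP_258
open Crest.Agent.R257.CDataA_250 Crest.Agent.R257.CDataB_250
open Crest.Agent.R257.Wt_258 Crest.Agent.R257.Rsn_843 Crest.Agent.R257.Vt2_558

variable {f : (Fin 3 → ℂ) → ℂ} {T : TB f} {U : Tub T} {S : Sh T}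

/-! ### orientation -/

/-- the coordinate which vanishes on the axis -/
def cA (o : Bool) (p : ℂ × ℂ) : ℂ := if o then p.1 else p.2

/-- the coordinate along the axis -/
def cB (o : Bool) (p : ℂ × ℂ) : ℂ := if o then p.2 else p.1

/-- the point with coordinates `a`, `b` -/
def mkp (o : Bool) (a b : ℂ) : ℂ × ℂ := if o then (a, b) else (b, a)

@[simp] lemma cA_mkp (o : Bool) (a b : ℂ) : cA o (mkp o a b) = a := by cases o <;> rfl
@[simp] lemma cB_mkp (o : Bool) (a b : ℂ) : cB o (mkp o a b) = b := by cases o <;> rfl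
@[simp] lemma mkp_cA_cB (o : Bool) (p : ℂ × ℂ) : mkp o (cA o p) (cB o p) = p := by cases o <;> rfl

lemma continuous_cA (o : Bool) : Continuous (cA o) := by
  cases o
  · exact continuous_snd
  · exact continuous_fst

lemma continuous_cB (o : Bool) : Continuous (cB o) := by
  cases o
  · exact continuous_fst
  · exact continuous_snd

lemma continuous_mkp (o : Bool) : Continuous fun q : ℂ × ℂ => mkp o q.1 q.2 := by
  cases o
  · exact continuous_snd.prodMk continuous_fst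
  · exact continuous_id

lemma norm_sub_mkp (o : Bool) (p : ℂ × ℂ) : ‖p - mkp o 0 (cB o p)‖ = ‖cA o p‖ := by
  cases o
  · simp [cA, cB, mkp, Prod.norm_def]
  · simp [cA, cB, mkp, Prod.norm_def]

lemma differentiable_cA (o : Bool) : Differentiable ℂ (cA o) := by
  cases o
  · exact differentiable_snd
  · exact differentiable_fst

lemma differentiable_cB (o : Bool) : Differentiable ℂ (cB o) := by
  cases o
  · exact differentiable_fst
  · exact differentiable_snd

/-- the vertex of the axis -/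
def vO (T : TB f) (o : Bool) (c : Ch T.m) : Option Vtx := if o then v1 T c else v2 T c

/-- the label of the axis -/
def eO (L : Lab U S) (o : Bool) (c : Ch T.m) (j : Fin T.d) : Option (II U) :=
  if o then L.e1 c j else L.e2 c j

lemma eO_vO (L : Lab U S) {o : Bool} {c : Ch T.m} (hc : Ok S c) {j : Fin T.d} {E : II U}
    (h : eO L o c j = some E) : vO T o c = some E.1.1 := by
  cases o
  · have := L.v_e2 c hc j
    simp only [eO, Bool.false_eq_true, if_false] at h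
    rw [h] at this
    exact this.symm
  · have := L.v_e1 c hc j
    simp only [eO, if_true] at h
    rw [h] at this
    exact this.symm

/-- `near1`, `near2` together -/
lemma near (L : Lab U S) {o : Bool} {c : Ch T.m} (hc : Ok S c) {j : Fin T.d} {E : II U}
    (h : eO L o c j = some E) {τ : ℝ} (hτ : 0 < τ) : ∃ a > 0, ∀ p : ℂ × ℂ,
    0 < ‖cA o p‖ → ‖cA o p‖ < a → ‖cB o p‖ ≤ S.r c → (o = true ∧ IsV c ∨ τ ≤ ‖cB o p‖) →
    InT U E.1.1 (wc S c j p) ∧ ∀ q, IsRet U E.1.1 (wc S c j p) q →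
      (q : ConnectedComponents _) = E.2 := by
  cases o
  · simp only [eO, Bool.false_eq_true, if_false] at h
    obtain ⟨a, ha, h1⟩ := L.near2 c hc j E h τ hτ
    refine ⟨a, ha, fun p h2 h3 h4 h5 => h1 p h2 h3 h4 ?_⟩
    rcases h5 with h5 | h5
    · exact absurd h5.1 (by simp)
    · exact h5
  · simp only [eO, if_true] at h
    obtain ⟨a, ha, h1⟩ := L.near1 c hc j E h τ hτ
    refine ⟨a, ha, fun p h2 h3 h4 h5 => h1 p h2 h3 h4 ?_⟩
    rcases h5 with h5 | h5
    · exact Or.inl h5.2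
    · exact Or.inr h5

/-! ### a function of the retraction -/

open Classical in
/-- `f₀ (ret x)` -/
def GG (U : Tub T) (v : Vtx) (f₀ : XV U v → ℂ) (x : Fin 3 → ℂ) : ℂ :=
  if h : ∃ q, IsRet U v x q then f₀ h.choose else 0

lemma ret_uniq (hR : RetStmt U) {v : Vtx} {x : Fin 3 → ℂ} {q q' : XV U v} (h : IsRet U v x q)
    (h' : IsRet U v x q') : q = q' :=
  ((hR v h.1.mem).1 x h.1).unique h h'

lemma GG_eq (hR : RetStmt U) {v : Vtx} {f₀ : XV U v → ℂ} {x : Fin 3 → ℂ} {q : XV U v}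
    (h : IsRet U v x q) : GG U v f₀ x = f₀ q := by
  have h1 : ∃ q, IsRet U v x q := ⟨q, h⟩
  unfold GG
  rw [dif_pos h1, ret_uniq hR h1.choose_spec h]

lemma GG_ne {v : Vtx} {f₀ : XV U v → ℂ} {x : Fin 3 → ℂ} (h : GG U v f₀ x ≠ 0) :
    ∃ q, IsRet U v x q ∧ f₀ q ≠ 0 := by
  unfold GG at h
  split_ifs at h with h1
  · exact ⟨_, h1.choose_spec, h⟩
  · exact absurd rfl h

lemma exists_ret (hR : RetStmt U) {v : Vtx} {x : Fin 3 → ℂ} (h : InT U v x) :
    ∃ q, IsRet U v x q := ((hR v h.mem).1 x h).exists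

lemma wv_an (v : Vtx) {q : ℂ × ℂ} (hq : q.1 ≠ 0) : AnalyticAt ℂ (wv T v) q := by
  unfold wv
  refine AnalyticAt.div ?_ (analyticAt_fst.pow _) (pow_ne_zero _ hq)
  refine analyticAt_snd.sub ?_
  have h1 : AnalyticAt ℂ (fun t : ℂ => v.2.eval t) (q.1 ^ T.M) :=
    (Polynomial.differentiable v.2).analyticAt _
  exact AnalyticAt.comp (g := fun t : ℂ => v.2.eval t) (f := fun q : ℂ × ℂ => q.1 ^ T.M) h1
    (analyticAt_fst.pow _)

/-- the points of the tube form an open subset of the surface -/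
lemma inT_open {v : Vtx} {F : ℂ × ℂ → Fin 3 → ℂ} {p : ℂ × ℂ} (hF : ContinuousAt F p)
    (hroot : ∀ᶠ p' in 𝓝 p, (T.Q (F p' 1, F p' 2)).eval (F p' 0) = 0) (h : InT U v (F p)) :
    ∀ᶠ p' in 𝓝 p, InT U v (F p') := by
  have c1 : ContinuousAt (fun p' => F p' 1) p := (continuous_apply 1).continuousAt.comp hF
  have c2 : ContinuousAt (fun p' => F p' 2) p := (continuous_apply 2).continuousAt.comp hF
  have cw : ContinuousAt (fun p' => wv T v (F p' 1, F p' 2)) p :=
    ContinuousAt.comp (g := wv T v) (f := fun p' => (F p' 1, F p' 2))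
      (wv_an v (q := (F p 1, F p 2)) h.ne).continuousAt (c1.prodMk c2)
  have e1 : ∀ᶠ p' in 𝓝 p, F p' 1 ≠ 0 := c1.eventually_ne h.ne
  have e2 : ∀ᶠ p' in 𝓝 p, wv T v (F p' 1, F p' 2) ∉ sp T v :=
    cw.eventually ((isOpen_nsp v).mem_nhds h.nsp)
  have e3 : ∀ᶠ p' in 𝓝 p, ‖F p' 1‖ < U.ρ v (wv T v (F p' 1, F p' 2)) := by
    have c3 : ContinuousAt (fun p' => U.ρ v (wv T v (F p' 1, F p' 2))) p :=
      ContinuousAt.comp (g := U.ρ v) (f := fun p' => wv T v (F p' 1, F p' 2))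
        (rho_contAt U h.mem h.nsp) cw
    exact c1.norm.eventually_lt c3 h.lt
  filter_upwards [e1, e2, e3, hroot] with p' h1 h2 h3 h4
  exact ⟨h.mem, h1, h2, h3, h4⟩

/-- **analyticity in the tube** -/
lemma GG_an (hR : RetStmt U) {v : Vtx} {f₀ : XV U v → ℂ} (hf : HolX (pV U v) f₀)
    {F : ℂ × ℂ → Fin 3 → ℂ} {p : ℂ × ℂ} (hF : AnalyticAt ℂ F p)
    (hroot : ∀ᶠ p' in 𝓝 p, (T.Q (F p' 1, F p' 2)).eval (F p' 0) = 0) (h : InT U v (F p)) :
    AnalyticAt ℂ (fun p' => GG U v f₀ (F p')) p := by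
  have a1 : AnalyticAt ℂ (fun p' => F p' 1) p :=
    ((ContinuousLinearMap.proj (R := ℂ) (φ := fun _ : Fin 3 => ℂ) 1).analyticAt _).comp hF
  have a2 : AnalyticAt ℂ (fun p' => F p' 2) p :=
    ((ContinuousLinearMap.proj (R := ℂ) (φ := fun _ : Fin 3 => ℂ) 2).analyticAt _).comp hF
  have a0 : ContinuousAt (fun p' => F p' 0) p := (continuous_apply 0).continuousAt.comp
    hF.continuousAt
  have aw : AnalyticAt ℂ (fun p' => wv T v (F p' 1, F p' 2)) p :=
    AnalyticAt.comp (g := wv T v) (f := fun p' => (F p' 1, F p' 2))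
      (wv_an v (q := (F p 1, F p 2)) h.ne) (a1.prod a2)
  set w₀ : ℂ := wv T v (F p 1, F p 2) with hw₀
  obtain ⟨D⟩ := exists_LD hR h.mem (w₀ := w₀) h.nsp
  have hin := inT_open hF.continuousAt hroot h
  obtain ⟨q, hq⟩ := exists_ret hR h
  have hpq : pV U v q = w₀ := hq.2.1
  obtain ⟨l, -, -, -, h0, hql⟩ := D.of_ret hq (by rw [hpq]; exact D.w0_mem)
  rw [hpq] at h0 hql
  have hmem : ((F p 1, w₀) : ℂ × ℂ) ∈ ball (0 : ℂ) D.R ×ˢ ball w₀ D.r :=
    ⟨by simpa using h.lt.trans (D.lt _ D.w0_mem).2, D.w0_mem⟩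
  have hne : ∀ᶠ p' in 𝓝 p, ∀ l', l' ≠ l → D.Z l' (F p' 1, wv T v (F p' 1, F p' 2)) ≠ F p' 0 := by
    rw [eventually_all]
    intro l'
    by_cases hl : l' = l
    · exact Eventually.of_forall fun _ h => absurd hl h
    · have c3 : ContinuousAt (fun p' => D.Z l' (F p' 1, wv T v (F p' 1, F p' 2))) p :=
        ContinuousAt.comp (g := D.Z l') (f := fun p' => (F p' 1, wv T v (F p' 1, F p' 2)))
          (D.an l' _ hmem).continuousAt (a1.continuousAt.prodMk aw.continuousAt)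
      have h3 : D.Z l' (F p 1, wv T v (F p 1, F p 2)) ≠ F p 0 := by
        rw [h0]
        exact fun h4 => hl (D.inj _ hmem h.ne h4)
      exact ((c3.ne_iff_eventually_ne a0).1 h3).mono fun _ h _ => h
  have hball : ∀ᶠ p' in 𝓝 p, wv T v (F p' 1, F p' 2) ∈ ball w₀ D.r :=
    aw.continuousAt.eventually (isOpen_ball.mem_nhds D.w0_mem)
  have key : (fun p' => GG U v f₀ (F p')) =ᶠ[𝓝 p]
      fun p' => (f₀ ∘ D.σ l) (wv T v (F p' 1, F p' 2)) := by
    filter_upwards [hin, hne, hball] with p' h1 h2 h3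
    obtain ⟨q', hq'⟩ := exists_ret hR h1
    have hpq' : pV U v q' = wv T v (F p' 1, F p' 2) := hq'.2.1
    obtain ⟨l', -, -, -, h4, h5⟩ := D.of_ret hq' (by rw [hpq']; exact h3)
    rw [hpq'] at h4 h5
    have h6 : l' = l := by
      by_contra h7
      exact h2 l' h7 h4.symm
    rw [GG_eq hR hq', h5, h6]
    rfl
  refine AnalyticAt.congr ?_ key.symm
  exact AnalyticAt.comp (g := f₀ ∘ D.σ l) (f := fun p' => wv T v (F p' 1, F p' 2))
    (hf w₀ D.r (D.σ l) D.r_pos (D.cont l) (D.proj l)) aw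

/-- the root equation in the charts -/
lemma root_ev {c : Ch T.m} (hc : T.Valid c) (j : Fin T.d) {p : ℂ × ℂ}
    (hp : p ∈ BD (2 * S.r c) (2 * S.r c)) :
    ∀ᶠ p' in 𝓝 p, (T.Q (wc S c j p' 1, wc S c j p' 2)).eval (wc S c j p' 0) = 0 := by
  have hBDo : IsOpen (BD (2 * S.r c) (2 * S.r c)) :=
    (isOpen_lt continuous_fst.norm continuous_const).inter
    (isOpen_lt continuous_snd.norm continuous_const)
  filter_upwards [hBDo.mem_nhds hp] with p' hp'
  exact Vt5_558.wc_root S hc j hp'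

lemma GG_an_wc (hR : RetStmt U) {v : Vtx} {f₀ : XV U v → ℂ} (hf : HolX (pV U v) f₀)
    {c : Ch T.m} (hc : T.Valid c) (j : Fin T.d) {p : ℂ × ℂ}
    (hp : p ∈ BD (2 * S.r c) (2 * S.r c)) (h : InT U v (wc S c j p)) :
    AnalyticAt ℂ (fun p' => GG U v f₀ (wc S c j p')) p :=
  GG_an hR hf (wc_an hc j hp) (root_ev hc j hp) h

/-! ### near the axis -/

lemma BD_of (o : Bool) {R : ℝ} {p : ℂ × ℂ} (h1 : ‖cA o p‖ < R) (h2 : ‖cB o p‖ < R) :
    p ∈ BD R R := by
  cases o
  · exact ⟨h2, h1⟩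
  · exact ⟨h1, h2⟩

/-- `b` is an admissible coordinate on the axis -/
def Adb (S : Sh T) (o : Bool) (c : Ch T.m) (b : ℂ) : Prop :=
  ‖b‖ < 2 * S.r c ∧ (b ≠ 0 ∨ (o = true ∧ IsV c))

/-- local extension across the axis -/
lemma loc_ext (hR : RetStmt U) {v : Vtx} (hvV : v ∈ Vs T) {f₀ : XV U v → ℂ}
    (hf : HolX (pV U v) f₀) {o : Bool} {c : Ch T.m} (hc : T.Valid c) (hv : vO T o c = some v)
    {b : ℂ} (hb : Adb S o c b) (j : Fin T.d) :
    ∃ (w₀ : ℂ) (D : LD U v w₀) (W : ℂ × ℂ → ℂ) (l : Fin T.d), AnalyticAt ℂ W (mkp o 0 b) ∧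
      W (mkp o 0 b) = w₀ ∧ AnalyticAt ℂ (fun p => f₀ (D.σ l (W p))) (mkp o 0 b) ∧
      (∀ᶠ p in 𝓝 (mkp o 0 b), W p ∈ ball w₀ D.r) ∧
      ∀ᶠ p in 𝓝 (mkp o 0 b), cA o p ≠ 0 → IsRet U v (wc S c j p) (D.σ l (W p)) ∧
        GG U v f₀ (wc S c j p) = f₀ (D.σ l (W p)) := by
  have hs : ∀ᶠ p in 𝓝 (mkp o 0 b), cA o p ≠ 0 → (T.map c p).1 ≠ 0 := by
    cases o
    · rcases hb.2 with h | h
      · cases c with
        | edge i k k' =>
          have h1 : ∀ᶠ p : ℂ × ℂ in 𝓝 (b, (0 : ℂ)), p.1 ≠ 0 :=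
            continuous_fst.continuousAt.eventually_ne h
          filter_upwards [h1] with p h2 h3
          exact mul_ne_zero h2 h3
        | leg i => simp [vO, v2] at hv
        | vert i k w => simp [vO, v2] at hv
      · simp at h
    · cases c with
      | edge i k k' =>
        rcases hb.2 with h | h
        · have h1 : ∀ᶠ p : ℂ × ℂ in 𝓝 ((0 : ℂ), b), p.2 ≠ 0 :=
            continuous_snd.continuousAt.eventually_ne h
          filter_upwards [h1] with p h2 h3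
          exact mul_ne_zero h3 h2
        · exact absurd h.2 (by simp [IsV])
      | leg i => exact Eventually.of_forall fun p h3 => h3
      | vert i k w => exact Eventually.of_forall fun p h3 => h3
  have main : ∃ (w₀ : ℂ) (D : LD U v w₀) (W : ℂ × ℂ → ℂ) (l : Fin T.d),
      AnalyticAt ℂ W (mkp o 0 b) ∧ W (mkp o 0 b) = w₀ ∧ ∀ᶠ p in 𝓝 (mkp o 0 b),
      W p ∈ ball w₀ D.r ∧ ((T.map c p).1 ≠ 0 → IsRet U v (wc S c j p) (D.σ l (W p))) := by
    cases o
    · have hb' : b ≠ 0 := by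
        rcases hb.2 with h | h
        · exact h
        · simp at h
      obtain ⟨w₀, D, W, l, h1, h2, h3⟩ := Vt5_558.att2 S hR hc hvV hv hb.1 hb' j
      exact ⟨w₀, D, W, l, h1, h2, h3.mono fun p h => ⟨h.2.1, h.2.2.2⟩⟩
    · have hb' : b ≠ 0 ∨ IsV c := by
        rcases hb.2 with h | h
        · exact Or.inl h
        · exact Or.inr h.2
      obtain ⟨w₀, D, W, l, h1, h2, h3⟩ := Vt5_558.att1 S hR hc hvV hv hb.1 hb' j
      exact ⟨w₀, D, W, l, h1, h2, h3.mono fun p h => ⟨h.2.1, h.2.2.2⟩⟩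
  obtain ⟨w₀, D, W, l, hW, hW0, hev⟩ := main
  refine ⟨w₀, D, W, l, hW, hW0, ?_, hev.mono fun p h => h.1, ?_⟩
  · refine AnalyticAt.comp (g := f₀ ∘ D.σ l) (f := W) ?_ hW
    rw [hW0]
    exact hf w₀ D.r (D.σ l) D.r_pos (D.cont l) (D.proj l)
  · filter_upwards [hev, hs] with p h1 h2 h3
    have h4 := h1.2 (h2 h3)
    exact ⟨h4, GG_eq hR h4⟩

end Crest.Agent.R257.CDataE_250
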