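import Mathlib
import Crest.Agent.R257.CDataE_250

/-!
Row 257, part C, task C-DATA (helper250), file F: the values on the axis (`EndO`), the difference
`f₀ (ret) - f₀ (γ)` is `O(α)`, equal points of one chart.
-/

set_option autoImplicit false
set_option linter.unusedSectionVars false

noncomputable section

open Set Filter Topology MeasureTheory Metric
open scoped ENNReal

namespace Crest.Agent.R257.CDataE_250

open Crest.AlgGeometry.Germ Crest.Agent.R257.AJ387 Crest.Agent.R257.T387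
open Crest.Agent.R257.Gr1_157 Crest.Agent.R257.HoB_843 Crest.Agent.R257.BP_258
open Crest.Agent.R257.CDataA_250 Crest.Agent.R257.CDataB_250
open Crest.Agent.R257.Wt_258 Crest.Agent.R257.Rsn_843 Crest.Agent.R257.Vt2_558

variable {f : (Fin 3 → ℂ) → ℂ} {T : TB f} {U : Tub T} {S : Sh T}

/-- the points of `XV U v` on the axis -/
structure EndO (U : Tub T) (S : Sh T) (o : Bool) (c : Ch T.m) (v : Vtx)
    (γ : Fin T.d → ℂ → XV U v) : Prop where
  cont : ∀ j, ContinuousOn (γ j) (PDc S c)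
  an : ∀ j, ∀ b ∈ PDc S c, AnalyticAt ℂ (fun b => pV U v (γ j b)) b
  int : ∀ j, ∀ b ∈ PDc S c, ∀ᶠ p in 𝓝 (mkp o 0 b), cA o p ≠ 0 → InT U v (wc S c j p)
  lim : ∀ j, ∀ b ∈ PDc S c, ∀ O ∈ 𝓝 (γ j b), ∀ᶠ p in 𝓝 (mkp o 0 b), cA o p ≠ 0 →
    ∀ q, IsRet U v (wc S c j p) q → q ∈ O

lemma isOpen_PDc (c : Ch T.m) : IsOpen (PDc S c) :=
  (isOpen_lt continuous_const continuous_norm).inter (isOpen_lt continuous_norm continuous_const)

lemma endO_of_end1 {c : Ch T.m} {v : Vtx} {γ : Fin T.d → ℂ → XV U v} (h : End1 U S c v γ) :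
    EndO U S true c v γ := by
  have hsub : PDc S c ⊆ PDv S c := fun b hb => ⟨Or.inr hb.1, hb.2⟩
  refine ⟨fun j => (h.cont j).mono hsub, fun j b hb => ?_, fun j b hb => (h.lim j b (hsub hb)).1,
    fun j b hb => (h.lim j b (hsub hb)).2⟩
  have h1 : (fun b => pV U v (γ j b)) =ᶠ[𝓝 b] fun b => cx T c + b ^ lx T c := by
    filter_upwards [(isOpen_PDc c).mem_nhds hb] with b' hb'
    exact h.pr j b' (hsub hb')
  exact (analyticAt_const.add (analyticAt_id.pow _)).congr h1.symm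

lemma endO_of_end2 {c : Ch T.m} {v : Vtx} {γ : Fin T.d → ℂ → XV U v} (h : End2 U S c v γ) :
    EndO U S false c v γ := by
  refine ⟨h.cont, fun j b hb => ?_, fun j b hb => (h.lim j b hb).1, fun j b hb => (h.lim j b hb).2⟩
  have h1 : (fun b => pV U v (γ j b)) =ᶠ[𝓝 b] fun b => (b ^ lx T c)⁻¹ := by
    filter_upwards [(isOpen_PDc c).mem_nhds hb] with b' hb'
    exact h.pr j b' hb'
  exact ((analyticAt_id.pow _).inv (pow_ne_zero _ (norm_pos_iff.1 hb.1))).congr h1.symm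

lemma pV_nsp {v : Vtx} (q : XV U v) : pV U v q ∉ sp T v := q.2.2.1

namespace EndO

variable {o : Bool} {c : Ch T.m} {v : Vtx} {γ : Fin T.d → ℂ → XV U v} (h : EndO U S o c v γ)
include h

/-- `f₀ ∘ γ j` is analytic -/
lemma an_f (hR : RetStmt U) (hvV : v ∈ Vs T) {f₀ : XV U v → ℂ} (hf : HolX (pV U v) f₀)
    (j : Fin T.d) {b : ℂ} (hb : b ∈ PDc S c) : AnalyticAt ℂ (fun b => f₀ (γ j b)) b := by
  set w₀ : ℂ := pV U v (γ j b) with hw₀
  obtain ⟨D⟩ := exists_LD hR hvV (w₀ := w₀) (pV_nsp _)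
  obtain ⟨l, hl⟩ := D.surj (γ j b) D.w0_mem
  have h1 := D.near (j := l) D.w0_mem
  rw [show D.σ l w₀ = γ j b from hl] at h1
  have h2 : ContinuousAt (γ j) b := (h.cont j).continuousAt ((isOpen_PDc c).mem_nhds hb)
  have h3 : (fun b => f₀ (γ j b)) =ᶠ[𝓝 b] fun b => (f₀ ∘ D.σ l) (pV U v (γ j b)) := by
    filter_upwards [h2.eventually h1] with b' hb'
    show _ = f₀ (D.σ l (pV U v (γ j b')))
    rw [hb'.1]
  refine AnalyticAt.congr ?_ h3.symm
  exact AnalyticAt.comp (g := f₀ ∘ D.σ l) (f := fun b => pV U v (γ j b))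
    (hf w₀ D.r (D.σ l) D.r_pos (D.cont l) (D.proj l)) (h.an j b hb)

omit h in
/-- points `mkp o t b` with `t → 0`, `t ≠ 0` -/
lemma tend_mkp (o : Bool) (b : ℂ) : Tendsto (fun t : ℂ => mkp o t b) (𝓝[≠] 0) (𝓝 (mkp o 0 b)) := by
  have h1 : Continuous fun t : ℂ => mkp o t b :=
    (continuous_mkp o).comp (continuous_id.prodMk continuous_const)
  exact (h1.tendsto 0).mono_left nhdsWithin_le_nhds

/-- the limit is unique -/
lemma lim_eq {j : Fin T.d} {b : ℂ} (hb : b ∈ PDc S c) {q₀ : XV U v}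
    (hq : ∀ O ∈ 𝓝 q₀, ∃ᶠ t in 𝓝[≠] (0 : ℂ), ∃ q, IsRet U v (wc S c j (mkp o t b)) q ∧ q ∈ O) :
    γ j b = q₀ := by
  by_contra hne
  obtain ⟨O₁, O₂, ho1, ho2, h1, h2, h3⟩ := t2_separation hne
  have e1 := (tend_mkp o b).eventually (h.lim j b hb O₁ (ho1.mem_nhds h1))
  have e2 := hq O₂ (ho2.mem_nhds h2)
  obtain ⟨t, ⟨⟨q, hq1, hq2⟩, h4⟩, h5⟩ := ((e2.and_eventually e1).and_eventually
    self_mem_nhdsWithin).exists
  have h6 := h4 (by rw [cA_mkp]; exact h5) q hq1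
  exact (Set.disjoint_left.1 h3) h6 hq2

/-- the extension takes the values `f₀ (γ j b)` on the axis -/
lemma val_ext (hR : RetStmt U) (hvV : v ∈ Vs T) {f₀ : XV U v → ℂ} (hf : HolX (pV U v) f₀)
    (hc : T.Valid c) (hv : vO T o c = some v) (j : Fin T.d) {b : ℂ} (hb : b ∈ PDc S c) :
    ∃ Fl : ℂ × ℂ → ℂ, AnalyticAt ℂ Fl (mkp o 0 b) ∧
      (∀ᶠ p in 𝓝 (mkp o 0 b), cA o p ≠ 0 → GG U v f₀ (wc S c j p) = Fl p) ∧
      ∀ᶠ p in 𝓝 (mkp o 0 b), Fl (mkp o 0 (cB o p)) = f₀ (γ j (cB o p)) := by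
  have hadb : Adb S o c b := ⟨hb.2, Or.inl (norm_pos_iff.1 hb.1)⟩
  obtain ⟨w₀, D, W, l, hW, hW0, hFa, hball, hev⟩ := loc_ext (S := S) hR hvV hf hc hv hadb j
  refine ⟨_, hFa, hev.mono fun p hp h0 => (hp h0).2, ?_⟩
  have hWc : ∀ᶠ p in 𝓝 (mkp o 0 b), ContinuousAt W p :=
    hW.eventually_analyticAt.mono fun p hp => hp.continuousAt
  have hcont : Continuous fun p : ℂ × ℂ => mkp o 0 (cB o p) :=
    (continuous_mkp o).comp (continuous_const.prodMk (continuous_cB o))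
  have htend : Tendsto (fun p : ℂ × ℂ => mkp o 0 (cB o p)) (𝓝 (mkp o 0 b)) (𝓝 (mkp o 0 b)) := by
    have := hcont.tendsto (mkp o 0 b)
    simpa using this
  have hPD : ∀ᶠ p in 𝓝 (mkp o 0 b), cB o p ∈ PDc S c := by
    refine (continuous_cB o).continuousAt.eventually ?_
    rw [cB_mkp]
    exact (isOpen_PDc c).mem_nhds hb
  filter_upwards [htend.eventually (hev.eventually_nhds), htend.eventually (hball.eventually_nhds),
    htend.eventually hWc, hPD] with p h1 h2 h3 h4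
  congr 1
  symm
  refine h.lim_eq h4 fun O hO => ?_
  have c1 : ContinuousAt (fun p => D.σ l (W p)) (mkp o 0 (cB o p)) := by
    refine ContinuousAt.comp (g := D.σ l) (f := W) ?_ h3
    exact (D.cont l).continuousAt (isOpen_ball.mem_nhds h2.self_of_nhds)
  have e1 := (tend_mkp o (cB o p)).eventually (c1.eventually hO)
  have e2 := (tend_mkp o (cB o p)).eventually h1
  refine Eventually.frequently ?_
  filter_upwards [e1, e2, self_mem_nhdsWithin] with t h5 h6 h7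
  exact ⟨_, (h6 (by rw [cA_mkp]; exact h7)).1, h5⟩

/-- local form of the estimate -/
lemma est_loc (hR : RetStmt U) (hvV : v ∈ Vs T) {f₀ : XV U v → ℂ} (hf : HolX (pV U v) f₀)
    (hc : T.Valid c) (hv : vO T o c = some v) (j : Fin T.d) {b : ℂ} (hb : b ∈ PDc S c) :
    ∃ ε > 0, ∃ C, ∀ p : ℂ × ℂ, ‖cB o p - b‖ < ε → 0 < ‖cA o p‖ → ‖cA o p‖ < ε →
      ‖GG U v f₀ (wc S c j p) - f₀ (γ j (cB o p))‖ ≤ C * ‖cA o p‖ := by
  obtain ⟨Fl, hFl, h1, h2⟩ := h.val_ext hR hvV hf hc hv j hb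
  obtain ⟨K, t, ht, hK⟩ := (hFl.contDiffAt (n := 1)).exists_lipschitzOnWith
  have hcont : Continuous fun p : ℂ × ℂ => mkp o 0 (cB o p) :=
    (continuous_mkp o).comp (continuous_const.prodMk (continuous_cB o))
  have htend : Tendsto (fun p : ℂ × ℂ => mkp o 0 (cB o p)) (𝓝 (mkp o 0 b)) (𝓝 (mkp o 0 b)) := by
    have := hcont.tendsto (mkp o 0 b)
    simpa using this
  have hev : ∀ᶠ p in 𝓝 (mkp o 0 b), cA o p ≠ 0 →
      ‖GG U v f₀ (wc S c j p) - f₀ (γ j (cB o p))‖ ≤ K * ‖cA o p‖ := by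
    filter_upwards [h1, h2, ht, htend.eventually_mem ht] with p e1 e2 e3 e4 e5
    rw [e1 e5, ← e2, ← norm_sub_mkp]
    have := hK.dist_le_mul p e3 _ e4
    rwa [dist_eq_norm, dist_eq_norm] at this
  obtain ⟨ε, hε, hb'⟩ := Metric.eventually_nhds_iff.1 hev
  refine ⟨ε, hε, K, fun p e1 e2 e3 => hb' ?_ (norm_pos_iff.1 e2)⟩
  rw [dist_eq_norm, Prod.norm_def]
  cases o
  · exact max_lt e1 (by simpa [mkp, cA] using e3)
  · exact max_lt (by simpa [mkp, cA] using e3) e1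

/-- **the retraction against the axis** -/
lemma est (hR : RetStmt U) (hvV : v ∈ Vs T) {f₀ : XV U v → ℂ} (hf : HolX (pV U v) f₀)
    (hc : T.Valid c) (hv : vO T o c = some v) (j : Fin T.d) {K : Set ℂ} (hK : IsCompact K)
    (hKs : K ⊆ PDc S c) :
    ∃ ε > 0, ∃ C, ∀ p : ℂ × ℂ, cB o p ∈ K → 0 < ‖cA o p‖ → ‖cA o p‖ < ε →
      ‖GG U v f₀ (wc S c j p) - f₀ (γ j (cB o p))‖ ≤ C * ‖cA o p‖ := by
  refine hK.induction_on (p := fun s => ∃ ε > 0, ∃ C, ∀ p : ℂ × ℂ, cB o p ∈ s → 0 < ‖cA o p‖ →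
    ‖cA o p‖ < ε → ‖GG U v f₀ (wc S c j p) - f₀ (γ j (cB o p))‖ ≤ C * ‖cA o p‖) ?_ ?_ ?_ ?_
  · exact ⟨1, one_pos, 0, fun p hp => absurd hp (Set.notMem_empty _)⟩
  · rintro s t hst ⟨ε, hε, C, h1⟩
    exact ⟨ε, hε, C, fun p hp => h1 p (hst hp)⟩
  · rintro s t ⟨ε, hε, C, h1⟩ ⟨ε', hε', C', h1'⟩
    refine ⟨min ε ε', lt_min hε hε', max C C', fun p hp h2 h3 => ?_⟩
    rcases hp with hp | hp
    · exact (h1 p hp h2 (h3.trans_le (min_le_left _ _))).trans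
        (mul_le_mul_of_nonneg_right (le_max_left _ _) (norm_nonneg _))
    · exact (h1' p hp h2 (h3.trans_le (min_le_right _ _))).trans
        (mul_le_mul_of_nonneg_right (le_max_right _ _) (norm_nonneg _))
  · intro b hb
    obtain ⟨ε, hε, C, h1⟩ := h.est_loc hR hvV hf hc hv j (hKs hb)
    refine ⟨ball b ε, mem_nhdsWithin_of_mem_nhds (ball_mem_nhds b hε), ε, hε, C, fun p hp => h1 p ?_⟩
    simpa [dist_eq_norm] using hp

end EndO

/-- `f₀ (ret)` is bounded near a compact part of the axis -/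
lemma GG_bd (hR : RetStmt U) {v : Vtx} (hvV : v ∈ Vs T) {f₀ : XV U v → ℂ}
    (hf : HolX (pV U v) f₀) {o : Bool} {c : Ch T.m} (hc : T.Valid c) (hv : vO T o c = some v)
    (j : Fin T.d) {K : Set ℂ} (hK : IsCompact K) (hKs : ∀ b ∈ K, Adb S o c b) :
    ∃ ε > 0, ∃ C, ∀ p : ℂ × ℂ, cB o p ∈ K → 0 < ‖cA o p‖ → ‖cA o p‖ < ε →
      ‖GG U v f₀ (wc S c j p)‖ ≤ C := by
  refine hK.induction_on (p := fun s => ∃ ε > 0, ∃ C, ∀ p : ℂ × ℂ, cB o p ∈ s → 0 < ‖cA o p‖ →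
    ‖cA o p‖ < ε → ‖GG U v f₀ (wc S c j p)‖ ≤ C) ?_ ?_ ?_ ?_
  · exact ⟨1, one_pos, 0, fun p hp => absurd hp (Set.notMem_empty _)⟩
  · rintro s t hst ⟨ε, hε, C, h1⟩
    exact ⟨ε, hε, C, fun p hp => h1 p (hst hp)⟩
  · rintro s t ⟨ε, hε, C, h1⟩ ⟨ε', hε', C', h1'⟩
    refine ⟨min ε ε', lt_min hε hε', max C C', fun p hp h2 h3 => ?_⟩
    rcases hp with hp | hp
    · exact (h1 p hp h2 (h3.trans_le (min_le_left _ _))).trans (le_max_left _ _)
    · exact (h1' p hp h2 (h3.trans_le (min_le_right _ _))).trans (le_max_right _ _)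
  · intro b hb
    obtain ⟨w₀, D, W, l, hW, hW0, hFa, hball, hev⟩ := loc_ext (S := S) hR hvV hf hc hv (hKs b hb) j
    have h3 : ∀ᶠ p in 𝓝 (mkp o 0 b), ‖f₀ (D.σ l (W p))‖ < ‖f₀ (D.σ l (W (mkp o 0 b)))‖ + 1 :=
      hFa.continuousAt.norm.eventually_lt continuousAt_const (lt_add_one _)
    obtain ⟨ε, hε, hb'⟩ := Metric.eventually_nhds_iff.1 (hev.and h3)
    refine ⟨ball b ε, mem_nhdsWithin_of_mem_nhds (ball_mem_nhds b hε), ε, hε,
      ‖f₀ (D.σ l (W (mkp o 0 b)))‖ + 1, fun p hp e2 e3 => ?_⟩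
    have hd : dist p (mkp o 0 b) < ε := by
      have e1 : ‖cB o p - b‖ < ε := by simpa [dist_eq_norm] using hp
      rw [dist_eq_norm, Prod.norm_def]
      cases o
      · exact max_lt e1 (by simpa [mkp, cA] using e3)
      · exact max_lt (by simpa [mkp, cA] using e3) e1
    obtain ⟨h4, h5⟩ := hb' hd
    rw [(h4 (norm_pos_iff.1 e2)).2]
    exact h5.le

end Crest.Agent.R257.CDataE_250
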