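import Mathlib
import Crest.Agent.R257.BPDefs_258

/-!
Row 257 (S0395), part C, task C-LAB (helper931), file 1: general facts.

* `exists_hh` : Taylor remainder of the branches;
* `tr_eq_iff`, `mem_sp_vx` : the special points of `vx T i k` are `co i k + Sp i k`;
* `isPreconnected_norm` : annuli are connected;
* `comp_const` : the component of the retraction is constant on connected sets;
* `near_axis` : points near a compact part of an axis are in the tube;
* `comp_onto` : every component of `XV U v` is mapped onto the complement of the special points.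
-/

set_option autoImplicit false
set_option linter.unusedSectionVars false

open Polynomial Set Filter Topology Metric
open Crest.AlgGeometry.Germ Crest.Agent.R257.AJ387 Crest.Agent.R257.T387
open Crest.Agent.R257.Gr1_157 Crest.Agent.R257.BP_258

noncomputable section

namespace Crest.Agent.R257.Lab_931

/-! ### Taylor remainders -/

/-- iterated divided slopes at `0` -/
def hk (g : ℂ → ℂ) : ℕ → ℂ → ℂ
  | 0 => g
  | k + 1 => dslope (hk g k) 0

lemma hk_diff {g : ℂ → ℂ} {ρ : ℝ} (hρ : 0 < ρ) (hg : DifferentiableOn ℂ g (ball 0 ρ)) (k : ℕ) :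
    DifferentiableOn ℂ (hk g k) (ball 0 ρ) := by
  induction k with
  | zero => exact hg
  | succ k ih => exact (Complex.differentiableOn_dslope (ball_mem_nhds 0 hρ)).2 ih

lemma hk_eq (g : ℂ → ℂ) (k : ℕ) : hk g k = (Function.swap dslope 0)^[k] g := by
  induction k with
  | zero => rfl
  | succ k ih =>
    rw [Function.iterate_succ_apply', ← ih]
    rfl

lemma hk_zero {g : ℂ → ℂ} (hg : AnalyticAt ℂ g 0) (k : ℕ) :
    hk g k 0 = iteratedDeriv k g 0 / (k.factorial : ℂ) := by
  have h1 := hg.hasFPowerSeriesAt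
  have h2 := h1.has_fpower_series_iterate_dslope_fslope k
  rw [← hk_eq] at h2
  have h3 := h2.coeff_zero 1
  rw [← h3]
  have h4 : ((FormalMultilinearSeries.fslope^[k] (FormalMultilinearSeries.ofScalars ℂ
    fun n => iteratedDeriv n g 0 / (n.factorial : ℂ))).coeff 0) =
      iteratedDeriv k g 0 / (k.factorial : ℂ) := by
    rw [FormalMultilinearSeries.coeff_iterate_fslope, zero_add]
    simp [FormalMultilinearSeries.coeff_ofScalars]
  exact h4

lemma hk_sum (g : ℂ → ℂ) (k : ℕ) (σ : ℂ) :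
    g σ = ∑ n ∈ Finset.range k, hk g n 0 * σ ^ n + σ ^ k * hk g k σ := by
  induction k with
  | zero => simp [hk]
  | succ k ih =>
    rw [Finset.sum_range_succ]
    have h1 := sub_smul_dslope (hk g k) 0 σ
    have h2 : σ * hk g (k + 1) σ = hk g k σ - hk g k 0 := by
      simpa [hk] using h1
    rw [ih, pow_succ]
    linear_combination (-σ ^ k) * h2

variable {f : (Fin 3 → ℂ) → ℂ} {T : TB f} {U : Tub T}

lemma φ_an0 (i : Fin T.m) : AnalyticAt ℂ (T.φ i) 0 := T.φ_an i 0 (mem_ball_self T.ρ_pos)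

lemma hk_φ (i : Fin T.m) (k : ℕ) : hk (T.φ i) k 0 = co T i k := hk_zero (φ_an0 i) k

lemma φ_eq (i : Fin T.m) (k : ℕ) (σ : ℂ) :
    T.φ i σ = (tr T i k).eval σ + σ ^ k * hk (T.φ i) k σ := by
  rw [hk_sum (T.φ i) k σ]
  simp only [tr, eval_finsetSum, eval_mul, eval_C, eval_pow, eval_X, hk_φ]

lemma hk_cont (i : Fin T.m) (k : ℕ) : ContinuousOn (hk (T.φ i) k) (ball 0 T.ρ) :=
  (hk_diff T.ρ_pos (fun s hs => (T.φ_an i s hs).differentiableAt.differentiableWithinAt)
    k).continuousOn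

/-! ### special points -/

lemma co_sub {i j : Fin T.m} (h : i ≠ j) (n : ℕ) : n < T.del i j → co T i n = co T j n := by
  intro hn
  have h1 : (T.φ i - T.φ j) =ᶠ[𝓝 0] fun s => s ^ (T.del i j) * T.u i j s := by
    filter_upwards [ball_mem_nhds (0 : ℂ) T.ρ_pos] with s hs
    exact T.φ_sub i j h s hs
  have h2 : ((T.del i j : ℕ) : ℕ∞) ≤ analyticOrderAt (T.φ i - T.φ j) 0 := by
    rw [natCast_le_analyticOrderAt ((φ_an0 i).sub (φ_an0 j))]
    refine ⟨T.u i j, T.u_an i j h 0 (mem_ball_self T.ρ_pos), ?_⟩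
    filter_upwards [h1] with s hs
    rw [hs]; simp
  have h3 := (natCast_le_analyticOrderAt_iff_iteratedDeriv_eq_zero
    ((φ_an0 i).sub (φ_an0 j))).1 h2 n hn
  have h4 : iteratedDeriv n (T.φ i - T.φ j) 0 = iteratedDeriv n (T.φ i) 0 -
      iteratedDeriv n (T.φ j) 0 :=
    iteratedDeriv_sub (φ_an0 i).contDiffAt (φ_an0 j).contDiffAt
  rw [h4, sub_eq_zero] at h3
  simp only [co, h3]

lemma hk_sub {i j : Fin T.m} (h : i ≠ j) {k : ℕ} (hk0 : k ≤ T.del i j) {s : ℂ}
    (hs : s ∈ ball (0 : ℂ) T.ρ) :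
    hk (T.φ i) k s - hk (T.φ j) k s = s ^ (T.del i j - k) * T.u i j s := by
  have htr : tr T i k = tr T j k := by
    unfold tr
    exact Finset.sum_congr rfl fun n hn => by
      rw [co_sub h n ((Finset.mem_range.1 hn).trans_le hk0)]
  have key : ∀ s ∈ ball (0 : ℂ) T.ρ, s ≠ 0 →
      hk (T.φ i) k s - hk (T.φ j) k s = s ^ (T.del i j - k) * T.u i j s := by
    intro s hs h0
    have h1 := φ_eq (T := T) i k s
    have h2 := φ_eq (T := T) j k s
    have h3 := T.φ_sub i j h s hs
    rw [h1, h2, htr] at h3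
    have h4 : s ^ T.del i j = s ^ k * s ^ (T.del i j - k) := by
      rw [← pow_add]; congr 1; omega
    rw [h4] at h3
    refine mul_left_cancel₀ (pow_ne_zero k h0) ?_
    linear_combination h3
  by_cases h0 : s = 0
  · subst h0
    have c1 : ContinuousAt (fun s => hk (T.φ i) k s - hk (T.φ j) k s) 0 :=
      ((hk_cont i k).continuousAt (ball_mem_nhds _ T.ρ_pos)).sub
        ((hk_cont j k).continuousAt (ball_mem_nhds _ T.ρ_pos))
    have c2 : ContinuousAt (fun s => s ^ (T.del i j - k) * T.u i j s) 0 :=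
      (continuousAt_id.pow _).mul (T.u_an i j h 0 (mem_ball_self T.ρ_pos)).continuousAt
    refine tendsto_nhds_unique_of_frequently_eq c1 c2 ?_
    have hf : ∃ᶠ s in 𝓝 (0 : ℂ), s ≠ 0 := by
      exact frequently_mem_iff_neBot.2 (by exact NormedField.nhdsNE_neBot (0 : ℂ))
    refine (hf.and_eventually (ball_mem_nhds (0 : ℂ) T.ρ_pos)).mono ?_
    rintro s ⟨h1, h2⟩
    exact key s h2 h1
  · exact key s hs h0

lemma tr_eq_iff {i j : Fin T.m} (h : i ≠ j) (k : ℕ) : tr T j k = tr T i k ↔ k ≤ T.del i j := by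
  constructor
  · intro he
    by_contra hlt
    rw [not_le] at hlt
    have h1 := congrArg (fun p => p.coeff (T.del i j)) he
    simp only [tr, finsetSum_coeff, coeff_C_mul, coeff_X_pow, mul_ite, mul_one, mul_zero,
      Finset.sum_ite_eq, Finset.mem_range, hlt, if_true] at h1
    have h2 := hk_sub h le_rfl (mem_ball_self (x := (0 : ℂ)) T.ρ_pos)
    rw [hk_φ, hk_φ, h1, sub_self, Nat.sub_self, pow_zero, one_mul] at h2
    exact T.u_ne i j h 0 (mem_ball_self T.ρ_pos) h2.symm
  · intro hle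
    unfold tr
    exact Finset.sum_congr rfl fun n hn => by
      rw [co_sub h n ((Finset.mem_range.1 hn).trans_le hle)]

lemma mem_sp (v : Vtx) (w : ℂ) : w ∈ sp T v ↔ ∃ j, tr T j v.1 = v.2 ∧ co T j v.1 = w := by
  classical
  unfold sp
  rw [Finset.mem_image]
  constructor
  · rintro ⟨j, hj, hw⟩
    exact ⟨j, (Finset.mem_filter.1 hj).2, hw⟩
  · rintro ⟨j, hj, hw⟩
    exact ⟨j, Finset.mem_filter.2 ⟨Finset.mem_univ _, hj⟩, hw⟩

lemma mem_sp_vx (i : Fin T.m) (k : ℕ) (w : ℂ) :
    co T i k + w ∈ sp T (vx T i k) ↔ w ∈ T.Sp i k := by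
  rw [mem_sp]
  simp only [vx, TB.Sp, Finset.mem_image, Finset.mem_filter, Finset.mem_univ, true_and,
    Finset.mem_insert]
  constructor
  · rintro ⟨j, hj, hjw⟩
    by_cases hij : i = j
    · subst hij
      left
      linear_combination (-1 : ℂ) * hjw
    · rw [tr_eq_iff hij] at hj
      have h2 := hk_sub hij hj (mem_ball_self (x := (0 : ℂ)) T.ρ_pos)
      rw [hk_φ, hk_φ] at h2
      rcases hj.lt_or_eq with h3 | h3
      · left
        have : T.del i j - k ≠ 0 := by omega
        rw [zero_pow this, zero_mul] at h2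
        linear_combination (-1 : ℂ) * hjw - h2
      · right
        refine ⟨j, ⟨Ne.symm hij, h3.symm⟩, ?_⟩
        rw [h3, Nat.sub_self, pow_zero, one_mul, ← h3] at h2
        linear_combination hjw + h2
  · rintro (rfl | ⟨j, ⟨hj, hd⟩, rfl⟩)
    · exact ⟨i, rfl, by ring⟩
    · have hij : i ≠ j := Ne.symm hj
      refine ⟨j, (tr_eq_iff hij k).2 hd.ge, ?_⟩
      have h2 := hk_sub hij hd.ge (mem_ball_self (x := (0 : ℂ)) T.ρ_pos)
      rw [hk_φ, hk_φ, hd, Nat.sub_self, pow_zero, one_mul] at h2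
      linear_combination (-1 : ℂ) * h2

lemma vx_mem {i : Fin T.m} {k : ℕ} (h : k ∈ T.lev i) : vx T i k ∈ Vs T := by
  classical
  unfold Vs
  exact Finset.mem_biUnion.2 ⟨i, Finset.mem_univ _, Finset.mem_image_of_mem _ h⟩

/-! ### annuli -/

lemma isPreconnected_norm {I : Set ℝ} (hI : IsPreconnected I) (h0 : ∀ t ∈ I, 0 ≤ t) :
    IsPreconnected {z : ℂ | ‖z‖ ∈ I} := by
  have h1 : {z : ℂ | ‖z‖ ∈ I} = (fun q : ℝ × ℝ => (q.1 : ℂ) * Complex.exp (q.2 * Complex.I)) ''
      (I ×ˢ univ) := by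
    ext z
    constructor
    · intro hz
      exact ⟨(‖z‖, Complex.arg z), ⟨hz, mem_univ _⟩, Complex.norm_mul_exp_arg_mul_I z⟩
    · rintro ⟨⟨t, θ⟩, ⟨ht, -⟩, rfl⟩
      simp only [Set.mem_ofPred_eq, norm_mul, Complex.norm_real, Complex.norm_exp_ofReal_mul_I, mul_one,
        Real.norm_eq_abs]
      rw [abs_of_nonneg (h0 t ht)]
      exact ht
  rw [h1]
  refine (hI.prod isPreconnected_univ).image _ (Continuous.continuousOn ?_)
  fun_prop

end Crest.Agent.R257.Lab_931
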