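import Mathlib
import Crest.Agent.R257.Lab1_931

/-!
Row 257 (S0395), part C, task C-LAB (helper931), file 2: components and retractions.

* `comp_const` : the component of the retraction is constant on connected sets;
* `near_axis` : points near a compact part of an axis are in the tube;
* `exists_over` : every component of `XV U v` is mapped onto the complement of the special points.
-/

set_option autoImplicit false
set_option linter.unusedSectionVars false

open Polynomial Set Filter Topology Metric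
open Crest.AlgGeometry.Germ Crest.Agent.R257.AJ387 Crest.Agent.R257.T387
open Crest.Agent.R257.Gr1_157 Crest.Agent.R257.BP_258

noncomputable section

namespace Crest.Agent.R257.Lab_931

variable {f : (Fin 3 → ℂ) → ℂ} {T : TB f} {U : Tub T}

lemma wv_yv (v : Vtx) {s : ℂ} (w : ℂ) (hs : s ≠ 0) : wv T v (s, yv T v (s, w)) = w := by
  simp only [wv, yv]
  rw [add_sub_cancel_left, mul_div_cancel_left₀ _ (pow_ne_zero _ hs)]

lemma yv_wv (v : Vtx) {s : ℂ} (y : ℂ) (hs : s ≠ 0) : yv T v (s, wv T v (s, y)) = y := by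
  simp only [wv, yv]
  rw [mul_div_cancel₀ _ (pow_ne_zero _ hs)]
  ring

lemma eval_prod_X_sub_C {d : ℕ} (z : Fin d → ℂ) (x : ℂ) :
    (∏ j, (X - C (z j)) : ℂ[X]).eval x = 0 ↔ ∃ j, x = z j := by
  rw [eval_prod, Finset.prod_eq_zero_iff]
  constructor
  · rintro ⟨j, -, h⟩
    exact ⟨j, by simpa [sub_eq_zero] using h⟩
  · rintro ⟨j, h⟩
    exact ⟨j, Finset.mem_univ _, by simp [h]⟩

/-- the component of the retraction is locally constant -/
theorem comp_local (hR : RetStmt U) {v : Vtx} {Y : Type*} [TopologicalSpace Y] {Ω : Set Y}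
    {x : Y → Fin 3 → ℂ} {p₀ : Y} (hp₀ : p₀ ∈ Ω) (hx : ContinuousWithinAt x Ω p₀)
    (hin : ∀ p ∈ Ω, InT U v (x p)) :
    ∃ E : ConnectedComponents (XV U v), ∀ᶠ p in 𝓝[Ω] p₀, ∀ q, IsRet U v (x p) q →
      (q : ConnectedComponents (XV U v)) = E := by
  have h0 := hin p₀ hp₀
  obtain ⟨hex, hloc⟩ := hR v h0.mem
  obtain ⟨r, hr, R, hR0, Z, σ, h1, h2, h3, h4, h5, h6, h7, h8, h9⟩ := hloc _ h0.nsp
  set w₀ := wv T v (x p₀ 1, x p₀ 2) with hw₀
  let g : Y → ℂ × ℂ := fun p => (x p 1, wv T v (x p 1, x p 2))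
  have hx0 : ∀ i, ContinuousWithinAt (fun p => x p i) Ω p₀ := fun i =>
    (continuous_apply i).continuousAt.comp_continuousWithinAt hx
  have hg : ContinuousWithinAt g Ω p₀ := by
    refine (hx0 1).prodMk ?_
    show ContinuousWithinAt (fun p => (x p 2 - v.2.eval (x p 1 ^ T.M)) / x p 1 ^ (T.M * v.1)) Ω p₀
    refine ContinuousWithinAt.div ?_ ((hx0 1).pow _) (pow_ne_zero _ h0.ne)
    refine (hx0 2).sub ?_
    exact (v.2.continuous.continuousAt).comp_continuousWithinAt ((hx0 1).pow _)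
  have hyv : ∀ p ∈ Ω, yv T v (g p) = x p 2 := fun p hp => yv_wv v _ (hin p hp).ne
  have hmem0 : g p₀ ∈ ball (0 : ℂ) R ×ˢ ball w₀ r := by
    refine ⟨?_, mem_ball_self hr⟩
    show x p₀ 1 ∈ ball (0 : ℂ) R
    rw [mem_ball, dist_zero_right]
    exact h0.lt.trans (h1 w₀ (mem_ball_self hr)).2
  have hopen : IsOpen (ball (0 : ℂ) R ×ˢ ball w₀ r) := isOpen_ball.prod isOpen_ball
  have hgm : ∀ᶠ p in 𝓝[Ω] p₀, g p ∈ ball (0 : ℂ) R ×ˢ ball w₀ r :=
    hg.eventually_mem (hopen.mem_nhds hmem0)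
  have hroot : ∀ p ∈ Ω, g p ∈ ball (0 : ℂ) R ×ˢ ball w₀ r → ∃ j, x p 0 = Z j (g p) := by
    intro p hp hgp
    have h10 := (hin p hp).root
    have h11 := (h3 _ hgp).2.2
    rw [hyv p hp] at h11
    change (T.Q (x p 1, x p 2)) = _ at h11
    rw [h11] at h10
    exact (eval_prod_X_sub_C _ _).1 h10
  obtain ⟨j, hj⟩ := hroot p₀ hp₀ hmem0
  have hne : ∀ j', j' ≠ j → ∀ᶠ p in 𝓝[Ω] p₀, x p 0 ≠ Z j' (g p) := by
    intro j' hj'
    have c1 : ContinuousWithinAt (fun p => x p 0 - Z j' (g p)) Ω p₀ :=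
      (hx0 0).sub ((h2 j' _ hmem0).continuousAt.comp_continuousWithinAt hg)
    have h12 : x p₀ 0 - Z j' (g p₀) ≠ 0 := by
      rw [hj, sub_ne_zero]
      intro h13
      exact hj' (h4 _ hmem0 h0.ne h13).symm
    filter_upwards [c1.eventually_ne h12] with p hp h13
    exact hp (by rw [h13, sub_self])
  refine ⟨(σ j w₀ : ConnectedComponents (XV U v)), ?_⟩
  have hall : ∀ᶠ p in 𝓝[Ω] p₀, ∀ j', j' ≠ j → x p 0 ≠ Z j' (g p) := by
    rw [eventually_all]
    intro j'
    by_cases hj' : j' = j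
    · exact Eventually.of_forall fun p h => absurd hj' h
    · filter_upwards [hne j' hj'] with p hp _ using hp
  filter_upwards [hgm, hall, self_mem_nhdsWithin] with p hp1 hp2 hp3 q hq
  obtain ⟨j', hj'⟩ := hroot p hp3 hp1
  have hjj : j' = j := by
    by_contra hne'
    exact hp2 j' hne' hj'
  subst hjj
  have hret := h9 j' (g p).2 hp1.2 (g p).1 (hin p hp3).ne (hin p hp3).lt
  have hxe : pt (Z j' ((g p).1, (g p).2)) ((g p).1, yv T v ((g p).1, (g p).2)) = x p := by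
    have h14 := hyv p hp3
    funext i
    fin_cases i
    · exact hj'.symm
    · rfl
    · exact h14
  rw [hxe] at hret
  have hqe : q = σ j' (g p).2 := (hex _ (hin p hp3)).unique hq hret
  rw [hqe, ConnectedComponents.coe_eq_coe]
  have hpre : IsPreconnected (σ j' '' ball w₀ r) :=
    (convex_ball w₀ r).isPreconnected.image _ (h5 j')
  exact connectedComponent_eq (hpre.subset_connectedComponent
    (mem_image_of_mem _ hp1.2) (mem_image_of_mem _ (mem_ball_self hr)))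

/-- **the component of the retraction is constant on connected sets** -/
theorem comp_const (hR : RetStmt U) {v : Vtx} {Y : Type*} [TopologicalSpace Y] {Ω : Set Y}
    (hΩ : IsPreconnected Ω) {x : Y → Fin 3 → ℂ} (hx : ContinuousOn x Ω)
    (hin : ∀ p ∈ Ω, InT U v (x p)) {p p' : Y} (hp : p ∈ Ω) (hp' : p' ∈ Ω)
    {q q' : XV U v} (hq : IsRet U v (x p) q) (hq' : IsRet U v (x p') q') :
    (q : ConnectedComponents (XV U v)) = q' := by
  haveI : Nonempty (XV U v) := ⟨q⟩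
  choose! Q hQ using fun p (hp : p ∈ Ω) => ((hR v (hin p hp).mem).1 (x p) (hin p hp)).exists
  let F : Ω → ConnectedComponents (XV U v) := fun p => (Q p : ConnectedComponents (XV U v))
  have hF : IsLocallyConstant F := by
    rw [IsLocallyConstant.iff_eventually_eq]
    intro a
    obtain ⟨E, hE⟩ := comp_local hR a.2 (hx a a.2) hin
    have h1 : ∀ᶠ b : Ω in 𝓝 a, ∀ q, IsRet U v (x b) q → (q : ConnectedComponents (XV U v)) = E := by
      have := (map_nhds_subtype_val a) ▸ hE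
      exact this
    have h2 := h1.self_of_nhds
    filter_upwards [h1] with b hb
    show (Q b : ConnectedComponents (XV U v)) = (Q a : ConnectedComponents (XV U v))
    rw [hb _ (hQ b b.2), h2 _ (hQ a a.2)]
  haveI : PreconnectedSpace Ω := isPreconnected_iff_preconnectedSpace.1 hΩ
  have h3 := hF.apply_eq_of_preconnectedSpace ⟨p, hp⟩ ⟨p', hp'⟩
  have h4 : q = Q p := ((hR v (hin p hp).mem).1 (x p) (hin p hp)).unique hq (hQ p hp)
  have h5 : q' = Q p' := ((hR v (hin p' hp').mem).1 (x p') (hin p' hp')).unique hq' (hQ p' hp')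
  rw [h4, h5]
  exact h3

lemma isClosed_sp (v : Vtx) : IsClosed {w : ℂ | w ∈ sp T v} := (sp T v).finite_toSet.isClosed

/-- points near a compact part of the axis `{p.1 = 0}` are in the tube -/
lemma near_axis (U : Tub T) {v : Vtx} (hv : v ∈ Vs T) {W s : ℂ × ℂ → ℂ} {D : Set (ℂ × ℂ)}
    (hD : IsOpen D) (hW : ContinuousOn W D) (hs : ContinuousOn s D) {K : Set ℂ} (hK : IsCompact K)
    (h0 : ∀ b ∈ K, ((0 : ℂ), b) ∈ D ∧ s (0, b) = 0 ∧ W (0, b) ∉ sp T v) :
    ∃ a > 0, ∀ p : ℂ × ℂ, ‖p.1‖ < a → p.2 ∈ K → p ∈ D ∧ W p ∉ sp T v ∧ ‖s p‖ < U.ρ v (W p) := by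
  have hop : IsOpen {w : ℂ | w ∉ sp T v} := (isClosed_sp v).isOpen_compl
  have h1 : IsOpen (D ∩ W ⁻¹' {w : ℂ | w ∉ sp T v}) := hW.isOpen_inter_preimage hD hop
  have h2 : ContinuousOn (fun p => U.ρ v (W p) - ‖s p‖) (D ∩ W ⁻¹' {w : ℂ | w ∉ sp T v}) :=
    ((U.cont v hv).comp (hW.mono inter_subset_left) fun p hp => hp.2).sub
      (hs.mono inter_subset_left).norm
  have h3 : IsOpen ((D ∩ W ⁻¹' {w : ℂ | w ∉ sp T v}) ∩
      (fun p => U.ρ v (W p) - ‖s p‖) ⁻¹' (Ioi 0)) := h2.isOpen_inter_preimage h1 isOpen_Ioi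
  obtain ⟨u, t, hu, -, h0u, hKt, hsub⟩ := generalized_tube_lemma (isCompact_singleton (x := (0 : ℂ)))
    hK h3 (by
      rintro ⟨a, b⟩ ⟨ha, hb⟩
      rw [mem_singleton_iff] at ha
      change a = 0 at ha
      subst ha
      obtain ⟨e1, e2, e3⟩ := h0 b hb
      refine ⟨⟨e1, e3⟩, ?_⟩
      show 0 < U.ρ v (W (0, b)) - ‖s (0, b)‖
      rw [e2, norm_zero, sub_zero]
      exact U.pos v hv _ e3)
  obtain ⟨a, ha, hau⟩ := Metric.isOpen_iff.1 hu 0 (h0u rfl)
  refine ⟨a, ha, fun p hp1 hp2 => ?_⟩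
  have h4 := hsub (mk_mem_prod (hau (by simpa using hp1)) (hKt hp2))
  exact ⟨h4.1.1, h4.1.2, by have := h4.2; simpa using this⟩

/-- **every component of the curve lies over every ordinary point** -/
theorem exists_over (hR : RetStmt U) {v : Vtx} (hv : v ∈ Vs T) (q₀ : XV U v) {w : ℂ}
    (hw : w ∉ sp T v) : ∃ q : XV U v, pV U v q = w ∧
      (q : ConnectedComponents (XV U v)) = (q₀ : ConnectedComponents (XV U v)) := by
  let O : Set ℂ := {w | w ∉ sp T v}
  have hO : IsOpen O := (isClosed_sp v).isOpen_compl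
  have hconn : IsPreconnected O := by
    have h1 : (sp T v : Set ℂ).Countable := (sp T v).countable_toSet
    have h2 := h1.isConnected_compl_of_one_lt_rank (E := ℂ) (by
      rw [Complex.rank_real_complex]; norm_num)
    exact h2.isPreconnected
  let A : Set ℂ := {w | ∃ q : XV U v, pV U v q = w ∧
      (q : ConnectedComponents (XV U v)) = (q₀ : ConnectedComponents (XV U v))}
  have hmem : ∀ q : XV U v, pV U v q ∈ O := fun q => q.2.2.1
  -- local statement
  have hloc : ∀ w₀ ∈ O, ∃ r > 0, ∀ w ∈ ball w₀ r, w ∈ A → ball w₀ r ⊆ A := by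
    intro w₀ hw₀
    obtain ⟨-, hl⟩ := hR v hv
    obtain ⟨r, hr, R, hR0, Z, σ, h1, h2, h3, h4, h5, h6, h7, h8, h9⟩ := hl w₀ hw₀
    refine ⟨r, hr, ?_⟩
    rintro w hw ⟨q, hq, hqc⟩ w' hw'
    obtain ⟨j, hj⟩ := h8 q (by rw [hq]; exact hw)
    refine ⟨σ j w', h6 j w' hw', ?_⟩
    rw [← hqc, ← hj, ConnectedComponents.coe_eq_coe]
    have hpre : IsPreconnected (σ j '' ball w₀ r) :=
      (convex_ball w₀ r).isPreconnected.image _ (h5 j)
    refine connectedComponent_eq (hpre.subset_connectedComponent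
      (mem_image_of_mem _ hw') (mem_image_of_mem _ ?_))
    rw [hq]; exact hw
  have hAO : IsOpen (O ∩ A) := by
    rw [Metric.isOpen_iff]
    rintro w₀ ⟨h1, h2⟩
    obtain ⟨r, hr, h⟩ := hloc w₀ h1
    obtain ⟨r', hr', h'⟩ := Metric.isOpen_iff.1 hO w₀ h1
    refine ⟨min r r', lt_min hr hr', fun z hz => ⟨h' (ball_subset_ball (min_le_right _ _) hz),
      h w₀ (mem_ball_self hr) h2 (ball_subset_ball (min_le_left _ _) hz)⟩⟩
  have hAcO : IsOpen (O ∩ Aᶜ) := by
    rw [Metric.isOpen_iff]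
    rintro w₀ ⟨h1, h2⟩
    obtain ⟨r, hr, h⟩ := hloc w₀ h1
    obtain ⟨r', hr', h'⟩ := Metric.isOpen_iff.1 hO w₀ h1
    refine ⟨min r r', lt_min hr hr', fun z hz => ⟨h' (ball_subset_ball (min_le_right _ _) hz),
      fun hzA => h2 (h z (ball_subset_ball (min_le_left _ _) hz) hzA (mem_ball_self hr))⟩⟩
  by_contra hcon
  have hwA : w ∉ A := fun h => hcon h
  obtain ⟨z, hz1, hz2, hz3⟩ := hconn _ _ hAO hAcO
    (fun z hz => by
      by_cases hzA : z ∈ A
      · exact Or.inl ⟨hz, hzA⟩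
      · exact Or.inr ⟨hz, hzA⟩)
    ⟨pV U v q₀, hmem q₀, hmem q₀, ⟨q₀, rfl, rfl⟩⟩ ⟨w, hw, hw, hwA⟩
  exact hz3.2 hz2.2

end Crest.Agent.R257.Lab_931
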