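import Mathlib
import Crest.Agent.R257.Lab2_931
import Crest.Agent.R257.T6_387

/-!
Row 257 (S0395), part C, task C-LAB (helper931), file 3: existence of the labels.

* `W1`, `W2` : the coordinate `w` of the vertex of the first / second axis, in a chart;
* `InT1`, `InT2` : points near the axes are in the tubes;
* `exists_lab` : `Nonempty (Lab U S)`.
-/

set_option autoImplicit false
set_option linter.unusedSectionVars false

open Polynomial Set Filter Topology Metric
open Crest.AlgGeometry.Germ Crest.Agent.R257.AJ387 Crest.Agent.R257.T387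
open Crest.Agent.R257.Gr1_157 Crest.Agent.R257.BP_258

noncomputable section

namespace Crest.Agent.R257.Lab_931

variable {f : (Fin 3 → ℂ) → ℂ} {T : TB f} {U : Tub T}

/-- `w` of the vertex of `{α = 0}` -/
def W1 : Ch T.m → ℂ × ℂ → ℂ
  | .edge i k k', p => hk (T.φ i) k ((p.1 * p.2) ^ T.M) + p.2 ^ (T.M * (k' - k))
  | .leg i, p => hk (T.φ i) (T.top i) (p.1 ^ T.M) + p.2 ^ T.M
  | .vert i k w₀, p => hk (T.φ i) k (p.1 ^ T.M) + (w₀ + p.2)

/-- `w` of the vertex of `{β = 0}` -/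
def W2 : Ch T.m → ℂ × ℂ → ℂ
  | .edge i k k', p => hk (T.φ i) k' ((p.1 * p.2) ^ T.M) + (p.1 ^ (T.M * (k' - k)))⁻¹
  | _, _ => 0

lemma W1_eq {c : Ch T.m} (hc : T.Valid c) {v : Vtx} (hv : v1 T c = some v) {p : ℂ × ℂ}
    (hp : T.Gen c p) : wv T v (T.map c p) = W1 c p := by
  cases c with
  | edge i k k' =>
    simp only [v1] at hv
    split_ifs at hv with hk0
    obtain rfl := Option.some.inj hv
    have hkk : k < k' := hc.2.2.1
    have h1 : p.1 ≠ 0 := hp.1
    have h2 : p.2 ≠ 0 := hp.2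
    simp only [wv, W1, TB.map, vx]
    rw [φ_eq i k]
    have e1 : p.2 ^ (T.M * k') = p.2 ^ (T.M * k) * p.2 ^ (T.M * (k' - k)) := by
      rw [← pow_add, ← Nat.mul_add]; congr 2; omega
    rw [e1, div_eq_iff (pow_ne_zero _ (mul_ne_zero h1 h2)), ← pow_mul, mul_pow p.1 p.2 (T.M * k)]
    ring
  | leg i =>
    simp only [v1] at hv
    obtain rfl := Option.some.inj hv
    have h1 : p.1 ≠ 0 := hp.1
    simp only [wv, W1, TB.map, vx]
    rw [φ_eq i (T.top i), div_eq_iff (pow_ne_zero _ h1), ← pow_mul]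
    ring
  | vert i k w₀ =>
    simp only [v1] at hv
    obtain rfl := Option.some.inj hv
    have h1 : p.1 ≠ 0 := hp
    simp only [wv, W1, TB.map, vx]
    rw [φ_eq i k, div_eq_iff (pow_ne_zero _ h1), ← pow_mul]
    ring

lemma W2_eq {c : Ch T.m} (hc : T.Valid c) {v : Vtx} (hv : v2 T c = some v) {p : ℂ × ℂ}
    (hp : T.Gen c p) : wv T v (T.map c p) = W2 c p := by
  cases c with
  | edge i k k' =>
    simp only [v2] at hv
    obtain rfl := Option.some.inj hv
    have hkk : k < k' := hc.2.2.1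
    have h1 : p.1 ≠ 0 := hp.1
    have h2 : p.2 ≠ 0 := hp.2
    simp only [wv, W2, TB.map, vx]
    rw [φ_eq i k']
    have e1 : p.1 ^ (T.M * k') = p.1 ^ (T.M * k) * p.1 ^ (T.M * (k' - k)) := by
      rw [← pow_add, ← Nat.mul_add]; congr 2; omega
    have e2 : p.1 ^ (T.M * (k' - k)) * (p.1 ^ (T.M * (k' - k)))⁻¹ = 1 :=
      mul_inv_cancel₀ (pow_ne_zero _ h1)
    rw [div_eq_iff (pow_ne_zero _ (mul_ne_zero h1 h2)), ← pow_mul, mul_pow p.1 p.2 (T.M * k')]
    linear_combination (-(p.1 ^ (T.M * k) * p.2 ^ (T.M * k'))) * e2 +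
      ((p.1 ^ (T.M * (k' - k)))⁻¹ * p.2 ^ (T.M * k')) * (-e1)
  | leg i => simp [v2] at hv
  | vert i k w₀ => simp [v2] at hv

variable (S : Sh T)

lemma two_r_pos (c : Ch T.m) : 0 < 2 * S.r c := by have := S.pos c; linarith

lemma lt_two_r {c : Ch T.m} {x : ℝ} (h : x ≤ S.r c) : x < 2 * S.r c := by
  have := S.pos c; linarith

lemma map_cont {c : Ch T.m} (hc : T.Valid c) :
    ContinuousOn (T.map c) (BD (2 * S.r c) (2 * S.r c)) := fun p hp =>
  (T.map_an c ((S.sheets c hc).mem p hp).2).continuousAt.continuousWithinAt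

lemma wc_cont {c : Ch T.m} (hc : T.Valid c) (j : Fin T.d) :
    ContinuousOn (wc S c j) (BD (2 * S.r c) (2 * S.r c)) := by
  have h1 := map_cont S hc
  have h2 : ContinuousOn (S.ζ c j) (BD (2 * S.r c) (2 * S.r c)) :=
    ((S.sheets c hc).an j).continuousOn
  rw [continuousOn_pi]
  intro i
  fin_cases i
  · exact h2
  · exact h1.fst
  · exact h1.snd

lemma hk_comp {c : Ch T.m} {D : Set (ℂ × ℂ)} {g : ℂ × ℂ → ℂ} (i : Fin T.m) (k : ℕ)
    (hg : ContinuousOn g D) (h : ∀ p ∈ D, g p ∈ ball (0 : ℂ) T.ρ) :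
    ContinuousOn (fun p => hk (T.φ i) k (g p)) D :=
  (hk_cont i k).comp hg h

lemma W1_cont {c : Ch T.m} (hc : T.Valid c) :
    ContinuousOn (W1 c) (BD (2 * S.r c) (2 * S.r c)) := by
  have hm := (S.sheets c hc).mem
  cases c with
  | edge i k k' =>
    refine (hk_comp (c := .edge i k k') i k ?_ ?_).add ?_
    · exact Continuous.continuousOn (by fun_prop)
    · intro p hp
      rw [mem_ball, dist_zero_right, norm_pow]
      exact (hm p hp).2
    · exact Continuous.continuousOn (by fun_prop)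
  | leg i =>
    refine (hk_comp (c := .leg i) i _ ?_ ?_).add ?_
    · exact Continuous.continuousOn (by fun_prop)
    · intro p hp
      rw [mem_ball, dist_zero_right, norm_pow]
      exact (hm p hp).2
    · exact Continuous.continuousOn (by fun_prop)
  | vert i k w₀ =>
    refine (hk_comp (c := .vert i k w₀) i _ ?_ ?_).add ?_
    · exact Continuous.continuousOn (by fun_prop)
    · intro p hp
      rw [mem_ball, dist_zero_right, norm_pow]
      exact (hm p hp).2
    · exact Continuous.continuousOn (by fun_prop)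

lemma W2_cont {c : Ch T.m} (hc : T.Valid c) :
    ContinuousOn (W2 c) (BD (2 * S.r c) (2 * S.r c) ∩ {p | p.1 ≠ 0}) := by
  have hm := (S.sheets c hc).mem
  cases c with
  | edge i k k' =>
    refine (hk_comp (c := .edge i k k') i k' ?_ ?_).add ?_
    · exact Continuous.continuousOn (by fun_prop)
    · intro p hp
      rw [mem_ball, dist_zero_right, norm_pow]
      exact (hm p hp.1).2
    · refine ContinuousOn.inv₀ (Continuous.continuousOn (by fun_prop)) ?_
      intro p hp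
      exact pow_ne_zero _ hp.2
  | leg i => exact continuousOn_const
  | vert i k w₀ => exact continuousOn_const

lemma v1_mem {c : Ch T.m} (hc : T.Valid c) {v : Vtx} (hv : v1 T c = some v) : v ∈ Vs T := by
  cases c with
  | edge i k k' =>
    simp only [v1] at hv
    split_ifs at hv with hk0
    obtain rfl := Option.some.inj hv
    rcases hc.1 with h | h
    · exact absurd h hk0
    · exact vx_mem h
  | leg i =>
    simp only [v1] at hv
    obtain rfl := Option.some.inj hv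
    exact vx_mem (T.top_mem i)
  | vert i k w₀ =>
    simp only [v1] at hv
    obtain rfl := Option.some.inj hv
    exact vx_mem hc.1

lemma v2_mem {c : Ch T.m} (hc : T.Valid c) {v : Vtx} (hv : v2 T c = some v) : v ∈ Vs T := by
  cases c with
  | edge i k k' =>
    simp only [v2] at hv
    obtain rfl := Option.some.inj hv
    exact vx_mem hc.2.1
  | leg i => simp [v2] at hv
  | vert i k w₀ => simp [v2] at hv

lemma W1_zero {c : Ch T.m} (hc : T.Valid c) {v : Vtx} (hv : v1 T c = some v) {b : ℂ}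
    (hb : ‖b‖ ≤ S.r c) (hb0 : IsV c ∨ b ≠ 0) : W1 c (0, b) ∉ sp T v := by
  have hM := T.M_pos.ne'
  have hb2 : ‖b‖ ≤ 2 * S.r c := (lt_two_r S hb).le
  cases c with
  | edge i k k' =>
    simp only [v1] at hv
    split_ifs at hv with hk0
    obtain rfl := Option.some.inj hv
    simp only [W1, zero_mul, zero_pow hM, hk_φ]
    rw [mem_sp_vx]
    exact (S.fare i k k' hc b (hb0.resolve_left (by simp [IsV])) hb2).1
  | leg i =>
    simp only [v1] at hv
    obtain rfl := Option.some.inj hv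
    simp only [W1, zero_pow hM, hk_φ]
    rw [mem_sp_vx]
    exact S.farl i b (hb0.resolve_left (by simp [IsV])) hb2
  | vert i k w₀ =>
    simp only [v1] at hv
    obtain rfl := Option.some.inj hv
    simp only [W1, zero_pow hM, hk_φ]
    rw [mem_sp_vx]
    exact S.far i k w₀ hc _ (by rw [add_sub_cancel_left]; exact hb2)

lemma W2_zero {c : Ch T.m} (hc : T.Valid c) {v : Vtx} (hv : v2 T c = some v) {a : ℂ}
    (ha : ‖a‖ ≤ S.r c) (ha0 : a ≠ 0) : W2 c (a, 0) ∉ sp T v := by
  have hM := T.M_pos.ne'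
  have ha2 : ‖a‖ ≤ 2 * S.r c := (lt_two_r S ha).le
  cases c with
  | edge i k k' =>
    simp only [v2] at hv
    obtain rfl := Option.some.inj hv
    simp only [W2, mul_zero, zero_pow hM, hk_φ]
    rw [mem_sp_vx]
    exact (S.fare i k k' hc a ha0 ha2).2
  | leg i => simp [v2] at hv
  | vert i k w₀ => simp [v2] at hv

lemma root_wc {c : Ch T.m} (hc : T.Valid c) (j : Fin T.d) {p : ℂ × ℂ}
    (hp : p ∈ BD (2 * S.r c) (2 * S.r c)) : (T.Q (T.map c p)).eval (S.ζ c j p) = 0 := by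
  rw [(S.sheets c hc).split p hp, eval_prod_X_sub_C]
  exact ⟨j, rfl⟩

lemma map_ne {c : Ch T.m} {p : ℂ × ℂ} (hp : T.Gen c p) : (T.map c p).1 ≠ 0 := by
  cases c with
  | edge i k k' => exact mul_ne_zero hp.1 hp.2
  | leg i => exact hp.1
  | vert i k w₀ => exact hp

lemma gen_of {c : Ch T.m} {p : ℂ × ℂ} (h1 : p.1 ≠ 0) (h2 : IsV c ∨ p.2 ≠ 0) : T.Gen c p := by
  cases c with
  | edge i k k' => exact ⟨h1, h2.resolve_left (by simp [IsV])⟩
  | leg i => exact ⟨h1, h2.resolve_left (by simp [IsV])⟩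
  | vert i k w₀ => exact h1

variable (U)

/-- points near the first axis are in the tube -/
theorem InT1 {c : Ch T.m} (hc : T.Valid c) {v : Vtx} (hv : v1 T c = some v) {K : Set ℂ}
    (hK : IsCompact K) (hKr : ∀ b ∈ K, ‖b‖ ≤ S.r c ∧ (IsV c ∨ b ≠ 0)) :
    ∃ a > 0, a ≤ S.r c ∧ ∀ p : ℂ × ℂ, p.1 ≠ 0 → ‖p.1‖ < a → p.2 ∈ K → ∀ j,
      InT U v (wc S c j p) := by
  have hM := T.M_pos.ne'
  obtain ⟨a, ha, h⟩ := near_axis U (v1_mem hc hv) (W := W1 c) (s := fun p => (T.map c p).1)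
    (isOpen_BD (2 * S.r c) (2 * S.r c)) (W1_cont S hc) (map_cont S hc).fst hK (by
      intro b hb
      obtain ⟨h1, h2⟩ := hKr b hb
      refine ⟨⟨by simpa using S.pos c, lt_two_r S h1⟩, ?_, W1_zero S hc hv h1 h2⟩
      cases c <;> simp [TB.map])
  refine ⟨min a (S.r c), lt_min ha (S.pos c), min_le_right _ _, fun p hp1 hp2 hp3 j => ?_⟩
  obtain ⟨h1, h2, h3⟩ := h p (hp2.trans_le (min_le_left _ _)) hp3
  have hgen : T.Gen c p := gen_of hp1 (hKr _ hp3).2
  have hW := W1_eq hc hv hgen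
  refine ⟨v1_mem hc hv, map_ne hgen, ?_, ?_, root_wc S hc j h1⟩
  · show wv T v (T.map c p) ∉ sp T v
    rw [hW]; exact h2
  · show ‖(T.map c p).1‖ < U.ρ v (wv T v (T.map c p))
    rw [hW]; exact h3

/-- points near the second axis are in the tube -/
theorem InT2 {c : Ch T.m} (hc : T.Valid c) {v : Vtx} (hv : v2 T c = some v) {K : Set ℂ}
    (hK : IsCompact K) (hKr : ∀ b ∈ K, ‖b‖ ≤ S.r c ∧ b ≠ 0) :
    ∃ a > 0, a ≤ S.r c ∧ ∀ p : ℂ × ℂ, p.2 ≠ 0 → ‖p.2‖ < a → p.1 ∈ K → ∀ j,
      InT U v (wc S c j p) := by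
  have hM := T.M_pos.ne'
  let D : Set (ℂ × ℂ) := BD (2 * S.r c) (2 * S.r c) ∩ {p | p.1 ≠ 0}
  have hDo : IsOpen D := (isOpen_BD _ _).inter (isOpen_ne_fun continuous_fst continuous_const)
  have hsw : Continuous (Prod.swap : ℂ × ℂ → ℂ × ℂ) := continuous_swap
  obtain ⟨a, ha, h⟩ := near_axis U (v2_mem hc hv) (W := W2 c ∘ Prod.swap)
    (s := (fun p => (T.map c p).1) ∘ Prod.swap) (D := Prod.swap ⁻¹' D)
    (hDo.preimage hsw) ((W2_cont S hc).comp hsw.continuousOn fun p hp => hp)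
    (((map_cont S hc).fst.mono inter_subset_left).comp hsw.continuousOn fun p hp => hp) hK (by
      intro b hb
      obtain ⟨h1, h2⟩ := hKr b hb
      refine ⟨⟨⟨lt_two_r S h1, by simpa using S.pos c⟩, h2⟩, ?_, W2_zero S hc hv h1 h2⟩
      cases c with
      | edge i k k' => simp [TB.map]
      | leg i => simp [v2] at hv
      | vert i k w₀ => simp [v2] at hv)
  refine ⟨min a (S.r c), lt_min ha (S.pos c), min_le_right _ _, fun p hp1 hp2 hp3 j => ?_⟩
  obtain ⟨h1, h2, h3⟩ := h p.swap (hp2.trans_le (min_le_left _ _)) hp3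
  have hgen : T.Gen c p := gen_of (hKr _ hp3).2 (Or.inr hp1)
  have hW := W2_eq hc hv hgen
  refine ⟨v2_mem hc hv, map_ne hgen, ?_, ?_, root_wc S hc j h1.1⟩
  · show wv T v (T.map c p) ∉ sp T v
    rw [hW]; exact h2
  · show ‖(T.map c p).1‖ < U.ρ v (wv T v (T.map c p))
    rw [hW]; exact h3

/-- the compact part of an axis -/
def Kt (t r : ℝ) : Set ℂ := {z | ‖z‖ ∈ Icc t r}

lemma isCompact_Kt (t r : ℝ) : IsCompact (Kt t r) := by
  have h1 : Kt t r = closedBall (0 : ℂ) r ∩ {z | t ≤ ‖z‖} := by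
    ext z
    simp [Kt, and_comm]
  rw [h1]
  exact (isCompact_closedBall _ _).inter_right (isClosed_le continuous_const continuous_norm)

lemma isPreconnected_Kt {t r : ℝ} (ht : 0 ≤ t) : IsPreconnected (Kt t r) :=
  isPreconnected_norm isPreconnected_Icc fun _ hx => ht.trans hx.1

/-- a punctured disc -/
def Pd (a : ℝ) : Set ℂ := {z | ‖z‖ ∈ Ioo 0 a}

lemma isPreconnected_Pd (a : ℝ) : IsPreconnected (Pd a) :=
  isPreconnected_norm isPreconnected_Ioo fun _ hx => hx.1.le

end Crest.Agent.R257.Lab_931
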