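import Mathlib
import Crest.Agent.R257.Lab3_931

/-!
Row 257 (S0395), part C, task C-LAB (helper931), file 4: **existence of the labels**
`nonempty_lab : RetStmt U → ∀ S, Nonempty (Lab U S)`, the form of the labels (`form1`, `form2`),
and the surjectivity (`surj1`, `surj2`), `finite_II`.
-/

set_option autoImplicit false
set_option linter.unusedSectionVars false

open Polynomial Set Filter Topology Metric
open Crest.AlgGeometry.Germ Crest.Agent.R257.AJ387 Crest.Agent.R257.T387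
open Crest.Agent.R257.Gr1_157 Crest.Agent.R257.BP_258

noncomputable section

namespace Crest.Agent.R257.Lab_931

variable {f : (Fin 3 → ℂ) → ℂ} {T : TB f} {U : Tub T}

/-- one component for all the regions along an axis -/
theorem axis (hR : RetStmt U) {v : Vtx} (hv : v ∈ Vs T) {r : ℝ} (hr : 0 < r) {P : Prop}
    {x : ℂ × ℂ → Fin 3 → ℂ} (hx : ContinuousOn x (BD (2 * r) (2 * r)))
    (hin : ∀ t, (0 < t ∨ (t = 0 ∧ P)) → ∃ a > 0, a ≤ r ∧ ∀ p ∈ Pd a ×ˢ Kt t r, InT U v (x p)) :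
    ∃ E : ConnectedComponents (XV U v), ∀ t, (0 < t ∨ (t = 0 ∧ P)) → ∃ a > 0, a ≤ r ∧
      ∀ p ∈ Pd a ×ˢ Kt t r, InT U v (x p) ∧ ∀ q, IsRet U v (x p) q →
        (q : ConnectedComponents (XV U v)) = E := by
  obtain ⟨a₀, ha₀, har₀, h₀⟩ := hin r (Or.inl hr)
  have hrK : ∀ t, t ≤ r → ((r : ℝ) : ℂ) ∈ Kt t r := fun t ht => by
    show ‖((r : ℝ) : ℂ)‖ ∈ Icc t r
    rw [Complex.norm_real, Real.norm_eq_abs, abs_of_pos hr]
    exact ⟨ht, le_rfl⟩
  have hPd : ∀ a b : ℝ, 0 < b → b < a → ((b : ℝ) : ℂ) ∈ Pd a := fun a b hb hba => by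
    show ‖((b : ℝ) : ℂ)‖ ∈ Ioo 0 a
    rw [Complex.norm_real, Real.norm_eq_abs, abs_of_pos hb]
    exact ⟨hb, hba⟩
  have hp₀ : (((a₀ / 2 : ℝ) : ℂ), ((r : ℝ) : ℂ)) ∈ Pd a₀ ×ˢ Kt r r :=
    ⟨hPd _ _ (by positivity) (by linarith), hrK r le_rfl⟩
  obtain ⟨q₀, hq₀⟩ := ((hR v hv).1 _ (h₀ _ hp₀)).exists
  have hcont : ∀ a t, a ≤ r → ContinuousOn x (Pd a ×ˢ Kt t r) := fun a t ha => hx.mono (by
    rintro ⟨z, b⟩ ⟨h1, h2⟩
    exact ⟨by have := h1.2; show ‖z‖ < 2 * r; linarith,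
      by have := h2.2; show ‖b‖ < 2 * r; linarith⟩)
  have hpre : ∀ a t, 0 ≤ t → IsPreconnected (Pd a ×ˢ Kt t r) := fun a t ht =>
    (isPreconnected_Pd a).prod (isPreconnected_Kt ht)
  refine ⟨q₀, fun t ht => ?_⟩
  have ht0 : 0 ≤ t := by
    rcases ht with h | h
    · exact h.le
    · exact h.1.ge
  obtain ⟨a, ha, har, h⟩ := hin t ht
  refine ⟨a, ha, har, fun p hp => ⟨h p hp, fun q hq => ?_⟩⟩
  have htr : t ≤ r := hp.2.1.trans hp.2.2
  have hm : 0 < min a a₀ := lt_min ha ha₀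
  have hp1 : (((min a a₀ / 2 : ℝ) : ℂ), ((r : ℝ) : ℂ)) ∈ Pd a ×ˢ Kt t r :=
    ⟨hPd _ _ (by positivity) (by have := min_le_left a a₀; linarith), hrK t htr⟩
  have hp2 : (((min a a₀ / 2 : ℝ) : ℂ), ((r : ℝ) : ℂ)) ∈ Pd a₀ ×ˢ Kt r r :=
    ⟨hPd _ _ (by positivity) (by have := min_le_right a a₀; linarith), hrK r le_rfl⟩
  obtain ⟨q₁, hq₁⟩ := ((hR v hv).1 _ (h _ hp1)).exists
  rw [comp_const hR (hpre a t ht0) (hcont a t har) h hp hp1 hq hq₁]
  exact comp_const hR (hpre a₀ r hr.le) (hcont a₀ r har₀) h₀ hp2 hp₀ hq₁ hq₀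

variable (S : Sh T)

theorem exists_e1 (hR : RetStmt U) {c : Ch T.m} (hc : T.Valid c) (j : Fin T.d) :
    ∃ e : Option (II U), e.map (fun E => E.1.1) = v1 T c ∧
      ∀ E, e = some E → ∀ τ > 0, ∃ a > 0, ∀ p : ℂ × ℂ,
        0 < ‖p.1‖ → ‖p.1‖ < a → ‖p.2‖ ≤ S.r c → (IsV c ∨ τ ≤ ‖p.2‖) →
        InT U E.1.1 (wc S c j p) ∧ ∀ q, IsRet U E.1.1 (wc S c j p) q →
          (q : ConnectedComponents _) = E.2 := by
  rcases hv : v1 T c with _ | v
  · exact ⟨none, rfl, fun E hE => by simp at hE⟩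
  have hvV := v1_mem hc hv
  obtain ⟨C, hC⟩ := axis (U := U) hR hvV (S.pos c) (P := IsV c) (wc_cont S hc j) (by
    intro t ht
    obtain ⟨a, ha, har, h⟩ := InT1 U S hc hv (isCompact_Kt t (S.r c)) (by
      intro b hb
      refine ⟨hb.2, ?_⟩
      rcases ht with h | h
      · right
        intro h0
        have h1 := hb.1
        rw [h0, norm_zero] at h1
        linarith
      · exact Or.inl h.2)
    exact ⟨a, ha, har, fun p hp => h p (norm_pos_iff.1 hp.1.1) hp.1.2 hp.2 j⟩)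
  refine ⟨some ⟨⟨v, hvV⟩, C⟩, rfl, fun E hE τ hτ => ?_⟩
  obtain rfl := Option.some.inj hE
  by_cases hI : IsV c
  · obtain ⟨a, ha, -, h⟩ := hC 0 (Or.inr ⟨rfl, hI⟩)
    exact ⟨a, ha, fun p h1 h2 h3 _ => h p ⟨⟨h1, h2⟩, ⟨norm_nonneg _, h3⟩⟩⟩
  · obtain ⟨a, ha, -, h⟩ := hC τ (Or.inl hτ)
    exact ⟨a, ha, fun p h1 h2 h3 h4 => h p ⟨⟨h1, h2⟩, ⟨h4.resolve_left hI, h3⟩⟩⟩

theorem exists_e2 (hR : RetStmt U) {c : Ch T.m} (hc : T.Valid c) (j : Fin T.d) :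
    ∃ e : Option (II U), e.map (fun E => E.1.1) = v2 T c ∧
      ∀ E, e = some E → ∀ τ > 0, ∃ a > 0, ∀ p : ℂ × ℂ,
        0 < ‖p.2‖ → ‖p.2‖ < a → ‖p.1‖ ≤ S.r c → τ ≤ ‖p.1‖ →
        InT U E.1.1 (wc S c j p) ∧ ∀ q, IsRet U E.1.1 (wc S c j p) q →
          (q : ConnectedComponents _) = E.2 := by
  rcases hv : v2 T c with _ | v
  · exact ⟨none, rfl, fun E hE => by simp at hE⟩
  have hvV := v2_mem hc hv
  obtain ⟨C, hC⟩ := axis (U := U) hR hvV (S.pos c) (P := False)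
    (x := wc S c j ∘ Prod.swap)
    ((wc_cont S hc j).comp continuous_swap.continuousOn fun p hp => ⟨hp.2, hp.1⟩) (by
    intro t ht
    have ht0 : 0 < t := by
      rcases ht with h | h
      · exact h
      · exact h.2.elim
    obtain ⟨a, ha, har, h⟩ := InT2 U S hc hv (isCompact_Kt t (S.r c)) (by
      intro b hb
      refine ⟨hb.2, ?_⟩
      intro h0
      have h1 := hb.1
      rw [h0, norm_zero] at h1
      linarith)
    exact ⟨a, ha, har, fun p hp => h p.swap (norm_pos_iff.1 hp.1.1) hp.1.2 hp.2 j⟩)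
  refine ⟨some ⟨⟨v, hvV⟩, C⟩, rfl, fun E hE τ hτ => ?_⟩
  obtain rfl := Option.some.inj hE
  obtain ⟨a, ha, -, h⟩ := hC τ (Or.inl hτ)
  exact ⟨a, ha, fun p h1 h2 h3 h4 => h p.swap ⟨⟨h1, h2⟩, ⟨h4, h3⟩⟩⟩

/-- **existence of the labels** -/
theorem nonempty_lab (hR : RetStmt U) : Nonempty (Lab U S) := by
  have h1 : ∀ c, Ok S c → ∀ j, ∃ e : Option (II U), _ := fun c hc j => exists_e1 S hR hc.1 j
  have h2 : ∀ c, Ok S c → ∀ j, ∃ e : Option (II U), _ := fun c hc j => exists_e2 S hR hc.1 j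
  choose! e₁ he₁ using h1
  choose! e₂ he₂ using h2
  exact ⟨{
    e1 := e₁
    e2 := e₂
    v_e1 := fun c hc j => (he₁ c hc j).1
    v_e2 := fun c hc j => (he₂ c hc j).1
    near1 := fun c hc j E hE => (he₁ c hc j).2 E hE
    near2 := fun c hc j E hE => (he₂ c hc j).2 E hE }⟩

variable {S}

/-- the form of the first label -/
theorem form1 (L : Lab U S) {c : Ch T.m} (hc : Ok S c) (j : Fin T.d) {v : Vtx}
    (hv1 : v1 T c = some v) (hv : v ∈ Vs T) : ∃ C : ConnectedComponents (XV U v),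
    L.e1 c j = some ⟨⟨v, hv⟩, C⟩ ∧ ∀ τ > 0, ∃ a > 0, ∀ p : ℂ × ℂ,
      0 < ‖p.1‖ → ‖p.1‖ < a → ‖p.2‖ ≤ S.r c → (IsV c ∨ τ ≤ ‖p.2‖) →
      InT U v (wc S c j p) ∧ ∀ q, IsRet U v (wc S c j p) q →
        (q : ConnectedComponents (XV U v)) = C := by
  have h1 := L.v_e1 c hc j
  rw [hv1] at h1
  rcases he : L.e1 c j with _ | ⟨⟨v', hv'⟩, C⟩
  · rw [he] at h1; simp at h1
  · rw [he] at h1
    have h2 : v' = v := by simpa using h1
    subst h2
    exact ⟨C, rfl, L.near1 c hc j _ he⟩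

/-- the form of the second label -/
theorem form2 (L : Lab U S) {c : Ch T.m} (hc : Ok S c) (j : Fin T.d) {v : Vtx}
    (hv2 : v2 T c = some v) (hv : v ∈ Vs T) : ∃ C : ConnectedComponents (XV U v),
    L.e2 c j = some ⟨⟨v, hv⟩, C⟩ ∧ ∀ τ > 0, ∃ a > 0, ∀ p : ℂ × ℂ,
      0 < ‖p.2‖ → ‖p.2‖ < a → ‖p.1‖ ≤ S.r c → τ ≤ ‖p.1‖ →
      InT U v (wc S c j p) ∧ ∀ q, IsRet U v (wc S c j p) q →
        (q : ConnectedComponents (XV U v)) = C := by
  have h1 := L.v_e2 c hc j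
  rw [hv2] at h1
  rcases he : L.e2 c j with _ | ⟨⟨v', hv'⟩, C⟩
  · rw [he] at h1; simp at h1
  · rw [he] at h1
    have h2 : v' = v := by simpa using h1
    subst h2
    exact ⟨C, rfl, L.near2 c hc j _ he⟩

lemma e1_none {L : Lab U S} {c : Ch T.m} (hc : Ok S c) {j : Fin T.d} (h : v1 T c = none) :
    L.e1 c j = none := by
  have h1 := L.v_e1 c hc j
  rw [h] at h1
  simpa using h1

lemma e2_none {L : Lab U S} {c : Ch T.m} (hc : Ok S c) {j : Fin T.d} (h : v2 T c = none) :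
    L.e2 c j = none := by
  have h1 := L.v_e2 c hc j
  rw [h] at h1
  simpa using h1

/-- every component is the component of the retraction of some sheet -/
theorem hit (hR : RetStmt U) {v : Vtx} (hv : v ∈ Vs T) (C : ConnectedComponents (XV U v))
    {c : Ch T.m} (hc : T.Valid c) {p : ℂ × ℂ} (hp : p ∈ BD (2 * S.r c) (2 * S.r c))
    (hin : ∀ j, InT U v (wc S c j p)) :
    ∃ j q, IsRet U v (wc S c j p) q ∧ (q : ConnectedComponents (XV U v)) = C := by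
  obtain ⟨q₀, rfl⟩ := ConnectedComponents.surjective_coe C
  have j₀ : Fin T.d := ⟨0, T.d_pos⟩
  have h0 := hin j₀
  set s : ℂ := (T.map c p).1 with hs
  set y : ℂ := (T.map c p).2 with hy
  have hs0 : s ≠ 0 := h0.ne
  have hnsp : wv T v (s, y) ∉ sp T v := h0.nsp
  have hlt : ‖s‖ < U.ρ v (wv T v (s, y)) := h0.lt
  obtain ⟨q, hq1, hq2⟩ := exists_over hR hv q₀ hnsp
  obtain ⟨-, hl⟩ := hR v hv
  obtain ⟨r, hr, R, hR0, Z, σ, h1, h2, h3, h4, h5, h6, h7, h8, h9⟩ := hl _ hnsp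
  set w := wv T v (s, y) with hw
  have hyv : yv T v (s, w) = y := yv_wv v y hs0
  obtain ⟨j', hj'⟩ := h8 q (by rw [hq1]; exact mem_ball_self hr)
  rw [hq1] at hj'
  have hret := h9 j' w (mem_ball_self hr) s hs0 hlt
  rw [hyv, hj'] at hret
  have hsR : (s, w) ∈ ball (0 : ℂ) R ×ˢ ball w r := by
    refine ⟨?_, mem_ball_self hr⟩
    show s ∈ ball (0 : ℂ) R
    rw [mem_ball, dist_zero_right]
    exact hlt.trans (h1 w (mem_ball_self hr)).2
  have h10 := (h3 _ hsR).2.2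
  have h11 : (T.Q (s, y)).eval (Z j' (s, w)) = 0 := by
    change T.Q (s, yv T v (s, w)) = _ at h10
    rw [hyv] at h10
    rw [h10, eval_prod_X_sub_C]
    exact ⟨j', rfl⟩
  have h13 : T.Q (s, y) = ∏ j, (X - C (S.ζ c j p)) := (S.sheets c hc).split p hp
  rw [h13, eval_prod_X_sub_C] at h11
  obtain ⟨j, hj⟩ := h11
  refine ⟨j, q, ?_, hq2⟩
  rw [hj] at hret
  exact hret

end Crest.Agent.R257.Lab_931
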