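import Mathlib
import Crest.Agent.R257.Lab4_931

/-!
Row 257 (S0395), part C, task C-LAB (helper931), file 5.

* `vx_ci`, `co_ci`, `hk_ci` : the canonical centre;
* `surj2` : every component is `e2` of a sheet of its parent edge;
* `surj1` : every component is `e1` of a vertex chart (at any ordinary point);
* `finite_II` : there are finitely many components;
* `dg_Mx`, `dt_Mx`, **`iform`** : `IForm (Mx L)`.
-/

set_option autoImplicit false
set_option linter.unusedSectionVars false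

open Polynomial Set Filter Topology Metric
open Crest.AlgGeometry.Germ Crest.Agent.R257.AJ387 Crest.Agent.R257.T387
open Crest.Agent.R257.Gr1_157 Crest.Agent.R257.BP_258

noncomputable section

namespace Crest.Agent.R257.Lab_931

variable {f : (Fin 3 → ℂ) → ℂ} {T : TB f} {U : Tub T} {S : Sh T}

lemma mem_Vs {v : Vtx} : v ∈ Vs T ↔ ∃ i, v.1 ∈ T.lev i ∧ v = vx T i v.1 := by
  classical
  unfold Vs
  simp only [Finset.mem_biUnion, Finset.mem_univ, true_and, Finset.mem_image]
  constructor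
  · rintro ⟨i, k, hk, rfl⟩
    exact ⟨i, hk, rfl⟩
  · rintro ⟨i, hk, h⟩
    exact ⟨i, v.1, hk, h.symm⟩

lemma iter_eq {g h u : ℂ → ℂ} (hg : AnalyticAt ℂ g 0) (hh : AnalyticAt ℂ h 0)
    (hu : AnalyticAt ℂ u 0) {k : ℕ} (he : ∀ᶠ s in 𝓝 (0 : ℂ), g s - h s = s ^ k * u s) {n : ℕ}
    (hn : n < k) : iteratedDeriv n g 0 = iteratedDeriv n h 0 := by
  have h2 : ((k : ℕ) : ℕ∞) ≤ analyticOrderAt (g - h) 0 := by
    rw [natCast_le_analyticOrderAt (hg.sub hh)]
    refine ⟨u, hu, ?_⟩
    filter_upwards [he] with s hs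
    simpa using hs
  have h3 := (natCast_le_analyticOrderAt_iff_iteratedDeriv_eq_zero (hg.sub hh)).1 h2 n hn
  have h4 : iteratedDeriv n (g - h) 0 = iteratedDeriv n g 0 - iteratedDeriv n h 0 :=
    iteratedDeriv_sub hg.contDiffAt hh.contDiffAt
  rwa [h4, sub_eq_zero] at h3

lemma hk_an (i : Fin T.m) (k : ℕ) : AnalyticAt ℂ (hk (T.φ i) k) 0 :=
  (hk_diff T.ρ_pos (fun s hs => (T.φ_an i s hs).differentiableAt.differentiableWithinAt)
    k).analyticAt (ball_mem_nhds _ T.ρ_pos)

variable (S)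

lemma tr_ci {v : Vtx} (hv : v ∈ Vs T) : tr T (S.ci v) v.1 = v.2 := by
  obtain ⟨i, hk, he⟩ := mem_Vs.1 hv
  have h2 : v.2 = tr T i v.1 := congrArg Prod.snd he
  rw [h2]
  unfold tr
  refine Finset.sum_congr rfl fun n hn => ?_
  have hn' := Finset.mem_range.1 hn
  have h3 : iteratedDeriv n (T.φ i) 0 = iteratedDeriv n (T.φ (S.ci v)) 0 := by
    refine iter_eq (φ_an0 i) (φ_an0 _) (hk_an i v.1) ?_ hn'
    filter_upwards [ball_mem_nhds (0 : ℂ) T.ρ_pos] with s hs
    rw [S.ci_eq v hv s hs, φ_eq i v.1, h2]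
    ring
  simp only [co, h3]

lemma vx_ci {v : Vtx} (hv : v ∈ Vs T) : vx T (S.ci v) v.1 = v := by
  have := tr_ci S hv
  unfold vx
  rw [this]

lemma hk_ci {v : Vtx} (hv : v ∈ Vs T) {s : ℂ} (hs : s ∈ ball (0 : ℂ) T.ρ) :
    hk (T.φ (S.ci v)) v.1 s = 0 := by
  have key : ∀ s ∈ ball (0 : ℂ) T.ρ, s ≠ 0 → hk (T.φ (S.ci v)) v.1 s = 0 := by
    intro s hs h0
    have h1 := S.ci_eq v hv s hs
    rw [φ_eq (S.ci v) v.1, tr_ci S hv] at h1
    have h2 : s ^ v.1 * hk (T.φ (S.ci v)) v.1 s = 0 := by linear_combination h1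
    exact (mul_eq_zero.1 h2).resolve_left (pow_ne_zero _ h0)
  by_cases h0 : s = 0
  · subst h0
    have c1 : ContinuousAt (fun s => hk (T.φ (S.ci v)) v.1 s) 0 :=
      (hk_cont _ _).continuousAt (ball_mem_nhds _ T.ρ_pos)
    have c2 : ContinuousAt (fun _ : ℂ => (0 : ℂ)) 0 := continuousAt_const
    refine tendsto_nhds_unique_of_frequently_eq c1 c2 ?_
    have hf : ∃ᶠ s in 𝓝 (0 : ℂ), s ≠ 0 := by
      exact frequently_mem_iff_neBot.2 (by exact NormedField.nhdsNE_neBot (0 : ℂ))
    exact (hf.and_eventually (ball_mem_nhds (0 : ℂ) T.ρ_pos)).mono fun s h => key s h.2 h.1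
  · exact key s hs h0

lemma co_ci {v : Vtx} (hv : v ∈ Vs T) : co T (S.ci v) v.1 = 0 := by
  rw [← hk_φ]
  exact hk_ci S hv (mem_ball_self T.ρ_pos)

lemma mem_sp_iff {v : Vtx} (hv : v ∈ Vs T) (w : ℂ) : w ∈ sp T v ↔ w ∈ T.Sp (S.ci v) v.1 := by
  have h1 := mem_sp_vx (S.ci v) v.1 w
  rwa [co_ci S hv, zero_add, vx_ci S hv] at h1

lemma ok_ec {v : Vtx} (hv : v ∈ Vs T) : Ok S (ec S v) :=
  ⟨S.kp_cons v hv, v, hv, rfl, rfl, rfl⟩

lemma v2_ec {v : Vtx} (hv : v ∈ Vs T) : v2 T (ec S v) = some v := by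
  show some (vx T (S.ci v) v.1) = some v
  rw [vx_ci S hv]

lemma ok_vert {v : Vtx} (hv : v ∈ Vs T) {w : ℂ} (hw : w ∉ sp T v) :
    Ok S (.vert (S.ci v) v.1 w) :=
  ⟨⟨(S.kp_cons v hv).2.1, fun h => hw ((mem_sp_iff S hv w).2 h)⟩, v, hv, rfl, rfl, hw⟩

lemma v1_vert {v : Vtx} (hv : v ∈ Vs T) (w : ℂ) : v1 T (.vert (S.ci v) v.1 w) = some v := by
  show some (vx T (S.ci v) v.1) = some v
  rw [vx_ci S hv]

variable {S}

lemma exists_small {d : ℕ} {a : Fin d → ℝ} (ha : ∀ j, 0 < a j) {r : ℝ} (hr : 0 < r) :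
    ∃ b : ℝ, 0 < b ∧ b < r ∧ ∀ j, b < a j := by
  have h1 : ∀ᶠ b in 𝓝[>] (0 : ℝ), 0 < b ∧ b < r ∧ ∀ j, b < a j := by
    refine (eventually_mem_nhdsWithin.mono fun b hb => hb).and ?_
    refine (eventually_nhdsWithin_of_eventually_nhds (eventually_lt_nhds hr)).and ?_
    rw [eventually_all]
    exact fun j => eventually_nhdsWithin_of_eventually_nhds (eventually_lt_nhds (ha j))
  exact h1.exists

/-- **every component is `e2` of a sheet of its parent edge** -/
theorem surj2 (hR : RetStmt U) (L : Lab U S) (E : II U) : ∃ j, L.e2 (ec S E.1.1) j = some E := by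
  obtain ⟨⟨v, hv⟩, C⟩ := E
  have hc := ok_ec S hv
  have hr := S.pos (ec S v)
  choose D hD hD' using fun j => form2 L hc j (v2_ec S hv) hv
  choose a ha h using fun j => hD' j (S.r (ec S v)) hr
  obtain ⟨b, hb, hbr, hba⟩ := exists_small ha hr
  let p : ℂ × ℂ := ((S.r (ec S v) : ℂ), (b : ℂ))
  have e1 : ‖p.1‖ = S.r (ec S v) := by
    show ‖((S.r (ec S v) : ℝ) : ℂ)‖ = _
    rw [Complex.norm_real, Real.norm_eq_abs, abs_of_pos hr]
  have e2 : ‖p.2‖ = b := by
    show ‖((b : ℝ) : ℂ)‖ = _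
    rw [Complex.norm_real, Real.norm_eq_abs, abs_of_pos hb]
  have h1 : ∀ j, InT U v (wc S (ec S v) j p) ∧ ∀ q : XV U v, IsRet U v (wc S (ec S v) j p) q →
      (q : ConnectedComponents (XV U v)) = D j := fun j =>
    h j p (by rw [e2]; exact hb) (by rw [e2]; exact hba j) e1.le e1.ge
  have hp : p ∈ BD (2 * S.r (ec S v)) (2 * S.r (ec S v)) :=
    ⟨by show ‖p.1‖ < _; rw [e1]; linarith, by show ‖p.2‖ < _; rw [e2]; linarith⟩
  obtain ⟨j, q, hq, hqC⟩ := hit hR hv C hc.1 hp fun j => (h1 j).1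
  refine ⟨j, ?_⟩
  have h2 := (h1 j).2 q hq
  show L.e2 (ec S v) j = _
  rw [hD j, ← h2, hqC]

/-- **every component is `e1` of a sheet of every vertex chart** -/
theorem surj1 (hR : RetStmt U) (L : Lab U S) (E : II U) {w : ℂ} (hw : w ∉ sp T E.1.1) :
    ∃ j, L.e1 (.vert (S.ci E.1.1) E.1.1.1 w) j = some E := by
  obtain ⟨⟨v, hv⟩, C⟩ := E
  change w ∉ sp T v at hw
  have hc := ok_vert S hv hw
  set c : Ch T.m := .vert (S.ci v) v.1 w with hcdef
  have hr := S.pos c
  choose D hD hD' using fun j => form1 L hc j (v1_vert S hv w) hv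
  choose a ha h using fun j => hD' j (S.r c) hr
  obtain ⟨b, hb, hbr, hba⟩ := exists_small ha hr
  let p : ℂ × ℂ := ((b : ℂ), (S.r c : ℂ))
  have e1 : ‖p.2‖ = S.r c := by
    show ‖((S.r c : ℝ) : ℂ)‖ = _
    rw [Complex.norm_real, Real.norm_eq_abs, abs_of_pos hr]
  have e2 : ‖p.1‖ = b := by
    show ‖((b : ℝ) : ℂ)‖ = _
    rw [Complex.norm_real, Real.norm_eq_abs, abs_of_pos hb]
  have h1 : ∀ j, InT U v (wc S c j p) ∧ ∀ q : XV U v, IsRet U v (wc S c j p) q →
      (q : ConnectedComponents (XV U v)) = D j := fun j =>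
    h j p (by rw [e2]; exact hb) (by rw [e2]; exact hba j) e1.le (Or.inr e1.ge)
  have hp : p ∈ BD (2 * S.r c) (2 * S.r c) :=
    ⟨by show ‖p.1‖ < _; rw [e2]; linarith, by show ‖p.2‖ < _; rw [e1]; linarith⟩
  obtain ⟨j, q, hq, hqC⟩ := hit hR hv C hc.1 hp fun j => (h1 j).1
  refine ⟨j, ?_⟩
  have h2 := (h1 j).2 q hq
  show L.e1 c j = _
  rw [hD j, ← h2, hqC]

/-- there is a vertex chart with given first label -/
theorem surj1' (hR : RetStmt U) (L : Lab U S) (E : II U) :
    ∃ c, Ok S c ∧ IsV c ∧ ∃ j, L.e1 c j = some E := by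
  obtain ⟨w, hw⟩ := (sp T E.1.1).exists_notMem
  exact ⟨_, ok_vert S E.1.2 hw, trivial, surj1 hR L E hw⟩

/-- **there are finitely many components** -/
theorem finite_II (hR : RetStmt U) (S : Sh T) : Finite (II U) := by
  obtain ⟨L⟩ := nonempty_lab (U := U) S hR
  choose j hj using surj2 hR L
  refine Finite.of_injective (fun E : II U => ((E.1, j E) : {v // v ∈ Vs T} × Fin T.d)) ?_
  intro E E' h
  have h1 : E.1 = E'.1 := congrArg Prod.fst h
  have h2 : j E = j E' := congrArg Prod.snd h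
  have h3 := hj E
  rw [h1, h2, hj E'] at h3
  exact (Option.some.inj h3).symm

/-! ### the intersection form -/

section form

variable [Fintype (II U)] (L : Lab U S)

open Classical in
/-- the form of one half-edge -/
def hf (a b : Option (II U)) (E E' : II U) : ℝ :=
  if a = some E then (if b = some E' then 1 else 0) - (if E = E' then 1 else 0) else 0

lemma Mx_eq (E E' : II U) : Mx L E E' = ∑ v ∈ Vs T, ∑ j, cd S v *
    (hf (L.e1 (ec S v) j) (L.e2 (ec S v) j) E E' +
      hf (L.e2 (ec S v) j) (L.e1 (ec S v) j) E E') := rfl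

lemma hf_symm (a b : Option (II U)) (E E' : II U) :
    hf a b E E' + hf b a E E' = hf a b E' E + hf b a E' E := by
  classical
  unfold hf
  by_cases h : E = E'
  · subst h; rfl
  · have h' : ¬ E' = E := fun h1 => h h1.symm
    simp only [h, h', if_false, sub_zero]
    by_cases h1 : a = some E <;> by_cases h2 : b = some E' <;> by_cases h3 : a = some E' <;>
      by_cases h4 : b = some E <;> simp [h1, h2, h3, h4, h, h']

lemma hf_nonneg (a b : Option (II U)) {E E' : II U} (h : E ≠ E') : 0 ≤ hf a b E E' := by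
  classical
  unfold hf
  simp only [h, if_false, sub_zero]
  split_ifs <;> norm_num

lemma hf_sum (a b : Option (II U)) (x : II U → ℝ) (E : II U) :
    ∑ E', hf a b E E' * x E' = open Classical in if a = some E then yo x b - x E else 0 := by
  classical
  unfold hf
  by_cases h : a = some E
  · simp only [h, if_true, sub_mul, ite_mul, one_mul, zero_mul, Finset.sum_sub_distrib,
      Finset.sum_ite_eq, Finset.mem_univ]
    congr 1
    cases b with
    | none => simp [yo]
    | some e => simp [yo]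
  · simp [h]

/-- degrees of a cycle -/
theorem dg_Mx (x : II U → ℝ) (E : II U) : dg (Mx L) x E = ∑ v ∈ Vs T, ∑ j, cd S v *
    ((open Classical in if L.e1 (ec S v) j = some E then yo x (L.e2 (ec S v) j) - x E else 0) +
     (open Classical in if L.e2 (ec S v) j = some E then yo x (L.e1 (ec S v) j) - x E else 0)) := by
  unfold dg
  simp only [Mx_eq, Finset.sum_mul]
  rw [Finset.sum_comm]
  refine Finset.sum_congr rfl fun v _ => ?_
  rw [Finset.sum_comm]
  refine Finset.sum_congr rfl fun j _ => ?_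
  simp only [mul_assoc]
  rw [← Finset.mul_sum]
  congr 1
  simp only [add_mul, Finset.sum_add_distrib]
  rw [hf_sum, hf_sum]

lemma sum_if (a : Option (II U)) (x : II U → ℝ) (z : ℝ) :
    ∑ E, x E * (open Classical in if a = some E then z - x E else 0) =
      yo x a * (z - yo x a) := by
  classical
  cases a with
  | none => simp [yo]
  | some e => simp [yo]

/-- the square of a cycle -/
theorem dt_Mx (x : II U → ℝ) : dt (Mx L) x x = - ∑ v ∈ Vs T, ∑ j, cd S v *
    (yo x (L.e1 (ec S v) j) - yo x (L.e2 (ec S v) j)) ^ 2 := by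
  rw [dt_eq]
  simp only [dg_Mx, Finset.mul_sum]
  rw [Finset.sum_comm, ← Finset.sum_neg_distrib]
  refine Finset.sum_congr rfl fun v _ => ?_
  rw [Finset.sum_comm, ← Finset.sum_neg_distrib]
  refine Finset.sum_congr rfl fun j _ => ?_
  have h1 : ∀ E : II U, x E * (cd S v *
      ((open Classical in if L.e1 (ec S v) j = some E then yo x (L.e2 (ec S v) j) - x E else 0) +
       (open Classical in if L.e2 (ec S v) j = some E then yo x (L.e1 (ec S v) j) - x E else 0))) =
      cd S v * (x E * (open Classical in if L.e1 (ec S v) j = some E then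
          yo x (L.e2 (ec S v) j) - x E else 0) +
        x E * (open Classical in if L.e2 (ec S v) j = some E then
          yo x (L.e1 (ec S v) j) - x E else 0)) := fun E => by ring
  simp only [h1]
  rw [← Finset.mul_sum, Finset.sum_add_distrib, sum_if, sum_if]
  ring

lemma cd_pos {v : Vtx} (hv : v ∈ Vs T) : 0 < cd S v := by
  unfold cd
  have h1 : 0 < v.1 - S.kp v := by have := (S.kp_cons v hv).2.2.1; omega
  have h2 : (0 : ℝ) < T.M := by exact_mod_cast T.M_pos
  have h3 : (0 : ℝ) < ((v.1 - S.kp v : ℕ) : ℝ) := by exact_mod_cast h1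
  positivity

/-- **the intersection form is negative definite** -/
theorem iform (hR : RetStmt U) : IForm (Mx L) := by
  classical
  refine ⟨fun E E' => ?_, fun E E' h => ?_, fun x hx => ?_⟩
  · rw [Mx_eq, Mx_eq]
    refine Finset.sum_congr rfl fun v _ => Finset.sum_congr rfl fun j _ => ?_
    rw [hf_symm]
  · rw [Mx_eq]
    refine Finset.sum_nonneg fun v hv => Finset.sum_nonneg fun j _ => ?_
    exact mul_nonneg (cd_pos hv).le (add_nonneg (hf_nonneg _ _ h) (hf_nonneg _ _ h))
  · rw [dt_Mx]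
    by_contra hcon
    have hnn : ∀ v ∈ Vs T, 0 ≤ ∑ j, cd S v *
        (yo x (L.e1 (ec S v) j) - yo x (L.e2 (ec S v) j)) ^ 2 := fun v hv =>
      Finset.sum_nonneg fun j _ => mul_nonneg (cd_pos hv).le (sq_nonneg _)
    have h0 : ∑ v ∈ Vs T, ∑ j, cd S v *
        (yo x (L.e1 (ec S v) j) - yo x (L.e2 (ec S v) j)) ^ 2 = 0 :=
      le_antisymm (by linarith) (Finset.sum_nonneg hnn)
    have h1 : ∀ v ∈ Vs T, ∀ j, yo x (L.e1 (ec S v) j) = yo x (L.e2 (ec S v) j) := by
      intro v hv j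
      have h2 := (Finset.sum_eq_zero_iff_of_nonneg hnn).1 h0 v hv
      have h3 := (Finset.sum_eq_zero_iff_of_nonneg (fun j _ =>
        mul_nonneg (cd_pos (S := S) hv).le (sq_nonneg _))).1 h2 j (Finset.mem_univ _)
      have h4 := (mul_eq_zero.1 h3).resolve_left (cd_pos (S := S) hv).ne'
      exact sub_eq_zero.1 (pow_eq_zero_iff (two_ne_zero)|>.1 h4)
    apply hx
    have key : ∀ n : ℕ, ∀ E : II U, E.1.1.1 = n → x E = 0 := by
      intro n
      induction n using Nat.strong_induction_on with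
      | _ n ih =>
        intro E hE
        obtain ⟨j, hj⟩ := surj2 hR L E
        have h2 := h1 E.1.1 E.1.2 j
        rw [hj] at h2
        change _ = x E at h2
        rw [← h2]
        rcases he : L.e1 (ec S E.1.1) j with _ | E'
        · rfl
        · show x E' = 0
          refine ih E'.1.1.1 ?_ E' rfl
          have h3 := L.v_e1 _ (ok_ec S E.1.2) j
          rw [he] at h3
          have h4 : some E'.1.1 = v1 T (ec S E.1.1) := h3
          simp only [ec, v1] at h4
          split_ifs at h4 with hk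
          have h5 := Option.some.inj h4
          rw [h5, ← hE]
          exact (S.kp_cons _ E.1.2).2.2.1
    funext E
    exact key _ E rfl

end form

end Crest.Agent.R257.Lab_931
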