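import Crest.Agent.R257.FrmF2_547

/-!
R257 / Sep_547: small bidiscs of different canonical charts have no common generic point.

* `origin_type` : the type of the origin of a chart;
* `sep`         : `Ok S c`, `Ok S c'`, `c ≠ c'` ⟹ small bidiscs around the origins have disjoint
                  generic images in the `(s, y')`-plane.
-/

set_option autoImplicit false
set_option linter.unusedSectionVars false

open Polynomial Set Filter Topology Metric
open Crest.AlgGeometry.Germ Crest.Agent.R257.AJ387 Crest.Agent.R257.T387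
open Crest.Agent.R257.FrmE_547 Crest.Agent.R257.Frm_547 Crest.Agent.R257.BP_258
open Crest.Agent.R257.FrmF_547
open Crest.Agent.R257.Typ_201 (TV TL TN)

noncomputable section

namespace Crest.Agent.R257.Sep_547

variable {f : (Fin 3 → ℂ) → ℂ} {T : TB f}

theorem gen_ne {c : Ch T.m} {p : ℂ × ℂ} (h : T.Gen c p) : (T.map c p).1 ≠ 0 := by
  cases c with
  | edge i k k' => exact mul_ne_zero h.1 h.2
  | leg i => exact h.1
  | vert i k w => exact h

/-- the type of the origin of a chart -/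
def OT (c : Ch T.m) (l : Filter (ℂ × ℂ)) : Prop :=
  match c with
  | .edge i k k' => TN T l i k k'
  | .leg i => TL T l i
  | .vert i k w => TV T l i k w

theorem origin_type {c : Ch T.m} (hc : T.Valid c) {m : Filter (ℂ × ℂ)} (hm : m ≤ 𝓝 0)
    (hg : ∀ᶠ p in m, T.Gen c p) : OT c (map (T.map c) m) := by
  have c1 : Tendsto (fun p : ℂ × ℂ => p.1) m (𝓝 0) :=
    (continuous_fst.tendsto (0 : ℂ × ℂ)).mono_left hm
  have c2 : Tendsto (fun p : ℂ × ℂ => p.2) m (𝓝 0) :=
    (continuous_snd.tendsto (0 : ℂ × ℂ)).mono_left hm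
  have hs : ∀ᶠ p in m, (T.map c p).1 ≠ 0 := hg.mono fun p hp => gen_ne hp
  cases c with
  | vert i k w =>
    refine ⟨hc.1, ?_, hc.2⟩
    rw [tendsto_map'_iff]
    have h1 := c2.const_add w
    rw [add_zero] at h1
    refine h1.congr' ?_
    filter_upwards [hs] with p hp
    exact (twc_vert i k w hp).symm
  | leg i =>
    show Tendsto _ _ _
    rw [tendsto_map'_iff]
    have h1 := c2.pow T.M
    rw [zero_pow T.M_pos.ne'] at h1
    refine h1.congr' ?_
    filter_upwards [hs] with p hp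
    exact (twc_leg i hp).symm
  | edge i k k' =>
    have hkk : k < k' := hc.2.2.1
    have hn : T.M * (k' - k) ≠ 0 := Nat.mul_ne_zero T.M_pos.ne' (by omega)
    refine ⟨hc, ?_, ?_⟩
    · rw [tendsto_map'_iff]
      have h1 := c2.pow (T.M * (k' - k))
      rw [zero_pow hn] at h1
      refine h1.congr' ?_
      filter_upwards [hs] with p hp
      exact (twc_edge1 i hkk.le hp).symm
    · rw [tendsto_map'_iff]
      have h3 : Tendsto (fun p : ℂ × ℂ => p.1 ^ (T.M * (k' - k))) m (𝓝[≠] 0) := by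
        rw [tendsto_nhdsWithin_iff]
        constructor
        · have := c1.pow (T.M * (k' - k))
          rwa [zero_pow hn] at this
        · filter_upwards [hg] with p hp
          exact pow_ne_zero _ hp.1
      refine (Filter.tendsto_inv₀_nhdsNE_zero.comp h3).congr' ?_
      filter_upwards [hs] with p hp
      exact (twc_edge2 i hkk.le hp).symm

theorem ci_unique {S : Sh T} {v v' : Vtx} (hv : v ∈ Vs T) (hv' : v' ∈ Vs T) (h1 : v.1 = v'.1)
    (h2 : Eqv T v.1 (S.ci v) (S.ci v')) : v = v' := leg_or_edge_eq hv hv' h1 h2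

/-- charts with the same type at the origin are equal -/
theorem eq_of_type {S : Sh T} {c c' : Ch T.m} (hc : Ok S c) (hc' : Ok S c')
    {l : Filter (ℂ × ℂ)} [l.NeBot] (h0 : Tendsto (Prod.fst : ℂ × ℂ → ℂ) l (𝓝 0))
    (h1 : ∀ᶠ q in l, q.1 ≠ 0) (h : OT c l) (h' : OT c' l) : c = c' := by
  cases c with
  | edge i k k' =>
    cases c' with
    | edge i' a a' =>
      obtain ⟨rfl, rfl, he⟩ := Typ_201.TN_TN h0 h1 h h'
      obtain ⟨v, hv, e1⟩ := ok_edge hc
      obtain ⟨v', hv', e1'⟩ := ok_edge hc'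
      simp only [ec, Ch.edge.injEq] at e1 e1'
      obtain ⟨rfl, rfl, rfl⟩ := e1
      obtain ⟨rfl, h2, h3⟩ := e1'
      rw [ci_unique (S := S) hv hv' h3 he]
    | leg i' => exact (Typ_201.TL_TN h0 h1 h' h).elim
    | vert i' a w => exact (Typ_201.TV_TN h0 h1 h' h).elim
  | leg i =>
    cases c' with
    | edge i' a a' => exact (Typ_201.TL_TN h0 h1 h h').elim
    | leg i' => rw [Typ_201.TL_TL h0 h1 h h']
    | vert i' a w => exact (Typ_201.TV_TL h0 h1 h' h).elim
  | vert i k w =>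
    cases c' with
    | edge i' a a' => exact (Typ_201.TV_TN h0 h1 h h').elim
    | leg i' => exact (Typ_201.TV_TL h0 h1 h h').elim
    | vert i' a w' =>
      obtain ⟨rfl, he⟩ := Typ_201.TV_TV h0 h1 h h'
      obtain ⟨v, hv, e1, e2, e3⟩ := hc.2
      obtain ⟨v', hv', e1', e2', e3'⟩ := hc'.2
      subst e1 e1' e2
      have := ci_unique (S := S) hv hv' e2' he
      subst this
      rw [tendsto_nhds_unique h.2.1 h'.2.1]

/-- **separation** of the origins of different canonical charts -/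
theorem sep {S : Sh T} {c c' : Ch T.m} (hc : Ok S c) (hc' : Ok S c') (hne : c ≠ c') :
    ∃ r > 0, ∀ p ∈ BD r r, ∀ p' ∈ BD r r, T.Gen c p → T.Gen c' p' → T.map c p ≠ T.map c' p' := by
  by_contra hcon
  push Not at hcon
  set Z : Set ((ℂ × ℂ) × (ℂ × ℂ)) := {x | T.Gen c x.1 ∧ T.Gen c' x.2 ∧
    T.map c x.1 = T.map c' x.2} with hZ
  set l : Filter ((ℂ × ℂ) × (ℂ × ℂ)) := 𝓟 Z ⊓ 𝓝 0 with hl
  have hne' : l.NeBot := by
    rw [hl, inf_comm]
    refine Filter.inf_principal_neBot_iff.2 fun W hW => ?_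
    obtain ⟨ε, hε, hb⟩ := Metric.mem_nhds_iff.1 hW
    obtain ⟨p, hp, p', hp', h1, h2, h3⟩ := hcon ε hε
    refine ⟨(p, p'), hb ?_, h1, h2, h3⟩
    rw [mem_ball, dist_zero_right, Prod.norm_def, max_lt_iff, Prod.norm_def, Prod.norm_def,
      max_lt_iff, max_lt_iff]
    exact ⟨hp, hp'⟩
  have hZ' : ∀ᶠ x in l, x ∈ Z := inf_le_left (a := 𝓟 Z) (mem_principal_self Z)
  have t1 : map Prod.fst l ≤ 𝓝 (0 : ℂ × ℂ) :=
    (continuous_fst.tendsto (0 : (ℂ × ℂ) × (ℂ × ℂ))).mono_left inf_le_right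
  have t2 : map Prod.snd l ≤ 𝓝 (0 : ℂ × ℂ) :=
    (continuous_snd.tendsto (0 : (ℂ × ℂ) × (ℂ × ℂ))).mono_left inf_le_right
  have k1 := origin_type hc.1 t1 (hZ'.mono fun x hx => hx.1)
  have k2 := origin_type hc'.1 t2 (hZ'.mono fun x hx => hx.2.1)
  have hmap : map (T.map c') (map Prod.snd l) = map (T.map c) (map Prod.fst l) := by
    rw [Filter.map_map, Filter.map_map]
    exact Filter.map_congr (hZ'.mono fun x hx => hx.2.2.symm)
  rw [hmap] at k2
  have hs0 : Tendsto (Prod.fst : ℂ × ℂ → ℂ) (map (T.map c) (map Prod.fst l)) (𝓝 0) := by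
    have h0 : (0 : ℂ × ℂ) ∈ BD (2 * S.r c) (2 * S.r c) :=
      ⟨by simpa using S.pos c, by simpa using S.pos c⟩
    have h1 := ((S.sheets c hc.1).map_an h0).continuousAt.tendsto
    rw [map_zero' hc.1] at h1
    exact (continuous_fst.tendsto (0 : ℂ × ℂ)).comp (h1.mono_left t1)
  have hs1 : ∀ᶠ q in map (T.map c) (map Prod.fst l), q.1 ≠ 0 := by
    rw [Filter.map_map, eventually_map]
    exact hZ'.mono fun x hx => gen_ne hx.1
  exact hne (eq_of_type hc hc' hs0 hs1 k1 k2)

end Crest.Agent.R257.Sep_547
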