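import Mathlib
import Crest.Agent.R257.CDataF_250
import Crest.Agent.R257.Sep_547
import Crest.Agent.R257.Lab5_931

/-!
Row 257, part C, task C-DATA (helper250), file G: equal points of one chart (`twist`), types of the points of
the special fibre: `key` (points over a compact part of `XV U v`), `sepP` (separation of a chart from the
origin of another chart).
-/

set_option autoImplicit false
set_option linter.unusedSectionVars false

noncomputable section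

open Set Filter Topology MeasureTheory Metric
open scoped ENNReal

namespace Crest.Agent.R257.CDataG_250

open Crest.AlgGeometry.Germ Crest.Agent.R257.AJ387 Crest.Agent.R257.T387
open Crest.Agent.R257.Gr1_157 Crest.Agent.R257.HoB_843 Crest.Agent.R257.BP_258
open Crest.Agent.R257.CDataA_250 Crest.Agent.R257.CDataB_250 Crest.Agent.R257.CDataE_250
open Crest.Agent.R257.Wt_258 Crest.Agent.R257.Rsn_843 Crest.Agent.R257.Vt2_558
open Crest.Agent.R257.FrmE_547 (CB)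
open Crest.Agent.R257.FrmF_547 Crest.Agent.R257.Sep_547
open Crest.Agent.R257.Typ_201 (TV TL TN)

variable {f : (Fin 3 → ℂ) → ℂ} {T : TB f} {U : Tub T} {S : Sh T}

/-! ### equal points of one chart -/

/-- **equal points of one chart** -/
theorem twist {c : Ch T.m} (hc : T.Valid c) {j j' : Fin T.d} {p p' : ℂ × ℂ}
    (hp : p ∈ BD (2 * S.r c) (2 * S.r c)) (hg : T.Gen c p)
    (hg' : T.Gen c p') (h : wc S c j p = wc S c j' p') :
    ∃ ω1 ω2 : ℂ, ‖ω1‖ = 1 ∧ ‖ω2‖ = 1 ∧ p' = (ω1 * p.1, ω2 * p.2) ∧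
      ∀ q ∈ BD (2 * S.r c) (2 * S.r c), wc S c j q = wc S c j' (ω1 * q.1, ω2 * q.2) := by
  obtain ⟨ω, h1, h2, h3⟩ := mono_inv hc hg hg' (map_wc h)
  have main : ∃ ω1 ω2 : ℂ, ‖ω1‖ = 1 ∧ ‖ω2‖ = 1 ∧ p' = (ω1 * p.1, ω2 * p.2) ∧
      ∀ q : ℂ × ℂ, T.map c (ω1 * q.1, ω2 * q.2) = T.map c q := by
    cases c with
    | edge i k k' =>
      obtain ⟨h4, h5⟩ := h2
      have hω : ω ≠ 0 := fun h0 => by rw [h0, norm_zero] at h1; exact zero_ne_one h1
      refine ⟨ω⁻¹, ω, by rw [norm_inv, h1, inv_one], h1, Prod.ext h5 h3, fun q => ?_⟩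
      have e1 : ω⁻¹ * q.1 * (ω * q.2) = q.1 * q.2 := by field_simp
      have hk : k < k' := hc.2.2.1
      have e2 : T.M * k' = T.M * k + T.M * (k' - k) := by rw [← mul_add]; congr 1; omega
      have e3 : (ω⁻¹ * q.1) ^ (T.M * k) * (ω * q.2) ^ (T.M * k') =
          q.1 ^ (T.M * k) * q.2 ^ (T.M * k') := by
        rw [e2, pow_add, pow_add, mul_pow, mul_pow, mul_pow, inv_pow, h4]
        field_simp
      show (_, _) = (_, _)
      simp only [e1, e3]
    | leg i =>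
      obtain ⟨h4, h5⟩ := h2
      refine ⟨1, ω, norm_one, h1, Prod.ext (by rw [one_mul]; exact h5) h3, fun q => ?_⟩
      show (_, _) = (_, _)
      simp only [one_mul, mul_pow, h4]
    | vert i k w =>
      obtain ⟨h4, h5⟩ := h2
      refine ⟨1, 1, norm_one, norm_one, Prod.ext (by rw [one_mul]; exact h5) (by
        rw [h3, h4]), fun q => ?_⟩
      simp only [one_mul]
  obtain ⟨ω1, ω2, n1, n2, e1, e2⟩ := main
  refine ⟨ω1, ω2, n1, n2, e1, fun q hq => ?_⟩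
  have hS := S.sheets c hc
  have hnod : (T.Q (T.map c p)).roots.Nodup := by
    rw [hS.split p hp, roots_prodf]
    refine (Multiset.nodup_map_iff_inj_on Finset.univ.nodup).2 fun a _ b _ hab => ?_
    exact hS.inj p hp hg hab
  have hz : S.ζ c j p = S.ζ c j' p' := congrFun h 0
  have hR : ∀ q : ℂ × ℂ, AnalyticAt ℂ (fun q : ℂ × ℂ => (ω1 * q.1, ω2 * q.2)) q := fun q =>
    (analyticAt_const.mul analyticAt_fst).prod (analyticAt_const.mul analyticAt_snd)
  have h5 := sheets_rot hS (R := fun q : ℂ × ℂ => (ω1 * q.1, ω2 * q.2)) hR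
    (fun q hq => ⟨by simpa [norm_mul, n1] using hq.1, by simpa [norm_mul, n2] using hq.2⟩)
    (fun q => e2 q) hp hnod (j := j) (j' := j') (by rw [hz, e1]) q hq
  unfold wc
  rw [h5, e2]

/-- values on the axis at equal points -/
theorem γ_twist (hR : RetStmt U) {o : Bool} {c : Ch T.m} {v : Vtx} {γ : Fin T.d → ℂ → XV U v}
    (hγ : EndO U S o c v γ) (hc : T.Valid c) {j j' : Fin T.d} {p p' : ℂ × ℂ}
    (hp : p ∈ BD (2 * S.r c) (2 * S.r c)) (hg : T.Gen c p) (hg' : T.Gen c p')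
    (hB : cB o p ∈ PDc S c) (h : wc S c j p = wc S c j' p') :
    γ j (cB o p) = γ j' (cB o p') := by
  obtain ⟨ω1, ω2, n1, n2, e1, e2⟩ := twist hc hp hg hg' h
  have hr := S.pos c
  have hB' : cB o p' ∈ PDc S c := by
    have : ‖cB o p'‖ = ‖cB o p‖ := by
      rw [e1]; cases o
      · simp [cB, norm_mul, n1]
      · simp [cB, norm_mul, n2]
    exact ⟨by rw [this]; exact hB.1, by rw [this]; exact hB.2⟩
  have hω1 : ω1 ≠ 0 := fun h0 => by rw [h0, norm_zero] at n1; exact zero_ne_one n1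
  have hω2 : ω2 ≠ 0 := fun h0 => by rw [h0, norm_zero] at n2; exact zero_ne_one n2
  -- the factor of the coordinate `cA`
  obtain ⟨ωA, hA0, hAeq⟩ : ∃ ωA : ℂ, ωA ≠ 0 ∧ ∀ t : ℂ, ((ω1 * (mkp o t (cB o p)).1,
      ω2 * (mkp o t (cB o p)).2) : ℂ × ℂ) = mkp o (ωA * t) (cB o p') := by
    cases o
    · exact ⟨ω2, hω2, fun t => by simp [mkp, cB, e1]⟩
    · exact ⟨ω1, hω1, fun t => by simp [mkp, cB, e1]⟩
  symm
  refine hγ.lim_eq hB' fun O hO => ?_
  have t1 := (EndO.tend_mkp o (cB o p)).eventually (hγ.lim j _ hB O hO)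
  have t2 := (EndO.tend_mkp o (cB o p)).eventually (hγ.int j _ hB)
  have t3 : ∀ᶠ t in 𝓝[≠] (0 : ℂ), mkp o t (cB o p) ∈ BD (2 * S.r c) (2 * S.r c) := by
    have h4 : ∀ᶠ t in 𝓝 (0 : ℂ), ‖t‖ < 2 * S.r c :=
      (continuous_norm.tendsto' (0 : ℂ) 0 norm_zero).eventually (gt_mem_nhds (by linarith))
    filter_upwards [h4.filter_mono nhdsWithin_le_nhds] with t ht
    exact BD_of o (by rw [cA_mkp]; exact ht) (by rw [cB_mkp]; exact hB.2)
  have key : ∀ᶠ t in 𝓝[≠] (0 : ℂ), ∃ q, IsRet U v (wc S c j' (mkp o (ωA * t) (cB o p'))) q ∧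
      q ∈ O := by
    filter_upwards [t1, t2, t3, self_mem_nhdsWithin] with t h1 h2 h3 h4
    have h5 : cA o (mkp o t (cB o p)) ≠ 0 := by rw [cA_mkp]; exact h4
    obtain ⟨q, hq⟩ := exists_ret hR (h2 h5)
    refine ⟨q, ?_, h1 h5 q hq⟩
    rwa [e2 _ h3, hAeq] at hq
  -- change of variable `t ↦ t / ωA`
  have hmul : Tendsto (fun t : ℂ => ωA⁻¹ * t) (𝓝[≠] 0) (𝓝[≠] 0) := by
    rw [tendsto_nhdsWithin_iff]
    constructor
    · have h6 : Continuous fun t : ℂ => ωA⁻¹ * t := continuous_const.mul continuous_id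
      exact (h6.tendsto' 0 0 (mul_zero _)).mono_left nhdsWithin_le_nhds
    · filter_upwards [self_mem_nhdsWithin] with t ht
      exact mul_ne_zero (inv_ne_zero hA0) ht
  refine Eventually.frequently ((hmul.eventually key).mono fun t ht => ?_)
  rwa [mul_inv_cancel_left₀ hA0] at ht

/-! ### types -/

lemma psi_zero {v : Vtx} (hv : v ∈ Vs T) (S : Sh T) : v.2.eval 0 = 0 := by
  have h1 := S.ci_eq v hv 0 (mem_ball_self T.ρ_pos)
  rw [T.φ_zero] at h1
  exact h1.symm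

lemma lev_pos' {v : Vtx} (hv : v ∈ Vs T) (S : Sh T) : 0 < v.1 := T.lev_pos (S.kp_cons v hv).2.1

lemma yv_zero {v : Vtx} (hv : v ∈ Vs T) (S : Sh T) (w : ℂ) : yv T v (0, w) = 0 := by
  have h1 := lev_pos' hv S
  have h2 : T.M * v.1 ≠ 0 := (Nat.mul_pos T.M_pos h1).ne'
  simp only [yv, zero_pow T.M_pos.ne', psi_zero hv S, zero_pow h2, zero_mul, add_zero]

/-- the type of a point over a point of `XV U v` -/
lemma tv_of {v : Vtx} (hv : v ∈ Vs T) (S : Sh T) {l : Filter (ℂ × ℂ)} {w : ℂ} (hw : w ∉ sp T v)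
    (h0 : Tendsto (Prod.fst : ℂ × ℂ → ℂ) l (𝓝 0)) (h : Tendsto (wv T v) l (𝓝 w)) :
    TV T l (S.ci v) v.1 w := by
  refine ⟨(S.kp_cons v hv).2.1, ?_, fun h1 => hw ((Lab_931.mem_sp_iff S hv w).2 h1)⟩
  refine h.congr' ?_
  have h1 : ∀ᶠ q in l, q.1 ^ T.M ∈ ball (0 : ℂ) T.ρ := by
    have h2 : Tendsto (fun q : ℂ × ℂ => q.1 ^ T.M) l (𝓝 0) := by
      have := h0.pow T.M
      rwa [zero_pow T.M_pos.ne'] at this
    exact h2.eventually (ball_mem_nhds _ T.ρ_pos)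
  filter_upwards [h1] with q hq
  unfold wv Typ_201.wc
  rw [S.ci_eq v hv _ hq]

lemma vx_of_TV {v : Vtx} (hv : v ∈ Vs T) {l : Filter (ℂ × ℂ)} [l.NeBot]
    (h0 : Tendsto (Prod.fst : ℂ × ℂ → ℂ) l (𝓝 0)) (h1 : ∀ᶠ q in l, q.1 ≠ 0) {i : Fin T.m} {k : ℕ}
    {w w' : ℂ} (h : TV T l i k w) (h' : TV T l (S.ci v) v.1 w') : vx T i k = v := by
  obtain ⟨e1, e2⟩ := Typ_201.TV_TV h0 h1 h h'
  have h3 := (Vx_331.vx_eq_iff T i (S.ci v) k).2 e2
  rw [h3, e1, Vx_331.ci_vx S hv]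

/-- the type of a limit point of the special fibre, with its place -/
theorem place {c : Ch T.m} (hc : Ok S c) {p₀ : ℂ × ℂ} (hp₀ : p₀ ∈ CB (S.r c))
    {m : Filter (ℂ × ℂ)} (hm : m ≤ 𝓝 p₀) (hg : ∀ᶠ p in m, T.Gen c p) (h0 : T.map c p₀ = 0) :
    (∃ i k w₀, TV T (map (T.map c) m) i k w₀ ∧
      ((v1 T c = some (vx T i k) ∧ (IsV c ∨ p₀.2 ≠ 0)) ∨ (v2 T c = some (vx T i k) ∧ p₀.1 ≠ 0))) ∨
    (¬ IsV c ∧ OT c (map (T.map c) m)) := by
  have hr := S.pos c
  have c1 : Tendsto (fun p : ℂ × ℂ => p.1) m (𝓝 p₀.1) := (continuous_fst.tendsto p₀).mono_left hm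
  have c2 : Tendsto (fun p : ℂ × ℂ => p.2) m (𝓝 p₀.2) := (continuous_snd.tendsto p₀).mono_left hm
  have hz := (T.map_eq_zero hc.1 p₀).1 h0
  have hs : ∀ᶠ p in m, (T.map c p).1 ≠ 0 := hg.mono fun p hp => sc_ne hp
  by_cases hp0 : p₀ = 0
  · have ho := origin_type hc.1 (m := m) (by rw [hp0] at hm; exact hm) hg
    cases c with
    | vert i k w => exact Or.inl ⟨i, k, w, ho, Or.inl ⟨rfl, Or.inl trivial⟩⟩
    | leg i => exact Or.inr ⟨fun h => h, ho⟩
    | edge i k k' => exact Or.inr ⟨fun h => h, ho⟩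
  left
  cases c with
  | vert i k w =>
    refine ⟨i, k, w + p₀.2, ⟨hc.1.1, ?_, ?_⟩, Or.inl ⟨rfl, Or.inl trivial⟩⟩
    · rw [tendsto_map'_iff]
      refine (c2.const_add w).congr' ?_
      filter_upwards [hs] with p hp
      exact (twc_vert i k w hp).symm
    · refine S.far i k w hc.1 _ ?_
      rw [add_sub_cancel_left]
      have := hp₀.2
      linarith
  | leg i =>
    have h1 : p₀.1 = 0 := hz
    have h2 : p₀.2 ≠ 0 := fun h2 => hp0 (Prod.ext h1 h2)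
    refine ⟨i, T.top i, p₀.2 ^ T.M, ⟨T.top_mem i, ?_, ?_⟩, Or.inl ⟨rfl, Or.inr h2⟩⟩
    · rw [tendsto_map'_iff]
      refine (c2.pow T.M).congr' ?_
      filter_upwards [hs] with p hp
      exact (twc_leg i hp).symm
    · refine S.farl i _ h2 ?_
      have := hp₀.2
      linarith
  | edge i k k' =>
    have hkk : k < k' := hc.1.2.2.1
    by_cases h2 : p₀.2 = 0
    · have h1 : p₀.1 ≠ 0 := fun h1 => hp0 (Prod.ext h1 h2)
      refine ⟨i, k', (p₀.1 ^ (T.M * (k' - k)))⁻¹, ⟨hc.1.2.1, ?_, ?_⟩, Or.inr ⟨rfl, h1⟩⟩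
      · rw [tendsto_map'_iff]
        refine ((c1.pow _).inv₀ (pow_ne_zero _ h1)).congr' ?_
        filter_upwards [hs] with p hp
        exact (twc_edge2 i hkk.le hp).symm
      · refine (S.fare i k k' hc.1 _ h1 ?_).2
        have := hp₀.1
        linarith
    · obtain ⟨hk0, h1⟩ : k ≠ 0 ∧ p₀.1 = 0 := hz.resolve_right h2
      have hlev : k ∈ T.lev i := hc.1.1.resolve_left hk0
      refine ⟨i, k, p₀.2 ^ (T.M * (k' - k)), ⟨hlev, ?_, ?_⟩,
        Or.inl ⟨by simp [v1, hk0], Or.inr h2⟩⟩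
      · rw [tendsto_map'_iff]
        refine (c2.pow _).congr' ?_
        filter_upwards [hs] with p hp
        exact (twc_edge1 i hkk.le hp).symm
      · refine (S.fare i k k' hc.1 _ h2 ?_).1
        have := hp₀.2
        linarith

lemma OT_TV {c : Ch T.m} (hV : ¬ IsV c) {l : Filter (ℂ × ℂ)} [l.NeBot]
    (h0 : Tendsto (Prod.fst : ℂ × ℂ → ℂ) l (𝓝 0)) (h1 : ∀ᶠ q in l, q.1 ≠ 0) (h : OT c l)
    {i : Fin T.m} {k : ℕ} {w : ℂ} (h' : TV T l i k w) : False := by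
  cases c with
  | vert i k w => exact hV trivial
  | leg i => exact Typ_201.TV_TL h0 h1 h' h
  | edge i k k' => exact Typ_201.TV_TN h0 h1 h' h

lemma isCompact_CB (r : ℝ) : IsCompact (CB r) := by
  have h1 : CB r = closedBall (0 : ℂ) r ×ˢ closedBall (0 : ℂ) r := by
    ext p
    simp [CB]
  rw [h1]
  exact (isCompact_closedBall _ _).prod (isCompact_closedBall _ _)

lemma map_cont_CB {c : Ch T.m} (hc : T.Valid c) : ContinuousOn (T.map c) (CB (S.r c)) :=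
  fun p hp => ((S.sheets c hc).map_an (mem2 hp.1 hp.2)).continuousAt.continuousWithinAt

/-- **points over a compact part of `XV U v`** -/
theorem key {c : Ch T.m} (hc : Ok S c) {v : Vtx} (hv : v ∈ Vs T) {K : Set ℂ} (hK : IsCompact K)
    (hKs : ∀ w ∈ K, w ∉ sp T v) : ∃ δ > 0, ∀ p ∈ CB (S.r c), T.Gen c p → ‖(T.map c p).1‖ < δ →
    wv T v (T.map c p) ∈ K →
    (v1 T c = some v ∧ (IsV c ∨ δ ≤ ‖p.2‖)) ∨ (v2 T c = some v ∧ δ ≤ ‖p.1‖) := by
  by_contra hcon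
  push Not at hcon
  have h1 : ∀ n : ℕ, ∃ p ∈ CB (S.r c), T.Gen c p ∧ ‖(T.map c p).1‖ < 1 / ((n : ℝ) + 1) ∧
      wv T v (T.map c p) ∈ K ∧ ¬ ((v1 T c = some v ∧ (IsV c ∨ 1 / ((n : ℝ) + 1) ≤ ‖p.2‖)) ∨
        (v2 T c = some v ∧ 1 / ((n : ℝ) + 1) ≤ ‖p.1‖)) := by
    intro n
    obtain ⟨p, h2, h3, h4, h5, h6, h7⟩ := hcon (1 / ((n : ℝ) + 1)) (by positivity)
    refine ⟨p, h2, h3, h4, h5, ?_⟩
    rintro (⟨e1, e2⟩ | ⟨e1, e2⟩)
    · rcases e2 with e2 | e2
      · exact (h6 e1).1 e2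
      · exact absurd (h6 e1).2 (not_lt.2 e2)
    · exact absurd (h7 e1) (not_lt.2 e2)
  choose p hpC hpG hps hpK hpn using h1
  obtain ⟨⟨p₀, w₀⟩, hmem, φ, hφ, hlim⟩ := ((isCompact_CB (S.r c)).prod hK).tendsto_subseq
    (x := fun n => (p n, wv T v (T.map c (p n)))) fun n => ⟨hpC n, hpK n⟩
  obtain ⟨hp₀, hw₀⟩ := hmem
  have l1 : Tendsto (fun n => p (φ n)) atTop (𝓝 p₀) :=
    (continuous_fst.tendsto (p₀, w₀)).comp hlim
  have l2 : Tendsto (fun n => wv T v (T.map c (p (φ n)))) atTop (𝓝 w₀) :=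
    (continuous_snd.tendsto (p₀, w₀)).comp hlim
  have hε : Tendsto (fun n : ℕ => 1 / ((φ n : ℝ) + 1)) atTop (𝓝 0) :=
    tendsto_one_div_add_atTop_nhds_zero_nat.comp hφ.tendsto_atTop
  have ls : Tendsto (fun n => (T.map c (p (φ n))).1) atTop (𝓝 0) := by
    rw [tendsto_zero_iff_norm_tendsto_zero]
    exact squeeze_zero (fun n => norm_nonneg _) (fun n => (hps (φ n)).le) hε
  have lm : Tendsto (fun n => T.map c (p (φ n))) atTop (𝓝 (T.map c p₀)) :=
    ((S.sheets c hc.1).map_an (mem2 hp₀.1 hp₀.2)).continuousAt.tendsto.comp l1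
  have ly : Tendsto (fun n => T.map c (p (φ n))) atTop (𝓝 0) := by
    have h3 : ∀ n, T.map c (p (φ n)) = ((T.map c (p (φ n))).1,
        yv T v ((T.map c (p (φ n))).1, wv T v (T.map c (p (φ n))))) := fun n =>
      Prod.ext rfl (Tb_941.yv_wv (v := v) (sc_ne (hpG (φ n))) _).symm
    have h4 := (Tb_941.continuous_yv (T := T) v).continuousAt.tendsto.comp
      (ls.prodMk_nhds l2)
    rw [yv_zero hv S] at h4
    have h5 := ls.prodMk_nhds h4
    refine Tendsto.congr (fun n => (h3 n).symm) ?_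
    exact h5
  have hmap0 : T.map c p₀ = 0 := tendsto_nhds_unique lm ly
  set m : Filter (ℂ × ℂ) := map (fun n => p (φ n)) atTop with hm
  have hmle : m ≤ 𝓝 p₀ := l1
  have hgm : ∀ᶠ q in m, T.Gen c q := by
    rw [hm, eventually_map]
    exact Eventually.of_forall fun n => hpG _
  set l : Filter (ℂ × ℂ) := map (T.map c) m with hl
  have hlne : l.NeBot := by rw [hl, hm]; infer_instance
  have hl0 : Tendsto (Prod.fst : ℂ × ℂ → ℂ) l (𝓝 0) := by
    rw [hl, hm, tendsto_map'_iff, tendsto_map'_iff]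
    exact ls
  have hl1 : ∀ᶠ q in l, q.1 ≠ 0 := by
    rw [hl, eventually_map]
    exact hgm.mono fun q hq => sc_ne hq
  have htv : TV T l (S.ci v) v.1 w₀ := by
    refine tv_of hv S (hKs w₀ hw₀) hl0 ?_
    rw [hl, hm, tendsto_map'_iff, tendsto_map'_iff]
    exact l2
  rcases place hc hp₀ hmle hgm hmap0 with ⟨i, k, w, h3, h4⟩ | ⟨h3, h4⟩
  · have h5 := vx_of_TV hv hl0 hl1 h3 htv
    rw [h5] at h4
    rcases h4 with ⟨h6, h7⟩ | ⟨h6, h7⟩
    · have h8 : ∀ᶠ n in atTop, IsV c ∨ 1 / ((φ n : ℝ) + 1) ≤ ‖p (φ n) |>.2‖ := by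
        rcases h7 with h7 | h7
        · exact Eventually.of_forall fun _ => Or.inl h7
        · have h9 : Tendsto (fun n => ‖(p (φ n)).2‖) atTop (𝓝 ‖p₀.2‖) :=
            ((continuous_snd.norm).tendsto p₀).comp l1
          filter_upwards [hε.eventually_lt h9 (norm_pos_iff.2 h7)] with n hn
          exact Or.inr hn.le
      obtain ⟨n, hn⟩ := h8.exists
      exact hpn _ (Or.inl ⟨h6, hn⟩)
    · have h9 : Tendsto (fun n => ‖(p (φ n)).1‖) atTop (𝓝 ‖p₀.1‖) :=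
        ((continuous_fst.norm).tendsto p₀).comp l1
      obtain ⟨n, hn⟩ := (hε.eventually_lt h9 (norm_pos_iff.2 h7)).exists
      exact hpn _ (Or.inr ⟨h6, hn.le⟩)
  · exact OT_TV h3 hl0 hl1 h4 htv

/-- **a chart against the origin of another chart** -/
theorem sepP {c c' : Ch T.m} (hc : Ok S c) (hc' : Ok S c') (hne : c ≠ c') (hV : ¬ IsV c') :
    ∃ b > 0, ∀ p ∈ CB (S.r c), ∀ p' ∈ CB b, T.Gen c p → T.Gen c' p' →
      T.map c p ≠ T.map c' p' := by
  by_contra hcon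
  push Not at hcon
  have h1 : ∀ n : ℕ, ∃ p ∈ CB (S.r c), ∃ p' ∈ CB (1 / ((n : ℝ) + 1)), T.Gen c p ∧ T.Gen c' p' ∧
      T.map c p = T.map c' p' := fun n => hcon _ (by positivity)
  choose p hpC p' hpC' hpG hpG' he using h1
  obtain ⟨p₀, hp₀, φ, hφ, l1⟩ := (isCompact_CB (S.r c)).tendsto_subseq hpC
  have hε : Tendsto (fun n : ℕ => 1 / ((φ n : ℝ) + 1)) atTop (𝓝 0) :=
    tendsto_one_div_add_atTop_nhds_zero_nat.comp hφ.tendsto_atTop
  have l2 : Tendsto (fun n => p' (φ n)) atTop (𝓝 (0 : ℂ × ℂ)) := by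
    rw [tendsto_zero_iff_norm_tendsto_zero]
    refine squeeze_zero (fun n => norm_nonneg _) (fun n => ?_) hε
    rw [Prod.norm_def]
    exact max_le (hpC' _).1 (hpC' _).2
  have hr' := S.pos c'
  have hmap' : T.map c' (0 : ℂ × ℂ) = 0 := by
    rw [T.map_eq_zero hc'.1]
    cases c' with
    | edge i k k' => exact Or.inr rfl
    | leg i => exact rfl
    | vert i k w => exact rfl
  have lm' : Tendsto (fun n => T.map c' (p' (φ n))) atTop (𝓝 0) := by
    have h2 := ((S.sheets c' hc'.1).map_an (p := (0 : ℂ × ℂ)) (mem2 (by simpa using hr'.le)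
      (by simpa using hr'.le))).continuousAt.tendsto.comp l2
    rwa [hmap'] at h2
  have lm : Tendsto (fun n => T.map c (p (φ n))) atTop (𝓝 (T.map c p₀)) :=
    ((S.sheets c hc.1).map_an (mem2 hp₀.1 hp₀.2)).continuousAt.tendsto.comp l1
  have hee : ∀ n, T.map c (p (φ n)) = T.map c' (p' (φ n)) := fun n => he _
  have hmap0 : T.map c p₀ = 0 := tendsto_nhds_unique lm (lm'.congr fun n => (hee n).symm)
  set m : Filter (ℂ × ℂ) := map (fun n => p (φ n)) atTop with hm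
  set m' : Filter (ℂ × ℂ) := map (fun n => p' (φ n)) atTop with hm'
  have hmle : m ≤ 𝓝 p₀ := l1
  have hmle' : m' ≤ 𝓝 0 := l2
  have hgm : ∀ᶠ q in m, T.Gen c q := by
    rw [hm, eventually_map]; exact Eventually.of_forall fun n => hpG _
  have hgm' : ∀ᶠ q in m', T.Gen c' q := by
    rw [hm', eventually_map]; exact Eventually.of_forall fun n => hpG' _
  set l : Filter (ℂ × ℂ) := map (T.map c) m with hl
  have hll : map (T.map c') m' = l := by
    rw [hl, hm, hm', Filter.map_map, Filter.map_map]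
    exact Filter.map_congr (Eventually.of_forall fun n => (hee n).symm)
  have hlne : l.NeBot := by rw [hl, hm]; infer_instance
  have hl0 : Tendsto (Prod.fst : ℂ × ℂ → ℂ) l (𝓝 0) := by
    rw [← hll, hm', tendsto_map'_iff, tendsto_map'_iff]
    exact (continuous_fst.tendsto (0 : ℂ × ℂ)).comp lm'
  have hl1 : ∀ᶠ q in l, q.1 ≠ 0 := by
    rw [hl, eventually_map]
    exact hgm.mono fun q hq => sc_ne hq
  have hO' := origin_type hc'.1 hmle' hgm'
  rw [hll] at hO'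
  rcases place hc hp₀ hmle hgm hmap0 with ⟨i, k, w, h3, h4⟩ | ⟨h3, h4⟩
  · exact OT_TV hV hl0 hl1 hO' h3
  · exact hne (eq_of_type hc hc' hl0 hl1 h4 hO')

end Crest.Agent.R257.CDataG_250
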