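import Crest.Agent.R257.FrmE_547
import Crest.Agent.R257.Vx_331
import Crest.Agent.R257.Typ_201

/-!
R257 / FrmF_547 (task C-FRAME): the tie property of the labels of `BPDefs_258`.

* `sheets_rot` : a symmetry `R` of a chart permutes the sheets;
* `ii_eq`      : labels are determined by the retraction of one point;
* `lab_eq`     : labels of two sheets exchanged by a symmetry;
* `classify`   : the type (V, L, N) of a limit point of the special fibre;
* `tie`        : sheets of canonical charts with common points arbitrarily near `0` have labels in the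
                 same graph component.
-/

set_option autoImplicit false
set_option linter.unusedSectionVars false

open Polynomial Set Filter Topology Metric
open Crest.AlgGeometry.Germ Crest.Agent.R257.AJ387 Crest.Agent.R257.T387
open Crest.Agent.R257.FrmE_547 Crest.Agent.R257.Frm_547 Crest.Agent.R257.BP_258
open Crest.Agent.R257.Typ_201 (TV TL TN)

noncomputable section

namespace Crest.Agent.R257.FrmF_547

variable {f : (Fin 3 → ℂ) → ℂ} {T : TB f}

theorem inj_of_nodup {c : Ch T.m} {r : ℝ} {ζ : Fin T.d → ℂ × ℂ → ℂ} (hS : T.Sheets c r ζ)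
    {p : ℂ × ℂ} (hp : p ∈ BD r r) (hg : (T.Q (T.map c p)).roots.Nodup) :
    Function.Injective fun j => ζ j p := by
  have h1 : (∏ j, (Polynomial.X - C (ζ j p)) : ℂ[X]) =
      ((Finset.univ.val.map fun j => ζ j p).map fun a => Polynomial.X - C a).prod := by
    rw [Multiset.map_map]
    rfl
  rw [hS.split p hp, h1, roots_multiset_prod_X_sub_C] at hg
  intro a b hab
  exact Multiset.inj_on_of_nodup_map hg a (Finset.mem_univ a) b (Finset.mem_univ b) hab

/-- a symmetry of a chart permutes the sheets -/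
theorem sheets_rot {c : Ch T.m} {r : ℝ} {ζ : Fin T.d → ℂ × ℂ → ℂ} (hS : T.Sheets c r ζ)
    {R : ℂ × ℂ → ℂ × ℂ} (hR : ∀ q, AnalyticAt ℂ R q) (hRm : ∀ q ∈ BD r r, R q ∈ BD r r)
    (hmap : ∀ q, T.map c (R q) = T.map c q) {p : ℂ × ℂ} (hp : p ∈ BD r r)
    (hg : (T.Q (T.map c p)).roots.Nodup)
    {j j' : Fin T.d} (hj : ζ j p = ζ j' (R p)) : ∀ q ∈ BD r r, ζ j q = ζ j' (R q) := by
  have han : ∀ q ∈ BD r r, AnalyticAt ℂ (fun q => ζ j' (R q)) q := fun q hq =>
    AnalyticAt.comp (g := ζ j') (f := R) (hS.an j' _ (hRm q hq)) (hR q)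
  have h1 : ∀ᶠ q in 𝓝 p, ∏ l, (ζ j' (R q) - ζ l q) = 0 := by
    filter_upwards [(isOpen_BD r r).mem_nhds hp] with q hq
    have e1 : (T.Q (T.map c (R q))).eval (ζ j' (R q)) = 0 := hS.root j' (hRm q hq)
    rw [hmap, hS.split q hq, eval_prod] at e1
    simpa using e1
  obtain ⟨l, -, hl⟩ := prod_ev Finset.univ (fun l _ => (han p hp).sub (hS.an l p hp)) h1
  have h2 : l = j := by
    refine inj_of_nodup hS hp hg ?_
    show ζ l p = ζ j p
    rw [hj]
    exact (sub_eq_zero.1 hl.self_of_nhds).symm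
  subst h2
  have h3 : (fun q => ζ l q) =ᶠ[𝓝 p] fun q => ζ j' (R q) := by
    filter_upwards [hl] with q hq using (sub_eq_zero.1 hq).symm
  exact (show AnalyticOnNhd ℂ (fun q => ζ l q) (BD r r) from hS.an l).eqOn_of_preconnected_of_eventuallyEq
    han (convex_BD r r).isPreconnected hp h3

variable {U : Tub T}

/-- labels are determined by the retraction of one point -/
theorem ii_eq (hR : RetStmt U) {E E' : II U} (h : E.1.1 = E'.1.1) {x : Fin 3 → ℂ}
    (h1 : InT U E.1.1 x)
    (h2 : ∀ q, IsRet U E.1.1 x q → (q : ConnectedComponents (XV U E.1.1)) = E.2)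
    (h3 : ∀ q, IsRet U E'.1.1 x q → (q : ConnectedComponents (XV U E'.1.1)) = E'.2) : E = E' := by
  obtain ⟨⟨v, hv⟩, e⟩ := E
  obtain ⟨⟨v', hv'⟩, e'⟩ := E'
  simp only at h
  subst h
  obtain ⟨q, hq, -⟩ := (hR v hv).1 x h1
  have e1 := h2 q hq
  have e2 := h3 q hq
  simp only at e1 e2
  rw [← e1, ← e2]

variable {S : Sh T} (L : Lab U S)

theorem v1_of_some {c : Ch T.m} (hc : Ok S c) {j : Fin T.d} {E : II U} (h : L.e1 c j = some E) :
    v1 T c = some E.1.1 := by
  rw [← L.v_e1 c hc j, h]; rfl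

theorem v2_of_some {c : Ch T.m} (hc : Ok S c) {j : Fin T.d} {E : II U} (h : L.e2 c j = some E) :
    v2 T c = some E.1.1 := by
  rw [← L.v_e2 c hc j, h]; rfl

theorem e1_some {c : Ch T.m} (hc : Ok S c) (j : Fin T.d) {v : Vtx} (h : v1 T c = some v) :
    ∃ E : II U, L.e1 c j = some E ∧ E.1.1 = v := by
  have h1 := L.v_e1 c hc j
  rw [h, Option.map_eq_some_iff] at h1
  exact h1

theorem e2_some {c : Ch T.m} (hc : Ok S c) (j : Fin T.d) {v : Vtx} (h : v2 T c = some v) :
    ∃ E : II U, L.e2 c j = some E ∧ E.1.1 = v := by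
  have h1 := L.v_e2 c hc j
  rw [h, Option.map_eq_some_iff] at h1
  exact h1

theorem e1_none {c : Ch T.m} (hc : Ok S c) (j : Fin T.d) (h : v1 T c = none) :
    L.e1 c j = none := by
  have h1 := L.v_e1 c hc j
  rw [h, Option.map_eq_none_iff] at h1
  exact h1

theorem e2_none {c : Ch T.m} (hc : Ok S c) (j : Fin T.d) (h : v2 T c = none) :
    L.e2 c j = none := by
  have h1 := L.v_e2 c hc j
  rw [h, Option.map_eq_none_iff] at h1
  exact h1

/-- labels of two sheets exchanged by a symmetry -/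
theorem lab_eq (hR : RetStmt U) {c : Ch T.m} (hc : Ok S c) {j j' : Fin T.d} {R : ℂ × ℂ → ℂ × ℂ}
    (hn : ∀ q, ‖(R q).1‖ = ‖q.1‖ ∧ ‖(R q).2‖ = ‖q.2‖)
    (hw : ∀ q ∈ BD (2 * S.r c) (2 * S.r c), BP_258.wc S c j q = BP_258.wc S c j' (R q)) :
    L.e1 c j = L.e1 c j' ∧ L.e2 c j = L.e2 c j' := by
  have hr := S.pos c
  have hnr : ∀ a : ℝ, 0 ≤ a → ‖(a : ℂ)‖ = a := fun a ha => by
    rw [Complex.norm_real, Real.norm_eq_abs, abs_of_nonneg ha]
  constructor
  · cases hv : v1 T c with
    | none => rw [e1_none L hc j hv, e1_none L hc j' hv]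
    | some v =>
      obtain ⟨E, hE, hEv⟩ := e1_some L hc j hv
      obtain ⟨E', hE', hEv'⟩ := e1_some L hc j' hv
      obtain ⟨a, ha, h⟩ := L.near1 c hc j E hE (S.r c) hr
      obtain ⟨a', ha', h'⟩ := L.near1 c hc j' E' hE' (S.r c) hr
      set b : ℝ := min (min a a') (S.r c) / 2 with hb
      have hm : 0 < min (min a a') (S.r c) := lt_min (lt_min ha ha') hr
      have hb0 : 0 < b := by positivity
      have hba : b < a := by
        have := (min_le_left (min a a') (S.r c)).trans (min_le_left a a'); linarith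
      have hba' : b < a' := by
        have := (min_le_left (min a a') (S.r c)).trans (min_le_right a a'); linarith
      have hbr : b < S.r c := by
        have := min_le_right (min a a') (S.r c); linarith
      let p : ℂ × ℂ := ((b : ℂ), ((S.r c : ℝ) : ℂ))
      have hp1 : ‖p.1‖ = b := hnr b hb0.le
      have hp2 : ‖p.2‖ = S.r c := hnr _ hr.le
      obtain ⟨c1, c2⟩ := h p (by rw [hp1]; exact hb0) (by rw [hp1]; exact hba)
        (by rw [hp2]) (Or.inr (by rw [hp2]))
      obtain ⟨c1', c2'⟩ := h' (R p) (by rw [(hn p).1, hp1]; exact hb0)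
        (by rw [(hn p).1, hp1]; exact hba')
        (by rw [(hn p).2, hp2]) (Or.inr (by rw [(hn p).2, hp2]))
      have hx : BP_258.wc S c j p = BP_258.wc S c j' (R p) :=
        hw p ⟨by rw [hp1]; linarith, by rw [hp2]; linarith⟩
      rw [← hx] at c2'
      rw [hE, hE', ii_eq hR (hEv.trans hEv'.symm) c1 c2 c2']
  · cases hv : v2 T c with
    | none => rw [e2_none L hc j hv, e2_none L hc j' hv]
    | some v =>
      obtain ⟨E, hE, hEv⟩ := e2_some L hc j hv
      obtain ⟨E', hE', hEv'⟩ := e2_some L hc j' hv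
      obtain ⟨a, ha, h⟩ := L.near2 c hc j E hE (S.r c) hr
      obtain ⟨a', ha', h'⟩ := L.near2 c hc j' E' hE' (S.r c) hr
      set b : ℝ := min (min a a') (S.r c) / 2 with hb
      have hm : 0 < min (min a a') (S.r c) := lt_min (lt_min ha ha') hr
      have hb0 : 0 < b := by positivity
      have hba : b < a := by
        have := (min_le_left (min a a') (S.r c)).trans (min_le_left a a'); linarith
      have hba' : b < a' := by
        have := (min_le_left (min a a') (S.r c)).trans (min_le_right a a'); linarith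
      have hbr : b < S.r c := by
        have := min_le_right (min a a') (S.r c); linarith
      let p : ℂ × ℂ := (((S.r c : ℝ) : ℂ), (b : ℂ))
      have hp1 : ‖p.2‖ = b := hnr b hb0.le
      have hp2 : ‖p.1‖ = S.r c := hnr _ hr.le
      obtain ⟨c1, c2⟩ := h p (by rw [hp1]; exact hb0) (by rw [hp1]; exact hba)
        (by rw [hp2]) (by rw [hp2])
      obtain ⟨c1', c2'⟩ := h' (R p) (by rw [(hn p).2, hp1]; exact hb0)
        (by rw [(hn p).2, hp1]; exact hba')
        (by rw [(hn p).1, hp2]) (by rw [(hn p).1, hp2])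
      have hx : BP_258.wc S c j p = BP_258.wc S c j' (R p) :=
        hw p ⟨by rw [hp2]; linarith, by rw [hp1]; linarith⟩
      rw [← hx] at c2'
      rw [hE, hE', ii_eq hR (hEv.trans hEv'.symm) c1 c2 c2']

/-- two generic points of one edge or leg chart with the same image -/
theorem exists_rot {c : Ch T.m} (hc : T.Valid c) (hv : ¬ IsV c) {p p' : ℂ × ℂ}
    (h : T.map c p = T.map c p') (hs : (T.map c p).1 ≠ 0) :
    ∃ R : ℂ × ℂ → ℂ × ℂ, (∀ q, AnalyticAt ℂ R q) ∧
      (∀ q, ‖(R q).1‖ = ‖q.1‖ ∧ ‖(R q).2‖ = ‖q.2‖) ∧ (∀ q, T.map c (R q) = T.map c q) ∧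
      R p = p' := by
  cases c with
  | vert i k w => exact absurd trivial hv
  | leg i =>
    obtain ⟨a, b⟩ := p
    obtain ⟨a', b'⟩ := p'
    simp only [TB.map, Prod.mk.injEq] at h hs
    obtain ⟨rfl, h⟩ := h
    have h3 : a ^ (T.M * T.top i) ≠ 0 := pow_ne_zero _ hs
    have h4 : b ^ T.M = b' ^ T.M := by
      have := add_left_cancel h
      exact mul_left_cancel₀ h3 this
    by_cases h2 : b = 0
    · subst h2
      rw [zero_pow T.M_pos.ne'] at h4
      have h5 : b' = 0 := (pow_eq_zero_iff T.M_pos.ne').1 h4.symm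
      exact ⟨id, fun q => analyticAt_id, fun q => ⟨rfl, rfl⟩, fun q => rfl, by rw [h5]; rfl⟩
    have h5 : (b' / b) ^ T.M = 1 := by
      rw [div_pow, ← h4, div_self (pow_ne_zero _ h2)]
    refine ⟨fun q => (q.1, (b' / b) * q.2), fun q => analyticAt_fst.prod
      (analyticAt_const.mul analyticAt_snd), fun q => ⟨rfl, ?_⟩, fun q => ?_, ?_⟩
    · rw [norm_mul, Complex.norm_eq_one_of_pow_eq_one h5 T.M_pos.ne', one_mul]
    · simp only [TB.map]
      rw [mul_pow, h5, one_mul]
    · simp only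
      rw [div_mul_cancel₀ _ h2]
  | edge i k k' =>
    obtain ⟨a, b⟩ := p
    obtain ⟨a', b'⟩ := p'
    simp only [TB.map, Prod.mk.injEq] at h hs
    obtain ⟨hab, h⟩ := h
    have ha : a ≠ 0 := left_ne_zero_of_mul hs
    have h2 : b ≠ 0 := right_ne_zero_of_mul hs
    have hkk : k < k' := hc.2.2.1
    have hk' : T.M * k' = T.M * k + T.M * (k' - k) := by
      rw [← Nat.mul_add, Nat.add_sub_cancel' hkk.le]
    have hs' : a' * b' ≠ 0 := hab ▸ hs
    have hb' : b' ≠ 0 := right_ne_zero_of_mul hs'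
    have h4 : b ^ (T.M * (k' - k)) = b' ^ (T.M * (k' - k)) := by
      rw [← hab] at h
      have h5 := add_left_cancel h
      rw [hk', pow_add, pow_add, ← mul_assoc, ← mul_assoc, ← mul_pow, ← mul_pow, ← hab] at h5
      exact mul_left_cancel₀ (pow_ne_zero _ hs) h5
    have hn : T.M * (k' - k) ≠ 0 := Nat.mul_ne_zero T.M_pos.ne' (by omega)
    set ω : ℂ := b' / b with hω
    have h5 : ω ^ (T.M * (k' - k)) = 1 := by
      rw [hω, div_pow, ← h4, div_self (pow_ne_zero _ h2)]
    have hω0 : ω ≠ 0 := div_ne_zero hb' h2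
    have hωn : ‖ω‖ = 1 := Complex.norm_eq_one_of_pow_eq_one h5 hn
    refine ⟨fun q => (ω⁻¹ * q.1, ω * q.2), fun q => (analyticAt_const.mul analyticAt_fst).prod
      (analyticAt_const.mul analyticAt_snd), fun q => ⟨?_, ?_⟩, fun q => ?_, ?_⟩
    · rw [norm_mul, norm_inv, hωn, inv_one, one_mul]
    · rw [norm_mul, hωn, one_mul]
    · simp only [TB.map]
      have e1 : ω⁻¹ * q.1 * (ω * q.2) = q.1 * q.2 := by
        field_simp
      have e2 : (ω⁻¹ * q.1) ^ (T.M * k) * (ω * q.2) ^ (T.M * k') =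
          q.1 ^ (T.M * k) * q.2 ^ (T.M * k') := by
        have e3 : ω ^ (T.M * k) ≠ 0 := pow_ne_zero _ hω0
        have e4 : ω ^ (T.M * k') = ω ^ (T.M * k) := by
          rw [hk', pow_add, h5, mul_one]
        rw [mul_pow, mul_pow, e4, inv_pow]
        field_simp
      rw [e1, e2]
    · refine Prod.ext ?_ ?_
      · show ω⁻¹ * a = a'
        have e3 : a' = a * b / b' := by rw [hab]; field_simp
        rw [e3, hω]
        field_simp
      · show ω * b = b'
        rw [hω, div_mul_cancel₀ _ h2]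

/-- points of one edge or leg chart: same point of `W` ⟹ same labels -/
theorem lab_of_eq (hR : RetStmt U) {c : Ch T.m} (hc : Ok S c) (hv : ¬ IsV c) {p p' : ℂ × ℂ}
    (hp : p ∈ CB (S.r c)) (h : T.map c p = T.map c p') (hs : (T.map c p).1 ≠ 0)
    (hg : (T.Q (T.map c p)).roots.Nodup) {j j' : Fin T.d} (hj : S.ζ c j p = S.ζ c j' p') :
    L.e1 c j = L.e1 c j' ∧ L.e2 c j = L.e2 c j' := by
  obtain ⟨R, hRa, hRn, hRm, hRp⟩ := exists_rot hc.1 hv h hs
  have hz := sheets_rot (S.sheets c hc.1) hRa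
    (fun q hq => ⟨by rw [(hRn q).1]; exact hq.1, by rw [(hRn q).2]; exact hq.2⟩) hRm
    (CB_sub (S.pos c) hp) hg (j := j) (j' := j') (by rw [hRp]; exact hj)
  refine lab_eq L hR hc hRn fun q hq => ?_
  unfold BP_258.wc
  rw [hRm, hz q hq]

end Crest.Agent.R257.FrmF_547
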