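import Mathlib
import Crest.Agent.R257.FrmF_547
import Crest.Agent.R257.Tb1_941
import Crest.Agent.R257.WtD_258

/-!
R257 / LwD_89 (task 1138, C-LWD): labels are well defined, `LabWD L`, and persistence of
coincidences along rays (`pers`).
-/

set_option autoImplicit false
set_option linter.unusedSectionVars false

open Polynomial Set Filter Topology Metric
open Crest.AlgGeometry.Germ Crest.Agent.R257.AJ387 Crest.Agent.R257.T387
open Crest.Agent.R257.FrmE_547 Crest.Agent.R257.Frm_547 Crest.Agent.R257.BP_258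
open Crest.Agent.R257.FrmF_547 Crest.Agent.R257.Wt_258

noncomputable section

namespace Crest.Agent.R257.LwD_89

variable {f : (Fin 3 → ℂ) → ℂ} {T : TB f}

theorem gen_s {c : Ch T.m} {p : ℂ × ℂ} (h : T.Gen c p) : (T.map c p).1 ≠ 0 := by
  cases c with
  | edge i k k' => exact mul_ne_zero h.1 h.2
  | leg i => exact h.1
  | vert i k w => exact h

theorem nodup_of_inj {c : Ch T.m} {r : ℝ} {ζ : Fin T.d → ℂ × ℂ → ℂ} (hS : T.Sheets c r ζ)
    {p : ℂ × ℂ} (hp : p ∈ BD r r) (hi : Function.Injective fun j => ζ j p) :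
    (T.Q (T.map c p)).roots.Nodup := by
  have h1 : (∏ j, (Polynomial.X - C (ζ j p)) : ℂ[X]) =
      ((Finset.univ.val.map fun j => ζ j p).map fun a => Polynomial.X - C a).prod := by
    rw [Multiset.map_map]
    rfl
  rw [hS.split p hp, h1, roots_multiset_prod_X_sub_C]
  exact Finset.univ.nodup.map hi

/-- two generic points of one chart with the same image: a diagonal symmetry of the chart with
entries of absolute value one -/
theorem exists_diag {c : Ch T.m} (hc : T.Valid c) {p p' : ℂ × ℂ}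
    (h : T.map c p = T.map c p') (hg : T.Gen c p) :
    ∃ a b : ℂ, ‖a‖ = 1 ∧ ‖b‖ = 1 ∧ (∀ q : ℂ × ℂ, T.map c (a * q.1, b * q.2) = T.map c q) ∧
      (a * p.1, b * p.2) = p' ∧ (IsV c → a = 1 ∧ b = 1) := by
  cases c with
  | vert i k w =>
    obtain ⟨a, b⟩ := p
    obtain ⟨a', b'⟩ := p'
    simp only [TB.map, Prod.mk.injEq] at h
    obtain ⟨rfl, h⟩ := h
    have h3 : a ^ (T.M * k) ≠ 0 := pow_ne_zero _ hg
    have h4 : b = b' := add_left_cancel (mul_left_cancel₀ h3 (add_left_cancel h))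
    subst h4
    exact ⟨1, 1, norm_one, norm_one, fun q => by simp, by simp, fun _ => ⟨rfl, rfl⟩⟩
  | leg i =>
    obtain ⟨a, b⟩ := p
    obtain ⟨a', b'⟩ := p'
    simp only [TB.map, Prod.mk.injEq] at h
    obtain ⟨hs, h2⟩ := hg
    simp only at hs h2
    obtain ⟨rfl, h⟩ := h
    have h3 : a ^ (T.M * T.top i) ≠ 0 := pow_ne_zero _ hs
    have h4 : b ^ T.M = b' ^ T.M := by
      have := add_left_cancel h
      exact mul_left_cancel₀ h3 this
    have h5 : (b' / b) ^ T.M = 1 := by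
      rw [div_pow, ← h4, div_self (pow_ne_zero _ h2)]
    refine ⟨1, b' / b, norm_one, Complex.norm_eq_one_of_pow_eq_one h5 T.M_pos.ne', fun q => ?_, ?_,
      fun h => absurd h id⟩
    · simp only [TB.map, one_mul]
      rw [mul_pow, h5, one_mul]
    · rw [one_mul]
      simp only
      rw [div_mul_cancel₀ _ h2]
  | edge i k k' =>
    obtain ⟨a, b⟩ := p
    obtain ⟨a', b'⟩ := p'
    simp only [TB.map, Prod.mk.injEq] at h
    obtain ⟨hab, h⟩ := h
    obtain ⟨ha, h2⟩ := hg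
    simp only at ha h2
    have hs : a * b ≠ 0 := mul_ne_zero ha h2
    have hkk : k < k' := hc.2.2.1
    have hk' : T.M * k' = T.M * k + T.M * (k' - k) := by
      rw [← Nat.mul_add, Nat.add_sub_cancel' hkk.le]
    have hs' : a' * b' ≠ 0 := hab ▸ hs
    have hb' : b' ≠ 0 := right_ne_zero_of_mul hs'
    have h4 : b ^ (T.M * (k' - k)) = b' ^ (T.M * (k' - k)) := by
      rw [← hab] at h
      have h5 := add_left_cancel h
      rw [hk', pow_add, pow_add, ← mul_assoc, ← mul_assoc, ← mul_pow, ← mul_pow, ← hab] at h5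
      exact mul_left_cancel₀ (pow_ne_zero _ hs) h5
    have hn : T.M * (k' - k) ≠ 0 := Nat.mul_ne_zero T.M_pos.ne' (by omega)
    set ω : ℂ := b' / b with hω
    have h5 : ω ^ (T.M * (k' - k)) = 1 := by
      rw [hω, div_pow, ← h4, div_self (pow_ne_zero _ h2)]
    have hω0 : ω ≠ 0 := div_ne_zero hb' h2
    have hωn : ‖ω‖ = 1 := Complex.norm_eq_one_of_pow_eq_one h5 hn
    refine ⟨ω⁻¹, ω, by rw [norm_inv, hωn, inv_one], hωn, fun q => ?_, ?_, fun h => absurd h id⟩
    · simp only [TB.map]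
      have e1 : ω⁻¹ * q.1 * (ω * q.2) = q.1 * q.2 := by
        field_simp
      have e2 : (ω⁻¹ * q.1) ^ (T.M * k) * (ω * q.2) ^ (T.M * k') =
          q.1 ^ (T.M * k) * q.2 ^ (T.M * k') := by
        have e3 : ω ^ (T.M * k) ≠ 0 := pow_ne_zero _ hω0
        have e4 : ω ^ (T.M * k') = ω ^ (T.M * k) := by
          rw [hk', pow_add, h5, mul_one]
        rw [mul_pow, mul_pow, e4, inv_pow]
        field_simp
      rw [e1, e2]
    · refine Prod.ext ?_ ?_
      · show ω⁻¹ * a = a'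
        have e3 : a' = a * b / b' := by rw [hab]; field_simp
        rw [e3, hω]
        field_simp
      · show ω * b = b'
        rw [hω, div_mul_cancel₀ _ h2]

variable {S : Sh T}

theorem wc_map {c : Ch T.m} {j j' : Fin T.d} {p p' : ℂ × ℂ}
    (h : wc S c j p = wc S c j' p') : T.map c p = T.map c p' ∧ S.ζ c j p = S.ζ c j' p' := by
  unfold wc pt at h
  have h0 := congrFun h 0
  have h1 := congrFun h 1
  have h2 := congrFun h 2
  simp at h0 h1 h2
  exact ⟨Prod.ext h1 h2, h0⟩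

/-- the global form of a coincidence: a diagonal symmetry of the sheets -/
theorem exists_sym {c : Ch T.m} (hc : T.Valid c) {j j' : Fin T.d} {p p' : ℂ × ℂ}
    (hp : p ∈ BD (2 * S.r c) (2 * S.r c)) (hg : T.Gen c p) (h : wc S c j p = wc S c j' p') :
    ∃ a b : ℂ, ‖a‖ = 1 ∧ ‖b‖ = 1 ∧ (a * p.1, b * p.2) = p' ∧ (IsV c → a = 1 ∧ b = 1) ∧
      (∀ q : ℂ × ℂ, T.map c (a * q.1, b * q.2) = T.map c q) ∧
      ∀ q ∈ BD (2 * S.r c) (2 * S.r c), wc S c j q = wc S c j' (a * q.1, b * q.2) := by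
  obtain ⟨hm, hz⟩ := wc_map h
  obtain ⟨a, b, ha, hb, hR, hRp, hV⟩ := exists_diag hc hm hg
  refine ⟨a, b, ha, hb, hRp, hV, hR, ?_⟩
  have hn : ∀ q : ℂ × ℂ, ‖a * q.1‖ = ‖q.1‖ ∧ ‖b * q.2‖ = ‖q.2‖ := fun q => by
    rw [norm_mul, norm_mul, ha, hb, one_mul, one_mul]; exact ⟨rfl, rfl⟩
  have hS := S.sheets c hc
  have key := sheets_rot hS (R := fun q => (a * q.1, b * q.2))
    (fun q => (analyticAt_const.mul analyticAt_fst).prod (analyticAt_const.mul analyticAt_snd))
    (fun q hq => ⟨by rw [(hn q).1]; exact hq.1, by rw [(hn q).2]; exact hq.2⟩)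
    hR hp (nodup_of_inj hS hp (hS.inj p hp hg)) (j := j) (j' := j') (by
      show S.ζ c j p = S.ζ c j' (a * p.1, b * p.2)
      rw [hRp]; exact hz)
  intro q hq
  unfold wc
  rw [hR, key q hq]

theorem labWD {U : Tub T} (L : Lab U S) : LabWD L := by
  intro c hc j j' p p' hp hp' hg hg' h
  obtain ⟨a, b, ha, hb, -, -, -, hw⟩ := exists_sym hc.1 hp hg h
  exact lab_eq L (Tb_941.retStmt U) hc (R := fun q => (a * q.1, b * q.2))
    (fun q => by
      show ‖a * q.1‖ = ‖q.1‖ ∧ ‖b * q.2‖ = ‖q.2‖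
      rw [norm_mul, norm_mul, ha, hb, one_mul, one_mul]; exact ⟨rfl, rfl⟩) hw

/-- **persistence** of a coincidence along rays -/
theorem pers {c : Ch T.m} (hc : Ok S c) {j j' : Fin T.d} {p p' : ℂ × ℂ}
    (hp : p ∈ BD (2 * S.r c) (2 * S.r c)) (hg : T.Gen c p) (h : wc S c j p = wc S c j' p') :
    ‖p.1‖ = ‖p'.1‖ ∧ ‖p.2‖ = ‖p'.2‖ ∧ (∀ t : ℂ, ‖t‖ ≤ 1 → wc S c j (t • p) = wc S c j' (t • p')) ∧
      ∀ t : ℝ, 0 ≤ t → t ≤ 1 → wc S c j ((t : ℂ) • p) = wc S c j' ((t : ℂ) • p') := by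
  obtain ⟨a, b, ha, hb, rfl, -, -, hw⟩ := exists_sym hc.1 hp hg h
  have key : ∀ t : ℂ, ‖t‖ ≤ 1 →
      wc S c j (t • p) = wc S c j' (t • ((a * p.1, b * p.2) : ℂ × ℂ)) := by
    intro t ht
    have hq : t • p ∈ BD (2 * S.r c) (2 * S.r c) := by
      refine ⟨?_, ?_⟩
      · show ‖t * p.1‖ < _
        rw [norm_mul]
        exact (mul_le_of_le_one_left (norm_nonneg _) ht).trans_lt hp.1
      · show ‖t * p.2‖ < _
        rw [norm_mul]
        exact (mul_le_of_le_one_left (norm_nonneg _) ht).trans_lt hp.2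
    rw [hw _ hq]
    congr 1
    refine Prod.ext ?_ ?_
    · show a * (t * p.1) = t * (a * p.1)
      ring
    · show b * (t * p.2) = t * (b * p.2)
      ring
  refine ⟨by simp [ha], by simp [hb], key, fun t h0 h1 => key _ ?_⟩
  rw [Complex.norm_real, Real.norm_eq_abs, abs_of_nonneg h0]
  exact h1

end Crest.Agent.R257.LwD_89
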