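import Mathlib
import Crest.Agent.R257.CDataG_250
import Crest.Agent.R257.LwD_89
import Crest.Agent.R257.BPC_554

/-!
Row 257, part C, task C-DATA (helper250), file H: labels at the common points of the charts of a finite
set (`VV`), the ends.
-/

set_option autoImplicit false
set_option linter.unusedSectionVars false

noncomputable section

open Set Filter Topology MeasureTheory Metric
open scoped ENNReal

namespace Crest.Agent.R257.CDataH_250

open Crest.AlgGeometry.Germ Crest.Agent.R257.AJ387 Crest.Agent.R257.T387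
open Crest.Agent.R257.Gr1_157 Crest.Agent.R257.HoB_843 Crest.Agent.R257.BP_258
open Crest.Agent.R257.CDataA_250 Crest.Agent.R257.CDataB_250 Crest.Agent.R257.CDataE_250
open Crest.Agent.R257.CDataG_250
open Crest.Agent.R257.Wt_258 Crest.Agent.R257.Rsn_843 Crest.Agent.R257.Vt2_558
open Crest.Agent.R257.FrmE_547 (CB)
open Crest.Agent.R257.FrmF_547

variable {f : (Fin 3 → ℂ) → ℂ} {T : TB f} {U : Tub T} {S : Sh T}

/-- one parameter for a finite set of conditions -/
lemma fin_min {α : Type*} (s : Finset α) {P : α → ℝ → Prop}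
    (hm : ∀ a ε ε', 0 < ε' → ε' ≤ ε → P a ε → P a ε') (h : ∀ a ∈ s, ∃ ε > 0, P a ε) :
    ∃ ε > 0, ∀ a ∈ s, P a ε := by
  classical
  induction s using Finset.induction_on with
  | empty => exact ⟨1, one_pos, fun a ha => absurd ha (Finset.notMem_empty _)⟩
  | insert a s ha ih =>
    obtain ⟨ε, hε, h1⟩ := ih fun b hb => h b (Finset.mem_insert_of_mem hb)
    obtain ⟨ε', hε', h2⟩ := h a (Finset.mem_insert_self _ _)
    refine ⟨min ε ε', lt_min hε hε', fun b hb => ?_⟩
    rcases Finset.mem_insert.1 hb with rfl | hb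
    · exact hm _ _ _ (lt_min hε hε') (min_le_right _ _) h2
    · exact hm _ _ _ (lt_min hε hε') (min_le_left _ _) (h1 b hb)

/-! ### orientations and labels -/

lemma eO_some (L : Lab U S) {o : Bool} {c : Ch T.m} (hc : Ok S c) (j : Fin T.d) {v : Vtx}
    (h : vO T o c = some v) : ∃ E : II U, eO L o c j = some E ∧ E.1.1 = v := by
  cases o
  · exact e2_some L hc j h
  · exact e1_some L hc j h

lemma vO_inj {o o' : Bool} {c : Ch T.m} (hc : Ok S c) {v : Vtx} (h : vO T o c = some v)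
    (h' : vO T o' c = some v) : o = o' := by
  have key : ¬ (v1 T c = some v ∧ v2 T c = some v) := by
    rintro ⟨h1, h2⟩
    cases c with
    | edge i k k' =>
      have hk : k < k' := hc.1.2.2.1
      simp only [v1] at h1
      simp only [v2] at h2
      split_ifs at h1
      rw [← h1] at h2
      have := congrArg Prod.fst (Option.some.inj h2)
      simp only [vx] at this
      omega
    | leg i => simp [v2] at h2
    | vert i k w => simp [v2] at h2
  cases o <;> cases o'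
  · rfl
  · exact absurd ⟨h', h⟩ key
  · exact absurd ⟨h, h'⟩ key
  · rfl

lemma eO_inj (L : Lab U S) {o o' : Bool} {c : Ch T.m} (hc : Ok S c) {j : Fin T.d} {E : II U}
    (h : eO L o c j = some E) (h' : eO L o' c j = some E) : o = o' :=
  vO_inj hc (eO_vO L hc h) (eO_vO L hc h')

lemma eO_V (L : Lab U S) {o : Bool} {c : Ch T.m} (hc : Ok S c) (hV : IsV c) {j : Fin T.d}
    {E : II U} (h : eO L o c j = some E) : o = true := by
  cases o
  · have h1 := eO_vO L hc h
    cases c with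
    | vert i k w => simp [vO, v2] at h1
    | leg i => exact hV.elim
    | edge i k k' => exact hV.elim
  · rfl

/-- `|α| ≤ |s| / δ` -/
lemma cA_le {o : Bool} {c : Ch T.m} {v : Vtx} (hv : vO T o c = some v) {δ : ℝ} (hδ1 : δ ≤ 1)
    {p : ℂ × ℂ} (h : (o = true ∧ IsV c) ∨ δ ≤ ‖cB o p‖) : ‖cA o p‖ * δ ≤ ‖(T.map c p).1‖ := by
  rw [T.map_fst]
  cases c with
  | edge i k k' =>
    rcases h with h | h
    · exact h.2.elim
    · show _ ≤ ‖p.1 * p.2‖
      rw [norm_mul]
      cases o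
      · rw [mul_comm]
        exact mul_le_mul_of_nonneg_right h (norm_nonneg _)
      · exact mul_le_mul_of_nonneg_left h (norm_nonneg _)
  | leg i =>
    cases o
    · simp [vO, v2] at hv
    · exact (mul_le_of_le_one_right (norm_nonneg _) hδ1)
  | vert i k w =>
    cases o
    · simp [vO, v2] at hv
    · exact (mul_le_of_le_one_right (norm_nonneg _) hδ1)

lemma cA_pos {o : Bool} {c : Ch T.m} {v : Vtx} (hv : vO T o c = some v) {p : ℂ × ℂ}
    (h : T.Gen c p) : 0 < ‖cA o p‖ := by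
  rw [norm_pos_iff]
  cases c with
  | edge i k k' =>
    cases o
    · exact h.2
    · exact h.1
  | leg i =>
    cases o
    · simp [vO, v2] at hv
    · exact h.1
  | vert i k w =>
    cases o
    · simp [vO, v2] at hv
    · exact h

lemma cB_le {o : Bool} {r : ℝ} {p : ℂ × ℂ} (h : p ∈ CB r) : ‖cB o p‖ ≤ r := by
  cases o
  · exact h.1
  · exact h.2

lemma cA_le' {o : Bool} {r : ℝ} {p : ℂ × ℂ} (h : p ∈ CB r) : ‖cA o p‖ ≤ r := by
  cases o
  · exact h.2
  · exact h.1

/-- `near` in terms of `s` -/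
lemma nearS (L : Lab U S) {o : Bool} {c : Ch T.m} (hc : Ok S c) {j : Fin T.d} {E : II U}
    (h : eO L o c j = some E) {τ : ℝ} (hτ : 0 < τ) : ∃ ε > 0, ∀ p ∈ CB (S.r c), T.Gen c p →
    ‖(T.map c p).1‖ < ε → (o = true ∧ IsV c ∨ τ ≤ ‖cB o p‖) →
    InT U E.1.1 (wc S c j p) ∧ ∀ q, IsRet U E.1.1 (wc S c j p) q →
      (q : ConnectedComponents _) = E.2 := by
  have hv := eO_vO L hc h
  have hτ' : 0 < min τ 1 := lt_min hτ one_pos
  obtain ⟨a, ha, h1⟩ := near L hc h hτ
  refine ⟨min τ 1 * a, mul_pos hτ' ha, fun p hp hg hs h2 => h1 p (cA_pos hv hg) ?_ (cB_le hp) h2⟩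
  have h3 := cA_le (δ := min τ 1) hv (min_le_right _ _) (h2.imp_right fun h => (min_le_left _ _).trans h)
  have h4 : ‖cA o p‖ * min τ 1 < a * min τ 1 := by
    rw [mul_comm a]; exact h3.trans_lt hs
  exact lt_of_mul_lt_mul_right h4 hτ'.le

/-- **labels over a compact part of `XV U v`** -/
lemma key2 (L : Lab U S) {c : Ch T.m} (hc : Ok S c) {v : Vtx} (hv : v ∈ Vs T) {K : Set ℂ}
    (hK : IsCompact K) (hKs : ∀ w ∈ K, w ∉ sp T v) : ∃ ε > 0, ∀ p ∈ CB (S.r c), T.Gen c p →
    ‖(T.map c p).1‖ < ε → wv T v (T.map c p) ∈ K → ∀ j, ∃ o, ∃ E : II U,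
      eO L o c j = some E ∧ E.1.1 = v ∧ (o = true ∧ IsV c ∨ ε ≤ ‖cB o p‖) ∧
      InT U E.1.1 (wc S c j p) ∧ ∀ q, IsRet U E.1.1 (wc S c j p) q →
        (q : ConnectedComponents _) = E.2 := by
  obtain ⟨δ, hδ, hkey⟩ := key hc hv hK hKs
  obtain ⟨ε, hε, hmin⟩ := fin_min (Finset.univ : Finset (Bool × Fin T.d))
    (P := fun a ε => ∀ E, eO L a.1 c a.2 = some E → ∀ p ∈ CB (S.r c), T.Gen c p →
      ‖(T.map c p).1‖ < ε → (a.1 = true ∧ IsV c ∨ δ ≤ ‖cB a.1 p‖) →
      InT U E.1.1 (wc S c a.2 p) ∧ ∀ q, IsRet U E.1.1 (wc S c a.2 p) q →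
        (q : ConnectedComponents _) = E.2)
    (fun a ε ε' _ hle h E hE p hp hg hs => h E hE p hp hg (hs.trans_le hle)) (by
      intro a _
      cases hE : eO L a.1 c a.2 with
      | none => exact ⟨1, one_pos, fun E h => absurd h (by simp)⟩
      | some E =>
        obtain ⟨ε, hε, h⟩ := nearS L hc hE hδ
        refine ⟨ε, hε, fun E' hE' => ?_⟩
        obtain rfl := Option.some.inj hE'
        exact h)
  refine ⟨min δ ε, lt_min hδ hε, fun p hp hg hs hw j => ?_⟩
  have h1 := hkey p hp hg (hs.trans_le (min_le_left _ _)) hw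
  have h2 : ∃ o, vO T o c = some v ∧ (o = true ∧ IsV c ∨ δ ≤ ‖cB o p‖) := by
    rcases h1 with ⟨h3, h4⟩ | ⟨h3, h4⟩
    · exact ⟨true, h3, h4.imp_left fun h => ⟨rfl, h⟩⟩
    · exact ⟨false, h3, Or.inr h4⟩
  obtain ⟨o, h3, h4⟩ := h2
  obtain ⟨E, hE, hEv⟩ := eO_some L hc j h3
  obtain ⟨h5, h6⟩ := hmin (o, j) (Finset.mem_univ _) E hE p hp hg (hs.trans_le (min_le_right _ _)) h4
  exact ⟨o, E, hE, hEv, h4.imp_right fun h => (min_le_left _ _).trans h, h5, h6⟩

/-- the `w`-values of a vertex chart -/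
lemma vert_disc {c : Ch T.m} (hc : Ok S c) (hV : IsV c) : ∃ v ∈ Vs T, v1 T c = some v ∧
    ∃ K : Set ℂ, IsCompact K ∧ (∀ w ∈ K, w ∉ sp T v) ∧
      ∀ p ∈ CB (S.r c), T.Gen c p → wv T v (T.map c p) ∈ K := by
  cases c with
  | edge i k k' => exact hV.elim
  | leg i => exact hV.elim
  | vert i k w₀ =>
    obtain ⟨v, hv, h1, h2, h3⟩ := hc.2
    have hvx : vx T i k = v := by rw [h1, h2]; exact Vt1_558.vx_ci S hv
    refine ⟨v, hv, by rw [← hvx]; rfl, closedBall w₀ (S.r (.vert i k w₀)),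
      isCompact_closedBall _ _, fun w hw => ?_, fun p hp hg => ?_⟩
    · rw [mem_closedBall, dist_eq_norm] at hw
      have h4 := S.far i k w₀ hc.1 w (by have := S.pos (.vert i k w₀); linarith)
      intro h5
      apply h4
      rw [h1, h2]
      exact (Lab_931.mem_sp_iff S hv w).1 h5
    · have hg' : p.1 ≠ 0 := hg
      have h5 : wv T v (T.map (.vert i k w₀) p) = w₀ + p.2 := by
        have h6 : (T.map (.vert i k w₀) p) =
            (p.1, v.2.eval (p.1 ^ T.M) + p.1 ^ (T.M * v.1) * (w₀ + p.2)) := by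
          have h7 : T.φ i (p.1 ^ T.M) = v.2.eval (p.1 ^ T.M) := by
            rw [h1]
            refine S.ci_eq v hv _ ?_
            have h8 := ((S.sheets (.vert i k w₀) hc.1).mem p (mem2 hp.1 hp.2)).2
            rw [mem_ball_zero_iff, norm_pow]
            exact h8
          simp only [TB.map, h7]
          rw [h2]
        rw [h6]
        unfold wv
        simp only [add_sub_cancel_left]
        exact mul_div_cancel_left₀ _ (pow_ne_zero _ hg')
      rw [h5, mem_closedBall, dist_eq_norm, add_sub_cancel_left]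
      exact hp.2

/-- **labels at the common points with a vertex chart** -/
theorem VV (hR : RetStmt U) (L : Lab U S) {F : Finset (Ch T.m)} (hF : ∀ c ∈ F, Ok S c) :
    ∃ ε > 0, ∀ c ∈ F, ∀ c' ∈ F, IsV c' → ∀ j j' p p', p ∈ CB (S.r c) → T.Gen c p →
      ‖(T.map c p).1‖ < ε → p' ∈ CB (S.r c') → T.Gen c' p' → wc S c j p = wc S c' j' p' →
      ∃ o, ∃ E : II U, L.e1 c' j' = some E ∧ eO L o c j = some E ∧
        (o = true ∧ IsV c ∨ ε ≤ ‖cB o p‖) ∧ InT U E.1.1 (wc S c j p) ∧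
        ∀ q, IsRet U E.1.1 (wc S c j p) q → (q : ConnectedComponents _) = E.2 := by
  obtain ⟨ε, hε, h⟩ := fin_min (F ×ˢ F)
    (P := fun a ε => IsV a.2 → ∀ j j' p p', p ∈ CB (S.r a.1) → T.Gen a.1 p →
      ‖(T.map a.1 p).1‖ < ε → p' ∈ CB (S.r a.2) → T.Gen a.2 p' → wc S a.1 j p = wc S a.2 j' p' →
      ∃ o, ∃ E : II U, L.e1 a.2 j' = some E ∧ eO L o a.1 j = some E ∧
        (o = true ∧ IsV a.1 ∨ ε ≤ ‖cB o p‖) ∧ InT U E.1.1 (wc S a.1 j p) ∧
        ∀ q, IsRet U E.1.1 (wc S a.1 j p) q → (q : ConnectedComponents _) = E.2)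
    (fun a ε ε' _ hle h hV j j' p p' h1 h2 h3 h4 h5 h6 => by
      obtain ⟨o, E, a1, a2, a3, a4⟩ := h hV j j' p p' h1 h2 (h3.trans_le hle) h4 h5 h6
      exact ⟨o, E, a1, a2, a3.imp_right fun h => hle.trans h, a4⟩) (by
      rintro ⟨c, c'⟩ hcc
      rw [Finset.mem_product] at hcc
      obtain ⟨hc, hc'⟩ : Ok S c ∧ Ok S c' := ⟨hF _ hcc.1, hF _ hcc.2⟩
      by_cases hV : IsV c'
      · obtain ⟨v, hv, hv1, K, hK, hKs, hKw⟩ := vert_disc hc' hV
        obtain ⟨ε₁, hε₁, h1⟩ := key2 L hc hv hK hKs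
        obtain ⟨ε₂, hε₂, h2⟩ := fin_min (Finset.univ : Finset (Fin T.d))
          (P := fun j' ε => ∀ E, eO L true c' j' = some E → ∀ p ∈ CB (S.r c'), T.Gen c' p →
            ‖(T.map c' p).1‖ < ε → (true = true ∧ IsV c' ∨ (1 : ℝ) ≤ ‖cB true p‖) →
            InT U E.1.1 (wc S c' j' p) ∧ ∀ q, IsRet U E.1.1 (wc S c' j' p) q →
              (q : ConnectedComponents _) = E.2)
          (fun a ε ε' _ hle h E hE p hp hg hs => h E hE p hp hg (hs.trans_le hle)) (by
            intro j' _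
            obtain ⟨E, hE, -⟩ := eO_some L (o := true) hc' j' hv1
            obtain ⟨ε, hε, h⟩ := nearS L hc' hE one_pos
            refine ⟨ε, hε, fun E' hE' => ?_⟩
            rw [hE] at hE'
            obtain rfl := Option.some.inj hE'
            exact h)
        refine ⟨min ε₁ ε₂, lt_min hε₁ hε₂, fun _ j j' p p' hp hg hs hp' hg' he => ?_⟩
        have hm : T.map c p = T.map c' p' := map_wc he
        obtain ⟨o, E, a1, a2, a3, a4, a5⟩ := h1 p hp hg (hs.trans_le (min_le_left _ _))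
          (by rw [hm]; exact hKw p' hp' hg') j
        obtain ⟨E', hE', hEv'⟩ := eO_some L (o := true) hc' j' hv1
        obtain ⟨b1, b2⟩ := h2 j' (Finset.mem_univ _) E' hE' p' hp' hg'
          (by rw [← hm]; exact hs.trans_le (min_le_right _ _)) (Or.inl ⟨rfl, hV⟩)
        rw [← he] at b1 b2
        have hEE : E = E' := ii_eq hR (a2.trans hEv'.symm) a4 a5 b2
        rw [← hEE] at hE'
        exact ⟨o, E, hE', a1, a3.imp_right fun h => (min_le_left _ _).trans h, a4, a5⟩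
      · exact ⟨1, one_pos, fun h => absurd h hV⟩)
  exact ⟨ε, hε, fun c hc c' hc' => h (c, c') (Finset.mem_product.2 ⟨hc, hc'⟩)⟩

/-! ### the ends -/

open Classical in
variable (S) in
/-- the edges and legs -/
def Ends : Finset (Ch T.m) := (Vs T).image (ec S) ∪ Finset.univ.image Ch.leg

lemma ends_ok {c : Ch T.m} (h : c ∈ Ends S) : Ok S c := by
  classical
  rcases Finset.mem_union.1 h with h | h
  · obtain ⟨v, hv, rfl⟩ := Finset.mem_image.1 h
    exact Lab_931.ok_ec S hv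
  · obtain ⟨i, -, rfl⟩ := Finset.mem_image.1 h
    exact ⟨trivial, trivial⟩

lemma ends_nV {c : Ch T.m} (h : c ∈ Ends S) : ¬ IsV c := by
  classical
  rcases Finset.mem_union.1 h with h | h
  · obtain ⟨v, hv, rfl⟩ := Finset.mem_image.1 h
    exact fun h => h
  · obtain ⟨i, -, rfl⟩ := Finset.mem_image.1 h
    exact fun h => h

lemma mem_ends {c : Ch T.m} (hc : Ok S c) (hV : ¬ IsV c) : c ∈ Ends S := by
  classical
  cases c with
  | edge i k k' =>
    obtain ⟨v, hv, h1, h2, h3⟩ := hc.2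
    refine Finset.mem_union_left _ (Finset.mem_image.2 ⟨v, hv, ?_⟩)
    rw [h1, h2, h3]
    rfl
  | leg i => exact Finset.mem_union_right _ (Finset.mem_image.2 ⟨i, Finset.mem_univ _, rfl⟩)
  | vert i k w => exact (hV trivial).elim

/-- the charts and the small bidiscs of the other ends -/
lemma sep_ends {F : Finset (Ch T.m)} (hF : ∀ c ∈ F, Ok S c) : ∃ b > 0,
    (∀ c ∈ Ends S, b < S.r c) ∧ ∀ c ∈ F, ∀ c' ∈ Ends S, c ≠ c' → ∀ p ∈ CB (S.r c), ∀ p' ∈ CB b,
      T.Gen c p → T.Gen c' p' → T.map c p ≠ T.map c' p' := by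
  obtain ⟨b, hb, h⟩ := fin_min (F ×ˢ Ends S)
    (P := fun a b => a.1 ≠ a.2 → ∀ p ∈ CB (S.r a.1), ∀ p' ∈ CB b,
      T.Gen a.1 p → T.Gen a.2 p' → T.map a.1 p ≠ T.map a.2 p')
    (fun a ε ε' _ hle h hne p hp p' hp' => h hne p hp p' ⟨hp'.1.trans hle, hp'.2.trans hle⟩) (by
      rintro ⟨c, c'⟩ hcc
      rw [Finset.mem_product] at hcc
      by_cases hne : c = c'
      · exact ⟨1, one_pos, fun h => absurd hne h⟩
      · obtain ⟨b, hb, h⟩ := sepP (hF c hcc.1) (ends_ok hcc.2) hne (ends_nV hcc.2)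
        exact ⟨b, hb, fun _ => h⟩)
  obtain ⟨b', hb', h'⟩ := fin_min (Ends S) (P := fun c b => b < S.r c)
    (fun c ε ε' _ hle h => hle.trans_lt h) (fun c _ => ⟨S.r c / 2, half_pos (S.pos c),
      half_lt_self (S.pos c)⟩)
  refine ⟨min b b', lt_min hb hb', fun c hc => (min_le_right _ _).trans_lt (h' c hc),
    fun c hc c' hc' hne p hp p' hp' => h (c, c') (Finset.mem_product.2 ⟨hc, hc'⟩) hne p hp p'
      ⟨hp'.1.trans (min_le_left _ _), hp'.2.trans (min_le_left _ _)⟩⟩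

end Crest.Agent.R257.CDataH_250
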