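import Crest.Agent.R257.HoH_843
import Crest.Agent.R257.BPDefs_258
import Crest.Agent.R257.T6_387

/-!
# Row 257, task C-HOT (helper843): the Hörmander step in the language of `BPDefs_258`

`hoT` : `HoH_843.hoW` for the charts `wc S c j` of `W`, `c ∈ F` a finite set of charts covering a
neighbourhood of `0` in the `(s, y')`-plane, with the density `dn S c j`.
-/

set_option autoImplicit false
set_option linter.unusedSectionVars false

noncomputable section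

open Polynomial Set Filter Topology MeasureTheory
open scoped ENNReal

namespace Crest.Agent.R257.HoT_843

open Crest.AlgGeometry.Germ
open Crest.Agent.R257.OtK_331 Crest.Agent.R257.HoB_843 Crest.Agent.R257.HoE_843
open Crest.Agent.R257.HoF_843 Crest.Agent.R257.HoG_843 Crest.Agent.R257.HoH_843
open Crest.Agent.R257.Defs_219 Crest.Agent.R257.Fr_808
open Crest.Agent.R257.T387 Crest.Agent.R257.BP_258 Crest.Agent.R257.AJ387
open Polynomial (nthRootsFinset)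

variable {f : E3 → ℂ} {T : TB f}

lemma norm_N {s : ℂ} (h : ‖s‖ ^ T.M < T.ρ) : ‖s ^ T.N‖ < T.R := by
  have h1 := T.ρ_R (s ^ T.M) (by rwa [mem_ball_zero_iff, norm_pow])
  rwa [← pow_mul, mul_comm T.M] at h1

lemma base_mem {q : ℂ × ℂ} (h : ‖q.1‖ ^ T.M < T.ρ) (h2 : ‖q.2‖ < T.R) :
    (q.1 ^ T.N, q.2) ∈ AJ387.BD T.R T.R := ⟨norm_N h, h2⟩

lemma piW_pt (u : E3) : piW T.A T.N u = pt (u 0) (T.A (u 1 ^ T.N, u 2)) := rfl

lemma rot_eq (ξ : ℂ) (u : E3) : rot ξ u = ![u 0, ξ * u 1, u 2] := rfl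

lemma piW_rot {ξ : ℂ} (hξ : ξ ^ T.N = 1) (u : E3) : piW T.A T.N (rot ξ u) = piW T.A T.N u := by
  show ![u 0, (T.A ((ξ * u 1) ^ T.N, u 2)).1, (T.A ((ξ * u 1) ^ T.N, u 2)).2] = _
  rw [mul_pow, hξ, one_mul]
  rfl

/-- in the box, `f = 0` iff `z` is a root -/
lemma f_iff {q : ℂ × ℂ} (h : ‖q.1‖ ^ T.M < T.ρ) (h2 : ‖q.2‖ < T.R) {z : ℂ} (hz : ‖z‖ ≤ T.rz) :
    f (pt z (T.A (q.1 ^ T.N, q.2))) = 0 ↔ (T.Q q).eval z = 0 := by
  rw [T.f_eq _ (base_mem h h2) z hz]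
  have := T.v_ne _ (base_mem (T := T) h h2) z hz
  constructor
  · intro h3
    exact (mul_eq_zero.1 h3).resolve_left this
  · intro h3
    have h4 : (T.P (q.1 ^ T.N, q.2)).eval z = 0 := h3
    rw [h4, mul_zero]

variable (S : Sh T)

/-- open bidisc of a chart -/
lemma sh_mem {c : Ch T.m} (hc : T.Valid c) {p : ℂ × ℂ} (h1 : ‖p.1‖ < 2 * S.r c)
    (h2 : ‖p.2‖ < 2 * S.r c) : ‖(T.map c p).1‖ ^ T.M < T.ρ ∧ ‖(T.map c p).2‖ < T.R :=
  ⟨((S.sheets c hc).mem p ⟨h1, h2⟩).2, ((S.sheets c hc).mem p ⟨h1, h2⟩).1.2⟩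

lemma root {c : Ch T.m} (hc : T.Valid c) {p : ℂ × ℂ} (h1 : ‖p.1‖ < 2 * S.r c)
    (h2 : ‖p.2‖ < 2 * S.r c) (j : Fin T.d) : (T.Q (T.map c p)).eval (S.ζ c j p) = 0 := by
  rw [(S.sheets c hc).split p ⟨h1, h2⟩, eval_prod]
  exact Finset.prod_eq_zero (Finset.mem_univ j) (by simp)

lemma root_iff {c : Ch T.m} (hc : T.Valid c) {p : ℂ × ℂ} (h1 : ‖p.1‖ < 2 * S.r c)
    (h2 : ‖p.2‖ < 2 * S.r c) {z : ℂ} : (T.Q (T.map c p)).eval z = 0 ↔ ∃ j, z = S.ζ c j p := by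
  constructor
  · intro h
    rw [(S.sheets c hc).split p ⟨h1, h2⟩, eval_prod] at h
    obtain ⟨j, -, hj⟩ := Finset.prod_eq_zero_iff.1 h
    refine ⟨j, ?_⟩
    simpa [sub_eq_zero] using hj
  · rintro ⟨j, rfl⟩
    exact root S hc h1 h2 j

lemma norm_z {c : Ch T.m} (hc : T.Valid c) {p : ℂ × ℂ} (h1 : ‖p.1‖ < 2 * S.r c)
    (h2 : ‖p.2‖ < 2 * S.r c) (j : Fin T.d) : ‖S.ζ c j p‖ < T.rz := by
  obtain ⟨a1, a2⟩ := sh_mem S hc h1 h2
  exact T.roots_in _ (base_mem a1 a2) _ (root S hc h1 h2 j)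

lemma an_wc {c : Ch T.m} (hc : T.Valid c) {p : ℂ × ℂ} (h1 : ‖p.1‖ < 2 * S.r c)
    (h2 : ‖p.2‖ < 2 * S.r c) (j : Fin T.d) : AnalyticAt ℂ (wc S c j) p := by
  have hm := T.map_an c (sh_mem S hc h1 h2).1
  refine AnalyticAt.pi fun i => ?_
  fin_cases i
  · exact (S.sheets c hc).an j p ⟨h1, h2⟩
  · exact AnalyticAt.comp (g := fun x : ℂ × ℂ => x.1) (f := T.map c) analyticAt_fst hm
  · exact AnalyticAt.comp (g := fun x : ℂ × ℂ => x.2) (f := T.map c) analyticAt_snd hm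

/-- `T.th = piW ∘ wc` -/
lemma th_eq (c : Ch T.m) (j : Fin T.d) (p : ℂ × ℂ) :
    T.th c (S.ζ c j) p = piW T.A T.N (wc S c j p) := rfl

lemma f_th {c : Ch T.m} (hc : T.Valid c) {p : ℂ × ℂ} (h1 : ‖p.1‖ < 2 * S.r c)
    (h2 : ‖p.2‖ < 2 * S.r c) (j : Fin T.d) : f (piW T.A T.N (wc S c j p)) = 0 := by
  obtain ⟨a1, a2⟩ := sh_mem S hc h1 h2
  exact (f_iff a1 a2 (norm_z S hc h1 h2 j).le).2 (root S hc h1 h2 j)

lemma an_f {c : Ch T.m} (hc : T.Valid c) {p : ℂ × ℂ} (h1 : ‖p.1‖ < 2 * S.r c)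
    (h2 : ‖p.2‖ < 2 * S.r c) (j : Fin T.d) : AnalyticAt ℂ f (piW T.A T.N (wc S c j p)) := by
  obtain ⟨a1, a2⟩ := sh_mem S hc h1 h2
  exact T.f_an _ (base_mem a1 a2) _ (norm_z S hc h1 h2 j).le

/-- `∂_0 f` in the box -/
lemma cd_f {q : ℂ × ℂ} (h : ‖q.1‖ ^ T.M < T.ρ) (h2 : ‖q.2‖ < T.R) {z : ℂ} (hz : ‖z‖ < T.rz)
    (h0 : (T.Q q).eval z = 0) : coordDeriv f 0 (pt z (T.A (q.1 ^ T.N, q.2))) =
      T.v ((q.1 ^ T.N, q.2), z) * (T.Q q).derivative.eval z := by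
  set b : ℂ × ℂ := (q.1 ^ T.N, q.2) with hb
  have hbm : b ∈ AJ387.BD T.R T.R := base_mem h h2
  have hL : HasFDerivAt (fun t : ℂ => pt t (T.A b))
      ((ContinuousLinearMap.id ℂ ℂ).smulRight (Pi.single 0 1 : E3)) z := by
    have h3 : (fun t : ℂ => pt t (T.A b)) = fun t => t • (Pi.single 0 1 : E3) + pt 0 (T.A b) := by
      funext t i
      fin_cases i <;> simp [pt]
    rw [h3]
    exact ((ContinuousLinearMap.id ℂ ℂ).smulRight (Pi.single 0 1 : E3)).hasFDerivAt.add_const _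
  have hfa := T.f_an b hbm z hz.le
  have e1 : HasFDerivAt (fun t : ℂ => f (pt t (T.A b)))
      ((fderiv ℂ f (pt z (T.A b))).comp ((ContinuousLinearMap.id ℂ ℂ).smulRight
        (Pi.single 0 1 : E3))) z :=
    HasFDerivAt.comp z (g := f) hfa.differentiableAt.hasFDerivAt hL
  have e1' : HasDerivAt (fun t : ℂ => f (pt t (T.A b))) (coordDeriv f 0 (pt z (T.A b))) z := by
    have := e1.hasDerivAt
    simpa [coordDeriv] using this
  have hva := T.v_an b hbm z hz.le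
  have e2 : HasDerivAt (fun t : ℂ => T.v (b, t) * (T.P b).eval t)
      (deriv (fun t : ℂ => T.v (b, t)) z * (T.P b).eval z +
        T.v (b, z) * (T.P b).derivative.eval z) z := by
    have h3 : DifferentiableAt ℂ (fun t : ℂ => T.v (b, t)) z :=
      hva.differentiableAt.comp z (by fun_prop)
    exact h3.hasDerivAt.mul ((T.P b).hasDerivAt z)
  have e3 : (fun t : ℂ => f (pt t (T.A b))) =ᶠ[𝓝 z] fun t : ℂ => T.v (b, t) * (T.P b).eval t := by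
    filter_upwards [continuous_norm.continuousAt.eventually_lt continuousAt_const hz] with t ht
    exact T.f_eq b hbm t (le_of_lt ht)
  have e4 := e1'.unique (e2.congr_of_eventuallyEq e3)
  have h0' : (T.P b).eval z = 0 := h0
  rw [e4, h0', mul_zero, zero_add]
  rfl

lemma cd_ne {c : Ch T.m} (hc : T.Valid c) {p : ℂ × ℂ} (h1 : ‖p.1‖ < 2 * S.r c)
    (h2 : ‖p.2‖ < 2 * S.r c) (hg : T.Gen c p) (j : Fin T.d) :
    coordDeriv f 0 (piW T.A T.N (wc S c j p)) ≠ 0 := by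
  obtain ⟨a1, a2⟩ := sh_mem S hc h1 h2
  have hz := norm_z S hc h1 h2 j
  have h3 := cd_f (T := T) a1 a2 hz (root S hc h1 h2 j)
  have h4 : piW T.A T.N (wc S c j p) = pt (S.ζ c j p) (T.A ((T.map c p).1 ^ T.N, (T.map c p).2)) :=
    rfl
  rw [h4, h3]
  refine mul_ne_zero (T.v_ne _ (base_mem a1 a2) _ hz.le) ?_
  rw [(S.sheets c hc).split p ⟨h1, h2⟩, T387.eval_deriv_prod (fun l => S.ζ c l p) j]
  refine Finset.prod_ne_zero_iff.2 fun l hl => ?_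
  rw [sub_ne_zero]
  intro h5
  exact (Finset.ne_of_mem_erase hl) ((S.sheets c hc).inj p ⟨h1, h2⟩ hg h5).symm

lemma gen_iff' {c : Ch T.m} (hc : T.Valid c) {p : ℂ × ℂ}
    (h : (T.map c p).1 ≠ 0) (h2 : ∀ i, (T.map c p).2 ≠ T.φ i ((T.map c p).1 ^ T.M)) :
    T.Gen c p := by
  cases c with
  | edge i k k' => exact ⟨left_ne_zero_of_mul h, right_ne_zero_of_mul h⟩
  | leg i =>
    refine ⟨h, fun h3 => h2 i ?_⟩
    show T.φ i (p.1 ^ T.M) + p.1 ^ (T.M * T.top i) * p.2 ^ T.M = T.φ i (p.1 ^ T.M)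
    rw [h3, zero_pow T.M_pos.ne']
    simp
  | vert i k w₀ => exact h

lemma norm_xi {ξ : ℂ} (hξ : ξ ^ T.N = 1) : ‖ξ‖ = 1 := norm_root T.N_pos hξ

/-- the density in the charts of `W` -/
lemma den_wc {c : Ch T.m} (hc : T.Valid c) {p : ℂ × ℂ} (h1 : ‖p.1‖ < 2 * S.r c)
    (h2 : ‖p.2‖ < 2 * S.r c) (j : Fin T.d) :
    den2 f (fun q => piW T.A T.N (wc S c j q)) p = cA T.A T.N * dn S c j p ^ 2 := by
  have hd := (an_wc S hc h1 h2 j).differentiableAt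
  have hfd := (an_f S hc h1 h2 j).differentiableAt
  rw [den_piW hd hfd]
  congr 1
  have hJ : jac2 (wc S c j) p = Jm T c p := by
    have hm := (T.map_an c (sh_mem S hc h1 h2).1).differentiableAt
    have e1 : ∀ w, fderiv ℂ (wc S c j) p w 1 = fderiv ℂ (fun q => (T.map c q).1) p w := by
      intro w
      have h3 : HasFDerivAt (fun q => wc S c j q 1)
          ((ContinuousLinearMap.proj (R := ℂ) (φ := fun _ : Fin 3 => ℂ) 1).comp
            (fderiv ℂ (wc S c j) p)) p := (hasFDerivAt_pi'.1 hd.hasFDerivAt) 1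
      have h4 : (fun q => wc S c j q 1) = fun q => (T.map c q).1 := rfl
      rw [← h4, h3.fderiv]
      rfl
    have e2 : ∀ w, fderiv ℂ (wc S c j) p w 2 = fderiv ℂ (fun q => (T.map c q).2) p w := by
      intro w
      have h3 : HasFDerivAt (fun q => wc S c j q 2)
          ((ContinuousLinearMap.proj (R := ℂ) (φ := fun _ : Fin 3 => ℂ) 2).comp
            (fderiv ℂ (wc S c j) p)) p := (hasFDerivAt_pi'.1 hd.hasFDerivAt) 2
      have h4 : (fun q => wc S c j q 2) = fun q => (T.map c q).2 := rfl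
      rw [← h4, h3.fderiv]
      rfl
    unfold jac2 Jm
    rw [e1, e2, e1, e2]
    ring
  unfold den2 dn
  rw [cd_hW hfd, hJ]
  have h5 : coordDeriv f 0 (T.th c (S.ζ c j) p) = coordDeriv f 0 (piW T.A T.N (wc S c j p)) := rfl
  have h6 : wc S c j p 1 = (T.map c p).1 := rfl
  rw [h5, h6, div_pow, mul_pow]
  ring

/-- number of preimages -/
def mlt (T : TB f) : ℕ := T.M * (Finset.univ.sup T.top) + 1

lemma encard_le_of {n : ℕ} {t : ℂ} {A : Set (ℂ × ℂ)} (hn : 0 < n) (h : ∀ p ∈ A, p.2 ^ n = t)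
    (hi : ∀ p ∈ A, ∀ q ∈ A, p.2 = q.2 → p = q) : A.encard ≤ n := by
  have h1 : A.encard = (Prod.snd '' A).encard := by
    refine (Set.InjOn.encard_image ?_).symm
    intro p hp q hq hpq
    exact hi p hp q hq hpq
  rw [h1]
  have h2 : Prod.snd '' A ⊆ ((Polynomial.nthRoots n t).toFinset : Set ℂ) := by
    rintro _ ⟨p, hp, rfl⟩
    simp only [Finset.mem_coe, Multiset.mem_toFinset]
    rw [mem_nthRoots hn]
    exact h p hp
  refine (Set.encard_le_encard h2).trans ?_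
  rw [Set.encard_coe_eq_coe_finsetCard]
  have h3 : (Polynomial.nthRoots n t).toFinset.card ≤ n :=
    (Multiset.toFinset_card_le _).trans (card_nthRoots n t)
  exact_mod_cast h3

lemma mult_map {c : Ch T.m} (hc : T.Valid c) (x : ℂ × ℂ) :
    {p | T.Gen c p ∧ T.map c p = x}.encard ≤ mlt T := by
  cases c with
  | edge i k k' =>
    have hk : k < k' := hc.2.2.1
    have hk' : k' ≤ Finset.univ.sup T.top :=
      (T.le_top hc.2.1).trans (Finset.le_sup (Finset.mem_univ i))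
    have hn : 0 < T.M * (k' - k) := Nat.mul_pos T.M_pos (by omega)
    refine (encard_le_of (n := T.M * (k' - k))
      (t := (x.2 - T.φ i (x.1 ^ T.M)) / x.1 ^ (T.M * k)) hn ?_ ?_).trans ?_
    · rintro ⟨α, β⟩ ⟨⟨h1, h2⟩, h3⟩
      have h1' : α ≠ 0 := h1
      have h2' : β ≠ 0 := h2
      have e1 : α * β = x.1 := congrArg Prod.fst h3
      have e2 : T.φ i ((α * β) ^ T.M) + α ^ (T.M * k) * β ^ (T.M * k') = x.2 :=
        congrArg Prod.snd h3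
      rw [← e1, ← e2]
      show β ^ (T.M * (k' - k)) = _
      rw [add_sub_cancel_left, mul_pow]
      have h4 : T.M * k' = T.M * (k' - k) + T.M * k := by
        rw [← Nat.mul_add, Nat.sub_add_cancel hk.le]
      rw [h4, pow_add]
      field_simp
    · rintro ⟨α, β⟩ ⟨⟨h1, h2⟩, h3⟩ ⟨α', β'⟩ ⟨⟨h1', h2'⟩, h3'⟩ h
      have e1 : α * β = x.1 := congrArg Prod.fst h3
      have e1' : α' * β' = x.1 := congrArg Prod.fst h3'
      have h' : β = β' := h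
      subst h'
      have h2'' : β ≠ 0 := h2
      have : α = α' := mul_right_cancel₀ h2'' (e1.trans e1'.symm)
      rw [this]
    · have : T.M * (k' - k) ≤ mlt T := by
        unfold mlt
        exact (Nat.mul_le_mul_left _ ((Nat.sub_le _ _).trans hk')).trans (Nat.le_succ _)
      exact_mod_cast this
  | leg i =>
    refine (encard_le_of (n := T.M)
      (t := (x.2 - T.φ i (x.1 ^ T.M)) / x.1 ^ (T.M * T.top i)) T.M_pos ?_ ?_).trans ?_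
    · rintro ⟨α, β⟩ ⟨⟨h1, h2⟩, h3⟩
      have h1' : α ≠ 0 := h1
      have e1 : α = x.1 := congrArg Prod.fst h3
      have e2 : T.φ i (α ^ T.M) + α ^ (T.M * T.top i) * β ^ T.M = x.2 :=
        congrArg Prod.snd h3
      rw [← e1, ← e2]
      show β ^ T.M = _
      rw [add_sub_cancel_left]
      field_simp
    · rintro ⟨α, β⟩ ⟨⟨h1, h2⟩, h3⟩ ⟨α', β'⟩ ⟨⟨h1', h2'⟩, h3'⟩ h
      have e1 : α = x.1 := congrArg Prod.fst h3
      have e1' : α' = x.1 := congrArg Prod.fst h3'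
      have h' : β = β' := h
      rw [e1, e1', h']
    · have h1 : 1 ≤ T.top i := T.lev_pos (T.top_mem i)
      have h2 : T.top i ≤ Finset.univ.sup T.top := Finset.le_sup (Finset.mem_univ i)
      have : T.M ≤ mlt T := by
        unfold mlt
        exact (Nat.le_mul_of_pos_right _ (by omega)).trans (Nat.le_succ _)
      exact_mod_cast this
  | vert i k w₀ =>
    have h1 : {p : ℂ × ℂ | T.Gen (.vert i k w₀) p ∧ T.map (.vert i k w₀) p = x}.encard ≤ 1 := by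
      rw [Set.encard_le_one_iff]
      rintro ⟨α, β⟩ ⟨α', β'⟩ ⟨h1, h3⟩ ⟨h1', h3'⟩
      have h1n : α ≠ 0 := h1
      have e1 : α = x.1 := congrArg Prod.fst h3
      have e1' : α' = x.1 := congrArg Prod.fst h3'
      have e2 : T.φ i (α ^ T.M) + α ^ (T.M * k) * (w₀ + β) = x.2 := congrArg Prod.snd h3
      have e2' : T.φ i (α' ^ T.M) + α' ^ (T.M * k) * (w₀ + β') = x.2 := congrArg Prod.snd h3'
      have h4 : α = α' := e1.trans e1'.symm
      subst h4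
      have h5 : α ^ (T.M * k) * (w₀ + β) = α ^ (T.M * k) * (w₀ + β') := by
        linear_combination e2 - e2'
      have h6 := mul_left_cancel₀ (pow_ne_zero _ h1n) h5
      have h7 : β = β' := by linear_combination h6
      rw [h7]
    refine h1.trans ?_
    have : 1 ≤ mlt T := Nat.le_add_left _ _
    exact_mod_cast this

/-- the small sheet points of a chart -/
def Ogs (c : Ch T.m) (ρ₀ : ℝ) : Set (ℂ × ℂ) := {p | p ∈ Og (S := S) c ρ₀ ∧ ‖(T.map c p).2‖ < ρ₀}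

lemma Og_lt {c : Ch T.m} {ρ₀ : ℝ} {p : ℂ × ℂ} (hp : p ∈ Og (S := S) c ρ₀) :
    ‖p.1‖ < 2 * S.r c ∧ ‖p.2‖ < 2 * S.r c := by
  have := S.pos c
  exact ⟨by linarith [hp.1], by linarith [hp.2.1]⟩

lemma isOpen_gen (c : Ch T.m) : IsOpen {p | T.Gen c p} := by
  have h1 : IsOpen {p : ℂ × ℂ | p.1 ≠ 0} := isOpen_ne.preimage continuous_fst
  have h2 : IsOpen {p : ℂ × ℂ | p.2 ≠ 0} := isOpen_ne.preimage continuous_snd
  cases c with
  | edge i k k' => exact h1.inter h2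
  | leg i => exact h1.inter h2
  | vert i k w₀ => exact h1

lemma isOpen_Og {c : Ch T.m} (hc : T.Valid c) (ρ₀ : ℝ) : IsOpen (Og (S := S) c ρ₀) := by
  have h1 : ContinuousOn (fun p => ‖(T.map c p).1‖)
      (AJ387.BD (S.r c) (S.r c) ∩ {p | T.Gen c p}) := by
    intro p hp
    have h2 : ‖p.1‖ < 2 * S.r c := by linarith [hp.1.1, S.pos c]
    have h3 : ‖p.2‖ < 2 * S.r c := by linarith [hp.1.2, S.pos c]
    exact ((T.map_an c (sh_mem S hc h2 h3).1).continuousAt.fst.norm).continuousWithinAt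
  have h2 := h1.isOpen_inter_preimage ((isOpen_BD _ _).inter (isOpen_gen c))
    (isOpen_Iio (a := ρ₀))
  convert h2 using 1
  ext p
  constructor
  · rintro ⟨a, b, c, d⟩; exact ⟨⟨⟨a, b⟩, c⟩, d⟩
  · rintro ⟨⟨⟨a, b⟩, c⟩, d⟩; exact ⟨a, b, c, d⟩

lemma isOpen_Ogs {c : Ch T.m} (hc : T.Valid c) (ρ₀ : ℝ) : IsOpen (Ogs S c ρ₀) := by
  have h1 : ContinuousOn (fun p => ‖(T.map c p).2‖) (Og (S := S) c ρ₀) := by
    intro p hp
    obtain ⟨h2, h3⟩ := Og_lt S hp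
    exact ((T.map_an c (sh_mem S hc h2 h3).1).continuousAt.snd.norm).continuousWithinAt
  exact h1.isOpen_inter_preimage (isOpen_Og S hc ρ₀) (isOpen_Iio (a := ρ₀))

variable (T) in
lemma exists_pt {ε : ℝ} (hε : 0 < ε) : ∃ s y : ℂ, ‖s‖ < ε ∧ ‖y‖ < ε ∧ s ≠ 0 ∧
    ∀ i, y ≠ T.φ i (s ^ T.M) := by
  classical
  have h1 : (Metric.ball (0 : ℂ) ε).Infinite :=
    infinite_of_mem_nhds (0 : ℂ) (Metric.ball_mem_nhds _ hε)
  obtain ⟨y, hy, hyn⟩ := h1.exists_notMem_finset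
    (Finset.univ.image fun i => T.φ i (((ε / 2 : ℝ) : ℂ) ^ T.M))
  refine ⟨((ε / 2 : ℝ) : ℂ), y, ?_, by simpa using hy, ?_, fun i h => hyn ?_⟩
  · rw [Complex.norm_real, Real.norm_of_nonneg (by positivity)]
    linarith
  · exact_mod_cast (half_pos hε).ne'
  · exact Finset.mem_image.2 ⟨i, Finset.mem_univ _, h.symm⟩

lemma root_exists {s y : ℂ} (h : ‖s‖ ^ T.M < T.ρ) (h2 : ‖y‖ < T.R) :
    ∃ z, (T.Q (s, y)).eval z = 0 := by
  have hb := base_mem (T := T) (q := (s, y)) h h2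
  have hd : (T.P (s ^ T.N, y)).natDegree = T.d := T.deg _ hb
  have h3 : (T.P (s ^ T.N, y)).degree ≠ 0 := by
    intro h4
    have h5 := natDegree_eq_of_degree_eq_some h4
    rw [hd] at h5
    exact T.d_pos.ne' h5
  exact IsAlgClosed.exists_root _ h3

/-- covering by the open sets `Og c ρ₀` -/
lemma cov_Og {F : Finset (Ch T.m)} (hF : ∀ c ∈ F, T.Valid c) {ρ₀ : ℝ} (hρ : 0 < ρ₀)
    (hc : ∃ ε > 0, ∀ s y : ℂ, ‖s‖ < ε → ‖y‖ < ε → (s, y) ≠ 0 → ∃ c ∈ F, ∃ p : ℂ × ℂ,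
      ‖p.1‖ < S.r c ∧ ‖p.2‖ < S.r c ∧ T.map c p = (s, y)) :
    ∃ ε > 0, ∀ u : E3, ‖u 1‖ < ε → ‖u 2‖ < ε → u 1 ≠ 0 → (∀ i, u 2 ≠ T.φ i (u 1 ^ T.M)) →
      (T.Q (u 1, u 2)).eval (u 0) = 0 →
      ∃ c ∈ F, ∃ j, ∃ p ∈ Og (S := S) c ρ₀, wc S c j p = u := by
  obtain ⟨ε, hε, h⟩ := hc
  refine ⟨min ε ρ₀, lt_min hε hρ, fun u h1 h2 h3 h4 h5 => ?_⟩
  obtain ⟨c, hcF, p, hp1, hp2, hp⟩ := h (u 1) (u 2) (h1.trans_le (min_le_left _ _))
    (h2.trans_le (min_le_left _ _)) (by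
      intro h6
      exact h3 (congrArg Prod.fst h6))
  have hr := S.pos c
  have e1 : (T.map c p).1 = u 1 := congrArg Prod.fst hp
  have e2 : (T.map c p).2 = u 2 := congrArg Prod.snd hp
  have hg : T.Gen c p := gen_iff' (hF c hcF) (by rw [e1]; exact h3)
    (fun i => by rw [e1, e2]; exact h4 i)
  rw [← hp] at h5
  obtain ⟨j, hj⟩ := (root_iff S (hF c hcF) (by linarith) (by linarith)).1 h5
  refine ⟨c, hcF, j, p, ⟨hp1, hp2, hg, ?_⟩, ?_⟩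
  · rw [e1]; exact h1.trans_le (min_le_right _ _)
  · funext i
    fin_cases i
    · exact hj.symm
    · exact e1
    · exact e2

/-- covering by open subsets of `Og c ρ₀` -/
lemma cov_of {F : Finset (Ch T.m)} (hF : ∀ c ∈ F, T.Valid c) {ρ₀ : ℝ} (hρ : 0 < ρ₀)
    (hc : ∃ ε > 0, ∀ s y : ℂ, ‖s‖ < ε → ‖y‖ < ε → (s, y) ≠ 0 → ∃ c ∈ F, ∃ p : ℂ × ℂ,
      ‖p.1‖ < S.r c ∧ ‖p.2‖ < S.r c ∧ T.map c p = (s, y))
    {O : Ch T.m → Fin T.d → Set (ℂ × ℂ)}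
    (hOc : ∀ c ∈ F, ∀ j, ∀ p ∈ Og (S := S) c ρ₀, ‖(T.map c p).2‖ < ρ₀ →
      (∀ i, (T.map c p).2 ≠ T.φ i ((T.map c p).1 ^ T.M)) →
      ∃ c' ∈ F, ∃ j', ∃ p' ∈ O c' j', wc S c' j' p' = wc S c j p) :
    ∃ ε > 0, ∀ u : E3, ‖u 1‖ < ε → ‖u 2‖ < ε → u 1 ≠ 0 → (∀ i, u 2 ≠ T.φ i (u 1 ^ T.M)) →
      (T.Q (u 1, u 2)).eval (u 0) = 0 → ∃ c ∈ F, ∃ j, ∃ p ∈ O c j, wc S c j p = u := by
  obtain ⟨ε, hε, h⟩ := cov_Og S hF hρ hc
  refine ⟨min ε ρ₀, lt_min hε hρ, fun u h1 h2 h3 h4 h5 => ?_⟩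
  obtain ⟨c, hcF, j, p, hp, hpu⟩ := h u (h1.trans_le (min_le_left _ _))
    (h2.trans_le (min_le_left _ _)) h3 h4 h5
  have e1 : (T.map c p).1 = u 1 := congrFun hpu 1
  have e2 : (T.map c p).2 = u 2 := congrFun hpu 2
  obtain ⟨c', hc', j', p', hp', hpp⟩ := hOc c hcF j p hp
    (by rw [e2]; exact h2.trans_le (min_le_right _ _)) (fun i => by rw [e1, e2]; exact h4 i)
  exact ⟨c', hc', j', p', hp', hpp.trans hpu⟩

/-- **the Hörmander step in the charts of `W`** -/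
theorem hoT {F : Finset (Ch T.m)} (hF : ∀ c ∈ F, T.Valid c) {ρ₀ : ℝ} (hρ : 0 < ρ₀)
    (hgal : ∀ ζ : ℂ, ζ ^ T.N₀ = 1 → ∀ i, ∃ j, ∀ s ∈ Metric.ball (0 : ℂ) T.ρ,
      T.φ j (ζ * s) = T.φ i s)
    {O : Ch T.m → Fin T.d → Set (ℂ × ℂ)} (hO : ∀ c ∈ F, ∀ j, IsOpen (O c j))
    (hOg : ∀ c ∈ F, ∀ j, O c j ⊆ Og (S := S) c ρ₀)
    (hcov : ∃ ε > 0, ∀ u : E3, ‖u 1‖ < ε → ‖u 2‖ < ε → u 1 ≠ 0 →
      (∀ i, u 2 ≠ T.φ i (u 1 ^ T.M)) → (T.Q (u 1, u 2)).eval (u 0) = 0 →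
      ∃ c ∈ F, ∃ j, ∃ p ∈ O c j, wc S c j p = u)
    {Φ : E3 → ℝ} {D : E3 → ℂ} {κ : Ch T.m → Fin T.d → ℂ × ℂ → ℝ}
    (hΦ : ∀ c ∈ F, ∀ j, ∀ p ∈ O c j, ContDiffAt ℝ (⊤ : ℕ∞) (Φ ∘ wc S c j) p)
    (hD : ∀ c ∈ F, ∀ j, ∀ p ∈ O c j, ContDiffAt ℝ (⊤ : ℕ∞) (D ∘ wc S c j) p)
    (hL : ∀ c ∈ F, ∀ j, ∀ p ∈ O c j, ∀ w, 0 ≤ lvE (Φ ∘ wc S c j) p w)
    (hκ0 : ∀ c ∈ F, ∀ j p, 0 ≤ κ c j p) (hκm : ∀ c ∈ F, ∀ j, Measurable (κ c j))
    (hk : ∀ c ∈ F, ∀ j, ∀ p ∈ O c j, ∀ w,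
      ‖dbE (D ∘ wc S c j) p w‖ ^ 2 ≤ κ c j p * lvE (Φ ∘ wc S c j) p w)
    {C : ℝ} (hC : ∀ c ∈ F, ∀ j, ∀ p ∈ O c j, Φ (wc S c j p) ≤ C)
    (hK : ∀ c ∈ F, ∀ j, ∫⁻ p in O c j, ENNReal.ofReal (κ c j p * Real.exp (-Φ (wc S c j p)) *
      dn S c j p ^ 2) ≠ ∞)
    (hDi : ∀ c ∈ F, ∀ j, ∫⁻ p in O c j, ENNReal.ofReal (‖D (wc S c j p)‖ ^ 2 *
      dn S c j p ^ 2) ≠ ∞) :
    ∃ (g V : E3 → ℂ) (ρ₁ : ℝ) (K : ℝ≥0∞), AnalyticAt ℂ g 0 ∧ 0 < ρ₁ ∧ ρ₁ ≤ ρ₀ ∧ K ≠ ∞ ∧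
      (∃ G : E3 → ℂ, DifferentiableOn ℂ G (Pd ![T.rz, ρ₁, ρ₁]) ∧
        ∀ u, V u = G u / u 1 ^ (T.N - 1)) ∧
      ∀ c, T.Valid c → ∀ j,
        (∀ p ∈ Ogs S c ρ₁, g (T.th c (S.ζ c j) p) =
          1 / T.N * ∑ ξ ∈ nthRootsFinset T.N (1 : ℂ), V (rot ξ (wc S c j p))) ∧
        ∀ ξ : ℂ, ξ ^ T.N = 1 →
          DifferentiableOn ℂ (fun p => V (rot ξ (wc S c j p))) (Ogs S c ρ₁) ∧
          ((∀ p ∈ Ogs S c ρ₁, ∀ i, (T.map c p).2 ≠ T.φ i ((T.map c p).1 ^ T.M)) →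
          ∫⁻ p in Ogs S c ρ₁, ENNReal.ofReal (‖V (rot ξ (wc S c j p)) -
            D (rot ξ (wc S c j p))‖ ^ 2 * Real.exp (-Φ (rot ξ (wc S c j p))) *
              dn S c j p ^ 2) ≤ K) := by
  classical
  obtain ⟨ε, hε, hcov⟩ := hcov
  -- the box
  set R₁ : ℝ := min (min ρ₀ ε) (min T.R (min 1 T.ρ)) with hR₁
  have hR₁0 : 0 < R₁ := lt_min (lt_min hρ hε) (lt_min T.R_pos (lt_min one_pos T.ρ_pos))
  have hR₁ρ : R₁ ≤ ρ₀ := (min_le_left _ _).trans (min_le_left _ _)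
  have hR₁ε : R₁ ≤ ε := (min_le_left _ _).trans (min_le_right _ _)
  have hR₁R : R₁ ≤ T.R := (min_le_right _ _).trans (min_le_left _ _)
  have hR₁1 : R₁ ≤ 1 := (min_le_right _ _).trans ((min_le_right _ _).trans (min_le_left _ _))
  have hR₁T : R₁ ≤ T.ρ := (min_le_right _ _).trans ((min_le_right _ _).trans (min_le_right _ _))
  have hsM : ∀ s : ℂ, ‖s‖ < R₁ → ‖s‖ ^ T.M < T.ρ := by
    intro s hs
    have h1 : ‖s‖ ^ T.M ≤ ‖s‖ ^ 1 :=
      pow_le_pow_of_le_one (norm_nonneg _) (hs.le.trans hR₁1) T.M_pos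
    rw [pow_one] at h1
    exact h1.trans_lt (hs.trans_le hR₁T)
  set R' : Fin 3 → ℝ := ![T.rz, R₁, R₁] with hR'
  have hR'0 : ∀ i, 0 < R' i := by
    intro i
    fin_cases i
    · exact T.rz_pos
    · exact hR₁0
    · exact hR₁0
  have hmem : ∀ u : E3, u ∈ Pd R' ↔ ‖u 0‖ < T.rz ∧ ‖u 1‖ < R₁ ∧ ‖u 2‖ < R₁ := fun u => mem_Pd3
  have hf : ∀ u ∈ Pd R', DifferentiableAt ℂ f (piW T.A T.N u) := by
    intro u hu
    obtain ⟨a0, a1, a2⟩ := (hmem u).1 hu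
    exact (T.f_an _ (base_mem (q := (u 1, u 2)) (hsM _ a1) (a2.trans_le hR₁R)) _
      a0.le).differentiableAt
  set a : ℂ × ℂ → ℂ := fun q => ∏ i, (q.2 - T.φ i (q.1 ^ T.M)) with ha
  have hane : ∀ q : ℂ × ℂ, a q ≠ 0 ↔ ∀ i, q.2 ≠ T.φ i (q.1 ^ T.M) := by
    intro q
    simp only [ha, Finset.prod_ne_zero_iff, Finset.mem_univ, true_implies, sub_ne_zero]
  have had : DifferentiableOn ℂ a {q | ‖q.1‖ < R' 1 ∧ ‖q.2‖ < R' 2} := by
    intro q hq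
    have h1 : ‖q.1‖ < R₁ := hq.1
    have h2 : DifferentiableAt ℂ a q := by
      have h4 : AnalyticAt ℂ (fun q : ℂ × ℂ => ∏ i, (q.2 - T.φ i (q.1 ^ T.M))) q := by
        refine Finset.analyticAt_fun_prod _ fun i _ => ?_
        have h3 : AnalyticAt ℂ (fun q : ℂ × ℂ => T.φ i (q.1 ^ T.M)) q :=
          AnalyticAt.comp (g := fun s : ℂ => T.φ i (s ^ T.M)) (f := fun q : ℂ × ℂ => q.1)
            (T.gg_an i (hsM _ h1)) analyticAt_fst
        exact analyticAt_snd.sub h3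
      exact h4.differentiableAt
    exact h2.differentiableWithinAt
  obtain ⟨s₀, y₀, hs₀, hy₀, hs₀0, hy₀0⟩ := exists_pt T hR₁0
  obtain ⟨z₀, hz₀⟩ := root_exists (T := T) (hsM _ hs₀) (hy₀.trans_le hR₁R)
  have h1 : ∃ u ∈ Pd R', coordDeriv f 0 (piW T.A T.N u) ≠ 0 := by
    obtain ⟨c, hcF, j, p, hp, hpu⟩ := hcov ![z₀, s₀, y₀] (hs₀.trans_le hR₁ε)
      (hy₀.trans_le hR₁ε) hs₀0 hy₀0 hz₀
    obtain ⟨b1, b2⟩ := Og_lt S (hOg c hcF j hp)
    refine ⟨wc S c j p, ?_, cd_ne S (hF c hcF) b1 b2 (hOg c hcF j hp).2.2.1 j⟩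
    rw [hmem]
    refine ⟨norm_z S (hF c hcF) b1 b2 j, ?_, ?_⟩
    · rw [hpu]; exact hs₀
    · rw [hpu]; exact hy₀
  -- integrals
  have hden : ∀ c ∈ F, ∀ j, ∀ q : ℂ × ℂ → ℝ, ∫⁻ p in O c j, ENNReal.ofReal (q p *
      den2 f (fun x => piW T.A T.N (wc S c j x)) p) = ENNReal.ofReal (cA T.A T.N) *
        ∫⁻ p in O c j, ENNReal.ofReal (q p * dn S c j p ^ 2) := by
    intro c hcF j q
    rw [← lintegral_const_mul' _ _ ENNReal.ofReal_ne_top]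
    refine setLIntegral_congr_fun (hO c hcF j).measurableSet fun p hp => ?_
    obtain ⟨b1, b2⟩ := Og_lt S (hOg c hcF j hp)
    rw [den_wc S (hF c hcF) b1 b2 j, ← ENNReal.ofReal_mul (cA_pos T.N_pos).le]
    congr 1
    ring
  set K₀ : ℝ≥0∞ := ∑' x : {c // c ∈ F} × Fin T.d, ∫⁻ p in O x.1 x.2, ENNReal.ofReal
    (κ x.1 x.2 p * Real.exp (-Φ (wc S x.1 x.2 p)) *
      den2 f (fun q => piW T.A T.N (wc S x.1 x.2 q)) p) with hK₀
  have hK₀t : K₀ ≠ ∞ := by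
    rw [hK₀, tsum_fintype]
    refine ENNReal.sum_ne_top.2 fun x _ => ?_
    rw [hden x.1 x.1.2 x.2 (fun p => κ x.1 x.2 p * Real.exp (-Φ (wc S x.1 x.2 p)))]
    exact ENNReal.mul_ne_top ENNReal.ofReal_ne_top (hK x.1 x.1.2 x.2)
  have hSi : ∑' x : {c // c ∈ F} × Fin T.d, ∫⁻ p in O x.1 x.2, ENNReal.ofReal
      (‖D (wc S x.1 x.2 p)‖ ^ 2 * den2 f (fun q => piW T.A T.N (wc S x.1 x.2 q)) p) ≠ ∞ := by
    rw [tsum_fintype]
    refine ENNReal.sum_ne_top.2 fun x _ => ?_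
    rw [hden x.1 x.1.2 x.2 (fun p => ‖D (wc S x.1 x.2 p)‖ ^ 2)]
    exact ENNReal.mul_ne_top ENNReal.ofReal_ne_top (hDi x.1 x.1.2 x.2)
  obtain ⟨g, G, V, hG, hV, hg, hgV, hb⟩ := hoW (f := f) (A := T.A) (N := T.N) T.N_pos hR'0 hf
    (a := a) had ⟨(s₀, y₀), hs₀, hy₀, (hane _).2 hy₀0⟩ h1
    (ι := {c // c ∈ F} × Fin T.d) (O := fun x => O x.1 x.2) (fun x => hO x.1 x.1.2 x.2)
    (θ := fun x => wc S x.1 x.2)
    (fun x p hp => by
      obtain ⟨b1, b2⟩ := Og_lt S (hOg x.1 x.1.2 x.2 hp)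
      exact (an_wc S (hF x.1 x.1.2) b1 b2 x.2).differentiableAt.differentiableWithinAt)
    (fun x p hp => by
      obtain ⟨b1, b2⟩ := Og_lt S (hOg x.1 x.1.2 x.2 hp)
      exact f_th S (hF x.1 x.1.2) b1 b2 x.2)
    (fun x p hp => by
      obtain ⟨b1, b2⟩ := Og_lt S (hOg x.1 x.1.2 x.2 hp)
      have hd := (an_wc S (hF x.1 x.1.2) b1 b2 x.2).differentiableAt
      have h2 := jac2_piW (A := T.A) (N := T.N) hd
      have h3 := T.jac_chart (hF x.1 x.1.2) (sh_mem S (hF x.1 x.1.2) b1 b2).1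
        ((S.sheets x.1 (hF x.1 x.1.2)).an x.2 p ⟨b1, b2⟩).differentiableAt
      have h4 : jac2 (fun p => piW T.A T.N (wc S x.1 x.2 p)) p ≠ 0 := by
        have h5 : (fun p => piW T.A T.N (wc S x.1 x.2 p)) = T.th x.1 (S.ζ x.1 x.2) := rfl
        rw [h5, h3]
        have hgen := (hOg x.1 x.1.2 x.2 hp).2.2.1
        have hp1 : p.1 ≠ 0 := by
          revert hgen
          cases (x.1 : Ch T.m) with
          | edge i k k' => exact fun h => h.1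
          | leg i => exact fun h => h.1
          | vert i k w₀ => exact fun h => h
        have hp2 : p.2 ^ (T.jx x.1).2 ≠ 0 := by
          revert hgen
          cases (x.1 : Ch T.m) with
          | edge i k k' => exact fun h => pow_ne_zero _ h.2
          | leg i => exact fun h => pow_ne_zero _ h.2
          | vert i k w₀ =>
            intro _
            show p.2 ^ 0 ≠ 0
            rw [pow_zero]
            exact one_ne_zero
        exact mul_ne_zero (mul_ne_zero (T.jk_ne (hF x.1 x.1.2)) (pow_ne_zero _ hp1)) hp2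
      rw [h2] at h4
      exact right_ne_zero_of_mul h4)
    (by
      intro u hu hu1 hfu _ hau
      obtain ⟨a0, a1, a2⟩ := (hmem u).1 hu
      have hq : (T.Q (u 1, u 2)).eval (u 0) = 0 :=
        (f_iff (q := (u 1, u 2)) (hsM _ a1) (a2.trans_le hR₁R) a0.le).1 hfu
      obtain ⟨c, hcF, j, p, hp, hpu⟩ := hcov u (a1.trans_le hR₁ε) (a2.trans_le hR₁ε) hu1
        ((hane _).1 hau) hq
      exact ⟨(⟨c, hcF⟩, j), p, hp, hpu⟩)
    (Φ := Φ) (S := D) (κ := fun x => κ x.1 x.2)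
    (fun x p hp => hΦ x.1 x.1.2 x.2 p hp) (fun x p hp => hD x.1 x.1.2 x.2 p hp)
    (fun x p hp w => hL x.1 x.1.2 x.2 p hp w) (fun x p => hκ0 x.1 x.1.2 x.2 p)
    (fun x => hκm x.1 x.1.2 x.2) (fun x p hp w => hk x.1 x.1.2 x.2 p hp w)
    (C := C) (fun x p hp => hC x.1 x.1.2 x.2 p hp) hK₀t le_rfl hSi
  refine ⟨g, V, R₁, ENNReal.ofReal (cA T.A T.N)⁻¹ * (mlt T * (2 * K₀)), hg, hR₁0, hR₁ρ,
    ENNReal.mul_ne_top ENNReal.ofReal_ne_top (ENNReal.mul_ne_top (ENNReal.natCast_ne_top _)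
      (ENNReal.mul_ne_top ENNReal.ofNat_ne_top hK₀t)), ⟨G, hG, hV⟩, fun c hc j => ?_⟩
  have hval : ∀ p ∈ Ogs S c R₁, wc S c j p ∈ Pd R' ∧ wc S c j p 1 ≠ 0 := by
    intro p hp
    obtain ⟨b1, b2⟩ := Og_lt S hp.1
    refine ⟨(hmem _).2 ⟨norm_z S hc b1 b2 j, hp.1.2.2.2, hp.2⟩, ?_⟩
    show (T.map c p).1 ≠ 0
    have hgen := hp.1.2.2.1
    revert hgen
    cases c with
    | edge i k k' => exact fun h => mul_ne_zero h.1 h.2
    | leg i => exact fun h => h.1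
    | vert i k w₀ => exact fun h => h
  have hvr : ∀ ξ : ℂ, ξ ^ T.N = 1 → ∀ p ∈ Ogs S c R₁, rot ξ (wc S c j p) ∈ Pd R' ∧
      rot ξ (wc S c j p) 1 ≠ 0 := by
    intro ξ hξ p hp
    obtain ⟨c1, c2⟩ := hval p hp
    obtain ⟨a0, a1, a2⟩ := (hmem _).1 c1
    refine ⟨(hmem _).2 ⟨a0, ?_, a2⟩, ?_⟩
    · show ‖ξ * wc S c j p 1‖ < R₁
      rw [norm_mul, norm_xi hξ, one_mul]
      exact a1
    · show ξ * wc S c j p 1 ≠ 0
      refine mul_ne_zero ?_ c2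
      rintro rfl
      rw [zero_pow T.N_pos.ne'] at hξ
      exact zero_ne_one hξ
  have hrd : ∀ ξ : ℂ, DifferentiableOn ℂ (fun p => rot ξ (wc S c j p)) (Ogs S c R₁) := by
    intro ξ p hp
    obtain ⟨b1, b2⟩ := Og_lt S hp.1
    have h2 := (an_wc S hc b1 b2 j).differentiableAt
    have h3 : ∀ i : Fin 3, DifferentiableAt ℂ (fun p => wc S c j p i) p := fun i =>
      differentiableAt_pi.1 h2 i
    refine DifferentiableAt.differentiableWithinAt ?_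
    refine differentiableAt_pi.2 fun i => ?_
    fin_cases i
    · exact h3 0
    · exact (h3 1).const_mul ξ
    · exact h3 2
  refine ⟨fun p hp => ?_, fun ξ hξ => ⟨?_, fun hbr => ?_⟩⟩
  · obtain ⟨c1, c2⟩ := hval p hp
    exact hgV _ c1 c2
  · intro p hp
    obtain ⟨c1, c2⟩ := hvr ξ hξ p hp
    have h2 : DifferentiableAt ℂ G (rot ξ (wc S c j p)) :=
      hG.differentiableAt ((isOpen_Pd _).mem_nhds c1)
    have h3 := (hrd ξ).differentiableAt ((isOpen_Ogs S hc R₁).mem_nhds hp)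
    have h4a : DifferentiableAt ℂ (fun p => G (rot ξ (wc S c j p))) p := h2.comp p h3
    have h4b : DifferentiableAt ℂ (fun p => rot ξ (wc S c j p) 1 ^ (T.N - 1)) p :=
      (differentiableAt_pi.1 h3 1).pow _
    have h4 : DifferentiableAt ℂ (fun p => G (rot ξ (wc S c j p)) *
        (rot ξ (wc S c j p) 1 ^ (T.N - 1))⁻¹) p := h4a.mul (h4b.inv (pow_ne_zero _ c2))
    refine (h4.congr_of_eventuallyEq (Eventually.of_forall fun q => ?_)).differentiableWithinAt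
    exact hV _
  · have h2 := hb (Ogs S c R₁) (fun p => rot ξ (wc S c j p)) (mlt T) (isOpen_Ogs S hc R₁) (hrd ξ)
      (by
        intro p hp
        obtain ⟨c1, c2⟩ := hvr ξ hξ p hp
        obtain ⟨b1, b2⟩ := Og_lt S hp.1
        refine ⟨c1, c2, ?_, ?_, ?_⟩
        · rw [piW_rot hξ]; exact f_th S hc b1 b2 j
        · rw [piW_rot hξ]; exact cd_ne S hc b1 b2 hp.1.2.2.1 j
        · rw [hane]
          intro i h3
          have h3' : (T.map c p).2 = T.φ i ((ξ * (T.map c p).1) ^ T.M) := h3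
          have hζ : (ξ ^ T.M)⁻¹ ^ T.N₀ = 1 := by
            rw [inv_pow, ← pow_mul, mul_comm T.M]
            show (ξ ^ T.N)⁻¹ = 1
            rw [hξ, inv_one]
          obtain ⟨l, hl⟩ := hgal _ hζ i
          have hξ0 : ξ ≠ 0 := by
            rintro rfl
            rw [zero_pow T.N_pos.ne'] at hξ
            exact zero_ne_one hξ
          have hmb : (ξ * (T.map c p).1) ^ T.M ∈ Metric.ball (0 : ℂ) T.ρ := by
            rw [mem_ball_zero_iff, norm_pow, norm_mul, norm_xi hξ, one_mul]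
            exact (sh_mem S hc b1 b2).1
          have h4 := hl _ hmb
          rw [mul_pow, inv_mul_cancel_left₀ (pow_ne_zero _ hξ0)] at h4
          rw [mul_pow] at h3'
          exact hbr p hp l (h3'.trans h4.symm))
      (by
        intro x
        refine (Set.encard_le_encard ?_).trans (mult_map hc (ξ⁻¹ * x 1, x 2))
        rintro p ⟨hp, hpx⟩
        have hξ0 : ξ ≠ 0 := by
          rintro rfl
          rw [zero_pow T.N_pos.ne'] at hξ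
          exact zero_ne_one hξ
        refine ⟨hp.1.2.2.1, Prod.ext ?_ ?_⟩
        · have h3 : ξ * (T.map c p).1 = x 1 := congrFun hpx 1
          show (T.map c p).1 = ξ⁻¹ * x 1
          rw [← h3, inv_mul_cancel_left₀ hξ0]
        · exact congrFun hpx 2)
    have h3 : ∫⁻ p in Ogs S c R₁, ENNReal.ofReal (‖V (rot ξ (wc S c j p)) -
        D (rot ξ (wc S c j p))‖ ^ 2 * Real.exp (-Φ (rot ξ (wc S c j p))) * dn S c j p ^ 2) =
        ENNReal.ofReal (cA T.A T.N)⁻¹ * ∫⁻ p in Ogs S c R₁, ENNReal.ofReal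
          (‖V (rot ξ (wc S c j p)) - D (rot ξ (wc S c j p))‖ ^ 2 *
            Real.exp (-Φ (rot ξ (wc S c j p))) *
              den2 f (fun q => piW T.A T.N (rot ξ (wc S c j q))) p) := by
      rw [← lintegral_const_mul' _ _ ENNReal.ofReal_ne_top]
      refine setLIntegral_congr_fun (isOpen_Ogs S hc R₁).measurableSet fun p hp => ?_
      obtain ⟨b1, b2⟩ := Og_lt S hp.1
      have hcA := cA_pos (A := T.A) T.N_pos
      have h4 : (fun q => piW T.A T.N (rot ξ (wc S c j q))) =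
          fun q => piW T.A T.N (wc S c j q) := funext fun q => piW_rot hξ _
      rw [h4, den_wc S hc b1 b2 j, ← ENNReal.ofReal_mul (inv_pos.2 hcA).le]
      congr 1
      field_simp
    rw [h3]
    exact mul_le_mul' le_rfl h2

end Crest.Agent.R257.HoT_843
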