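import Mathlib
import Crest.Agent.R257.CDataH_250
import Crest.Agent.R257.HoT_843

/-!
Row 257, part C, task C-DATA (helper250), file I: generic points lie off the branches (`offB`); the
context `Cx` of the null data, the function `Th`, its local forms.
-/

set_option autoImplicit false
set_option linter.unusedSectionVars false

noncomputable section

open Set Filter Topology MeasureTheory Metric
open scoped ENNReal

namespace Crest.Agent.R257.CDataI_250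

open Crest.AlgGeometry.Germ Crest.Agent.R257.AJ387 Crest.Agent.R257.T387
open Crest.Agent.R257.Gr1_157 Crest.Agent.R257.HoB_843 Crest.Agent.R257.BP_258
open Crest.Agent.R257.CDataA_250 Crest.Agent.R257.CDataB_250 Crest.Agent.R257.CDataE_250
open Crest.Agent.R257.CDataG_250 Crest.Agent.R257.CDataH_250
open Crest.Agent.R257.Wt_258 Crest.Agent.R257.Rsn_843 Crest.Agent.R257.Vt2_558
open Crest.Agent.R257.FrmE_547 (CB)
open Crest.Agent.R257.FrmF_547 Crest.Agent.R257.Sep_547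
open Crest.Agent.R257.Typ_201 (TV TL TN)

variable {f : (Fin 3 → ℂ) → ℂ} {T : TB f} {U : Tub T} {S : Sh T}

lemma offB1 {c : Ch T.m} (hc : Ok S c) (i : Fin T.m) : ∃ ε > 0, ∀ p ∈ CB (S.r c), T.Gen c p →
    ‖(T.map c p).1‖ < ε → (T.map c p).2 ≠ T.φ i ((T.map c p).1 ^ T.M) := by
  by_contra hcon
  push Not at hcon
  have h1 : ∀ n : ℕ, ∃ p ∈ CB (S.r c), T.Gen c p ∧ ‖(T.map c p).1‖ < 1 / ((n : ℝ) + 1) ∧
      (T.map c p).2 = T.φ i ((T.map c p).1 ^ T.M) := fun n => hcon _ (by positivity)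
  choose p hpC hpG hps hpe using h1
  obtain ⟨p₀, hp₀, φ, hφ, l1⟩ := (isCompact_CB (S.r c)).tendsto_subseq hpC
  have hε : Tendsto (fun n : ℕ => 1 / ((φ n : ℝ) + 1)) atTop (𝓝 0) :=
    tendsto_one_div_add_atTop_nhds_zero_nat.comp hφ.tendsto_atTop
  have lm : Tendsto (fun n => T.map c (p (φ n))) atTop (𝓝 (T.map c p₀)) :=
    ((S.sheets c hc.1).map_an (mem2 hp₀.1 hp₀.2)).continuousAt.tendsto.comp l1
  have ls : Tendsto (fun n => (T.map c (p (φ n))).1) atTop (𝓝 0) := by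
    rw [tendsto_zero_iff_norm_tendsto_zero]
    exact squeeze_zero (fun n => norm_nonneg _) (fun n => (hps (φ n)).le) hε
  have ls' : Tendsto (fun n => (T.map c (p (φ n))).1 ^ T.M) atTop (𝓝 0) := by
    have := ls.pow T.M
    rwa [zero_pow T.M_pos.ne'] at this
  have ly : Tendsto (fun n => (T.map c (p (φ n))).2) atTop (𝓝 0) := by
    have h2 := (T.φ_an i 0 (mem_ball_self T.ρ_pos)).continuousAt.tendsto.comp ls'
    rw [T.φ_zero] at h2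
    exact h2.congr fun n => (hpe (φ n)).symm
  have hmap0 : T.map c p₀ = 0 := tendsto_nhds_unique lm (ls.prodMk_nhds ly)
  set m : Filter (ℂ × ℂ) := map (fun n => p (φ n)) atTop with hm
  have hmle : m ≤ 𝓝 p₀ := l1
  have hgm : ∀ᶠ q in m, T.Gen c q := by
    rw [hm, eventually_map]; exact Eventually.of_forall fun n => hpG _
  set l : Filter (ℂ × ℂ) := map (T.map c) m with hl
  have hlne : l.NeBot := by rw [hl, hm]; infer_instance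
  have hl0 : Tendsto (Prod.fst : ℂ × ℂ → ℂ) l (𝓝 0) := by
    rw [hl, hm, tendsto_map'_iff, tendsto_map'_iff]
    exact ls
  have hl1 : ∀ᶠ q in l, q.1 ≠ 0 := by
    rw [hl, eventually_map]
    exact hgm.mono fun q hq => sc_ne hq
  have hTL : TL T l i := by
    refine tendsto_const_nhds.congr' ?_
    rw [hl, hm]
    refine (eventually_map.2 (eventually_map.2 (Eventually.of_forall fun n => ?_)))
    unfold Typ_201.wc
    rw [hpe (φ n), sub_self, zero_div]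
  rcases place hc hp₀ hmle hgm hmap0 with ⟨i', k, w, h3, h4⟩ | ⟨h3, h4⟩
  · exact Typ_201.TV_TL hl0 hl1 h3 hTL
  · cases c with
    | vert i' k w => exact h3 trivial
    | leg i' =>
      have h5 := Typ_201.TL_TL hl0 hl1 h4 hTL
      subst h5
      have h6 := hpe 0
      have h7 : (T.map (.leg i') (p 0)).2 = T.φ i' ((p 0).1 ^ T.M) +
          (p 0).1 ^ (T.M * T.top i') * (p 0).2 ^ T.M := rfl
      have h8 : (T.map (.leg i') (p 0)).1 = (p 0).1 := rfl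
      rw [h7, h8] at h6
      have h9 : (p 0).1 ^ (T.M * T.top i') * (p 0).2 ^ T.M = 0 := add_eq_left.1 h6
      exact mul_ne_zero (pow_ne_zero _ (hpG 0).1) (pow_ne_zero _ (hpG 0).2) h9
    | edge i' k k' => exact Typ_201.TL_TN hl0 hl1 hTL h4

/-- **generic points lie off the branches** -/
theorem offB {F : Finset (Ch T.m)} (hF : ∀ c ∈ F, Ok S c) : ∃ ε > 0, ∀ c ∈ F,
    ∀ p ∈ CB (S.r c), T.Gen c p → ‖(T.map c p).1‖ < ε →
      ∀ i, (T.map c p).2 ≠ T.φ i ((T.map c p).1 ^ T.M) := by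
  obtain ⟨ε, hε, h⟩ := fin_min (F ×ˢ (Finset.univ : Finset (Fin T.m)))
    (P := fun a ε => ∀ p ∈ CB (S.r a.1), T.Gen a.1 p → ‖(T.map a.1 p).1‖ < ε →
      (T.map a.1 p).2 ≠ T.φ a.2 ((T.map a.1 p).1 ^ T.M))
    (fun a ε ε' _ hle h p hp hg hs => h p hp hg (hs.trans_le hle)) (by
      rintro ⟨c, i⟩ hci
      rw [Finset.mem_product] at hci
      exact offB1 (hF c hci.1) i)
  exact ⟨ε, hε, fun c hc p hp hg hs i => h (c, i) (Finset.mem_product.2 ⟨hc, Finset.mem_univ _⟩)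
    p hp hg hs⟩

/-- the sheet over a point of another chart -/
lemma sheet_of {c c' : Ch T.m} (hc : T.Valid c) (hc' : T.Valid c') {j : Fin T.d} {p p' : ℂ × ℂ}
    (hp : p ∈ BD (2 * S.r c) (2 * S.r c)) (hp' : p' ∈ BD (2 * S.r c') (2 * S.r c'))
    (h : T.map c' p' = T.map c p) : ∃ j', wc S c' j' p' = wc S c j p := by
  have h1 := HoT_843.root S hc hp.1 hp.2 j
  rw [← h, HoT_843.root_iff S hc' hp'.1 hp'.2] at h1
  obtain ⟨j', hj'⟩ := h1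
  exact ⟨j', by unfold wc; rw [← hj', h]⟩

/-! ### the context -/

/-- the fixed data -/
structure Cx (L : Lab U S) (e₀ : II U) (f₀ : XV U e₀.1.1 → ℂ)
    (γ : Bool → Ch T.m → Fin T.d → ℂ → XV U e₀.1.1) (G F₀ : Finset (Ch T.m)) (τ b b₁ : ℝ) : Prop where
  hR : RetStmt U
  hf : HolX (pV U e₀.1.1) f₀
  f0 : ∀ q : XV U e₀.1.1, (q : ConnectedComponents _) ≠ e₀.2 → f₀ q = 0
  hγ : ∀ o c, Ok S c → ¬ IsV c → vO T o c = some e₀.1.1 → EndO U S o c e₀.1.1 (γ o c)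
  τ_pos : 0 < τ
  τ_b : τ < b
  b_b₁ : b < b₁
  b₁1 : b₁ ≤ 1
  b₁r : ∀ c ∈ Ends S, b₁ < S.r c
  ok : ∀ c ∈ F₀, Ok S c
  ends : Ends S ⊆ G
  sub : G ⊆ F₀
  sep : ∀ c ∈ G, ∀ c' ∈ Ends S, c ≠ c' → ∀ p ∈ CB (S.r c), ∀ p' ∈ CB b₁, T.Gen c p →
    T.Gen c' p' → T.map c p ≠ T.map c' p'

/-- smallness -/
structure Sm (L : Lab U S) (F F₀ : Finset (Ch T.m)) (b₁ ε : ℝ) : Prop where
  pos : 0 < ε
  sub : F₀ ⊆ F
  ok : ∀ c ∈ F, Ok S c
  vv : ∀ c ∈ F, ∀ c' ∈ F, IsV c' → ∀ j j' p p', p ∈ CB (S.r c) → T.Gen c p →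
      ‖(T.map c p).1‖ < ε → p' ∈ CB (S.r c') → T.Gen c' p' → wc S c j p = wc S c' j' p' →
      ∃ o, ∃ E : II U, L.e1 c' j' = some E ∧ eO L o c j = some E ∧
        (o = true ∧ IsV c ∨ ε ≤ ‖cB o p‖) ∧ InT U E.1.1 (wc S c j p) ∧
        ∀ q, IsRet U E.1.1 (wc S c j p) q → (q : ConnectedComponents _) = E.2
  off : ∀ c ∈ F, ∀ p ∈ CB (S.r c), T.Gen c p → ‖(T.map c p).1‖ < ε →
      ∀ i, (T.map c p).2 ≠ T.φ i ((T.map c p).1 ^ T.M)
  cov : ∀ s y : ℂ, ‖s‖ < ε → ‖y‖ < ε → (s, y) ≠ 0 → ∃ c ∈ F₀, ∃ p : ℂ × ℂ,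
      (¬ IsV c → p ∈ CB b₁) ∧ (IsV c → p ∈ CB (S.r c / 2)) ∧ T.map c p = (s, y)

lemma exists_Sm (hR : RetStmt U) (L : Lab U S) {F F₀ : Finset (Ch T.m)} {b₁ : ℝ} (hsub : F₀ ⊆ F)
    (hF : ∀ c ∈ F, Ok S c)
    (hcov : ∃ ε > 0, ∀ s y : ℂ, ‖s‖ < ε → ‖y‖ < ε → (s, y) ≠ 0 → ∃ c ∈ F₀, ∃ p : ℂ × ℂ,
      (¬ IsV c → p ∈ CB b₁) ∧ (IsV c → p ∈ CB (S.r c / 2)) ∧ T.map c p = (s, y)) :
    ∃ ε, Sm L F F₀ b₁ ε := by
  obtain ⟨ε₁, h1, hvv⟩ := VV hR L hF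
  obtain ⟨ε₂, h2, hoff⟩ := offB hF
  obtain ⟨ε₃, h3, hcov⟩ := hcov
  have h12 : 0 < min ε₁ ε₂ := lt_min h1 h2
  refine ⟨min (min ε₁ ε₂) ε₃, lt_min h12 h3, hsub, hF, ?_, ?_, ?_⟩
  · intro c hc c' hc' hV j j' p p' a1 a2 a3 a4 a5 a6
    have hle : min (min ε₁ ε₂) ε₃ ≤ ε₁ := (min_le_left _ _).trans (min_le_left _ _)
    obtain ⟨o, E, b1, b2, b3, b4⟩ := hvv c hc c' hc' hV j j' p p' a1 a2 (a3.trans_le hle) a4 a5 a6
    exact ⟨o, E, b1, b2, b3.imp_right fun h => hle.trans h, b4⟩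
  · intro c hc p hp hg hs
    exact hoff c hc p hp hg (hs.trans_le ((min_le_left _ _).trans (min_le_right _ _)))
  · intro s y hs hy
    exact hcov s y (hs.trans_le (min_le_right _ _)) (hy.trans_le (min_le_right _ _))

/-! ### the function -/

/-- the value of the function in the chart of an end -/
def th (U : Tub T) (S : Sh T) {v : Vtx} (f₀ : XV U v → ℂ)
    (γ : Bool → Ch T.m → Fin T.d → ℂ → XV U v) (τ b : ℝ) (o : Bool) (c : Ch T.m) (j : Fin T.d)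
    (p : ℂ × ℂ) : ℂ :=
  ((ct τ b (cB o p) : ℂ) * f₀ (γ o c j (cB o p)) +
    (1 - (ct τ b (cB o p) : ℂ)) * GG U v f₀ (wc S c j p)) * (ct τ b (cA o p) : ℂ)

/-- representation in the chart of an end -/
def RE (L : Lab U S) (e₀ : II U) (b₁ : ℝ) (x : Fin 3 → ℂ)
    (q : (Bool × Ch T.m × Fin T.d) × (ℂ × ℂ)) : Prop :=
  q.1.2.1 ∈ Ends S ∧ eO L q.1.1 q.1.2.1 q.1.2.2 = some e₀ ∧ q.2 ∈ CB b₁ ∧ T.Gen q.1.2.1 q.2 ∧
    wc S q.1.2.1 q.1.2.2 q.2 = x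

/-- representation in a vertex chart -/
def RV (L : Lab U S) (e₀ : II U) (F₀ : Finset (Ch T.m)) (x : Fin 3 → ℂ) : Prop :=
  ∃ c ∈ F₀, IsV c ∧ ∃ j p, L.e1 c j = some e₀ ∧ p ∈ CB (S.r c / 2) ∧ T.Gen c p ∧ wc S c j p = x

open Classical in
/-- the function -/
def Th (L : Lab U S) (e₀ : II U) (f₀ : XV U e₀.1.1 → ℂ)
    (γ : Bool → Ch T.m → Fin T.d → ℂ → XV U e₀.1.1) (F₀ : Finset (Ch T.m)) (τ b b₁ : ℝ)
    (x : Fin 3 → ℂ) : ℂ :=
  if h : ∃ q, RE L e₀ b₁ x q then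
    th U S f₀ γ τ b h.choose.1.1 h.choose.1.2.1 h.choose.1.2.2 h.choose.2
  else if RV L e₀ F₀ x then GG U e₀.1.1 f₀ x else 0

/-- the closed set -/
def ZE (L : Lab U S) (e₀ : II U) (b₁ : ℝ) : Set (Fin 3 → ℂ) :=
  ⋃ a ∈ {a : Bool × Ch T.m × Fin T.d | a.2.1 ∈ Ends S ∧ eO L a.1 a.2.1 a.2.2 = some e₀},
    wc S a.2.1 a.2.2 '' CB b₁

lemma isClosed_ZE (L : Lab U S) (e₀ : II U) {b₁ : ℝ} (hb : ∀ c ∈ Ends S, b₁ < S.r c) :
    IsClosed (ZE L e₀ b₁) := by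
  classical
  have hfin : {a : Bool × Ch T.m × Fin T.d |
      a.2.1 ∈ Ends S ∧ eO L a.1 a.2.1 a.2.2 = some e₀}.Finite := by
    refine (((Finset.univ : Finset Bool) ×ˢ (Ends S ×ˢ (Finset.univ : Finset (Fin T.d)))
      ).finite_toSet).subset fun a ha => ?_
    simp [ha.1]
  refine hfin.isClosed_biUnion fun a ha => ?_
  refine IsCompact.isClosed ((isCompact_CB b₁).image_of_continuousOn fun p hp => ?_)
  have h2 : p ∈ BD (2 * S.r a.2.1) (2 * S.r a.2.1) :=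
    mem2 (hp.1.trans (hb _ ha.1).le) (hp.2.trans (hb _ ha.1).le)
  exact (wc_an (ends_ok ha.1).1 a.2.2 h2).continuousAt.continuousWithinAt

lemma RE_ZE {L : Lab U S} {e₀ : II U} {b₁ : ℝ} {x : Fin 3 → ℂ} (h : ∃ q, RE L e₀ b₁ x q) :
    x ∈ ZE L e₀ b₁ := by
  obtain ⟨q, h1, h2, h3, h4, h5⟩ := h
  simp only [ZE, mem_iUnion]
  exact ⟨q.1, ⟨h1, h2⟩, q.2, h3, h5⟩

section
variable {L : Lab U S} {e₀ : II U} {f₀ : XV U e₀.1.1 → ℂ}
  {γ : Bool → Ch T.m → Fin T.d → ℂ → XV U e₀.1.1} {G F F₀ : Finset (Ch T.m)} {τ b b₁ ε ρ : ℝ}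

lemma CB_mem2 {c : Ch T.m} {p : ℂ × ℂ} (hp : p ∈ CB (S.r c)) :
    p ∈ BD (2 * S.r c) (2 * S.r c) := mem2 hp.1 hp.2

lemma CB_mono {r r' : ℝ} (h : r ≤ r') {p : ℂ × ℂ} (hp : p ∈ CB r) : p ∈ CB r' :=
  ⟨hp.1.trans h, hp.2.trans h⟩

/-- the norms of equal points of one chart -/
lemma norm_eq {c : Ch T.m} (hc : T.Valid c) {p p' : ℂ × ℂ} (hp : T.Gen c p) (hp' : T.Gen c p')
    (h : T.map c p = T.map c p') : ‖p'.1‖ = ‖p.1‖ ∧ ‖p'.2‖ = ‖p.2‖ := by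
  have h1 : Dv T c 0 0 := by
    cases c with
    | edge i k k' => exact ⟨dvd_zero _, dvd_zero _⟩
    | leg i => exact dvd_zero _
    | vert i k w => trivial
  exact (mono_eq hc hp hp' h h1).2

lemma norm_cB {o : Bool} {p p' : ℂ × ℂ} (h : ‖p'.1‖ = ‖p.1‖ ∧ ‖p'.2‖ = ‖p.2‖) :
    ‖cB o p'‖ = ‖cB o p‖ ∧ ‖cA o p'‖ = ‖cA o p‖ := by
  cases o
  · exact ⟨h.1, h.2⟩
  · exact ⟨h.2, h.1⟩

lemma cB_pos {o : Bool} {c : Ch T.m} (hV : ¬ IsV c) {p : ℂ × ℂ}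
    (h : T.Gen c p) : 0 < ‖cB o p‖ := by
  rw [norm_pos_iff]
  cases c with
  | edge i k k' =>
    cases o
    · exact h.1
    · exact h.2
  | leg i =>
    cases o
    · exact h.1
    · exact h.2
  | vert i k w => exact (hV trivial).elim

namespace Cx

variable (C : Cx L e₀ f₀ γ G F₀ τ b b₁)
include C

/-- (2) representations in the charts of the ends -/
lemma RE_inv {c : Ch T.m} (hc : c ∈ G) {j : Fin T.d} {p : ℂ × ℂ} (hp : p ∈ CB (S.r c))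
    (hg : T.Gen c p) {q : (Bool × Ch T.m × Fin T.d) × (ℂ × ℂ)}
    (h : RE L e₀ b₁ (wc S c j p) q) :
    q.1.2.1 = c ∧ p ∈ CB b₁ ∧ eO L q.1.1 c j = some e₀ ∧ T.Gen c q.2 ∧ T.map c p = T.map c q.2 ∧
      wc S c q.1.2.2 q.2 = wc S c j p := by
  obtain ⟨⟨o', c', j'⟩, p'⟩ := q
  obtain ⟨h1, h2, h3, h4, h5⟩ := h
  simp only at h1 h2 h3 h4 h5 ⊢
  have hm : T.map c' p' = T.map c p := map_wc h5
  have hcc : c = c' := by
    by_contra hne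
    exact C.sep c hc c' h1 hne p hp p' h3 hg h4 hm.symm
  subst hcc
  have hn := norm_eq (C.ok c (C.sub hc)).1 h4 hg hm
  refine ⟨rfl, ⟨hn.1.trans_le h3.1, hn.2.trans_le h3.2⟩, ?_, h4, hm.symm, h5⟩
  have hl := LwD_89.labWD L c (C.ok c (C.sub hc)) j' j p' p
    (mem2 (h3.1.trans (C.b₁r c h1).le) (h3.2.trans (C.b₁r c h1).le)) (CB_mem2 hp) h4 hg h5
  cases o'
  · exact hl.2.symm.trans h2
  · exact hl.1.symm.trans h2

/-- (1) the value in the small bidiscs -/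
lemma Th_E {o : Bool} {c : Ch T.m} (hc : c ∈ Ends S) {j : Fin T.d} (hl : eO L o c j = some e₀)
    {p : ℂ × ℂ} (hp : p ∈ CB b₁) (hg : T.Gen c p) :
    Th L e₀ f₀ γ F₀ τ b b₁ (wc S c j p) = th U S f₀ γ τ b o c j p := by
  have h : ∃ q, RE L e₀ b₁ (wc S c j p) q := ⟨((o, c, j), p), hc, hl, hp, hg, rfl⟩
  unfold Th
  rw [dif_pos h]
  have hpr : p ∈ CB (S.r c) := CB_mono (C.b₁r c hc).le hp
  have h0 := h.choose_spec
  have h1 := C.RE_inv (C.ends hc) hpr hg h0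
  generalize h.choose = q at h0 h1
  obtain ⟨⟨o', c', j'⟩, p'⟩ := q
  obtain ⟨h2, -, h3, h4, h5, h6⟩ := h1
  simp only at h2 h3 h4 h5 h6 ⊢
  subst h2
  have ho : o' = o := eO_inj L (ends_ok hc) h3 hl
  subst ho
  have hok := ends_ok hc
  have hnV := ends_nV hc
  have hE := C.hγ o' c' hok hnV (eO_vO L hok hl)
  have hPD : cB o' p ∈ PDc S c' := by
    refine ⟨cB_pos hnV hg, ?_⟩
    have := cB_le (o := o') hpr
    have := S.pos c'
    linarith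
  have hγe := γ_twist C.hR hE hok.1 (CB_mem2 hpr) hg h4 hPD h6.symm
  have hn := norm_cB (o := o') (norm_eq hok.1 hg h4 h5)
  unfold th
  rw [ct_congr (a := τ) (b := b) hn.1, ct_congr (a := τ) (b := b) hn.2, h6, hγe]

end Cx

namespace Sm

variable (M : Sm L F F₀ b₁ ε)
include M

/-- (4) -/
lemma cover (hb : ∀ c ∈ Ends S, b₁ < S.r c) {c : Ch T.m} (hc : c ∈ F) {j : Fin T.d} {p : ℂ × ℂ} (hp : p ∈ CB (S.r c))
    (hg : T.Gen c p) (hs : ‖(T.map c p).1‖ < ε) (hy : ‖(T.map c p).2‖ < ε) :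
    ∃ c' ∈ F₀, ∃ j' p', (¬ IsV c' → p' ∈ CB b₁) ∧ (IsV c' → p' ∈ CB (S.r c' / 2)) ∧
      p' ∈ CB (S.r c') ∧ T.Gen c' p' ∧ wc S c' j' p' = wc S c j p := by
  obtain ⟨c', hc', p', h1, h2, h3⟩ := M.cov (T.map c p).1 (T.map c p).2 hs hy
    (fun h => sc_ne hg (congrArg Prod.fst h))
  have h3' : T.map c' p' = T.map c p := h3
  have hok' := M.ok c' (M.sub hc')
  have hp' : p' ∈ CB (S.r c') := by
    by_cases hV : IsV c'
    · exact CB_mono (half_le_self (S.pos c').le) (h2 hV)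
    · exact CB_mono (hb c' (mem_ends hok' hV)).le (h1 hV)
  have hg' : T.Gen c' p' := CDataC_250.gen_of hg h3' (M.off c hc p hp hg hs)
  obtain ⟨j', hj'⟩ := sheet_of (M.ok c hc).1 hok'.1 (j := j) (CB_mem2 hp) (CB_mem2 hp') h3'
  exact ⟨c', hc', j', p', h1, h2, hp', hg', hj'⟩

/-- (3) -/
lemma RV_inv {c : Ch T.m} (hc : c ∈ F) {j : Fin T.d} {p : ℂ × ℂ} (hp : p ∈ CB (S.r c))
    (hg : T.Gen c p) (hs : ‖(T.map c p).1‖ < ε) (h : RV L e₀ F₀ (wc S c j p)) :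
    ∃ o, eO L o c j = some e₀ ∧ (o = true ∧ IsV c ∨ ε ≤ ‖cB o p‖) := by
  obtain ⟨c', hc', hV, j', p', h1, h2, h3, h4⟩ := h
  obtain ⟨o, E, a1, a2, a3, -⟩ := M.vv c hc c' (M.sub hc') hV j j' p p' hp hg hs
    (CB_mono (half_le_self (S.pos c').le) h2) h3 h4.symm
  rw [h1] at a1
  obtain rfl := Option.some.inj a1
  exact ⟨o, a2, a3⟩

end Sm

end

end Crest.Agent.R257.CDataI_250
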