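import Mathlib
import Crest.Agent.R257.CDataI_250

/-!
Row 257, part C, task C-DATA (helper250), file J: the function `Th` in all charts.
-/

set_option autoImplicit false
set_option linter.unusedSectionVars false

noncomputable section

open Set Filter Topology MeasureTheory Metric
open scoped ENNReal

namespace Crest.Agent.R257.CDataI_250

open Crest.AlgGeometry.Germ Crest.Agent.R257.AJ387 Crest.Agent.R257.T387
open Crest.Agent.R257.Gr1_157 Crest.Agent.R257.HoB_843 Crest.Agent.R257.BP_258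
open Crest.Agent.R257.CDataA_250 Crest.Agent.R257.CDataB_250 Crest.Agent.R257.CDataE_250
open Crest.Agent.R257.CDataG_250 Crest.Agent.R257.CDataH_250
open Crest.Agent.R257.Wt_258 Crest.Agent.R257.Rsn_843 Crest.Agent.R257.Vt2_558
open Crest.Agent.R257.FrmE_547 (CB)
open Crest.Agent.R257.FrmF_547

variable {f : (Fin 3 → ℂ) → ℂ} {T : TB f} {U : Tub T} {S : Sh T}
variable {L : Lab U S} {e₀ : II U} {f₀ : XV U e₀.1.1 → ℂ}
  {γ : Bool → Ch T.m → Fin T.d → ℂ → XV U e₀.1.1} {G F F₀ : Finset (Ch T.m)} {τ b b₁ ε ρ : ℝ}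

lemma Th_of_not {x : Fin 3 → ℂ} (hx : ¬ ∃ q, RE L e₀ b₁ x q) (h : RV L e₀ F₀ x) :
    Th L e₀ f₀ γ F₀ τ b b₁ x = GG U e₀.1.1 f₀ x := by
  unfold Th
  rw [dif_neg hx, if_pos h]

lemma Th_of_not' {x : Fin 3 → ℂ} (hx : ¬ ∃ q, RE L e₀ b₁ x q) (h : ¬ RV L e₀ F₀ x) :
    Th L e₀ f₀ γ F₀ τ b b₁ x = 0 := by
  unfold Th
  rw [dif_neg hx, if_neg h]

/-- (V) labelled vertex charts -/
theorem formV (hb : ∀ c ∈ Ends S, b₁ < S.r c) (M : Sm L F F₀ b₁ ε) {c : Ch T.m} (hc : c ∈ F)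
    (hV : IsV c) {j : Fin T.d} (hl : L.e1 c j = some e₀) {p : ℂ × ℂ} (hp : p ∈ CB (S.r c))
    (hg : T.Gen c p) (hs : ‖(T.map c p).1‖ < ε) (hy : ‖(T.map c p).2‖ < ε)
    (hx : ¬ ∃ q, RE L e₀ b₁ (wc S c j p) q) :
    Th L e₀ f₀ γ F₀ τ b b₁ (wc S c j p) = GG U e₀.1.1 f₀ (wc S c j p) := by
  obtain ⟨c', hc', j', p', h1, h2, h3, h4, h5⟩ := M.cover hb hc (j := j) hp hg hs hy
  have hm : T.map c' p' = T.map c p := map_wc h5
  by_cases hV' : IsV c'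
  · refine Th_of_not hx ⟨c', hc', hV', j', p', ?_, h2 hV', h4, h5⟩
    obtain ⟨o, E, a1, a2, -, -⟩ := M.vv c hc c' (M.sub hc') hV' j j' p p' hp hg hs h3 h4 h5.symm
    have ho : o = true := eO_V L (M.ok c hc) hV a2
    subst ho
    have a2' : L.e1 c j = some E := a2
    rw [hl] at a2'
    rw [a1, a2']
  · exfalso
    apply hx
    obtain ⟨o, E, a1, a2, -, -⟩ := M.vv c' (M.sub hc') c hc hV j' j p' p h3 h4
      (by rw [hm]; exact hs) hp hg h5
    rw [hl] at a1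
    obtain rfl := Option.some.inj a1
    exact ⟨((o, c', j'), p'), mem_ends (M.ok c' (M.sub hc')) hV', a2, h1 hV', h4, h5⟩

/-- (Z) unlabelled charts -/
theorem formZ (M : Sm L F F₀ b₁ ε) {c : Ch T.m} (hc : c ∈ F) {j : Fin T.d}
    (hl : ∀ o, eO L o c j ≠ some e₀) {p : ℂ × ℂ} (hp : p ∈ CB (S.r c))
    (hg : T.Gen c p) (hs : ‖(T.map c p).1‖ < ε)
    (hx : ¬ ∃ q, RE L e₀ b₁ (wc S c j p) q) :
    Th L e₀ f₀ γ F₀ τ b b₁ (wc S c j p) = 0 := by
  refine Th_of_not' hx fun h => ?_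
  obtain ⟨o, h1, -⟩ := M.RV_inv hc hp hg hs h
  exact hl o h1

lemma Cx.noREV (C : Cx L e₀ f₀ γ G F₀ τ b b₁) {c : Ch T.m} (hc : c ∈ G) (hV : IsV c) {j : Fin T.d}
    {p : ℂ × ℂ} (hp : p ∈ CB (S.r c)) (hg : T.Gen c p) :
    ¬ ∃ q, RE L e₀ b₁ (wc S c j p) q := by
  rintro ⟨q, hq⟩
  obtain ⟨h1, -⟩ := C.RE_inv hc hp hg hq
  exact ends_nV hq.1 (h1 ▸ hV)

lemma Cx.noREU (C : Cx L e₀ f₀ γ G F₀ τ b b₁) {c : Ch T.m} (hc : c ∈ G) {j : Fin T.d}
    (hl : ∀ o, eO L o c j ≠ some e₀) {p : ℂ × ℂ} (hp : p ∈ CB (S.r c)) (hg : T.Gen c p) :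
    ¬ ∃ q, RE L e₀ b₁ (wc S c j p) q := by
  rintro ⟨q, hq⟩
  obtain ⟨-, -, h1, -⟩ := C.RE_inv hc hp hg hq
  exact hl _ h1

/-- (E) labelled ends -/
theorem formE (C : Cx L e₀ f₀ γ G F₀ τ b b₁) (M : Sm L F F₀ b₁ ε) (hρ : ρ ≤ b₁ * min ε τ)
    {o : Bool} {c : Ch T.m} (hc : c ∈ Ends S) {j : Fin T.d} (hl : eO L o c j = some e₀)
    {p : ℂ × ℂ} (hp : p ∈ CB (S.r c)) (hg : T.Gen c p) (hs : ‖(T.map c p).1‖ < ρ)
    (hy : ‖(T.map c p).2‖ < ρ) :
    Th L e₀ f₀ γ F₀ τ b b₁ (wc S c j p) = th U S f₀ γ τ b o c j p := by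
  by_cases hpb : p ∈ CB b₁
  · exact C.Th_E hc hl hpb hg
  have hτ := C.τ_pos
  have hb0 : 0 < b := hτ.trans C.τ_b
  have hb₁ : 0 < b₁ := hb0.trans C.b_b₁
  have hε := M.pos
  have hmin : 0 < min ε τ := lt_min hε hτ
  have hρε : ρ ≤ ε := hρ.trans ((mul_le_of_le_one_left hmin.le C.b₁1).trans (min_le_left _ _))
  have hnV := ends_nV hc
  have hcF₀ := C.ends hc
  have hcF := M.sub (C.sub hcF₀)
  have hok := ends_ok hc
  have hnoRE : ¬ ∃ q, RE L e₀ b₁ (wc S c j p) q := by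
    rintro ⟨q, hq⟩
    exact hpb (C.RE_inv hcF₀ hp hg hq).2.1
  have hvO := eO_vO L hok hl
  have hcase : b₁ < ‖cA o p‖ ∨ (‖cA o p‖ ≤ b₁ ∧ b₁ < ‖cB o p‖) := by
    rcases lt_or_ge b₁ ‖cA o p‖ with h | h
    · exact Or.inl h
    · refine Or.inr ⟨h, not_le.1 fun h2 => hpb ?_⟩
      cases o
      · exact ⟨h2, h⟩
      · exact ⟨h, h2⟩
  rcases hcase with hA | ⟨hA, hB⟩
  · have h1 : th U S f₀ γ τ b o c j p = 0 := by
      unfold th
      rw [ct_zero hτ C.τ_b (C.b_b₁.trans hA).le]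
      simp
    rw [h1]
    refine Th_of_not' hnoRE fun h => ?_
    obtain ⟨o', h2, h3⟩ := M.RV_inv hcF hp hg (hs.trans_le hρε) h
    have ho : o' = o := eO_inj L hok h2 hl
    subst ho
    have h4 : ε ≤ ‖cB o' p‖ := h3.resolve_left fun h => hnV h.2
    have h5 : ‖cA o' p‖ * min ε 1 ≤ ‖(T.map c p).1‖ :=
      cA_le hvO (min_le_right _ _) (Or.inr ((min_le_left _ _).trans h4))
    have hε1 : 0 < min ε 1 := lt_min hε one_pos
    have h6 : min ε τ ≤ min ε 1 := min_le_min_left _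
      ((C.τ_b.trans C.b_b₁).le.trans C.b₁1)
    have h7 : b₁ * min ε τ ≤ ‖cA o' p‖ * min ε 1 := mul_le_mul hA.le h6 hmin.le (norm_nonneg _)
    linarith
  · have hAτ : ‖cA o p‖ < min ε τ := by
      have h5 : ‖cA o p‖ * b₁ ≤ ‖(T.map c p).1‖ := cA_le hvO C.b₁1 (Or.inr hB.le)
      by_contra h6
      push Not at h6
      have h7 : min ε τ * b₁ ≤ ‖cA o p‖ * b₁ := mul_le_mul_of_nonneg_right h6 hb₁.le
      linarith [mul_comm b₁ (min ε τ)]
    have h1 : th U S f₀ γ τ b o c j p = GG U e₀.1.1 f₀ (wc S c j p) := by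
      unfold th
      rw [ct_zero hτ C.τ_b (C.b_b₁.trans hB).le, ct_one hτ C.τ_b (hAτ.le.trans (min_le_right _ _))]
      simp
    rw [h1]
    refine Th_of_not hnoRE ?_
    obtain ⟨c', hc', j', p', h1, h2, h3, h4, h5⟩ := M.cover C.b₁r hcF (j := j) hp hg
      (hs.trans_le hρε) (hy.trans_le hρε)
    have hm : T.map c' p' = T.map c p := map_wc h5
    by_cases hV' : IsV c'
    · obtain ⟨o', E, a1, a2, a3, -⟩ := M.vv c hcF c' (M.sub hc') hV' j j' p p' hp hg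
        (hs.trans_le hρε) h3 h4 h5.symm
      have h6 : ε ≤ ‖cB o' p‖ := a3.resolve_left fun h => hnV h.2
      have ho : o' = o := by
        by_contra hne
        have h7 : cB o' p = cA o p := by
          cases o <;> cases o'
          · exact absurd rfl hne
          · rfl
          · rfl
          · exact absurd rfl hne
        rw [h7] at h6
        exact absurd (hAτ.trans_le (min_le_left _ _)) (not_lt.2 h6)
      subst ho
      rw [hl] at a2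
      exact ⟨c', hc', hV', j', p', by rw [a1, ← a2], h2 hV', h4, h5⟩
    · exfalso
      have hp'b := h1 hV'
      by_cases hcc : c = c'
      · subst hcc
        have hn := norm_eq hok.1 h4 hg hm
        exact hpb ⟨hn.1.trans_le hp'b.1, hn.2.trans_le hp'b.2⟩
      · exact C.sep c hcF₀ c' (mem_ends (M.ok c' (M.sub hc')) hV') hcc p hp p' hp'b hg h4 hm.symm

end Crest.Agent.R257.CDataI_250
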