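import Mathlib
import Crest.Agent.R257.CDataJ_250

/-!
Row 257, part C, task C-DATA (helper250), file K: estimates of the function `th` in the chart of an end.
-/

set_option autoImplicit false
set_option linter.unusedSectionVars false

noncomputable section

open Set Filter Topology MeasureTheory Metric
open scoped ENNReal

namespace Crest.Agent.R257.CDataI_250

open Crest.AlgGeometry.Germ Crest.Agent.R257.AJ387 Crest.Agent.R257.T387
open Crest.Agent.R257.Gr1_157 Crest.Agent.R257.HoB_843 Crest.Agent.R257.BP_258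
open Crest.Agent.R257.CDataA_250 Crest.Agent.R257.CDataB_250 Crest.Agent.R257.CDataE_250
open Crest.Agent.R257.CDataG_250 Crest.Agent.R257.CDataH_250
open Crest.Agent.R257.Wt_258 Crest.Agent.R257.Rsn_843 Crest.Agent.R257.Vt2_558
open Crest.Agent.R257.FrmE_547 (CB)
open Crest.Agent.R257.FrmF_547

variable {f : (Fin 3 → ℂ) → ℂ} {T : TB f} {U : Tub T} {S : Sh T}
variable {L : Lab U S} {e₀ : II U} {f₀ : XV U e₀.1.1 → ℂ}
  {γ : Bool → Ch T.m → Fin T.d → ℂ → XV U e₀.1.1} {G F F₀ : Finset (Ch T.m)} {τ b b₁ ε ρ : ℝ}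

/-- an annulus -/
def An (a r : ℝ) : Set ℂ := {z | a ≤ ‖z‖ ∧ ‖z‖ ≤ r}

lemma isCompact_An (a r : ℝ) : IsCompact (An a r) := by
  have h1 : An a r = {z : ℂ | a ≤ ‖z‖} ∩ closedBall (0 : ℂ) r := by
    ext z
    simp [An]
  rw [h1]
  exact (isCompact_closedBall _ _).inter_left (isClosed_le continuous_const continuous_norm)

lemma An_sub {c : Ch T.m} {a : ℝ} (ha : 0 < a) : An a (S.r c) ⊆ PDc S c := fun z hz =>
  ⟨ha.trans_le hz.1, hz.2.trans_lt (by have := S.pos c; linarith)⟩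

/-- `1 ≤ C |b|^e` away from `0` -/
lemma one_le_rpow {a : ℝ} (ha : 0 < a) (e : ℝ) {u : ℝ} (hu : a ≤ u) (hu1 : u ≤ 1) :
    1 ≤ a ^ (-|-e|) * u ^ e := by
  have hu0 : 0 < u := ha.trans_le hu
  have h1 := rpow_le_of (x := -e) ha hu hu1
  have h2 : u ^ (-e) * u ^ e = 1 := by rw [← Real.rpow_add hu0]; simp
  calc (1 : ℝ) = u ^ (-e) * u ^ e := h2.symm
    _ ≤ _ := mul_le_mul_of_nonneg_right h1 (Real.rpow_nonneg hu0.le _)

/-- growth on the whole punctured disc -/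
lemma growth (hR : RetStmt U) {o : Bool} {c : Ch T.m} {v : Vtx} (hvV : v ∈ Vs T)
    {γ : Fin T.d → ℂ → XV U v} (h : EndO U S o c v γ)
    {f₀ : XV U v → ℂ} (hf : HolX (pV U v) f₀) (j : Fin T.d) {e : ℝ}
    (hg : ∃ C r : ℝ, 0 < r ∧ ∀ b : ℂ, 0 < ‖b‖ → ‖b‖ < r → ‖f₀ (γ j b)‖ ≤ C * ‖b‖ ^ e) :
    ∃ C : ℝ, 0 < C ∧ ∀ b : ℂ, 0 < ‖b‖ → ‖b‖ ≤ S.r c → ‖f₀ (γ j b)‖ ≤ C * ‖b‖ ^ e := by
  obtain ⟨C, r, hr, h1⟩ := hg
  have hcont : ContinuousOn (fun b => f₀ (γ j b)) (An r (S.r c)) := fun b hb =>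
    (h.an_f hR hvV hf j (An_sub hr hb)).continuousAt.continuousWithinAt
  obtain ⟨M, hM⟩ := (isCompact_An r (S.r c)).exists_bound_of_continuousOn hcont
  refine ⟨max C 1 + max M 1 * r ^ (-|-e|), by positivity, fun b hb hbr => ?_⟩
  rcases lt_or_ge ‖b‖ r with h2 | h2
  · refine (h1 b hb h2).trans (mul_le_mul_of_nonneg_right ?_ (Real.rpow_nonneg (norm_nonneg _) _))
    have : 0 < max M 1 * r ^ (-|-e|) := by positivity
    linarith [le_max_left C 1]
  · refine (hM b ⟨h2, hbr⟩).trans ?_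
    have h3 := one_le_rpow hr e h2 (hbr.trans ((S.le c).trans (by norm_num)))
    have h4 : 0 < ‖b‖ ^ e := Real.rpow_pos_of_pos hb _
    calc M ≤ max M 1 := le_max_left _ _
      _ ≤ max M 1 * (r ^ (-|-e|) * ‖b‖ ^ e) := le_mul_of_one_le_right (by positivity) h3
      _ = max M 1 * r ^ (-|-e|) * ‖b‖ ^ e := by ring
      _ ≤ _ := mul_le_mul_of_nonneg_right (by linarith [le_max_right C 1]) h4.le

/-- `|α|` is small if `s` is small -/
lemma small_A {o : Bool} {c : Ch T.m} {v : Vtx} (hv : vO T o c = some v) {τ a : ℝ} (hτ : 0 < τ)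
    (ha : 0 < a) : ∃ ε > 0, ∀ p : ℂ × ℂ, ‖(T.map c p).1‖ < ε →
      (o = true ∧ IsV c ∨ τ ≤ ‖cB o p‖) → ‖cA o p‖ < a := by
  have hτ' : 0 < min τ 1 := lt_min hτ one_pos
  refine ⟨a * min τ 1, mul_pos ha hτ', fun p hs h => ?_⟩
  have h3 := cA_le (δ := min τ 1) hv (min_le_right _ _) (h.imp_right fun h => (min_le_left _ _).trans h)
  exact lt_of_mul_lt_mul_right (h3.trans_lt hs) hτ'.le

/-- the size of `∂̄ th` -/
def kz (τ : ℝ) (e : ℝ) (o : Bool) (p : ℂ × ℂ) : ℝ :=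
  if τ ≤ ‖cB o p‖ then ‖cA o p‖ else if τ ≤ ‖cA o p‖ then ‖cB o p‖ ^ e else 0

/-- cut-off functions of one coordinate -/
lemma ctc_smooth {a b : ℝ} {π : ℂ × ℂ → ℂ} (hπ : ContDiff ℝ (⊤ : ℕ∞) π) :
    ContDiff ℝ (⊤ : ℕ∞) fun p => ct a b (π p) := ct_smooth.comp hπ

lemma cA_smooth (o : Bool) : ContDiff ℝ (⊤ : ℕ∞) (cA o) := by
  cases o
  · exact contDiff_snd
  · exact contDiff_fst

lemma cB_smooth (o : Bool) : ContDiff ℝ (⊤ : ℕ∞) (cB o) := by
  cases o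
  · exact contDiff_fst
  · exact contDiff_snd

lemma cB_an (o : Bool) (p : ℂ × ℂ) : AnalyticAt ℂ (cB o) p := by
  cases o
  · exact analyticAt_fst
  · exact analyticAt_snd

lemma ctA_fderiv (a b : ℝ) (o : Bool) (p : ℂ × ℂ) : ‖fderiv ℝ (fun p => ct a b (cA o p)) p‖ ≤
    ‖fderiv ℝ (ct a b) (cA o p)‖ := by
  have hd : HasFDerivAt (ct a b) (fderiv ℝ (ct a b) (cA o p)) (cA o p) :=
    (ct_smooth.differentiable (by simp)).differentiableAt.hasFDerivAt
  cases o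
  · have h1 : HasFDerivAt (fun p : ℂ × ℂ => ct a b (cA false p))
      ((fderiv ℝ (ct a b) (cA false p)).comp (ContinuousLinearMap.snd ℝ ℂ ℂ)) p :=
      hd.comp p hasFDerivAt_snd
    rw [h1.fderiv]
    refine (ContinuousLinearMap.opNorm_comp_le _ _).trans ?_
    exact mul_le_of_le_one_right (norm_nonneg _) (ContinuousLinearMap.norm_snd_le _ _ _)
  · have h1 : HasFDerivAt (fun p : ℂ × ℂ => ct a b (cA true p))
      ((fderiv ℝ (ct a b) (cA true p)).comp (ContinuousLinearMap.fst ℝ ℂ ℂ)) p :=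
      hd.comp p hasFDerivAt_fst
    rw [h1.fderiv]
    refine (ContinuousLinearMap.opNorm_comp_le _ _).trans ?_
    exact mul_le_of_le_one_right (norm_nonneg _) (ContinuousLinearMap.norm_fst_le _ _ _)

lemma ctB_fderiv (a b : ℝ) (o : Bool) (p : ℂ × ℂ) : ‖fderiv ℝ (fun p => ct a b (cB o p)) p‖ ≤
    ‖fderiv ℝ (ct a b) (cB o p)‖ := by
  cases o
  · exact ctA_fderiv a b true p
  · exact ctA_fderiv a b false p

/-- the list of estimates of `th` in the chart of an end -/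
structure EF (U : Tub T) (S : Sh T) {v : Vtx} (f₀ : XV U v → ℂ)
    (γ : Bool → Ch T.m → Fin T.d → ℂ → XV U v) (τ b e : ℝ) (o : Bool) (c : Ch T.m) (j : Fin T.d)
    (K ε : ℝ) : Prop where
  sm : ∀ p ∈ Og (S := S) c ε, ContDiffAt ℝ (⊤ : ℕ∞) (th U S f₀ γ τ b o c j) p
  bd : ∀ p ∈ Og (S := S) c ε, ‖th U S f₀ γ τ b o c j p‖ ≤ K * ‖cB o p‖ ^ e
  db : ∀ p ∈ Og (S := S) c ε, ∀ F₁ : ℂ × ℂ → ℂ, DifferentiableAt ℂ F₁ p → ∀ w : ℂ × ℂ,
    ‖dbE (fun q => F₁ q * th U S f₀ γ τ b o c j q) p w‖ ^ 2 ≤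
      (‖F₁ p‖ * (K * kz τ e o p)) ^ 2 * (‖w.1‖ ^ 2 + ‖w.2‖ ^ 2)

lemma EF.mono {v : Vtx} {f₀ : XV U v → ℂ} {γ : Bool → Ch T.m → Fin T.d → ℂ → XV U v}
    {τ b e : ℝ} {o : Bool} {c : Ch T.m} {j : Fin T.d} {K ε K' ε' : ℝ}
    (h : EF U S f₀ γ τ b e o c j K ε) (hK : 0 ≤ K) (hKK : K ≤ K') (hε : ε' ≤ ε) :
    EF U S f₀ γ τ b e o c j K' ε' := by
  have hkz : ∀ p, 0 ≤ kz τ e o p := fun p => by
    unfold kz
    split_ifs
    · exact norm_nonneg _
    · exact Real.rpow_nonneg (norm_nonneg _) _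
    · exact le_rfl
  refine ⟨fun p hp => h.sm p (Og_mono hε hp), fun p hp => (h.bd p (Og_mono hε hp)).trans
    (mul_le_mul_of_nonneg_right hKK (Real.rpow_nonneg (norm_nonneg _) _)), fun p hp F₁ hF w =>
    (h.db p (Og_mono hε hp) F₁ hF w).trans ?_⟩
  have := hkz p
  gcongr

theorem exists_EF (C : Cx L e₀ f₀ γ G F₀ τ b b₁) {o : Bool} {c : Ch T.m} (hc : c ∈ Ends S)
    {j : Fin T.d} (hl : eO L o c j = some e₀) {e : ℝ}
    (hg : ∃ C r : ℝ, 0 < r ∧ ∀ b : ℂ, 0 < ‖b‖ → ‖b‖ < r → ‖f₀ (γ o c j b)‖ ≤ C * ‖b‖ ^ e) :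
    ∃ K ε : ℝ, 0 < K ∧ 0 < ε ∧ EF U S f₀ γ τ b e o c j K ε := by
  have hok := ends_ok hc
  have hnV := ends_nV hc
  have hvO := eO_vO L hok hl
  have hvV : e₀.1.1 ∈ Vs T := e₀.1.2
  have hR := C.hR
  have hτ := C.τ_pos
  have hγ := C.hγ o c hok hnV hvO
  have hr := S.pos c
  obtain ⟨Kg, hKg, hgr⟩ := growth hR hvV hγ C.hf j hg
  obtain ⟨ε₁, h1, hnear⟩ := nearS L hok hl hτ
  obtain ⟨a₁, ha₁, K₁, hest⟩ := hγ.est hR hvV C.hf hok.1 hvO j (isCompact_An τ (S.r c)) (An_sub hτ)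
  obtain ⟨a₂, ha₂, K₂, hbd⟩ := GG_bd (S := S) hR hvV C.hf (o := o) hok.1 hvO j
    (isCompact_An τ (S.r c)) (fun b hb => ⟨(An_sub hτ hb).2, Or.inl (norm_pos_iff.1 (An_sub hτ hb).1)⟩)
  obtain ⟨ε₂, h2, hA⟩ := small_A hvO hτ (lt_min (lt_min ha₁ ha₂) hτ)
  obtain ⟨Cχ, hCχ0, hCχ⟩ := ct_bd hτ C.τ_b
  have hPD : ∀ p ∈ Og (S := S) c (min ε₁ ε₂), cB o p ∈ PDc S c := by
    intro p hp
    have h3 : ‖cB o p‖ ≤ S.r c := cB_le (o := o) ⟨hp.1.le, hp.2.1.le⟩
    exact ⟨cB_pos hnV hp.2.2.1, by linarith⟩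
  -- the analytic factor along the axis
  have hga : ∀ p ∈ Og (S := S) c (min ε₁ ε₂), AnalyticAt ℂ (fun q => f₀ (γ o c j (cB o q))) p := by
    intro p hp
    exact AnalyticAt.comp (g := fun z => f₀ (γ o c j z)) (f := cB o)
      (hγ.an_f hR hvV C.hf j (hPD p hp)) (cB_an o p)
  -- near the axis
  have hGa : ∀ p ∈ Og (S := S) c (min ε₁ ε₂), τ ≤ ‖cB o p‖ →
      AnalyticAt ℂ (fun q => GG U e₀.1.1 f₀ (wc S c j q)) p := by
    intro p hp hB
    obtain ⟨h3, -⟩ := hnear p ⟨hp.1.le, hp.2.1.le⟩ hp.2.2.1 (hp.2.2.2.trans_le (min_le_left _ _))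
      (Or.inr hB)
    exact GG_an_wc hR C.hf hok.1 j (Og_mem2 hp) h3
  have hAsm : ∀ p ∈ Og (S := S) c (min ε₁ ε₂), τ ≤ ‖cB o p‖ → ‖cA o p‖ < min (min a₁ a₂) τ :=
    fun p hp hB => hA p (hp.2.2.2.trans_le (min_le_right _ _)) (Or.inr hB)
  -- local forms
  have hform1 : ∀ p : ℂ × ℂ, ‖cB o p‖ < τ → th U S f₀ γ τ b o c j =ᶠ[𝓝 p]
      fun q => f₀ (γ o c j (cB o q)) * (ct τ b (cA o q) : ℂ) := by
    intro p hp
    filter_upwards [((continuous_cB o).norm.isOpen_preimage _ isOpen_Iio).mem_nhds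
      (show ‖cB o p‖ ∈ Iio τ from hp)] with q hq
    unfold th
    rw [ct_one hτ C.τ_b (le_of_lt hq)]
    simp
  have hform2 : ∀ p : ℂ × ℂ, ‖cA o p‖ < τ → th U S f₀ γ τ b o c j =ᶠ[𝓝 p]
      fun q => GG U e₀.1.1 f₀ (wc S c j q) + (f₀ (γ o c j (cB o q)) - GG U e₀.1.1 f₀ (wc S c j q)) *
        (ct τ b (cB o q) : ℂ) := by
    intro p hp
    filter_upwards [((continuous_cA o).norm.isOpen_preimage _ isOpen_Iio).mem_nhds
      (show ‖cA o p‖ ∈ Iio τ from hp)] with q hq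
    unfold th
    rw [ct_one hτ C.τ_b (le_of_lt hq)]
    push_cast
    ring
  have hcs : ∀ (π : ℂ × ℂ → ℂ), ContDiff ℝ (⊤ : ℕ∞) π → ∀ p,
      ContDiffAt ℝ (⊤ : ℕ∞) (fun q => (ct τ b (π q) : ℂ)) p := fun π hπ p =>
    (Complex.ofRealCLM.contDiff.comp (ctc_smooth hπ)).contDiffAt
  have hrs : ∀ {g : ℂ × ℂ → ℂ} {p : ℂ × ℂ}, AnalyticAt ℂ g p → ContDiffAt ℝ (⊤ : ℕ∞) g p :=
    fun h => h.contDiffAt.restrict_scalars ℝ
  refine ⟨max Kg 1 + max Kg 1 * Cχ + max K₁ 1 * Cχ + max K₂ 1 * τ ^ (-|-e|),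
    min ε₁ ε₂, by positivity, lt_min h1 h2, ⟨?_, ?_, ?_⟩⟩
  · -- smoothness
    intro p hp
    rcases lt_or_ge ‖cB o p‖ τ with hB | hB
    · exact ((hrs (hga p hp)).mul (hcs _ (cA_smooth o) p)).congr_of_eventuallyEq (hform1 p hB)
    · have h3 := hrs (hga p hp)
      have h4 := hrs (hGa p hp hB)
      exact (h4.add ((h3.sub h4).mul (hcs _ (cB_smooth o) p))).congr_of_eventuallyEq
        (hform2 p ((hAsm p hp hB).trans_le (min_le_right _ _)))
  · -- the bound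
    intro p hp
    have hBpos : 0 < ‖cB o p‖ := (hPD p hp).1
    have hBr : ‖cB o p‖ ≤ S.r c := cB_le (o := o) ⟨hp.1.le, hp.2.1.le⟩
    have hrp : 0 < ‖cB o p‖ ^ e := Real.rpow_pos_of_pos hBpos _
    have hg1 := hgr _ hBpos hBr
    have hKmax : ‖f₀ (γ o c j (cB o p))‖ ≤ max Kg 1 * ‖cB o p‖ ^ e :=
      hg1.trans (mul_le_mul_of_nonneg_right (le_max_left _ _) hrp.le)
    have hχA : ‖(ct τ b (cA o p) : ℂ)‖ ≤ 1 := by
      rw [Complex.norm_real, Real.norm_of_nonneg (ct_nonneg _)]; exact ct_le_one _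
    have hp1 : 0 < max Kg 1 * Cχ := by positivity
    have hp2 : 0 < max K₁ 1 * Cχ := by positivity
    have hp3 : 0 < max K₂ 1 * τ ^ (-|-e|) := by positivity
    rcases lt_or_ge ‖cB o p‖ τ with hB | hB
    · rw [(hform1 p hB).self_of_nhds, norm_mul]
      refine (mul_le_of_le_one_right (norm_nonneg _) hχA).trans (hKmax.trans ?_)
      exact mul_le_mul_of_nonneg_right (by linarith) hrp.le
    · have hG : ‖GG U e₀.1.1 f₀ (wc S c j p)‖ ≤ max K₂ 1 * τ ^ (-|-e|) * ‖cB o p‖ ^ e := by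
        have h3 := hbd p ⟨hB, hBr⟩ (cA_pos hvO hp.2.2.1)
          ((hAsm p hp hB).trans_le ((min_le_left _ _).trans (min_le_right _ _)))
        have h4 := one_le_rpow hτ e hB (hBr.trans ((S.le c).trans (by norm_num)))
        calc ‖GG U e₀.1.1 f₀ (wc S c j p)‖ ≤ K₂ := h3
          _ ≤ max K₂ 1 := le_max_left _ _
          _ ≤ max K₂ 1 * (τ ^ (-|-e|) * ‖cB o p‖ ^ e) := le_mul_of_one_le_right (by positivity) h4
          _ = _ := by ring
      have hχB0 : ‖(ct τ b (cB o p) : ℂ)‖ ≤ 1 := by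
        rw [Complex.norm_real, Real.norm_of_nonneg (ct_nonneg _)]; exact ct_le_one _
      have hχB1 : ‖(1 - (ct τ b (cB o p) : ℂ))‖ ≤ 1 := by
        rw [← Complex.ofReal_one, ← Complex.ofReal_sub, Complex.norm_real,
          Real.norm_of_nonneg (sub_nonneg.2 (ct_le_one _))]
        linarith [ct_nonneg (a := τ) (b := b) (cB o p)]
      unfold th
      rw [norm_mul]
      refine (mul_le_of_le_one_right (norm_nonneg _) hχA).trans ?_
      refine (norm_add_le _ _).trans ?_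
      rw [norm_mul, norm_mul]
      have e1 := (mul_le_of_le_one_left (norm_nonneg (f₀ (γ o c j (cB o p)))) hχB0).trans hKmax
      have e2 := (mul_le_of_le_one_left (norm_nonneg (GG U e₀.1.1 f₀ (wc S c j p))) hχB1).trans hG
      calc _ ≤ max Kg 1 * ‖cB o p‖ ^ e + max K₂ 1 * τ ^ (-|-e|) * ‖cB o p‖ ^ e := add_le_add e1 e2
        _ = (max Kg 1 + max K₂ 1 * τ ^ (-|-e|)) * ‖cB o p‖ ^ e := by ring
        _ ≤ _ := mul_le_mul_of_nonneg_right (by linarith) hrp.le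
  · -- `∂̄`
    intro p hp F₁ hF₁ w
    have hBpos : 0 < ‖cB o p‖ := (hPD p hp).1
    have hBr : ‖cB o p‖ ≤ S.r c := cB_le (o := o) ⟨hp.1.le, hp.2.1.le⟩
    have hrp : 0 < ‖cB o p‖ ^ e := Real.rpow_pos_of_pos hBpos _
    have hp0 : 0 < max Kg 1 := by positivity
    have hp1 : 0 < max Kg 1 * Cχ := by positivity
    have hp2 : 0 < max K₁ 1 * Cχ := by positivity
    have hp3 : 0 < max K₂ 1 * τ ^ (-|-e|) := by positivity
    rcases lt_or_ge ‖cB o p‖ τ with hB | hB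
    · have h3 : (fun q => F₁ q * th U S f₀ γ τ b o c j q) =ᶠ[𝓝 p]
          fun q => (F₁ q * f₀ (γ o c j (cB o q))) * (ct τ b (cA o q) : ℂ) := by
        filter_upwards [hform1 p hB] with q hq
        rw [hq, mul_assoc]
      rw [dbE_congr h3]
      have hdF : DifferentiableAt ℂ (fun q => F₁ q * f₀ (γ o c j (cB o q))) p :=
        hF₁.mul (hga p hp).differentiableAt
      rcases lt_or_ge ‖cA o p‖ τ with hAτ | hAτ
      · have h4 := dbE_mul_le hdF (((ctc_smooth (cA_smooth o)).differentiable (by simp)) p)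
          (C := 0) (by
            refine (ctA_fderiv τ b o p).trans ?_
            rw [ct_fderiv_zero hτ C.τ_b (Or.inl hAτ), norm_zero]) w
        refine h4.trans ?_
        simp only [ne_eq, OfNat.ofNat_ne_zero, not_false_eq_true, zero_pow, mul_zero, zero_mul]
        positivity
      · have h4 := dbE_mul_le hdF (((ctc_smooth (cA_smooth o)).differentiable (by simp)) p)
          (C := Cχ) ((ctA_fderiv τ b o p).trans (hCχ _)) w
        refine h4.trans ?_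
        rw [norm_mul, ← mul_pow]
        have h5 : kz τ e o p = ‖cB o p‖ ^ e := by
          unfold kz
          rw [if_neg (not_le.2 hB), if_pos hAτ]
        rw [h5]
        have h6 : ‖F₁ p‖ * ‖f₀ (γ o c j (cB o p))‖ * Cχ ≤
            ‖F₁ p‖ * ((max Kg 1 + max Kg 1 * Cχ + max K₁ 1 * Cχ + max K₂ 1 * τ ^ (-|-e|)) *
              ‖cB o p‖ ^ e) := by
          rw [mul_assoc]
          refine mul_le_mul_of_nonneg_left ?_ (norm_nonneg _)
          calc ‖f₀ (γ o c j (cB o p))‖ * Cχ ≤ (max Kg 1 * ‖cB o p‖ ^ e) * Cχ :=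
                mul_le_mul_of_nonneg_right ((hgr _ hBpos hBr).trans
                  (mul_le_mul_of_nonneg_right (le_max_left _ _) hrp.le)) hCχ0.le
            _ = (max Kg 1 * Cχ) * ‖cB o p‖ ^ e := by ring
            _ ≤ _ := mul_le_mul_of_nonneg_right (by linarith) hrp.le
        exact mul_le_mul_of_nonneg_right (pow_le_pow_left₀ (by positivity) h6 2) (by positivity)
    · have hAs := hAsm p hp hB
      have h3 : (fun q => F₁ q * th U S f₀ γ τ b o c j q) =ᶠ[𝓝 p]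
          fun q => F₁ q * GG U e₀.1.1 f₀ (wc S c j q) +
            (F₁ q * (f₀ (γ o c j (cB o q)) - GG U e₀.1.1 f₀ (wc S c j q))) *
              (ct τ b (cB o q) : ℂ) := by
        filter_upwards [hform2 p (hAs.trans_le (min_le_right _ _))] with q hq
        rw [hq]
        ring
      rw [dbE_congr h3]
      have hG := (hGa p hp hB).differentiableAt
      have hdF : DifferentiableAt ℂ (fun q => F₁ q * (f₀ (γ o c j (cB o q)) -
          GG U e₀.1.1 f₀ (wc S c j q))) p := hF₁.mul ((hga p hp).differentiableAt.sub hG)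
      have hdχ : DifferentiableAt ℝ (fun q => ct τ b (cB o q)) p :=
        ((ctc_smooth (cB_smooth o)).differentiable (by simp)) p
      have hd0 : DifferentiableAt ℂ (fun q => F₁ q * GG U e₀.1.1 f₀ (wc S c j q)) p := hF₁.mul hG
      have hd1 : DifferentiableAt ℝ (fun q => F₁ q * GG U e₀.1.1 f₀ (wc S c j q)) p :=
        hd0.restrictScalars ℝ
      have hd2 : DifferentiableAt ℝ (fun q => (F₁ q * (f₀ (γ o c j (cB o q)) -
          GG U e₀.1.1 f₀ (wc S c j q))) * (ct τ b (cB o q) : ℂ)) p :=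
        (hdF.restrictScalars ℝ).mul (Complex.ofRealCLM.differentiableAt.comp p hdχ)
      rw [dbE_add hd1 hd2, dbE_hol hd0 w, zero_add]
      refine (dbE_mul_le hdF hdχ (C := Cχ) ((ctB_fderiv τ b o p).trans (hCχ _)) w).trans ?_
      rw [norm_mul, ← mul_pow]
      have h5 : kz τ e o p = ‖cA o p‖ := by
        unfold kz
        rw [if_pos hB]
      rw [h5]
      have h7 := hest p ⟨hB, hBr⟩ (cA_pos hvO hp.2.2.1)
        (hAs.trans_le ((min_le_left _ _).trans (min_le_left _ _)))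
      rw [norm_sub_rev] at h7
      have h6 : ‖F₁ p‖ * ‖f₀ (γ o c j (cB o p)) - GG U e₀.1.1 f₀ (wc S c j p)‖ * Cχ ≤
          ‖F₁ p‖ * ((max Kg 1 + max Kg 1 * Cχ + max K₁ 1 * Cχ + max K₂ 1 * τ ^ (-|-e|)) *
            ‖cA o p‖) := by
        rw [mul_assoc]
        refine mul_le_mul_of_nonneg_left ?_ (norm_nonneg _)
        calc ‖f₀ (γ o c j (cB o p)) - GG U e₀.1.1 f₀ (wc S c j p)‖ * Cχ
            ≤ (max K₁ 1 * ‖cA o p‖) * Cχ := mul_le_mul_of_nonneg_right (h7.trans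
              (mul_le_mul_of_nonneg_right (le_max_left _ _) (norm_nonneg _))) hCχ0.le
          _ = (max K₁ 1 * Cχ) * ‖cA o p‖ := by ring
          _ ≤ _ := mul_le_mul_of_nonneg_right (by linarith) (norm_nonneg _)
      exact mul_le_mul_of_nonneg_right (pow_le_pow_left₀ (by positivity) h6 2) (by positivity)

end Crest.Agent.R257.CDataI_250
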