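import Mathlib
import Crest.Agent.R257.CDataK_250
import Crest.Agent.R257.Wt1_258

/-!
Row 257, part C, task C-DATA (helper250), file L: estimates with real exponents, the shift of the weight by
`a log |s|²`, the hypotheses `NH` of the null data.
-/

set_option autoImplicit false
set_option linter.unusedSectionVars false

noncomputable section

open Set Filter Topology MeasureTheory Metric
open scoped ENNReal

namespace Crest.Agent.R257.CDataL_250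

open Crest.AlgGeometry.Germ Crest.Agent.R257.AJ387 Crest.Agent.R257.T387
open Crest.Agent.R257.Gr1_157 Crest.Agent.R257.HoB_843 Crest.Agent.R257.BP_258
open Crest.Agent.R257.CDataA_250 Crest.Agent.R257.CDataB_250 Crest.Agent.R257.CDataE_250
open Crest.Agent.R257.CDataG_250 Crest.Agent.R257.CDataH_250
open Crest.Agent.R257.Wt_258 Crest.Agent.R257.Rsn_843 Crest.Agent.R257.Vt2_558
open Crest.Agent.R257.FrmE_547 (CB)
open Crest.Agent.R257.FrmF_547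

variable {f : (Fin 3 → ℂ) → ℂ} {T : TB f} {U : Tub T} {S : Sh T}

/-! ### real exponents -/

lemma pwr {u : ℝ} (hu : 0 < u) (m : ℝ) (n : ℤ) (y : ℝ) :
    (u ^ m) ^ 2 * u ^ (-2 * y) * (u ^ (-n - 1)) ^ 2 = u ^ (2 * (m - y - n) - 2) := by
  rw [← Real.rpow_intCast u (-n - 1), ← Real.rpow_natCast _ 2,
    ← Real.rpow_natCast _ 2, ← Real.rpow_mul hu.le, ← Real.rpow_mul hu.le, ← Real.rpow_add hu,
    ← Real.rpow_add hu]
  congr 1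
  push_cast
  ring

/-- the estimate in the zone `a ≤ |β|` -/
lemma zone1r {m1 m2 : ℝ} {y1 y2 C K a : ℝ} {n1 n2 : ℤ} (ha : 0 < a)
    (u v : ℝ) (hu : 0 < u) (hv : a ≤ v) (hv1 : v ≤ 1) (Φ dn : ℝ)
    (hΦ : y1 * Real.log (u ^ 2) + y2 * Real.log (v ^ 2) - C ≤ Φ)
    (hd : 0 ≤ dn) (hdn : dn ≤ K * (u ^ (-n1 - 1) * v ^ (-n2 - 1))) :
    (u ^ m1 * v ^ m2) ^ 2 * Real.exp (-Φ) * dn ^ 2 ≤
      (Real.exp C * K ^ 2 * a ^ (-|2 * (m2 - y2 - n2) - 2|)) *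
        u ^ (2 * (m1 - y1 - n1) - 2) := by
  have hv0 : 0 < v := ha.trans_le hv
  have h1 : Real.exp (-Φ) ≤ Real.exp C * (u ^ (-2 * y1) * v ^ (-2 * y2)) := by
    have e1 : Real.exp (-Φ) ≤ Real.exp (C + (-(y1 * Real.log (u ^ 2)) + -(y2 * Real.log (v ^ 2)))) :=
      Real.exp_le_exp.2 (by linarith)
    refine e1.trans ?_
    rw [Real.exp_add, Real.exp_add, exp_log_sq hu, exp_log_sq hv0]
  have h2 : dn ^ 2 ≤ K ^ 2 * ((u ^ (-n1 - 1)) ^ 2 * (v ^ (-n2 - 1)) ^ 2) := by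
    calc dn ^ 2 ≤ (K * (u ^ (-n1 - 1) * v ^ (-n2 - 1))) ^ 2 := pow_le_pow_left₀ hd hdn 2
      _ = _ := by ring
  calc (u ^ m1 * v ^ m2) ^ 2 * Real.exp (-Φ) * dn ^ 2
      ≤ (u ^ m1 * v ^ m2) ^ 2 * (Real.exp C * (u ^ (-2 * y1) * v ^ (-2 * y2))) *
        (K ^ 2 * ((u ^ (-n1 - 1)) ^ 2 * (v ^ (-n2 - 1)) ^ 2)) := by gcongr
    _ = (Real.exp C * K ^ 2 *
        ((v ^ m2) ^ 2 * v ^ (-2 * y2) * (v ^ (-n2 - 1)) ^ 2)) *
        ((u ^ m1) ^ 2 * u ^ (-2 * y1) * (u ^ (-n1 - 1)) ^ 2) := by ring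
    _ ≤ _ := by
        rw [pwr hu, pwr hv0]
        have h3 := rpow_le_of (x := 2 * (m2 - y2 - n2) - 2) ha hv hv1
        gcongr

/-- the estimate without weight -/
lemma zone0r {m1 m2 : ℝ} {K : ℝ} {n1 n2 : ℤ} (u v : ℝ) (hu : 0 < u) (hv : 0 < v) (dn : ℝ)
    (hd : 0 ≤ dn) (hdn : dn ≤ K * (u ^ (-n1 - 1) * v ^ (-n2 - 1))) :
    (u ^ m1 * v ^ m2) ^ 2 * dn ^ 2 ≤
      K ^ 2 * (u ^ (2 * (m1 - n1) - 2) * v ^ (2 * (m2 - n2) - 2)) := by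
  have h2 : dn ^ 2 ≤ K ^ 2 * ((u ^ (-n1 - 1)) ^ 2 * (v ^ (-n2 - 1)) ^ 2) := by
    calc dn ^ 2 ≤ (K * (u ^ (-n1 - 1) * v ^ (-n2 - 1))) ^ 2 := pow_le_pow_left₀ hd hdn 2
      _ = _ := by ring
  have e1 := pwr hu m1 n1 0
  have e2 := pwr hv m2 n2 0
  simp only [mul_zero, Real.rpow_zero, mul_one, sub_zero] at e1 e2
  calc (u ^ m1 * v ^ m2) ^ 2 * dn ^ 2
      ≤ (u ^ m1 * v ^ m2) ^ 2 * (K ^ 2 * ((u ^ (-n1 - 1)) ^ 2 * (v ^ (-n2 - 1)) ^ 2)) := by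
        gcongr
    _ = K ^ 2 * (((u ^ m1) ^ 2 * (u ^ (-n1 - 1)) ^ 2) * ((v ^ m2) ^ 2 * (v ^ (-n2 - 1)) ^ 2)) := by
        ring
    _ = _ := by rw [e1, e2]

/-! ### selection by the orientation -/

/-- first or second -/
def sO {α : Type*} (o : Bool) (x y : α) : α := if o then x else y

lemma mono_sO (o : Bool) (p : ℂ × ℂ) (h1 h2 : ℝ) : ‖p.1‖ ^ h1 * ‖p.2‖ ^ h2 =
    ‖cA o p‖ ^ (sO o h1 h2) * ‖cB o p‖ ^ (sO o h2 h1) := by
  cases o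
  · exact mul_comm _ _
  · rfl

lemma zmono_sO (o : Bool) (p : ℂ × ℂ) (h1 h2 : ℤ) : ‖p.1‖ ^ (-h1 - 1) * ‖p.2‖ ^ (-h2 - 1) =
    ‖cA o p‖ ^ (-(sO o h1 h2) - 1) * ‖cB o p‖ ^ (-(sO o h2 h1) - 1) := by
  cases o
  · exact mul_comm _ _
  · rfl

lemma ylog_sO (L : Lab U S) (y : II U → ℝ) (o : Bool) (c : Ch T.m) (j : Fin T.d) (p : ℂ × ℂ) :
    yo y (L.e1 c j) * Real.log (‖p.1‖ ^ 2) + yo y (L.e2 c j) * Real.log (‖p.2‖ ^ 2) =
      yo y (eO L o c j) * Real.log (‖cA o p‖ ^ 2) + yo y (eO L (!o) c j) * Real.log (‖cB o p‖ ^ 2) := by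
  cases o
  · exact add_comm _ _
  · rfl

/-- strict plurisubharmonicity, both axes -/
lemma st_sO {L : Lab U S} {y : II U → ℝ} {F : Finset (Ch T.m)} {τ : ℝ} {Φ : (Fin 3 → ℂ) → ℝ}
    {ρ₀ C c₀ : ℝ} (hW : WTk L y F univ τ 1 Φ ρ₀ C c₀) {c : Ch T.m} (hc : c ∈ F) {j : Fin T.d}
    {p : ℂ × ℂ} (hp : p ∈ Og (S := S) c ρ₀) (o : Bool) (he : eO L o c j ≠ none)
    (h : τ ≤ ‖cB o p‖) (w : ℂ × ℂ) :
    c₀ * (‖w.1‖ ^ 2 + ‖w.2‖ ^ 2) ≤ lvE (Φ ∘ wc S c j) p w := by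
  have hBD : p ∈ BD 1 1 := by
    have := S.le c
    exact ⟨hp.1.trans_le (this.trans (by norm_num)), hp.2.1.trans_le (this.trans (by norm_num))⟩
  cases o
  · exact hW.st2 c hc j (mem_univ _) p hp hBD he h w
  · exact hW.st1 c hc j (mem_univ _) p hp hBD he h w

/-! ### the shift -/

lemma sc_an' {c : Ch T.m} (p : ℂ × ℂ) : AnalyticAt ℂ (fun q => (T.map c q).1) p := by
  have h1 : (fun q => (T.map c q).1) = T.sc c := funext fun q => T.map_fst c q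
  rw [h1]
  exact T.sc_an c p

lemma lvE_shift {Φ : (Fin 3 → ℂ) → ℝ} {c : Ch T.m} {j : Fin T.d} {p : ℂ × ℂ} (hg : T.Gen c p)
    (hΦ : ContDiffAt ℝ (⊤ : ℕ∞) (Φ ∘ wc S c j) p) (a : ℝ) (w : ℂ × ℂ) :
    lvE ((fun x => Φ x + a * Real.log (‖x 1‖ ^ 2)) ∘ wc S c j) p w = lvE (Φ ∘ wc S c j) p w := by
  have h1 : ((fun x => Φ x + a * Real.log (‖x 1‖ ^ 2)) ∘ wc S c j) = fun q =>
      (Φ ∘ wc S c j) q + a * Real.log (‖(T.map c q).1‖ ^ 2) := rfl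
  have hs : ContDiffAt ℂ (⊤ : ℕ∞) (fun q => (T.map c q).1) p := (sc_an' p).contDiffAt
  have h0 : (T.map c p).1 ≠ 0 := sc_ne hg
  have hl : ContDiffAt ℝ 2 (fun q => Real.log (‖(T.map c q).1‖ ^ 2)) p :=
    (cd_log hs h0).of_le (by norm_cast)
  rw [h1, Wt_258.lvE_add (hΦ.of_le (by norm_cast)) (contDiffAt_const.mul hl),
    Wt_258.lvE_const_mul hl, Wt_258.lvE_log hs h0, mul_zero, add_zero]

lemma exp_shift {x t : ℝ} (ht : 0 < t) (a : ℕ) :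
    t ^ (2 * a) * Real.exp (-(x + a * Real.log (t ^ 2))) = Real.exp (-x) := by
  have h1 : Real.exp (-(x + a * Real.log (t ^ 2))) = Real.exp (-x) * (t ^ (2 * a))⁻¹ := by
    rw [neg_add, Real.exp_add]
    congr 1
    rw [Real.exp_neg, ← Real.log_pow, Real.exp_log (by positivity), ← pow_mul]
  rw [h1]
  have : t ^ (2 * a) ≠ 0 := by positivity
  field_simp

/-! ### the hypotheses -/

/-- the hypotheses of the null data -/
structure NH (L : Lab U S) (e₀ : II U) (f₀ : XV U e₀.1.1 → ℂ) (H : (Fin 3 → ℂ) → ℂ)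
    (y : II U → ℝ) (n1 n2 : Ch T.m → Fin T.d → ℤ) (h1 h2 e : Ch T.m → Fin T.d → ℝ)
    (a : ℕ) : Prop where
  hf : HolX (pV U e₀.1.1) f₀
  f0 : ∀ q : XV U e₀.1.1, (q : ConnectedComponents _) ≠ e₀.2 → f₀ q = 0
  gr1 : ∀ c, Ok S c → ¬ IsV c → v1 T c = some e₀.1.1 → ∀ γ, End1 U S c e₀.1.1 γ → ∀ j,
    L.e1 c j = some e₀ → ∃ C r : ℝ, 0 < r ∧ ∀ b : ℂ, 0 < ‖b‖ → ‖b‖ < r →
      ‖f₀ (γ j b)‖ ≤ C * ‖b‖ ^ e c j
  gr2 : ∀ c, Ok S c → ¬ IsV c → v2 T c = some e₀.1.1 → ∀ γ, End2 U S c e₀.1.1 γ → ∀ j,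
    L.e2 c j = some e₀ → ∃ C r : ℝ, 0 < r ∧ ∀ b : ℂ, 0 < ‖b‖ → ‖b‖ < r →
      ‖f₀ (γ j b)‖ ≤ C * ‖b‖ ^ e c j
  hH : ∀ c, Ok S c → ∀ j, (L.e1 c j = some e₀ ∨ L.e2 c j = some e₀) → ∃ C r : ℝ, 0 < r ∧
    ∀ p ∈ Og (S := S) c r, AnalyticAt ℂ (fun p => H (wc S c j p)) p ∧
      ‖H (wc S c j p)‖ ≤ C * (‖p.1‖ ^ h1 c j * ‖p.2‖ ^ h2 c j)
  near1 : ∀ c, Ok S c → ¬ IsV c → ∀ j, L.e1 c j = some e₀ →
    y e₀ + n1 c j < h1 c j + 1 ∧ n1 c j < h1 c j + a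
  far1 : ∀ c, Ok S c → ¬ IsV c → ∀ j, L.e1 c j = some e₀ →
    (L.e2 c j ≠ none → yo y (L.e2 c j) + n2 c j < h2 c j + e c j) ∧
      (IsE c → n2 c j < h2 c j + e c j + a) ∧ (¬ IsE c → n2 c j < h2 c j + e c j)
  near2 : ∀ c, Ok S c → ¬ IsV c → ∀ j, L.e2 c j = some e₀ →
    y e₀ + n2 c j < h2 c j + 1 ∧ n2 c j < h2 c j + a
  far2 : ∀ c, Ok S c → ¬ IsV c → ∀ j, L.e2 c j = some e₀ →
    (L.e1 c j ≠ none → yo y (L.e1 c j) + n1 c j < h1 c j + e c j) ∧ n1 c j < h1 c j + e c j + a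
  vert : ∀ c, Ok S c → IsV c → ∀ j, L.e1 c j = some e₀ →
    n1 c j < h1 c j + a ∧ n2 c j < h2 c j

section
variable {L : Lab U S} {e₀ : II U} {f₀ : XV U e₀.1.1 → ℂ} {H : (Fin 3 → ℂ) → ℂ}
    {y : II U → ℝ} {n1 n2 : Ch T.m → Fin T.d → ℤ} {h1 h2 e : Ch T.m → Fin T.d → ℝ}
    {a : ℕ}

/-- the conditions on the exponents, both axes -/
lemma NH.cond (N : NH L e₀ f₀ H y n1 n2 h1 h2 e a) {o : Bool} {c : Ch T.m} (hc : Ok S c)
    (hV : ¬ IsV c) {j : Fin T.d} (hl : eO L o c j = some e₀) :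
    y e₀ + (sO o n1 n2) c j < (sO o h1 h2) c j + 1 ∧
    ((sO o n1 n2) c j : ℝ) < (sO o h1 h2) c j + a ∧
    (eO L (!o) c j ≠ none → yo y (eO L (!o) c j) + (sO o n2 n1) c j < (sO o h2 h1) c j + e c j) ∧
    ((IsE c → ((sO o n2 n1) c j : ℝ) < (sO o h2 h1) c j + e c j + a) ∧
      (¬ IsE c → ((sO o n2 n1) c j : ℝ) < (sO o h2 h1) c j + e c j)) := by
  cases o
  · refine ⟨(N.near2 c hc hV j hl).1, (N.near2 c hc hV j hl).2, (N.far2 c hc hV j hl).1,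
      fun _ => (N.far2 c hc hV j hl).2, fun hE => ?_⟩
    exfalso
    have h3 := eO_vO L hc hl
    cases c with
    | edge i k k' => exact hE trivial
    | leg i => simp [vO, v2] at h3
    | vert i k w => exact hV trivial
  · exact ⟨(N.near1 c hc hV j hl).1, (N.near1 c hc hV j hl).2, (N.far1 c hc hV j hl).1,
      (N.far1 c hc hV j hl).2.1, (N.far1 c hc hV j hl).2.2⟩

end

/-- `|s|` in the coordinates -/
lemma s_eq {o : Bool} {c : Ch T.m} {v : Vtx} (hv : vO T o c = some v) (p : ℂ × ℂ) :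
    (IsE c → ‖(T.map c p).1‖ = ‖cA o p‖ * ‖cB o p‖) ∧ (¬ IsE c → ‖(T.map c p).1‖ = ‖cA o p‖) := by
  rw [T.map_fst]
  cases c with
  | edge i k k' =>
    refine ⟨fun _ => ?_, fun h => absurd trivial h⟩
    show ‖p.1 * p.2‖ = _
    rw [norm_mul]
    cases o
    · exact mul_comm _ _
    · rfl
  | leg i =>
    refine ⟨fun h => h.elim, fun _ => ?_⟩
    cases o
    · simp [vO, v2] at hv
    · rfl
  | vert i k w =>
    refine ⟨fun h => h.elim, fun _ => ?_⟩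
    cases o
    · simp [vO, v2] at hv
    · rfl

lemma kz_nonneg (τ e : ℝ) (o : Bool) (p : ℂ × ℂ) : 0 ≤ CDataI_250.kz τ e o p := by
  unfold CDataI_250.kz
  split_ifs
  · exact norm_nonneg _
  · exact Real.rpow_nonneg (norm_nonneg _) _
  · exact le_rfl

lemma kz_meas (τ e : ℝ) (o : Bool) : Measurable (CDataI_250.kz τ e o) := by
  unfold CDataI_250.kz
  refine Measurable.ite ?_ (continuous_cA o).norm.measurable (Measurable.ite ?_ ?_ measurable_const)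
  · exact (isClosed_le continuous_const (continuous_cB o).norm).measurableSet
  · exact (isClosed_le continuous_const (continuous_cA o).norm).measurableSet
  · exact (continuous_cB o).norm.measurable.pow_const _

end Crest.Agent.R257.CDataL_250
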