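import Mathlib
import Crest.Agent.R257.CDataL_250

/-!
Row 257, part C, task C-DATA (helper250), file M: the estimates of the null data in the chart of an end.
-/

set_option autoImplicit false
set_option linter.unusedSectionVars false

noncomputable section

open Set Filter Topology MeasureTheory Metric
open scoped ENNReal

namespace Crest.Agent.R257.CDataL_250

open Crest.AlgGeometry.Germ Crest.Agent.R257.AJ387 Crest.Agent.R257.T387
open Crest.Agent.R257.Gr1_157 Crest.Agent.R257.HoB_843 Crest.Agent.R257.BP_258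
open Crest.Agent.R257.CDataA_250 Crest.Agent.R257.CDataB_250 Crest.Agent.R257.CDataE_250
open Crest.Agent.R257.CDataG_250 Crest.Agent.R257.CDataH_250 Crest.Agent.R257.CDataI_250
open Crest.Agent.R257.Wt_258 Crest.Agent.R257.Rsn_843 Crest.Agent.R257.Vt2_558
open Crest.Agent.R257.FrmE_547 (CB)
open Crest.Agent.R257.FrmF_547

variable {f : (Fin 3 → ℂ) → ℂ} {T : TB f} {U : Tub T} {S : Sh T}

/-- `fin_int` in the coordinates `cA`, `cB` -/
lemma fin_intO {o : Bool} {A : Set (ℂ × ℂ)} (hA : MeasurableSet A) {R : ℝ}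
    (hAR : ∀ p ∈ A, ‖p.1‖ < R ∧ ‖p.2‖ < R) {G : ℂ × ℂ → ℝ} {C e e' : ℝ} (he : 0 < e) (he' : 0 < e')
    (hC : 0 ≤ C)
    (hG : ∀ p ∈ A, p.1 ≠ 0 → p.2 ≠ 0 →
      G p ≤ C * (‖cA o p‖ ^ (2 * e - 2) * ‖cB o p‖ ^ (2 * e' - 2))) :
    ∫⁻ p in A, ENNReal.ofReal (G p) ≠ ∞ := by
  cases o
  · refine fin_int hA hAR he' he hC fun p hp h1 h2 => (hG p hp h1 h2).trans (le_of_eq ?_)
    rw [mul_comm (‖p.1‖ ^ _)]
    rfl
  · exact fin_int hA hAR he he' hC hG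

/-- the bound for `∂̄` at the ends -/
def ke (h1 h2 e : Ch T.m → Fin T.d → ℝ) (a : ℕ) (τ Kc : ℝ) (o : Bool) (c : Ch T.m)
    (j : Fin T.d) (p : ℂ × ℂ) : ℝ :=
  ‖(T.map c p).1‖ ^ (2 * a) * (Kc * (‖p.1‖ ^ h1 c j * ‖p.2‖ ^ h2 c j * kz τ (e c j) o p) ^ 2)

lemma ke_nonneg {h1 h2 e : Ch T.m → Fin T.d → ℝ} {a : ℕ} {τ Kc : ℝ} (hK : 0 ≤ Kc) (o : Bool)
    (c : Ch T.m) (j : Fin T.d) (p : ℂ × ℂ) : 0 ≤ ke h1 h2 e a τ Kc o c j p := by
  unfold ke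
  positivity

lemma ke_meas {h1 h2 e : Ch T.m → Fin T.d → ℝ} {a : ℕ} {τ Kc : ℝ} (o : Bool)
    (c : Ch T.m) (j : Fin T.d) : Measurable (ke h1 h2 e a τ Kc o c j) := by
  unfold ke
  refine (((continuous_map1 c).norm.measurable).pow_const _).mul (Measurable.const_mul ?_ _)
  refine Measurable.pow_const ?_ _
  refine Measurable.mul ?_ (kz_meas _ _ _)
  exact (measurable_fst.norm.pow_const _).mul (measurable_snd.norm.pow_const _)

section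
variable {L : Lab U S} {e₀ : II U} {f₀ : XV U e₀.1.1 → ℂ} {H : (Fin 3 → ℂ) → ℂ}
    {y : II U → ℝ} {n1 n2 : Ch T.m → Fin T.d → ℤ} {h1 h2 e : Ch T.m → Fin T.d → ℝ}
    {a : ℕ} {γ : Bool → Ch T.m → Fin T.d → ℂ → XV U e₀.1.1} {G F F₀ : Finset (Ch T.m)}
    {τ b b₁ ρ : ℝ} {nu : II U → ℤ}

/-- the estimates at a labelled end -/
theorem end_est (N : NH L e₀ f₀ H y n1 n2 h1 h2 e a) (J : Jac L nu n1 n2)
    (hτ : 0 < τ) {o : Bool} {c : Ch T.m}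
    (hcE : c ∈ Ends S) (hcF : c ∈ F) {j : Fin T.d} (hl : eO L o c j = some e₀) {K : ℝ} (hK : 0 < K)
    (hEF : EF U S f₀ γ τ b (e c j) o c j K ρ)
    (hH : ∀ p ∈ Og (S := S) c ρ, AnalyticAt ℂ (fun p => H (wc S c j p)) p ∧
      ‖H (wc S c j p)‖ ≤ K * (‖p.1‖ ^ h1 c j * ‖p.2‖ ^ h2 c j))
    {Φ : (Fin 3 → ℂ) → ℝ} {ρ₀ C c₀ : ℝ} (hW : WTk L y F univ τ 1 Φ ρ₀ C c₀) (hρρ : ρ ≤ ρ₀)
    (hΦs : ∀ p ∈ Og (S := S) c ρ, ContDiffAt ℝ (⊤ : ℕ∞) (Φ ∘ wc S c j) p)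
    (hsm : ∀ p ∈ Og (S := S) c ρ, ‖(T.map c p).2‖ < ρ → (τ ≤ ‖p.2‖ → L.e1 c j ≠ none) ∧
      (τ ≤ ‖p.1‖ → L.e2 c j ≠ none)) :
    (∀ p ∈ Og (S := S) c ρ, ‖(T.map c p).2‖ < ρ → ∀ w,
      ‖dbE (fun q => ((T.map c q).1 ^ a * H (wc S c j q)) * th U S f₀ γ τ b o c j q) p w‖ ^ 2 ≤
        ke h1 h2 e a τ ((K * K) ^ 2 / c₀) o c j p *
          lvE ((fun x => Φ x + a * Real.log (‖x 1‖ ^ 2)) ∘ wc S c j) p w) ∧
    (∀ A : Set (ℂ × ℂ), MeasurableSet A → (∀ p ∈ A, p ∈ Og (S := S) c ρ ∧ ‖(T.map c p).2‖ < ρ) →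
      ∫⁻ p in A, ENNReal.ofReal (ke h1 h2 e a τ ((K * K) ^ 2 / c₀) o c j p *
        Real.exp (-(Φ (wc S c j p) + a * Real.log (‖(wc S c j p) 1‖ ^ 2))) * dn S c j p ^ 2) ≠ ∞) ∧
    (∀ A : Set (ℂ × ℂ), MeasurableSet A → (∀ p ∈ A, p ∈ Og (S := S) c ρ ∧ ‖(T.map c p).2‖ < ρ) →
      ∫⁻ p in A, ENNReal.ofReal (‖(T.map c p).1 ^ a * (H (wc S c j p) *
        th U S f₀ γ τ b o c j p)‖ ^ 2 * dn S c j p ^ 2) ≠ ∞) ∧
    ∀ p ∈ Og (S := S) c ρ, ‖H (wc S c j p) * th U S f₀ γ τ b o c j p‖ ≤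
      K * K * (‖p.1‖ ^ h1 c j * ‖p.2‖ ^ h2 c j) * ‖cB o p‖ ^ e c j := by
  have hok := ends_ok hcE
  have hnV := ends_nV hcE
  have hvO := eO_vO L hok hl
  have hc₀ := hW.c_pos
  obtain ⟨cn1, cn2, cf1, cf2, cf3⟩ := N.cond hok hnV hl
  obtain ⟨Kd, hKd, hbd⟩ := J.bd c hok j
  have hdn0 : ∀ p, 0 ≤ dn S c j p := fun p => by unfold dn; positivity
  have hOR : ∀ p ∈ Og (S := S) c ρ, ‖p.1‖ < S.r c ∧ ‖p.2‖ < S.r c := fun p hp => ⟨hp.1, hp.2.1⟩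
  have hApos : ∀ p ∈ Og (S := S) c ρ, 0 < ‖cA o p‖ := fun p hp => cA_pos hvO hp.2.2.1
  have hBpos : ∀ p ∈ Og (S := S) c ρ, 0 < ‖cB o p‖ := fun p hp => cB_pos hnV hp.2.2.1
  have hA1 : ∀ p ∈ Og (S := S) c ρ, ‖cA o p‖ ≤ 1 := fun p hp =>
    (cA_le' (o := o) ⟨hp.1.le, hp.2.1.le⟩).trans ((S.le c).trans (by norm_num))
  have hB1 : ∀ p ∈ Og (S := S) c ρ, ‖cB o p‖ ≤ 1 := fun p hp =>
    (cB_le (o := o) ⟨hp.1.le, hp.2.1.le⟩).trans ((S.le c).trans (by norm_num))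
  have hdnO : ∀ p ∈ Og (S := S) c ρ, dn S c j p ≤ Kd * (‖cA o p‖ ^ (-((sO o n1 n2) c j) - 1) *
      ‖cB o p‖ ^ (-((sO o n2 n1) c j) - 1)) := by
    intro p hp
    have h3 := (hbd p hp.1.le hp.2.1.le hp.2.2.1).2.1
    rw [zmono_sO o] at h3
    cases o <;> exact h3
  have hmono : ∀ p : ℂ × ℂ, ‖p.1‖ ^ h1 c j * ‖p.2‖ ^ h2 c j =
      ‖cA o p‖ ^ ((sO o h1 h2) c j) * ‖cB o p‖ ^ ((sO o h2 h1) c j) := by
    intro p
    rw [mono_sO o]
    cases o <;> rfl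
  have hlo : ∀ p ∈ Og (S := S) c ρ, (τ ≤ ‖cA o p‖ ∨ τ ≤ ‖cB o p‖) →
      yo y (eO L o c j) * Real.log (‖cA o p‖ ^ 2) +
        yo y (eO L (!o) c j) * Real.log (‖cB o p‖ ^ 2) - C ≤ Φ (wc S c j p) := by
    intro p hp h3
    rw [← ylog_sO]
    have hBD : p ∈ BD 1 1 := by
      have := S.le c
      exact ⟨hp.1.trans_le (this.trans (by norm_num)), hp.2.1.trans_le (this.trans (by norm_num))⟩
    refine hW.lo c hcF j (mem_univ _) p (Og_mono hρρ hp) hBD ?_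
    cases o
    · exact h3.symm
    · exact h3
  have hyo : yo y (eO L o c j) = y e₀ := by rw [hl]; rfl
  have hfar : ∀ p ∈ Og (S := S) c ρ, ‖(T.map c p).2‖ < ρ → τ ≤ ‖cA o p‖ → eO L (!o) c j ≠ none := by
    intro p hp hy h3
    cases o
    · exact (hsm p hp hy).1 h3
    · exact (hsm p hp hy).2 h3
  have hs0 : ∀ p ∈ Og (S := S) c ρ, 0 < ‖(T.map c p).1‖ := fun p hp =>
    norm_pos_iff.2 (sc_ne hp.2.2.1)
  refine ⟨?_, ?_, ?_, ?_⟩
  · -- `∂̄`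
    intro p hp hyρ w
    have hF₁ : DifferentiableAt ℂ (fun q => (T.map c q).1 ^ a * H (wc S c j q)) p :=
      ((sc_an' p).pow a).differentiableAt.mul (hH p hp).1.differentiableAt
    refine (hEF.db p hp _ hF₁ w).trans ?_
    rw [lvE_shift hp.2.2.1 (hΦs p hp)]
    have hkz := kz_nonneg τ (e c j) o p
    have hF : ‖(T.map c p).1 ^ a * H (wc S c j p)‖ ≤
        ‖(T.map c p).1‖ ^ a * (K * (‖p.1‖ ^ h1 c j * ‖p.2‖ ^ h2 c j)) := by
      rw [norm_mul, norm_pow]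
      exact mul_le_mul_of_nonneg_left (hH p hp).2 (by positivity)
    have h3 : (‖(T.map c p).1 ^ a * H (wc S c j p)‖ * (K * kz τ (e c j) o p)) ^ 2 ≤
        (‖(T.map c p).1‖ ^ a * (K * (‖p.1‖ ^ h1 c j * ‖p.2‖ ^ h2 c j)) *
          (K * kz τ (e c j) o p)) ^ 2 := by
      gcongr
    have h4 : (‖(T.map c p).1‖ ^ a * (K * (‖p.1‖ ^ h1 c j * ‖p.2‖ ^ h2 c j)) *
          (K * kz τ (e c j) o p)) ^ 2 = ke h1 h2 e a τ ((K * K) ^ 2 / c₀) o c j p * c₀ := by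
      unfold ke
      field_simp
      ring
    by_cases hz : kz τ (e c j) o p = 0
    · have h5 : ke h1 h2 e a τ ((K * K) ^ 2 / c₀) o c j p = 0 := by
        unfold ke; rw [hz]; simp
      rw [hz, h5]
      simp
    · have h5 : c₀ * (‖w.1‖ ^ 2 + ‖w.2‖ ^ 2) ≤ lvE (Φ ∘ wc S c j) p w := by
        by_cases hB : τ ≤ ‖cB o p‖
        · exact st_sO hW hcF (Og_mono hρρ hp) o (by rw [hl]; simp) hB w
        · by_cases hA : τ ≤ ‖cA o p‖
          · refine st_sO hW hcF (Og_mono hρρ hp) (!o) (hfar p hp hyρ hA) ?_ w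
            cases o
            · exact hA
            · exact hA
          · exfalso
            apply hz
            unfold kz
            rw [if_neg hB, if_neg hA]
      calc _ ≤ (ke h1 h2 e a τ ((K * K) ^ 2 / c₀) o c j p * c₀) * (‖w.1‖ ^ 2 + ‖w.2‖ ^ 2) := by
            rw [← h4]
            exact mul_le_mul_of_nonneg_right h3 (by positivity)
        _ = ke h1 h2 e a τ ((K * K) ^ 2 / c₀) o c j p * (c₀ * (‖w.1‖ ^ 2 + ‖w.2‖ ^ 2)) := by ring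
        _ ≤ _ := mul_le_mul_of_nonneg_left h5 (ke_nonneg (by positivity) _ _ _ _)
  · -- the integral of `κ`
    intro A hAm hA
    have hkey : ∀ p ∈ A, ke h1 h2 e a τ ((K * K) ^ 2 / c₀) o c j p *
        Real.exp (-(Φ (wc S c j p) + a * Real.log (‖(wc S c j p) 1‖ ^ 2))) * dn S c j p ^ 2 =
        (K * K) ^ 2 / c₀ * ((‖cA o p‖ ^ ((sO o h1 h2) c j) * ‖cB o p‖ ^ ((sO o h2 h1) c j) *
          kz τ (e c j) o p) ^ 2 * Real.exp (-Φ (wc S c j p)) * dn S c j p ^ 2) := by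
      intro p hp
      have h3 := exp_shift (x := Φ (wc S c j p)) (hs0 p (hA p hp).1) a
      have h4 : (wc S c j p) 1 = (T.map c p).1 := rfl
      unfold ke
      rw [h4, ← h3, hmono]
      ring
    have hZB : MeasurableSet {p : ℂ × ℂ | τ ≤ ‖cB o p‖} :=
      (isClosed_le continuous_const (continuous_cB o).norm).measurableSet
    have hZA : MeasurableSet {p : ℂ × ℂ | τ ≤ ‖cA o p‖} :=
      (isClosed_le continuous_const (continuous_cA o).norm).measurableSet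
    have hsub : A ⊆ (A ∩ {p | τ ≤ ‖cB o p‖}) ∪ ((A ∩ ({p | τ ≤ ‖cB o p‖}ᶜ ∩ {p | τ ≤ ‖cA o p‖})) ∪
        (A ∩ ({p | τ ≤ ‖cB o p‖}ᶜ ∩ {p | τ ≤ ‖cA o p‖}ᶜ))) := by
      intro p hp
      by_cases h3 : τ ≤ ‖cB o p‖
      · exact Or.inl ⟨hp, h3⟩
      · by_cases h4 : τ ≤ ‖cA o p‖
        · exact Or.inr (Or.inl ⟨hp, h3, h4⟩)
        · exact Or.inr (Or.inr ⟨hp, h3, h4⟩)
    refine ne_top_of_le_ne_top ?_ ((lintegral_mono_set hsub).trans ((lintegral_union_le _ _ _).trans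
      (add_le_add le_rfl (lintegral_union_le _ _ _))))
    refine ENNReal.add_ne_top.2 ⟨?_, ENNReal.add_ne_top.2 ⟨?_, ?_⟩⟩
    · -- `τ ≤ |cB|`
      refine fin_intO (o := o) (hAm.inter hZB) (fun p hp => hOR p (hA p hp.1).1)
        (e := (sO o h1 h2) c j + 1 - y e₀ - (sO o n1 n2) c j) (e' := 1)
        (C := (K * K) ^ 2 / c₀ * (Real.exp C * Kd ^ 2 *
          τ ^ (-|2 * ((sO o h2 h1) c j - yo y (eO L (!o) c j) - (sO o n2 n1) c j) - 2|)))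
        (by linarith) one_pos (by positivity) fun p hp _ _ => ?_
      obtain ⟨hpO, hpy⟩ := hA p hp.1
      have hB : τ ≤ ‖cB o p‖ := hp.2
      rw [hkey p hp.1]
      have h5 := zone1r (m1 := (sO o h1 h2) c j + 1) (m2 := (sO o h2 h1) c j)
        (y1 := yo y (eO L o c j)) (y2 := yo y (eO L (!o) c j)) (C := C) (K := Kd) (a := τ)
        (n1 := (sO o n1 n2) c j) (n2 := (sO o n2 n1) c j) hτ ‖cA o p‖ ‖cB o p‖ (hApos p hpO) hB
        (hB1 p hpO) (Φ (wc S c j p)) (dn S c j p) (hlo p hpO (Or.inr hB)) (hdn0 p) (hdnO p hpO)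
      have h6 : kz τ (e c j) o p = ‖cA o p‖ := by unfold kz; rw [if_pos hB]
      have h7 : ‖cA o p‖ ^ ((sO o h1 h2) c j) * ‖cB o p‖ ^ ((sO o h2 h1) c j) * ‖cA o p‖ =
          ‖cA o p‖ ^ ((sO o h1 h2) c j + 1) * ‖cB o p‖ ^ ((sO o h2 h1) c j) := by
        rw [Real.rpow_add (hApos p hpO), Real.rpow_one]
        ring
      have h8 : ‖cB o p‖ ^ (2 * (1 : ℝ) - 2) = 1 := by
        rw [show 2 * (1 : ℝ) - 2 = 0 by norm_num, Real.rpow_zero]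
      rw [h6, h7, h8, mul_one]
      rw [hyo] at h5
      calc _ ≤ (K * K) ^ 2 / c₀ * _ := mul_le_mul_of_nonneg_left h5 (by positivity)
        _ = _ := by ring
    · -- `|cB| < τ ≤ |cA|`
      by_cases he : eO L (!o) c j = none
      · refine fin_intO (o := o) (hAm.inter (hZB.compl.inter hZA)) (fun p hp => hOR p (hA p hp.1).1)
          (e := 1) (e' := 1) (C := 0) one_pos one_pos le_rfl fun p hp _ _ => ?_
        exact absurd he (hfar p (hA p hp.1).1 (hA p hp.1).2 hp.2.2)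
      · have cf := cf1 he
        refine fin_intO (o := o) (hAm.inter (hZB.compl.inter hZA)) (fun p hp => hOR p (hA p hp.1).1)
          (e := 1) (e' := (sO o h2 h1) c j + e c j - yo y (eO L (!o) c j) - (sO o n2 n1) c j)
          (C := (K * K) ^ 2 / c₀ * (Real.exp C * Kd ^ 2 *
            τ ^ (-|2 * ((sO o h1 h2) c j - yo y (eO L o c j) - (sO o n1 n2) c j) - 2|)))
          one_pos (by linarith) (by positivity) fun p hp _ _ => ?_
        obtain ⟨hpO, hpy⟩ := hA p hp.1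
        have hB : ¬ τ ≤ ‖cB o p‖ := hp.2.1
        have hAA : τ ≤ ‖cA o p‖ := hp.2.2
        rw [hkey p hp.1]
        have h5 := zone1r (m1 := (sO o h2 h1) c j + e c j) (m2 := (sO o h1 h2) c j)
          (y1 := yo y (eO L (!o) c j)) (y2 := yo y (eO L o c j)) (C := C) (K := Kd) (a := τ)
          (n1 := (sO o n2 n1) c j) (n2 := (sO o n1 n2) c j) hτ ‖cB o p‖ ‖cA o p‖ (hBpos p hpO) hAA
          (hA1 p hpO) (Φ (wc S c j p)) (dn S c j p)
          (by rw [add_comm (yo y (eO L (!o) c j) * _)]; exact hlo p hpO (Or.inl hAA)) (hdn0 p)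
          ((hdnO p hpO).trans (le_of_eq (by ring)))
        have h6 : kz τ (e c j) o p = ‖cB o p‖ ^ e c j := by
          unfold kz; rw [if_neg hB, if_pos hAA]
        have h7 : ‖cA o p‖ ^ ((sO o h1 h2) c j) * ‖cB o p‖ ^ ((sO o h2 h1) c j) * ‖cB o p‖ ^ e c j =
            ‖cB o p‖ ^ ((sO o h2 h1) c j + e c j) * ‖cA o p‖ ^ ((sO o h1 h2) c j) := by
          rw [Real.rpow_add (hBpos p hpO)]
          ring
        have h8 : ‖cA o p‖ ^ (2 * (1 : ℝ) - 2) = 1 := by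
          rw [show 2 * (1 : ℝ) - 2 = 0 by norm_num, Real.rpow_zero]
        rw [h6, h7, h8, one_mul]
        calc _ ≤ (K * K) ^ 2 / c₀ * _ := mul_le_mul_of_nonneg_left h5 (by positivity)
          _ = _ := by ring
    · refine fin_intO (o := o) (hAm.inter (hZB.compl.inter hZA.compl))
        (fun p hp => hOR p (hA p hp.1).1)
        (e := 1) (e' := 1) (C := 0) one_pos one_pos le_rfl fun p hp _ _ => ?_
      rw [hkey p hp.1]
      have h6 : kz τ (e c j) o p = 0 := by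
        unfold kz
        rw [if_neg (show ¬ τ ≤ ‖cB o p‖ from hp.2.1), if_neg (show ¬ τ ≤ ‖cA o p‖ from hp.2.2)]
      rw [h6]
      simp
  · -- the integral of `|D|²`
    intro A hAm hA
    obtain ⟨aB, haB, hsa⟩ : ∃ aB : ℝ, ((sO o n2 n1) c j : ℝ) < (sO o h2 h1) c j + e c j + aB ∧
        ∀ p ∈ Og (S := S) c ρ, ‖(T.map c p).1‖ ^ a = ‖cA o p‖ ^ (a : ℝ) * ‖cB o p‖ ^ aB := by
      by_cases hIE : IsE c
      · refine ⟨a, cf2 hIE, fun p hp => ?_⟩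
        rw [(s_eq hvO p).1 hIE, mul_pow, Real.rpow_natCast, Real.rpow_natCast]
      · refine ⟨0, by rw [add_zero]; exact cf3 hIE, fun p hp => ?_⟩
        rw [(s_eq hvO p).2 hIE, Real.rpow_zero, Real.rpow_natCast, mul_one]
    refine fin_intO (o := o) hAm (fun p hp => hOR p (hA p hp).1)
      (e := (sO o h1 h2) c j + a - (sO o n1 n2) c j)
      (e' := (sO o h2 h1) c j + e c j + aB - (sO o n2 n1) c j)
      (C := (K * K) ^ 2 * Kd ^ 2) (by linarith) (by linarith) (by positivity) fun p hp _ _ => ?_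
    obtain ⟨hpO, hpy⟩ := hA p hp
    have h5 := zone0r (m1 := (sO o h1 h2) c j + a) (m2 := (sO o h2 h1) c j + e c j + aB) (K := Kd)
      (n1 := (sO o n1 n2) c j) (n2 := (sO o n2 n1) c j) ‖cA o p‖ ‖cB o p‖ (hApos p hpO)
      (hBpos p hpO) (dn S c j p) (hdn0 p) (hdnO p hpO)
    have h6 : ‖(T.map c p).1 ^ a * (H (wc S c j p) * th U S f₀ γ τ b o c j p)‖ ≤
        (K * K) * (‖cA o p‖ ^ ((sO o h1 h2) c j + a) * ‖cB o p‖ ^ ((sO o h2 h1) c j + e c j + aB)) := by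
      rw [norm_mul, norm_mul, norm_pow, hsa p hpO]
      have e1 := (hH p hpO).2
      have e2 := hEF.bd p hpO
      rw [hmono] at e1
      have hA0 := hApos p hpO
      have hB0 := hBpos p hpO
      calc ‖cA o p‖ ^ (a : ℝ) * ‖cB o p‖ ^ aB * (‖H (wc S c j p)‖ * ‖th U S f₀ γ τ b o c j p‖)
          ≤ ‖cA o p‖ ^ (a : ℝ) * ‖cB o p‖ ^ aB * ((K * (‖cA o p‖ ^ ((sO o h1 h2) c j) *
            ‖cB o p‖ ^ ((sO o h2 h1) c j))) * (K * ‖cB o p‖ ^ e c j)) := by gcongr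
        _ = (K * K) * ((‖cA o p‖ ^ ((sO o h1 h2) c j) * ‖cA o p‖ ^ (a : ℝ)) *
            (‖cB o p‖ ^ ((sO o h2 h1) c j) * ‖cB o p‖ ^ e c j * ‖cB o p‖ ^ aB)) := by ring
        _ = _ := by
            rw [← Real.rpow_add hA0, ← Real.rpow_add hB0, ← Real.rpow_add hB0]
    calc _ ≤ ((K * K) * (‖cA o p‖ ^ ((sO o h1 h2) c j + a) *
          ‖cB o p‖ ^ ((sO o h2 h1) c j + e c j + aB))) ^ 2 * dn S c j p ^ 2 := by
          have := hdn0 p
          gcongr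
      _ = (K * K) ^ 2 * ((‖cA o p‖ ^ ((sO o h1 h2) c j + a) *
          ‖cB o p‖ ^ ((sO o h2 h1) c j + e c j + aB)) ^ 2 * dn S c j p ^ 2) := by ring
      _ ≤ (K * K) ^ 2 * _ := mul_le_mul_of_nonneg_left h5 (by positivity)
      _ = _ := by ring
  · intro p hp
    rw [norm_mul]
    calc ‖H (wc S c j p)‖ * ‖th U S f₀ γ τ b o c j p‖
        ≤ (K * (‖p.1‖ ^ h1 c j * ‖p.2‖ ^ h2 c j)) * (K * ‖cB o p‖ ^ e c j) :=
          mul_le_mul (hH p hp).2 (hEF.bd p hp) (norm_nonneg _) (by positivity)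
      _ = _ := by ring

end

end Crest.Agent.R257.CDataL_250
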