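import Mathlib
import Crest.Agent.R257.CDataM_250

/-!
Row 257, part C, task C-DATA (helper250), file N: **the null data** (`null_data`): `D = H · f₀ (ret)` near one
component, `0` elsewhere.
-/

set_option autoImplicit false
set_option linter.unusedSectionVars false

noncomputable section

open Set Filter Topology MeasureTheory Metric
open scoped ENNReal

namespace Crest.Agent.R257.CDataL_250

open Crest.AlgGeometry.Germ Crest.Agent.R257.AJ387 Crest.Agent.R257.T387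
open Crest.Agent.R257.Gr1_157 Crest.Agent.R257.HoB_843 Crest.Agent.R257.BP_258
open Crest.Agent.R257.CDataA_250 Crest.Agent.R257.CDataB_250 Crest.Agent.R257.CDataE_250
open Crest.Agent.R257.CDataG_250 Crest.Agent.R257.CDataH_250 Crest.Agent.R257.CDataI_250
open Crest.Agent.R257.Wt_258 Crest.Agent.R257.Rsn_843 Crest.Agent.R257.Vt2_558
open Crest.Agent.R257.FrmE_547 (CB)
open Crest.Agent.R257.FrmF_547

variable {f : (Fin 3 → ℂ) → ℂ} {T : TB f} {U : Tub T} {S : Sh T}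

section
variable {L : Lab U S} {e₀ : II U} {f₀ : XV U e₀.1.1 → ℂ} {H : (Fin 3 → ℂ) → ℂ}
    {y : II U → ℝ} {n1 n2 : Ch T.m → Fin T.d → ℤ} {h1 h2 e : Ch T.m → Fin T.d → ℝ}
    {a : ℕ} {nu : II U → ℤ}

/-- growth at the ends, both axes -/
def GR (L : Lab U S) (e₀ : II U) (f₀ : XV U e₀.1.1 → ℂ) (e : Ch T.m → Fin T.d → ℝ)
    (γ : Bool → Ch T.m → Fin T.d → ℂ → XV U e₀.1.1) : Prop :=
  ∀ o c, Ok S c → ¬ IsV c → ∀ j, eO L o c j = some e₀ → ∃ C r : ℝ, 0 < r ∧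
    ∀ b : ℂ, 0 < ‖b‖ → ‖b‖ < r → ‖f₀ (γ o c j b)‖ ≤ C * ‖b‖ ^ e c j

open Classical in
/-- the context exists -/
theorem exists_Cx (hR : RetStmt U) (hE : EndStmt L) (N : NH L e₀ f₀ H y n1 n2 h1 h2 e a)
    (F' : Finset (Ch T.m)) (hF' : ∀ c ∈ F', Ok S c) :
    ∃ (γ : Bool → Ch T.m → Fin T.d → ℂ → XV U e₀.1.1) (F₀ : Finset (Ch T.m)) (τ b b₁ : ℝ),
      Cx L e₀ f₀ γ (F' ∪ Ends S) F₀ τ b b₁ ∧ GR L e₀ f₀ e γ ∧
      ∃ ε > 0, ∀ s y : ℂ, ‖s‖ < ε → ‖y‖ < ε → (s, y) ≠ 0 → ∃ c ∈ F₀, ∃ p : ℂ × ℂ,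
        (¬ IsV c → p ∈ CB b₁) ∧ (IsV c → p ∈ CB (S.r c / 2)) ∧ T.map c p = (s, y) := by
  obtain ⟨x₀, -⟩ := ConnectedComponents.surjective_coe e₀.2
  have hγ : ∀ o : Bool, ∀ c : Ch T.m, ∃ γ : Fin T.d → ℂ → XV U e₀.1.1, Ok S c → ¬ IsV c →
      vO T o c = some e₀.1.1 → EndO U S o c e₀.1.1 γ ∧ ∀ j, eO L o c j = some e₀ →
        ∃ C r : ℝ, 0 < r ∧ ∀ b : ℂ, 0 < ‖b‖ → ‖b‖ < r → ‖f₀ (γ j b)‖ ≤ C * ‖b‖ ^ e c j := by
    intro o c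
    by_cases h : Ok S c ∧ ¬ IsV c ∧ vO T o c = some e₀.1.1
    · obtain ⟨hc, hV, hv⟩ := h
      cases o
      · obtain ⟨γ, hγ, -⟩ := (hE c hc e₀.1).2 hv
        exact ⟨γ, fun _ _ _ => ⟨endO_of_end2 hγ, fun j hj => N.gr2 c hc hV hv γ hγ j hj⟩⟩
      · obtain ⟨γ, hγ, -⟩ := (hE c hc e₀.1).1 hv
        exact ⟨γ, fun _ _ _ => ⟨endO_of_end1 hγ, fun j hj => N.gr1 c hc hV hv γ hγ j hj⟩⟩
    · exact ⟨fun _ _ => x₀, fun h1 h2 h3 => absurd ⟨h1, h2, h3⟩ h⟩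
  choose γ hγ using hγ
  have hGok : ∀ c ∈ F' ∪ Ends S, Ok S c := fun c hc =>
    (Finset.mem_union.1 hc).elim (hF' c) ends_ok
  obtain ⟨b', hb', hbr, hsep⟩ := sep_ends hGok
  set b₁ : ℝ := min b' 1 with hb₁
  have hb0 : 0 < b₁ := lt_min hb' one_pos
  obtain ⟨Fc, hFc, hcov⟩ := BPC_554.coverP S (fun c => if IsV c then S.r c / 2 else b₁) (fun c => by
    split_ifs
    · exact half_pos (S.pos c)
    · exact hb0)
  obtain ⟨ε, hε, hcov⟩ := hcov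
  refine ⟨γ, (F' ∪ Ends S) ∪ Fc, b₁ / 3, b₁ / 2, b₁, ⟨hR, N.hf, N.f0, ?_, by positivity,
    by linarith, by linarith, min_le_right _ _, fun c hc => (min_le_left _ _).trans_lt (hbr c hc),
    ?_, Finset.subset_union_right, Finset.subset_union_left, ?_⟩, ?_, ε, hε, ?_⟩
  · exact fun o c hc hV hv => (hγ o c hc hV hv).1
  · intro c hc
    rcases Finset.mem_union.1 hc with hc | hc
    · exact hGok c hc
    · exact hFc c hc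
  · intro c hc c' hc' hne p hp p' hp'
    exact hsep c hc c' hc' hne p hp p' (CB_mono (min_le_left _ _) hp')
  · intro o c hc hV j hj
    exact (hγ o c hc hV (eO_vO L hc hj)).2 j hj
  · intro s y hs hy hne
    obtain ⟨c, hc, p, q1, q2, q3⟩ := hcov s y hs hy hne
    refine ⟨c, Finset.mem_union_right _ hc, p, fun hV => ?_, fun hV => ?_, q3⟩
    · rw [if_neg hV] at q1 q2
      exact ⟨q1, q2⟩
    · rw [if_pos hV] at q1 q2
      exact ⟨q1, q2⟩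

variable {γ : Bool → Ch T.m → Fin T.d → ℂ → XV U e₀.1.1} {G F F₀ : Finset (Ch T.m)}
  {τ b b₁ : ℝ}

/-- the local facts at one sheet of one chart -/
def LF (L : Lab U S) (e₀ : II U) (f₀ : XV U e₀.1.1 → ℂ) (H : (Fin 3 → ℂ) → ℂ)
    (h1 h2 e : Ch T.m → Fin T.d → ℝ) (γ : Bool → Ch T.m → Fin T.d → ℂ → XV U e₀.1.1)
    (τ b : ℝ) (K : ℝ) (q : Ch T.m × Fin T.d) (ε : ℝ) : Prop :=
  (q.1 ∈ Ends S → ∀ o, eO L o q.1 q.2 = some e₀ → EF U S f₀ γ τ b (e q.1 q.2) o q.1 q.2 K ε) ∧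
  ((∃ o, eO L o q.1 q.2 = some e₀) → ∀ p ∈ Og (S := S) q.1 ε,
    AnalyticAt ℂ (fun p => H (wc S q.1 q.2 p)) p ∧
      ‖H (wc S q.1 q.2 p)‖ ≤ K * (‖p.1‖ ^ h1 q.1 q.2 * ‖p.2‖ ^ h2 q.1 q.2)) ∧
  (IsV q.1 → L.e1 q.1 q.2 = some e₀ → ∀ p ∈ Og (S := S) q.1 ε,
    AnalyticAt ℂ (fun p => GG U e₀.1.1 f₀ (wc S q.1 q.2 p)) p ∧
      ‖GG U e₀.1.1 f₀ (wc S q.1 q.2 p)‖ ≤ K)

lemma exists_LF (C : Cx L e₀ f₀ γ G F₀ τ b b₁) (N : NH L e₀ f₀ H y n1 n2 h1 h2 e a)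
    (hgr : GR L e₀ f₀ e γ) {q : Ch T.m × Fin T.d} (hc : Ok S q.1) :
    ∃ K > 0, ∃ ε > 0, LF L e₀ f₀ H h1 h2 e γ τ b K q ε := by
  obtain ⟨c, j⟩ := q
  simp only at hc
  have p1 : ∃ K > 0, ∃ ε > 0, (c ∈ Ends S → ∀ o, eO L o c j = some e₀ →
      EF U S f₀ γ τ b (e c j) o c j K ε) := by
    by_cases h : ∃ o, c ∈ Ends S ∧ eO L o c j = some e₀
    · obtain ⟨o, hcE, hl⟩ := h
      obtain ⟨K, ε, hK, hε, h3⟩ := exists_EF C hcE hl (hgr o c hc (ends_nV hcE) j hl)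
      refine ⟨K, hK, ε, hε, fun _ o' hl' => ?_⟩
      have ho : o' = o := eO_inj L hc hl' hl
      subst ho
      exact h3
    · exact ⟨1, one_pos, 1, one_pos, fun h1 o h2 => absurd ⟨o, h1, h2⟩ h⟩
  have p2 : ∃ K > 0, ∃ ε > 0, ((∃ o, eO L o c j = some e₀) → ∀ p ∈ Og (S := S) c ε,
      AnalyticAt ℂ (fun p => H (wc S c j p)) p ∧
        ‖H (wc S c j p)‖ ≤ K * (‖p.1‖ ^ h1 c j * ‖p.2‖ ^ h2 c j)) := by
    by_cases h : ∃ o, eO L o c j = some e₀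
    · obtain ⟨K, r, hr, h3⟩ := N.hH c hc j (by
        obtain ⟨o, ho⟩ := h
        cases o
        · exact Or.inr ho
        · exact Or.inl ho)
      refine ⟨max K 1, by positivity, r, hr, fun _ p hp => ⟨(h3 p hp).1, (h3 p hp).2.trans ?_⟩⟩
      exact mul_le_mul_of_nonneg_right (le_max_left _ _) (by positivity)
    · exact ⟨1, one_pos, 1, one_pos, fun h1 => absurd h1 h⟩
  have p3 : ∃ K > 0, ∃ ε > 0, (IsV c → L.e1 c j = some e₀ → ∀ p ∈ Og (S := S) c ε,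
      AnalyticAt ℂ (fun p => GG U e₀.1.1 f₀ (wc S c j p)) p ∧
        ‖GG U e₀.1.1 f₀ (wc S c j p)‖ ≤ K) := by
    by_cases h : IsV c ∧ L.e1 c j = some e₀
    · obtain ⟨hV, hl⟩ := h
      have hl' : eO L true c j = some e₀ := hl
      have hvO := eO_vO L hc hl'
      have hr := S.pos c
      obtain ⟨ε₁, q1, hnear⟩ := nearS L hc hl' one_pos
      obtain ⟨a₂, ha₂, K₂, hbd⟩ := GG_bd (S := S) C.hR e₀.1.2 C.hf (o := true) hc.1 hvO j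
        (isCompact_closedBall (0 : ℂ) (S.r c)) (fun b hb => ⟨by
          rw [mem_closedBall_zero_iff] at hb; linarith, Or.inr ⟨rfl, hV⟩⟩)
      obtain ⟨ε₂, q2, hA⟩ := small_A hvO one_pos ha₂
      refine ⟨max K₂ 1, by positivity, min ε₁ ε₂, lt_min q1 q2, fun _ _ p hp => ⟨?_, ?_⟩⟩
      · obtain ⟨h3, -⟩ := hnear p ⟨hp.1.le, hp.2.1.le⟩ hp.2.2.1
          (hp.2.2.2.trans_le (min_le_left _ _)) (Or.inl ⟨rfl, hV⟩)
        exact GG_an_wc C.hR C.hf hc.1 j (Og_mem2 hp) h3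
      · refine (hbd p (by rw [mem_closedBall_zero_iff]; exact hp.2.1.le)
          (cA_pos hvO hp.2.2.1) (hA p (hp.2.2.2.trans_le (min_le_right _ _))
            (Or.inl ⟨rfl, hV⟩))).trans (le_max_left _ _)
    · exact ⟨1, one_pos, 1, one_pos, fun h1 h2 => absurd ⟨h1, h2⟩ h⟩
  obtain ⟨K₁, k1, ε₁, q1, f1⟩ := p1
  obtain ⟨K₂, k2, ε₂, q2, f2⟩ := p2
  obtain ⟨K₃, k3, ε₃, q3, f3⟩ := p3
  have e1 : min (min ε₁ ε₂) ε₃ ≤ ε₁ := (min_le_left _ _).trans (min_le_left _ _)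
  have e2 : min (min ε₁ ε₂) ε₃ ≤ ε₂ := (min_le_left _ _).trans (min_le_right _ _)
  have e3 : min (min ε₁ ε₂) ε₃ ≤ ε₃ := min_le_right _ _
  have m1 : K₁ ≤ max (max K₁ K₂) K₃ := (le_max_left _ _).trans (le_max_left _ _)
  have m2 : K₂ ≤ max (max K₁ K₂) K₃ := (le_max_right _ _).trans (le_max_left _ _)
  have m3 : K₃ ≤ max (max K₁ K₂) K₃ := le_max_right _ _
  refine ⟨max (max K₁ K₂) K₃, k1.trans_le m1, min (min ε₁ ε₂) ε₃, lt_min (lt_min q1 q2) q3,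
    fun h o ho => (f1 h o ho).mono k1.le m1 e1, fun h p hp => ?_, fun h h' p hp => ?_⟩
  · obtain ⟨a1, a2⟩ := f2 h p (Og_mono e2 hp)
    exact ⟨a1, a2.trans (mul_le_mul_of_nonneg_right m2 (by positivity))⟩
  · obtain ⟨a1, a2⟩ := f3 h h' p (Og_mono e3 hp)
    exact ⟨a1, a2.trans m3⟩

lemma EF.mono' {v : Vtx} {f₀ : XV U v → ℂ} {γ : Bool → Ch T.m → Fin T.d → ℂ → XV U v}
    {τ b e : ℝ} {o : Bool} {c : Ch T.m} {j : Fin T.d} {K ε ε' : ℝ}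
    (h : EF U S f₀ γ τ b e o c j K ε) (hε : ε' ≤ ε) :
    EF U S f₀ γ τ b e o c j K ε' :=
  ⟨fun p hp => h.sm p (Og_mono hε hp), fun p hp => h.bd p (Og_mono hε hp),
    fun p hp => h.db p (Og_mono hε hp)⟩

lemma LF.mono {K : ℝ} {q : Ch T.m × Fin T.d} {ε ε' : ℝ} (h : LF L e₀ f₀ H h1 h2 e γ τ b K q ε)
    (hε : ε' ≤ ε) : LF L e₀ f₀ H h1 h2 e γ τ b K q ε' :=
  ⟨fun a1 o a2 => EF.mono' (h.1 a1 o a2) hε, fun a1 p hp => h.2.1 a1 p (Og_mono hε hp),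
    fun a1 a2 p hp => h.2.2 a1 a2 p (Og_mono hε hp)⟩

end

end Crest.Agent.R257.CDataL_250
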