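import Mathlib
import Crest.Agent.R257.EndA_636

/-!
Row 257 (S0395), part C, task C-END (helper636), file 2: **`endStmt : EndStmt L`** (WtD_258).
-/

set_option autoImplicit false
set_option linter.unusedSectionVars false

open Polynomial Set Filter Topology Metric
open Crest.AlgGeometry.Germ Crest.Agent.R257.AJ387 Crest.Agent.R257.T387
open Crest.Agent.R257.Gr1_157 Crest.Agent.R257.HoB_843 Crest.Agent.R257.BP_258
open Crest.Agent.R257.Wt_258 Crest.Agent.R257.Lab_931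
open Crest.Agent.R257.Tb_941 (LS exists_LS retStmt)

noncomputable section

namespace Crest.Agent.R257.End_636

variable {f : (Fin 3 → ℂ) → ℂ} {T : TB f} {U : Tub T} {S : Sh T}

lemma isOpen_IsV (c : Ch T.m) : IsOpen {p : ℂ × ℂ | IsV c ∨ p.2 ≠ 0} := by
  by_cases h : IsV c
  · simp only [h, true_or]
    exact isOpen_univ
  · simp only [h, false_or]
    exact isOpen_ne_fun continuous_snd continuous_const

/-- the domain of the first axis -/
def D1 (S : Sh T) (c : Ch T.m) : Set (ℂ × ℂ) :=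
  BD (2 * S.r c) (2 * S.r c) ∩ {p | IsV c ∨ p.2 ≠ 0}

/-- the domain of the second axis, swapped -/
def D2 (S : Sh T) (c : Ch T.m) : Set (ℂ × ℂ) :=
  {p | p.swap ∈ BD (2 * S.r c) (2 * S.r c) ∧ p.2 ≠ 0}

lemma mem_D1 {c : Ch T.m} {b : ℂ} : ((0 : ℂ), b) ∈ D1 S c ↔ b ∈ PDv S c := by
  have h2 := two_r_pos S c
  constructor
  · rintro ⟨⟨-, h1⟩, h3⟩
    exact ⟨h3.imp id fun h => norm_pos_iff.2 h, h1⟩
  · rintro ⟨h3, h1⟩
    exact ⟨⟨by simpa using h2, h1⟩, h3.imp id fun h => norm_pos_iff.1 h⟩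

lemma mem_D2 {c : Ch T.m} {a : ℂ} : ((0 : ℂ), a) ∈ D2 S c ↔ a ∈ PDc S c := by
  have h2 := two_r_pos S c
  constructor
  · rintro ⟨⟨h1, -⟩, h3⟩
    exact ⟨norm_pos_iff.2 h3, h1⟩
  · rintro ⟨h3, h1⟩
    exact ⟨⟨h1, by simpa using h2⟩, norm_pos_iff.1 h3⟩

lemma W1_nsp {c : Ch T.m} (hc : T.Valid c) {v : Vtx} (hv : v1 T c = some v) {b : ℂ}
    (hb : ‖b‖ ≤ 2 * S.r c) (hb0 : IsV c ∨ b ≠ 0) : W1 c (0, b) ∉ sp T v := by
  have hM := T.M_pos.ne'
  cases c with
  | edge i k k' =>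
    simp only [v1] at hv
    split_ifs at hv with hk0
    obtain rfl := Option.some.inj hv
    simp only [W1, zero_mul, zero_pow hM, hk_φ]
    rw [mem_sp_vx]
    exact (S.fare i k k' hc b (hb0.resolve_left (by simp [IsV])) hb).1
  | leg i =>
    simp only [v1] at hv
    obtain rfl := Option.some.inj hv
    simp only [W1, zero_pow hM, hk_φ]
    rw [mem_sp_vx]
    exact S.farl i b (hb0.resolve_left (by simp [IsV])) hb
  | vert i k w₀ =>
    simp only [v1] at hv
    obtain rfl := Option.some.inj hv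
    simp only [W1, zero_pow hM, hk_φ]
    rw [mem_sp_vx]
    exact S.far i k w₀ hc _ (by rw [add_sub_cancel_left]; exact hb)

lemma W2_nsp {c : Ch T.m} (hc : T.Valid c) {v : Vtx} (hv : v2 T c = some v) {a : ℂ}
    (ha : ‖a‖ ≤ 2 * S.r c) (ha0 : a ≠ 0) : W2 c (a, 0) ∉ sp T v := by
  have hM := T.M_pos.ne'
  cases c with
  | edge i k k' =>
    simp only [v2] at hv
    obtain rfl := Option.some.inj hv
    simp only [W2, mul_zero, zero_pow hM, hk_φ]
    rw [mem_sp_vx]
    exact (S.fare i k k' hc a ha0 ha).2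
  | leg i => simp [v2] at hv
  | vert i k w₀ => simp [v2] at hv

theorem ax1 {c : Ch T.m} (hc : T.Valid c) {v : Vtx} (hv : v1 T c = some v) :
    Ax v (D1 S c) (T.map c) (S.ζ c) (W1 c) where
  hv := v1_mem hc hv
  op := (isOpen_BD _ _).inter (isOpen_IsV c)
  ms := (map_cont S hc).fst.mono inter_subset_left
  mz j := ((S.sheets c hc).an j).continuousOn.mono inter_subset_left
  mW := (W1_cont S hc).mono inter_subset_left
  split p hp := (S.sheets c hc).split p hp.1
  inj p hp h0 := (S.sheets c hc).inj p hp.1 (gen_of h0 hp.2)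
  ne p hp h0 := map_ne (gen_of h0 hp.2)
  wv p hp h0 := W1_eq hc hv (gen_of h0 hp.2)
  s0 b _ := by cases c <;> simp [TB.map]
  nsp b hb := W1_nsp hc hv hb.1.2.le hb.2

theorem ax2 {c : Ch T.m} (hc : T.Valid c) {v : Vtx} (hv : v2 T c = some v) :
    Ax v (D2 S c) (fun p => T.map c p.swap) (fun j p => S.ζ c j p.swap) (fun p => W2 c p.swap) where
  hv := v2_mem hc hv
  op := ((isOpen_BD _ _).preimage continuous_swap).inter
    (isOpen_ne_fun continuous_snd continuous_const)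
  ms := (map_cont S hc).fst.comp continuous_swap.continuousOn fun p hp => hp.1
  mz j := ((S.sheets c hc).an j).continuousOn.comp continuous_swap.continuousOn fun p hp => hp.1
  mW := (W2_cont S hc).comp continuous_swap.continuousOn fun p hp => ⟨hp.1, hp.2⟩
  split p hp := (S.sheets c hc).split p.swap hp.1
  inj p hp h0 := (S.sheets c hc).inj p.swap hp.1 (gen_of hp.2 (Or.inr h0))
  ne p hp h0 := map_ne (gen_of (p := p.swap) hp.2 (Or.inr h0))
  wv p hp h0 := W2_eq hc hv (gen_of (p := p.swap) hp.2 (Or.inr h0))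
  s0 b _ := by
    cases c with
    | edge i k k' => simp [TB.map]
    | leg i => simp [v2] at hv
    | vert i k w₀ => simp [v2] at hv
  nsp b hb := W2_nsp hc hv hb.1.1.le hb.2

lemma W1_axis {c : Ch T.m} (hc : Ok S c) (b : ℂ) : W1 c (0, b) = cx T c + b ^ lx T c := by
  have hM := T.M_pos.ne'
  obtain ⟨hV, hC⟩ := hc
  cases c with
  | edge i k k' => simp only [W1, zero_mul, zero_pow hM, hk_φ, cx, lx]
  | leg i => simp only [W1, zero_pow hM, hk_φ, cx, lx]
  | vert i k w₀ =>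
    obtain ⟨v, hv, rfl, rfl, -⟩ := hC
    simp only [W1, zero_pow hM, hk_φ, cx, lx, co_ci S hv, zero_add, pow_one]

lemma W2_axis {c : Ch T.m} (hc : Ok S c) {v : Vtx} (hv : v2 T c = some v) (a : ℂ) :
    W2 c (a, 0) = (a ^ lx T c)⁻¹ := by
  have hM := T.M_pos.ne'
  obtain ⟨hV, hC⟩ := hc
  cases c with
  | edge i k k' =>
    obtain ⟨v', hv', rfl, rfl, rfl⟩ := hC
    simp only [W2, mul_zero, zero_pow hM, hk_φ, lx, co_ci S hv', zero_add]
  | leg i => simp [v2] at hv
  | vert i k w₀ => simp [v2] at hv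

lemma tendsto_swap' (a : ℂ) : Tendsto (Prod.swap : ℂ × ℂ → ℂ × ℂ) (𝓝 (a, 0)) (𝓝 (0, a)) :=
  continuous_swap.tendsto (a, 0)

lemma isPreconnected_PDc (c : Ch T.m) : IsPreconnected (PDc S c) := by
  have h : PDc S c = Pd (2 * S.r c) := by
    ext z
    rfl
  rw [h]
  exact isPreconnected_Pd _

lemma isPreconnected_PDv (c : Ch T.m) : IsPreconnected (PDv S c) := by
  by_cases h : IsV c
  · have e : PDv S c = ball 0 (2 * S.r c) := by
      ext z
      simp [PDv, h]
    rw [e]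
    exact (convex_ball _ _).isPreconnected
  · have e : PDv S c = Pd (2 * S.r c) := by
      ext z
      simp [PDv, h, Pd]
    rw [e]
    exact isPreconnected_Pd _

lemma cc_eq {v : Vtx} {γ : ℂ → XV U v} {K : Set ℂ} (hK : IsPreconnected K)
    (hγ : ContinuousOn γ K) {b b' : ℂ} (hb : b ∈ K) (hb' : b' ∈ K) :
    (γ b : ConnectedComponents (XV U v)) = (γ b' : ConnectedComponents (XV U v)) := by
  rw [ConnectedComponents.coe_eq_coe]
  have hpre : IsPreconnected (γ '' K) := hK.image _ hγ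
  exact connectedComponent_eq (hpre.subset_connectedComponent
    (mem_image_of_mem _ hb) (mem_image_of_mem _ hb'))

lemma norm_r (c : Ch T.m) : ‖((S.r c : ℝ) : ℂ)‖ = S.r c := by
  rw [Complex.norm_real, Real.norm_of_nonneg (S.pos c).le]

/-- **the ends seen in the charts** -/
theorem endStmt (L : Lab U S) : EndStmt L := by
  rintro c hc ⟨v, hvm⟩
  have hr := S.pos c
  constructor
  · intro hv
    change v1 T c = some v at hv
    have A := ax1 (S := S) hc.1 hv
    obtain ⟨γ, h1, h2, h3, h4, h5, h6⟩ := A.exists_γ U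
    have hE : End1 U S c v γ := by
      refine ⟨fun j => ?_, fun j b hb => ?_, fun b hb => h3 b (mem_D1.2 hb),
        fun b hb q hq => ?_, fun j b hb => h5 j b (mem_D1.2 hb)⟩
      · exact (h1 j).mono fun b hb => mem_D1.2 hb
      · rw [h2 j b (mem_D1.2 hb), W1_axis hc]
      · exact h4 b (mem_D1.2 hb) q (by rw [hq, W1_axis hc])
    refine ⟨γ, hE, fun j b hb => ?_⟩
    obtain ⟨C, hC, hn⟩ := form1 L hc j hv hvm
    have hb₁ : ((S.r c : ℝ) : ℂ) ∈ PDv S c := by
      refine ⟨Or.inr ?_, ?_⟩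
      · rw [norm_r]; exact hr
      · rw [norm_r]; linarith
    have h7 : (γ j ((S.r c : ℝ) : ℂ) : ConnectedComponents (XV U v)) = C := by
      obtain ⟨a, ha, hn'⟩ := hn (S.r c) hr
      have e1 := h6 j _ (mem_D1.2 hb₁)
      have e2 : ∀ᶠ p in 𝓝 ((0 : ℂ), ((S.r c : ℝ) : ℂ)), ‖p.1‖ < a := by
        have c1 : Continuous fun p : ℂ × ℂ => ‖p.1‖ := by fun_prop
        exact c1.continuousAt.eventually_lt_const (by simpa using ha)
      obtain ⟨t, ht0, ht1, ht2⟩ := exists_near (P := fun p => (∀ q,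
        IsRet U v (pt (S.ζ c j p) (T.map c p)) q → (q : ConnectedComponents (XV U v)) =
          (γ j ((S.r c : ℝ) : ℂ) : ConnectedComponents (XV U v))) ∧ ‖p.1‖ < a) (by
          filter_upwards [e1, e2] with p l1 l2 h0
          exact ⟨l1 h0, l2⟩)
      obtain ⟨k1, k2⟩ := hn' (t, ((S.r c : ℝ) : ℂ)) (norm_pos_iff.2 ht0) ht2
        (by show ‖((S.r c : ℝ) : ℂ)‖ ≤ _; rw [norm_r])
        (Or.inr (by show _ ≤ ‖((S.r c : ℝ) : ℂ)‖; rw [norm_r]))
      obtain ⟨q₁, hq₁⟩ := ((retStmt U v hvm).1 _ k1).exists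
      rw [← ht1 q₁ hq₁]
      exact k2 q₁ hq₁
    rw [hC]
    show some (⟨⟨v, hvm⟩, C⟩ : II U) = some (⟨⟨v, hvm⟩, (γ j b : ConnectedComponents (XV U v))⟩)
    rw [← h7, cc_eq (isPreconnected_PDv c) (hE.cont j) hb₁ hb]
  · intro hv
    change v2 T c = some v at hv
    have A := ax2 (S := S) hc.1 hv
    obtain ⟨γ, h1, h2, h3, h4, h5, h6⟩ := A.exists_γ U
    have hE : End2 U S c v γ := by
      refine ⟨fun j => ?_, fun j a ha => ?_, fun a ha => h3 a (mem_D2.2 ha),
        fun a ha q hq => ?_, fun j a ha => ?_⟩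
      · exact (h1 j).mono fun a ha => mem_D2.2 ha
      · rw [h2 j a (mem_D2.2 ha)]
        exact W2_axis hc hv a
      · exact h4 a (mem_D2.2 ha) q (by rw [hq]; exact (W2_axis hc hv a).symm)
      · obtain ⟨l1, l2⟩ := h5 j a (mem_D2.2 ha)
        refine ⟨?_, fun O hO => ?_⟩
        · filter_upwards [(tendsto_swap' a).eventually l1] with p hp h0 using hp h0
        · filter_upwards [(tendsto_swap' a).eventually (l2 O hO)] with p hp h0 using hp h0
    refine ⟨γ, hE, fun j a ha => ?_⟩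
    obtain ⟨C, hC, hn⟩ := form2 L hc j hv hvm
    have ha₁ : ((S.r c : ℝ) : ℂ) ∈ PDc S c := by
      refine ⟨?_, ?_⟩
      · rw [norm_r]; exact hr
      · rw [norm_r]; linarith
    have h7 : (γ j ((S.r c : ℝ) : ℂ) : ConnectedComponents (XV U v)) = C := by
      obtain ⟨a', ha', hn'⟩ := hn (S.r c) hr
      have e1 := h6 j _ (mem_D2.2 ha₁)
      have e2 : ∀ᶠ p in 𝓝 ((0 : ℂ), ((S.r c : ℝ) : ℂ)), ‖p.1‖ < a' := by
        have c1 : Continuous fun p : ℂ × ℂ => ‖p.1‖ := by fun_prop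
        exact c1.continuousAt.eventually_lt_const (by simpa using ha')
      obtain ⟨t, ht0, ht1, ht2⟩ := exists_near (P := fun p => (∀ q,
        IsRet U v (pt (S.ζ c j p.swap) (T.map c p.swap)) q →
          (q : ConnectedComponents (XV U v)) =
          (γ j ((S.r c : ℝ) : ℂ) : ConnectedComponents (XV U v))) ∧ ‖p.1‖ < a') (by
          filter_upwards [e1, e2] with p l1 l2 h0
          exact ⟨l1 h0, l2⟩)
      obtain ⟨k1, k2⟩ := hn' (((S.r c : ℝ) : ℂ), t) (norm_pos_iff.2 ht0) ht2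
        (by show ‖((S.r c : ℝ) : ℂ)‖ ≤ _; rw [norm_r])
        (by show _ ≤ ‖((S.r c : ℝ) : ℂ)‖; rw [norm_r])
      obtain ⟨q₁, hq₁⟩ := ((retStmt U v hvm).1 _ k1).exists
      rw [← ht1 q₁ hq₁]
      exact k2 q₁ hq₁
    rw [hC]
    show some (⟨⟨v, hvm⟩, C⟩ : II U) = some (⟨⟨v, hvm⟩, (γ j a : ConnectedComponents (XV U v))⟩)
    rw [← h7, cc_eq (isPreconnected_PDc c) (hE.cont j) ha₁ ha]

end Crest.Agent.R257.End_636
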