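import Mathlib
import Crest.Agent.R257.WtD_258

/-!
Row 257 (S0395), C-WT (helper258): the corrected statement of the weights.

`WT2Stmt` replaces `BP_258.WTStmt` (which is false when two killed points lie in the bidisc of one
killed chart): the estimates at the kills are claimed on a smaller bidisc of radius `τ₁`.
-/

set_option autoImplicit false
set_option linter.unusedSectionVars false

open Polynomial Set Filter Topology Metric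
open Crest.AlgGeometry.Germ Crest.Agent.R257.AJ387 Crest.Agent.R257.T387
open Crest.Agent.R257.Gr1_157 Crest.Agent.R257.HoB_843 Crest.Agent.R257.BP_258

noncomputable section

namespace Crest.Agent.R257.Wt_258

variable {f : (Fin 3 → ℂ) → ℂ} {T : TB f} {U : Tub T} {S : Sh T} (L : Lab U S)

/-- the region of a chart around a kill: small in the directions in which the axis is exceptional -/
def Rg (c : Ch T.m) (j : Fin T.d) (τ₁ : ℝ) : Set (ℂ × ℂ) :=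
  {p | (L.e1 c j ≠ none → ‖p.2‖ < τ₁) ∧ (L.e2 c j ≠ none → ‖p.1‖ < τ₁)}

/-- **the weights** (task C-WT): `F` finite set of charts, `K` kills, `τ₁` radius of the kill regions,
`τ₀` transition parameter -/
def WT2Stmt [Fintype (II U)] : Prop := ∀ (y : II U → ℝ) (F : Finset (Ch T.m)) (K : Kill (S := S) F),
  (∀ c ∈ F, Ok S c) → (∀ E, KSup L y K E) → ∃ τ₁ > 0, ∀ τ₀ > 0, τ₀ < τ₁ →
  ∃ (Φ : (Fin 3 → ℂ) → ℝ) (ρ₀ C c₀ : ℝ), 0 < ρ₀ ∧ 0 < c₀ ∧ ∀ c ∈ F, ∀ j,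
    -- smooth and psh, bounded above
    (∀ p ∈ Og (S := S) c ρ₀, ContDiffAt ℝ (⊤ : ℕ∞) (Φ ∘ wc S c j) p ∧
      (∀ w, 0 ≤ lvE (Φ ∘ wc S c j) p w) ∧ Φ (wc S c j p) ≤ C) ∧
    -- upper bound
    (∀ p ∈ Og (S := S) c ρ₀, Φ (wc S c j p) ≤ yo y (L.e1 c j) * Real.log (‖p.1‖ ^ 2) +
      yo y (L.e2 c j) * Real.log (‖p.2‖ ^ 2) + C) ∧
    -- two-sided bound, without kills
    (K.κ = ∅ → ∀ p ∈ Og (S := S) c ρ₀, yo y (L.e1 c j) * Real.log (‖p.1‖ ^ 2) +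
      yo y (L.e2 c j) * Real.log (‖p.2‖ ^ 2) - C ≤ Φ (wc S c j p)) ∧
    -- at the kills
    ((c, j) ∈ K.κ → ∀ p ∈ Og (S := S) c ρ₀, p ∈ Rg L c j τ₁ →
      |Φ (wc S c j p) - yo y (L.e1 c j) * Real.log (‖p.1‖ ^ 2) -
      yo y (L.e2 c j) * Real.log (‖p.2‖ ^ 2) -
      K.t (c, j) * Real.log (‖p.1‖ ^ 2 + ‖p.2‖ ^ 2)| ≤ C) ∧
    -- strictly psh on the vertex zones, without kills
    (K.κ = ∅ → ∀ p ∈ Og (S := S) c ρ₀,
      (L.e1 c j ≠ none → IsV c ∨ τ₀ ≤ ‖p.2‖ →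
        ∀ w, c₀ * (‖w.1‖ ^ 2 + ‖w.2‖ ^ 2) ≤ lvE (Φ ∘ wc S c j) p w) ∧
      (L.e2 c j ≠ none → τ₀ ≤ ‖p.1‖ →
        ∀ w, c₀ * (‖w.1‖ ^ 2 + ‖w.2‖ ^ 2) ≤ lvE (Φ ∘ wc S c j) p w)) ∧
    -- strictly psh on the vertex zones around the kills
    ((c, j) ∈ K.κ → ∀ p ∈ Og (S := S) c ρ₀, p ∈ Rg L c j τ₁ →
      (L.e1 c j ≠ none → τ₀ ≤ ‖p.2‖ →
        ∀ w, c₀ * (‖w.1‖ ^ 2 + ‖w.2‖ ^ 2) ≤ lvE (Φ ∘ wc S c j) p w) ∧
      (L.e2 c j ≠ none → τ₀ ≤ ‖p.1‖ →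
        ∀ w, c₀ * (‖w.1‖ ^ 2 + ‖w.2‖ ^ 2) ≤ lvE (Φ ∘ wc S c j) p w))

end Crest.Agent.R257.Wt_258
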