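import Mathlib
import Crest.Agent.R257.WtE_258

/-!
Row 257 (S0395), C-WT (helper258): **FINAL** definitions of the weights, with the direction `(a, b)`
of the kills.  These replace `BP_258.Kill / KSup / WTStmt` and `Wt_258.tk / s1 / s2 / Qk / HVStmt /
WT2Stmt`.

* `DKill F` : kill data, kernel `t log (|α|^(2b) + |β|^(2a))` at the origin of the chart;
* `DSup L y K E` : superharmonicity with kills;
* `HVDStmt` : functions with prescribed slopes; `WTDStmt` : the weights.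
-/

set_option autoImplicit false
set_option linter.unusedSectionVars false

open Polynomial Set Filter Topology Metric
open Crest.AlgGeometry.Germ Crest.Agent.R257.AJ387 Crest.Agent.R257.T387
open Crest.Agent.R257.Gr1_157 Crest.Agent.R257.HoB_843 Crest.Agent.R257.BP_258

noncomputable section

namespace Crest.Agent.R257.Wt_258

variable {f : (Fin 3 → ℂ) → ℂ} {T : TB f} {U : Tub T} {S : Sh T} (L : Lab U S)

variable (S) in
/-- kill data: a set of sheets of canonical charts, closed under equality of points near the origin,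
with excess `t > 0` and direction `(a, b)` -/
structure DKill (F : Finset (Ch T.m)) where
  κ : Set (Ch T.m × Fin T.d)
  t : Ch T.m × Fin T.d → ℝ
  a : Ch T.m × Fin T.d → ℕ
  b : Ch T.m × Fin T.d → ℕ
  t_pos : ∀ x ∈ κ, 0 < t x
  ab_pos : ∀ x ∈ κ, 0 < a x ∧ 0 < b x
  mem : ∀ x ∈ κ, x.1 ∈ F
  /-- small bidiscs around different killed points are disjoint -/
  ex : ∃ r > 0, ∀ x ∈ κ, ∀ c, (c = x.1 ∨ ∃ j, (c, j) ∈ κ) → ∀ j p p', p ∈ BD r r → p' ∈ BD r r →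
    T.Gen x.1 p → T.Gen c p' → wc S x.1 x.2 p = wc S c j p' →
    c = x.1 ∧ (c, j) ∈ κ ∧ t (c, j) = t x ∧ a (c, j) = a x ∧ b (c, j) = b x

open Classical in
/-- superharmonicity with kills -/
def DSup [Fintype (II U)] (y : II U → ℝ) {F : Finset (Ch T.m)} (K : DKill S F) (E : II U) : Prop :=
  dg (Mx L) y E + ∑ c ∈ F, ∑ j, (if (c, j) ∈ K.κ then kc c * K.t (c, j) *
    ((K.a (c, j) : ℝ) * (if L.e1 c j = some E then 1 else 0) +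
      (K.b (c, j) : ℝ) * (if L.e2 c j = some E then 1 else 0)) else 0) < 0

open Classical in
/-- excess along `{α = 0}` at a kill, `0` else -/
def dk1 {F : Finset (Ch T.m)} (K : DKill S F) (c : Ch T.m) (j : Fin T.d) : ℝ :=
  if (c, j) ∈ K.κ then K.t (c, j) * K.a (c, j) else 0

open Classical in
/-- excess along `{β = 0}` at a kill, `0` else -/
def dk2 {F : Finset (Ch T.m)} (K : DKill S F) (c : Ch T.m) (j : Fin T.d) : ℝ :=
  if (c, j) ∈ K.κ then K.t (c, j) * K.b (c, j) else 0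

open Classical in
/-- exact slope along `{α = 0}` in the variable `β` -/
def d1 (y : II U → ℝ) {F : Finset (Ch T.m)} (K : DKill S F) (c : Ch T.m) (j : Fin T.d) : ℝ :=
  (if IsE c then yo y (L.e2 c j) - yo y (L.e1 c j) else 0) + dk1 K c j

open Classical in
/-- exact slope along `{β = 0}` in the variable `α` (edges) -/
def d2 (y : II U → ℝ) {F : Finset (Ch T.m)} (K : DKill S F) (c : Ch T.m) (j : Fin T.d) : ℝ :=
  yo y (L.e1 c j) - yo y (L.e2 c j) + dk2 K c j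

/-- killed points of the curve over `v` -/
def QD {F : Finset (Ch T.m)} (K : DKill S F) (v : Vtx) : Set (XV U v) :=
  {q | ∃ c j γ, (c, j) ∈ K.κ ∧ IsV c ∧ v1 T c = some v ∧ End1 U S c v γ ∧ q = γ j 0}

/-- **functions with prescribed slopes** (leaf C-HV, from `RSWStmt`) -/
def HVDStmt [Fintype (II U)] : Prop := ∀ (y : II U → ℝ) (F : Finset (Ch T.m)) (K : DKill S F),
  (∀ c ∈ F, Ok S c) → (∀ E, DSup L y K E) →
  ∃ (δ τ₁ C : ℝ) (h : ∀ v, XV U v → ℝ), 0 < δ ∧ 0 < τ₁ ∧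
    (∀ v ∈ Vs T, SmPos (pV U v) (QD K v) (h v)) ∧
    ∀ c, Ok S c → ∀ v : {v // v ∈ Vs T},
      (v1 T c = some v.1 → ∀ γ, End1 U S c v.1 γ → ∀ j, (IsV c → (c, j) ∈ K.κ) →
        ∀ b : ℂ, 0 < ‖b‖ → ‖b‖ < τ₁ → ‖b‖ < S.r c →
        |h v.1 (γ j b) - (d1 L y K c j + δ) * Real.log (‖b‖ ^ 2)| ≤ C) ∧
      (v2 T c = some v.1 → ∀ γ, End2 U S c v.1 γ → ∀ j,
        ∀ a : ℂ, 0 < ‖a‖ → ‖a‖ < τ₁ → ‖a‖ < S.r c →
        |h v.1 (γ j a) - (d2 L y K c j + δ) * Real.log (‖a‖ ^ 2)| ≤ C)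

/-- **the weights** (task C-WT): `F` finite set of charts, `K` kills, `τ₁` radius of the kill regions,
`τ₀` transition parameter -/
def WTDStmt [Fintype (II U)] : Prop := ∀ (y : II U → ℝ) (F : Finset (Ch T.m)) (K : DKill S F),
  (∀ c ∈ F, Ok S c) → (∀ E, DSup L y K E) → ∃ τ₁ > 0, ∀ τ₀ > 0, τ₀ < τ₁ →
  ∃ (Φ : (Fin 3 → ℂ) → ℝ) (ρ₀ C c₀ : ℝ), 0 < ρ₀ ∧ 0 < c₀ ∧ ∀ c ∈ F, ∀ j,
    -- smooth and psh, bounded above
    (∀ p ∈ Og (S := S) c ρ₀, ContDiffAt ℝ (⊤ : ℕ∞) (Φ ∘ wc S c j) p ∧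
      (∀ w, 0 ≤ lvE (Φ ∘ wc S c j) p w) ∧ Φ (wc S c j p) ≤ C) ∧
    -- upper bound
    (∀ p ∈ Og (S := S) c ρ₀, Φ (wc S c j p) ≤ yo y (L.e1 c j) * Real.log (‖p.1‖ ^ 2) +
      yo y (L.e2 c j) * Real.log (‖p.2‖ ^ 2) + C) ∧
    -- two-sided bound, without kills
    (K.κ = ∅ → ∀ p ∈ Og (S := S) c ρ₀, yo y (L.e1 c j) * Real.log (‖p.1‖ ^ 2) +
      yo y (L.e2 c j) * Real.log (‖p.2‖ ^ 2) - C ≤ Φ (wc S c j p)) ∧
    -- at the kills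
    ((c, j) ∈ K.κ → ∀ p ∈ Og (S := S) c ρ₀, ‖p.1‖ < τ₁ → ‖p.2‖ < τ₁ →
      |Φ (wc S c j p) - yo y (L.e1 c j) * Real.log (‖p.1‖ ^ 2) -
      yo y (L.e2 c j) * Real.log (‖p.2‖ ^ 2) -
      K.t (c, j) * Real.log (‖p.1‖ ^ (2 * K.b (c, j)) + ‖p.2‖ ^ (2 * K.a (c, j)))| ≤ C) ∧
    -- strictly psh on the vertex zones, without kills
    (K.κ = ∅ → ∀ p ∈ Og (S := S) c ρ₀,
      (L.e1 c j ≠ none → IsV c ∨ τ₀ ≤ ‖p.2‖ →
        ∀ w, c₀ * (‖w.1‖ ^ 2 + ‖w.2‖ ^ 2) ≤ lvE (Φ ∘ wc S c j) p w) ∧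
      (L.e2 c j ≠ none → τ₀ ≤ ‖p.1‖ →
        ∀ w, c₀ * (‖w.1‖ ^ 2 + ‖w.2‖ ^ 2) ≤ lvE (Φ ∘ wc S c j) p w)) ∧
    -- strictly psh on the vertex zones around the kills
    ((c, j) ∈ K.κ → ∀ p ∈ Og (S := S) c ρ₀, ‖p.1‖ < τ₁ → ‖p.2‖ < τ₁ →
      (L.e1 c j ≠ none → τ₀ ≤ ‖p.2‖ →
        ∀ w, c₀ * (‖w.1‖ ^ 2 + ‖w.2‖ ^ 2) ≤ lvE (Φ ∘ wc S c j) p w) ∧
      (L.e2 c j ≠ none → τ₀ ≤ ‖p.1‖ →
        ∀ w, c₀ * (‖w.1‖ ^ 2 + ‖w.2‖ ^ 2) ≤ lvE (Φ ∘ wc S c j) p w))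

end Crest.Agent.R257.Wt_258
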