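import Crest.Agent.R257.ExBD_843
import Crest.Agent.R257.CDataB_250
import Crest.Agent.R257.WtF_258

/-!
# Row 257, ExN / ExT (helper843): the literal statement of the NULL DATA

* `WT0`      : the weights without kills, consumed form of `WTDStmt`;
* `NDat`     : the input `D = H * f (retraction)` and the inequalities between the exponents;
* `NullStmt` : the data (helper250), consumed by `ExNBPStmt`, `ExTBPStmt`.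
-/

set_option autoImplicit false
set_option linter.unusedSectionVars false

open Polynomial Set Filter Topology Metric
open Crest.AlgGeometry.Germ Crest.Agent.R257.AJ387 Crest.Agent.R257.T387
open Crest.Agent.R257.Gr1_157 Crest.Agent.R257.HoB_843 Crest.Agent.R257.BP_258
open Crest.Agent.R257.Wt_258 Crest.Agent.R257.Rsn_843

noncomputable section

namespace Crest.Agent.R257.Exf_843

variable {f : (Fin 3 → ℂ) → ℂ} {T : TB f} {S : Sh T} {U : Tub T}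

/-- the weight without kills -/
structure WT0 (L : Lab U S) (y : II U → ℝ) (F : Finset (Ch T.m)) (τ₀ : ℝ)
    (Φ : (Fin 3 → ℂ) → ℝ) (ρ₀ C c₀ : ℝ) : Prop where
  ρ_pos : 0 < ρ₀
  c_pos : 0 < c₀
  sm : ∀ c ∈ F, ∀ j, ∀ p ∈ Og (S := S) c ρ₀, ContDiffAt ℝ (⊤ : ℕ∞) (Φ ∘ wc S c j) p
  psh : ∀ c ∈ F, ∀ j, ∀ p ∈ Og (S := S) c ρ₀, ∀ w, 0 ≤ lvE (Φ ∘ wc S c j) p w
  le : ∀ c ∈ F, ∀ j, ∀ p ∈ Og (S := S) c ρ₀, Φ (wc S c j p) ≤ C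
  up : ∀ c ∈ F, ∀ j, ∀ p ∈ Og (S := S) c ρ₀, Φ (wc S c j p) ≤
    yo y (L.e1 c j) * Real.log (‖p.1‖ ^ 2) + yo y (L.e2 c j) * Real.log (‖p.2‖ ^ 2) + C
  lo : ∀ c ∈ F, ∀ j, ∀ p ∈ Og (S := S) c ρ₀,
    yo y (L.e1 c j) * Real.log (‖p.1‖ ^ 2) + yo y (L.e2 c j) * Real.log (‖p.2‖ ^ 2) - C ≤
      Φ (wc S c j p)
  st1 : ∀ c ∈ F, ∀ j, ∀ p ∈ Og (S := S) c ρ₀, L.e1 c j ≠ none → (IsV c ∨ τ₀ ≤ ‖p.2‖) →
    ∀ w, c₀ * (‖w.1‖ ^ 2 + ‖w.2‖ ^ 2) ≤ lvE (Φ ∘ wc S c j) p w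
  st2 : ∀ c ∈ F, ∀ j, ∀ p ∈ Og (S := S) c ρ₀, L.e2 c j ≠ none → τ₀ ≤ ‖p.1‖ →
    ∀ w, c₀ * (‖w.1‖ ^ 2 + ‖w.2‖ ^ 2) ≤ lvE (Φ ∘ wc S c j) p w

/-- **the input of the null data**: `fX` on the component `E₀`, `H` on `W`; exponents `h1, h2` of
`H` along `{α = 0}`, `{β = 0}`, exponent `e` of `fX` at the end; `a` the shift -/
structure NDat (L : Lab U S) (n1 n2 : Ch T.m → Fin T.d → ℤ) (E₀ : II U) (y : II U → ℝ) (a : ℕ)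
    (fX : XV U E₀.1.1 → ℂ) (H : (Fin 3 → ℂ) → ℂ) (h1 h2 e : Ch T.m → Fin T.d → ℝ) : Prop where
  hol : HolX (pV U E₀.1.1) fX
  off : ∀ q : XV U E₀.1.1, (q : ConnectedComponents (XV U E₀.1.1)) ≠ E₀.2 → fX q = 0
  /-- `H` is holomorphic at the generic points of the charts -/
  Han : ∀ c, Ok S c → ∀ j, ∀ p : ℂ × ℂ, ‖p.1‖ < 2 * S.r c → ‖p.2‖ < 2 * S.r c → T.Gen c p →
    AnalyticAt ℂ (H ∘ wc S c j) p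
  Hbd : ∀ c, Ok S c → ∀ j, L.e1 c j = some E₀ ∨ L.e2 c j = some E₀ → ∃ C : ℝ, 0 < C ∧
    ∀ p : ℂ × ℂ, ‖p.1‖ ≤ S.r c → ‖p.2‖ ≤ S.r c → T.Gen c p →
      ‖H (wc S c j p)‖ ≤ C * (‖p.1‖ ^ h1 c j * ‖p.2‖ ^ h2 c j)
  /-- vertex charts -/
  h2V : ∀ c, Ok S c → IsV c → ∀ j, h2 c j = 0
  /-- growth of `fX` at the ends, first axis -/
  f1 : ∀ c, Ok S c → ¬ IsV c → v1 T c = some E₀.1.1 → ∀ γ, End1 U S c E₀.1.1 γ → ∀ j,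
    L.e1 c j = some E₀ → ∃ C r' : ℝ, 0 < C ∧ 0 < r' ∧ ∀ b : ℂ, 0 < ‖b‖ → ‖b‖ < r' →
      ‖fX (γ j b)‖ ≤ C * ‖b‖ ^ e c j
  /-- growth of `fX` at the ends, second axis -/
  f2 : ∀ c, Ok S c → v2 T c = some E₀.1.1 → ∀ γ, End2 U S c E₀.1.1 γ → ∀ j,
    L.e2 c j = some E₀ → ∃ C r' : ℝ, 0 < C ∧ 0 < r' ∧ ∀ b : ℂ, 0 < ‖b‖ → ‖b‖ < r' →
      ‖fX (γ j b)‖ ≤ C * ‖b‖ ^ e c j
  /-- `{α = 0}` in `E₀` -/
  near1 : ∀ c, Ok S c → ∀ j, L.e1 c j = some E₀ → y E₀ + n1 c j < h1 c j + 1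
  nearD1 : ∀ c, Ok S c → ∀ j, L.e1 c j = some E₀ → (n1 c j : ℝ) < h1 c j + a
  /-- `{α = 0}` in `E₀`, `{β = 0}` in another component -/
  far2 : ∀ c, Ok S c → ∀ j, L.e1 c j = some E₀ → ∀ E, L.e2 c j = some E →
    y E + n2 c j < h2 c j + e c j ∧ (n2 c j : ℝ) < h2 c j + e c j + a
  /-- `{α = 0}` in `E₀`, leg -/
  leg : ∀ c, Ok S c → ¬ IsV c → ∀ j, L.e1 c j = some E₀ → L.e2 c j = none →
    (n2 c j : ℝ) < h2 c j + e c j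
  /-- `{β = 0}` in `E₀` -/
  near2 : ∀ c, Ok S c → ∀ j, L.e2 c j = some E₀ → y E₀ + n2 c j < h2 c j + 1
  nearD2 : ∀ c, Ok S c → ∀ j, L.e2 c j = some E₀ → (n2 c j : ℝ) < h2 c j + a
  /-- `{β = 0}` in `E₀`, `{α = 0}` in another component -/
  far1 : ∀ c, Ok S c → ∀ j, L.e2 c j = some E₀ → ∀ E, L.e1 c j = some E →
    y E + n1 c j < h1 c j + e c j ∧ (n1 c j : ℝ) < h1 c j + e c j + a
  /-- `{β = 0}` in `E₀`, top edge -/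
  top : ∀ c, Ok S c → ∀ j, L.e2 c j = some E₀ → L.e1 c j = none →
    (n1 c j : ℝ) < h1 c j + e c j

/-- **THE NULL DATA** (task C-DATA (D), helper250): `D` is holomorphic data on the component `E₀`
with the weight `Φ + a log |s|²` and the data `s ^ a D` -/
def NullStmt (L : Lab U S) (n1 n2 : Ch T.m → Fin T.d → ℤ) : Prop :=
  ∀ (E₀ : II U) (y : II U → ℝ) (a : ℕ) (fX : XV U E₀.1.1 → ℂ) (H : (Fin 3 → ℂ) → ℂ)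
    (h1 h2 e : Ch T.m → Fin T.d → ℝ), NDat L n1 n2 E₀ y a fX H h1 h2 e →
  ∀ F' : Finset (Ch T.m), (∀ c ∈ F', Ok S c) →
  ∃ F₀ : Finset (Ch T.m), (∀ c ∈ F₀, Ok S c) ∧ F' ⊆ F₀ ∧
  ∀ F : Finset (Ch T.m), F₀ ⊆ F → (∀ c ∈ F, Ok S c) →
  ∀ τ₁ > 0, ∃ τ₀ > 0, τ₀ < τ₁ ∧ ∀ (Φ : (Fin 3 → ℂ) → ℝ) (ρ₀ C c₀ : ℝ),
    WT0 L y F τ₀ Φ ρ₀ C c₀ →
  ∃ (ρ : ℝ) (D : (Fin 3 → ℂ) → ℂ) (O : Ch T.m → Fin T.d → Set (ℂ × ℂ))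
    (κ : Ch T.m → Fin T.d → ℂ × ℂ → ℝ), 0 < ρ ∧ ρ ≤ ρ₀ ∧
    CDataB_250.Adm S F (fun x => Φ x + a * Real.log (‖x 1‖ ^ 2)) ρ (fun x => x 1 ^ a * D x) O κ ∧
    -- the test points of `E₀`
    (∀ c ∈ F', IsV c → ∀ j, L.e1 c j = some E₀ → ∀ γ, End1 U S c E₀.1.1 γ →
      ∀ᶠ p in 𝓝 ((0 : ℂ), (0 : ℂ)), T.Gen c p →
        D (wc S c j p) = H (wc S c j p) * fX (γ j p.2)) ∧
    -- the test points of the other components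
    (∀ c ∈ F', IsV c → ∀ j, L.e1 c j ≠ some E₀ →
      ∀ᶠ p in 𝓝 ((0 : ℂ), (0 : ℂ)), T.Gen c p → D (wc S c j p) = 0) ∧
    -- the top edges
    (∀ c ∈ F', v1 T c = none → ∀ j,
      (L.e2 c j = some E₀ → ∃ r > 0, ∃ C' : ℝ, ∀ p ∈ BD r r, T.Gen c p →
        ContinuousAt (D ∘ wc S c j) p ∧
        ‖D (wc S c j p)‖ ≤ C' * (‖p.1‖ ^ (h1 c j + e c j) * ‖p.2‖ ^ h2 c j)) ∧
      (L.e2 c j ≠ some E₀ → ∃ r > 0, ∀ p ∈ BD r r, T.Gen c p → D (wc S c j p) = 0))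

end Crest.Agent.R257.Exf_843
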