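import Crest.Agent.R257.V1_82
import Crest.Agent.R257.Glue2_101

/-!
# Row 257 (S0395), C-WT, leaf (V2) (helper808): strict plurisubharmonicity in the zones of the axes

* `lev2`    : the Levi form of `Y log |s|² + H ∘ g + |s|²` (`H` of class `C²`);
* `det_ne`  : the differentials of the coordinates of the tube are independent;
* `strict1`, `strict2`.
-/

set_option autoImplicit false
set_option linter.unusedSectionVars false
set_option linter.unusedVariables false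

open Polynomial Set Filter Topology Metric
open Crest.AlgGeometry.Germ Crest.Agent.R257.AJ387 Crest.Agent.R257.T387
open Crest.Agent.R257.BP_258 Crest.Agent.R257.Lab_931 Crest.Agent.R257.Wt_258
open Crest.Agent.R257.HoB_843 Crest.Agent.R257.Glue2_101

noncomputable section

namespace Crest.Agent.R257.V2_808

section calc2

variable {E : Type*} [NormedAddCommGroup E] [NormedSpace ℂ E] [NormedSpace ℝ E]
  [IsScalarTower ℝ ℂ E] {u v : E → ℝ} {z : E}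

lemma ev_diff2 (hu : ContDiffAt ℝ 2 u z) : ∀ᶠ y in 𝓝 z, DifferentiableAt ℝ u y := by
  have h2 : ContDiffAt ℝ 1 u z := hu.of_le (by norm_num)
  exact (h2.eventually (by simp)).mono fun y hy => hy.differentiableAt (by norm_num)

lemma diff_fd2 (hu : ContDiffAt ℝ 2 u z) : DifferentiableAt ℝ (fderiv ℝ u) z :=
  (hu.fderiv_right (m := 1) (by norm_num)).differentiableAt (by norm_num)

lemma lvE_add2 (hu : ContDiffAt ℝ 2 u z) (hv : ContDiffAt ℝ 2 v z) (w : E) :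
    lvE (fun y => u y + v y) z w = lvE u z w + lvE v z w := by
  have e : fderiv ℝ (fun y => u y + v y) =ᶠ[𝓝 z] fun y => fderiv ℝ u y + fderiv ℝ v y := by
    filter_upwards [ev_diff2 hu, ev_diff2 hv] with y h1 h2
    exact fderiv_add h1 h2
  have e2 : fderiv ℝ (fun y => fderiv ℝ u y + fderiv ℝ v y) z =
      fderiv ℝ (fderiv ℝ u) z + fderiv ℝ (fderiv ℝ v) z := fderiv_add (diff_fd2 hu) (diff_fd2 hv)
  unfold lvE
  rw [e.fderiv_eq, e2]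
  simp only [_root_.add_apply]
  ring

/-- `H ∘ g`, `H` of class `C²` -/
lemma lvE_comp2 {g : E → ℂ} {H : ℂ → ℝ} {z : E} (hg : ContDiffAt ℂ (⊤ : ℕ∞) g z)
    (hH : ContDiffAt ℝ 2 H (g z)) (w : E) :
    lvE (fun y => H (g y)) z w = lvE H (g z) 1 * ‖fderiv ℂ g z w‖ ^ 2 := by
  have h := lvE_comp (T := g) (u := H) (z := z) (hg.of_le two_le_top) hH w
  have h' : lvE (fun y => H (g y)) z w = lvE H (g z) (fderiv ℂ g z w) := h
  rw [h']
  set c : ℂ := fderiv ℂ g z w with hc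
  set B := fderiv ℝ (fderiv ℝ H) (g z) with hB
  have hsym : ∀ a b, B a b = B b a := by
    intro a b
    have h2 : ContDiffAt ℝ (minSmoothness ℝ 2) H (g z) := by
      rw [minSmoothness_of_isRCLikeNormedField]
      exact hH
    exact (h2.isSymmSndFDerivAt (le_refl _)).eq a b
  have ec : c = (c.re : ℝ) • (1 : ℂ) + (c.im : ℝ) • Complex.I := by
    simp [Complex.re_add_im]
  have eic : Complex.I • c = (-c.im : ℝ) • (1 : ℂ) + (c.re : ℝ) • Complex.I := by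
    apply Complex.ext <;> simp
  have ei1 : Complex.I • (1 : ℂ) = Complex.I := by simp
  have en : ‖c‖ ^ 2 = c.re ^ 2 + c.im ^ 2 := by
    rw [← Complex.normSq_eq_norm_sq, Complex.normSq_apply]; ring
  unfold lvE
  rw [← hB, ei1, eic, en]
  conv_lhs => rw [show B c c = B ((c.re : ℝ) • (1 : ℂ) + (c.im : ℝ) • Complex.I)
    ((c.re : ℝ) • (1 : ℂ) + (c.im : ℝ) • Complex.I) from by rw [← ec]]
  simp only [map_add, map_smul, _root_.add_apply, _root_.smul_apply, smul_eq_mul]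
  rw [hsym Complex.I 1]
  ring

/-- the Levi form of the tube function, `H` of class `C²` -/
theorem lev2 {s g : E → ℂ} {H : ℂ → ℝ} (Y : ℝ) (hs : ContDiffAt ℂ (⊤ : ℕ∞) s z) (h0 : s z ≠ 0)
    (hg : ContDiffAt ℂ (⊤ : ℕ∞) g z) (hH : ContDiffAt ℝ 2 H (g z)) (w : E) :
    lvE (fun p => Y * Real.log (‖s p‖ ^ 2) + H (g p) + ‖s p‖ ^ 2) z w =
      lvE H (g z) 1 * ‖fderiv ℂ g z w‖ ^ 2 + ‖fderiv ℂ s z w‖ ^ 2 := by
  have k1 : ContDiffAt ℝ 2 (fun p => Y * Real.log (‖s p‖ ^ 2)) z :=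
    (contDiffAt_const.mul (sm_log hs h0)).of_le two_le_top
  have k2 : ContDiffAt ℝ 2 (fun p => H (g p)) z :=
    hH.comp z ((hg.restrict_scalars ℝ).of_le two_le_top)
  have k3 : ContDiffAt ℝ 2 (fun p => ‖s p‖ ^ 2) z := (sm_of_hol hs).of_le two_le_top
  rw [lvE_add2 (k1.add k2) k3, lvE_add2 k1 k2, lvE_const_mul (sm_log hs h0), lvE_log hs h0,
    lvE_sq hs, lvE_comp2 hg hH]
  ring

end calc2

/-- the Levi form of a `C²` function is continuous -/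
theorem lev_cont {H : ℂ → ℝ} {x : ℂ} (hH : ContDiffAt ℝ 2 H x) :
    ContinuousAt (fun y => lvE H y 1) x := by
  have h1 : ContDiffAt ℝ 0 (fderiv ℝ (fderiv ℝ H)) x :=
    (hH.fderiv_right (m := 1) (by norm_num)).fderiv_right (m := 0) (by norm_num)
  have h2 : ContinuousAt (fderiv ℝ (fderiv ℝ H)) x := h1.continuousAt
  unfold lvE
  have h3 : ∀ a b : ℂ, ContinuousAt (fun y => fderiv ℝ (fderiv ℝ H) y a b) x := fun a b =>
    (h2.clm_apply continuousAt_const).clm_apply continuousAt_const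
  exact continuousAt_const.mul ((h3 _ _).add (h3 _ _))

/-- linear forms on `ℂ²` -/
theorem lin_eq (A : ℂ × ℂ →L[ℂ] ℂ) (w : ℂ × ℂ) : A w = A (1, 0) * w.1 + A (0, 1) * w.2 := by
  have h : w = w.1 • ((1 : ℂ), (0 : ℂ)) + w.2 • ((0 : ℂ), (1 : ℂ)) := by
    ext <;> simp
  conv_lhs => rw [h, map_add, map_smul, map_smul]
  simp only [smul_eq_mul]
  ring

/-- the differentials of the coordinates are independent -/
theorem det_ne {s g : ℂ × ℂ → ℂ} {P : ℂ × ℂ → ℂ × ℂ} {p₀ q₀ : ℂ × ℂ}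
    (hs : DifferentiableAt ℂ s p₀) (hg : DifferentiableAt ℂ g p₀) (hP : DifferentiableAt ℂ P q₀)
    (hP0 : P q₀ = p₀) (h1 : ∀ᶠ q in 𝓝 q₀, s (P q) = q.1) (h2 : ∀ᶠ q in 𝓝 q₀, g (P q) = q.2) :
    fderiv ℂ s p₀ (1, 0) * fderiv ℂ g p₀ (0, 1) - fderiv ℂ s p₀ (0, 1) * fderiv ℂ g p₀ (1, 0) ≠ 0 := by
  subst hP0
  have e1 : (fderiv ℂ s (P q₀)).comp (fderiv ℂ P q₀) = ContinuousLinearMap.fst ℂ ℂ ℂ := by
    rw [← fderiv_comp q₀ hs hP]
    have : (s ∘ P) =ᶠ[𝓝 q₀] fun q => q.1 := h1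
    rw [this.fderiv_eq]
    exact fderiv_fst
  have e2 : (fderiv ℂ g (P q₀)).comp (fderiv ℂ P q₀) = ContinuousLinearMap.snd ℂ ℂ ℂ := by
    rw [← fderiv_comp q₀ hg hP]
    have : (g ∘ P) =ᶠ[𝓝 q₀] fun q => q.2 := h2
    rw [this.fderiv_eq]
    exact fderiv_snd
  set X := fderiv ℂ P q₀ (1, 0) with hX
  set Z := fderiv ℂ P q₀ (0, 1) with hZ
  have a1 : fderiv ℂ s (P q₀) X = 1 := by
    have := congrArg (fun A : ℂ × ℂ →L[ℂ] ℂ => A (1, 0)) e1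
    simpa using this
  have a2 : fderiv ℂ s (P q₀) Z = 0 := by
    have := congrArg (fun A : ℂ × ℂ →L[ℂ] ℂ => A (0, 1)) e1
    simpa using this
  have b1 : fderiv ℂ g (P q₀) X = 0 := by
    have := congrArg (fun A : ℂ × ℂ →L[ℂ] ℂ => A (1, 0)) e2
    simpa using this
  have b2 : fderiv ℂ g (P q₀) Z = 1 := by
    have := congrArg (fun A : ℂ × ℂ →L[ℂ] ℂ => A (0, 1)) e2
    simpa using this
  rw [lin_eq] at a1 a2 b1 b2
  intro h0
  have h3 : (fderiv ℂ s (P q₀) (1, 0) * fderiv ℂ g (P q₀) (0, 1) -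
      fderiv ℂ s (P q₀) (0, 1) * fderiv ℂ g (P q₀) (1, 0)) * (X.1 * Z.2 - X.2 * Z.1) = 1 := by
    linear_combination (fderiv ℂ g (P q₀) (1, 0) * Z.1 + fderiv ℂ g (P q₀) (0, 1) * Z.2) * a1 -
      (fderiv ℂ g (P q₀) (1, 0) * X.1 + fderiv ℂ g (P q₀) (0, 1) * X.2) * a2 + b2
  rw [h0, zero_mul] at h3
  exact zero_ne_one h3

/-- **strictness near a point where the differentials are independent** -/
theorem strict_core {s g : ℂ × ℂ → ℂ} {p₀ : ℂ × ℂ} (hs : AnalyticAt ℂ s p₀)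
    (hg : AnalyticAt ℂ g p₀)
    (hd : fderiv ℂ s p₀ (1, 0) * fderiv ℂ g p₀ (0, 1) -
      fderiv ℂ s p₀ (0, 1) * fderiv ℂ g p₀ (1, 0) ≠ 0) {H : ℂ → ℝ}
    (hH : ContDiffAt ℝ (⊤ : ℕ∞) H (g p₀)) (hp : 0 < lvE H (g p₀) 1) (Y : ℝ) :
    ∃ c₀ > 0, ∀ᶠ p in 𝓝 p₀, s p ≠ 0 → ∀ w : ℂ × ℂ, c₀ * (‖w.1‖ ^ 2 + ‖w.2‖ ^ 2) ≤
      lvE (fun p => Y * Real.log (‖s p‖ ^ 2) + H (g p) + ‖s p‖ ^ 2) p w := by
  have hH2 : ContDiffAt ℝ 2 H (g p₀) := hH.of_le two_le_top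
  set μ : ℝ := lvE H (g p₀) 1 / 2 with hμ
  have hμ0 : 0 < μ := by positivity
  have hcs : ∀ a, ContinuousAt (fun p => fderiv ℂ s p a) p₀ := fun a =>
    hs.fderiv.continuousAt.clm_apply continuousAt_const
  have hcg : ∀ a, ContinuousAt (fun p => fderiv ℂ g p a) p₀ := fun a =>
    hg.fderiv.continuousAt.clm_apply continuousAt_const
  set det : ℂ × ℂ → ℂ := fun p => fderiv ℂ s p (1, 0) * fderiv ℂ g p (0, 1) -
      fderiv ℂ s p (0, 1) * fderiv ℂ g p (1, 0) with hdet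
  have hdc : ContinuousAt det p₀ := ((hcs _).mul (hcg _)).sub ((hcs _).mul (hcg _))
  set δ : ℝ := ‖det p₀‖ / 2 with hδ
  have hd0 : 0 < ‖det p₀‖ := norm_pos_iff.2 hd
  have hδ0 : 0 < δ := by positivity
  set K : ℝ := 1 + ‖fderiv ℂ s p₀ (1, 0)‖ + ‖fderiv ℂ s p₀ (0, 1)‖ +
    ‖fderiv ℂ g p₀ (1, 0)‖ + ‖fderiv ℂ g p₀ (0, 1)‖ with hK
  have hK0 : 0 < K := by positivity
  have hbd : ∀ {F : ℂ × ℂ → ℂ}, ContinuousAt F p₀ → ‖F p₀‖ < K → ∀ᶠ p in 𝓝 p₀, ‖F p‖ ≤ K :=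
    fun {F} hF hlt => (hF.norm.eventually_lt continuousAt_const hlt).mono fun p h => le_of_lt h
  have k1 := hbd (hcs (1, 0)) (by
    have := norm_nonneg (fderiv ℂ s p₀ (0, 1)); have := norm_nonneg (fderiv ℂ g p₀ (1, 0))
    have := norm_nonneg (fderiv ℂ g p₀ (0, 1)); rw [hK]; linarith)
  have k2 := hbd (hcs (0, 1)) (by
    have := norm_nonneg (fderiv ℂ s p₀ (1, 0)); have := norm_nonneg (fderiv ℂ g p₀ (1, 0))
    have := norm_nonneg (fderiv ℂ g p₀ (0, 1)); rw [hK]; linarith)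
  have k3 := hbd (hcg (1, 0)) (by
    have := norm_nonneg (fderiv ℂ s p₀ (0, 1)); have := norm_nonneg (fderiv ℂ s p₀ (1, 0))
    have := norm_nonneg (fderiv ℂ g p₀ (0, 1)); rw [hK]; linarith)
  have k4 := hbd (hcg (0, 1)) (by
    have := norm_nonneg (fderiv ℂ s p₀ (0, 1)); have := norm_nonneg (fderiv ℂ g p₀ (1, 0))
    have := norm_nonneg (fderiv ℂ s p₀ (1, 0)); rw [hK]; linarith)
  have k5 : ∀ᶠ p in 𝓝 p₀, δ ≤ ‖det p‖ :=
    (continuousAt_const.eventually_lt hdc.norm (by rw [hδ]; linarith)).mono fun p h => le_of_lt h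
  have k6 : ∀ᶠ p in 𝓝 p₀, μ ≤ lvE H (g p) 1 := by
    have h1 : ContinuousAt (fun p => lvE H (g p) 1) p₀ :=
      ContinuousAt.comp (g := fun y => lvE H y 1) (f := g) (lev_cont hH2) hg.continuousAt
    exact (continuousAt_const.eventually_lt h1 (by rw [hμ]; linarith)).mono fun p h => le_of_lt h
  have k7 : ∀ᶠ p in 𝓝 p₀, ContDiffAt ℝ 2 H (g p) :=
    hg.continuousAt.eventually (hH2.eventually (by simp))
  set ν : ℝ := min μ 1 with hν
  have hν0 : 0 < ν := lt_min hμ0 one_pos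
  refine ⟨δ ^ 2 * ν / (4 * K ^ 2), by positivity, ?_⟩
  filter_upwards [k1, k2, k3, k4, k5, k6, k7, hs.eventually_analyticAt,
    hg.eventually_analyticAt] with p h1 h2 h3 h4 h5 h6 h7 h8 h9 h0 w
  rw [lev2 Y h8.contDiffAt h0 h9.contDiffAt h7]
  have e := two_forms hδ0 h5 h1 h2 h3 h4 w.1 w.2
  rw [← lin_eq, ← lin_eq] at e
  have e2 : ν * (‖fderiv ℂ s p w‖ ^ 2 + ‖fderiv ℂ g p w‖ ^ 2) ≤
      lvE H (g p) 1 * ‖fderiv ℂ g p w‖ ^ 2 + ‖fderiv ℂ s p w‖ ^ 2 := by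
    have a1 : ν * ‖fderiv ℂ s p w‖ ^ 2 ≤ 1 * ‖fderiv ℂ s p w‖ ^ 2 :=
      mul_le_mul_of_nonneg_right (min_le_right _ _) (by positivity)
    have a2 : ν * ‖fderiv ℂ g p w‖ ^ 2 ≤ lvE H (g p) 1 * ‖fderiv ℂ g p w‖ ^ 2 :=
      mul_le_mul_of_nonneg_right ((min_le_left _ _).trans h6) (by positivity)
    rw [mul_add]
    linarith
  calc δ ^ 2 * ν / (4 * K ^ 2) * (‖w.1‖ ^ 2 + ‖w.2‖ ^ 2)
      = ν / (4 * K ^ 2) * (δ ^ 2 * (‖w.1‖ ^ 2 + ‖w.2‖ ^ 2)) := by ring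
    _ ≤ ν / (4 * K ^ 2) * (4 * K ^ 2 * (‖fderiv ℂ s p w‖ ^ 2 + ‖fderiv ℂ g p w‖ ^ 2)) :=
        mul_le_mul_of_nonneg_left e (by positivity)
    _ = ν * (‖fderiv ℂ s p w‖ ^ 2 + ‖fderiv ℂ g p w‖ ^ 2) := by
        field_simp
    _ ≤ _ := e2

variable {f : (Fin 3 → ℂ) → ℂ} {T : TB f} {S : Sh T}

/-- `W1` is analytic at the points of the first axis -/
theorem W1_an (c : Ch T.m) (b : ℂ) : AnalyticAt ℂ (W1 c) ((0 : ℂ), b) := by
  have hk0 : ∀ (i : Fin T.m) (k : ℕ), AnalyticAt ℂ (hk (T.φ i) k) 0 := fun i k =>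
    (hk_diff T.ρ_pos (T.φ_an i).differentiableOn k).analyticAt (ball_mem_nhds 0 T.ρ_pos)
  cases c with
  | edge i k k' =>
    have h1 : AnalyticAt ℂ (fun p : ℂ × ℂ => hk (T.φ i) k ((p.1 * p.2) ^ T.M)) ((0 : ℂ), b) := by
      refine AnalyticAt.comp (g := hk (T.φ i) k) (f := fun p : ℂ × ℂ => (p.1 * p.2) ^ T.M) ?_
        ((analyticAt_fst.mul analyticAt_snd).pow _)
      simpa [T.M_pos.ne'] using hk0 i k
    exact h1.add (analyticAt_snd.pow _)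
  | leg i =>
    exact (V1_82.hk_an i (T.top i) b).add (analyticAt_snd.pow _)
  | vert i k w₀ =>
    exact (V1_82.hk_an i k b).add (analyticAt_const.add analyticAt_snd)

/-- `W2` is analytic at the points of the second axis -/
theorem W2_an (c : Ch T.m) {a : ℂ} (ha : a ≠ 0) : AnalyticAt ℂ (W2 c) (a, (0 : ℂ)) := by
  cases c with
  | edge i k k' =>
    have hk0 : AnalyticAt ℂ (hk (T.φ i) k') 0 :=
      (hk_diff T.ρ_pos (T.φ_an i).differentiableOn k').analyticAt (ball_mem_nhds 0 T.ρ_pos)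
    have h1 : AnalyticAt ℂ (fun p : ℂ × ℂ => hk (T.φ i) k' ((p.1 * p.2) ^ T.M)) (a, (0 : ℂ)) := by
      refine AnalyticAt.comp (g := hk (T.φ i) k') (f := fun p : ℂ × ℂ => (p.1 * p.2) ^ T.M) ?_
        ((analyticAt_fst.mul analyticAt_snd).pow _)
      simpa [T.M_pos.ne'] using hk0
    exact h1.add ((analyticAt_fst.pow _).inv (pow_ne_zero _ ha))
  | leg i => exact analyticAt_const
  | vert i k w₀ => exact analyticAt_const

theorem s_an (c : Ch T.m) (p : ℂ × ℂ) : AnalyticAt ℂ (fun p => (T.map c p).1) p := by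
  have h : (fun p => (T.map c p).1) = T.sc c := funext fun q => T.map_fst c q
  rw [h]
  exact T.sc_an c p

theorem s_ne {c : Ch T.m} {p : ℂ × ℂ} (h : T.Gen c p) : (T.map c p).1 ≠ 0 := by
  cases c with
  | edge i k k' => exact mul_ne_zero h.1 h.2
  | leg i => exact h.1
  | vert i k w₀ => exact h

/-- **(V2), first axis** -/
theorem strict1 {c : Ch T.m} (hc : Ok S c) {v : Vtx} (hv : v1 T c = some v) {b₀ : ℂ}
    (hb : ‖b₀‖ ≤ S.r c) (h0 : IsV c ∨ b₀ ≠ 0) {H : ℂ → ℝ}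
    (hH : ContDiffAt ℝ (⊤ : ℕ∞) H (cx T c + b₀ ^ lx T c))
    (hp : 0 < lvE H (cx T c + b₀ ^ lx T c) 1) (Y : ℝ) : ∃ c₀ > 0, ∀ᶠ p in 𝓝 ((0 : ℂ), b₀),
      T.Gen c p → ∀ w : ℂ × ℂ, c₀ * (‖w.1‖ ^ 2 + ‖w.2‖ ^ 2) ≤
        lvE (fun p => Y * Real.log (‖(T.map c p).1‖ ^ 2) + H (W1 c p) + ‖(T.map c p).1‖ ^ 2) p w := by
  obtain ⟨P, hP, hP0, hev⟩ := V1_82.inv1 hc hv hb h0
  have hW := W1_an c b₀
  have hW0 : W1 c (0, b₀) = cx T c + b₀ ^ lx T c := by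
    have := hev.self_of_nhds.2.1
    rw [hP0] at this
    exact this
  have hd := det_ne (s := fun p => (T.map c p).1) (g := W1 c) (s_an c _).differentiableAt
    hW.differentiableAt hP.differentiableAt hP0 (hev.mono fun q h => h.1) (hev.mono fun q h => h.2.1)
  obtain ⟨c₀, hc₀, h⟩ := strict_core (s_an c (0, b₀)) hW hd (H := H) (by rw [hW0]; exact hH)
    (by rw [hW0]; exact hp) Y
  exact ⟨c₀, hc₀, h.mono fun p hp hg w => hp (s_ne hg) w⟩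

/-- **(V2), second axis** -/
theorem strict2 {c : Ch T.m} (hc : Ok S c) {v : Vtx} (hv : v2 T c = some v) {a₀ : ℂ}
    (ha : ‖a₀‖ ≤ S.r c) (h0 : a₀ ≠ 0) {H : ℂ → ℝ}
    (hH : ContDiffAt ℝ (⊤ : ℕ∞) H ((a₀ ^ lx T c)⁻¹))
    (hp : 0 < lvE H ((a₀ ^ lx T c)⁻¹) 1) (Y : ℝ) : ∃ c₀ > 0, ∀ᶠ p in 𝓝 (a₀, (0 : ℂ)),
      T.Gen c p → ∀ w : ℂ × ℂ, c₀ * (‖w.1‖ ^ 2 + ‖w.2‖ ^ 2) ≤
        lvE (fun p => Y * Real.log (‖(T.map c p).1‖ ^ 2) + H (W2 c p) + ‖(T.map c p).1‖ ^ 2) p w := by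
  obtain ⟨P, hP, hP0, hev⟩ := V1_82.inv2 hc hv ha h0
  have hW := W2_an c h0
  have hW0 : W2 c (a₀, 0) = (a₀ ^ lx T c)⁻¹ := by
    have := hev.self_of_nhds.2.1
    rw [hP0] at this
    exact this
  have hd := det_ne (s := fun p => (T.map c p).1) (g := W2 c) (s_an c _).differentiableAt
    hW.differentiableAt hP.differentiableAt hP0 (hev.mono fun q h => h.1) (hev.mono fun q h => h.2.1)
  obtain ⟨c₀, hc₀, h⟩ := strict_core (s_an c (a₀, 0)) hW hd (H := H) (by rw [hW0]; exact hH)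
    (by rw [hW0]; exact hp) Y
  exact ⟨c₀, hc₀, h.mono fun p hp hg w => hp (s_ne hg) w⟩

end Crest.Agent.R257.V2_808
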