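import Crest.Agent.R257.Ta2_980
import Crest.Agent.R257.V2_808
import Crest.Agent.R257.RsnD_843
import Crest.Agent.R257.CDataB_250

/-!
# Row 257 (S0395), NULL DATA (helper980), file 1: retractions and ends

* `tr1`, `tr2`   : transfer to the tube chart, with the retraction;
* `ret_vert`, `ret_ax2` : in canonical vertex charts, and on the second axis, the retraction is
  exactly `γ j β` resp. `γ j α`;
* `diff1`        : on the first axis `fX (ret) - fX (γ j β) = O(α)`, both holomorphic;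
* `gam1_eq`, `gam2_eq` : `γ j β` depends only on the point of `W`.
-/

set_option autoImplicit false
set_option linter.unusedSectionVars false
set_option linter.unusedVariables false

open Polynomial Set Filter Topology Metric
open Crest.AlgGeometry.Germ Crest.Agent.R257.AJ387 Crest.Agent.R257.T387
open Crest.Agent.R257.Gr1_157 Crest.Agent.R257.HoB_843 Crest.Agent.R257.BP_258
open Crest.Agent.R257.Frm_547 Crest.Agent.R257.Lab_931 Crest.Agent.R257.Wt_258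
open Crest.Agent.R257.V1_82 Crest.Agent.R257.End_636 Crest.Agent.R257.Ta2_980
open Crest.Agent.R257.Rsn_843

noncomputable section

namespace Crest.Agent.R257.Nd_980

variable {f : (Fin 3 → ℂ) → ℂ} {T : TB f} {U : Tub T} {S : Sh T}

lemma PDv_open (c : Ch T.m) : IsOpen (PDv S c) := by
  by_cases h : IsV c
  · have : PDv S c = {b | ‖b‖ < 2 * S.r c} := by
      ext b; simp [PDv, h]
    rw [this]
    exact isOpen_lt continuous_norm continuous_const
  · have : PDv S c = {b | 0 < ‖b‖} ∩ {b | ‖b‖ < 2 * S.r c} := by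
      ext b; simp [PDv, h]
    rw [this]
    exact (isOpen_lt continuous_const continuous_norm).inter
      (isOpen_lt continuous_norm continuous_const)

lemma PDc_open (c : Ch T.m) : IsOpen (PDc S c) := by
  have : PDc S c = {b | 0 < ‖b‖} ∩ {b | ‖b‖ < 2 * S.r c} := by
    ext b; simp [PDc]
  rw [this]
  exact (isOpen_lt continuous_const continuous_norm).inter
    (isOpen_lt continuous_norm continuous_const)

/-- the section of a tube chart at the points of an end -/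
theorem sec_end (hR : RetStmt U) {v : Vtx} {g : ℂ → XV U v} {b : ℂ} (hg : ContinuousAt g b)
    (D : TC U v (g b)) : ∀ᶠ β in 𝓝 b, D.σ (pV U v (g β)) = g β :=
  hg.tendsto.eventually (D.near hR)

/-- **transfer on the first axis** -/
theorem tr1 (hR : RetStmt U) {c : Ch T.m} (hc : Ok S c) {v : Vtx} (hv : v1 T c = some v)
    {γ : Fin T.d → ℂ → XV U v} (hγ : End1 U S c v γ) {b : ℂ} (hb : b ∈ PDv S c)
    (j : Fin T.d) (D : TC U v (γ j b)) :
    ∀ᶠ p in 𝓝 ((0 : ℂ), b), T.Gen c p → wc S c j p = D.X ((T.map c p).1, W1 c p) ∧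
      W1 c p ∈ ball (pV U v (γ j b)) D.r ∧ IsRet U v (wc S c j p) (D.σ (W1 c p)) := by
  obtain ⟨l1, l2⟩ := hγ.lim j b hb
  have h := D.ident hR (l := 𝓝[{p : ℂ × ℂ | p.1 ≠ 0}] ((0 : ℂ), b)) (X := wc S c j)
    (by rw [eventually_nhdsWithin_iff]; exact l1)
    (fun O hO => by rw [eventually_nhdsWithin_iff]; exact l2 O hO)
  rw [eventually_nhdsWithin_iff] at h
  filter_upwards [h] with p hp hg
  have h1 := hp (gen_fst hg)
  have h2 : wv T v (wc S c j p 1, wc S c j p 2) = W1 c p := W1_eq hc.1 hv hg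
  rw [h2] at h1
  exact h1

/-- **transfer on the second axis** -/
theorem tr2 (hR : RetStmt U) {c : Ch T.m} (hc : Ok S c) {v : Vtx} (hv : v2 T c = some v)
    {γ : Fin T.d → ℂ → XV U v} (hγ : End2 U S c v γ) {a : ℂ} (ha : a ∈ PDc S c)
    (j : Fin T.d) (D : TC U v (γ j a)) :
    ∀ᶠ p in 𝓝 (a, (0 : ℂ)), T.Gen c p → wc S c j p = D.X ((T.map c p).1, W2 c p) ∧
      W2 c p ∈ ball (pV U v (γ j a)) D.r ∧ IsRet U v (wc S c j p) (D.σ (W2 c p)) := by
  obtain ⟨l1, l2⟩ := hγ.lim j a ha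
  have h := D.ident hR (l := 𝓝[{p : ℂ × ℂ | p.2 ≠ 0}] (a, (0 : ℂ))) (X := wc S c j)
    (by rw [eventually_nhdsWithin_iff]; exact l1)
    (fun O hO => by rw [eventually_nhdsWithin_iff]; exact l2 O hO)
  rw [eventually_nhdsWithin_iff] at h
  filter_upwards [h] with p hp hg
  have h1 := hp (gen_snd_E (isV_v2 hv) hg)
  have h2 : wv T v (wc S c j p 1, wc S c j p 2) = W2 c p := W2_eq hc.1 hv hg
  rw [h2] at h1
  exact h1

/-- `w` in a canonical vertex chart -/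
lemma W1_vert {c : Ch T.m} (hc : Ok S c) (hV : IsV c) {p : ℂ × ℂ} (hp : ‖p.1‖ ^ T.M < T.ρ) :
    W1 c p = cx T c + p.2 := by
  obtain ⟨hc1, hc2⟩ := hc
  cases c with
  | edge i k k' => exact absurd hV (by simp [IsV])
  | leg i => exact absurd hV (by simp [IsV])
  | vert i k w₀ =>
    obtain ⟨v, hv, rfl, rfl, hw⟩ := hc2
    simp only [W1, cx]
    rw [hk_ci S hv (mem_ball_zero_iff.2 (by rw [norm_pow]; exact hp)), zero_add]

/-- `w` on the second axis of a canonical edge -/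
lemma W2_edge {c : Ch T.m} (hc : Ok S c) {v : Vtx} (hv : v2 T c = some v) {p : ℂ × ℂ}
    (hp : ‖p.1 * p.2‖ ^ T.M < T.ρ) : W2 c p = (p.1 ^ lx T c)⁻¹ := by
  obtain ⟨hc1, hc2⟩ := hc
  cases c with
  | edge i k k' =>
    obtain ⟨v', hv', rfl, rfl, rfl⟩ := hc2
    simp only [W2, lx]
    rw [hk_ci S hv' (mem_ball_zero_iff.2 (by rw [norm_pow]; exact hp)), zero_add]
  | leg i => simp [v2] at hv
  | vert i k w₀ => simp [v2] at hv

lemma small_pow {X : Type*} {l : Filter X} {g : X → ℂ} (hg : Tendsto g l (𝓝 0)) :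
    ∀ᶠ x in l, ‖g x‖ ^ T.M < T.ρ := by
  have h1 : Tendsto (fun x => ‖g x‖ ^ T.M) l (𝓝 (‖(0 : ℂ)‖ ^ T.M)) := hg.norm.pow _
  rw [norm_zero, zero_pow T.M_pos.ne'] at h1
  exact h1.eventually (gt_mem_nhds T.ρ_pos)

lemma lx_V {c : Ch T.m} (hV : IsV c) : lx T c = 1 := by
  cases c with
  | edge i k k' => exact absurd hV (by simp [IsV])
  | leg i => exact absurd hV (by simp [IsV])
  | vert i k w₀ => rfl

lemma gen_V {c : Ch T.m} (hV : IsV c) {p : ℂ × ℂ} (h : p.1 ≠ 0) : T.Gen c p := by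
  cases c with
  | edge i k k' => exact absurd hV (by simp [IsV])
  | leg i => exact absurd hV (by simp [IsV])
  | vert i k w₀ => exact h

/-- **the retraction in a canonical vertex chart** -/
theorem ret_vert (hR : RetStmt U) {c : Ch T.m} (hc : Ok S c) (hV : IsV c) {v : Vtx}
    (hv : v1 T c = some v) {γ : Fin T.d → ℂ → XV U v} (hγ : End1 U S c v γ) {b : ℂ}
    (hb : b ∈ PDv S c) (j : Fin T.d) :
    ∀ᶠ p in 𝓝 ((0 : ℂ), b), p.1 ≠ 0 → IsRet U v (wc S c j p) (γ j p.2) := by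
  obtain ⟨D⟩ := exists_TC hR (v1_mem hc.1 hv) (γ j b)
  have hcont : ContinuousAt (γ j) b := (hγ.cont j).continuousAt ((PDv_open c).mem_nhds hb)
  have h2 : Tendsto (fun p : ℂ × ℂ => p.2) (𝓝 ((0 : ℂ), b)) (𝓝 b) := continuous_snd.tendsto _
  have h1 : Tendsto (fun p : ℂ × ℂ => p.1) (𝓝 ((0 : ℂ), b)) (𝓝 0) := continuous_fst.tendsto _
  filter_upwards [tr1 hR hc hv hγ hb j D, h2.eventually (sec_end hR hcont D),
    h2.eventually ((PDv_open c).mem_nhds hb), small_pow (T := T) h1] with p e1 e2 e3 e4 h0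
  have e5 := (e1 (gen_V hV h0)).2.2
  have e6 : W1 c p = pV U v (γ j p.2) := by
    rw [W1_vert hc hV e4, hγ.pr j p.2 e3, lx_V hV, pow_one]
  rw [e6, e2] at e5
  exact e5

/-- **the retraction on the second axis** -/
theorem ret_ax2 (hR : RetStmt U) {c : Ch T.m} (hc : Ok S c) {v : Vtx}
    (hv : v2 T c = some v) {γ : Fin T.d → ℂ → XV U v} (hγ : End2 U S c v γ) {a : ℂ}
    (ha : a ∈ PDc S c) (j : Fin T.d) :
    ∀ᶠ p in 𝓝 (a, (0 : ℂ)), p.2 ≠ 0 → IsRet U v (wc S c j p) (γ j p.1) := by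
  obtain ⟨D⟩ := exists_TC hR (v2_mem hc.1 hv) (γ j a)
  have hcont : ContinuousAt (γ j) a := (hγ.cont j).continuousAt ((PDc_open c).mem_nhds ha)
  have h2 : Tendsto (fun p : ℂ × ℂ => p.1) (𝓝 (a, (0 : ℂ))) (𝓝 a) := continuous_fst.tendsto _
  have h1 : Tendsto (fun p : ℂ × ℂ => p.1 * p.2) (𝓝 (a, (0 : ℂ))) (𝓝 0) := by
    have h3 : Continuous (fun p : ℂ × ℂ => p.1 * p.2) := by fun_prop
    have h4 := h3.tendsto ((a, (0 : ℂ)) : ℂ × ℂ)
    simp only [mul_zero] at h4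
    exact h4
  filter_upwards [tr2 hR hc hv hγ ha j D, h2.eventually (sec_end hR hcont D),
    h2.eventually ((PDc_open c).mem_nhds ha), small_pow (T := T) h1] with p e1 e2 e3 e4 h0
  have hE : IsE c := isV_v2 hv
  have hg : T.Gen c p := by
    cases c with
    | edge i k k' => exact ⟨norm_pos_iff.1 e3.1, h0⟩
    | leg i => exact absurd hE (by simp [IsE])
    | vert i k w₀ => exact absurd hE (by simp [IsE])
  have e5 := (e1 hg).2.2
  have e6 : W2 c p = pV U v (γ j p.1) := by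
    rw [W2_edge hc hv e4, hγ.pr j p.1 e3]
  rw [e6, e2] at e5
  exact e5

/-- analytic functions vanishing on the first axis -/
theorem lip1 {Δ : ℂ × ℂ → ℂ} {b : ℂ} (hΔ : AnalyticAt ℂ Δ ((0 : ℂ), b))
    (h0 : ∀ᶠ β in 𝓝 b, Δ (0, β) = 0) :
    ∃ C : ℝ, 0 < C ∧ ∀ᶠ p in 𝓝 ((0 : ℂ), b), ‖Δ p‖ ≤ C * ‖p.1‖ := by
  have h1 : ContDiffAt ℝ 1 Δ ((0 : ℂ), b) := hΔ.contDiffAt.restrict_scalars ℝ
  obtain ⟨K, t, ht, hL⟩ := h1.exists_lipschitzOnWith
  refine ⟨K + 1, by positivity, ?_⟩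
  have h2 : Tendsto (fun p : ℂ × ℂ => ((0 : ℂ), p.2)) (𝓝 ((0 : ℂ), b)) (𝓝 ((0 : ℂ), b)) := by
    have h3 : Continuous (fun p : ℂ × ℂ => ((0 : ℂ), p.2)) := by fun_prop
    exact h3.tendsto ((0 : ℂ), b)
  have h4 : Tendsto (fun p : ℂ × ℂ => p.2) (𝓝 ((0 : ℂ), b)) (𝓝 b) := continuous_snd.tendsto _
  filter_upwards [ht, h2.eventually ht, h4.eventually h0] with p e1 e2 e3
  have e4 := hL.dist_le_mul p e1 _ e2
  rw [e3, dist_zero_right] at e4
  have e5 : dist p ((0 : ℂ), p.2) = ‖p.1‖ := by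
    rw [Prod.dist_eq]
    simp
  rw [e5] at e4
  refine e4.trans ?_
  have : 0 ≤ ‖p.1‖ := norm_nonneg _
  nlinarith

/-- the function at an end is holomorphic -/
theorem end1_an (hR : RetStmt U) {c : Ch T.m} (hc : Ok S c) {v : Vtx} (hv : v1 T c = some v)
    {γ : Fin T.d → ℂ → XV U v} (hγ : End1 U S c v γ) {fX : XV U v → ℂ} (hf : HolX (pV U v) fX)
    (j : Fin T.d) {b : ℂ} (hb : b ∈ PDv S c) : AnalyticAt ℂ (fun β => fX (γ j β)) b := by
  obtain ⟨D⟩ := exists_TC hR (v1_mem hc.1 hv) (γ j b)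
  have hcont : ContinuousAt (γ j) b := (hγ.cont j).continuousAt ((PDv_open c).mem_nhds hb)
  have hF : AnalyticAt ℂ (fX ∘ D.σ) (pV U v (γ j b)) := hf _ _ D.σ D.r_pos D.σc D.σp
  rw [hγ.pr j b hb] at hF
  have h1 : AnalyticAt ℂ (fun β : ℂ => cx T c + β ^ lx T c) b :=
    analyticAt_const.add (analyticAt_id.pow _)
  refine (AnalyticAt.comp (g := fX ∘ D.σ) (f := fun β : ℂ => cx T c + β ^ lx T c) hF h1).congr ?_
  filter_upwards [sec_end hR hcont D, (PDv_open c).mem_nhds hb] with β e1 e2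
  simp only [Function.comp_apply]
  rw [← hγ.pr j β e2, e1]

theorem end2_an (hR : RetStmt U) {c : Ch T.m} (hc : Ok S c) {v : Vtx} (hv : v2 T c = some v)
    {γ : Fin T.d → ℂ → XV U v} (hγ : End2 U S c v γ) {fX : XV U v → ℂ} (hf : HolX (pV U v) fX)
    (j : Fin T.d) {a : ℂ} (ha : a ∈ PDc S c) : AnalyticAt ℂ (fun α => fX (γ j α)) a := by
  obtain ⟨D⟩ := exists_TC hR (v2_mem hc.1 hv) (γ j a)
  have hcont : ContinuousAt (γ j) a := (hγ.cont j).continuousAt ((PDc_open c).mem_nhds ha)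
  have hF : AnalyticAt ℂ (fX ∘ D.σ) (pV U v (γ j a)) := hf _ _ D.σ D.r_pos D.σc D.σp
  rw [hγ.pr j a ha] at hF
  have h1 : AnalyticAt ℂ (fun α : ℂ => (α ^ lx T c)⁻¹) a :=
    (analyticAt_id.pow _).inv (pow_ne_zero _ (norm_pos_iff.1 ha.1))
  refine (AnalyticAt.comp (g := fX ∘ D.σ) (f := fun α : ℂ => (α ^ lx T c)⁻¹) hF h1).congr ?_
  filter_upwards [sec_end hR hcont D, (PDc_open c).mem_nhds ha] with β e1 e2
  simp only [Function.comp_apply]
  rw [← hγ.pr j β e2, e1]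

/-- **the difference on the first axis** -/
theorem diff1 (hR : RetStmt U) {c : Ch T.m} (hc : Ok S c) {v : Vtx} (hv : v1 T c = some v)
    {γ : Fin T.d → ℂ → XV U v} (hγ : End1 U S c v γ) {fX : XV U v → ℂ} (hf : HolX (pV U v) fX)
    (j : Fin T.d) {b : ℂ} (hb : b ∈ PDv S c) : ∃ (G : ℂ × ℂ → ℂ) (C : ℝ), 0 < C ∧
    AnalyticAt ℂ G ((0 : ℂ), b) ∧ ∀ᶠ p in 𝓝 ((0 : ℂ), b),
      (T.Gen c p → InT U v (wc S c j p) ∧ ∀ q, IsRet U v (wc S c j p) q → fX q = G p) ∧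
      ‖G p - fX (γ j p.2)‖ ≤ C * ‖p.1‖ := by
  obtain ⟨D⟩ := exists_TC hR (v1_mem hc.1 hv) (γ j b)
  have hcont : ContinuousAt (γ j) b := (hγ.cont j).continuousAt ((PDv_open c).mem_nhds hb)
  have hF : AnalyticAt ℂ (fX ∘ D.σ) (pV U v (γ j b)) := hf _ _ D.σ D.r_pos D.σc D.σp
  have hW : AnalyticAt ℂ (W1 c) ((0 : ℂ), b) := V2_808.W1_an c b
  have hW0 : W1 c ((0 : ℂ), b) = pV U v (γ j b) := by rw [W1_axis hc, hγ.pr j b hb]
  have hG : AnalyticAt ℂ (fun p => (fX ∘ D.σ) (W1 c p)) ((0 : ℂ), b) :=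
    AnalyticAt.comp (g := fX ∘ D.σ) (f := W1 c) (by rw [hW0]; exact hF) hW
  have hG0 : AnalyticAt ℂ (fun p : ℂ × ℂ => fX (γ j p.2)) ((0 : ℂ), b) :=
    AnalyticAt.comp (g := fun β => fX (γ j β)) (f := Prod.snd) (x := ((0 : ℂ), b))
      (end1_an hR hc hv hγ hf j hb) analyticAt_snd
  obtain ⟨C, hC, hbd⟩ := lip1 (hG.sub hG0) (by
    filter_upwards [sec_end hR hcont D, (PDv_open c).mem_nhds hb] with β e1 e2
    simp only [Pi.sub_apply, Function.comp_apply]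
    rw [W1_axis hc, ← hγ.pr j β e2, e1, sub_self])
  refine ⟨_, C, hC, hG, ?_⟩
  filter_upwards [hbd, tr1 hR hc hv hγ hb j D] with p e1 e2
  refine ⟨fun hg => ?_, e1⟩
  have e3 := (e2 hg).2.2
  refine ⟨e3.1, fun q hq => ?_⟩
  rw [TC.ret_unique hR hq e3]
  rfl

/-- two points of one chart with the same image differ by a rotation -/
theorem rot_eq {c : Ch T.m} (hc : Ok S c) {j j' : Fin T.d} {p p' : ℂ × ℂ}
    (hp : p ∈ BD (2 * S.r c) (2 * S.r c)) (hg : T.Gen c p)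
    (h : wc S c j p = wc S c j' p') : ∃ μ ω : ℂ, ‖μ‖ = 1 ∧ ‖ω‖ = 1 ∧ p' = (μ * p.1, ω * p.2) ∧
      ∀ q ∈ BD (2 * S.r c) (2 * S.r c), wc S c j q = wc S c j' (μ * q.1, ω * q.2) := by
  have hm := map_of_wc h
  have hs : (T.map c p).1 ≠ 0 := map_ne hg
  have hg' : T.Gen c p' := by
    have hs' : (T.map c p').1 ≠ 0 := by rw [← hm]; exact hs
    have hnd := nodup_of_gen (S.sheets c hc.1) hp hg
    cases c with
    | edge i k k' => exact ⟨left_ne_zero_of_mul hs', right_ne_zero_of_mul hs'⟩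
    | leg i =>
      refine ⟨hs', fun h0 => ?_⟩
      have e2 := congrArg Prod.snd hm
      have e1 := congrArg Prod.fst hm
      simp only [TB.map] at e1 e2
      rw [h0, zero_pow T.M_pos.ne', mul_zero, add_zero, ← e1] at e2
      have e3 : p.1 ^ (T.M * T.top i) * p.2 ^ T.M = 0 := by
        have := add_left_cancel (a := T.φ i (p.1 ^ T.M)) (b := p.1 ^ (T.M * T.top i) * p.2 ^ T.M)
          (c := 0) (by rw [add_zero]; exact e2)
        exact this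
      exact mul_ne_zero (pow_ne_zero _ hg.1) (pow_ne_zero _ hg.2) e3
    | vert i k w₀ => exact hs'
  obtain ⟨ω, hω, h1, h2⟩ := CDataB_250.mono_inv hc.1 hg hg' hm
  have hnd := nodup_of_gen (S.sheets c hc.1) hp hg
  have hζ : S.ζ c j p = S.ζ c j' p' := by rw [← wc_0 c j, ← wc_0 c j', h]
  have key : ∀ μ : ℂ, ‖μ‖ = 1 → p'.1 = μ * p.1 →
      (∀ q : ℂ × ℂ, T.map c (μ * q.1, ω * q.2) = T.map c q) →
      ∃ μ ω : ℂ, ‖μ‖ = 1 ∧ ‖ω‖ = 1 ∧ p' = (μ * p.1, ω * p.2) ∧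
      ∀ q ∈ BD (2 * S.r c) (2 * S.r c), wc S c j q = wc S c j' (μ * q.1, ω * q.2) := by
    intro μ hμ h3 hmap
    have hpp : p' = (μ * p.1, ω * p.2) := Prod.ext h3 h2
    refine ⟨μ, ω, hμ, hω, hpp, fun q hq => ?_⟩
    have hz := FrmF_547.sheets_rot (S.sheets c hc.1) (R := fun q => (μ * q.1, ω * q.2))
      (fun q => (analyticAt_const.mul analyticAt_fst).prod (analyticAt_const.mul analyticAt_snd))
      (fun q hq => ⟨by rw [norm_mul, hμ, one_mul]; exact hq.1,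
        by rw [norm_mul, hω, one_mul]; exact hq.2⟩) hmap hp hnd (j := j) (j' := j')
      (by rw [hζ, hpp])
    unfold wc
    rw [hz q hq, hmap]
  cases c with
  | edge i k k' =>
    obtain ⟨h3, h4⟩ := h1
    refine key ω⁻¹ (by rw [norm_inv, hω, inv_one]) h4 fun q => ?_
    have hω0 : ω ≠ 0 := by rw [← norm_pos_iff, hω]; exact one_pos
    have hkk : k < k' := hc.1.2.2.1
    have e1 : ω⁻¹ * q.1 * (ω * q.2) = q.1 * q.2 := by field_simp
    have e2 : (ω⁻¹ * q.1) ^ (T.M * k) * (ω * q.2) ^ (T.M * k') =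
        q.1 ^ (T.M * k) * q.2 ^ (T.M * k') := by
      have e3 : T.M * k' = T.M * k + T.M * (k' - k) := by
        rw [← mul_add]; congr 1; omega
      rw [mul_pow, mul_pow ω, e3, pow_add ω, h3, mul_one, inv_pow]
      have e4 : ω ^ (T.M * k) ≠ 0 := pow_ne_zero _ hω0
      field_simp
    simp only [TB.map]
    rw [e1, e2]
  | leg i =>
    obtain ⟨h3, h4⟩ := h1
    refine key 1 norm_one (by rw [one_mul]; exact h4) fun q => ?_
    simp only [TB.map]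
    rw [one_mul, mul_pow, h3, one_mul]
  | vert i k w₀ =>
    obtain ⟨h3, h4⟩ := h1
    refine key 1 norm_one (by rw [one_mul]; exact h4) fun q => ?_
    rw [h3, one_mul, one_mul]

lemma gen_scal1 {c : Ch T.m} {t : ℂ} (ht : t ≠ 0) {p : ℂ × ℂ} (h : T.Gen c p) :
    T.Gen c (t * p.1, p.2) := by
  cases c with
  | edge i k k' => exact ⟨mul_ne_zero ht h.1, h.2⟩
  | leg i => exact ⟨mul_ne_zero ht h.1, h.2⟩
  | vert i k w₀ => exact mul_ne_zero ht h

/-- **`γ j β` depends only on the point of `W`** -/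
theorem gam1_eq (hR : RetStmt U) {c : Ch T.m} (hc : Ok S c) {v : Vtx} (hv : v1 T c = some v)
    {γ : Fin T.d → ℂ → XV U v} (hγ : End1 U S c v γ) {j j' : Fin T.d} {p p' : ℂ × ℂ}
    (hp : p ∈ BD (2 * S.r c) (2 * S.r c)) (hg : T.Gen c p)
    (h : wc S c j p = wc S c j' p') : γ j p.2 = γ j' p'.2 := by
  obtain ⟨μ, ω, hμ, hω, hpp, hw⟩ := rot_eq hc hp hg h
  have hb : p.2 ∈ PDv S c := by
    refine ⟨?_, hp.2⟩
    cases c with
    | edge i k k' => exact Or.inr (norm_pos_iff.2 hg.2)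
    | leg i => exact Or.inr (norm_pos_iff.2 hg.2)
    | vert i k w₀ => exact Or.inl trivial
  have hb' : p'.2 ∈ PDv S c := by
    have e : ‖p'.2‖ = ‖p.2‖ := by rw [hpp]; simp [hω]
    exact ⟨by rw [e]; exact hb.1, by rw [e]; exact hb.2⟩
  by_contra hne
  obtain ⟨O, O', hO, hO', hq, hq', hdis⟩ := t2_separation hne
  obtain ⟨l1, l2⟩ := hγ.lim j p.2 hb
  obtain ⟨l3, l4⟩ := hγ.lim j' p'.2 hb'
  have hμ0 : μ ≠ 0 := by rw [← norm_pos_iff, hμ]; exact one_pos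
  have ht1 : Tendsto (fun t : ℂ => ((t, p.2) : ℂ × ℂ)) (𝓝[≠] 0) (𝓝 ((0 : ℂ), p.2)) :=
    ((Continuous.prodMk_left p.2).tendsto (0 : ℂ)).mono_left nhdsWithin_le_nhds
  have ht2 : Tendsto (fun t : ℂ => ((μ * t, p'.2) : ℂ × ℂ)) (𝓝[≠] 0) (𝓝 ((0 : ℂ), p'.2)) := by
    have : Continuous (fun t : ℂ => ((μ * t, p'.2) : ℂ × ℂ)) := by fun_prop
    have h3 := this.tendsto (0 : ℂ)
    rw [mul_zero] at h3
    exact h3.mono_left nhdsWithin_le_nhds
  have hBD : ∀ᶠ t : ℂ in 𝓝[≠] 0, ((t, p.2) : ℂ × ℂ) ∈ BD (2 * S.r c) (2 * S.r c) := by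
    have h4 : BD (2 * S.r c) (2 * S.r c) ∈ 𝓝 ((0 : ℂ), p.2) :=
      (isOpen_BD _ _).mem_nhds ⟨by simpa using S.pos c, hp.2⟩
    exact ht1.eventually h4
  obtain ⟨t, a1, a2, a3, a4, a5⟩ := (hBD.and ((ht1.eventually l1).and
    ((ht1.eventually (l2 O (hO.mem_nhds hq))).and ((ht2.eventually
    (l4 O' (hO'.mem_nhds hq'))).and self_mem_nhdsWithin)))).exists
  have a5' : t ≠ 0 := a5
  obtain ⟨q, hq1, -⟩ := (hR v (v1_mem hc.1 hv)).1 _ (a2 a5')
  have b1 := a3 a5' q hq1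
  have b2 : wc S c j (t, p.2) = wc S c j' (μ * t, p'.2) := by
    rw [hw _ a1]
    have : p'.2 = ω * p.2 := by rw [hpp]
    rw [this]
  have b3 := a4 (mul_ne_zero hμ0 a5') q (by rw [← b2]; exact hq1)
  exact (Set.disjoint_left.1 hdis b1) b3

/-- **`γ j α` (second axis) depends only on the point of `W`** -/
theorem gam2_eq (hR : RetStmt U) {c : Ch T.m} (hc : Ok S c) {v : Vtx} (hv : v2 T c = some v)
    {γ : Fin T.d → ℂ → XV U v} (hγ : End2 U S c v γ) {j j' : Fin T.d} {p p' : ℂ × ℂ}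
    (hp : p ∈ BD (2 * S.r c) (2 * S.r c)) (hg : T.Gen c p)
    (h : wc S c j p = wc S c j' p') : γ j p.1 = γ j' p'.1 := by
  obtain ⟨μ, ω, hμ, hω, hpp, hw⟩ := rot_eq hc hp hg h
  have hb : p.1 ∈ PDc S c := ⟨norm_pos_iff.2 (gen_fst hg), hp.1⟩
  have hb' : p'.1 ∈ PDc S c := by
    have e : ‖p'.1‖ = ‖p.1‖ := by rw [hpp]; simp [hμ]
    exact ⟨by rw [e]; exact hb.1, by rw [e]; exact hb.2⟩
  by_contra hne
  obtain ⟨O, O', hO, hO', hq, hq', hdis⟩ := t2_separation hne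
  obtain ⟨l1, l2⟩ := hγ.lim j p.1 hb
  obtain ⟨l3, l4⟩ := hγ.lim j' p'.1 hb'
  have hω0 : ω ≠ 0 := by rw [← norm_pos_iff, hω]; exact one_pos
  have ht1 : Tendsto (fun t : ℂ => ((p.1, t) : ℂ × ℂ)) (𝓝[≠] 0) (𝓝 (p.1, (0 : ℂ))) :=
    ((Continuous.prodMk_right p.1).tendsto (0 : ℂ)).mono_left nhdsWithin_le_nhds
  have ht2 : Tendsto (fun t : ℂ => ((p'.1, ω * t) : ℂ × ℂ)) (𝓝[≠] 0) (𝓝 (p'.1, (0 : ℂ))) := by
    have : Continuous (fun t : ℂ => ((p'.1, ω * t) : ℂ × ℂ)) := by fun_prop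
    have h3 := this.tendsto (0 : ℂ)
    rw [mul_zero] at h3
    exact h3.mono_left nhdsWithin_le_nhds
  have hBD : ∀ᶠ t : ℂ in 𝓝[≠] 0, ((p.1, t) : ℂ × ℂ) ∈ BD (2 * S.r c) (2 * S.r c) := by
    have h4 : BD (2 * S.r c) (2 * S.r c) ∈ 𝓝 (p.1, (0 : ℂ)) :=
      (isOpen_BD _ _).mem_nhds ⟨hp.1, by simpa using S.pos c⟩
    exact ht1.eventually h4
  obtain ⟨t, a1, a2, a3, a4, a5⟩ := (hBD.and ((ht1.eventually l1).and
    ((ht1.eventually (l2 O (hO.mem_nhds hq))).and ((ht2.eventually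
    (l4 O' (hO'.mem_nhds hq'))).and self_mem_nhdsWithin)))).exists
  have a5' : t ≠ 0 := a5
  obtain ⟨q, hq1, -⟩ := (hR v (v2_mem hc.1 hv)).1 _ (a2 a5')
  have b1 := a3 a5' q hq1
  have b2 : wc S c j (p.1, t) = wc S c j' (p'.1, ω * t) := by
    rw [hw _ a1]
    have : p'.1 = μ * p.1 := by rw [hpp]
    rw [this]
  have b3 := a4 (mul_ne_zero hω0 a5') q (by rw [← b2]; exact hq1)
  exact (Set.disjoint_left.1 hdis b1) b3

end Crest.Agent.R257.Nd_980
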