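import Mathlib
import Crest.Agent.R257.CDataP_250
import Crest.Agent.R257.ExND_843
import Crest.Agent.R257.EndB_636
import Crest.Agent.R257.Nd1_980

/-!
Row 257, part C, task C-DATA (helper250), file Q: **`nullStmt`**: the literal statement
`ExND_843.NullStmt` from `null_data`.
-/

set_option autoImplicit false
set_option linter.unusedSectionVars false

noncomputable section

open Set Filter Topology MeasureTheory Metric
open scoped ENNReal

namespace Crest.Agent.R257.CDataQ_250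

open Crest.AlgGeometry.Germ Crest.Agent.R257.AJ387 Crest.Agent.R257.T387
open Crest.Agent.R257.Gr1_157 Crest.Agent.R257.HoB_843 Crest.Agent.R257.BP_258
open Crest.Agent.R257.CDataA_250 Crest.Agent.R257.CDataB_250 Crest.Agent.R257.CDataE_250
open Crest.Agent.R257.CDataL_250 Crest.Agent.R257.CDataI_250
open Crest.Agent.R257.Wt_258 Crest.Agent.R257.Rsn_843 Crest.Agent.R257.Exf_843
open Crest.Agent.R257.FrmE_547 (CB)
open Crest.Agent.R257.FrmF_547

variable {f : (Fin 3 → ℂ) → ℂ} {T : TB f} {U : Tub T} {S : Sh T}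

lemma nh_of_nDat {L : Lab U S} {nu : II U → ℤ} {n1 n2 : Ch T.m → Fin T.d → ℤ}
    (J : Jac L nu n1 n2) {E₀ : II U} {y : II U → ℝ} {a : ℕ} {fX : XV U E₀.1.1 → ℂ}
    {H : (Fin 3 → ℂ) → ℂ} {h1 h2 e : Ch T.m → Fin T.d → ℝ}
    (N : NDat L n1 n2 E₀ y a fX H h1 h2 e) : NH L E₀ fX H y n1 n2 h1 h2 e a := by
  refine ⟨N.hol, N.off, ?_, ?_, ?_, ?_, ?_, ?_, ?_, ?_⟩
  · intro c hc hV hv γ hγ j hj
    obtain ⟨C, r, -, hr, h⟩ := N.f1 c hc hV hv γ hγ j hj
    exact ⟨C, r, hr, h⟩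
  · intro c hc hV hv γ hγ j hj
    obtain ⟨C, r, -, hr, h⟩ := N.f2 c hc hv γ hγ j hj
    exact ⟨C, r, hr, h⟩
  · intro c hc j hj
    obtain ⟨C, -, h⟩ := N.Hbd c hc j hj
    refine ⟨C, 1, one_pos, fun p hp => ⟨?_, h p hp.1.le hp.2.1.le hp.2.2.1⟩⟩
    have hr := S.pos c
    exact N.Han c hc j p (by linarith [hp.1]) (by linarith [hp.2.1]) hp.2.2.1
  · exact fun c hc hV j hj => ⟨N.near1 c hc j hj, N.nearD1 c hc j hj⟩
  · intro c hc hV j hj
    refine ⟨fun hne => ?_, fun hE => ?_, fun hE => ?_⟩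
    · cases hE : L.e2 c j with
      | none => exact absurd hE hne
      | some E => exact (N.far2 c hc j hj E hE).1
    · cases hE2 : L.e2 c j with
      | none =>
        exfalso
        have h3 := v2_none hc hE2
        cases c with
        | edge i k k' => simp [v2] at h3
        | leg i => exact hE
        | vert i k w => exact hE
      | some E => exact (N.far2 c hc j hj E hE2).2
    · refine N.leg c hc hV j hj ?_
      refine e2_none L hc j ?_
      cases c with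
      | edge i k k' => exact absurd trivial hE
      | leg i => rfl
      | vert i k w => rfl
  · exact fun c hc hV j hj => ⟨N.near2 c hc j hj, N.nearD2 c hc j hj⟩
  · intro c hc hV j hj
    refine ⟨fun hne => ?_, ?_⟩
    · cases hE : L.e1 c j with
      | none => exact absurd hE hne
      | some E => exact (N.far1 c hc j hj E hE).1
    · cases hE : L.e1 c j with
      | none =>
        have h3 := N.top c hc j hj hE
        have h4 : (0 : ℝ) ≤ a := Nat.cast_nonneg a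
        linarith
      | some E => exact (N.far1 c hc j hj E hE).2
  · intro c hc hV j hj
    refine ⟨N.nearD1 c hc j hj, ?_⟩
    rw [N.h2V c hc hV j, J.vert c hc hV j]
    norm_num

lemma wtk_of_wt0 {L : Lab U S} {y : II U → ℝ} {F : Finset (Ch T.m)} {τ₀ τ : ℝ}
    {Φ : (Fin 3 → ℂ) → ℝ} {ρ₀ C c₀ : ℝ} (h : WT0 L y F τ₀ Φ ρ₀ C c₀) (hτ : τ₀ ≤ τ) :
    WTk L y F univ τ 1 Φ ρ₀ C c₀ :=
  ⟨h.ρ_pos, h.c_pos, h.psh, fun c hc j _ p hp _ _ => h.lo c hc j p hp,
    fun c hc j _ p hp _ he h3 => h.st1 c hc j p hp he (Or.inr (hτ.trans h3)),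
    fun c hc j _ p hp _ he h3 => h.st2 c hc j p hp he (hτ.trans h3)⟩

/-- the origin of a chart -/
lemma map_zero' {c : Ch T.m} (hc : T.Valid c) : T.map c (0 : ℂ × ℂ) = 0 := by
  rw [T.map_eq_zero hc]
  cases c with
  | edge i k k' => exact Or.inr rfl
  | leg i => rfl
  | vert i k w => rfl

/-- near the origin -/
lemma ev_Og {c : Ch T.m} (hc : T.Valid c) {ρ : ℝ} (hρ : 0 < ρ) :
    ∀ᶠ p : ℂ × ℂ in 𝓝 (0 : ℂ × ℂ), T.Gen c p →
      p ∈ Og (S := S) c ρ ∧ ‖(T.map c p).2‖ < ρ := by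
  have hr := S.pos c
  have h0 : (0 : ℂ × ℂ) ∈ BD (2 * S.r c) (2 * S.r c) :=
    mem2 (by simpa using hr.le) (by simpa using hr.le)
  have hcm : ContinuousAt (T.map c) 0 := ((S.sheets c hc).map_an h0).continuousAt
  have e1 : ∀ᶠ p : ℂ × ℂ in 𝓝 (0 : ℂ × ℂ), ‖T.map c p‖ < ρ :=
    hcm.norm.eventually (gt_mem_nhds (by
      show ‖T.map c 0‖ < ρ
      rw [map_zero' hc, norm_zero]; exact hρ))
  have e2 : ∀ᶠ p : ℂ × ℂ in 𝓝 (0 : ℂ × ℂ), ‖p‖ < S.r c :=
    continuousAt_id.norm.eventually (gt_mem_nhds (by simpa using hr))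
  filter_upwards [e1, e2] with p h1 h2 hg
  exact ⟨⟨(norm_fst_le p).trans_lt h2, (norm_snd_le p).trans_lt h2, hg,
    (norm_fst_le _).trans_lt h1⟩, (norm_snd_le _).trans_lt h1⟩

/-- **THE NULL DATA**, the literal statement -/
theorem nullStmt (L : Lab U S) {nu : II U → ℤ} {n1 n2 : Ch T.m → Fin T.d → ℤ}
    (J : Jac L nu n1 n2) : NullStmt L n1 n2 := by
  intro E₀ y a fX H h1 h2 e N F' hF'
  have hR : RetStmt U := Tb_941.retStmt U
  have hE : EndStmt L := End_636.endStmt L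
  obtain ⟨τ, hτ, F₀, hsub₀, hok₀, hmain⟩ := null_data hR hE J (nh_of_nDat J N) F' hF'
  refine ⟨F₀, hok₀, hsub₀, fun F hsub hF τ₁ hτ₁ => ⟨min τ (τ₁ / 2), lt_min hτ (half_pos hτ₁),
    (min_le_right _ _).trans_lt (half_lt_self hτ₁), fun Φ ρ₀ C c₀ hW => ?_⟩⟩
  obtain ⟨ρ, hρ, hρρ, D, O, κ, hAdm, ht1, ht2, ht3⟩ := hmain F hsub hF Φ ρ₀ C c₀
    (wtk_of_wt0 hW (min_le_left _ _)) hW.sm
  refine ⟨ρ, D, O, κ, hρ, hρρ, hAdm, ?_, ?_, ?_⟩
  · intro c hc hV j hl γ hγ
    have hok := hF' c hc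
    have hv := v1_of_some L hok hl
    have hr := S.pos c
    have hb : (0 : ℂ) ∈ PDv S c := ⟨Or.inl hV, by simpa using hr⟩
    filter_upwards [ev_Og (S := S) hok.1 hρ, Nd_980.ret_vert hR hok hV hv hγ hb j] with p q1 q2 hg
    obtain ⟨q3, q4⟩ := q1 hg
    exact ht1 c hc hV j hl p q3 q4 _ (q2 (CDataB_250.gen_fst hg))
  · intro c hc hV j hl
    have hok := hF' c hc
    filter_upwards [ev_Og (S := S) hok.1 hρ] with p q1 hg
    refine ht2 c hc j hl ?_ p (q1 hg).1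
    intro h3
    have h4 := v2_of_some L hok h3
    cases c with
    | edge i k k' => exact hV
    | leg i => exact hV
    | vert i k w => simp [v2] at h4
  · intro c hc hv j
    have hok := hF' c hc
    have hcF : c ∈ F := hsub (hsub₀ hc)
    obtain ⟨g1, g2⟩ := ht3 c hcF j (e1_none L hok j hv)
    obtain ⟨r, hr, hball⟩ := Metric.eventually_nhds_iff.1 (ev_Og (S := S) hok.1 hρ)
    have hBD : ∀ p ∈ BD r r, T.Gen c p → p ∈ Og (S := S) c ρ ∧ ‖(T.map c p).2‖ < ρ := by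
      intro p hp hg
      refine hball ?_ hg
      rw [dist_zero_right, Prod.norm_def]
      exact max_lt hp.1 hp.2
    refine ⟨fun hl => ?_, fun hl => ⟨r, hr, fun p hp hg => g2 hl p (hBD p hp hg).1⟩⟩
    obtain ⟨C', h3⟩ := g1 hl
    exact ⟨r, hr, C', fun p hp hg => h3 p (hBD p hp hg).1 (hBD p hp hg).2⟩

end Crest.Agent.R257.CDataQ_250
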