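import Crest.Agent.R257.FrmF2_547
import Crest.Agent.R257.WtD_258

/-!
R257 / LWD_547: labels are well defined (`LabWD` of `WtD_258`).
-/

set_option autoImplicit false
set_option linter.unusedSectionVars false

open Polynomial Set Filter Topology Metric
open Crest.AlgGeometry.Germ Crest.Agent.R257.AJ387 Crest.Agent.R257.T387
open Crest.Agent.R257.FrmE_547 Crest.Agent.R257.BP_258 Crest.Agent.R257.FrmF_547

noncomputable section

namespace Crest.Agent.R257.LWD_547

variable {f : (Fin 3 → ℂ) → ℂ} {T : TB f} {U : Tub T} {S : Sh T}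

theorem pt_inj {z z' : ℂ} {q q' : ℂ × ℂ} (h : pt z q = pt z' q') : z = z' ∧ q = q' := by
  refine ⟨congrFun h 0, Prod.ext (congrFun h 1) (congrFun h 2)⟩

theorem gen_ne {c : Ch T.m} {p : ℂ × ℂ} (h : T.Gen c p) : (T.map c p).1 ≠ 0 := by
  cases c with
  | edge i k k' => exact mul_ne_zero h.1 h.2
  | leg i => exact h.1
  | vert i k w => exact h

/-- **(C-LWD)** -/
theorem labWD (hR : RetStmt U) (L : Lab U S) : Wt_258.LabWD L := by
  intro c hc j j' p p' hp hp' hg hg' hw
  obtain ⟨hz, hm⟩ := pt_inj (show pt (S.ζ c j p) (T.map c p) = pt (S.ζ c j' p') (T.map c p') from hw)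
  have hS := S.sheets c hc.1
  have hs := gen_ne hg
  by_cases hv : IsV c
  · cases c with
    | edge i k k' => exact absurd hv id
    | leg i => exact absurd hv id
    | vert i k w =>
      have hpp : p = p' := by
        obtain ⟨a, b⟩ := p
        obtain ⟨a', b'⟩ := p'
        simp only [TB.map, Prod.mk.injEq] at hm hs
        obtain ⟨rfl, h⟩ := hm
        have h1 := mul_left_cancel₀ (pow_ne_zero (T.M * k) hs) (add_left_cancel h)
        rw [add_left_cancel h1]
      subst hpp
      have : j = j' := hS.inj p hp hg hz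
      rw [this]
      exact ⟨rfl, rfl⟩
  · obtain ⟨R, hRa, hRn, hRm, hRp⟩ := exists_rot hc.1 hv hm hs
    have hnd : (T.Q (T.map c p)).roots.Nodup := by
      rw [hS.split p hp]
      exact nodup_prod (hS.inj p hp hg)
    have hz' := sheets_rot hS hRa
      (fun q hq => ⟨by rw [(hRn q).1]; exact hq.1, by rw [(hRn q).2]; exact hq.2⟩) hRm
      hp hnd (j := j) (j' := j') (by rw [hRp]; exact hz)
    refine lab_eq L hR hc hRn fun q hq => ?_
    unfold BP_258.wc
    rw [hRm, hz' q hq]

end Crest.Agent.R257.LWD_547
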