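import Crest.Agent.R257.Rsn5_980
import Crest.Agent.R257.Cpt2_419

/-!
# R257 (S0395), part C, task C-RSN (helper980), file 6: **`RSNStmt`**
-/

set_option autoImplicit false
set_option linter.unusedSectionVars false

open Set Filter Topology Metric

namespace Crest.Agent.R257.Rsn1_980

open Crest.Agent.R257.RS_176 Crest.Agent.R257.Rsn_843 Crest.Agent.R257.Wt_258
open Crest.Agent.R257.Cpt1_419 (FCov exists_srf)

noncomputable section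

variable {X : Type} [TopologicalSpace X] [T2Space X] {T : Srf X}

theorem exists_small' {ι : Type*} [Finite ι] {δ : ι → ℝ} (h : ∀ i, 0 < δ i) {ρ : ℝ}
    (hρ : 0 < ρ) : ∃ η > 0, η ≤ ρ ∧ ∀ i, η ≤ δ i := by
  have h1 : ∀ᶠ η in 𝓝[>] (0 : ℝ), ∀ i, η ≤ δ i := by
    rw [eventually_all]
    intro i
    exact mem_of_superset (Ioo_mem_nhdsGT (h i)) fun η hη => hη.2.le
  have h2 : ∀ᶠ η in 𝓝[>] (0 : ℝ), η ≤ ρ :=
    mem_of_superset (Ioo_mem_nhdsGT hρ) fun η hη => hη.2.le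
  obtain ⟨η, h3, h4, h5⟩ := (h1.and (h2.and self_mem_nhdsWithin)).exists
  exact ⟨η, h5, h4, h3⟩

/-- two-sided bound -/
def Bd2 (C y z : ℝ) : Prop := C⁻¹ * y ≤ z ∧ z ≤ C * y

theorem Bd2.mono {C C' y z : ℝ} (h : Bd2 C y z) (hC : 0 < C) (hCC : C ≤ C') (hy : 0 ≤ y) :
    Bd2 C' y z :=
  ⟨(mul_le_mul_of_nonneg_right (inv_anti₀ hC hCC) hy).trans h.1,
    h.2.trans (mul_le_mul_of_nonneg_right hCC hy)⟩

/-- the coordinate of a point -/
def qf (T : Srf X) (c : Option ℂ) (x : X) : ℂ :=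
  match c with
  | some a => T.pr x - a
  | none => (T.pr x)⁻¹

theorem qf_eq {c : Option ℂ} {x : X} {q : ℂ} (h : T.pr x = bq c q) : qf T c x = q := by
  rcases c with _ | a
  · change (T.pr x)⁻¹ = q
    rw [h]
    change (q⁻¹)⁻¹ = q
    exact inv_inv q
  · change T.pr x - a = q
    rw [h]
    change a + q - a = q
    ring

theorem qf_cont {c : Option ℂ} {x : X} (h : qf T c x ≠ 0) : ContinuousAt (qf T c) x := by
  rcases c with _ | a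
  · have h1 : T.pr x ≠ 0 := fun h0 => h (by change (T.pr x)⁻¹ = 0; rw [h0, inv_zero])
    exact T.contPr.continuousAt.inv₀ h1
  · exact (T.contPr.sub continuous_const).continuousAt

theorem fbound {f : X → ℂ} (hf : HolX T.pr f) (hf0 : ∀ x, f x ≠ 0) {r : ℝ} (hS : Sep T.S r)
    {mu : X → ℤ} (hmu : ∀ x, NE T.S r (T.pr x) → ∀ᶠ y in 𝓝 x, mu y = mu x)
    {δ₀ : ℝ} (hδ₀ : 0 < δ₀) {μ : T.ι → ℤ} (hμ : ∀ i, ∀ τ ∈ PD δ₀, mu (T.γ i τ) = μ i)
    (hend : ∀ i, ∃ C δ : ℝ, 0 < C ∧ 0 < δ ∧ ∀ τ : ℂ, 0 < ‖τ‖ → ‖τ‖ < δ →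
      Bd2 C (‖τ‖ ^ ((T.m i : ℤ) * μ i)) ‖f (T.γ i τ)‖) {c : Option ℂ} (hc : Vc T.S c) :
    ∃ C : ℝ, 0 < C ∧ ∀ x q, T.pr x = bq c q → q ≠ 0 → ‖q‖ < r / 2 →
      Bd2 C (‖q‖ ^ mu x) ‖f x‖ := by
  have hr := hS.pos
  choose C δ hC hδ hb using hend
  obtain ⟨η, hη, hηδ₀, hηδ⟩ := exists_small' hδ hδ₀
  obtain ⟨δ', hδ', -, h1⟩ := ends T hη
  have hK := ann_compact T hS hc hδ' (show r / 2 ≤ r by linarith)
  have hKq : ∀ x ∈ T.pr ⁻¹' (bq c '' {q : ℂ | δ' ≤ ‖q‖ ∧ ‖q‖ ≤ r / 2}),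
      δ' ≤ ‖qf T c x‖ ∧ ‖qf T c x‖ ≤ r / 2 ∧ T.pr x = bq c (qf T c x) := by
    rintro x ⟨q, hq, hx⟩
    rw [qf_eq hx.symm]
    exact ⟨hq.1, hq.2, hx.symm⟩
  obtain ⟨C', hC', h2⟩ := cpt_two hK (f := fun x => ‖f x‖ / ‖qf T c x‖ ^ mu x)
    (by
      intro x hx
      obtain ⟨a1, a2, a3⟩ := hKq x hx
      have hq0 : qf T c x ≠ 0 := norm_pos_iff.1 (hδ'.trans_le a1)
      have hne : NE T.S r (T.pr x) := by
        rw [a3]
        exact ne_bq hc hq0 (by linarith)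
      have hcq : ContinuousAt (fun y => ‖qf T c y‖ ^ mu x) x :=
        ContinuousAt.zpow₀ (qf_cont hq0).norm _ (Or.inl (norm_ne_zero_iff.2 hq0))
      have hcf : ContinuousAt (fun y => ‖f y‖ / ‖qf T c y‖ ^ mu x) x :=
        ((holX_cont T hf).norm.continuousAt).div hcq
          (zpow_ne_zero _ (norm_ne_zero_iff.2 hq0))
      refine ContinuousAt.continuousWithinAt (hcf.congr ?_)
      filter_upwards [hmu x hne] with y hy
      rw [hy])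
    (by
      intro x hx
      obtain ⟨a1, a2, a3⟩ := hKq x hx
      exact div_pos (norm_pos_iff.2 (hf0 x)) (zpow_pos (hδ'.trans_le a1) _))
  have hs0 : 0 ≤ ∑ i, C i := Finset.sum_nonneg fun i _ => (hC i).le
  refine ⟨∑ i, C i + C', by linarith, fun x q hx h0 hq => ?_⟩
  have hqn : 0 < ‖q‖ := norm_pos_iff.2 h0
  rcases lt_or_ge ‖q‖ δ' with h3 | h3
  · obtain ⟨i, τ, b1, b2, b3, b4, b5, b6⟩ := h1 c hc q h0 h3 x hx
    have h4 := hb i τ b2 (b3.trans_le (hηδ i))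
    have h5 : mu x = μ i := by rw [← b6]; exact hμ i τ ⟨b2, b3.trans_le hηδ₀⟩
    rw [b6, zpow_mul, zpow_natCast, ← norm_pow, b5, ← h5] at h4
    refine h4.mono (hC i) ?_ (zpow_pos hqn _).le
    have h6 : C i ≤ ∑ i, C i := Finset.single_le_sum (fun i _ => (hC i).le) (Finset.mem_univ i)
    linarith
  · have h4 := h2 x ⟨q, ⟨h3, hq.le⟩, hx.symm⟩
    simp only [qf_eq hx] at h4
    have hz : 0 < ‖q‖ ^ mu x := zpow_pos hqn _
    have h5 : Bd2 C' (‖q‖ ^ mu x) ‖f x‖ :=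
      ⟨(le_div_iff₀ hz).1 h4.1, (div_le_iff₀ hz).1 h4.2⟩
    exact h5.mono hC' (by linarith) hz.le

variable {Γ : Type} [Group Γ] [Fintype Γ] [MulAction Γ X]

theorem m_σ (hΓ : ∀ γ : Γ, Continuous fun x : X => γ • x) {χ : Γ → ℂ}
    (hχ : ∀ (γ : Γ) x, T.pr (γ • x) = χ γ * T.pr x) (γ : Γ) (i : T.ι) :
    T.m (T.σE (Srf.hom hΓ γ) i) = T.m i := by
  refine le_antisymm ?_ (m_le_σ T (Srf.hom hΓ γ) (hχ γ) i)
  have h1 := m_le_σ T (Srf.hom hΓ γ⁻¹) (hχ γ⁻¹) (T.σE (Srf.hom hΓ γ) i)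
  have h2 : T.σE (Srf.hom hΓ γ⁻¹) (T.σE (Srf.hom hΓ γ) i) = i := by
    let _ := T.act hΓ
    have h3 : γ⁻¹ • (γ • T.en i) = T.en i := inv_smul_smul γ (T.en i)
    exact T.en_injective h3
  rwa [h2] at h1

theorem rsn_srf [ConnectedSpace X] {n : ℕ} (hn : ∀ w, {x | T.pr x = w}.ncard ≤ n) {r : ℝ}
    (hS : Sep T.S r) (hΓ : ∀ γ : Γ, Continuous fun x : X => γ • x) {χ : Γ → ℂ}
    (hχ : ∀ (γ : Γ) x, T.pr (γ • x) = χ γ * T.pr x) (hχ1 : ∀ γ, ‖χ γ‖ = 1)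
    (hno : NoTh (Γ := Γ) T.pr χ T.S r n) {mu : X → ℤ}
    (hmu : ∀ x, NE T.S r (T.pr x) → ∀ᶠ y in 𝓝 x, mu y = mu x)
    (hmuΓ : ∀ (γ : Γ) x, mu (γ • x) = mu x) (hdvd : ∀ x, (Fintype.card Γ : ℤ) ∣ mu x)
    (w : Option ℂ → ℂ) (hw1 : ∀ c ∈ T.S, 0 < ‖w (some c) - c‖ ∧ ‖w (some c) - c‖ < r)
    (hw2 : r⁻¹ < ‖w none‖) (hsum : ∑ c ∈ T.S, Fs T mu (w (some c)) + Fs T mu (w none) = 0) :
    ∃ (f : X → ℂ) (C : ℝ), HolX T.pr f ∧ (∀ x, f x ≠ 0) ∧ (∀ (γ : Γ) x, f (γ • x) = f x) ∧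
      0 < C ∧ (∀ c ∈ T.S, ∀ x, ‖T.pr x - c‖ < r / 2 → Bd2 C (‖T.pr x - c‖ ^ mu x) ‖f x‖) ∧
      ∀ x, 2 * r⁻¹ < ‖T.pr x‖ → Bd2 C (‖T.pr x‖ ^ (-mu x)) ‖f x‖ := by
  classical
  have hr := hS.pos
  have hε := T.εpos
  set δ₀ : ℝ := min (min 1 r) T.ε with hδ₀d
  have hδ₀ : 0 < δ₀ := by positivity
  have d1 : δ₀ ≤ 1 := (min_le_left _ _).trans (min_le_left _ _)
  have d2 : δ₀ ≤ r := (min_le_left _ _).trans (min_le_right _ _)
  have d3 : δ₀ ≤ T.ε := min_le_right _ _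
  have hhalf : ∀ {δ : ℝ}, 0 < δ → ((δ / 2 : ℝ) : ℂ) ∈ PD δ := by
    intro δ hδ
    have h1 : ‖((δ / 2 : ℝ) : ℂ)‖ = δ / 2 := by
      rw [Complex.norm_real, Real.norm_of_nonneg (by positivity)]
    exact ⟨by rw [h1]; positivity, by rw [h1]; linarith⟩
  set μ : T.ι → ℤ := fun i => mu (T.γ i ((δ₀ / 2 : ℝ) : ℂ)) with hμd
  have hμ : ∀ i, ∀ τ ∈ PD δ₀, mu (T.γ i τ) = μ i := fun i τ hτ =>
    mu_const T hmu d1 d2 d3 i hτ (hhalf hδ₀)
  set D : T.ι → ℤ := fun i => (T.m i : ℤ) * μ i / (Fintype.card Γ : ℤ) with hDd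
  have hcD : ∀ i, (Fintype.card Γ : ℤ) * D i = (T.m i : ℤ) * μ i := fun i =>
    Int.mul_ediv_cancel' ((hdvd _).mul_left _)
  have hcard : (Fintype.card Γ : ℤ) ≠ 0 := by exact_mod_cast Fintype.card_ne_zero
  have hμσ : ∀ (γ : Γ) i, μ (T.σE (Srf.hom hΓ γ) i) = μ i := by
    intro γ i
    obtain ⟨δ, hδ, hδε, h1⟩ := T.σE_spec (Srf.hom hΓ γ) i hδ₀
    have hm : 0 < min δ δ₀ := lt_min hδ hδ₀
    have h2 := hhalf hm
    obtain ⟨τ', hτ', he⟩ := h1 ⟨_, ⟨_, PD_mono (min_le_left _ _) h2, rfl⟩, rfl⟩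
    rw [← hμ _ τ' hτ', he, Srf.hom_apply, hmuΓ, hμ i _ (PD_mono (min_le_right _ _) h2)]
  have hDσ : ∀ (γ : Γ) i, D (T.σE (Srf.hom hΓ γ) i) = D i := by
    intro γ i
    simp only [hDd]
    rw [hμσ, m_σ hΓ hχ]
  have hvs : ∀ a ∈ T.S, Vc T.S (some a) := fun a ha b hb => by
    rw [Option.some.injEq] at hb; rwa [← hb]
  have hvn : Vc T.S none := fun b hb => by simp at hb
  have hD0 : ∑ i, D i = 0 := by
    have h1 : ∀ a ∈ T.S, Fs T mu (w (some a)) =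
        ∑ i, if T.c i = some a then (T.m i : ℤ) * μ i else 0 := by
      intro a ha
      have h2 := fs_end T hS hmu hδ₀ d3 hμ (hvs a ha) (q := w (some a) - a) (hw1 a ha)
      have h3 : bq (some a) (w (some a) - a) = w (some a) := by
        change a + (w (some a) - a) = _
        ring
      rwa [h3] at h2
    have hwn : 0 < ‖w none‖ := (inv_pos.2 hr).trans hw2
    have h2 := fs_end T hS hmu hδ₀ d3 hμ hvn (q := (w none)⁻¹)
      ⟨by rw [norm_inv]; exact inv_pos.2 hwn, by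
        rw [norm_inv]; exact inv_lt_of_inv_lt₀ hr hw2⟩
    have h3 : bq none (w none)⁻¹ = w none := by
      change ((w none)⁻¹)⁻¹ = _
      exact inv_inv _
    rw [h3] at h2
    rw [Finset.sum_congr rfl h1, h2, Finset.sum_comm, ← Finset.sum_add_distrib] at hsum
    have h4 : ∀ i, (∑ a ∈ T.S, if T.c i = some a then (T.m i : ℤ) * μ i else 0) +
        (if T.c i = none then (T.m i : ℤ) * μ i else 0) = (Fintype.card Γ : ℤ) * D i := by
      intro i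
      rw [hcD]
      rcases hci : T.c i with _ | b
      · simp
      · have hb := T.c_mem i b hci
        simp only [Option.some.injEq, reduceCtorEq, if_false, add_zero]
        rw [Finset.sum_ite_eq]
        simp [hb]
    rw [Finset.sum_congr rfl fun i _ => h4 i, ← Finset.mul_sum] at hsum
    exact (mul_eq_zero.1 hsum).resolve_left hcard
  have hχ0 : ∀ γ, χ γ ≠ 0 := fun γ h0 => by
    have := hχ1 γ
    rw [h0, norm_zero] at this
    exact zero_ne_one this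
  obtain ⟨f, hf, hf0, hfΓ, hend⟩ := mero (Γ := Γ) (fun i => m_le_n T hn i) hS hΓ hχ hχ0 hno D
    hDσ hD0
  have hend' : ∀ i, ∃ C δ : ℝ, 0 < C ∧ 0 < δ ∧ ∀ τ : ℂ, 0 < ‖τ‖ → ‖τ‖ < δ →
      Bd2 C (‖τ‖ ^ ((T.m i : ℤ) * μ i)) ‖f (T.γ i τ)‖ := by
    intro i
    obtain ⟨C, δ, h1, h2, h3⟩ := hend i
    refine ⟨C, δ, h1, h2, fun τ a b => ?_⟩
    have h4 := h3 τ a b
    rw [hcD] at h4
    exact h4
  choose! C hC0 hCb using fun a (ha : a ∈ T.S) => fbound hf hf0 hS hmu hδ₀ hμ hend' (hvs a ha)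
  obtain ⟨C', hC', hC'b⟩ := fbound hf hf0 hS hmu hδ₀ hμ hend' hvn
  have hs0 : 0 ≤ ∑ a ∈ T.S, C a := Finset.sum_nonneg fun a ha => (hC0 a ha).le
  refine ⟨f, ∑ a ∈ T.S, C a + C', hf, hf0, hfΓ, by linarith, ?_, ?_⟩
  · intro a ha x hx
    have hne : T.pr x - a ≠ 0 := by
      intro h
      exact T.pr_notMem x (by rw [sub_eq_zero.1 h]; exact ha)
    refine (hCb a ha x (T.pr x - a) (by simp [bq]) hne hx).mono (hC0 a ha) ?_
      (zpow_pos (norm_pos_iff.2 hne) _).le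
    have h4 : C a ≤ ∑ a ∈ T.S, C a := Finset.single_le_sum (fun a ha => (hC0 a ha).le) ha
    linarith
  · intro x hx
    have hx0 : 0 < ‖T.pr x‖ := by
      have := inv_pos.2 hr
      linarith
    have h1 := hC'b x (T.pr x)⁻¹ (by simp [bq]) (inv_ne_zero (norm_pos_iff.1 hx0)) (by
      rw [norm_inv]
      have h2 : (r / 2)⁻¹ < ‖T.pr x‖ := by
        have : (r / 2)⁻¹ = 2 * r⁻¹ := by field_simp
        rw [this]; exact hx
      exact inv_lt_of_inv_lt₀ (by positivity) h2)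
    rw [norm_inv, inv_zpow, ← zpow_neg] at h1
    exact h1.mono hC' (by linarith) (zpow_pos hx0 _).le

/-- **`RSNStmt`** -/
theorem rsn : RSNStmt := by
  intro S X _ _ _ P Γ _ _ _ χ n mu r hS hn hΓ hχ hχ1 hno hmu hmuΓ hdvd hw
  obtain ⟨w, hw1, hw2, hsum⟩ := hw
  obtain ⟨T, hpr, hTS⟩ := exists_srf P
  have hprx : ∀ x, (P.p x).1 = T.pr x := fun x => (congrFun hpr x).symm
  have hnn : ∀ w, {x | T.pr x = w}.ncard ≤ n := by
    intro w
    by_cases hwS : w ∈ S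
    · have h1 : {x | T.pr x = w} = ∅ := by
        ext x
        simp only [mem_ofPred_eq, mem_empty_iff_false, iff_false]
        intro hx
        exact T.pr_notMem x (by rw [hx, hTS]; exact hwS)
      rw [h1, Set.ncard_empty]
      exact Nat.zero_le _
    · have h1 : {x | T.pr x = w} = P.p ⁻¹' {⟨w, by simpa using hwS⟩} := by
        ext x
        simp only [mem_ofPred_eq, mem_preimage, mem_singleton_iff]
        rw [← hprx, Subtype.ext_iff]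
      rw [h1]
      exact hn _
  simp only [hprx] at hχ hno hmu hw1 hw2 hsum
  rw [← hTS] at hS hno hw1
  obtain ⟨f, C, h1, h2, h3, h4, h5, h6⟩ := rsn_srf (T := T) (Γ := Γ) (n := n) (r := r) (χ := χ)
    (mu := mu) hnn hS hΓ hχ hχ1 hno (fun x hx => hmu x (by rw [← hTS]; exact hx)) hmuΓ hdvd w hw1
    hw2 (by rw [hTS]; exact hsum)
  refine ⟨f, C, ?_, h2, h3, h4, ?_, ?_⟩
  · simp only [hprx]; exact h1
  · simp only [hprx]
    rw [← hTS]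
    exact h5
  · simp only [hprx]
    exact h6

end

end Crest.Agent.R257.Rsn1_980
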