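import Crest.Agent.R257.ExNO_843
import Crest.Agent.R257.Rsn6_980
import Crest.Agent.R257.LWD_547

/-!
# Row 257 (helper843): **`ExNBPStmt`** from the weights and the null data
-/

set_option autoImplicit false
set_option linter.unusedSectionVars false

open Polynomial Set Filter Topology Metric
open Crest.AlgGeometry.Germ Crest.Agent.R257.Defs_219 Crest.Agent.R257.AJ387 Crest.Agent.R257.T387
open Crest.Agent.R257.Gr1_157 Crest.Agent.R257.HoB_843 Crest.Agent.R257.BP_258
open Crest.Agent.R257.Wt_258 Crest.Agent.R257.Rsn_843 Crest.Agent.R257.OrdK_82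
open Crest.Agent.R257.KB_82 Crest.Agent.R257.HoT_843 Crest.Agent.R257.Tb3_941
open Crest.Agent.R257.Rot1_558 Crest.Agent.R257.Vt1_558 Crest.Agent.R257.Vt3_558
open Crest.Agent.R257.Vt4_558

noncomputable section

namespace Crest.Agent.R257.Exf_843

variable {f : (Fin 3 → ℂ) → ℂ} {T : TB f} {S : Sh T} {U : Tub T}

lemma v1_lab (L : Lab U S) {c : Ch T.m} (hc : Ok S c) {j : Fin T.d} {E : II U}
    (h : L.e1 c j = some E) : v1 T c = some E.1.1 := by
  have h1 := L.v_e1 c hc j
  rw [h] at h1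
  exact h1.symm

lemma v2_lab (L : Lab U S) {c : Ch T.m} (hc : Ok S c) {j : Fin T.d} {E : II U}
    (h : L.e2 c j = some E) : v2 T c = some E.1.1 := by
  have h1 := L.v_e2 c hc j
  rw [h] at h1
  exact h1.symm

/-- the two vertices of an edge are different -/
lemma lab12 (L : Lab U S) {c : Ch T.m} (hc : Ok S c) {j : Fin T.d} {E E' : II U}
    (h1 : L.e1 c j = some E) (h2 : L.e2 c j = some E') : IsE c ∧ E.1.1.1 < E'.1.1.1 := by
  have e1 := v1_lab L hc h1
  have e2 := v2_lab L hc h2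
  cases c with
  | edge i k k' =>
    refine ⟨trivial, ?_⟩
    have hk : k < k' := hc.1.2.2.1
    simp only [v1] at e1
    split_ifs at e1 with h0
    have a1 : k = E.1.1.1 := congrArg Prod.fst (Option.some.inj e1)
    have a2 : k' = E'.1.1.1 := congrArg Prod.fst (Option.some.inj e2)
    omega
  | leg i => simp [v2] at e2
  | vert i k w => simp [v2] at e2

/-- exponents of `s ^ m₀` along `{β = 0}` -/
def hN2 (m₀ : ℕ) (c : Ch T.m) : ℝ := by
  classical
  exact if IsE c then m₀ else 0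

/-- exponents of the function at the ends -/
def eN (L : Lab U S) (m : II U → ℕ) (E₀ : II U) (c : Ch T.m) (j : Fin T.d) : ℝ := by
  classical
  exact if L.e2 c j = some E₀ then z2 L m c j else z1 L m c j

/-- the orbit keeps the level -/
lemma not_orb {hG : GalPt T} {E₀ E : II U} (h : E.1.1.1 ≠ E₀.1.1.1) :
    ∀ γ : Ru T, piH hG γ E₀ ≠ E := by
  rintro γ rfl
  refine h ?_
  rw [piH_fst]
  rfl

lemma sc_norm_le (c : Ch T.m) (m₀ : ℕ) {p : ℂ × ℂ} (hp : T.Gen c p) :
    ‖(T.map c p).1 ^ m₀‖ = ‖p.1‖ ^ (m₀ : ℝ) * ‖p.2‖ ^ hN2 (T := T) m₀ c := by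
  classical
  unfold hN2
  rw [norm_pow]
  cases c with
  | edge i k k' =>
    rw [if_pos (show IsE (.edge i k k' : Ch T.m) from trivial)]
    show ‖p.1 * p.2‖ ^ m₀ = _
    rw [norm_mul, mul_pow, Real.rpow_natCast, Real.rpow_natCast]
  | leg i =>
    rw [if_neg (show ¬ IsE (.leg i : Ch T.m) from id), Real.rpow_zero, mul_one, Real.rpow_natCast]
    rfl
  | vert i k w =>
    rw [if_neg (show ¬ IsE (.vert i k w : Ch T.m) from id), Real.rpow_zero, mul_one,
      Real.rpow_natCast]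
    rfl

/-- **the input of the null data, `ExN`** -/
theorem ndatN [Fintype (II U)] (hG : GalPt T) (L : Lab U S) {nu : II U → ℤ}
    {n1 n2 : Ch T.m → Fin T.d → ℤ} (J : Jac L nu n1 n2) {E₀ : II U} {m : II U → ℕ} {y : II U → ℝ}
    (hy0 : y E₀ + nu E₀ = m E₀) (hyE : 0 < y E₀)
    (hyn : ∀ E, (∀ γ : Ru T, piH hG γ E₀ ≠ E) → y E + nu E < m E) (hypos : ∀ E, 0 ≤ y E)
    {fX : XV U E₀.1.1 → ℂ} (hX : HolX (pV U E₀.1.1) fX)
    (hoff : ∀ q : XV U E₀.1.1, (q : ConnectedComponents (XV U E₀.1.1)) ≠ E₀.2 → fX q = 0)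
    {C r' : ℝ} (hC : 0 < C) (hr' : 0 < r')
    (hb : ∀ c, Ok S c →
        (¬ IsV c → v1 T c = some E₀.1.1 → ∀ γ, End1 U S c E₀.1.1 γ → ∀ j, ∀ b : ℂ, 0 < ‖b‖ →
          ‖b‖ < r' → ‖fX (γ j b)‖ ≤ C * ‖b‖ ^ (z1 L m c j)) ∧
        (v2 T c = some E₀.1.1 → ∀ γ, End2 U S c E₀.1.1 γ → ∀ j, ∀ b : ℂ, 0 < ‖b‖ →
          ‖b‖ < r' → ‖fX (γ j b)‖ ≤ C * ‖b‖ ^ (z2 L m c j))) :
    NDat L n1 n2 E₀ y 0 fX (fun x => x 1 ^ m E₀) (fun _ _ => (m E₀ : ℝ))
      (fun c _ => hN2 (T := T) (m E₀) c) (eN L m E₀) := by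
  classical
  have hlt0 : (nu E₀ : ℝ) < m E₀ := by linarith
  refine
    { hol := hX
      off := hoff
      Han := fun c hc j p h1 h2 hg => ?_
      Hbd := fun c hc j _ => ⟨1, one_pos, fun p _ _ hg => ?_⟩
      h2V := fun c hc hV j => ?_
      f1 := fun c hc hV hv γ hγ j hE => ⟨C, r', hC, hr', fun b h1 h2 => ?_⟩
      f2 := fun c hc hv γ hγ j hE => ⟨C, r', hC, hr', fun b h1 h2 => ?_⟩
      near1 := fun c hc j hE => ?_
      nearD1 := fun c hc j hE => ?_
      far2 := fun c hc j hE E hE' => ?_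
      leg := fun c hc hV j hE hE' => ?_
      near2 := fun c hc j hE => ?_
      nearD2 := fun c hc j hE => ?_
      far1 := fun c hc j hE E hE' => ?_
      top := fun c hc j hE hE' => ?_ }
  · have h3 := an_s (S := S) hc.1 (p := p) ⟨h1, h2⟩
    exact h3.pow (m E₀)
  · rw [one_mul]
    exact (sc_norm_le c (m E₀) hg).le
  · unfold hN2
    rw [if_neg]
    cases c with
    | edge i k k' => exact absurd hV id
    | leg i => exact absurd hV id
    | vert i k w => exact id
  · have h3 := (hb c hc).1 hV hv γ hγ j b h1 h2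
    have h4 : eN L m E₀ c j = z1 L m c j := by
      unfold eN
      rw [if_neg]
      intro h5
      exact absurd (lab12 L hc hE h5).2 (lt_irrefl _)
    rw [h4, Real.rpow_intCast]
    exact h3
  · have h3 := (hb c hc).2 hv γ hγ j b h1 h2
    have h4 : eN L m E₀ c j = z2 L m c j := by
      unfold eN
      rw [if_pos hE]
    rw [h4, Real.rpow_intCast]
    exact h3
  · rw [J.some1 c hc j E₀ hE]
    linarith
  · rw [J.some1 c hc j E₀ hE]
    push_cast
    linarith
  · have h3 := lab12 L hc hE hE'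
    have h4 := hyn E (not_orb fun h5 => by omega)
    have h5 := hypos E
    have e1 : eN L m E₀ c j = (m E : ℝ) - m E₀ := by
      unfold eN
      rw [if_neg (by rw [hE']; intro h6; rw [Option.some.inj h6] at h3; exact lt_irrefl _ h3.2)]
      unfold z1
      rw [if_pos h3.1, hE, hE']
      simp [yn]
    have e2 : hN2 (T := T) (m E₀) c = m E₀ := by
      unfold hN2
      rw [if_pos h3.1]
    show y E + n2 c j < hN2 (T := T) (m E₀) c + eN L m E₀ c j ∧
      (n2 c j : ℝ) < hN2 (T := T) (m E₀) c + eN L m E₀ c j + ((0 : ℕ) : ℝ)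
    rw [J.some2 c hc j E hE', e1, e2]
    push_cast
    constructor <;> linarith
  · have h3 := J.none2 c hc j hE'
    have hnE : ¬ IsE c := by
      cases c with
      | edge i k k' =>
        have h4 := L.v_e2 _ hc j
        rw [hE'] at h4
        simp [v2] at h4
      | leg i => exact id
      | vert i k w => exact id
    have e1 : eN L m E₀ c j = 0 := by
      unfold eN
      rw [if_neg (by rw [hE']; simp)]
      unfold z1
      rw [if_neg hnE]
      simp
    have e2 : hN2 (T := T) (m E₀) c = 0 := by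
      unfold hN2
      rw [if_neg hnE]
    show (n2 c j : ℝ) < hN2 (T := T) (m E₀) c + eN L m E₀ c j
    rw [e1, e2]
    have h4 : (n2 c j : ℝ) ≤ -1 := by exact_mod_cast h3
    linarith
  · have hIE : IsE c := by
      have h4 := v2_lab L hc hE
      cases c with
      | edge i k k' => trivial
      | leg i => simp [v2] at h4
      | vert i k w => simp [v2] at h4
    have e2 : hN2 (T := T) (m E₀) c = m E₀ := by
      unfold hN2
      rw [if_pos hIE]
    show y E₀ + n2 c j < hN2 (T := T) (m E₀) c + 1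
    rw [J.some2 c hc j E₀ hE, e2]
    linarith
  · have hIE : IsE c := by
      have h4 := v2_lab L hc hE
      cases c with
      | edge i k k' => trivial
      | leg i => simp [v2] at h4
      | vert i k w => simp [v2] at h4
    have e2 : hN2 (T := T) (m E₀) c = m E₀ := by
      unfold hN2
      rw [if_pos hIE]
    show (n2 c j : ℝ) < hN2 (T := T) (m E₀) c + ((0 : ℕ) : ℝ)
    rw [J.some2 c hc j E₀ hE, e2]
    push_cast
    linarith
  · have h3 := lab12 L hc hE' hE
    have h4 := hyn E (not_orb fun h5 => by omega)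
    have h5 := hypos E
    have e1 : eN L m E₀ c j = (m E : ℝ) - m E₀ := by
      unfold eN
      rw [if_pos hE]
      unfold z2
      rw [hE, hE']
      simp [yn]
    show y E + n1 c j < (m E₀ : ℝ) + eN L m E₀ c j ∧
      (n1 c j : ℝ) < (m E₀ : ℝ) + eN L m E₀ c j + ((0 : ℕ) : ℝ)
    rw [J.some1 c hc j E hE', e1]
    push_cast
    constructor <;> linarith
  · have h3 := J.none1 c hc j hE'
    have e1 : eN L m E₀ c j = -(m E₀ : ℝ) := by
      unfold eN
      rw [if_pos hE]
      unfold z2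
      rw [hE, hE']
      simp [yn]
    show (n1 c j : ℝ) < (m E₀ : ℝ) + eN L m E₀ c j
    rw [e1]
    have h4 : (n1 c j : ℝ) ≤ -1 := by exact_mod_cast h3
    linarith

/-- **`ExNBPStmt`** -/
theorem exNBP [Fintype (II U)] (hf : Iso f) (hC : Clo T) (hG : GalPt T) (hR : RetStmt U)
    (hmono : ∀ c, T.Valid c → T.MonoC c (S.r c)) (hcovP : CovP S) (L : Lab U S)
    {nu : II U → ℤ} {n1 n2 : Ch T.m → Fin T.d → ℤ} (J : Jac L nu n1 n2) (hW : WTDStmt L)
    (hN : NullStmt L n1 n2) : ExNBPStmt hG L nu := by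
  intro E₀ hTh m y hDv hmi hyi hdg hy0 hyn hsup
  have hform := Lab_931.iform L hR
  have hpos : ∀ E, 0 ≤ y E := nonneg_of hform (S := Set.univ) (fun E _ => (hsup E).le)
    (fun E hE => absurd (Set.mem_univ E) hE)
  have hyE : 0 < y E₀ := by
    rcases (hpos E₀).lt_or_eq with h | h
    · exact h
    · exfalso
      have h1 := hsup E₀
      have h2 : 0 ≤ dg (Mx L) y E₀ := by
        unfold dg
        refine Finset.sum_nonneg fun E _ => ?_
        by_cases hE : E = E₀
        · rw [hE, ← h, mul_zero]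
        · exact mul_nonneg (hform.off _ _ (fun h' => hE h'.symm)) (hpos E)
      linarith
  obtain ⟨fX, h1, h2, h3, h4, C, r', hC', hr', h5⟩ := exf_N Rsn1_980.rsn (LWD_547.labWD hR L) hTh
    hDv hmi hdg
  have hd := ndatN hG L J hy0 hyE hyn hpos h1 h2 hC' hr' h5
  obtain ⟨q₀, hq₀⟩ := exists_comp E₀
  obtain ⟨g, V, D, Φ, ρ₀, ρ₁, C₁, v, -, hHT, -, -, -, hv, hlo, hex⟩ := null_orders hf hC hG hR
    hmono hcovP L J hW hN hyi hsup (dvd_zero T.N) hd (fun γ c hc j p q hg hq => by
      have e1 : (rot (vl γ.1) (wc S c j p)) 1 ^ m E₀ = (wc S c j p) 1 ^ m E₀ := by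
        show (vl γ.1 * (wc S c j p) 1) ^ m E₀ = _
        obtain ⟨k, hk⟩ : T.N ∣ m E₀ := (Dvd.intro _ rfl).trans (hDv E₀)
        rw [mul_pow, hk, pow_mul (vl γ.1), vl_pow, one_pow, one_mul]
      show (rot (vl γ.1) (wc S c j p)) 1 ^ m E₀ * fX (smv hG γ q) = (wc S c j p) 1 ^ m E₀ * fX q
      rw [e1, h4 γ q hq]) (m := m E₀) (by linarith)
    (fun c hc hV j hE => ⟨fun _ => 1, analyticAt_const, one_ne_zero, Eventually.of_forall
      fun p hg => by
        show (T.map c p).1 ^ m E₀ = p.1 ^ m E₀ * 1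
        rw [mapV hV, mul_one]⟩) ⟨q₀, h3 q₀ hq₀⟩ ∅ (fun c hc => absurd hc (Finset.notMem_empty c))
  refine ⟨g, hHT.an, fun E hE => lov_of_exv (hv E) ?_, fun γ => ?_⟩
  · have h6 := hlo E hE
    push_cast at h6
    linarith
  · have h6 := hex γ
    rw [add_zero] at h6
    rw [← h6]
    exact hv _

end Crest.Agent.R257.Exf_843
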