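import Crest.Agent.R257.T11_387
import Crest.Agent.R257.OrdL_578
import Crest.Agent.R275.Loc2A_879

/-!
# Row 257, ExT (helper843): division by powers of `x'` on the surface

`div_x` : `g` analytic at `0`, `g ∘ th = O(α ^ n)`, `n > N (K - 1)`, along the sheets of the top edge
chart at the points `(0, b)` ⟹ `g = x' ^ K * g₁` on `{f = 0}` near `0`, `g₁` analytic at `0`.
-/

set_option autoImplicit false
set_option linter.unusedSectionVars false

open Polynomial Set Filter Topology Metric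
open Crest.AlgGeometry.Germ Crest.Agent.R257.AJ387 Crest.Agent.R257.Defs_219
open Crest.Agent.R257.T387 Crest.Agent.R257.T0_387 Crest.Agent.R275.Loc2879
open Crest.Agent.R257.OrdL_578

noncomputable section

namespace Crest.Agent.R257.Div_843

/-- coefficients of a polynomial are bounded by its values at distinct points -/
theorem vdm {d : ℕ} {z : Fin d → ℂ → ℂ} (hz : ∀ l, ContinuousAt (z l) 0)
    (hinj : Function.Injective fun l => z l 0) : ∃ C > 0, ∀ᶠ t in 𝓝 (0 : ℂ),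
      ∀ (c : Fin d → ℂ) (B : ℝ), (∀ l, ‖∑ j, c j * z l t ^ (j : ℕ)‖ ≤ B) → ∀ j, ‖c j‖ ≤ C * B := by
  classical
  set V : ℂ → Matrix (Fin d) (Fin d) ℂ := fun t => Matrix.vandermonde fun l => z l t with hV
  have hVc : ContinuousAt V 0 := by
    refine continuousAt_pi.2 fun l => continuousAt_pi.2 fun j => ?_
    exact (hz l).pow _
  have hdet : (V 0).det ≠ 0 := Matrix.det_vandermonde_ne_zero_iff.2 hinj
  have hdc : ContinuousAt (fun t => (V t).det) 0 :=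
    (Continuous.matrix_det continuous_id).continuousAt.comp hVc
  have hadj : ContinuousAt (fun t => (V t).adjugate) 0 :=
    (Continuous.matrix_adjugate continuous_id).continuousAt.comp hVc
  set W : ℂ → Matrix (Fin d) (Fin d) ℂ := fun t => ((V t).det)⁻¹ • (V t).adjugate with hW
  have hWc : ContinuousAt W 0 := (hdc.inv₀ hdet).smul hadj
  have hb : ∀ j l, ∀ᶠ t in 𝓝 (0 : ℂ), ‖W t j l‖ < ‖W 0 j l‖ + 1 := by
    intro j l
    have h1 : ContinuousAt (fun t => ‖W t j l‖) 0 :=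
      (continuousAt_pi.1 (continuousAt_pi.1 hWc j) l).norm
    exact h1.eventually (gt_mem_nhds (by linarith))
  set C : ℝ := 1 + ∑ j, ∑ l, (‖W 0 j l‖ + 1) with hC
  have hC0 : ∀ j, ∑ l, (‖W 0 j l‖ + 1) ≤ C := by
    intro j
    have h1 : ∑ l, (‖W 0 j l‖ + 1) ≤ ∑ j, ∑ l, (‖W 0 j l‖ + 1) :=
      Finset.single_le_sum (f := fun j => ∑ l, (‖W 0 j l‖ + 1))
        (fun j _ => Finset.sum_nonneg fun l _ => by positivity) (Finset.mem_univ j)
    linarith
  refine ⟨C, by positivity, ?_⟩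
  have hall : ∀ᶠ t in 𝓝 (0 : ℂ), ∀ j l, ‖W t j l‖ < ‖W 0 j l‖ + 1 :=
    eventually_all.2 fun j => eventually_all.2 fun l => hb j l
  filter_upwards [hall, hdc.eventually_ne hdet] with t ht hdt c B hB j
  have h1 : W t * V t = 1 := by
    rw [hW]
    simp only
    rw [Matrix.smul_mul, Matrix.adjugate_mul, smul_smul, inv_mul_cancel₀ hdt, one_smul]
  have h2 : c = (W t).mulVec ((V t).mulVec c) := by
    rw [Matrix.mulVec_mulVec, h1, Matrix.one_mulVec]
  have h3 : ∀ l, (V t).mulVec c l = ∑ j, c j * z l t ^ (j : ℕ) := by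
    intro l
    simp only [Matrix.mulVec, dotProduct, hV, Matrix.vandermonde_apply]
    exact Finset.sum_congr rfl fun j _ => mul_comm _ _
  have hB0 : 0 ≤ B := by
    rcases isEmpty_or_nonempty (Fin d) with h | ⟨⟨l⟩⟩
    · exact (h.false j).elim
    · exact (norm_nonneg _).trans (hB l)
  have h4 : c j = ∑ l, W t j l * (V t).mulVec c l := by
    conv_lhs => rw [h2]
    rfl
  rw [h4]
  calc ‖∑ l, W t j l * (V t).mulVec c l‖ ≤ ∑ l, ‖W t j l * (V t).mulVec c l‖ := norm_sum_le _ _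
    _ ≤ ∑ l, (‖W 0 j l‖ + 1) * B := by
        refine Finset.sum_le_sum fun l _ => ?_
        rw [norm_mul, h3]
        exact mul_le_mul (ht j l).le (hB l) (norm_nonneg _) (by positivity)
    _ = (∑ l, (‖W 0 j l‖ + 1)) * B := by rw [Finset.sum_mul]
    _ ≤ C * B := mul_le_mul_of_nonneg_right (hC0 j) hB0

/-- comparison of orders of growth -/
theorem ord_cmp {a b : ℕ} {c C : ℝ} (hc : 0 < c)
    (h : ∀ᶠ t in 𝓝[≠] (0 : ℂ), c * ‖t‖ ^ a ≤ C * ‖t‖ ^ b) : b ≤ a := by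
  by_contra hlt
  push Not at hlt
  have h1 : Tendsto (fun t : ℂ => C * ‖t‖ ^ (b - a)) (𝓝[≠] 0) (𝓝 0) := by
    have h2 : Continuous fun t : ℂ => C * ‖t‖ ^ (b - a) := by fun_prop
    have h3 := (h2.tendsto 0).mono_left (nhdsWithin_le_nhds (s := {(0 : ℂ)}ᶜ))
    simpa [Nat.sub_ne_zero_of_lt hlt] using h3
  obtain ⟨t, ⟨ht1, ht2⟩, ht0⟩ := ((h.and (h1.eventually (gt_mem_nhds hc))).and
    (self_mem_nhdsWithin (a := (0 : ℂ)) (s := {0}ᶜ))).exists
  have hn : 0 < ‖t‖ := norm_pos_iff.2 ht0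
  have h4 : ‖t‖ ^ b = ‖t‖ ^ (b - a) * ‖t‖ ^ a := by rw [← pow_add, Nat.sub_add_cancel hlt.le]
  rw [h4, ← mul_assoc] at ht1
  have h5 := (mul_le_mul_iff_of_pos_right (pow_pos hn a)).1 ht1
  linarith

variable {f : (Fin 3 → ℂ) → ℂ} {T : TB f}

/-- the function `g` in the coordinates `((x', y'), z)` -/
def gA (T : TB f) (g : (Fin 3 → ℂ) → ℂ) (p : (ℂ × ℂ) × ℂ) : ℂ := g (pt p.2 (T.A p.1))

lemma gA_an {g : (Fin 3 → ℂ) → ℂ} {p : (ℂ × ℂ) × ℂ} (hg : AnalyticAt ℂ g (pt p.2 (T.A p.1))) :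
    AnalyticAt ℂ (gA T g) p := by
  have h1 : gA T g = fun p : (ℂ × ℂ) × ℂ => g (ptL (T.A p.1, p.2)) := by
    funext p
    rw [ptL_apply]
    rfl
  rw [h1]
  refine AnalyticAt.comp (g := g) (f := fun p : (ℂ × ℂ) × ℂ => ptL (T.A p.1, p.2)) ?_ ?_
  · rw [ptL_apply]; exact hg
  · refine (ptL.analyticAt _).comp (AnalyticAt.prod ?_ analyticAt_snd)
    exact AnalyticAt.comp (g := fun q => T.A q) (f := fun p : (ℂ × ℂ) × ℂ => p.1)
      (T.A.toContinuousLinearMap.analyticAt _) analyticAt_fst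

lemma pt00 : pt 0 (0 : ℂ × ℂ) = 0 := by
  funext i
  fin_cases i <;> rfl

/-- the order of `f` on the `z`-axis -/
lemma ord_f : analyticOrderAt (fun w => gA T f ((0 : ℂ × ℂ), w)) 0 = T.d := by
  have hm : (0 : ℂ × ℂ) ∈ BD T.R T.R := ⟨by simpa using T.R_pos, by simpa using T.R_pos⟩
  have hfa : AnalyticAt ℂ (fun w => gA T f ((0 : ℂ × ℂ), w)) 0 := by
    have h1 := T.f_an 0 hm 0 (by simpa using T.rz_pos.le)
    exact AnalyticAt.comp (g := gA T f) (f := fun w : ℂ => ((0 : ℂ × ℂ), w)) (gA_an h1)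
      (analyticAt_const.prod analyticAt_id)
  rw [hfa.analyticOrderAt_eq_natCast]
  refine ⟨fun w => T.v (0, w), ?_, T.v_ne 0 hm 0 (by simpa using T.rz_pos.le), ?_⟩
  · exact AnalyticAt.comp (g := T.v) (f := fun w : ℂ => ((0 : ℂ × ℂ), w))
      (T.v_an 0 hm 0 (by simpa using T.rz_pos.le)) (analyticAt_const.prod analyticAt_id)
  · filter_upwards [Metric.ball_mem_nhds (0 : ℂ) T.rz_pos] with w hw
    rw [mem_ball_zero_iff] at hw
    show f (pt w (T.A 0)) = _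
    rw [T.f_eq 0 hm w hw.le, T.P_zero, eval_pow, eval_X, sub_zero, smul_eq_mul, mul_comm]

lemma map_top (i : Fin T.m) (a b : ℂ) : T.map (.edge i 0 1) (a, b) =
    (a * b, T.φ i ((a * b) ^ T.M) + b ^ T.M) := by
  show (a * b, T.φ i ((a * b) ^ T.M) + a ^ (T.M * 0) * b ^ (T.M * 1)) = _
  rw [Nat.mul_zero, pow_zero, one_mul, Nat.mul_one]

lemma sheet0 {i : Fin T.m} {r : ℝ} {ζ : Fin T.d → ℂ × ℂ → ℂ} (hS : T.Sheets (.edge i 0 1) r ζ)
    (l : Fin T.d) : ζ l (0, 0) = 0 := by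
  have hp : ((0 : ℂ), (0 : ℂ)) ∈ BD r r := ⟨by simpa using hS.r_pos, by simpa using hS.r_pos⟩
  have h1 := hS.root l hp
  rw [map_top] at h1
  have h2 : ((((0 : ℂ) * 0, T.φ i ((0 * 0) ^ T.M) + 0 ^ T.M) : ℂ × ℂ).1 ^ T.N,
      (((0 : ℂ) * 0, T.φ i ((0 * 0) ^ T.M) + 0 ^ T.M) : ℂ × ℂ).2) = (0 : ℂ × ℂ) := by
    simp [zero_pow T.N_pos.ne', zero_pow T.M_pos.ne', T.φ_zero]
  rw [h2, T.P_zero, eval_pow, eval_X] at h1
  exact pow_eq_zero_iff T.d_pos.ne' |>.1 h1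

/-- **division by a power of `x'` on the surface** -/
theorem div_x {i : Fin T.m} {r : ℝ} {ζ : Fin T.d → ℂ × ℂ → ℂ} (hS : T.Sheets (.edge i 0 1) r ζ)
    {g : (Fin 3 → ℂ) → ℂ} (hg : AnalyticAt ℂ g 0) {K : ℕ}
    (hb : ∀ᶠ b in 𝓝[≠] (0 : ℂ), ∀ l, ∃ (n : ℕ) (C : ℝ), T.N * K < n + T.N ∧
      ∀ᶠ a in 𝓝[≠] (0 : ℂ), ‖g (T.th (.edge i 0 1) (ζ l) (a, b))‖ ≤ C * ‖a‖ ^ n) :
    ∃ g₁ : (Fin 3 → ℂ) → ℂ, AnalyticAt ℂ g₁ 0 ∧ ∀ᶠ x in 𝓝 (0 : Fin 3 → ℂ), f x = 0 →
      g x = (T.A.symm (x 1, x 2)).1 ^ K * g₁ x := by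
  classical
  have hA0 : pt 0 (T.A (0 : ℂ × ℂ)) = 0 := by rw [map_zero]; exact pt00
  have hm0 : (0 : ℂ × ℂ) ∈ BD T.R T.R := ⟨by simpa using T.R_pos, by simpa using T.R_pos⟩
  have hF : AnalyticAt ℂ (gA T f) ((0 : ℂ × ℂ), (0 : ℂ)) :=
    gA_an (T.f_an 0 hm0 0 (by simpa using T.rz_pos.le))
  have hG : AnalyticAt ℂ (gA T g) ((0 : ℂ × ℂ), (0 : ℂ)) := gA_an (by
    show AnalyticAt ℂ g (pt 0 (T.A 0))
    rw [hA0]; exact hg)
  obtain ⟨q, c, hq, hc, heq⟩ := wdiv hF ord_f hG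
  have hval : T.Valid (.edge i 0 1) :=
    ⟨Or.inl rfl, T.one_mem_lev i, one_pos, fun _ hl => Or.inr (T.lev_pos hl)⟩
  have key : ∀ j, ∃ h : ℂ × ℂ → ℂ, AnalyticAt ℂ h 0 ∧ ∀ᶠ b in 𝓝 (0 : ℂ × ℂ),
      c j b = b.1 ^ K * h b := by
    intro j
    by_cases hz : ∀ᶠ b in 𝓝 ((0 : ℂ), (0 : ℂ)), c j b = 0
    · exact ⟨fun _ => 0, analyticAt_const, hz.mono fun b hb => by rw [hb, mul_zero]⟩
    obtain ⟨n, Gj, ⟨hGj, hGe⟩, hGn⟩ := exists_ord (h := c j) (b := 0) (hc j) hz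
    have hn : K ≤ n := by
      by_contra hlt
      push Not at hlt
      -- the leading coefficient
      have hGa : AnalyticAt ℂ (fun z : ℂ => Gj (0, z)) 0 :=
        AnalyticAt.comp (g := Gj) (f := fun z : ℂ => ((0 : ℂ), z)) hGj
          (analyticAt_const.prod analyticAt_id)
      have hne : ∀ᶠ z in 𝓝[≠] (0 : ℂ), Gj (0, z) ≠ 0 := by
        rcases hGa.eventually_eq_zero_or_eventually_ne_zero with h | h
        · exact ((hGn : ∃ᶠ z in 𝓝 (0 : ℂ), Gj (0, z) ≠ 0) (h.mono fun z hz hne => hne hz)).elim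
        · exact h
      have hpw : Tendsto (fun b : ℂ => b ^ T.M) (𝓝[≠] 0) (𝓝[≠] 0) := by
        refine tendsto_nhdsWithin_iff.2 ⟨?_, ?_⟩
        · have h1 : Continuous fun b : ℂ => b ^ T.M := by fun_prop
          have := (h1.tendsto 0).mono_left (nhdsWithin_le_nhds (s := {(0 : ℂ)}ᶜ))
          simpa [zero_pow T.M_pos.ne'] using this
        · filter_upwards [self_mem_nhdsWithin] with b hb
          exact pow_ne_zero _ hb
      have e1 : ∀ᶠ b in 𝓝[≠] (0 : ℂ), Gj (0, b ^ T.M) ≠ 0 := hpw.eventually hne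
      -- local equations
      have hc1 : ContinuousAt (fun b : ℂ => ((0 : ℂ), b ^ T.M)) 0 := by fun_prop
      have e2 : ∀ᶠ b in 𝓝 (0 : ℂ), ∀ᶠ x in 𝓝 ((0 : ℂ), b ^ T.M),
          c j x = x.1 ^ n * Gj x := by
        have h1 : ContinuousAt (fun b : ℂ => ((0 : ℂ), b ^ T.M)) 0 := hc1
        have h2 : Tendsto (fun b : ℂ => ((0 : ℂ), b ^ T.M)) (𝓝 0) (𝓝 ((0 : ℂ), (0 : ℂ))) := by
          have := h1.tendsto
          simpa [zero_pow T.M_pos.ne'] using this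
        exact h2.eventually (eventually_eventually_nhds.2 hGe)
      have e3 : ∀ᶠ b in 𝓝 (0 : ℂ), AnalyticAt ℂ Gj ((0 : ℂ), b ^ T.M) := by
        have h2 : Tendsto (fun b : ℂ => ((0 : ℂ), b ^ T.M)) (𝓝 0) (𝓝 ((0 : ℂ), (0 : ℂ))) := by
          have := hc1.tendsto
          simpa [zero_pow T.M_pos.ne'] using this
        exact h2.eventually hGj.eventually_analyticAt
      have hr := hS.r_pos
      have hp0 : ((0 : ℂ), (0 : ℂ)) ∈ BD r r := ⟨by simpa using hr, by simpa using hr⟩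
      have e4 : ∀ l, ∀ᶠ b in 𝓝 (0 : ℂ), ∀ᶠ x in 𝓝 (((0 : ℂ), b ^ T.M), ζ l (0, b)),
          gA T g x = q x * gA T f x + ∑ j : Fin T.d, c j x.1 * x.2 ^ (j : ℕ) := by
        intro l
        have h1 : ContinuousAt (fun b : ℂ => ζ l (0, b)) 0 :=
          ContinuousAt.comp (g := ζ l) (f := fun b : ℂ => ((0 : ℂ), b))
            (hS.an l _ hp0).continuousAt (by fun_prop)
        have h2 : Tendsto (fun b : ℂ => (((0 : ℂ), b ^ T.M), ζ l (0, b))) (𝓝 0)
            (𝓝 ((0 : ℂ × ℂ), (0 : ℂ))) := by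
          have h3 := (hc1.prodMk h1).tendsto
          have h4 : (((0 : ℂ), (0 : ℂ) ^ T.M), ζ l (0, 0)) = ((0 : ℂ × ℂ), (0 : ℂ)) := by
            rw [zero_pow T.M_pos.ne', sheet0 hS l]
            rfl
          rw [h4] at h3
          exact h3
        exact h2.eventually (eventually_eventually_nhds.2 heq)
      have e5 : ∀ᶠ b in 𝓝 (0 : ℂ), ‖b‖ < r := by
        have := Metric.ball_mem_nhds (0 : ℂ) hr
        filter_upwards [this] with b hb
        simpa using hb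
      obtain ⟨b, ⟨⟨⟨⟨⟨⟨hb1, hb2⟩, hb3⟩, hb4⟩, hb5⟩, hb6⟩, hb7⟩⟩ :=
        (((((e1.and (e2.filter_mono nhdsWithin_le_nhds)).and
          (e3.filter_mono nhdsWithin_le_nhds)).and
          ((eventually_all.2 e4).filter_mono nhdsWithin_le_nhds)).and
          (e5.filter_mono nhdsWithin_le_nhds)).and hb).and
          (self_mem_nhdsWithin (a := (0 : ℂ)) (s := {0}ᶜ)) |>.exists
      have hb0 : b ≠ 0 := hb7
      have hpb : ((0 : ℂ), b) ∈ BD r r := ⟨by simpa using hr, hb5⟩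
      -- the path
      set β : ℂ → ℂ × ℂ := fun a => ((T.map (.edge i 0 1) (a, b)).1 ^ T.N,
        (T.map (.edge i 0 1) (a, b)).2) with hβ
      have hβ0 : β 0 = (0, b ^ T.M) := by
        simp only [hβ, map_top]
        simp [zero_pow T.N_pos.ne', zero_pow T.M_pos.ne', T.φ_zero]
      have hβ1 : ∀ a, (β a).1 = (a * b) ^ T.N := by
        intro a
        simp only [hβ, map_top]
      have hpath : ContinuousAt (fun a : ℂ => (a, b)) 0 := by fun_prop
      have hβc : ContinuousAt β 0 :=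
        ContinuousAt.comp (g := fun p => (((T.map (.edge i 0 1) p).1 ^ T.N,
          (T.map (.edge i 0 1) p).2) : ℂ × ℂ)) (f := fun a : ℂ => (a, b))
          (hS.q_an hpb).continuousAt hpath
      have hZc : ∀ l, ContinuousAt (fun a : ℂ => ζ l (a, b)) 0 := fun l =>
        ContinuousAt.comp (g := ζ l) (f := fun a : ℂ => (a, b))
          (hS.an l _ hpb).continuousAt hpath
      obtain ⟨C₀, hC₀, hvd⟩ := vdm hZc (T.top_inj hS hval hpb hb0)
      choose nl Cl hnl hCl using hb6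
      have e6 : ∀ᶠ a in 𝓝 (0 : ℂ), c j (β a) = (β a).1 ^ n * Gj (β a) := by
        have := hβc.tendsto
        rw [hβ0] at this
        exact this.eventually hb2
      have e7 : ∀ᶠ a in 𝓝 (0 : ℂ), ‖Gj (0, b ^ T.M)‖ / 2 < ‖Gj (β a)‖ := by
        have h1 := hβc.tendsto
        rw [hβ0] at h1
        have h2 : Tendsto (fun a => ‖Gj (β a)‖) (𝓝 0) (𝓝 ‖Gj (0, b ^ T.M)‖) :=
          (hb3.continuousAt.norm.tendsto).comp h1
        have h3 : 0 < ‖Gj (0, b ^ T.M)‖ := norm_pos_iff.2 hb1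
        exact h2.eventually (lt_mem_nhds (by linarith))
      have e8 : ∀ l, ∀ᶠ a in 𝓝 (0 : ℂ), gA T g (β a, ζ l (a, b)) =
          q (β a, ζ l (a, b)) * gA T f (β a, ζ l (a, b)) +
            ∑ j : Fin T.d, c j (β a) * ζ l (a, b) ^ (j : ℕ) := by
        intro l
        have h1 : Tendsto (fun a => (β a, ζ l (a, b))) (𝓝 0) (𝓝 ((0, b ^ T.M), ζ l (0, b))) := by
          have h2 := (hβc.prodMk (hZc l)).tendsto
          rwa [hβ0] at h2
        exact h1.eventually (hb4 l)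
      have e9 : ∀ᶠ a in 𝓝 (0 : ℂ), ‖a‖ < min r 1 := by
        have := Metric.ball_mem_nhds (0 : ℂ) (lt_min hr one_pos)
        filter_upwards [this] with a ha
        simpa using ha
      set n₀ : ℕ := T.N * K + 1 - T.N with hn₀
      set Cs : ℝ := ∑ l, |Cl l| with hCs
      have hfin : ∀ᶠ a in 𝓝[≠] (0 : ℂ), (‖b‖ ^ (T.N * n) * (‖Gj (0, b ^ T.M)‖ / 2)) *
          ‖a‖ ^ (T.N * n) ≤ (C₀ * Cs) * ‖a‖ ^ n₀ := by
        filter_upwards [e6.filter_mono nhdsWithin_le_nhds, e7.filter_mono nhdsWithin_le_nhds,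
          (eventually_all.2 e8).filter_mono nhdsWithin_le_nhds,
          e9.filter_mono nhdsWithin_le_nhds, eventually_all.2 hCl,
          hvd.filter_mono nhdsWithin_le_nhds] with a a6 a7 a8 a9 a10 a11
        have ha1 : ‖a‖ ≤ 1 := (a9.trans_le (min_le_right _ _)).le
        have hpa : (a, b) ∈ BD r r := ⟨a9.trans_le (min_le_left _ _), hb5⟩
        have h1 : ∀ l, ‖∑ j : Fin T.d, c j (β a) * ζ l (a, b) ^ (j : ℕ)‖ ≤ Cs * ‖a‖ ^ n₀ := by
          intro l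
          have h2 : gA T f (β a, ζ l (a, b)) = 0 := hS.th_V l hpa
          have h3 : gA T g (β a, ζ l (a, b)) = g (T.th (.edge i 0 1) (ζ l) (a, b)) := rfl
          have h4 := a8 l
          rw [h2, mul_zero, zero_add, h3] at h4
          rw [← h4]
          have h5 : ‖a‖ ^ nl l ≤ ‖a‖ ^ n₀ := by
            refine pow_le_pow_of_le_one (norm_nonneg _) ha1 ?_
            have := hnl l
            omega
          have h6 : |Cl l| ≤ Cs :=
            Finset.single_le_sum (f := fun l => |Cl l|) (fun l _ => abs_nonneg _)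
              (Finset.mem_univ l)
          calc ‖g (T.th (.edge i 0 1) (ζ l) (a, b))‖ ≤ Cl l * ‖a‖ ^ nl l := a10 l
            _ ≤ |Cl l| * ‖a‖ ^ nl l := mul_le_mul_of_nonneg_right (le_abs_self _) (by positivity)
            _ ≤ Cs * ‖a‖ ^ n₀ := mul_le_mul h6 h5 (by positivity) ((abs_nonneg _).trans h6)
        have h2 := a11 (fun j => c j (β a)) _ h1 j
        have h3 : ‖c j (β a)‖ = ‖a‖ ^ (T.N * n) * ‖b‖ ^ (T.N * n) * ‖Gj (β a)‖ := by
          rw [a6, hβ1, norm_mul, norm_pow, norm_pow, norm_mul, ← pow_mul, mul_pow]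
        simp only [h3] at h2
        calc (‖b‖ ^ (T.N * n) * (‖Gj (0, b ^ T.M)‖ / 2)) * ‖a‖ ^ (T.N * n)
            = ‖a‖ ^ (T.N * n) * ‖b‖ ^ (T.N * n) * (‖Gj (0, b ^ T.M)‖ / 2) := by ring
          _ ≤ ‖a‖ ^ (T.N * n) * ‖b‖ ^ (T.N * n) * ‖Gj (β a)‖ :=
              mul_le_mul_of_nonneg_left a7.le (by positivity)
          _ ≤ C₀ * (Cs * ‖a‖ ^ n₀) := h2
          _ = _ := by ring
      have hpos : 0 < ‖b‖ ^ (T.N * n) * (‖Gj (0, b ^ T.M)‖ / 2) := by
        have h1 : 0 < ‖b‖ := norm_pos_iff.2 hb0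
        have h2 : 0 < ‖Gj (0, b ^ T.M)‖ := norm_pos_iff.2 hb1
        positivity
      have h10 := ord_cmp hpos hfin
      have hN := T.N_pos
      have h11 : T.N * (n + 1) ≤ T.N * K := Nat.mul_le_mul_left _ hlt
      rw [Nat.mul_add, Nat.mul_one] at h11
      omega
    refine ⟨fun b => b.1 ^ (n - K) * Gj b, (analyticAt_fst.pow _).mul hGj, ?_⟩
    filter_upwards [hGe] with b hb
    rw [hb, ← mul_assoc, ← pow_add, Nat.add_sub_cancel' hn]
  choose h hh hhe using key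
  -- the quotient
  set B : (Fin 3 → ℂ) → ℂ × ℂ := fun x => T.A.symm (x 1, x 2) with hB
  have hBa : AnalyticAt ℂ B 0 := by
    have h1 : AnalyticAt ℂ (fun x : Fin 3 → ℂ => ((x 1, x 2) : ℂ × ℂ)) 0 :=
      ((ContinuousLinearMap.proj (R := ℂ) (φ := fun _ : Fin 3 => ℂ) 1).analyticAt _).prod
        ((ContinuousLinearMap.proj (R := ℂ) (φ := fun _ : Fin 3 => ℂ) 2).analyticAt _)
    exact AnalyticAt.comp (g := fun q => T.A.symm q)
      (f := fun x : Fin 3 → ℂ => ((x 1, x 2) : ℂ × ℂ))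
      (T.A.symm.toContinuousLinearMap.analyticAt _) h1
  have hB0 : B 0 = 0 := by
    show T.A.symm ((0, 0) : ℂ × ℂ) = 0
    exact map_zero _
  have hx0 : AnalyticAt ℂ (fun x : Fin 3 → ℂ => x 0) 0 :=
    (ContinuousLinearMap.proj (R := ℂ) (φ := fun _ : Fin 3 => ℂ) 0).analyticAt _
  refine ⟨fun x => ∑ j : Fin T.d, h j (B x) * x 0 ^ (j : ℕ), ?_, ?_⟩
  · refine Finset.analyticAt_fun_sum _ fun j _ => ?_
    refine AnalyticAt.mul ?_ (hx0.pow _)
    exact AnalyticAt.comp (g := h j) (f := B) (by rw [hB0]; exact hh j) hBa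
  · have ht : Tendsto (fun x : Fin 3 → ℂ => (B x, x 0)) (𝓝 0) (𝓝 ((0 : ℂ × ℂ), (0 : ℂ))) := by
      have := (hBa.continuousAt.prodMk hx0.continuousAt).tendsto
      rwa [hB0] at this
    have htB : Tendsto B (𝓝 0) (𝓝 0) := by
      have := hBa.continuousAt.tendsto
      rwa [hB0] at this
    filter_upwards [ht.eventually heq, eventually_all.2 fun j => htB.eventually (hhe j)]
      with x h1 h2 hfx
    have hpt : pt (x 0) (T.A (B x)) = x := by
      simp only [hB, T.A.apply_symm_apply]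
      funext k
      fin_cases k <;> rfl
    have e1 : gA T g (B x, x 0) = g x := by
      show g (pt (x 0) (T.A (B x))) = _
      rw [hpt]
    have e2 : gA T f (B x, x 0) = 0 := by
      show f (pt (x 0) (T.A (B x))) = _
      rw [hpt, hfx]
    rw [e1, e2, mul_zero, zero_add] at h1
    rw [h1, Finset.mul_sum]
    refine Finset.sum_congr rfl fun j _ => ?_
    show c j (B x) * x 0 ^ (j : ℕ) = (B x).1 ^ K * (h j (B x) * x 0 ^ (j : ℕ))
    rw [h2 j, mul_assoc]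

end Crest.Agent.R257.Div_843
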