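import Crest.Agent.R257.ExTB_952
import Crest.Agent.R257.Lab5_931
import Crest.Agent.R257.Div_843

/-!
# Row 257, ExT (helper952): `exTBP : ExTBPStmt hG L nu` from the weights and the null data
-/

set_option autoImplicit false
set_option linter.unusedSectionVars false

noncomputable section

open Set Filter Topology MeasureTheory
open scoped ENNReal

namespace Crest.Agent.R257.ExT2_952

open Crest.AlgGeometry.Germ Crest.Agent.R257.Defs_219
open Crest.Agent.R257.T387 Crest.Agent.R257.BP_258 Crest.Agent.R257.OrdK_82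
open Crest.Agent.R257.HoT_843 Crest.Agent.R257.AJ387 Crest.Agent.R257.Gr1_157
open Crest.Agent.R257.Rot1_558 Crest.Agent.R257.Vt1_558 Crest.Agent.R257.Vt3_558
open Crest.Agent.R257.Vt4_558 Crest.Agent.R257.Vt6_558 Crest.Agent.R257.KB_82
open Crest.Agent.R257.Exf_843 Crest.Agent.R257.Wt_258 Crest.Agent.R257.ExT1_176
open Crest.Agent.R257.Tb3_941
open Polynomial (nthRootsFinset)

variable {f : (Fin 3 → ℂ) → ℂ} {T : TB f} {S : Sh T} {U : Tub T}

/-- the chart of the top edge -/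
lemma exists_top (S : Sh T) : ∃ i : Fin T.m, Ok S (.edge i 0 1) := by
  set i₀ : Fin T.m := ⟨0, T.m_pos⟩
  have hv : vx T i₀ 1 ∈ Vs T := Lab_931.vx_mem (T.one_mem_lev i₀)
  have hcons : T.Cons (S.ci (vx T i₀ 1)) (S.kp (vx T i₀ 1)) 1 := S.kp_cons _ hv
  have hk : S.kp (vx T i₀ 1) = 0 := by
    have := hcons.2.2.1
    omega
  refine ⟨S.ci (vx T i₀ 1), ?_, vx T i₀ 1, hv, rfl, hk.symm, rfl⟩
  show T.Cons _ 0 1
  rw [← hk]; exact hcons

/-- **(ExT)** at the level of `BPDefs` -/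
theorem exTBP [Fintype (II U)] (hf : Iso f) (hC : Clo T) (hG : GalPt T) (hR : RetStmt U)
    (hmono : ∀ c, T.Valid c → T.MonoC c (S.r c)) (hcovP : CovP S) (L : Lab U S)
    {nu : II U → ℤ} {n1 n2 : Ch T.m → Fin T.d → ℤ} (J : Jac L nu n1 n2) (hW : WTDStmt L)
    (hN : NullStmt L n1 n2) : ExTBPStmt hG L nu := by
  classical
  intro E₀ hTh n hn
  obtain ⟨fX, hol, off, hch, hinv, hne, hdat⟩ := exists_T L J hTh
  have hd0 : (0 : ℝ) < T.d := by exact_mod_cast T.d_pos
  refine ⟨1 / (T.d : ℝ), by positivity, fun y hyi hsup hsm => ?_⟩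
  have hd := hdat y T.N T.N_pos hsm
  have hy0 : ∀ E, 0 ≤ y E := nonneg_of (Lab_931.iform L hR) (S := Set.univ)
    (fun E _ => (hsup E).le) (fun E hE => absurd (Set.mem_univ E) hE)
  -- the top charts
  obtain ⟨i, hci⟩ := exists_top S
  set c : Ch T.m := .edge i 0 1 with hcd
  set F' : Finset (Ch T.m) := (nthRootsFinset T.N (1 : ℂ)).image fun ξ => rc T ξ c with hF'd
  have hroot : ∀ {ξ : ℂ}, ξ ^ T.N = 1 → ξ ∈ nthRootsFinset T.N (1 : ℂ) := fun hξ =>
    (Polynomial.mem_nthRootsFinset T.N_pos (1 : ℂ)).2 hξ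
  have hF' : ∀ c' ∈ F', Ok S c' := by
    intro c' hc'
    obtain ⟨ξ, hξ, rfl⟩ := Finset.mem_image.1 hc'
    exact ok_rc S hG (root_mem hξ) hci
  have hmem : ∀ ξ : ℂ, ξ ^ T.N = 1 → rc T ξ c ∈ F' := fun ξ hξ =>
    Finset.mem_image.2 ⟨ξ, hroot hξ, rfl⟩
  obtain ⟨g, V, D, Φ, ρ₀, ρ₁, C, v, hρ₀, hHT, hup, htop, hfreq, hvE, hoffE, horb⟩ :=
    null_orders hf hC hG hR hmono hcovP L J hW hN hyi hsup (a := T.N) (dvd_refl _) hd
      (fun γ c hc j p q hg hq => hinv γ q hq _) (m := n) (by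
        have h1 := hy0 E₀
        have h2 : (n : ℝ) = nu E₀ := by exact_mod_cast hn
        linarith) (fun c hc hV j hE => by
        have hv : v1 T c = some E₀.1.1 := by
          have h1 := L.v_e1 c hc j
          rw [hE] at h1
          exact h1.symm
        obtain ⟨u, h1, h2, h3⟩ := HF_loc J hc hV j hv (n := n)
          (by rw [J.some1 c hc j E₀ hE]; exact hn)
        have hr := S.pos c
        have h0 : ((0 : ℂ), (0 : ℂ)) ∈ AJ387.BD (2 * S.r c) (2 * S.r c) :=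
          ⟨by simpa using hr, by simpa using hr⟩
        refine ⟨u, h1 _ h0, h2 _ h0, ?_⟩
        filter_upwards [(isOpen_BD _ _).mem_nhds h0] with p hp hg
        exact h3 p hp (CDataB_250.gen_fst hg)) hne F' hF'
  -- the division
  have htp := top_pos (hG := hG) L J hmono (E₀ := E₀) (y := y) hρ₀ hHT hcd hci
    (fun ξ hξ j p hp => hup _ (hmem ξ hξ) j p hp)
    (fun ξ hξ j => htop _ (hmem ξ hξ) (by rw [v1_rc hG hξ, hcd]; rfl) j)
  have hSh := S.sheets c hci.1
  obtain ⟨g₁, hg₁, hdiv⟩ := Div_843.div_x (i := i) (K := 1) hSh hHT.an (by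
    filter_upwards [htp] with b hb l
    obtain ⟨m, H, h1, h2, h3⟩ := hb l
    refine ⟨m, ‖H (0, b)‖ + 1, ?_, ?_⟩
    · have h4 : (0 : ℝ) < m := by linarith
      have h5 : 0 < m := by exact_mod_cast h4
      omega
    · have ht : Tendsto (fun a : ℂ => (a, b)) (𝓝[≠] 0) (𝓝 ((0 : ℂ), b)) := by
        have : Continuous fun a : ℂ => (a, b) := by fun_prop
        exact (this.tendsto' _ _ rfl).mono_left nhdsWithin_le_nhds
      have h4 : ∀ᶠ p in 𝓝 ((0 : ℂ), b), ‖H p‖ < ‖H (0, b)‖ + 1 :=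
        h2.continuousAt.norm.eventually (gt_mem_nhds (lt_add_one _))
      filter_upwards [ht.eventually (h3.and h4)] with a ha
      rw [ha.1, norm_mul, norm_pow, mul_comm]
      exact mul_le_mul_of_nonneg_right ha.2.le (by positivity))
  -- the orders of `g₁`
  have hfreq₁ : ∃ᶠ x in 𝓝 (0 : Fin 3 → ℂ), f x = 0 ∧ g₁ x ≠ 0 := by
    refine (hfreq.and_eventually hdiv).mono fun x hx => ⟨hx.1.1, fun h0 => hx.1.2 ?_⟩
    rw [hx.2 hx.1.1, h0, mul_zero]
  obtain ⟨v₁, hv₁⟩ := exists_exv hf hR L hg₁ hfreq₁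
  have hvv : ∀ E, v E = T.N + v₁ E := by
    intro E
    refine exv_uniq hR (hvE E) ?_
    intro c' hc' hV j hE z hz
    obtain ⟨H, h1, h2, h3⟩ := hv₁ E c' hc' hV j hE z hz
    refine ⟨H, h1, ?_, h3⟩
    have hr := S.pos c'
    have hb0 : ((0 : ℂ), z) ∈ AJ387.BD (2 * S.r c') (2 * S.r c') :=
      ⟨by simpa using hr, show ‖z‖ < 2 * S.r c' by linarith⟩
    have h0 : T.map c' (0, z) = 0 := by
      rw [T.map_eq_zero hc'.1]
      cases c' with
      | edge i k k' => exact absurd hV id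
      | leg i => exact absurd hV id
      | vert i k w₀ => rfl
    have hth0 : T.th c' (S.ζ c' j) (0, z) = 0 := by
      rw [(S.sheets c' hc'.1).th_zero hc'.1 j hb0, ← T.map_eq_zero hc'.1]
      exact h0
    have htend : Tendsto (T.th c' (S.ζ c' j)) (𝓝 ((0 : ℂ), z)) (𝓝 0) := by
      have := ((S.sheets c' hc'.1).th_an j hb0).continuousAt.tendsto
      rwa [hth0] at this
    filter_upwards [h2, htend.eventually hdiv, (isOpen_BD _ _).mem_nhds hb0] with p q1 q2 q3
    rw [q2 ((S.sheets c' hc'.1).th_V j q3), q1, pow_one]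
    have e1 : (T.A.symm (T.th c' (S.ζ c' j) p 1, T.th c' (S.ζ c' j) p 2)).1 = p.1 ^ T.N := by
      have e2 : ((T.th c' (S.ζ c' j) p 1, T.th c' (S.ζ c' j) p 2) : ℂ × ℂ) =
          T.A ((T.map c' p).1 ^ T.N, (T.map c' p).2) := rfl
      rw [e2, T.A.symm_apply_apply, mapV hV]
    rw [e1, pow_add]
    ring
  refine ⟨g₁, hg₁, fun E hE => ?_, fun γ => ?_⟩
  · refine lov_of_exv (hv₁ E) ?_
    have h1 := hoffE E hE
    rw [hvv E] at h1
    push_cast at h1
    linarith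
  · have h1 := horb γ
    rw [hvv] at h1
    have h2 : v₁ (piH hG γ E₀) = n := by omega
    rw [← h2]
    exact hv₁ _

end Crest.Agent.R257.ExT2_952
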