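import Crest.Agent.R257.Vt7_558

/-!
Row 257 (S0395), part C: **C-JAC and C-ROT** (helper558).

* `ord_e1`, `ord_e2` : the exponents of `f_z` in the charts are the orders of the labels;
* `exists_vert`      : every component is the label of a vertex chart;
* `jac`  (task C-JAC) : `∃ nu n1 n2, Jac L nu n1 n2`;
* `rot`  (task C-ROT) : `Jac L nu n1 n2 → RotStmt L nu`.
-/

set_option autoImplicit false
set_option linter.unusedSectionVars false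

open Polynomial Set Filter Topology Metric
open Crest.AlgGeometry.Germ Crest.Agent.R257.AJ387 Crest.Agent.R257.T387
open Crest.Agent.R257.Defs_219
open Crest.Agent.R257.Rot1_558 Crest.Agent.R257.BP_258 Crest.Agent.R257.Vt1_558
open Crest.Agent.R257.Vt2_558 Crest.Agent.R257.Vt3_558 Crest.Agent.R257.Vt4_558
open Crest.Agent.R257.Vt5_558
open Crest.Agent.R257.Vt6_558 Crest.Agent.R257.Vt7_558

noncomputable section

namespace Crest.Agent.R257.Vt8_558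

variable {f : (Fin 3 → ℂ) → ℂ} {T : TB f} {U : Tub T} {S : Sh T}

/-- the general comparison at a point of an axis -/
theorem ord_ax {c : Ch T.m} {j : Fin T.d} {E : II U} {γ : ℂ → ℂ × ℂ} {p₀ : ℂ × ℂ}
    (hγ : Tendsto γ (𝓝[≠] 0) (𝓝 p₀)) {w₀ : ℂ} {D : LD U E.1.1 w₀} {W : ℂ × ℂ → ℂ} {l : Fin T.d}
    (hW : ContinuousAt W p₀) (hW0 : W p₀ = w₀)
    (hev : ∀ᶠ p in 𝓝 p₀, W p ∈ ball w₀ D.r ∧
      ((T.map c p).1 ≠ 0 → IsRet U E.1.1 (wc S c j p) (D.σ l (W p)))) {κ : ℝ} (hκ0 : 0 < κ)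
    (hκ : ∀ t : ℂ, ‖(T.map c (γ t)).1‖ = κ * ‖t‖)
    (hcl : ∀ᶠ t in 𝓝[≠] (0 : ℂ), ∀ q, IsRet U E.1.1 (wc S c j (γ t)) q →
      (q : ConnectedComponents _) = E.2) {m n : ℕ} {g : ℂ → ℂ}
    (hm : ∀ᶠ t in 𝓝[≠] (0 : ℂ), fz T (wc S c j (γ t)) = t ^ m * g t) {g₀ : ℂ} (hg0 : g₀ ≠ 0)
    (hg : Tendsto g (𝓝[≠] 0) (𝓝 g₀))
    (hn : ∀ q : XV U E.1.1, (q : ConnectedComponents _) = E.2 → GR U E.1.1 q n) : m = n := by
  have hW' : Tendsto (fun t => W (γ t)) (𝓝[≠] 0) (𝓝 w₀) := by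
    have := hW.tendsto.comp hγ
    rwa [hW0] at this
  have hne : ∀ᶠ t in 𝓝[≠] (0 : ℂ), (T.map c (γ t)).1 ≠ 0 := by
    filter_upwards [self_mem_nhdsWithin] with t ht
    rw [← norm_pos_iff, hκ]
    exact mul_pos hκ0 (norm_pos_iff.2 ht)
  have hx : ∀ᶠ t in 𝓝[≠] (0 : ℂ), IsRet U E.1.1 (wc S c j (γ t)) (D.σ l (W (γ t))) := by
    filter_upwards [hγ.eventually hev, hne] with t h1 h2
    exact h1.2 h2
  have hcc : (D.σ l w₀ : ConnectedComponents (XV U E.1.1)) = E.2 := by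
    obtain ⟨t, h1, h2, h3⟩ := (hx.and (hcl.and (hγ.eventually hev))).exists
    rw [← h2 _ h1]
    exact ld_cc D l D.w0_mem h3.1
  have hgn : 0 < ‖g₀‖ := norm_pos_iff.2 hg0
  have hgt : Tendsto (fun t => ‖g t‖) (𝓝[≠] 0) (𝓝 ‖g₀‖) := hg.norm
  have hlo : ∀ᶠ t in 𝓝[≠] (0 : ℂ), ‖g₀‖ / 2 < ‖g t‖ :=
    hgt.eventually (lt_mem_nhds (by linarith : ‖g₀‖ / 2 < ‖g₀‖))
  have hhi : ∀ᶠ t in 𝓝[≠] (0 : ℂ), ‖g t‖ < 2 * ‖g₀‖ :=
    hgt.eventually (gt_mem_nhds (by linarith : ‖g₀‖ < 2 * ‖g₀‖))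
  refine ord_arc D (l := l) (n := n) (m := m) (hn _ hcc) (x := fun t => wc S c j (γ t)) hW' hx hκ0
    (Eventually.of_forall fun t => hκ t) (A := ‖g₀‖ / 2) (B := 2 * ‖g₀‖) (by positivity) ?_
  filter_upwards [hm, hlo, hhi] with t h1 h2 h3
  rw [h1, norm_mul, norm_pow]
  have h4 : 0 ≤ ‖t‖ ^ m := by positivity
  exact ⟨by rw [mul_comm]; exact mul_le_mul_of_nonneg_left h2.le h4,
    by rw [mul_comm]; exact mul_le_mul_of_nonneg_right h3.le h4⟩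

section

variable (hR : RetStmt U) (L : Lab U S) {c : Ch T.m} (hc : Ok S c) {j : Fin T.d} {E : II U}
  {a b : ℕ} {w : ℂ × ℂ → ℂ} (hw : AnalyticOnNhd ℂ w (BD (2 * S.r c) (2 * S.r c)))
  (hw0 : ∀ p ∈ BD (2 * S.r c) (2 * S.r c), w p ≠ 0)
  (he : ∀ p ∈ BD (2 * S.r c) (2 * S.r c), coordDeriv f 0 (T.th c (S.ζ c j) p) =
      p.1 ^ a * p.2 ^ b * w p)
  {n : ℕ} (hn : ∀ q : XV U E.1.1, (q : ConnectedComponents _) = E.2 → GR U E.1.1 q n)

include hR hc hw hw0 he hn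

theorem ord_e1 (hE : L.e1 c j = some E) : a = n := by
  have hr := S.pos c
  have hrn : ‖((S.r c : ℝ) : ℂ)‖ = S.r c := by
    rw [Complex.norm_real, Real.norm_of_nonneg hr.le]
  have hr0 : ((S.r c : ℝ) : ℂ) ≠ 0 := by exact_mod_cast hr.ne'
  have hv1 : v1 T c = some E.1.1 := by
    rw [← L.v_e1 c hc j, hE]; rfl
  obtain ⟨w₀, D, W, l, hW, hW0, hev⟩ := att1 S hR hc.1 E.1.2 hv1 (b₀ := ((S.r c : ℝ) : ℂ))
    (by rw [hrn]; linarith) (Or.inl hr0) j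
  have hp₀ : ((0 : ℂ), ((S.r c : ℝ) : ℂ)) ∈ BD (2 * S.r c) (2 * S.r c) :=
    ⟨by simp [hr], by show ‖((S.r c : ℝ) : ℂ)‖ < _; rw [hrn]; linarith⟩
  have hγc : Continuous fun t : ℂ => (t, ((S.r c : ℝ) : ℂ)) := by fun_prop
  have hγ : Tendsto (fun t : ℂ => (t, ((S.r c : ℝ) : ℂ))) (𝓝[≠] 0)
      (𝓝 ((0 : ℂ), ((S.r c : ℝ) : ℂ))) := (hγc.tendsto 0).mono_left nhdsWithin_le_nhds
  obtain ⟨κ, hκ0, hκ⟩ : ∃ κ > 0, ∀ t : ℂ, ‖(T.map c (t, ((S.r c : ℝ) : ℂ))).1‖ = κ * ‖t‖ := by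
    rcases c with ⟨i, k, k'⟩ | i | ⟨i, k, w₁⟩
    · refine ⟨S.r (.edge i k k'), hr, fun t => ?_⟩
      show ‖t * ((S.r (.edge i k k') : ℝ) : ℂ)‖ = _
      rw [norm_mul, hrn, mul_comm]
    · exact ⟨1, one_pos, fun t => by simp [TB.map]⟩
    · exact ⟨1, one_pos, fun t => by simp [TB.map]⟩
  obtain ⟨a₁, ha₁, hn1⟩ := L.near1 c hc j E hE (S.r c) hr
  have hcl : ∀ᶠ t in 𝓝[≠] (0 : ℂ), ∀ q, IsRet U E.1.1 (wc S c j (t, ((S.r c : ℝ) : ℂ))) q →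
      (q : ConnectedComponents _) = E.2 := by
    have h1 : ∀ᶠ t in 𝓝[≠] (0 : ℂ), ‖t‖ < a₁ := by
      have : ∀ᶠ t in 𝓝 (0 : ℂ), ‖t‖ < a₁ :=
        continuous_norm.continuousAt.eventually (gt_mem_nhds (by simpa using ha₁))
      exact this.filter_mono nhdsWithin_le_nhds
    filter_upwards [h1, self_mem_nhdsWithin] with t h2 h3
    exact (hn1 (t, ((S.r c : ℝ) : ℂ)) (norm_pos_iff.2 h3) h2 (by show ‖((S.r c : ℝ) : ℂ)‖ ≤ _; rw [hrn])
      (Or.inr (by show _ ≤ ‖((S.r c : ℝ) : ℂ)‖; rw [hrn]))).2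
  have hBD : ∀ᶠ t in 𝓝[≠] (0 : ℂ), (t, ((S.r c : ℝ) : ℂ)) ∈ BD (2 * S.r c) (2 * S.r c) :=
    hγ.eventually ((isOpen_BD _ _).mem_nhds hp₀)
  refine ord_ax (c := c) (j := j) (E := E) hγ (D := D) (W := W) (l := l) hW.continuousAt hW0
    (hev.mono fun p h => ⟨h.2.1, h.2.2.2⟩) hκ0 hκ hcl (m := a) (n := n)
    (g := fun t => ((S.r c : ℝ) : ℂ) ^ b * w (t, ((S.r c : ℝ) : ℂ))) ?_
    (g₀ := ((S.r c : ℝ) : ℂ) ^ b * w ((0 : ℂ), ((S.r c : ℝ) : ℂ)))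
    (mul_ne_zero (pow_ne_zero _ hr0) (hw0 _ hp₀)) ?_ hn
  · filter_upwards [hBD] with t ht
    rw [← fz_wc, he _ ht]
    ring
  · exact ((hw _ hp₀).continuousAt.tendsto.comp hγ).const_mul _

theorem ord_e2 (hE : L.e2 c j = some E) : b = n := by
  have hr := S.pos c
  have hrn : ‖((S.r c : ℝ) : ℂ)‖ = S.r c := by
    rw [Complex.norm_real, Real.norm_of_nonneg hr.le]
  have hr0 : ((S.r c : ℝ) : ℂ) ≠ 0 := by exact_mod_cast hr.ne'
  have hv2 : v2 T c = some E.1.1 := by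
    rw [← L.v_e2 c hc j, hE]; rfl
  obtain ⟨w₀, D, W, l, hW, hW0, hev⟩ := att2 S hR hc.1 E.1.2 hv2 (a₀ := ((S.r c : ℝ) : ℂ))
    (by rw [hrn]; linarith) hr0 j
  have hp₀ : (((S.r c : ℝ) : ℂ), (0 : ℂ)) ∈ BD (2 * S.r c) (2 * S.r c) :=
    ⟨by show ‖((S.r c : ℝ) : ℂ)‖ < _; rw [hrn]; linarith, by simp [hr]⟩
  have hγc : Continuous fun t : ℂ => (((S.r c : ℝ) : ℂ), t) := by fun_prop
  have hγ : Tendsto (fun t : ℂ => (((S.r c : ℝ) : ℂ), t)) (𝓝[≠] 0)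
      (𝓝 (((S.r c : ℝ) : ℂ), (0 : ℂ))) := (hγc.tendsto 0).mono_left nhdsWithin_le_nhds
  obtain ⟨κ, hκ0, hκ⟩ : ∃ κ > 0, ∀ t : ℂ, ‖(T.map c (((S.r c : ℝ) : ℂ), t)).1‖ = κ * ‖t‖ := by
    rcases c with ⟨i, k, k'⟩ | i | ⟨i, k, w₁⟩
    · refine ⟨S.r (.edge i k k'), hr, fun t => ?_⟩
      show ‖((S.r (.edge i k k') : ℝ) : ℂ) * t‖ = _
      rw [norm_mul, hrn]
    · simp [v2] at hv2
    · simp [v2] at hv2
  obtain ⟨a₁, ha₁, hn1⟩ := L.near2 c hc j E hE (S.r c) hr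
  have hcl : ∀ᶠ t in 𝓝[≠] (0 : ℂ), ∀ q, IsRet U E.1.1 (wc S c j (((S.r c : ℝ) : ℂ), t)) q →
      (q : ConnectedComponents _) = E.2 := by
    have h1 : ∀ᶠ t in 𝓝[≠] (0 : ℂ), ‖t‖ < a₁ := by
      have : ∀ᶠ t in 𝓝 (0 : ℂ), ‖t‖ < a₁ :=
        continuous_norm.continuousAt.eventually (gt_mem_nhds (by simpa using ha₁))
      exact this.filter_mono nhdsWithin_le_nhds
    filter_upwards [h1, self_mem_nhdsWithin] with t h2 h3
    exact (hn1 (((S.r c : ℝ) : ℂ), t) (norm_pos_iff.2 h3) h2 (by show ‖((S.r c : ℝ) : ℂ)‖ ≤ _; rw [hrn])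
      (by show _ ≤ ‖((S.r c : ℝ) : ℂ)‖; rw [hrn])).2
  have hBD : ∀ᶠ t in 𝓝[≠] (0 : ℂ), (((S.r c : ℝ) : ℂ), t) ∈ BD (2 * S.r c) (2 * S.r c) :=
    hγ.eventually ((isOpen_BD _ _).mem_nhds hp₀)
  refine ord_ax (c := c) (j := j) (E := E) hγ (D := D) (W := W) (l := l) hW.continuousAt hW0
    (hev.mono fun p h => ⟨h.2.1, h.2.2.2⟩) hκ0 hκ hcl (m := b) (n := n)
    (g := fun t => ((S.r c : ℝ) : ℂ) ^ a * w (((S.r c : ℝ) : ℂ), t)) ?_
    (g₀ := ((S.r c : ℝ) : ℂ) ^ a * w (((S.r c : ℝ) : ℂ), (0 : ℂ)))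
    (mul_ne_zero (pow_ne_zero _ hr0) (hw0 _ hp₀)) ?_ hn
  · filter_upwards [hBD] with t ht
    rw [← fz_wc, he _ ht]
    ring
  · exact ((hw _ hp₀).continuousAt.tendsto.comp hγ).const_mul _

end

/-- **C-JAC** -/
theorem jac (hf : Iso f) (hR : RetStmt U) (S : Sh T) (L : Lab U S) :
    ∃ (nu : II U → ℤ) (n1 n2 : Ch T.m → Fin T.d → ℤ), Jac L nu n1 n2 := by
  choose od hod using exists_ord hR S
  have h0 : ∀ (c : Ch T.m) (j : Fin T.d), ∃ (a b : ℕ) (w : ℂ × ℂ → ℂ), T.Valid c →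
      AnalyticOnNhd ℂ w (BD (2 * S.r c) (2 * S.r c)) ∧
      (∀ p ∈ BD (2 * S.r c) (2 * S.r c), w p ≠ 0) ∧
      (∀ p ∈ BD (2 * S.r c) (2 * S.r c), coordDeriv f 0 (T.th c (S.ζ c j) p) =
        p.1 ^ a * p.2 ^ b * w p) ∧
      (∀ i k w₀, c = .vert i k w₀ → b = 0) ∧ (∀ i, c = .leg i → b ≤ T.M - 1) ∧
      (∀ i k', c = .edge i 0 k' → a ≤ T.N - 1) := by
    intro c j
    by_cases hc : T.Valid c
    · obtain ⟨a, b, w, h1, h2, h3, -, h4, h5, h6⟩ := T.frame_chart hf hc (S.sheets c hc) j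
      exact ⟨a, b, w, fun _ => ⟨h1, h2, h3, h4, h5, h6⟩⟩
    · exact ⟨0, 0, 0, fun h => absurd h hc⟩
  choose a b w h using h0
  have hN := T.N_pos
  have hM := T.M_pos
  refine ⟨fun E => (od E : ℤ) - (T.N - 1 + T.M * E.1.1.1 : ℕ) - 1,
    fun c j => (a c j : ℤ) - (T.jx c).1 - 1, fun c j => (b c j : ℤ) - (T.jx c).2 - 1,
    ⟨?_, ?_, ?_, ?_, ?_, ?_⟩⟩
  · intro c hc j E hE
    obtain ⟨h1, h2, h3, -⟩ := h c j hc.1
    have e1 : a c j = od E := ord_e1 hR L hc h1 h2 h3 (hod E) hE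
    have hv : v1 T c = some E.1.1 := by rw [← L.v_e1 c hc j, hE]; rfl
    have e2 : (T.jx c).1 = T.N - 1 + T.M * E.1.1.1 := by
      cases c with
      | edge i k k' =>
        simp only [v1] at hv
        split_ifs at hv
        have hv' := Option.some.inj hv
        rw [← hv']; rfl
      | leg i => have hv' := Option.some.inj hv; rw [← hv']; rfl
      | vert i k w => have hv' := Option.some.inj hv; rw [← hv']; rfl
    show (a c j : ℤ) - (T.jx c).1 - 1 = _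
    rw [e1, e2]
  · intro c hc j E hE
    obtain ⟨h1, h2, h3, -⟩ := h c j hc.1
    have e1 : b c j = od E := ord_e2 hR L hc h1 h2 h3 (hod E) hE
    have hv : v2 T c = some E.1.1 := by rw [← L.v_e2 c hc j, hE]; rfl
    have e2 : (T.jx c).2 = T.N - 1 + T.M * E.1.1.1 := by
      cases c with
      | edge i k k' => have hv' := Option.some.inj hv; rw [← hv']; rfl
      | leg i => simp [v2] at hv
      | vert i k w => simp [v2] at hv
    show (b c j : ℤ) - (T.jx c).2 - 1 = _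
    rw [e1, e2]
  · intro c hc j hE
    obtain ⟨-, -, -, -, -, h6⟩ := h c j hc.1
    have hv : v1 T c = none := by rw [← L.v_e1 c hc j, hE]; rfl
    show (a c j : ℤ) - (T.jx c).1 - 1 ≤ -1
    cases c with
    | edge i k k' =>
      simp only [v1] at hv
      split_ifs at hv with hk
      subst hk
      have h7 := h6 i k' rfl
      simp only [TB.jx, mul_zero, add_zero]
      omega
    | leg i => simp [v1] at hv
    | vert i k w => simp [v1] at hv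
  · intro c hc j hE
    obtain ⟨-, -, -, h4, h5, -⟩ := h c j hc.1
    have hv : v2 T c = none := by rw [← L.v_e2 c hc j, hE]; rfl
    show (b c j : ℤ) - (T.jx c).2 - 1 ≤ -1
    cases c with
    | edge i k k' => simp [v2] at hv
    | leg i =>
      have h7 := h5 i rfl
      simp only [TB.jx]
      omega
    | vert i k w =>
      have h7 := h4 i k w rfl
      simp only [TB.jx]
      omega
  · intro c hc hV j
    obtain ⟨-, -, -, h4, -, -⟩ := h c j hc.1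
    show (b c j : ℤ) - (T.jx c).2 - 1 = -1
    cases c with
    | edge i k k' => exact absurd hV id
    | leg i => exact absurd hV id
    | vert i k w =>
      have h7 := h4 i k w rfl
      simp only [TB.jx]
      omega
  · intro c hc j
    obtain ⟨h1, h2, h3, h4, -, -⟩ := h c j hc.1
    exact bd_of S hc.1 j h1 h2 h3 h4 rfl rfl

/-- every component is the label of a vertex chart -/
theorem exists_vert (hR : RetStmt U) (L : Lab U S) (E : II U) : ∃ (i : Fin T.m) (k : ℕ) (w₀ : ℂ)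
    (j : Fin T.d), Ok S (.vert i k w₀) ∧ L.e1 (.vert i k w₀) j = some E := by
  obtain ⟨⟨⟨v, hv⟩, q⟩, rfl⟩ := ka_surj U E
  set w₀ := pV U v q with hw₀
  have hsp : w₀ ∉ sp T v := q.2.2.1
  obtain ⟨D⟩ : Nonempty (LD U v w₀) := exists_LD hR hv hsp
  obtain ⟨l, hl⟩ := D.surj q D.w0_mem
  rw [← hw₀] at hl
  set c : Ch T.m := .vert (S.ci v) v.1 w₀ with hc
  have hval : T.Valid c := ⟨lev_ci S hv, by rw [Sp_ci S hv]; exact hsp⟩
  have hok : Ok S c := ⟨hval, v, hv, rfl, rfl, hsp⟩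
  obtain ⟨hDS, hDmap⟩ := ld_sheets S D
  have hv1 : v1 T c = some v := by
    show some (vx T (S.ci v) v.1) = some v
    rw [vx_ci S hv]
  have hE : ∀ j, ∃ E : II U, L.e1 c j = some E ∧ E.1 = ⟨v, hv⟩ := by
    intro j
    have h1 := L.v_e1 c hok j
    rw [hv1] at h1
    obtain ⟨E, hE, hE'⟩ := Option.map_eq_some_iff.1 h1
    exact ⟨E, hE, Subtype.ext hE'⟩
  choose EE hEE hEv using hE
  have hnear : ∀ j, ∀ᶠ t in 𝓝[≠] (0 : ℂ), ∀ q, IsRet U (EE j).1.1 (wc S c j (t, 0)) q →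
      (q : ConnectedComponents _) = (EE j).2 := by
    intro j
    obtain ⟨a₁, ha₁, hn1⟩ := L.near1 c hok j _ (hEE j) 1 one_pos
    have h1 : ∀ᶠ t in 𝓝[≠] (0 : ℂ), ‖t‖ < a₁ := by
      have : ∀ᶠ t in 𝓝 (0 : ℂ), ‖t‖ < a₁ :=
        continuous_norm.continuousAt.eventually (gt_mem_nhds (by simpa using ha₁))
      exact this.filter_mono nhdsWithin_le_nhds
    filter_upwards [h1, self_mem_nhdsWithin] with t h2 h3
    exact (hn1 (t, 0) (norm_pos_iff.2 h3) h2 (by simpa using (S.pos c).le) (Or.inl trivial)).2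
  have hall : ∀ᶠ t in 𝓝[≠] (0 : ℂ), ∀ j, ∀ q, IsRet U (EE j).1.1 (wc S c j (t, 0)) q →
      (q : ConnectedComponents _) = (EE j).2 := eventually_all.2 hnear
  have hpos : 0 < U.ρ v w₀ := U.pos v hv _ hsp
  have hsmall : ∀ {r : ℝ}, 0 < r → ∀ᶠ t in 𝓝[≠] (0 : ℂ), ‖t‖ < r := fun {r} hr => by
    have : ∀ᶠ t in 𝓝 (0 : ℂ), ‖t‖ < r :=
      continuous_norm.continuousAt.eventually (gt_mem_nhds (by simpa using hr))
    exact this.filter_mono nhdsWithin_le_nhds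
  have hr' : 0 < min D.R D.r := lt_min D.R_pos D.r_pos
  have h2r : 0 < 2 * S.r c := by have := S.pos c; linarith
  obtain ⟨t, h1, h2, h3, h4, h5⟩ := (hall.and ((hsmall hpos).and ((hsmall hr').and
    ((hsmall h2r).and self_mem_nhdsWithin)))).exists
  have ht : t ≠ 0 := h5
  have hmem : ((t, (0 : ℂ)) : ℂ × ℂ) ∈ BD (min D.R D.r) (min D.R D.r) :=
    ⟨h3, by simpa using hr'⟩
  have hmem2 : ((t, (0 : ℂ)) : ℂ × ℂ) ∈ BD (2 * S.r c) (2 * S.r c) := ⟨h4, by simpa using h2r⟩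
  have hmap : T.map c (t, 0) = (t, yv T v (t, w₀)) := by
    have := hDmap _ hmem
    simpa using this
  have hroot : (T.Q (T.map c (t, 0))).eval (D.Z l (t, w₀)) = 0 := by
    rw [hmap]
    exact D.root l (q := (t, w₀)) ⟨by simpa using h3.trans_le (min_le_left _ _), D.w0_mem⟩
  rw [(S.sheets c hval).split _ hmem2, eval_prod, Finset.prod_eq_zero_iff] at hroot
  obtain ⟨j, -, hj⟩ := hroot
  simp only [eval_sub, eval_X, eval_C, sub_eq_zero] at hj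
  have hret : IsRet U v (wc S c j (t, 0)) q := by
    have h6 := D.ret l w₀ D.w0_mem t ht h2
    rw [hl] at h6
    have h7 : wc S c j (t, 0) = pt (D.Z l (t, w₀)) (t, yv T v (t, w₀)) := by
      rw [wc, ← hj, hmap]
    rw [h7]
    exact h6
  refine ⟨S.ci v, v.1, w₀, j, hok, ?_⟩
  have h8 := h1 j
  have h9 := hEv j
  have h10 := hEE j
  generalize EE j = E at h8 h9 h10
  obtain ⟨E1, E2⟩ := E
  simp only at h9
  subst h9
  have h11 : (q : ConnectedComponents (XV U v)) = E2 := h8 q hret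
  rw [h10, ← h11]
  rfl

/-- **C-ROT** -/
theorem rot' (hC : Clo T) (hR : RetStmt U) (L : Lab U S) {nu : II U → ℤ}
    {n1 n2 : Ch T.m → Fin T.d → ℤ} (hJ : Jac L nu n1 n2) : RotStmt L nu := by
  have hG := galPt hC
  refine rot_of_nu hG hR L fun ξ hξ E => ?_
  obtain ⟨i, k, w₀, j, hok, hE⟩ := exists_vert hR L E
  set c : Ch T.m := .vert i k w₀ with hc
  obtain ⟨τ, hτ⟩ := exists_tau hG hξ S hok.1
  have hok' : Ok S (rc T ξ c) := ok_rc S hG hξ hok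
  have hE' : L.e1 (rc T ξ c) (τ j) = some (pi hG hR hξ E) := by
    rw [lab1 hG hR hξ L hok (hτ j), hE]; rfl
  obtain ⟨K, hK, hb⟩ := hJ.bd c hok j
  obtain ⟨K', hK', hb'⟩ := hJ.bd _ hok' (τ j)
  rw [hJ.some1 c hok j E hE, hJ.vert c hok trivial j] at hb
  rw [hJ.some1 _ hok' _ _ hE', hJ.vert _ hok' ((isV_rc ξ c).2 trivial) (τ j)] at hb'
  have hr := S.pos c
  have hr' := S.pos (rc T ξ c)
  have hsmall : ∀ {r : ℝ}, 0 < r → ∀ᶠ t in 𝓝[≠] (0 : ℂ), ‖t‖ < r := fun {r} hr => by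
    have : ∀ᶠ t in 𝓝 (0 : ℂ), ‖t‖ < r :=
      continuous_norm.continuousAt.eventually (gt_mem_nhds (by simpa using hr))
    exact this.filter_mono nhdsWithin_le_nhds
  have h1 : ∀ᶠ t in 𝓝[≠] (0 : ℂ), K⁻¹ * ‖t‖ ^ (-nu E - 1) ≤ dn S c j (t, 0) ∧
      dn S c j (t, 0) ≤ K * ‖t‖ ^ (-nu E - 1) := by
    filter_upwards [hsmall hr, self_mem_nhdsWithin] with t h2 h3
    obtain ⟨-, h4, h5⟩ := hb (t, 0) h2.le (by simpa using hr.le) h3
    simp only [neg_neg, sub_self, zpow_zero, mul_one] at h4 h5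
    refine ⟨?_, h4⟩
    rw [inv_mul_le_iff₀ hK]
    exact h5
  have h2 : ∀ᶠ t in 𝓝[≠] (0 : ℂ), K'⁻¹ * ‖t‖ ^ (-nu (pi hG hR hξ E) - 1) ≤ dn S c j (t, 0) ∧
      dn S c j (t, 0) ≤ K' * ‖t‖ ^ (-nu (pi hG hR hξ E) - 1) := by
    filter_upwards [hsmall hr, hsmall hr', self_mem_nhdsWithin] with t e1 e2 e3
    obtain ⟨r1, r2⟩ := rp_norm hξ c (t, (0 : ℂ))
    obtain ⟨-, h4, h5⟩ := hb' (rp T ξ c (t, 0)) (by rw [r1]; exact e2.le)
      (by rw [r2]; simpa using hr'.le) ((gen_rot hξ c _).2 e3)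
    have hm : (t, (0 : ℂ)) ∈ BD (2 * S.r c) (2 * S.r c) :=
      ⟨by show ‖t‖ < _; linarith, by simpa using hr⟩
    have hm' : (t, (0 : ℂ)) ∈ BD (2 * S.r (rc T ξ c)) (2 * S.r (rc T ξ c)) :=
      ⟨by show ‖t‖ < _; linarith, by simpa using hr'⟩
    have h6 := dn_rot hG hξ S hok.1 hm hm' (hτ j (t, 0)
      (by
        show ‖t‖ < 2 * min (S.r c) (S.r (rc T ξ c))
        have := lt_min e1 e2
        have := lt_min hr hr'
        linarith)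
      (by
        show ‖(0 : ℂ)‖ < 2 * min (S.r c) (S.r (rc T ξ c))
        have := lt_min hr hr'
        rw [norm_zero]; linarith))
    rw [h6, r1, r2] at h4 h5
    simp only [neg_neg, sub_self, zpow_zero, mul_one] at h4 h5
    refine ⟨?_, h4⟩
    rw [inv_mul_le_iff₀ hK']
    exact h5
  have h3 := exp_unique (inv_pos.2 hK') (inv_pos.2 hK) h2 h1
  linarith

/-- **C-ROT**, in the announced form -/
theorem rot (_hf : Iso f) (hC : Clo T) (U : Tub T) (hR : RetStmt U) (S : Sh T) (L : Lab U S)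
    (nu : II U → ℤ) (n1 n2 : Ch T.m → Fin T.d → ℤ) (hJ : Jac L nu n1 n2) : RotStmt L nu :=
  rot' hC hR L hJ

end Crest.Agent.R257.Vt8_558
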