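import Crest.Agent.R257.OrdK5_82
import Crest.Agent.R257.Sep_547
import Crest.Agent.R257.Lab5_931
import Crest.Agent.R257.Vt8_558

/-!
# Row 257 (S0395), part C, task (K1) KILL-BP (helper82), file 1

* `exists_rotC`  : 558's rotations as `RotC`;
* `exists_test`  : test charts: a vertex chart of a component, away from a finite set of charts;
* `ord_ge`       : comparison of orders;
* `vanish_near`  : data supported near a finite set of origins vanish near the rotated test charts;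
* `HT.lo_all`    : all the orders from the Hörmander step.
-/

set_option autoImplicit false
set_option linter.unusedSectionVars false

noncomputable section

open Set Filter Topology MeasureTheory
open scoped ENNReal

namespace Crest.Agent.R257.KB_82

open Crest.AlgGeometry.Germ
open Crest.Agent.R257.T387 Crest.Agent.R257.BP_258 Crest.Agent.R257.OrdK_82
open Crest.Agent.R257.HoT_843 Crest.Agent.R257.AJ387
open Crest.Agent.R257.Rot1_558 Crest.Agent.R257.Vt1_558 Crest.Agent.R257.Vt3_558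
open Crest.Agent.R257.Vt4_558
open Polynomial (nthRootsFinset)

variable {f : (Fin 3 → ℂ) → ℂ} {T : TB f}

/-- the rotations of the charts -/
theorem exists_rotC (hG : GalPt T) {ξ : ℂ} (hξ : ξ ^ T.N = 1) (S : Sh T) {c : Ch T.m}
    (hc : T.Valid c) : ∃ τ : Equiv.Perm (Fin T.d), ∀ j,
      RotC S ξ c j (rc T ξ c) (τ j) (rm T ξ c).1 (rm T ξ c).2 := by
  obtain ⟨τ, hτ⟩ := exists_tau hG hξ S hc
  obtain ⟨h1, h2⟩ := rm_norm hξ c
  exact ⟨τ, fun j => ⟨isV_rc ξ c, h1, h2, hτ j⟩⟩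

variable {U : Tub T} {S : Sh T}

/-- **test charts** -/
theorem exists_test (hR : RetStmt U) (L : Lab U S) (E : II U)
    (B : Finset (Ch T.m)) : ∃ c j, Ok S c ∧ IsV c ∧ L.e1 c j = some E ∧
      ∀ ξ : ℂ, ξ ^ T.N = 1 → rc T ξ c ∉ B := by
  classical
  set i := S.ci E.1.1 with hi
  set k := E.1.1.1 with hk
  -- the bad values
  set wof : Ch T.m → ℂ := fun c => match c with
    | .vert _ _ w => w
    | _ => 0 with hwof
  set bad : Finset ℂ := sp T E.1.1 ∪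
    ((nthRootsFinset T.N (1 : ℂ)) ×ˢ B).image (fun x => x.1 ^ (T.M * k) * wof x.2) with hbad
  obtain ⟨w, hw⟩ := bad.exists_notMem
  have hw1 : w ∉ sp T E.1.1 := fun h => hw (Finset.mem_union_left _ h)
  obtain ⟨j, hj⟩ := Lab_931.surj1 hR L E hw1
  refine ⟨.vert i k w, j, Lab_931.ok_vert S E.1.2 hw1, trivial, hj, fun ξ hξ hB => hw ?_⟩
  refine Finset.mem_union_right _ (Finset.mem_image.2 ⟨(ξ, rc T ξ (.vert i k w)), ?_, ?_⟩)
  · exact Finset.mem_product.2 ⟨(Polynomial.mem_nthRootsFinset T.N_pos (1 : ℂ)).2 hξ, hB⟩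
  · show ξ ^ (T.M * k) * ((ξ ^ (T.M * k))⁻¹ * w) = w
    have hξ0 : ξ ≠ 0 := by
      rintro rfl
      rw [zero_pow T.N_pos.ne'] at hξ
      exact zero_ne_one hξ
    rw [mul_inv_cancel_left₀ (pow_ne_zero _ hξ0)]

/-- comparison of orders -/
theorem ord_ge {z : ℂ} {n m : ℕ} {G H : ℂ × ℂ → ℂ} (hG : AnalyticAt ℂ G (0, z))
    (hH : AnalyticAt ℂ H (0, z))
    (hev : ∀ᶠ p in 𝓝 ((0 : ℂ), z), p.1 ^ m * G p = p.1 ^ n * H p)
    (hne : ∃ᶠ x in 𝓝 z, G (0, x) ≠ 0) : n ≤ m := by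
  by_contra hlt
  push Not at hlt
  have h1 : ∀ᶠ x in 𝓝 z, AnalyticAt ℂ G (0, x) ∧ AnalyticAt ℂ H (0, x) ∧
      ∀ᶠ p in 𝓝 ((0 : ℂ), x), p.1 ^ m * G p = p.1 ^ n * H p := by
    have hc : Tendsto (fun x : ℂ => ((0 : ℂ), x)) (𝓝 z) (𝓝 ((0 : ℂ), z)) :=
      (Continuous.prodMk continuous_const continuous_id).tendsto _
    filter_upwards [hc.eventually hG.eventually_analyticAt, hc.eventually hH.eventually_analyticAt,
      hc.eventually hev.eventually_nhds] with x a1 a2 a3 using ⟨a1, a2, a3⟩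
  obtain ⟨x, hx, hx1, hx2, hx3⟩ := (hne.and_eventually h1).exists
  apply hx
  -- along `(t, x)`
  have hc : Tendsto (fun t : ℂ => (t, x)) (𝓝[≠] (0 : ℂ)) (𝓝 ((0 : ℂ), x)) := by
    have : Continuous (fun t : ℂ => (t, x)) := by fun_prop
    exact (this.tendsto' _ _ rfl).mono_left nhdsWithin_le_nhds
  have e1 : Tendsto (fun t : ℂ => G (t, x)) (𝓝[≠] (0 : ℂ)) (𝓝 (G (0, x))) :=
    hx1.continuousAt.tendsto.comp hc
  have e2 : Tendsto (fun t : ℂ => t ^ (n - m) * H (t, x)) (𝓝[≠] (0 : ℂ)) (𝓝 0) := by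
    have h2 : Tendsto (fun t : ℂ => t ^ (n - m)) (𝓝[≠] (0 : ℂ)) (𝓝 0) := by
      have : Continuous (fun t : ℂ => t ^ (n - m)) := by fun_prop
      exact (this.tendsto' 0 0 (zero_pow (by omega))).mono_left nhdsWithin_le_nhds
    have h3 : Tendsto (fun t : ℂ => H (t, x)) (𝓝[≠] (0 : ℂ)) (𝓝 (H (0, x))) :=
      hx2.continuousAt.tendsto.comp hc
    simpa using h2.mul h3
  refine tendsto_nhds_unique e1 (e2.congr' ?_)
  filter_upwards [hc.eventually hx3, self_mem_nhdsWithin] with t ht ht0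
  have ht0' : (t : ℂ) ≠ 0 := ht0
  have h4 : t ^ n = t ^ m * t ^ (n - m) := by rw [← pow_add, Nat.add_sub_cancel' hlt.le]
  have h5 : t ^ m * G (t, x) = t ^ n * H (t, x) := ht
  rw [h4, mul_assoc] at h5
  exact (mul_left_cancel₀ (pow_ne_zero _ ht0') h5).symm

/-- the data vanish near the rotated test chart -/
theorem vanish_near (hG : GalPt T) {c : Ch T.m} (hc : Ok S c) (j : Fin T.d)
    {B : Finset (Ch T.m)} (hB : ∀ c' ∈ B, Ok S c')
    (hcB : ∀ ξ : ℂ, ξ ^ T.N = 1 → rc T ξ c ∉ B) :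
    ∃ r₀ > 0, ∀ {D : (Fin 3 → ℂ) → ℂ},
      (∀ x, D x ≠ 0 → ∃ c' ∈ B, ∃ j', ∃ p ∈ BD r₀ r₀, T.Gen c' p ∧ x = wc S c' j' p) →
      ∀ ξ : ℂ, ξ ^ T.N = 1 → ∀ᶠ p in 𝓝 ((0 : ℂ), (0 : ℂ)), T.Gen c p →
        D (rot ξ (wc S c j p)) = 0 := by
  classical
  have h1 : ∀ x : ℂ × Ch T.m, ∃ r > 0, x.1 ^ T.N = 1 → x.2 ∈ B → ∀ p ∈ BD r r, ∀ p' ∈ BD r r,
      T.Gen (rc T x.1 c) p → T.Gen x.2 p' → T.map (rc T x.1 c) p ≠ T.map x.2 p' := by
    rintro ⟨ξ, c'⟩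
    by_cases h : ξ ^ T.N = 1 ∧ c' ∈ B
    · obtain ⟨r, hr, h2⟩ := Sep_547.sep (ok_rc S hG h.1 hc) (hB c' h.2)
        (fun he => hcB ξ h.1 (by rw [he]; exact h.2))
      exact ⟨r, hr, fun _ _ => h2⟩
    · exact ⟨1, one_pos, fun a b => absurd ⟨a, b⟩ h⟩
  choose r hr hr' using h1
  set I : Finset (ℂ × Ch T.m) := (nthRootsFinset T.N (1 : ℂ)) ×ˢ B with hI
  obtain ⟨r₀, hr₀, hle⟩ : ∃ r₀ > 0, ∀ x ∈ I, r₀ ≤ r x := by
    by_cases hne : I.Nonempty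
    · obtain ⟨x, hx, hx'⟩ := I.exists_min_image r hne
      exact ⟨r x, hr x, hx'⟩
    · exact ⟨1, one_pos, fun x hx => absurd ⟨x, hx⟩ hne⟩
  refine ⟨r₀, hr₀, fun {D} hD ξ hξ => ?_⟩
  obtain ⟨τ, hτ⟩ := exists_rotC hG hξ S hc.1
  have hrr := S.pos c
  have hrr' := S.pos (rc T ξ c)
  have hev := (hτ j).ev (p₀ := ((0 : ℂ), (0 : ℂ))) (by simpa using lt_min hrr hrr')
    (by simpa using lt_min hrr hrr') (P := fun x _ => D x = 0) (by
      simp only [mul_zero]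
      have e1 : ∀ᶠ p : ℂ × ℂ in 𝓝 ((0 : ℂ), (0 : ℂ)), p ∈ BD r₀ r₀ :=
        (isOpen_BD _ _).mem_nhds ⟨by simpa using hr₀, by simpa using hr₀⟩
      filter_upwards [e1] with p hp hg
      by_contra hne
      obtain ⟨c', hc', j', p', hp', hg', he⟩ := hD _ hne
      have hx : ((ξ, c') : ℂ × Ch T.m) ∈ I :=
        Finset.mem_product.2 ⟨(Polynomial.mem_nthRootsFinset T.N_pos (1 : ℂ)).2 hξ, hc'⟩
      have hl := hle _ hx
      refine hr' (ξ, c') hξ hc' p ⟨hp.1.trans_le hl, hp.2.trans_le hl⟩ p'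
        ⟨hp'.1.trans_le hl, hp'.2.trans_le hl⟩ hg hg' ?_
      refine Prod.ext ?_ ?_
      · exact congrFun he 1
      · exact congrFun he 2)
  exact hev

/-- **all the orders** -/
theorem lo_all [Fintype (II U)] (hG : GalPt T) (hR : RetStmt U) (L : Lab U S) {nu : II U → ℤ}
    {n1 n2 : Ch T.m → Fin T.d → ℤ} (J : Jac L nu n1 n2) {y : II U → ℝ}
    (hy : ∀ (ξ : ℂ) (hξ : ξ ^ T.N = 1) (E : II U), y (pi hG hR hξ E) = y E)
    {g V D : (Fin 3 → ℂ) → ℂ} {Φ : (Fin 3 → ℂ) → ℝ} {ρ₁ : ℝ} (h : HT S g V D Φ ρ₁)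
    {c : Ch T.m} {j : Fin T.d} {E : II U} (hc : Ok S c) (hV : IsV c) (hE : L.e1 c j = some E)
    (hoff : ∀ p ∈ Ogs S c ρ₁, ∀ i, (T.map c p).2 ≠ T.φ i ((T.map c p).1 ^ T.M))
    (hD : ∀ ξ : ℂ, ξ ^ T.N = 1 → ∀ᶠ p in 𝓝 ((0 : ℂ), (0 : ℂ)), T.Gen c p →
      D (rot ξ (wc S c j p)) = 0) {ρ₀ C : ℝ} (hρ : 0 < ρ₀)
    (hΦ : ∀ ξ : ℂ, ξ ^ T.N = 1 → ∀ j, ∀ p ∈ Og (S := S) (rc T ξ c) ρ₀,
      Φ (wc S (rc T ξ c) j p) ≤ yo y (L.e1 (rc T ξ c) j) * Real.log (‖p.1‖ ^ 2) +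
        yo y (L.e2 (rc T ξ c) j) * Real.log (‖p.2‖ ^ 2) + C)
    {v : II U → ℕ} {G : ℂ × ℂ → ℂ} (hGa : AnalyticAt ℂ G (0, 0))
    (hGe : ∀ᶠ p in 𝓝 ((0 : ℂ), (0 : ℂ)), g (T.th c (S.ζ c j) p) =
      p.1 ^ yn v (L.e1 c j) * p.2 ^ yn v (L.e2 c j) * G p)
    (hGn : ∃ᶠ z in 𝓝 (0 : ℂ), G (0, z) ≠ 0) : y E + nu E < v E := by
  have h2 : L.e2 c j = none := by
    have := L.v_e2 c hc j
    have hv2 : v2 T c = none := by
      cases c with
      | edge i k k' => exact absurd hV id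
      | leg i => rfl
      | vert i k w => rfl
    rw [hv2] at this
    simpa using this
  have hm0 : T.map c (0, 0) = 0 := by
    rw [T.map_eq_zero hc.1]
    cases c with
    | edge i k k' => exact absurd hV id
    | leg i => rfl
    | vert i k w₀ => rfl
  obtain ⟨n, H, a1, a2, a3⟩ := h.lo J hc j hoff (z := 0) (Or.inr hV) (by simpa using S.pos c) hm0 hD
    (Y₁ := y E) (Y₂ := 0) (C := C) hρ (fun _ => rfl) (fun ξ hξ => by
      obtain ⟨τ, hτ⟩ := exists_rotC hG hξ S hc.1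
      obtain ⟨τ', hτ'⟩ := exists_tau hG hξ S hc.1
      refine ⟨rc T ξ c, τ' j, (rm T ξ c).1, (rm T ξ c).2, (ok_rc S hG hξ hc).1,
        by simpa using S.pos _, ⟨isV_rc ξ c, (rm_norm hξ c).1, (rm_norm hξ c).2, hτ' j⟩, ?_⟩
      intro p hp
      have e1 := lab1 hG hR hξ L hc (hτ' j)
      have e2 := lab2 hG hR hξ L hc (hτ' j)
      have e3 := hΦ ξ hξ (τ' j) p hp
      rw [e1, e2, hE, h2] at e3
      simpa [yo, hy ξ hξ E] using e3)
  rw [J.some1 c hc j E hE] at a1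
  refine a1.trans_le ?_
  have : n ≤ v E := by
    refine ord_ge (z := 0) hGa a2 ?_ hGn
    filter_upwards [hGe, a3] with p q1 q2
    rw [← q2, q1, hE, h2]
    simp [yn]
  exact_mod_cast this

end Crest.Agent.R257.KB_82
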