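import Crest.Agent.R257.KiD_121
import Crest.Agent.R257.KB1_82
import Crest.Agent.R257.LwD_89
import Crest.Agent.R257.LWD_547

/-!
Row 257 (S0395), part C, **(K2)**: kill orbits (helper121).

* `kOrb` : `KOrbStmt U`;
* `kSum` : `KSumStmt U`.
-/

set_option autoImplicit false
set_option linter.unusedSectionVars false

open Polynomial Set Filter Topology Metric
open Crest.AlgGeometry.Germ Crest.Agent.R257.AJ387 Crest.Agent.R257.T387
open Crest.Agent.R257.Gr1_157 Crest.Agent.R257.BP_258 Crest.Agent.R257.Rot1_558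
open Crest.Agent.R257.Vt1_558 Crest.Agent.R257.Vt3_558 Crest.Agent.R257.Vt4_558
open Crest.Agent.R257.OrdK_82 Crest.Agent.R257.KiD_121

noncomputable section

namespace Crest.Agent.R257.K2_121

variable {f : (Fin 3 → ℂ) → ℂ} {T : TB f} {U : Tub T} {S : Sh T}

variable (S) in
/-- the chart `(c, j)`, rotated by `ξ`, is the chart `(c', j')` near the origin -/
def Near (ξ : ℂ) (c : Ch T.m) (j : Fin T.d) (c' : Ch T.m) (j' : Fin T.d) : Prop :=
  ∃ a b : ℂ, ‖a‖ = 1 ∧ ‖b‖ = 1 ∧ ∃ r > 0, ∀ p ∈ BD r r,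
    rot ξ (wc S c j p) = wc S c' j' (a * p.1, b * p.2)

theorem near_one (c : Ch T.m) (j : Fin T.d) : Near S 1 c j c j :=
  ⟨1, 1, norm_one, norm_one, 1, one_pos, fun p _ => by rw [rot_one, one_mul, one_mul]⟩

theorem near_trans {ξ η : ℂ} {c c' c'' : Ch T.m} {j j' j'' : Fin T.d} (h : Near S ξ c j c' j')
    (h' : Near S η c' j' c'' j'') : Near S (η * ξ) c j c'' j'' := by
  obtain ⟨a, b, ha, hb, r, hr, e⟩ := h
  obtain ⟨a', b', ha', hb', r', hr', e'⟩ := h'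
  refine ⟨a' * a, b' * b, by rw [norm_mul, ha, ha', one_mul], by rw [norm_mul, hb, hb', one_mul],
    min r r', lt_min hr hr', fun p hp => ?_⟩
  have h1 : p ∈ BD r r := TB.BD_mono (min_le_left _ _) hp
  have h2 : (a * p.1, b * p.2) ∈ BD r' r' := by
    have h3 : p ∈ BD r' r' := TB.BD_mono (min_le_right _ _) hp
    refine ⟨?_, ?_⟩
    · show ‖a * p.1‖ < r'
      rw [norm_mul, ha, one_mul]; exact h3.1
    · show ‖b * p.2‖ < r'
      rw [norm_mul, hb, one_mul]; exact h3.2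
  rw [← rot_mul, e p h1, e' _ h2]
  simp only [mul_assoc]

theorem near_rotC {ξ : ℂ} {c c' : Ch T.m} {j j' : Fin T.d} {a b : ℂ}
    (h : RotC S ξ c j c' j' a b) : Near S ξ c j c' j' :=
  ⟨a, b, h.na, h.nb, 2 * min (S.r c) (S.r c'), by
    have := lt_min (S.pos c) (S.pos c'); linarith, fun p hp => h.eq p hp.1 hp.2⟩

/-- the sheets of one chart, identified by a symmetry -/
theorem near_sym {c : Ch T.m} (hc : Ok S c) {j j' : Fin T.d} {p p' : ℂ × ℂ}
    (hp : p ∈ BD (2 * S.r c) (2 * S.r c)) (hg : T.Gen c p) (h : wc S c j p = wc S c j' p') :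
    Near S 1 c j c j' := by
  obtain ⟨a, b, ha, hb, -, -, -, hw⟩ := LwD_89.exists_sym hc.1 hp hg h
  exact ⟨a, b, ha, hb, 2 * S.r c, by have := S.pos c; linarith, fun q hq => by
    rw [rot_one]; exact hw q hq⟩

theorem gen_small (c : Ch T.m) {r : ℝ} (hr : 0 < r) : ∃ p ∈ BD r r, T.Gen c p :=
  ⟨(((r / 2 : ℝ) : ℂ), ((r / 2 : ℝ) : ℂ)),
    ⟨real_mem (by linarith) (by linarith), real_mem (by linarith) (by linarith)⟩,
    gen_real c (by linarith) (by linarith)⟩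

theorem gen_mul {c : Ch T.m} {p : ℂ × ℂ} (h : T.Gen c p) {a b : ℂ} (ha : ‖a‖ = 1)
    (hb : ‖b‖ = 1) : T.Gen c (a * p.1, b * p.2) := by
  have ha0 : a ≠ 0 := norm_ne_zero_iff.1 (by rw [ha]; exact one_ne_zero)
  have hb0 : b ≠ 0 := norm_ne_zero_iff.1 (by rw [hb]; exact one_ne_zero)
  cases c with
  | edge i k k' => exact ⟨mul_ne_zero ha0 h.1, mul_ne_zero hb0 h.2⟩
  | leg i => exact ⟨mul_ne_zero ha0 h.1, mul_ne_zero hb0 h.2⟩
  | vert i k w => exact mul_ne_zero ha0 h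

theorem gen_rc (ξ : ℂ) {c : Ch T.m} {p : ℂ × ℂ} : T.Gen (rc T ξ c) p ↔ T.Gen c p := by
  cases c <;> rfl

theorem mem_mul {r : ℝ} {p : ℂ × ℂ} (h : p ∈ BD r r) {a b : ℂ} (ha : ‖a‖ = 1)
    (hb : ‖b‖ = 1) : (a * p.1, b * p.2) ∈ BD r r := by
  refine ⟨?_, ?_⟩
  · show ‖a * p.1‖ < r
    rw [norm_mul, ha, one_mul]; exact h.1
  · show ‖b * p.2‖ < r
    rw [norm_mul, hb, one_mul]; exact h.2

/-- labels of a rotated sheet -/
theorem near_lab (hG : GalPt T) (hR : RetStmt U) (L : Lab U S) {ξ : ℂ} (hξ : ξ ^ T.N = 1)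
    {c : Ch T.m} (hc : Ok S c) {j j' : Fin T.d} (h : Near S ξ c j (rc T ξ c) j') :
    L.e1 (rc T ξ c) j' = (L.e1 c j).map (pi hG hR hξ) ∧
      L.e2 (rc T ξ c) j' = (L.e2 c j).map (pi hG hR hξ) := by
  obtain ⟨τ, hτ⟩ := exists_tau hG hξ S hc.1
  have hc' : Ok S (rc T ξ c) := ok_rc S hG hξ hc
  obtain ⟨a, b, ha, hb, r, hr, e⟩ := h
  obtain ⟨na, nb⟩ := rm_norm hξ c
  set c' := rc T ξ c with hc'd
  set m := min (S.r c) (S.r c') with hm
  have hm0 : 0 < m := lt_min (S.pos _) (S.pos _)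
  set r' := min r m with hr'
  have hr0 : 0 < r' := lt_min hr hm0
  obtain ⟨p, hp, hg⟩ := gen_small c hr0
  have hp1 : p ∈ BD r r := TB.BD_mono (min_le_left _ _) hp
  have hpm : p ∈ BD m m := TB.BD_mono (min_le_right _ _) hp
  have hp2 : p ∈ BD (2 * S.r c') (2 * S.r c') := by
    refine TB.BD_mono ?_ hpm
    have := S.pos c'
    have := min_le_right (S.r c) (S.r c')
    linarith
  have k1 := hτ j p (by have := hpm.1; linarith) (by have := hpm.2; linarith)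
  have k2 := e p hp1
  rw [k1] at k2
  have hg' : T.Gen c' p := gen_rc ξ |>.2 hg
  have key := LWD_547.labWD hR L c' hc' (τ j) j' (rp T ξ c p) (a * p.1, b * p.2)
    (mem_mul hp2 na nb) (mem_mul hp2 ha hb) (gen_mul hg' na nb) (gen_mul hg' ha hb) k2
  rw [← key.1, ← key.2]
  exact ⟨lab1 hG hR hξ L hc (hτ j), lab2 hG hR hξ L hc (hτ j)⟩

open Classical in
variable (S) in
/-- the orbit -/
def orb (c₀ : Ch T.m) (j₀ : Fin T.d) : Finset (Ch T.m × Fin T.d) :=
  (((nthRootsFinset T.N (1 : ℂ)).image fun ξ => rc T ξ c₀) ×ˢ Finset.univ).filter fun x =>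
    ∃ ξ : ℂ, ξ ^ T.N = 1 ∧ x.1 = rc T ξ c₀ ∧ Near S ξ c₀ j₀ x.1 x.2

theorem mem_orb {c₀ : Ch T.m} {j₀ : Fin T.d} {x : Ch T.m × Fin T.d} :
    x ∈ orb S c₀ j₀ ↔ ∃ ξ : ℂ, ξ ^ T.N = 1 ∧ x.1 = rc T ξ c₀ ∧ Near S ξ c₀ j₀ x.1 x.2 := by
  classical
  unfold orb
  rw [Finset.mem_filter]
  refine ⟨fun h => h.2, fun h => ⟨?_, h⟩⟩
  obtain ⟨ξ, hξ, h1, -⟩ := h
  refine Finset.mem_product.2 ⟨Finset.mem_image.2 ⟨ξ, ?_, h1.symm⟩, Finset.mem_univ _⟩
  exact (Polynomial.mem_nthRootsFinset T.N_pos (1 : ℂ)).2 hξ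

theorem orb_card (c₀ : Ch T.m) (j₀ : Fin T.d) : (orb S c₀ j₀).card ≤ T.N * T.d := by
  classical
  unfold orb
  refine (Finset.card_filter_le _ _).trans ?_
  rw [Finset.card_product, Finset.card_univ, Fintype.card_fin]
  refine Nat.mul_le_mul_right _ (Finset.card_image_le.trans ?_)
  unfold nthRootsFinset
  refine (Multiset.toFinset_card_le _).trans ?_
  exact Polynomial.card_nthRoots _ _

theorem dv_one {ξ : ℂ} (hξ : ξ ^ T.N = 1) {c : Ch T.m} (hc : T.Valid c) :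
    (rm T ξ c).1 ^ Dv T = 1 ∧ (rm T ξ c).2 ^ Dv T = 1 := by
  obtain ⟨n, -, ⟨k, hk⟩, h1, h2⟩ := unity hξ hc
  have : Dv T = n * k := hk
  rw [this, pow_mul, pow_mul, h1, h2, one_pow]
  exact ⟨rfl, rfl⟩

/-- separation, for a finite set of charts -/
theorem sep_fin (B : Finset (Ch T.m)) (hB : ∀ c ∈ B, Ok S c) : ∃ r > 0, ∀ c ∈ B, ∀ c' ∈ B,
    c ≠ c' → ∀ p ∈ BD r r, ∀ p' ∈ BD r r, T.Gen c p → T.Gen c' p' → T.map c p ≠ T.map c' p' := by
  have key : ∀ᶠ r in 𝓝[>] (0 : ℝ), ∀ c ∈ B, ∀ c' ∈ B,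
      c ≠ c' → ∀ p ∈ BD r r, ∀ p' ∈ BD r r, T.Gen c p → T.Gen c' p' →
        T.map c p ≠ T.map c' p' := by
    rw [Finset.eventually_all]
    intro c hc
    rw [Finset.eventually_all]
    intro c' hc'
    by_cases hne : c = c'
    · exact Eventually.of_forall fun r h => absurd hne h
    obtain ⟨r, hr, h⟩ := Sep_547.sep (hB c hc) (hB c' hc') hne
    filter_upwards [Ioo_mem_nhdsGT hr] with r' hr' _ p hp p' hp'
    exact h p (TB.BD_mono hr'.2.le hp) p' (TB.BD_mono hr'.2.le hp')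
  obtain ⟨r, h1, h2⟩ := (key.and self_mem_nhdsWithin).exists
  exact ⟨r, h2, h1⟩

/-- **(K2), first half** -/
theorem kOrb (U : Tub T) : KOrbStmt U := by
  classical
  intro hG hR S L c₀ hc₀ j₀
  have hok : ∀ x ∈ orb S c₀ j₀, Ok S x.1 := by
    intro x hx
    obtain ⟨ξ, hξ, h1, -⟩ := mem_orb.1 hx
    rw [h1]
    exact ok_rc S hG hξ hc₀
  refine ⟨orb S c₀ j₀, ⟨?_, orb_card c₀ j₀, hok, ?_, ?_, ?_⟩⟩
  · exact mem_orb.2 ⟨1, one_root, (rc_one hG c₀).symm, near_one c₀ j₀⟩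
  · -- separation
    obtain ⟨r, hr, h⟩ := sep_fin (S := S) ((orb S c₀ j₀).image Prod.fst) (by
      intro c hc
      obtain ⟨x, hx, rfl⟩ := Finset.mem_image.1 hc
      exact hok x hx)
    have hB : ∃ r' > 0, ∀ x ∈ orb S c₀ j₀, r' ≤ 2 * S.r x.1 := by
      have : ∀ᶠ r' in 𝓝[>] (0 : ℝ), ∀ x ∈ orb S c₀ j₀, r' ≤ 2 * S.r x.1 := by
        rw [Finset.eventually_all]
        intro x hx
        have := S.pos x.1
        filter_upwards [Ioo_mem_nhdsGT (show (0 : ℝ) < 2 * S.r x.1 by linarith)] with r' hr'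
        exact hr'.2.le
      obtain ⟨r', h1, h2⟩ := (this.and self_mem_nhdsWithin).exists
      exact ⟨r', h2, h1⟩
    obtain ⟨r', hr', h'⟩ := hB
    refine ⟨min r r', lt_min hr hr', fun x hx c hc j p p' hp hp' hg hg' he => ?_⟩
    have hcB : c ∈ (orb S c₀ j₀).image Prod.fst := by
      rcases hc with rfl | ⟨j₁, hj₁⟩
      · exact Finset.mem_image_of_mem _ hx
      · exact Finset.mem_image.2 ⟨_, hj₁, rfl⟩
    have hcx : c = x.1 := by
      by_contra hne
      have hmap : T.map x.1 p = T.map c p' := by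
        have h0 := congrFun he 1
        have h1 := congrFun he 2
        exact Prod.ext h0 h1
      exact h x.1 (Finset.mem_image_of_mem _ hx) c hcB (Ne.symm hne) p
        (TB.BD_mono (min_le_left _ _) hp) p' (TB.BD_mono (min_le_left _ _) hp') hg hg' hmap
    subst hcx
    refine ⟨rfl, ?_⟩
    obtain ⟨ξ, hξ, h1, h2⟩ := mem_orb.1 hx
    have h3 := near_sym (hok x hx) (TB.BD_mono ((min_le_right _ _).trans (h' x hx)) hp) hg he
    have h4 := near_trans h2 h3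
    rw [one_mul] at h4
    exact mem_orb.2 ⟨ξ, hξ, h1, h4⟩
  · -- labels
    intro x hx
    obtain ⟨ξ, hξ, h1, h2⟩ := mem_orb.1 hx
    obtain ⟨c, j⟩ := x
    simp only at h1 h2
    subst h1
    exact ⟨ξ, hξ, rfl, near_lab hG hR L hξ hc₀ h2⟩
  · -- rotations
    intro x hx ξ hξ
    obtain ⟨η, hη, h1, h2⟩ := mem_orb.1 hx
    obtain ⟨τ, hτ⟩ := KB_82.exists_rotC hG hξ S (hok x hx).1
    refine ⟨τ x.2, (rm T ξ x.1).1, (rm T ξ x.1).2, ?_, hτ x.2, dv_one hξ (hok x hx).1⟩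
    refine mem_orb.2 ⟨ξ * η, mul_root hξ hη, ?_, near_trans h2 (near_rotC (hτ x.2))⟩
    show rc T ξ x.1 = _
    rw [h1, rc_mul hG hξ hη]

theorem kc_nonneg (c : Ch T.m) : 0 ≤ kc (T := T) c := by
  cases c with
  | edge i k k' => exact div_nonneg zero_le_one (by positivity)
  | leg i => exact div_nonneg zero_le_one (by positivity)
  | vert i k w => exact zero_le_one

theorem kc_le (c : Ch T.m) : kc (T := T) c ≤ 1 := by
  have h1 : (1 : ℝ) ≤ T.M := by exact_mod_cast T.M_pos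
  cases c with
  | edge i k k' =>
    show 1 / ((T.M : ℝ) * (k' - k : ℕ)) ≤ 1
    rcases Nat.eq_zero_or_pos (k' - k) with h | h
    · rw [h]; simp
    · have h2 : (1 : ℝ) ≤ (k' - k : ℕ) := by exact_mod_cast h
      rw [div_le_one (by positivity)]
      nlinarith
  | leg i =>
    show 1 / (T.M : ℝ) ≤ 1
    rw [div_le_one (by positivity)]
    exact h1
  | vert i k w => exact le_rfl

theorem exo_nonneg (hG : GalPt T) (hR : RetStmt U) (e : Option (II U)) (E : II U) :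
    0 ≤ exo hG hR e E := by
  unfold exo
  split_ifs
  · exact zero_le_one
  · exact le_rfl

/-- **(K2), second half** -/
theorem kSum (U : Tub T) : KSumStmt U := by
  classical
  intro hG hR S L c₀ j₀ κ hκ F t a b ht ha hb E
  set Z : ℝ := t * (a * exo hG hR (L.e1 c₀ j₀) E + b * exo hG hR (L.e2 c₀ j₀) E) with hZ
  have hx1 := exo_nonneg hG hR (L.e1 c₀ j₀) E
  have hx2 := exo_nonneg hG hR (L.e2 c₀ j₀) E
  have hZ0 : 0 ≤ Z := mul_nonneg ht (add_nonneg (mul_nonneg ha hx1) (mul_nonneg hb hx2))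
  have h1 : ∀ c j, (if (c, j) ∈ κ then kc (T := T) c * t *
      (a * (if L.e1 c j = some E then 1 else 0) + b * (if L.e2 c j = some E then 1 else 0)) else 0) ≤
      (if (c, j) ∈ κ then Z else 0) := by
    intro c j
    by_cases hm : (c, j) ∈ κ
    · rw [if_pos hm, if_pos hm]
      obtain ⟨ξ, hξ, -, l1, l2⟩ := hκ.lab _ hm
      simp only at l1 l2
      have k0 := kc_nonneg (T := T) c
      have k1 := kc_le (T := T) c
      have m1 : (if L.e1 c j = some E then (1 : ℝ) else 0) ≤ exo hG hR (L.e1 c₀ j₀) E := by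
        by_cases hh : L.e1 c j = some E
        · have : exo hG hR (L.e1 c₀ j₀) E = 1 := if_pos ⟨ξ, hξ, by rw [← l1]; exact hh⟩
          rw [if_pos hh, this]
        · rw [if_neg hh]; exact hx1
      have m2 : (if L.e2 c j = some E then (1 : ℝ) else 0) ≤ exo hG hR (L.e2 c₀ j₀) E := by
        by_cases hh : L.e2 c j = some E
        · have : exo hG hR (L.e2 c₀ j₀) E = 1 := if_pos ⟨ξ, hξ, by rw [← l2]; exact hh⟩
          rw [if_pos hh, this]
        · rw [if_neg hh]; exact hx2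
      have m3 : a * (if L.e1 c j = some E then (1 : ℝ) else 0) +
          b * (if L.e2 c j = some E then 1 else 0) ≤
          a * exo hG hR (L.e1 c₀ j₀) E + b * exo hG hR (L.e2 c₀ j₀) E :=
        add_le_add (mul_le_mul_of_nonneg_left m1 ha) (mul_le_mul_of_nonneg_left m2 hb)
      have m4 : 0 ≤ a * exo hG hR (L.e1 c₀ j₀) E + b * exo hG hR (L.e2 c₀ j₀) E :=
        add_nonneg (mul_nonneg ha hx1) (mul_nonneg hb hx2)
      calc kc (T := T) c * t * (a * (if L.e1 c j = some E then (1 : ℝ) else 0) +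
          b * (if L.e2 c j = some E then 1 else 0))
          ≤ kc (T := T) c * t * (a * exo hG hR (L.e1 c₀ j₀) E + b * exo hG hR (L.e2 c₀ j₀) E) :=
            mul_le_mul_of_nonneg_left m3 (mul_nonneg k0 ht)
        _ ≤ 1 * t * (a * exo hG hR (L.e1 c₀ j₀) E + b * exo hG hR (L.e2 c₀ j₀) E) :=
            mul_le_mul_of_nonneg_right (mul_le_mul_of_nonneg_right k1 ht) m4
        _ = Z := by rw [hZ, one_mul]
    · rw [if_neg hm, if_neg hm]
  calc _ ≤ ∑ c ∈ F, ∑ j, (if (c, j) ∈ κ then Z else 0) :=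
        Finset.sum_le_sum fun c _ => Finset.sum_le_sum fun j _ => h1 c j
    _ = ∑ x ∈ F ×ˢ (Finset.univ : Finset (Fin T.d)), (if x ∈ κ then Z else 0) := by
        rw [Finset.sum_product]
    _ = (((F ×ˢ (Finset.univ : Finset (Fin T.d))).filter (· ∈ κ)).card : ℝ) * Z := by
        rw [← Finset.sum_filter, Finset.sum_const, nsmul_eq_mul]
    _ ≤ ((T.N * T.d : ℕ) : ℝ) * Z := by
        refine mul_le_mul_of_nonneg_right ?_ hZ0
        have : ((F ×ˢ (Finset.univ : Finset (Fin T.d))).filter (· ∈ κ)).card ≤ κ.card :=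
          Finset.card_le_card fun x hx => (Finset.mem_filter.1 hx).2
        exact_mod_cast this.trans hκ.card
    _ = _ := by rw [hZ]; ring

end Crest.Agent.R257.K2_121
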