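import Crest.Agent.R257.FrBP11_808
import Crest.Agent.R257.K2_121

/-!
R257 / K3_121: `KAll`; row 257 from `WTAll` and `NTAll`.
-/

set_option autoImplicit false
set_option linter.unusedSectionVars false

noncomputable section

namespace Crest.Agent.R257.FrBP_808

/-- **kill orbits** -/
theorem kAll : KAll := fun _ _ _ _ => ⟨K2_121.kOrb _, K2_121.kSum _⟩

/-- **Row 257 from the weights and the null orbits** -/
theorem top_of_wn (hW : WTAll) (hNT : NTAll) : CLog_68.CLogStmt := top_of' hW kAll hNT

end Crest.Agent.R257.FrBP_808
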