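import Crest.Agent.R257.Rot1_558
import Crest.Agent.R257.BPDefs_258

/-!
Row 257 (S0395), part C: vertices of `BPDefs_258` and the rotation `s ↦ ξ s` (helper558, tasks C-ROT,
C-JAC).

* `iterDeriv_scale`, `iterDeriv_pow_mul`, `iterDeriv_poly`, `co_sub` : Taylor coefficients;
* `rv ξ v`   : the rotated vertex; `rv_mem`, `vx_sg`, `mem_sp_rv`, `yv_rv`, `wv_rv`;
* `tr_ci`, `co_ci`, `Sp_ci` : the canonical centre of a vertex;
* `ci_rv`, `kp_rv`, `ok_rc` : canonical charts are permuted.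
-/

set_option autoImplicit false
set_option linter.unusedSectionVars false

open Polynomial Set Filter Topology Metric
open Crest.AlgGeometry.Germ Crest.Agent.R257.AJ387 Crest.Agent.R257.T387
open Crest.Agent.R257.Rot1_558 Crest.Agent.R257.BP_258

noncomputable section

namespace Crest.Agent.R257.Vt1_558

/-! ### Taylor coefficients -/

lemma iterDeriv_scale (c : ℂ) (n : ℕ) : ∀ {g h : ℂ → ℂ}, AnalyticAt ℂ g 0 →
    (∀ᶠ s in 𝓝 (0 : ℂ), h s = g (c * s)) → iteratedDeriv n h 0 = c ^ n * iteratedDeriv n g 0 := by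
  induction n with
  | zero =>
    intro g h _ e
    simp only [iteratedDeriv_zero, pow_zero, one_mul]
    have := e.self_of_nhds
    rwa [mul_zero] at this
  | succ n ih =>
    intro g h hg e
    rw [iteratedDeriv_succ', iteratedDeriv_succ']
    have hc : Tendsto (fun s : ℂ => c * s) (𝓝 0) (𝓝 0) := by
      have : ContinuousAt (fun s : ℂ => c * s) 0 := by fun_prop
      simpa [ContinuousAt] using this
    have h1 : ∀ᶠ s in 𝓝 (0 : ℂ), deriv h s = c * deriv g (c * s) := by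
      filter_upwards [e.eventually_nhds, hc.eventually hg.eventually_analyticAt] with s hs hgs
      have h2 : h =ᶠ[𝓝 s] fun s => g (c * s) := hs
      rw [h2.deriv_eq]
      have h3 : HasDerivAt g (deriv g (c * s)) (c * s) := hgs.differentiableAt.hasDerivAt
      have h4 : HasDerivAt (fun s : ℂ => c * s) (c * 1) s := (hasDerivAt_id s).const_mul c
      have h5 := h3.comp s h4
      have h6 : (g ∘ fun s => c * s) = fun s => g (c * s) := rfl
      rw [h6] at h5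
      rw [h5.deriv]; ring
    have h2 := ih (g := fun s => c * deriv g s) (h := deriv h) (analyticAt_const.mul hg.deriv) h1
    rw [h2, iteratedDeriv_const_mul_field]
    ring

lemma iterDeriv_pow_mul (n : ℕ) : ∀ {d : ℕ} {u h : ℂ → ℂ}, AnalyticAt ℂ u 0 → n ≤ d →
    (∀ᶠ s in 𝓝 (0 : ℂ), h s = s ^ d * u s) →
    iteratedDeriv n h 0 = if n = d then (d.factorial : ℂ) * u 0 else 0 := by
  induction n with
  | zero =>
    intro d u h hu _ e
    have h1 := e.self_of_nhds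
    rw [iteratedDeriv_zero, h1]
    by_cases hd : 0 = d
    · subst hd; simp
    · rw [if_neg hd, zero_pow (Ne.symm hd), zero_mul]
  | succ n ih =>
    intro d u h hu hn e
    obtain ⟨d, rfl⟩ : ∃ d', d = d' + 1 := ⟨d - 1, by omega⟩
    rw [iteratedDeriv_succ']
    have h1 : ∀ᶠ s in 𝓝 (0 : ℂ), deriv h s = s ^ d * (((d + 1 : ℕ) : ℂ) * u s + s * deriv u s) := by
      filter_upwards [e.eventually_nhds, hu.eventually_analyticAt] with s hs hus
      have h2 : h =ᶠ[𝓝 s] fun s => s ^ (d + 1) * u s := hs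
      rw [h2.deriv_eq]
      have h3 : HasDerivAt u (deriv u s) s := hus.differentiableAt.hasDerivAt
      have h4 := (hasDerivAt_pow (d + 1) s).mul h3
      have h6 : (fun s => s ^ (d + 1) * u s) = ((fun s : ℂ => s ^ (d + 1)) * u) := rfl
      rw [h6, h4.deriv]
      simp only [Nat.add_sub_cancel]
      ring
    have h2 := ih (d := d) (u := fun s => ((d + 1 : ℕ) : ℂ) * u s + s * deriv u s) (h := deriv h)
      ((analyticAt_const.mul hu).add (analyticAt_id.mul hu.deriv)) (by omega) h1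
    rw [h2]
    by_cases hnd : n = d
    · subst hnd
      simp only [if_true, zero_mul, add_zero, Nat.factorial_succ]
      push_cast; ring
    · rw [if_neg hnd, if_neg (by omega)]

lemma iterDeriv_poly_fun (n : ℕ) : ∀ p : ℂ[X],
    iteratedDeriv n (fun s => p.eval s) = fun s => (derivative^[n] p).eval s := by
  induction n with
  | zero => intro p; simp
  | succ n ih =>
    intro p
    rw [iteratedDeriv_succ']
    have h1 : deriv (fun s => p.eval s) = fun s => (derivative p).eval s := by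
      funext s; exact p.deriv
    rw [h1, ih, Function.iterate_succ_apply]

lemma iterDeriv_poly (n : ℕ) (p : ℂ[X]) :
    iteratedDeriv n (fun s => p.eval s) 0 = (n.factorial : ℂ) * p.coeff n := by
  rw [iterDeriv_poly_fun]
  show (derivative^[n] p).eval 0 = _
  rw [← coeff_zero_eq_eval_zero, coeff_iterate_derivative, zero_add, Nat.descFactorial_self,
    nsmul_eq_mul]

variable {f : (Fin 3 → ℂ) → ℂ} {T : TB f}

lemma phi_an0 (i : Fin T.m) : AnalyticAt ℂ (T.φ i) 0 := T.φ_an i 0 (mem_ball_self T.ρ_pos)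

lemma ball_ev : ∀ᶠ s in 𝓝 (0 : ℂ), s ∈ ball (0 : ℂ) T.ρ := ball_mem_nhds _ T.ρ_pos

lemma fac_ne (n : ℕ) : (n.factorial : ℂ) ≠ 0 := by exact_mod_cast (Nat.factorial_pos n).ne'

/-- the coefficients of two branches -/
lemma co_sub {i j : Fin T.m} (hij : i ≠ j) {n : ℕ} (hn : n ≤ T.del i j) :
    co T i n - co T j n = if n = T.del i j then T.u i j 0 else 0 := by
  have hu : AnalyticAt ℂ (T.u i j) 0 := T.u_an i j hij 0 (mem_ball_self T.ρ_pos)
  have h1 := iterDeriv_pow_mul n (d := T.del i j) (u := T.u i j) (h := T.φ i - T.φ j) hu hn (by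
    filter_upwards [ball_ev (T := T)] with s hs
    exact T.φ_sub i j hij s hs)
  rw [iteratedDeriv_sub (phi_an0 i).contDiffAt (phi_an0 j).contDiffAt] at h1
  unfold co
  rw [← sub_div, h1]
  by_cases h : n = T.del i j
  · subst h
    rw [if_pos rfl, if_pos rfl, mul_comm, mul_div_assoc, div_self (fac_ne _), mul_one]
  · rw [if_neg h, if_neg h, zero_div]

lemma idx_eq {i j : Fin T.m} (h : ∀ s ∈ ball (0 : ℂ) T.ρ, T.φ i s = T.φ j s) : i = j := by
  obtain ⟨s, hs, h0⟩ := exists_punct T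
  exact phi_inj T hs h0 (h s hs)

/-- the Galois property from `Clo` -/
lemma galPt (hC : Clo T) : GalPt T := by
  intro ζ hζ s hs i
  have hn : ‖ζ‖ = 1 := Complex.norm_eq_one_of_pow_eq_one hζ T.N₀_pos.ne'
  have h0 : ζ ≠ 0 := fun h => by simp [h] at hn
  obtain ⟨j, hj⟩ := hC.gal ζ⁻¹ (by rw [inv_pow, hζ, inv_one]) i
  refine ⟨j, ?_⟩
  have h1 := hj (ζ * s) (mul_mem T hn hs)
  rw [inv_mul_cancel_left₀ h0] at h1; exact h1.symm

/-! ### truncations -/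

lemma mem_Vs {v : Vtx} : v ∈ Vs T ↔ ∃ i, ∃ k ∈ T.lev i, vx T i k = v := by
  classical
  simp [Vs]

lemma vx_mem {i : Fin T.m} {k : ℕ} (hk : k ∈ T.lev i) : vx T i k ∈ Vs T := mem_Vs.2 ⟨i, k, hk, rfl⟩

lemma tr_coeff (i : Fin T.m) (k n : ℕ) : (tr T i k).coeff n = if n < k then co T i n else 0 := by
  unfold tr
  simp only [finsetSum_coeff, coeff_C_mul, coeff_X_pow, mul_ite, mul_one, mul_zero]
  rw [Finset.sum_ite_eq]
  simp [Finset.mem_range]

lemma mem_sp {v : Vtx} {w : ℂ} : w ∈ sp T v ↔ ∃ j, tr T j v.1 = v.2 ∧ co T j v.1 = w := by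
  classical
  simp [sp]

lemma tr_eq_iff {i j : Fin T.m} {k : ℕ} : tr T i k = tr T j k ↔ ∀ n < k, co T i n = co T j n := by
  constructor
  · intro h n hn
    have := congrArg (fun p => p.coeff n) h
    simpa [tr_coeff, hn] using this
  · intro h
    ext n
    rw [tr_coeff, tr_coeff]
    split_ifs with hn
    · exact h n hn
    · rfl

lemma tr_eq_iff_del {i j : Fin T.m} (hij : i ≠ j) {k : ℕ} : tr T i k = tr T j k ↔ k ≤ T.del i j := by
  rw [tr_eq_iff]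
  constructor
  · intro h
    by_contra hlt
    push Not at hlt
    have h1 := co_sub hij (le_refl (T.del i j))
    rw [h _ hlt, sub_self, if_pos rfl] at h1
    exact T.u_ne i j hij 0 (mem_ball_self T.ρ_pos) h1.symm
  · intro h n hn
    have h1 := co_sub hij (show n ≤ T.del i j by omega)
    rw [if_neg (by omega)] at h1
    exact sub_eq_zero.1 h1

/-! ### rotation -/

variable (T) in
/-- the rotation of vertices -/
def rv (ξ : ℂ) (v : Vtx) : Vtx := (v.1, v.2.comp (C (ξ ^ T.M)⁻¹ * X))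

@[simp] lemma rv_fst (ξ : ℂ) (v : Vtx) : (rv T ξ v).1 = v.1 := rfl

lemma rv_eval (ξ : ℂ) (v : Vtx) (t : ℂ) : (rv T ξ v).2.eval t = v.2.eval ((ξ ^ T.M)⁻¹ * t) := by
  simp [rv]

lemma co_sg (hG : GalPt T) {ξ : ℂ} (hξ : ξ ^ T.N = 1) (i : Fin T.m) (n : ℕ) :
    co T i n = (ξ ^ T.M) ^ n * co T (sg T ξ i) n := by
  have h1 := iterDeriv_scale (ξ ^ T.M) n (g := T.φ (sg T ξ i)) (h := T.φ i) (phi_an0 _) (by
    filter_upwards [ball_ev (T := T)] with s hs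
    exact (phi_sg hG hξ i hs).symm)
  unfold co
  rw [h1, mul_div_assoc]

lemma tr_sg (hG : GalPt T) {ξ : ℂ} (hξ : ξ ^ T.N = 1) (i : Fin T.m) (k : ℕ) :
    tr T (sg T ξ i) k = (tr T i k).comp (C (ξ ^ T.M)⁻¹ * X) := by
  have h0 : ξ ^ T.M ≠ 0 := pow_ne_zero _ (ne_zero T hξ)
  unfold tr
  rw [Polynomial.sum_comp]
  refine Finset.sum_congr rfl fun n _ => ?_
  rw [mul_comp, C_comp, pow_comp, X_comp, mul_pow, ← C_pow, ← mul_assoc, ← C_mul]
  congr 2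
  rw [co_sg hG hξ i n, mul_comm ((ξ ^ T.M) ^ n), mul_assoc, inv_pow, mul_inv_cancel₀ (pow_ne_zero _ h0),
    mul_one]

lemma vx_sg (hG : GalPt T) {ξ : ℂ} (hξ : ξ ^ T.N = 1) (i : Fin T.m) (k : ℕ) :
    vx T (sg T ξ i) k = rv T ξ (vx T i k) := Prod.ext rfl (tr_sg hG hξ i k)

lemma rv_rv (ξ η : ℂ) (v : Vtx) : rv T ξ (rv T η v) = rv T (ξ * η) v := by
  refine Prod.ext rfl ?_
  show (v.2.comp _).comp _ = v.2.comp _
  rw [comp_assoc]
  congr 1
  rw [mul_comp, C_comp, X_comp, ← mul_assoc, ← C_mul, mul_pow, mul_inv, mul_comm (ξ ^ T.M)⁻¹]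

lemma rv_one (v : Vtx) : rv T 1 v = v := by
  refine Prod.ext rfl ?_
  show v.2.comp _ = v.2
  simp

lemma rv_inv {ξ : ℂ} (hξ : ξ ^ T.N = 1) (v : Vtx) : rv T ξ⁻¹ (rv T ξ v) = v := by
  rw [rv_rv, inv_mul_cancel₀ (ne_zero T hξ), rv_one]

lemma rv_inv' {ξ : ℂ} (hξ : ξ ^ T.N = 1) (v : Vtx) : rv T ξ (rv T ξ⁻¹ v) = v := by
  rw [rv_rv, mul_inv_cancel₀ (ne_zero T hξ), rv_one]

lemma rv_mem (hG : GalPt T) {ξ : ℂ} (hξ : ξ ^ T.N = 1) {v : Vtx} (hv : v ∈ Vs T) :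
    rv T ξ v ∈ Vs T := by
  obtain ⟨i, k, hk, rfl⟩ := mem_Vs.1 hv
  exact mem_Vs.2 ⟨sg T ξ i, k, by rw [lev_sg hG hξ]; exact hk, vx_sg hG hξ i k⟩

lemma rv_injective {ξ : ℂ} (hξ : ξ ^ T.N = 1) : Function.Injective (rv T ξ) := fun v v' h => by
  rw [← rv_inv hξ v, h, rv_inv hξ]

lemma tr_sg_iff (hG : GalPt T) {ξ : ℂ} (hξ : ξ ^ T.N = 1) {j : Fin T.m} {v : Vtx} :
    tr T (sg T ξ j) v.1 = (rv T ξ v).2 ↔ tr T j v.1 = v.2 := by
  constructor
  · intro h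
    have h1 : rv T ξ (v.1, tr T j v.1) = rv T ξ v := by
      refine Prod.ext rfl ?_
      rw [← h, tr_sg hG hξ]
      rfl
    exact congrArg Prod.snd (rv_injective hξ h1)
  · intro h
    rw [tr_sg hG hξ, h]
    rfl

lemma mem_sp_rv (hG : GalPt T) {ξ : ℂ} (hξ : ξ ^ T.N = 1) {v : Vtx} {w : ℂ} :
    (ξ ^ (T.M * v.1))⁻¹ * w ∈ sp T (rv T ξ v) ↔ w ∈ sp T v := by
  have h0 : ξ ^ (T.M * v.1) ≠ 0 := pow_ne_zero _ (ne_zero T hξ)
  rw [mem_sp, mem_sp]
  constructor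
  · rintro ⟨j, h1, h2⟩
    obtain ⟨j, rfl⟩ := (sg T ξ).surjective j
    refine ⟨j, (tr_sg_iff hG hξ).1 h1, ?_⟩
    rw [co_sg hG hξ j v.1, ← pow_mul]
    rw [rv_fst] at h2
    rw [h2, mul_inv_cancel_left₀ h0]
  · rintro ⟨j, h1, h2⟩
    refine ⟨sg T ξ j, (tr_sg_iff hG hξ).2 h1, ?_⟩
    rw [rv_fst, ← h2, co_sg hG hξ j v.1, ← pow_mul, inv_mul_cancel_left₀ h0]

lemma yv_rv {ξ : ℂ} (hξ : ξ ^ T.N = 1) (v : Vtx) (s w : ℂ) :
    yv T (rv T ξ v) (ξ * s, (ξ ^ (T.M * v.1))⁻¹ * w) = yv T v (s, w) := by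
  have h0 : ξ ^ (T.M * v.1) ≠ 0 := pow_ne_zero _ (ne_zero T hξ)
  have h1 : ξ ^ T.M ≠ 0 := pow_ne_zero _ (ne_zero T hξ)
  simp only [yv, rv_eval, rv_fst, mul_pow]
  rw [inv_mul_cancel_left₀ h1]
  congr 1
  calc _ = (ξ ^ (T.M * v.1) * (ξ ^ (T.M * v.1))⁻¹) * (s ^ (T.M * v.1) * w) := by ring
    _ = _ := by rw [mul_inv_cancel₀ h0, one_mul]

lemma wv_yv (v : Vtx) {s : ℂ} (hs : s ≠ 0) (w : ℂ) : wv T v (s, yv T v (s, w)) = w := by
  simp only [wv, yv]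
  rw [add_sub_cancel_left, mul_div_cancel_left₀ _ (pow_ne_zero _ hs)]

lemma yv_wv (v : Vtx) {s : ℂ} (hs : s ≠ 0) (y : ℂ) : yv T v (s, wv T v (s, y)) = y := by
  simp only [wv, yv]
  rw [mul_div_cancel₀ _ (pow_ne_zero _ hs)]
  ring

lemma wv_rv {ξ : ℂ} (hξ : ξ ^ T.N = 1) (v : Vtx) {s : ℂ} (hs : s ≠ 0) (y : ℂ) :
    wv T (rv T ξ v) (ξ * s, y) = (ξ ^ (T.M * v.1))⁻¹ * wv T v (s, y) := by
  have h1 := yv_rv hξ v s (wv T v (s, y))
  rw [yv_wv v hs] at h1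
  have h2 := wv_yv (T := T) (rv T ξ v) (mul_ne_zero (ne_zero T hξ) hs)
    ((ξ ^ (T.M * v.1))⁻¹ * wv T v (s, y))
  rw [h1] at h2
  exact h2

/-! ### canonical centres -/

variable (S : Sh T)

lemma co_ci {v : Vtx} (hv : v ∈ Vs T) (n : ℕ) : co T (S.ci v) n = v.2.coeff n := by
  unfold co
  have h1 : T.φ (S.ci v) =ᶠ[𝓝 0] fun s => v.2.eval s := by
    filter_upwards [ball_ev (T := T)] with s hs
    exact S.ci_eq v hv s hs
  rw [h1.iteratedDeriv_eq n, iterDeriv_poly, mul_div_cancel_left₀ _ (fac_ne n)]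

lemma tr_ci {v : Vtx} (hv : v ∈ Vs T) : tr T (S.ci v) v.1 = v.2 := by
  ext n
  rw [tr_coeff, co_ci S hv]
  split_ifs with hn
  · rfl
  · obtain ⟨i, k, hk, rfl⟩ := mem_Vs.1 hv
    show 0 = (tr T i k).coeff n
    rw [tr_coeff, if_neg (show ¬ n < k from hn)]

lemma vx_ci {v : Vtx} (hv : v ∈ Vs T) : vx T (S.ci v) v.1 = v := Prod.ext rfl (tr_ci S hv)

lemma co_ci_lev {v : Vtx} (hv : v ∈ Vs T) : co T (S.ci v) v.1 = 0 := by
  rw [co_ci S hv]
  obtain ⟨i, k, hk, rfl⟩ := mem_Vs.1 hv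
  show (tr T i k).coeff k = 0
  rw [tr_coeff, if_neg (lt_irrefl k)]

/-- the special points of `TDefs_387` at the canonical centre -/
lemma Sp_ci {v : Vtx} (hv : v ∈ Vs T) {w : ℂ} : w ∈ T.Sp (S.ci v) v.1 ↔ w ∈ sp T v := by
  rw [Rot1_558.mem_Sp, mem_sp]
  constructor
  · rintro (h | ⟨j, ⟨hj, hk⟩, hw⟩)
    · exact ⟨S.ci v, tr_ci S hv, by rw [co_ci_lev S hv, h]⟩
    · have h1 := co_sub hj.symm (le_refl (T.del (S.ci v) j))
      rw [if_pos rfl, hk, co_ci_lev S hv, zero_sub] at h1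
      refine ⟨j, ?_, by rw [← hw, ← h1, neg_neg]⟩
      rw [← tr_ci S hv]
      exact ((tr_eq_iff_del hj.symm).2 hk.ge).symm
  · rintro ⟨j, h1, h2⟩
    by_cases hj : j = S.ci v
    · subst hj
      left; rw [← h2, co_ci_lev S hv]
    · have h3 : tr T (S.ci v) v.1 = tr T j v.1 := by rw [tr_ci S hv, h1]
      have h4 := (tr_eq_iff_del (Ne.symm hj)).1 h3
      have h5 := co_sub (Ne.symm hj) h4
      rw [co_ci_lev S hv, zero_sub, h2] at h5
      rcases h4.eq_or_lt with h6 | h6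
      · right
        rw [if_pos h6] at h5
        exact ⟨j, ⟨hj, h6.symm⟩, by rw [← h5, neg_neg]⟩
      · left
        rw [if_neg h6.ne] at h5
        exact neg_eq_zero.1 h5

lemma lev_ci {v : Vtx} (hv : v ∈ Vs T) : v.1 ∈ T.lev (S.ci v) := (S.kp_cons v hv).2.1

lemma ci_rv (hG : GalPt T) {ξ : ℂ} (hξ : ξ ^ T.N = 1) {v : Vtx} (hv : v ∈ Vs T) :
    S.ci (rv T ξ v) = sg T ξ (S.ci v) := by
  have hn : ‖ξ ^ T.M‖ = 1 := by rw [norm_pow, norm_one T hξ, one_pow]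
  have h0 : ξ ^ T.M ≠ 0 := pow_ne_zero _ (ne_zero T hξ)
  refine sg_unique hG hξ fun s hs => ?_
  rw [S.ci_eq _ (rv_mem hG hξ hv) _ (mul_mem T hn hs), rv_eval, inv_mul_cancel_left₀ h0,
    S.ci_eq v hv s hs]

lemma cons_unique {i : Fin T.m} {k₁ k₂ k' : ℕ} (h1 : T.Cons i k₁ k') (h2 : T.Cons i k₂ k') :
    k₁ = k₂ := by
  have key : ∀ {k₁ k₂ : ℕ}, T.Cons i k₁ k' → T.Cons i k₂ k' → k₁ ≤ k₂ := by
    intro k₁ k₂ h1 h2
    rcases h1.1 with h | h
    · omega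
    · rcases h2.2.2.2 k₁ h with h3 | h3
      · exact h3
      · have := h1.2.2.1; omega
  exact le_antisymm (key h1 h2) (key h2 h1)

lemma kp_rv (hG : GalPt T) {ξ : ℂ} (hξ : ξ ^ T.N = 1) {v : Vtx} (hv : v ∈ Vs T) :
    S.kp (rv T ξ v) = S.kp v := by
  have h1 := S.kp_cons _ (rv_mem hG hξ hv)
  rw [ci_rv S hG hξ hv, cons_sg hG hξ] at h1
  exact cons_unique h1 (S.kp_cons v hv)

lemma ec_rv (hG : GalPt T) {ξ : ℂ} (hξ : ξ ^ T.N = 1) {v : Vtx} (hv : v ∈ Vs T) :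
    ec S (rv T ξ v) = rc T ξ (ec S v) := by
  simp only [ec, rc, ci_rv S hG hξ hv, kp_rv S hG hξ hv, rv_fst]

lemma ok_rc (hG : GalPt T) {ξ : ℂ} (hξ : ξ ^ T.N = 1) {c : Ch T.m} (hc : Ok S c) :
    Ok S (rc T ξ c) := by
  refine ⟨(valid_rc hG hξ c).2 hc.1, ?_⟩
  have h2 := hc.2
  cases c with
  | edge i k k' =>
    obtain ⟨v, hv, h1, h3, h4⟩ := h2
    exact ⟨rv T ξ v, rv_mem hG hξ hv, by rw [ci_rv S hG hξ hv, h1], by rw [kp_rv S hG hξ hv, h3], h4⟩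
  | leg i => trivial
  | vert i k w =>
    obtain ⟨v, hv, h1, h3, h4⟩ := h2
    refine ⟨rv T ξ v, rv_mem hG hξ hv, by rw [ci_rv S hG hξ hv, h1], h3, ?_⟩
    rw [h3, mem_sp_rv hG hξ]
    exact h4

lemma isV_rc (ξ : ℂ) (c : Ch T.m) : IsV (rc T ξ c) ↔ IsV c := by
  cases c <;> exact Iff.rfl

lemma isE_rc (ξ : ℂ) (c : Ch T.m) : IsE (rc T ξ c) ↔ IsE c := by
  cases c <;> exact Iff.rfl

lemma v1_rc (hG : GalPt T) {ξ : ℂ} (hξ : ξ ^ T.N = 1) (c : Ch T.m) :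
    v1 T (rc T ξ c) = (v1 T c).map (rv T ξ) := by
  cases c with
  | edge i k k' =>
    simp only [v1, rc]
    split_ifs
    · rfl
    · rw [vx_sg hG hξ]; rfl
  | leg i => simp only [v1, rc, top_sg hG hξ, vx_sg hG hξ]; rfl
  | vert i k w => simp only [v1, rc, vx_sg hG hξ]; rfl

lemma v2_rc (hG : GalPt T) {ξ : ℂ} (hξ : ξ ^ T.N = 1) (c : Ch T.m) :
    v2 T (rc T ξ c) = (v2 T c).map (rv T ξ) := by
  cases c with
  | edge i k k' => simp only [v2, rc, vx_sg hG hξ]; rfl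
  | leg i => rfl
  | vert i k w => rfl

end Crest.Agent.R257.Vt1_558
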