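import Mathlib
import Crest.Agent.R257.WtD_258
import Crest.Agent.R257.BP0_554
import Crest.Agent.R257.Vt1_558
import Crest.Agent.R257.Lab5_931

/-!
Row 257 (S0395), task C-HV (helper174), file 1: canonical charts attached to a vertex.

* `att_unique` : at most one canonical edge/leg chart is attached at a special point of a vertex;
* `v2_eq`      : the only chart with `v2 = v` is `ec v`;
* `ok_vert'`   : canonical vertex charts.
-/

set_option autoImplicit false
set_option linter.unusedSectionVars false

open Polynomial Set Filter Topology Metric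
open Crest.AlgGeometry.Germ Crest.Agent.R257.AJ387 Crest.Agent.R257.T387
open Crest.Agent.R257.Gr1_157 Crest.Agent.R257.HoB_843 Crest.Agent.R257.BP_258
open Crest.Agent.R257.Wt_258

noncomputable section

namespace Crest.Agent.R257.Hv_174

variable {f : (Fin 3 → ℂ) → ℂ} {T : TB f} {S : Sh T}

lemma lx_pos {c : Ch T.m} (hc : T.Valid c) : 0 < lx T c := by
  cases c with
  | edge i k k' =>
    have h : k < k' := hc.2.2.1
    exact Nat.mul_pos T.M_pos (by omega)
  | leg i => exact T.M_pos
  | vert i k w => exact Nat.one_pos

lemma kc_eq (c : Ch T.m) : kc c = 1 / (lx T c : ℝ) := by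
  cases c with
  | edge i k k' => simp [kc, lx]
  | leg i => simp [kc, lx]
  | vert i k w => simp [kc, lx]

lemma del_comm {i j : Fin T.m} (hij : i ≠ j) : T.del j i = T.del i j :=
  BP0_554.del_eq hij.symm (fun n hn => (BP0_554.co_lt_del hij n hn).symm)
    (BP0_554.co_del_ne hij).symm

/-- same vertex, same special point: the contact is larger than the level -/
lemma lt_del {i j : Fin T.m} (hij : i ≠ j) {k : ℕ} (h1 : tr T i k = tr T j k)
    (h2 : co T i k = co T j k) : k < T.del i j := by
  rcases (BP0_554.le_del hij h1).lt_or_eq with h | h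
  · exact h
  · exact absurd (h ▸ h2) (BP0_554.co_del_ne hij)

lemma del_le_top {i j : Fin T.m} (hij : i ≠ j) : T.del i j ≤ T.top i :=
  Finset.le_max' _ _ (BP0_554.mem_lev_iff.2 (Or.inr ⟨j, hij.symm, rfl⟩))

lemma next_le {i j : Fin T.m} (hij : i ≠ j) {k a b : ℕ} (hk : 0 < k) (hD : k < T.del i j)
    (ha : T.Cons i k a) (hb : T.Cons j k b) : b ≤ a := by
  have hDi : T.del i j ∈ T.lev i := BP0_554.mem_lev_iff.2 (Or.inr ⟨j, hij.symm, rfl⟩)
  have hDj : T.del i j ∈ T.lev j :=
    BP0_554.mem_lev_iff.2 (Or.inr ⟨i, hij, del_comm hij⟩)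
  have h1 : a ≤ T.del i j := by
    rcases ha.2.2.2 _ hDi with h | h
    · omega
    · exact h
  have h2 : a ∈ T.lev j := by
    rcases h1.lt_or_eq with h | h
    · exact BP0_554.lev_lt (BP0_554.tr_of_le_del hij le_rfl) h ha.2.1
    · rw [h]; exact hDj
  rcases hb.2.2.2 _ h2 with h | h
  · have := ha.2.2.1; omega
  · exact h

/-- **at most one canonical chart is attached at a special point** -/
theorem att_unique {c c' : Ch T.m} (hc : Ok S c) (hc' : Ok S c') (hn : ¬ IsV c) (hn' : ¬ IsV c')
    {v : Vtx} (h1 : v1 T c = some v) (h1' : v1 T c' = some v) (hx : cx T c = cx T c') : c = c' := by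
  have key : ∀ {i j : Fin T.m} {k k' : ℕ}, Ok S (.edge i k k') → v1 T (.edge i k k') = some v →
      v1 T (.leg j) = some v → cx T (.edge i k k') = cx T (.leg j) → False := by
    intro i j k k' ho h1 h2 hx
    have hC : T.Cons i k k' := ho.1
    simp only [v1] at h1 h2
    split_ifs at h1 with hk
    have h3 : vx T i k = vx T j (T.top j) := by
      rw [Option.some.inj h1, Option.some.inj h2]
    have h4 : k = T.top j := congrArg Prod.fst h3
    have h5 : tr T i k = tr T j (T.top j) := congrArg Prod.snd h3
    rw [← h4] at h5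
    have h6 : co T i k = co T j k := by
      have : co T i k = co T j (T.top j) := hx
      rwa [← h4] at this
    by_cases hij : i = j
    · subst hij
      have h7 : k' ≤ T.top i := Finset.le_max' _ _ hC.2.1
      have := hC.2.2.1
      omega
    · have h7 := lt_del hij h5 h6
      have h8 := del_le_top (Ne.symm hij)
      rw [del_comm hij] at h8
      omega
  cases c with
  | edge i k k' =>
    cases c' with
    | edge i' q q' =>
      have hC : T.Cons i k k' := hc.1
      have hC' : T.Cons i' q q' := hc'.1
      simp only [v1] at h1 h1'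
      split_ifs at h1 with hk
      split_ifs at h1' with hq
      have h3 : vx T i k = vx T i' q := by
        rw [Option.some.inj h1, Option.some.inj h1']
      have h4 : k = q := congrArg Prod.fst h3
      have h5 : tr T i k = tr T i' q := congrArg Prod.snd h3
      have h6 : co T i k = co T i' q := hx
      subst h4
      by_cases hij : i = i'
      · subst hij
        have h7 : k' = q' := by
          have a1 := hC.2.2.2 _ hC'.2.1
          have a2 := hC'.2.2.2 _ hC.2.1
          have := hC.2.2.1
          have := hC'.2.2.1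
          omega
        rw [h7]
      · have hD := lt_del hij h5 h6
        have hk0 : 0 < k := Nat.pos_of_ne_zero hk
        have e1 := next_le hij hk0 hD hC hC'
        have hD' : k < T.del i' i := by rw [del_comm hij]; exact hD
        have e2 := next_le (Ne.symm hij) hk0 hD' hC' hC
        have e3 : k' = q' := le_antisymm e2 e1
        subst e3
        obtain ⟨u, hu, u1, u2, u3⟩ := hc.2
        obtain ⟨u', hu', w1, w2, w3⟩ := hc'.2
        have hle : k' ≤ T.del i i' := by
          rcases hC.2.2.2 _ (BP0_554.mem_lev_iff.2 (Or.inr ⟨i', Ne.symm hij, rfl⟩)) with h | h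
          · omega
          · exact h
        have h8 : tr T i k' = tr T i' k' := BP0_554.tr_of_le_del hij hle
        have h9 : u = u' := by
          have a1 := Vt1_558.vx_ci S hu
          have a2 := Vt1_558.vx_ci S hu'
          rw [← a1, ← a2, ← u1, ← w1, ← u3, ← w3]
          unfold vx
          rw [h8]
        exact absurd (u1.trans (by rw [h9, w1])) hij
    | leg j => exact absurd (key hc h1 h1' hx) id
    | vert i k w => exact absurd trivial hn'
  | leg j =>
    cases c' with
    | edge i' q q' => exact absurd (key hc' h1' h1 hx.symm) id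
    | leg j' =>
      simp only [v1] at h1 h1'
      have h3 : vx T j (T.top j) = vx T j' (T.top j') := by
        rw [Option.some.inj h1, Option.some.inj h1']
      have h4 : T.top j = T.top j' := congrArg Prod.fst h3
      have h5 : tr T j (T.top j) = tr T j' (T.top j') := congrArg Prod.snd h3
      have h6 : co T j (T.top j) = co T j' (T.top j') := hx
      rw [← h4] at h5 h6
      by_cases hij : j = j'
      · rw [hij]
      · have h7 := lt_del hij h5 h6
        have h8 := del_le_top hij
        omega
    | vert i k w => exact absurd trivial hn'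
  | vert i k w => exact absurd trivial hn

/-- the centre of an attached chart is a special point -/
lemma cx_mem {c : Ch T.m} (hn : ¬ IsV c) {v : Vtx} (h1 : v1 T c = some v) : cx T c ∈ sp T v := by
  rw [Vt1_558.mem_sp]
  cases c with
  | edge i k k' =>
    simp only [v1] at h1
    split_ifs at h1 with hk
    rw [← Option.some.inj h1]
    exact ⟨i, rfl, rfl⟩
  | leg i =>
    simp only [v1] at h1
    rw [← Option.some.inj h1]
    exact ⟨i, rfl, rfl⟩
  | vert i k w => exact absurd trivial hn

/-- the only chart with `v2 = v` is the parent edge -/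
lemma v2_eq {c : Ch T.m} (hc : Ok S c) {v : Vtx} (h : v2 T c = some v) : c = ec S v := by
  cases c with
  | edge i k k' =>
    obtain ⟨u, hu, u1, u2, u3⟩ := hc.2
    have h3 : vx T i k' = v := Option.some.inj h
    rw [u1, u3, Vt1_558.vx_ci S hu] at h3
    subst h3
    unfold ec
    rw [u1, u2, u3]
  | leg i => simp [v2] at h
  | vert i k w => simp [v2] at h

/-- canonical vertex charts -/
lemma vert_eq {c : Ch T.m} (hc : Ok S c) (hV : IsV c) {v : Vtx} (h : v1 T c = some v) :
    c = .vert (S.ci v) v.1 (cx T c) ∧ v ∈ Vs T ∧ cx T c ∉ sp T v ∧ lx T c = 1 := by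
  cases c with
  | edge i k k' => exact absurd hV (by simp [IsV])
  | leg i => exact absurd hV (by simp [IsV])
  | vert i k w =>
    obtain ⟨u, hu, u1, u2, u3⟩ := hc.2
    have h3 : vx T i k = v := Option.some.inj h
    rw [u1, u2, Vt1_558.vx_ci S hu] at h3
    subst h3
    exact ⟨by rw [u1, u2]; rfl, hu, u3, rfl⟩

/-- two vertex charts attached at the same point -/
lemma vert_unique {c c' : Ch T.m} (hc : Ok S c) (hc' : Ok S c') (hV : IsV c) (hV' : IsV c')
    {v : Vtx} (h : v1 T c = some v) (h' : v1 T c' = some v) (hx : cx T c = cx T c') : c = c' := by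
  rw [(vert_eq hc hV h).1, (vert_eq hc' hV' h').1, hx]

open Classical in
/-- all canonical charts which are not vertex charts -/
def NC (S : Sh T) : Finset (Ch T.m) :=
  (Vs T).image (ec S) ∪ Finset.univ.image fun i => (Ch.leg i : Ch T.m)

lemma mem_NC {c : Ch T.m} : c ∈ NC S ↔ Ok S c ∧ ¬ IsV c := by
  classical
  unfold NC
  rw [Finset.mem_union, Finset.mem_image, Finset.mem_image]
  constructor
  · rintro (⟨v, hv, rfl⟩ | ⟨i, -, rfl⟩)
    · exact ⟨Lab_931.ok_ec S hv, by simp [ec, IsV]⟩
    · exact ⟨⟨trivial, trivial⟩, by simp [IsV]⟩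
  · rintro ⟨hc, hn⟩
    cases c with
    | edge i k k' =>
      left
      obtain ⟨u, hu, u1, u2, u3⟩ := hc.2
      exact ⟨u, hu, by unfold ec; rw [u1, u2, u3]⟩
    | leg i => exact Or.inr ⟨i, Finset.mem_univ _, rfl⟩
    | vert i k w => exact absurd trivial hn

lemma ec_inj {v v' : Vtx} (hv : v ∈ Vs T) (hv' : v' ∈ Vs T) (h : ec S v = ec S v') : v = v' := by
  have h1 := Lab_931.v2_ec S hv
  have h2 := Lab_931.v2_ec S hv'
  rw [h] at h1
  exact Option.some.inj (h1.symm.trans h2)

/-- sums over `NC` -/
lemma sum_NC (g : Ch T.m → ℝ) : ∑ c ∈ NC S, g c = ∑ v ∈ Vs T, g (ec S v) + ∑ i, g (.leg i) := by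
  classical
  unfold NC
  rw [Finset.sum_union, Finset.sum_image, Finset.sum_image]
  · intro i _ j _ h
    exact Ch.leg.inj h
  · intro v hv v' hv' h
    exact ec_inj hv hv' h
  · rw [Finset.disjoint_left]
    intro c h1 h2
    obtain ⟨v, -, rfl⟩ := Finset.mem_image.1 h1
    obtain ⟨i, -, h3⟩ := Finset.mem_image.1 h2
    exact absurd h3 (by simp [ec])

end Crest.Agent.R257.Hv_174
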