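import Crest.Agent.R257.Vt1_558
import Crest.Agent.R257.Rot4_558

/-!
Row 257 (S0395), part C: local form of the retraction `IsRet` (helper558, tasks C-ROT, C-JAC).

* `LD U v w₀`    : the local data of `RetStmt` at `(v, w₀)`;  `exists_LD`;
* `LD.attach`    : a root along an analytic map is one of the sheets;
* `LD.attach_ret`: hence near the special fibre its retraction is `σ l (W p)`;
* `LD.of_ret`    : every retraction is of this form;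
* `sheet_near`   : points of `XV U v` near a point of the section `σ j` are on `σ j`;
* `inT_of`, `rt_unique`, `rt_exists`.
-/

set_option autoImplicit false
set_option linter.unusedSectionVars false

open Polynomial Set Filter Topology Metric
open Crest.AlgGeometry.Germ Crest.Agent.R257.AJ387 Crest.Agent.R257.T387
open Crest.Agent.R257.Frm_547 (mul_ev prod_ev)
open Crest.Agent.R257.Rot1_558 Crest.Agent.R257.BP_258 Crest.Agent.R257.Vt1_558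

noncomputable section

namespace Crest.Agent.R257.Vt2_558

variable {f : (Fin 3 → ℂ) → ℂ} {T : TB f} {U : Tub T}

@[simp] lemma pt_0 (z : ℂ) (q : ℂ × ℂ) : pt z q 0 = z := rfl
@[simp] lemma pt_1 (z : ℂ) (q : ℂ × ℂ) : pt z q 1 = q.1 := rfl
@[simp] lemma pt_2 (z : ℂ) (q : ℂ × ℂ) : pt z q 2 = q.2 := rfl

lemma pt_eta (x : Fin 3 → ℂ) : pt (x 0) (x 1, x 2) = x := by
  funext i
  fin_cases i <;> rfl

/-- the local data of `RetStmt` -/
structure LD (U : Tub T) (v : Vtx) (w₀ : ℂ) where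
  r : ℝ
  R : ℝ
  Z : Fin T.d → ℂ × ℂ → ℂ
  σ : Fin T.d → ℂ → XV U v
  hv : v ∈ Vs T
  r_pos : 0 < r
  R_pos : 0 < R
  lt : ∀ w ∈ ball w₀ r, w ∉ sp T v ∧ U.ρ v w < R
  an : ∀ j, AnalyticOnNhd ℂ (Z j) (ball 0 R ×ˢ ball w₀ r)
  split : ∀ q ∈ ball (0 : ℂ) R ×ˢ ball w₀ r, (q.1, yv T v q) ∈ BD 1 T.R ∧ ‖q.1‖ ^ T.M < T.ρ ∧
      T.Q (q.1, yv T v q) = ∏ j, (X - C (Z j q))
  inj : ∀ q ∈ ball (0 : ℂ) R ×ˢ ball w₀ r, q.1 ≠ 0 → Function.Injective fun j => Z j q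
  cont : ∀ j, ContinuousOn (σ j) (ball w₀ r)
  proj : ∀ j, ∀ w ∈ ball w₀ r, pV U v (σ j w) = w
  σinj : ∀ w ∈ ball w₀ r, Function.Injective fun j => σ j w
  surj : ∀ q, pV U v q ∈ ball w₀ r → ∃ j, σ j (pV U v q) = q
  ret : ∀ j, ∀ w ∈ ball w₀ r, ∀ s, s ≠ 0 → ‖s‖ < U.ρ v w →
      IsRet U v (pt (Z j (s, w)) (s, yv T v (s, w))) (σ j w)
  uniq : ∀ x, InT U v x → ∃! q, IsRet U v x q

lemma exists_LD (hR : RetStmt U) {v : Vtx} (hv : v ∈ Vs T) {w₀ : ℂ} (hw : w₀ ∉ sp T v) :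
    Nonempty (LD U v w₀) := by
  obtain ⟨r, hr, R, hR', Z, σ, h1, h2, h3, h4, h5, h6, h7, h8, h9⟩ := (hR v hv).2 w₀ hw
  exact ⟨⟨r, R, Z, σ, hv, hr, hR', h1, h2, h3, h4, h5, h6, h7, h8, h9, (hR v hv).1⟩⟩

lemma isOpen_nsp (v : Vtx) : IsOpen {w : ℂ | w ∉ sp T v} := by
  have : {w : ℂ | w ∉ sp T v} = (↑(sp T v) : Set ℂ)ᶜ := by ext; simp
  rw [this]
  exact (sp T v).finite_toSet.isClosed.isOpen_compl

lemma rho_contAt (U : Tub T) {v : Vtx} (hv : v ∈ Vs T) {w : ℂ} (hw : w ∉ sp T v) :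
    ContinuousAt (U.ρ v) w :=
  (U.cont v hv).continuousAt ((isOpen_nsp v).mem_nhds hw)

namespace LD

variable {v : Vtx} {w₀ : ℂ} (D : LD U v w₀)

include D in
lemma w0_mem : w₀ ∈ ball w₀ D.r := mem_ball_self D.r_pos

include D in
lemma w0_nsp : w₀ ∉ sp T v := (D.lt w₀ D.w0_mem).1

lemma root (j : Fin T.d) {q : ℂ × ℂ} (hq : q ∈ ball (0 : ℂ) D.R ×ˢ ball w₀ D.r) :
    (T.Q (q.1, yv T v q)).eval (D.Z j q) = 0 := by
  rw [(D.split q hq).2.2, eval_prod]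
  exact Finset.prod_eq_zero (Finset.mem_univ j) (by simp)

lemma root_iff {q : ℂ × ℂ} (hq : q ∈ ball (0 : ℂ) D.R ×ˢ ball w₀ D.r) {z : ℂ} :
    (T.Q (q.1, yv T v q)).eval z = 0 ↔ ∃ j, D.Z j q = z := by
  rw [(D.split q hq).2.2, eval_prod, Finset.prod_eq_zero_iff]
  simp only [Finset.mem_univ, true_and, eval_sub, eval_X, eval_C, sub_eq_zero]
  exact ⟨fun ⟨j, hj⟩ => ⟨j, hj.symm⟩, fun ⟨j, hj⟩ => ⟨j, hj.symm⟩⟩

/-- every retraction is on one of the sheets -/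
theorem of_ret {x : Fin 3 → ℂ} {q : XV U v} (h : IsRet U v x q) (hw : pV U v q ∈ ball w₀ D.r) :
    ∃ j, x 1 ≠ 0 ∧ ‖x 1‖ < U.ρ v (pV U v q) ∧ x 2 = yv T v (x 1, pV U v q) ∧
      x 0 = D.Z j (x 1, pV U v q) ∧ q = D.σ j (pV U v q) := by
  have h0 := h
  obtain ⟨hT, hq, -⟩ := h
  have hq' : pV U v q = wv T v (x 1, x 2) := hq
  have h2 : x 2 = yv T v (x 1, pV U v q) := by rw [hq', yv_wv v hT.ne]
  have h3 : ‖x 1‖ < U.ρ v (pV U v q) := by rw [hq']; exact hT.lt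
  have h4 : (x 1, pV U v q) ∈ ball (0 : ℂ) D.R ×ˢ ball w₀ D.r :=
    ⟨by simpa using h3.trans (D.lt _ hw).2, hw⟩
  have h5 := hT.root
  rw [h2] at h5
  obtain ⟨j, hj⟩ := (D.root_iff h4).1 h5
  refine ⟨j, hT.ne, h3, h2, hj.symm, ?_⟩
  have h6 := D.ret j _ hw (x 1) hT.ne h3
  rw [hj, ← h2, pt_eta] at h6
  exact (D.uniq x hT).unique h0 h6

/-- points near a section are on it -/
theorem near {j : Fin T.d} {w : ℂ} (hw : w ∈ ball w₀ D.r) :
    ∀ᶠ q in 𝓝 (D.σ j w), D.σ j (pV U v q) = q ∧ pV U v q ∈ ball w₀ D.r := by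
  have hp : Continuous (pV U v) := continuous_fst.comp continuous_subtype_val
  have hp0 : pV U v (D.σ j w) = w := D.proj j w hw
  have h1 : ∀ᶠ q in 𝓝 (D.σ j w), pV U v q ∈ ball w₀ D.r := by
    refine hp.continuousAt.eventually ?_
    rw [hp0]
    exact isOpen_ball.mem_nhds hw
  have h2 : ∀ l, l ≠ j → ∀ᶠ q in 𝓝 (D.σ j w), D.σ l (pV U v q) ≠ q := by
    intro l hl
    have h3 : ContinuousAt (fun q => D.σ l (pV U v q)) (D.σ j w) := by
      have h4 : ContinuousAt (D.σ l) (pV U v (D.σ j w)) := by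
        rw [hp0]
        exact (D.cont l).continuousAt (isOpen_ball.mem_nhds hw)
      exact ContinuousAt.comp (g := D.σ l) (f := pV U v) h4 hp.continuousAt
    have h5 : (fun q => D.σ l (pV U v q)) (D.σ j w) ≠ D.σ j w := by
      show D.σ l (pV U v (D.σ j w)) ≠ D.σ j w
      rw [hp0]
      exact fun h => hl (D.σinj w hw h)
    have h6 : T2Space (XV U v) := by unfold XV; infer_instance
    exact (h3.ne_iff_eventually_ne continuousAt_id).1 h5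
  have h8 : ∀ᶠ q in 𝓝 (D.σ j w), ∀ l, l ≠ j → D.σ l (pV U v q) ≠ q := by
    rw [eventually_all]
    intro l
    by_cases hl : l = j
    · exact Eventually.of_forall fun q h => absurd hl h
    · exact (h2 l hl).mono fun q h _ => h
  filter_upwards [h1, h8] with q e1 e2
  obtain ⟨l, hl⟩ := D.surj q e1
  by_cases hlj : l = j
  · rw [hlj] at hl; exact ⟨hl, e1⟩
  · exact absurd hl (e2 l hlj)

/-- a root along an analytic map is one of the sheets -/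
theorem attach {E : Type*} [NormedAddCommGroup E] [NormedSpace ℂ E] [CompleteSpace E]
    {μ : E → ℂ × ℂ} {ζ W : E → ℂ} {p₀ : E} (hμ : AnalyticAt ℂ (fun p => (μ p).1) p₀)
    (hζ : AnalyticAt ℂ ζ p₀) (hW : AnalyticAt ℂ W p₀) (h0 : (μ p₀).1 = 0) (hw : W p₀ ∈ ball w₀ D.r)
    (he : ∀ᶠ p in 𝓝 p₀, (μ p).2 = yv T v ((μ p).1, W p) ∧ (T.Q (μ p)).eval (ζ p) = 0) :
    ∃ l, ∀ᶠ p in 𝓝 p₀, ζ p = D.Z l ((μ p).1, W p) := by
  have hmem0 : ((μ p₀).1, W p₀) ∈ ball (0 : ℂ) D.R ×ˢ ball w₀ D.r :=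
    ⟨by rw [h0]; simpa using D.R_pos, hw⟩
  have hpair : AnalyticAt ℂ (fun p => ((μ p).1, W p)) p₀ := hμ.prod hW
  have hmem : ∀ᶠ p in 𝓝 p₀, ((μ p).1, W p) ∈ ball (0 : ℂ) D.R ×ˢ ball w₀ D.r :=
    hpair.continuousAt.eventually ((isOpen_ball.prod isOpen_ball).mem_nhds hmem0)
  have hprod : ∀ᶠ p in 𝓝 p₀, ∏ l, (ζ p - D.Z l ((μ p).1, W p)) = 0 := by
    filter_upwards [he, hmem] with p h1 h2
    have h3 := (D.split _ h2).2.2
    have h4 : ((μ p).1, yv T v ((μ p).1, W p)) = μ p := Prod.ext rfl h1.1.symm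
    rw [h4] at h3
    have h5 := h1.2
    rw [h3, eval_prod] at h5
    simpa using h5
  obtain ⟨l, -, hl⟩ := prod_ev Finset.univ (fun l _ => hζ.sub
    (AnalyticAt.comp (g := D.Z l) (f := fun p => ((μ p).1, W p)) (D.an l _ hmem0) hpair)) hprod
  exact ⟨l, hl.mono fun p hp => sub_eq_zero.1 hp⟩

/-- near the special fibre the retraction of a root is `σ l (W p)` -/
theorem attach_ret {E : Type*} [NormedAddCommGroup E] [NormedSpace ℂ E] [CompleteSpace E]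
    {μ : E → ℂ × ℂ} {ζ W : E → ℂ} {p₀ : E} (hμ : AnalyticAt ℂ (fun p => (μ p).1) p₀)
    (hζ : AnalyticAt ℂ ζ p₀) (hW : AnalyticAt ℂ W p₀) (h0 : (μ p₀).1 = 0) (hw : W p₀ ∈ ball w₀ D.r)
    (he : ∀ᶠ p in 𝓝 p₀, (μ p).2 = yv T v ((μ p).1, W p) ∧ (T.Q (μ p)).eval (ζ p) = 0) :
    ∃ l, ∀ᶠ p in 𝓝 p₀, ζ p = D.Z l ((μ p).1, W p) ∧
      ((μ p).1 ≠ 0 → IsRet U v (pt (ζ p) (μ p)) (D.σ l (W p))) := by
  obtain ⟨l, hl⟩ := D.attach hμ hζ hW h0 hw he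
  refine ⟨l, ?_⟩
  have hW1 : ∀ᶠ p in 𝓝 p₀, W p ∈ ball w₀ D.r := hW.continuousAt.eventually (isOpen_ball.mem_nhds hw)
  have hnsp := (D.lt _ hw).1
  have h1 : ∀ᶠ p in 𝓝 p₀, ‖(μ p).1‖ < U.ρ v (W p) := by
    have h2 : ContinuousAt (fun p => U.ρ v (W p)) p₀ :=
      ContinuousAt.comp (g := U.ρ v) (f := W) (rho_contAt U D.hv hnsp) hW.continuousAt
    have h3 : ContinuousAt (fun p => ‖(μ p).1‖) p₀ := hμ.continuousAt.norm
    exact h3.eventually_lt h2 (by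
      show ‖(μ p₀).1‖ < U.ρ v (W p₀)
      rw [h0, norm_zero]; exact U.pos v D.hv _ hnsp)
  filter_upwards [hl, he, hW1, h1] with p e1 e2 e3 e4
  refine ⟨e1, fun hne => ?_⟩
  have h5 := D.ret l _ e3 _ hne e4
  have h4 : ((μ p).1, yv T v ((μ p).1, W p)) = μ p := Prod.ext rfl e2.1.symm
  rwa [h4, ← e1] at h5

end LD

/-- existence of points with a given retraction -/
lemma exists_pt (hR : RetStmt U) {v : Vtx} (q : XV U v) (ε : ℝ) (hε : 0 < ε) :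
    ∃ x, IsRet U v x q ∧ ‖x 1‖ < ε := by
  have hv := q.2.1
  have hw : pV U v q ∉ sp T v := q.2.2.1
  obtain ⟨D⟩ := exists_LD hR hv hw
  obtain ⟨j, hj⟩ := D.surj q D.w0_mem
  have hpos := U.pos v hv _ hw
  set s : ℂ := ((min ε (U.ρ v (pV U v q)) / 2 : ℝ) : ℂ) with hs
  have hm : 0 < min ε (U.ρ v (pV U v q)) := lt_min hε hpos
  have hn : ‖s‖ = min ε (U.ρ v (pV U v q)) / 2 := by
    rw [hs, Complex.norm_real, Real.norm_of_nonneg (by linarith)]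
  have hs0 : s ≠ 0 := by
    intro h
    rw [h, norm_zero] at hn
    linarith
  have h1 := D.ret j _ D.w0_mem s hs0 (by
    rw [hn]; linarith [min_le_right ε (U.ρ v (pV U v q))])
  rw [hj] at h1
  refine ⟨_, h1, ?_⟩
  show ‖s‖ < ε
  rw [hn]; linarith [min_le_left ε (U.ρ v (pV U v q))]

end Crest.Agent.R257.Vt2_558
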