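import Mathlib
import Crest.Agent.R257.Hv1_174
import Crest.Agent.R257.Vt2_558
import Crest.Agent.R257.Tb1_941

/-!
Row 257 (S0395), task C-HV (helper174), file 2: abstract ends of the curves `XV U v`.

* `AE`          : an end of `XV U v`, seen in a chart;  `AE.of1`, `AE.of2`;
* `AE.uniq`     : uniqueness of the limits;
* `AE.matchpt`  : equal points of the end come from equal points of the chart;
* `AE.exists_lam` : locally constant functions with prescribed values, and their sums over the fibres.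
-/

set_option autoImplicit false
set_option linter.unusedSectionVars false

open Polynomial Set Filter Topology Metric
open Crest.AlgGeometry.Germ Crest.Agent.R257.AJ387 Crest.Agent.R257.T387
open Crest.Agent.R257.Gr1_157 Crest.Agent.R257.HoB_843 Crest.Agent.R257.BP_258
open Crest.Agent.R257.Wt_258 Crest.Agent.R257.Cpt1_419

noncomputable section

namespace Crest.Agent.R257.Hv_174

variable {f : (Fin 3 → ℂ) → ℂ} {T : TB f} {S : Sh T} {U : Tub T}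

instance t2XV (v : Vtx) : T2Space (XV U v) := by unfold XV; infer_instance

/-- an end of `XV U v` -/
structure AE (U : Tub T) (v : Vtx) (h : ℂ → ℂ) (D : Set ℂ) (X : Fin T.d → ℂ → ℂ → (Fin 3 → ℂ))
    (γ : Fin T.d → ℂ → XV U v) : Prop where
  cont : ∀ j, ContinuousOn (γ j) D
  pr : ∀ j, ∀ b ∈ D, pV U v (γ j b) = h b
  inj : ∀ b ∈ D, Function.Injective fun j => γ j b
  surj : ∀ b ∈ D, ∀ q, pV U v q = h b → ∃ j, γ j b = q
  lim : ∀ j, ∀ b ∈ D, (∀ᶠ α in 𝓝 (0 : ℂ), α ≠ 0 → InT U v (X j b α)) ∧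
    ∀ O ∈ 𝓝 (γ j b), ∀ᶠ α in 𝓝 (0 : ℂ), α ≠ 0 → ∀ q, IsRet U v (X j b α) q → q ∈ O

lemma AE.of1 {c : Ch T.m} {v : Vtx} {γ : Fin T.d → ℂ → XV U v} (h : End1 U S c v γ) :
    AE U v (fun b => cx T c + b ^ lx T c) (PDv S c) (fun j b α => wc S c j (α, b)) γ := by
  have ht : ∀ b : ℂ, Tendsto (fun α : ℂ => (α, b)) (𝓝 0) (𝓝 ((0 : ℂ), b)) := fun b => by
    have : Continuous fun α : ℂ => (α, b) := by fun_prop
    exact this.tendsto 0
  refine ⟨h.cont, h.pr, h.inj, h.surj, fun j b hb => ⟨?_, fun O hO => ?_⟩⟩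
  · exact (ht b).eventually (h.lim j b hb).1
  · exact (ht b).eventually ((h.lim j b hb).2 O hO)

lemma AE.of2 {c : Ch T.m} {v : Vtx} {γ : Fin T.d → ℂ → XV U v} (h : End2 U S c v γ) :
    AE U v (fun a => (a ^ lx T c)⁻¹) (PDc S c) (fun j a β => wc S c j (a, β)) γ := by
  have ht : ∀ a : ℂ, Tendsto (fun β : ℂ => (a, β)) (𝓝 0) (𝓝 (a, (0 : ℂ))) := fun a => by
    have : Continuous fun β : ℂ => (a, β) := by fun_prop
    exact this.tendsto 0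
  refine ⟨h.cont, h.pr, h.inj, h.surj, fun j b hb => ⟨?_, fun O hO => ?_⟩⟩
  · exact (ht b).eventually (h.lim j b hb).1
  · exact (ht b).eventually ((h.lim j b hb).2 O hO)

lemma exists_ne_of_ev {P : ℂ → Prop} (h : ∀ᶠ α in 𝓝 (0 : ℂ), α ≠ 0 → P α) : ∃ α, α ≠ 0 ∧ P α := by
  have h1 : ∃ᶠ s in 𝓝 (0 : ℂ), s ≠ 0 :=
    frequently_mem_iff_neBot.2 (by exact NormedField.nhdsNE_neBot (0 : ℂ))
  obtain ⟨α, h2, h3⟩ := (h1.and_eventually h).exists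
  exact ⟨α, h2, h3 h2⟩

namespace AE

variable {v : Vtx} {h : ℂ → ℂ} {D : Set ℂ} {X : Fin T.d → ℂ → ℂ → (Fin 3 → ℂ)}
  {γ γ' : Fin T.d → ℂ → XV U v}

theorem uniq (hA : AE U v h D X γ) (hA' : AE U v h D X γ') (j : Fin T.d) {b : ℂ} (hb : b ∈ D) :
    γ j b = γ' j b := by
  by_contra hne
  obtain ⟨O, O', hO, hO', h1, h2, h3⟩ := t2_separation hne
  have hev : ∀ᶠ α in 𝓝 (0 : ℂ), α ≠ 0 → InT U v (X j b α) ∧
      (∀ q, IsRet U v (X j b α) q → q ∈ O) ∧ (∀ q, IsRet U v (X j b α) q → q ∈ O') := by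
    filter_upwards [(hA.lim j b hb).1, (hA.lim j b hb).2 O (hO.mem_nhds h1),
      (hA'.lim j b hb).2 O' (hO'.mem_nhds h2)] with α a1 a2 a3 h0
    exact ⟨a1 h0, a2 h0, a3 h0⟩
  obtain ⟨α, h0, e1, e2, e3⟩ := exists_ne_of_ev hev
  obtain ⟨q, hq, -⟩ := (Tb_941.retStmt U v e1.mem).1 _ e1
  exact Set.disjoint_left.1 h3 (e2 q hq) (e3 q hq)

/-- **matching**: equal points of the end come from equal points of the chart -/
theorem matchpt (hA : AE U v h D X γ) {j j' : Fin T.d} {b b' : ℂ} (hb : b ∈ D) (hb' : b' ∈ D)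
    (he : γ j b = γ j' b') {θ : ℂ} (hθ : θ ≠ 0)
    (h1 : ∀ α, X j b α 1 = X j' b' (θ * α) 1) (h2 : ∀ α, X j b α 2 = X j' b' (θ * α) 2) :
    ∀ᶠ α in 𝓝 (0 : ℂ), α ≠ 0 → X j b α = X j' b' (θ * α) := by
  have hv : v ∈ Vs T := (γ j b).2.1
  have hw : pV U v (γ j b) ∉ sp T v := (γ j b).2.2.1
  obtain ⟨L⟩ := Vt2_558.exists_LD (Tb_941.retStmt U) hv hw
  obtain ⟨i, hi⟩ := L.surj (γ j b) L.w0_mem
  have hO := L.near (j := i) L.w0_mem
  rw [hi] at hO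
  have ht : Tendsto (fun α : ℂ => θ * α) (𝓝 0) (𝓝 0) := by
    have h3 : Continuous fun α : ℂ => θ * α := by fun_prop
    have := h3.tendsto 0
    rwa [mul_zero] at this
  have e1 := (hA.lim j b hb).1
  have e2 := (hA.lim j b hb).2 _ hO
  have e3 := ht.eventually (hA.lim j' b' hb').1
  have hO' : {q | L.σ i (pV U v q) = q ∧ pV U v q ∈ ball (pV U v (γ j b)) L.r} ∈
      𝓝 (γ j' b') := by
    have e5 : 𝓝 (γ j' b') = 𝓝 (γ j b) := by rw [he]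
    rw [e5]
    exact hO
  have e4 := ht.eventually ((hA.lim j' b' hb').2 _ hO')
  filter_upwards [e1, e2, e3, e4] with α a1 a2 a3 a4 h0
  have h0' : θ * α ≠ 0 := mul_ne_zero hθ h0
  obtain ⟨q, hq, -⟩ := (Tb_941.retStmt U v hv).1 _ (a1 h0)
  obtain ⟨q', hq', -⟩ := (Tb_941.retStmt U v hv).1 _ (a3 h0')
  obtain ⟨b1, b2⟩ := a2 h0 q hq
  obtain ⟨b3, b4⟩ := a4 h0' q' hq'
  have p1 : pV U v q = wv T v (X j b α 1, X j b α 2) := hq.2.1
  have p2 : pV U v q' = wv T v (X j' b' (θ * α) 1, X j' b' (θ * α) 2) := hq'.2.1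
  have p3 : pV U v q = pV U v q' := by rw [p1, p2, h1, h2]
  have p4 : q = q' := by rw [← b1, ← b3, p3]
  subst p4
  obtain ⟨l, -, -, -, c1, c2⟩ := L.of_ret hq b2
  obtain ⟨l', -, -, -, c3, c4⟩ := L.of_ret hq' b2
  have c5 : l = l' := L.σinj _ b2 (c2.symm.trans c4)
  subst c5
  funext t
  fin_cases t
  · show X j b α 0 = X j' b' (θ * α) 0
    rw [c1, c3, h1]
  · exact h1 α
  · exact h2 α

/-- **locally constant functions near the end** -/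
theorem exists_lam (hA : AE U v h D X γ) {r₀ : ℝ} (hD : ∀ b : ℂ, 0 < ‖b‖ → ‖b‖ < r₀ → b ∈ D)
    (sl : Fin T.d → ℝ)
    (hsl : ∀ j j' b b', 0 < ‖b‖ → ‖b‖ < r₀ → 0 < ‖b'‖ → ‖b'‖ < r₀ → γ j b = γ j' b' → sl j = sl j')
    (hop : ∀ b : ℂ, 0 < ‖b‖ → ‖b‖ < r₀ → ∀ N ∈ 𝓝 b, h '' N ∈ 𝓝 (h b)) :
    ∃ lam : XV U v → ℝ, (∀ j, ∀ b : ℂ, 0 < ‖b‖ → ‖b‖ < r₀ → lam (γ j b) = sl j) ∧
      (∀ x, (∃ b : ℂ, 0 < ‖b‖ ∧ ‖b‖ < r₀ ∧ pV U v x = h b) → ∀ᶠ y in 𝓝 x, lam y = lam x) ∧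
      (∀ b : ℂ, 0 < ‖b‖ → ‖b‖ < r₀ → ∀ P : XV U v → Prop,
        ∑ᶠ x ∈ {x | pV U v x = h b ∧ P x}, lam x =
          ∑ j, open Classical in if P (γ j b) then sl j else 0) := by
  classical
  set lam : XV U v → ℝ := fun x =>
    if hx : ∃ j : Fin T.d, ∃ b : ℂ, 0 < ‖b‖ ∧ ‖b‖ < r₀ ∧ γ j b = x then sl hx.choose else 0 with hlam
  have hl : ∀ j, ∀ b : ℂ, 0 < ‖b‖ → ‖b‖ < r₀ → lam (γ j b) = sl j := by
    intro j b hb hb'
    have hx : ∃ j' : Fin T.d, ∃ b' : ℂ, 0 < ‖b'‖ ∧ ‖b'‖ < r₀ ∧ γ j' b' = γ j b := ⟨j, b, hb, hb', rfl⟩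
    have h1 : lam (γ j b) = sl hx.choose := by rw [hlam]; exact dif_pos hx
    obtain ⟨b', c1, c2, c3⟩ := hx.choose_spec
    rw [h1]
    exact hsl _ _ _ _ c1 c2 hb hb' c3
  have hDo : ∀ b : ℂ, 0 < ‖b‖ → ‖b‖ < r₀ → ∀ᶠ b' in 𝓝 b, 0 < ‖b'‖ ∧ ‖b'‖ < r₀ := by
    intro b hb hb'
    exact (continuous_norm.continuousAt.eventually (lt_mem_nhds hb)).and
      (continuous_norm.continuousAt.eventually (gt_mem_nhds hb'))
  refine ⟨lam, hl, ?_, ?_⟩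
  · rintro x ⟨b, hb, hb', hx⟩
    obtain ⟨j, rfl⟩ := hA.surj b (hD b hb hb') x hx
    have hcont : ∀ i, ContinuousAt (γ i) b := fun i =>
      (hA.cont i).continuousAt ((hDo b hb hb').mono fun b' h => hD b' h.1 h.2)
    have h1 : ∀ i, i ≠ j → ∀ᶠ p in 𝓝 (γ j b, b), γ i p.2 ≠ p.1 := by
      intro i hi
      have h3 : ContinuousAt (fun p : XV U v × ℂ => γ i p.2) (γ j b, b) :=
        ContinuousAt.comp (g := γ i) (f := Prod.snd) (hcont i) continuousAt_snd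
      have h4 : ContinuousAt (fun p : XV U v × ℂ => p.1) (γ j b, b) := continuousAt_fst
      exact (h3.ne_iff_eventually_ne h4).1 fun h => hi (hA.inj b (hD b hb hb') h)
    have h2 : ∀ᶠ p in 𝓝 (γ j b, b), ∀ i, i ≠ j → γ i p.2 ≠ p.1 := by
      rw [eventually_all]
      intro i
      by_cases hi : i = j
      · exact Eventually.of_forall fun p h => absurd hi h
      · exact (h1 i hi).mono fun p h _ => h
    rw [nhds_prod_eq] at h2
    obtain ⟨pa, ha, pb, hb2, hab⟩ := Filter.eventually_prod_iff.1 h2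
    have h3 := hop b hb hb' _ (hb2.and (hDo b hb hb'))
    have h4 : ∀ᶠ y in 𝓝 (γ j b), pV U v y ∈ h '' {b' | pb b' ∧ 0 < ‖b'‖ ∧ ‖b'‖ < r₀} := by
      refine (Tb_941.continuous_pV (U := U) v).continuousAt.eventually ?_
      rw [hA.pr j b (hD b hb hb')]
      exact h3
    filter_upwards [ha, h4] with y hy hy2
    obtain ⟨b', ⟨c1, c2, c3⟩, c4⟩ := hy2
    obtain ⟨i, rfl⟩ := hA.surj b' (hD b' c2 c3) y c4.symm
    have hij : i = j := by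
      by_contra hij
      exact hab hy c1 i hij rfl
    rw [hl i b' c2 c3, hl j b hb hb', hij]
  · intro b hb hb' P
    have h1 : {x | pV U v x = h b ∧ P x} = (fun j => γ j b) '' {j | P (γ j b)} := by
      ext x
      constructor
      · rintro ⟨h2, h3⟩
        obtain ⟨j, rfl⟩ := hA.surj b (hD b hb hb') x h2
        exact ⟨j, h3, rfl⟩
      · rintro ⟨j, h2, rfl⟩
        exact ⟨hA.pr j b (hD b hb hb'), h2⟩
    rw [h1, finsum_mem_image ((hA.inj b (hD b hb hb')).injOn)]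
    have h2 : {j | P (γ j b)} = (↑(Finset.univ.filter fun j => P (γ j b)) : Set (Fin T.d)) := by
      ext j; simp
    rw [h2, finsum_mem_coe_finset, Finset.sum_filter]
    refine Finset.sum_congr rfl fun j _ => ?_
    simp only [hl j b hb hb']

end AE

/-- open maps -/
lemma op1 (c : ℂ) {l : ℕ} (hl : 0 < l) {b : ℂ} (hb : 0 < ‖b‖) {N : Set ℂ} (hN : N ∈ 𝓝 b) :
    (fun b : ℂ => c + b ^ l) '' N ∈ 𝓝 (c + b ^ l) := by
  have hb0 : b ≠ 0 := norm_pos_iff.1 hb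
  have h1 : HasStrictDerivAt (fun b : ℂ => c + b ^ l) ((l : ℂ) * b ^ (l - 1)) b :=
    (hasStrictDerivAt_pow l b).const_add c
  have h2 : (l : ℂ) * b ^ (l - 1) ≠ 0 :=
    mul_ne_zero (by exact_mod_cast hl.ne') (pow_ne_zero _ hb0)
  have h3 := h1.map_nhds_eq h2
  have h4 : (fun b : ℂ => c + b ^ l) '' N ∈ map (fun b : ℂ => c + b ^ l) (𝓝 b) := image_mem_map hN
  rwa [h3] at h4

lemma op2 {l : ℕ} (hl : 0 < l) {b : ℂ} (hb : 0 < ‖b‖) {N : Set ℂ} (hN : N ∈ 𝓝 b) :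
    (fun b : ℂ => (b ^ l)⁻¹) '' N ∈ 𝓝 ((b ^ l)⁻¹) := by
  have hb0 : b ≠ 0 := norm_pos_iff.1 hb
  have h1 : HasStrictDerivAt (fun b : ℂ => (b ^ l)⁻¹)
      (-((b ^ l) ^ 2)⁻¹ * ((l : ℂ) * b ^ (l - 1))) b :=
    HasStrictDerivAt.comp (h₂ := Inv.inv) (h := fun b : ℂ => b ^ l) b
      (hasStrictDerivAt_inv (pow_ne_zero _ hb0)) (hasStrictDerivAt_pow l b)
  have h2 : -((b ^ l) ^ 2)⁻¹ * ((l : ℂ) * b ^ (l - 1)) ≠ 0 :=
    mul_ne_zero (neg_ne_zero.2 (inv_ne_zero (pow_ne_zero _ (pow_ne_zero _ hb0))))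
      (mul_ne_zero (by exact_mod_cast hl.ne') (pow_ne_zero _ hb0))
  have h3 := h1.map_nhds_eq h2
  have h4 : (fun b : ℂ => (b ^ l)⁻¹) '' N ∈ map (fun b : ℂ => (b ^ l)⁻¹) (𝓝 b) := image_mem_map hN
  rwa [h3] at h4

end Crest.Agent.R257.Hv_174
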