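import Mathlib
import Crest.Agent.R257.Hv2_174
import Crest.Agent.R257.WtF_258

/-!
Row 257 (S0395), task C-HV (helper174), file 3: the slopes are well defined.

* `map_th1`, `map_th2` : rotations of the charts;
* `tk_wd`, `s1_wd`, `s2_wd` : slopes are functions on the ends;
* `P1`, `P2`  : the slope functions near a finite special point and near infinity.
-/

set_option autoImplicit false
set_option linter.unusedSectionVars false

open Polynomial Set Filter Topology Metric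
open Crest.AlgGeometry.Germ Crest.Agent.R257.AJ387 Crest.Agent.R257.T387
open Crest.Agent.R257.Gr1_157 Crest.Agent.R257.HoB_843 Crest.Agent.R257.BP_258
open Crest.Agent.R257.Wt_258 Crest.Agent.R257.Cpt1_419

noncomputable section

namespace Crest.Agent.R257.Hv_174

variable {f : (Fin 3 → ℂ) → ℂ} {T : TB f} {S : Sh T} {U : Tub T}

/-! ### rotations -/

lemma map_th1 {c : Ch T.m} (hc : T.Valid c) (hn : ¬ IsV c) {b b' : ℂ} (hb : b ≠ 0) (hb' : b' ≠ 0)
    (h : b ^ lx T c = b' ^ lx T c) :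
    ∃ θ : ℂ, θ ≠ 0 ∧ ∀ α, T.map c (α, b) = T.map c (θ * α, b') := by
  cases c with
  | edge i k k' =>
    have hk : k < k' := hc.2.2.1
    have h1 : b ^ (T.M * (k' - k)) = b' ^ (T.M * (k' - k)) := h
    refine ⟨b / b', div_ne_zero hb hb', fun α => ?_⟩
    have h2 : b / b' * α * b' = α * b := by field_simp
    have h3 : T.M * k' = T.M * k + T.M * (k' - k) := by
      rw [← Nat.mul_add]; congr 1; omega
    simp only [TB.map]
    rw [h2]
    congr 2
    rw [h3, pow_add, pow_add, h1, mul_pow, div_pow]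
    field_simp
  | leg i =>
    have h1 : b ^ T.M = b' ^ T.M := h
    refine ⟨1, one_ne_zero, fun α => ?_⟩
    simp only [TB.map, one_mul]
    rw [h1]
  | vert i k w => exact absurd trivial hn

lemma map_th2 {c : Ch T.m} (hc : T.Valid c) (hE : IsE c) {a a' : ℂ} (ha : a ≠ 0) (ha' : a' ≠ 0)
    (h : a ^ lx T c = a' ^ lx T c) :
    ∃ θ : ℂ, θ ≠ 0 ∧ ∀ β, T.map c (a, β) = T.map c (a', θ * β) := by
  cases c with
  | edge i k k' =>
    have hk : k < k' := hc.2.2.1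
    have h1 : a ^ (T.M * (k' - k)) = a' ^ (T.M * (k' - k)) := h
    refine ⟨a / a', div_ne_zero ha ha', fun β => ?_⟩
    have h2 : a' * (a / a' * β) = a * β := by field_simp
    have h3 : T.M * k' = T.M * k + T.M * (k' - k) := by
      rw [← Nat.mul_add]; congr 1; omega
    simp only [TB.map]
    rw [h2]
    congr 2
    have h4 : a ^ (T.M * k) * β ^ (T.M * k') = a' ^ (T.M * k) * (a / a' * β) ^ (T.M * k') := by
      rw [mul_pow, div_pow, show a ^ (T.M * k') = a ^ (T.M * k) * a ^ (T.M * (k' - k)) by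
        rw [← pow_add, ← h3], show a' ^ (T.M * k') = a' ^ (T.M * k) * a' ^ (T.M * (k' - k)) by
        rw [← pow_add, ← h3], h1]
      field_simp
    exact h4
  | leg i => exact absurd hE (by simp [IsE])
  | vert i k w => exact absurd hE (by simp [IsE])

/-! ### well defined slopes -/

lemma tk_wd {F : Finset (Ch T.m)} (K : DKill S F) {r : ℝ}
    (hr : ∀ x ∈ K.κ, ∀ c, (c = x.1 ∨ ∃ j, (c, j) ∈ K.κ) → ∀ j p p', p ∈ BD r r → p' ∈ BD r r →
      T.Gen x.1 p → T.Gen c p' → wc S x.1 x.2 p = wc S c j p' →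
      c = x.1 ∧ (c, j) ∈ K.κ ∧ K.t (c, j) = K.t x ∧ K.a (c, j) = K.a x ∧ K.b (c, j) = K.b x)
    {c : Ch T.m} {j j' : Fin T.d} {p p' : ℂ × ℂ} (hp : p ∈ BD r r) (hp' : p' ∈ BD r r)
    (g : T.Gen c p) (g' : T.Gen c p') (h : wc S c j p = wc S c j' p') :
    dk1 K c j = dk1 K c j' ∧ dk2 K c j = dk2 K c j' := by
  classical
  unfold dk1 dk2
  by_cases h1 : (c, j) ∈ K.κ
  · obtain ⟨-, h2, h3, h4, h5⟩ := hr _ h1 c (Or.inl rfl) j' p p' hp hp' g g' h
    rw [if_pos h1, if_pos h2, if_pos h1, if_pos h2, h3, h4, h5]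
    exact ⟨rfl, rfl⟩
  · by_cases h2 : (c, j') ∈ K.κ
    · obtain ⟨-, h3, -⟩ := hr _ h2 c (Or.inl rfl) j p' p hp' hp g' g h.symm
      exact absurd h3 h1
    · rw [if_neg h1, if_neg h2, if_neg h1, if_neg h2]
      exact ⟨rfl, rfl⟩

/-- **slopes at the finite ends** -/
theorem s1_wd {L : Lab U S} (hW : LabWD L) (y : II U → ℝ) {F : Finset (Ch T.m)}
    (K : DKill S F) {c : Ch T.m} (hc : Ok S c) (hn : ¬ IsV c) {v : Vtx}
    {γ : Fin T.d → ℂ → XV U v} (hγ : End1 U S c v γ) :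
    ∃ r₁ > 0, r₁ ≤ 2 * S.r c ∧ ∀ j j' b b', 0 < ‖b‖ → ‖b‖ < r₁ → 0 < ‖b'‖ → ‖b'‖ < r₁ →
      γ j b = γ j' b' → d1 L y K c j = d1 L y K c j' := by
  obtain ⟨r, hr0, hr⟩ := K.ex
  have hS : 0 < S.r c := S.pos c
  refine ⟨min r (2 * S.r c), lt_min hr0 (by linarith), min_le_right _ _, ?_⟩
  intro j j' b b' hb hb1 hb' hb1' he
  have hA := AE.of1 hγ
  have hm : b ∈ PDv S c := ⟨Or.inr hb, hb1.trans_le (min_le_right _ _)⟩
  have hm' : b' ∈ PDv S c := ⟨Or.inr hb', hb1'.trans_le (min_le_right _ _)⟩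
  have hb0 : b ≠ 0 := norm_pos_iff.1 hb
  have hb0' : b' ≠ 0 := norm_pos_iff.1 hb'
  have hpow : b ^ lx T c = b' ^ lx T c := by
    have e1 := hA.pr j b hm
    have e2 := hA.pr j' b' hm'
    rw [he, e2] at e1
    exact (add_left_cancel e1).symm
  obtain ⟨θ, hθ, hth⟩ := map_th1 hc.1 hn hb0 hb0' hpow
  have hmt := hA.matchpt hm hm' he hθ (fun α => congrArg Prod.fst (hth α))
    (fun α => congrArg Prod.snd (hth α))
  have hsm : ∀ᶠ α in 𝓝 (0 : ℂ), ‖α‖ < min r (2 * S.r c) ∧ ‖θ * α‖ < min r (2 * S.r c) := by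
    have h1 : Tendsto (fun α : ℂ => ‖α‖) (𝓝 0) (𝓝 0) := tendsto_norm_zero
    have h2 : Tendsto (fun α : ℂ => ‖θ * α‖) (𝓝 0) (𝓝 0) := by
      have : Continuous fun α : ℂ => ‖θ * α‖ := by fun_prop
      simpa using this.tendsto 0
    have hpos : 0 < min r (2 * S.r c) := lt_min hr0 (by linarith)
    exact (h1.eventually (gt_mem_nhds hpos)).and (h2.eventually (gt_mem_nhds hpos))
  have hev : ∀ᶠ α in 𝓝 (0 : ℂ), α ≠ 0 → wc S c j (α, b) = wc S c j' (θ * α, b') ∧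
      ‖α‖ < min r (2 * S.r c) ∧ ‖θ * α‖ < min r (2 * S.r c) := by
    filter_upwards [hmt, hsm] with α a1 a2 h0
    exact ⟨a1 h0, a2⟩
  obtain ⟨α, h0, e1, e2, e3⟩ := exists_ne_of_ev hev
  have g : T.Gen c (α, b) := by
    cases c with
    | edge i k k' => exact ⟨h0, hb0⟩
    | leg i => exact ⟨h0, hb0⟩
    | vert i k w => exact absurd trivial hn
  have g' : T.Gen c (θ * α, b') := by
    cases c with
    | edge i k k' => exact ⟨mul_ne_zero hθ h0, hb0'⟩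
    | leg i => exact ⟨mul_ne_zero hθ h0, hb0'⟩
    | vert i k w => exact absurd trivial hn
  have l1 := min_le_left r (2 * S.r c)
  have l2 := min_le_right r (2 * S.r c)
  have hw := hW c hc j j' (α, b) (θ * α, b') ⟨e2.trans_le l2, hb1.trans_le l2⟩
    ⟨e3.trans_le l2, hb1'.trans_le l2⟩ g g' e1
  have ht := tk_wd K hr (p := (α, b)) (p' := (θ * α, b')) ⟨e2.trans_le l1, hb1.trans_le l1⟩
    ⟨e3.trans_le l1, hb1'.trans_le l1⟩ g g' e1
  unfold d1
  rw [hw.1, hw.2, ht.1]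

/-- **slopes at infinity** -/
theorem s2_wd {L : Lab U S} (hW : LabWD L) (y : II U → ℝ) {F : Finset (Ch T.m)}
    (K : DKill S F) {c : Ch T.m} (hc : Ok S c) (hE : IsE c) {v : Vtx}
    {γ : Fin T.d → ℂ → XV U v} (hγ : End2 U S c v γ) :
    ∃ r₁ > 0, r₁ ≤ 2 * S.r c ∧ ∀ j j' b b', 0 < ‖b‖ → ‖b‖ < r₁ → 0 < ‖b'‖ → ‖b'‖ < r₁ →
      γ j b = γ j' b' → d2 L y K c j = d2 L y K c j' := by
  obtain ⟨r, hr0, hr⟩ := K.ex
  have hS : 0 < S.r c := S.pos c
  refine ⟨min r (2 * S.r c), lt_min hr0 (by linarith), min_le_right _ _, ?_⟩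
  intro j j' b b' hb hb1 hb' hb1' he
  have hA := AE.of2 hγ
  have hm : b ∈ PDc S c := ⟨hb, hb1.trans_le (min_le_right _ _)⟩
  have hm' : b' ∈ PDc S c := ⟨hb', hb1'.trans_le (min_le_right _ _)⟩
  have hb0 : b ≠ 0 := norm_pos_iff.1 hb
  have hb0' : b' ≠ 0 := norm_pos_iff.1 hb'
  have hpow : b ^ lx T c = b' ^ lx T c := by
    have e1 := hA.pr j b hm
    have e2 := hA.pr j' b' hm'
    rw [he, e2] at e1
    exact (inv_injective e1).symm
  obtain ⟨θ, hθ, hth⟩ := map_th2 hc.1 hE hb0 hb0' hpow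
  have hmt := hA.matchpt hm hm' he hθ (fun α => congrArg Prod.fst (hth α))
    (fun α => congrArg Prod.snd (hth α))
  have hsm : ∀ᶠ α in 𝓝 (0 : ℂ), ‖α‖ < min r (2 * S.r c) ∧ ‖θ * α‖ < min r (2 * S.r c) := by
    have h1 : Tendsto (fun α : ℂ => ‖α‖) (𝓝 0) (𝓝 0) := tendsto_norm_zero
    have h2 : Tendsto (fun α : ℂ => ‖θ * α‖) (𝓝 0) (𝓝 0) := by
      have : Continuous fun α : ℂ => ‖θ * α‖ := by fun_prop
      simpa using this.tendsto 0
    have hpos : 0 < min r (2 * S.r c) := lt_min hr0 (by linarith)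
    exact (h1.eventually (gt_mem_nhds hpos)).and (h2.eventually (gt_mem_nhds hpos))
  have hev : ∀ᶠ α in 𝓝 (0 : ℂ), α ≠ 0 → wc S c j (b, α) = wc S c j' (b', θ * α) ∧
      ‖α‖ < min r (2 * S.r c) ∧ ‖θ * α‖ < min r (2 * S.r c) := by
    filter_upwards [hmt, hsm] with α a1 a2 h0
    exact ⟨a1 h0, a2⟩
  obtain ⟨α, h0, e1, e2, e3⟩ := exists_ne_of_ev hev
  have g : T.Gen c (b, α) := by
    cases c with
    | edge i k k' => exact ⟨hb0, h0⟩
    | leg i => exact absurd hE (by simp [IsE])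
    | vert i k w => exact absurd hE (by simp [IsE])
  have g' : T.Gen c (b', θ * α) := by
    cases c with
    | edge i k k' => exact ⟨hb0', mul_ne_zero hθ h0⟩
    | leg i => exact absurd hE (by simp [IsE])
    | vert i k w => exact absurd hE (by simp [IsE])
  have l1 := min_le_left r (2 * S.r c)
  have l2 := min_le_right r (2 * S.r c)
  have hw := hW c hc j j' (b, α) (b', θ * α) ⟨hb1.trans_le l2, e2.trans_le l2⟩
    ⟨hb1'.trans_le l2, e3.trans_le l2⟩ g g' e1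
  have ht := tk_wd K hr (p := (b, α)) (p' := (b', θ * α)) ⟨hb1.trans_le l1, e2.trans_le l1⟩
    ⟨hb1'.trans_le l1, e3.trans_le l1⟩ g g' e1
  unfold d2
  rw [hw.1, hw.2, ht.2]

lemma isE_ec (v : Vtx) : IsE (ec S v) := trivial

/-- **the slope function near a finite special point** -/
theorem P1 {L : Lab U S} (hE : EndStmt L) (hW : LabWD L) (y : II U → ℝ) {F : Finset (Ch T.m)}
    (K : DKill S F) (δ : ℝ) {v : Vtx} (hv : v ∈ Vs T) {c₀ : ℂ} (hc₀ : c₀ ∈ sp T v) :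
    ∃ (lam : XV U v → ℝ) (r₀ : ℝ), 0 < r₀ ∧
      (∀ x, ‖pV U v x - c₀‖ < r₀ → ∀ᶠ x' in 𝓝 x, lam x' = lam x) ∧
      (∀ c, Ok S c → ¬ IsV c → v1 T c = some v → cx T c = c₀ → ∀ γ, End1 U S c v γ → ∀ j,
        ∀ b : ℂ, 0 < ‖b‖ → ‖b‖ ^ lx T c < r₀ → ‖b‖ < 2 * S.r c →
        lam (γ j b) * lx T c = d1 L y K c j + δ) ∧
      (∀ w : ℂ, 0 < ‖w - c₀‖ → ‖w - c₀‖ < r₀ → ∀ E : ConnectedComponents (XV U v),
        ∑ᶠ x ∈ {x : XV U v | pV U v x = w ∧ (x : ConnectedComponents (XV U v)) = E}, lam x =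
          ∑ c ∈ (NC S).filter (fun c => v1 T c = some v ∧ cx T c = c₀), ∑ j,
            open Classical in if L.e1 c j = some ⟨⟨v, hv⟩, E⟩ then (d1 L y K c j + δ) / lx T c
              else 0) := by
  classical
  by_cases hex : ∃ c, Ok S c ∧ ¬ IsV c ∧ v1 T c = some v ∧ cx T c = c₀
  · obtain ⟨c, hc, hn, h1, hcx⟩ := hex
    obtain ⟨γ, hγ, hlab⟩ := (hE c hc ⟨v, hv⟩).1 h1
    obtain ⟨r₁, hr₁, hr₂, hwd⟩ := s1_wd hW y K hc hn hγ
    have hl : 0 < lx T c := lx_pos hc.1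
    have hlr : (0 : ℝ) < lx T c := by exact_mod_cast hl
    have hA := AE.of1 hγ
    have hD : ∀ b : ℂ, 0 < ‖b‖ → ‖b‖ < r₁ → b ∈ PDv S c := fun b h h' => ⟨Or.inr h, h'.trans_le hr₂⟩
    obtain ⟨lam, q1, q2, q3⟩ := hA.exists_lam hD (fun j => (d1 L y K c j + δ) / lx T c)
      (fun j j' b b' a1 a2 a3 a4 a5 => by
        show (d1 L y K c j + δ) / lx T c = (d1 L y K c j' + δ) / lx T c
        rw [hwd j j' b b' a1 a2 a3 a4 a5])
      (fun b a1 a2 N hN => op1 (cx T c) hl a1 hN)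
    have hroot : ∀ w : ℂ, 0 < ‖w - c₀‖ → ‖w - c₀‖ < r₁ ^ lx T c →
        ∃ b : ℂ, 0 < ‖b‖ ∧ ‖b‖ < r₁ ∧ w = cx T c + b ^ lx T c := by
      intro w hw hw'
      obtain ⟨b, hb⟩ := IsAlgClosed.exists_pow_nat_eq (w - c₀) hl
      have hnb : ‖b‖ ^ lx T c = ‖w - c₀‖ := by rw [← norm_pow, hb]
      refine ⟨b, ?_, ?_, ?_⟩
      · rw [norm_pos_iff]
        rintro rfl
        rw [norm_zero, zero_pow hl.ne'] at hnb
        exact hw.ne hnb
      · exact lt_of_pow_lt_pow_left₀ _ hr₁.le (by rw [hnb]; exact hw')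
      · rw [hb, hcx]; ring
    refine ⟨lam, r₁ ^ lx T c, pow_pos hr₁ _, ?_, ?_, ?_⟩
    · intro x hx
      have hne : pV U v x ≠ c₀ := fun h => x.2.2.1 (by
        have h' : x.1.1 = c₀ := h
        rw [h']; exact hc₀)
      exact q2 x (hroot _ (norm_pos_iff.2 (sub_ne_zero.2 hne)) hx)
    · intro c' hc' hn' h1' hcx' γ' hγ' j b hb hb1 hb2
      obtain rfl : c = c' := att_unique hc hc' hn hn' h1 h1' (hcx.trans hcx'.symm)
      have hb3 : ‖b‖ < r₁ := lt_of_pow_lt_pow_left₀ _ hr₁.le hb1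
      have he : γ' j b = γ j b := (AE.of1 hγ').uniq hA j (hD b hb hb3)
      rw [he, q1 j b hb hb3]
      field_simp
    · intro w hw hw' E
      obtain ⟨b, hb, hb1, rfl⟩ := hroot w hw hw'
      rw [q3 b hb hb1 fun x => (x : ConnectedComponents (XV U v)) = E]
      have hf : (NC S).filter (fun c => v1 T c = some v ∧ cx T c = c₀) = {c} := by
        ext c'
        simp only [Finset.mem_filter, Finset.mem_singleton]
        constructor
        · rintro ⟨h2, h3, h4⟩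
          obtain ⟨h5, h6⟩ := mem_NC.1 h2
          exact att_unique h5 hc h6 hn h3 h1 (h4.trans hcx.symm)
        · rintro rfl
          exact ⟨mem_NC.2 ⟨hc, hn⟩, h1, hcx⟩
      rw [hf, Finset.sum_singleton]
      refine Finset.sum_congr rfl fun j _ => ?_
      have h2 := hlab j b (hD b hb hb1)
      have h3 : L.e1 c j = some ⟨⟨v, hv⟩, E⟩ ↔
          ((γ j b : XV U v) : ConnectedComponents (XV U v)) = E := by
        rw [h2]
        constructor
        · intro h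
          have h4 := Option.some.inj h
          exact eq_of_heq (Sigma.mk.inj h4).2
        · intro h
          rw [← h]; rfl
      by_cases h4 : ((γ j b : XV U v) : ConnectedComponents (XV U v)) = E
      · rw [if_pos h4, if_pos (h3.2 h4)]
      · rw [if_neg h4, if_neg (fun h => h4 (h3.1 h))]
  · refine ⟨fun _ => 0, 1, one_pos, fun x _ => Eventually.of_forall fun _ => rfl, ?_, ?_⟩
    · intro c hc hn h1 hcx
      exact absurd ⟨c, hc, hn, h1, hcx⟩ hex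
    · intro w _ _ E
      have hf : (NC S).filter (fun c => v1 T c = some v ∧ cx T c = c₀) = ∅ := by
        rw [Finset.filter_eq_empty_iff]
        rintro c hc ⟨h1, h2⟩
        exact hex ⟨c, (mem_NC.1 hc).1, (mem_NC.1 hc).2, h1, h2⟩
      rw [hf, Finset.sum_empty]
      simp

/-- **the slope function near infinity** -/
theorem P2 {L : Lab U S} (hE : EndStmt L) (hW : LabWD L) (y : II U → ℝ) {F : Finset (Ch T.m)}
    (K : DKill S F) (δ : ℝ) {v : Vtx} (hv : v ∈ Vs T) :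
    ∃ (lam : XV U v → ℝ) (r₀ : ℝ), 0 < r₀ ∧
      (∀ x, r₀⁻¹ < ‖pV U v x‖ → ∀ᶠ x' in 𝓝 x, lam x' = lam x) ∧
      (∀ c, Ok S c → v2 T c = some v → ∀ γ, End2 U S c v γ → ∀ j,
        ∀ b : ℂ, 0 < ‖b‖ → ‖b‖ ^ lx T c < r₀ → ‖b‖ < 2 * S.r c →
        lam (γ j b) * lx T c = d2 L y K c j + δ) ∧
      (∀ w : ℂ, r₀⁻¹ < ‖w‖ → ∀ E : ConnectedComponents (XV U v),
        ∑ᶠ x ∈ {x : XV U v | pV U v x = w ∧ (x : ConnectedComponents (XV U v)) = E}, lam x =
          ∑ j, open Classical in if L.e2 (ec S v) j = some ⟨⟨v, hv⟩, E⟩ then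
            (d2 L y K (ec S v) j + δ) / lx T (ec S v) else 0) := by
  classical
  obtain ⟨c, hcd⟩ : ∃ c, c = ec S v := ⟨_, rfl⟩
  rw [← hcd]
  have hc : Ok S c := by rw [hcd]; exact Lab_931.ok_ec S hv
  have hcE : IsE c := by rw [hcd]; exact isE_ec v
  have h1 : v2 T c = some v := by rw [hcd]; exact Lab_931.v2_ec S hv
  obtain ⟨γ, hγ, hlab⟩ := (hE c hc ⟨v, hv⟩).2 h1
  obtain ⟨r₁, hr₁, hr₂, hwd⟩ := s2_wd hW y K hc hcE hγ
  have hl : 0 < lx T c := lx_pos hc.1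
  have hlr : (0 : ℝ) < lx T c := by exact_mod_cast hl
  have hA := AE.of2 hγ
  have hD : ∀ b : ℂ, 0 < ‖b‖ → ‖b‖ < r₁ → b ∈ PDc S c := fun b h h' => ⟨h, h'.trans_le hr₂⟩
  obtain ⟨lam, q1, q2, q3⟩ := hA.exists_lam hD (fun j => (d2 L y K c j + δ) / lx T c)
    (fun j j' b b' a1 a2 a3 a4 a5 => by
      show (d2 L y K c j + δ) / lx T c = (d2 L y K c j' + δ) / lx T c
      rw [hwd j j' b b' a1 a2 a3 a4 a5])
    (fun b a1 a2 N hN => op2 hl a1 hN)
  have hroot : ∀ w : ℂ, (r₁ ^ lx T c)⁻¹ < ‖w‖ →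
      ∃ b : ℂ, 0 < ‖b‖ ∧ ‖b‖ < r₁ ∧ w = (b ^ lx T c)⁻¹ := by
    intro w hw
    have hp : 0 < r₁ ^ lx T c := pow_pos hr₁ _
    have hw0 : 0 < ‖w‖ := (inv_pos.2 hp).trans hw
    obtain ⟨b, hb⟩ := IsAlgClosed.exists_pow_nat_eq w⁻¹ hl
    have hnb : ‖b‖ ^ lx T c = ‖w‖⁻¹ := by rw [← norm_pow, hb, norm_inv]
    refine ⟨b, ?_, ?_, ?_⟩
    · rw [norm_pos_iff]
      rintro rfl
      rw [norm_zero, zero_pow hl.ne'] at hnb
      exact (inv_pos.2 hw0).ne hnb
    · refine lt_of_pow_lt_pow_left₀ (lx T c) hr₁.le ?_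
      rw [hnb]
      exact inv_lt_of_inv_lt₀ hp hw
    · rw [hb, inv_inv]
  refine ⟨lam, r₁ ^ lx T c, pow_pos hr₁ _, ?_, ?_, ?_⟩
  · intro x hx
    exact q2 x (hroot _ hx)
  · intro c' hc' h1' γ' hγ' j b hb hb1 hb2
    obtain rfl : c = c' := by rw [hcd, v2_eq hc' h1']
    have hb3 : ‖b‖ < r₁ := lt_of_pow_lt_pow_left₀ _ hr₁.le hb1
    have he : γ' j b = γ j b := (AE.of2 hγ').uniq hA j (hD b hb hb3)
    rw [he, q1 j b hb hb3]
    field_simp
  · intro w hw E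
    obtain ⟨b, hb, hb1, rfl⟩ := hroot w hw
    rw [q3 b hb hb1 fun x => (x : ConnectedComponents (XV U v)) = E]
    refine Finset.sum_congr rfl fun j _ => ?_
    have h2 := hlab j b (hD b hb hb1)
    have h3 : L.e2 c j = some ⟨⟨v, hv⟩, E⟩ ↔
        ((γ j b : XV U v) : ConnectedComponents (XV U v)) = E := by
      rw [h2]
      constructor
      · intro h
        have h4 := Option.some.inj h
        exact eq_of_heq (Sigma.mk.inj h4).2
      · intro h
        rw [← h]; rfl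
    by_cases h4 : ((γ j b : XV U v) : ConnectedComponents (XV U v)) = E
    · rw [if_pos h4, if_pos (h3.2 h4)]
    · rw [if_neg h4, if_neg (fun h => h4 (h3.1 h))]

end Crest.Agent.R257.Hv_174
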