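import Mathlib
import Crest.Agent.R257.Hv3_174

/-!
Row 257 (S0395), task C-HV (helper174), file 4: poles and the function on one curve.

* `P3`   : the interior poles;
* `perV` : the function on one curve `XV U v`, from `RSWStmt`.
-/

set_option autoImplicit false
set_option linter.unusedSectionVars false

open Polynomial Set Filter Topology Metric
open Crest.AlgGeometry.Germ Crest.Agent.R257.AJ387 Crest.Agent.R257.T387
open Crest.Agent.R257.Gr1_157 Crest.Agent.R257.HoB_843 Crest.Agent.R257.BP_258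
open Crest.Agent.R257.Wt_258 Crest.Agent.R257.Cpt1_419

noncomputable section

namespace Crest.Agent.R257.Hv_174

variable {f : (Fin 3 → ℂ) → ℂ} {T : TB f} {S : Sh T} {U : Tub T}

lemma zero_mem_PDv {c : Ch T.m} (hV : IsV c) : (0 : ℂ) ∈ PDv S c :=
  ⟨Or.inl hV, by rw [norm_zero]; have := S.pos c; linarith⟩

/-- **the interior poles** -/
theorem P3 {L : Lab U S} (hE : EndStmt L) {F : Finset (Ch T.m)} (K : DKill S F)
    (hF : ∀ c ∈ F, Ok S c) (δ : ℝ) {v : Vtx} (hv : v ∈ Vs T) :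
    ∃ (Q : Finset (XV U v)) (t : XV U v → ℝ), (↑Q : Set (XV U v)) = QD K v ∧
      (∀ c j γ, (c, j) ∈ K.κ → IsV c → v1 T c = some v → End1 U S c v γ →
        γ j 0 ∈ Q ∧ t (γ j 0) = K.t (c, j) * K.a (c, j) + δ) ∧
      ∀ E : ConnectedComponents (XV U v),
        (∑ q ∈ Q, open Classical in if (q : ConnectedComponents (XV U v)) = E then t q else 0) =
        ∑ c ∈ open Classical in F.filter IsV, ∑ j,
          open Classical in if (c, j) ∈ K.κ ∧ L.e1 c j = some ⟨⟨v, hv⟩, E⟩ then K.t (c, j) * K.a (c, j) + δ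
            else 0 := by
  classical
  set A : Finset (Ch T.m × Fin T.d) :=
    ((F.filter IsV) ×ˢ Finset.univ).filter (fun a => a ∈ K.κ ∧ v1 T a.1 = some v) with hA
  have hmem : ∀ {a : Ch T.m × Fin T.d}, a ∈ A ↔
      (a.1 ∈ F ∧ IsV a.1) ∧ a ∈ K.κ ∧ v1 T a.1 = some v := by
    intro a
    rw [hA, Finset.mem_filter, Finset.mem_product, Finset.mem_filter]
    simp
  have hex : ∀ a : {a // a ∈ A}, ∃ γ, End1 U S a.1.1 v γ ∧
      ∀ j, ∀ b ∈ PDv S a.1.1, L.e1 a.1.1 j = some (lab U ⟨v, hv⟩ (γ j b)) := by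
    intro a
    obtain ⟨⟨h1, h2⟩, h3, h4⟩ := hmem.1 a.2
    exact (hE a.1.1 (hF _ h1) ⟨v, hv⟩).1 h4
  choose γ hγ hlab using hex
  set φ : {a // a ∈ A} → XV U v := fun a => γ a a.1.2 0 with hφ
  have hpφ : ∀ a, pV U v (φ a) = cx T a.1.1 := by
    intro a
    obtain ⟨⟨h1, h2⟩, h3, h4⟩ := hmem.1 a.2
    have h5 := (hγ a).pr a.1.2 0 (zero_mem_PDv h2)
    rw [(vert_eq (hF _ h1) h2 h4).2.2.2, pow_one, add_zero] at h5
    exact h5
  have hinj : Function.Injective φ := by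
    intro a a' h
    obtain ⟨⟨h1, h2⟩, h3, h4⟩ := hmem.1 a.2
    obtain ⟨⟨h1', h2'⟩, h3', h4'⟩ := hmem.1 a'.2
    have h5 : cx T a.1.1 = cx T a'.1.1 := by rw [← hpφ, ← hpφ, h]
    have h6 : a.1.1 = a'.1.1 := vert_unique (hF _ h1) (hF _ h1') h2 h2' h4 h4' h5
    obtain ⟨⟨c, j⟩, ha⟩ := a
    obtain ⟨⟨c', j'⟩, ha'⟩ := a'
    obtain rfl : c = c' := h6
    have h7 : γ ⟨(c, j), ha⟩ j' 0 = γ ⟨(c, j'), ha'⟩ j' 0 :=
      (AE.of1 (hγ ⟨(c, j), ha⟩)).uniq (AE.of1 (hγ ⟨(c, j'), ha'⟩)) j' (zero_mem_PDv h2)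
    have h8 : γ ⟨(c, j), ha⟩ j 0 = γ ⟨(c, j), ha⟩ j' 0 := h.trans h7.symm
    have h9 : j = j' := (hγ ⟨(c, j), ha⟩).inj 0 (zero_mem_PDv h2) h8
    subst h9
    rfl
  set t : XV U v → ℝ := fun q =>
    if h : ∃ a, φ a = q then K.t h.choose.1 * K.a h.choose.1 + δ else 0 with ht
  have htφ : ∀ a, t (φ a) = K.t a.1 * K.a a.1 + δ := by
    intro a
    have hx : ∃ a', φ a' = φ a := ⟨a, rfl⟩
    have h1 : t (φ a) = K.t hx.choose.1 * K.a hx.choose.1 + δ := by rw [ht]; exact dif_pos hx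
    rw [h1, hinj hx.choose_spec]
  refine ⟨Finset.univ.image φ, t, ?_, ?_, ?_⟩
  · ext q
    simp only [Finset.coe_image, Finset.coe_univ, Set.image_univ, Set.mem_range, QD,
      Set.mem_ofPred_eq]
    constructor
    · rintro ⟨a, rfl⟩
      obtain ⟨⟨h1, h2⟩, h3, h4⟩ := hmem.1 a.2
      exact ⟨a.1.1, a.1.2, γ a, h3, h2, h4, hγ a, rfl⟩
    · rintro ⟨c, j, γ', h1, h2, h3, h4, rfl⟩
      have ha : (c, j) ∈ A := hmem.2 ⟨⟨K.mem _ h1, h2⟩, h1, h3⟩
      exact ⟨⟨(c, j), ha⟩, (AE.of1 (hγ ⟨(c, j), ha⟩)).uniq (AE.of1 h4) j (zero_mem_PDv h2)⟩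
  · intro c j γ' h1 h2 h3 h4
    have ha : (c, j) ∈ A := hmem.2 ⟨⟨K.mem _ h1, h2⟩, h1, h3⟩
    have h5 : φ ⟨(c, j), ha⟩ = γ' j 0 :=
      (AE.of1 (hγ ⟨(c, j), ha⟩)).uniq (AE.of1 h4) j (zero_mem_PDv h2)
    rw [← h5]
    exact ⟨Finset.mem_image_of_mem _ (Finset.mem_univ _), htφ _⟩
  · intro E
    rw [Finset.sum_image (fun a _ a' _ h => hinj h)]
    have h1 : ∀ a : {a // a ∈ A}, (if ((φ a : XV U v) : ConnectedComponents (XV U v)) = E then
        t (φ a) else 0) = (fun a : Ch T.m × Fin T.d =>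
          if L.e1 a.1 a.2 = some ⟨⟨v, hv⟩, E⟩ then K.t a * K.a a + δ else 0) a.1 := by
      intro a
      obtain ⟨⟨h1, h2⟩, h3, h4⟩ := hmem.1 a.2
      have h5 := hlab a a.1.2 0 (zero_mem_PDv h2)
      have h6 : L.e1 a.1.1 a.1.2 = some ⟨⟨v, hv⟩, E⟩ ↔
          ((φ a : XV U v) : ConnectedComponents (XV U v)) = E := by
        rw [h5]
        constructor
        · intro h
          exact eq_of_heq (Sigma.mk.inj (Option.some.inj h)).2
        · intro h
          rw [← h]; rfl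
      show (if ((φ a : XV U v) : ConnectedComponents (XV U v)) = E then t (φ a) else 0) =
        if L.e1 a.1.1 a.1.2 = some ⟨⟨v, hv⟩, E⟩ then K.t a.1 * K.a a.1 + δ else 0
      rw [htφ]
      by_cases h7 : ((φ a : XV U v) : ConnectedComponents (XV U v)) = E
      · rw [if_pos h7, if_pos (h6.2 h7)]
      · rw [if_neg h7, if_neg fun h => h7 (h6.1 h)]
    rw [Finset.sum_congr rfl fun a _ => h1 a]
    rw [Finset.univ_eq_attach, Finset.sum_attach A (fun a : Ch T.m × Fin T.d =>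
          if L.e1 a.1 a.2 = some ⟨⟨v, hv⟩, E⟩ then K.t a * K.a a + δ else 0)]
    rw [hA, Finset.sum_filter, Finset.sum_product]
    refine Finset.sum_congr rfl fun c _ => Finset.sum_congr rfl fun j _ => ?_
    by_cases h2 : L.e1 c j = some ⟨⟨v, hv⟩, E⟩
    · by_cases h3 : (c, j) ∈ K.κ
      · have h4 : v1 T c = some v := by
          have h5 := L.v_e1 c (hF _ (K.mem _ h3)) j
          rw [h2] at h5
          exact h5.symm
        rw [if_pos ⟨h3, h4⟩, if_pos h2, if_pos ⟨h3, h2⟩]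
      · rw [if_neg (fun h => h3 h.1), if_neg (fun h => h3 h.1)]
    · simp [h2]

/-- total slope of a component -/
def tot (L : Lab U S) (y : II U → ℝ) {F : Finset (Ch T.m)} (K : DKill S F) (δ : ℝ)
    (E : II U) : ℝ :=
  (∑ c ∈ NC S, ∑ j, open Classical in if L.e1 c j = some E then
    (d1 L y K c j + δ) / lx T c else 0) +
  (∑ j, open Classical in if L.e2 (ec S E.1.1) j = some E then
    (d2 L y K (ec S E.1.1) j + δ) / lx T (ec S E.1.1) else 0) +
  (∑ c ∈ open Classical in F.filter IsV, ∑ j,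
    open Classical in if (c, j) ∈ K.κ ∧ L.e1 c j = some E then K.t (c, j) * K.a (c, j) + δ else 0)

lemma tot_cont (L : Lab U S) (y : II U → ℝ) {F : Finset (Ch T.m)} (K : DKill S F)
    (E : II U) : Continuous fun δ => tot L y K δ E := by
  classical
  unfold tot
  refine (Continuous.add ?_ ?_).add ?_
  · refine continuous_finsetSum _ fun c _ => continuous_finsetSum _ fun j _ => ?_
    split_ifs
    · exact (continuous_const.add continuous_id).div_const _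
    · exact continuous_const
  · refine continuous_finsetSum _ fun j _ => ?_
    split_ifs
    · exact (continuous_const.add continuous_id).div_const _
    · exact continuous_const
  · refine continuous_finsetSum _ fun c _ => continuous_finsetSum _ fun j _ => ?_
    split_ifs
    · exact continuous_const.add continuous_id
    · exact continuous_const

lemma log_pow_sq {b : ℝ} (l : ℕ) : Real.log ((b ^ l) ^ 2) = l * Real.log (b ^ 2) := by
  rw [← pow_mul, mul_comm l 2, pow_mul, Real.log_pow]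

/-- the function on one curve -/
theorem perV (hRSW : RSWStmt) {L : Lab U S} (hE : EndStmt L) (hW : LabWD L) (y : II U → ℝ)
    {F : Finset (Ch T.m)} (K : DKill S F) (hF : ∀ c ∈ F, Ok S c) {δ : ℝ} {v : Vtx}
    (hv : v ∈ Vs T) (hneg : ∀ E : ConnectedComponents (XV U v), tot L y K δ ⟨⟨v, hv⟩, E⟩ < 0) :
    ∃ (τ C : ℝ) (h : XV U v → ℝ), 0 < τ ∧ SmPos (pV U v) (QD K v) h ∧ ∀ c, Ok S c →
      (v1 T c = some v → ∀ γ, End1 U S c v γ → ∀ j, (IsV c → (c, j) ∈ K.κ) →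
        ∀ b : ℂ, 0 < ‖b‖ → ‖b‖ < τ → ‖b‖ < S.r c →
        |h (γ j b) - (d1 L y K c j + δ) * Real.log (‖b‖ ^ 2)| ≤ C) ∧
      (v2 T c = some v → ∀ γ, End2 U S c v γ → ∀ j,
        ∀ a : ℂ, 0 < ‖a‖ → ‖a‖ < τ → ‖a‖ < S.r c →
        |h (γ j a) - (d2 L y K c j + δ) * Real.log (‖a‖ ^ 2)| ≤ C) := by
  classical
  have hP1 : ∀ c₀ : ℂ, ∃ (lam : XV U v → ℝ) (r₀ : ℝ), c₀ ∈ sp T v → 0 < r₀ ∧
      (∀ x, ‖pV U v x - c₀‖ < r₀ → ∀ᶠ x' in 𝓝 x, lam x' = lam x) ∧
      (∀ c, Ok S c → ¬ IsV c → v1 T c = some v → cx T c = c₀ → ∀ γ, End1 U S c v γ → ∀ j,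
        ∀ b : ℂ, 0 < ‖b‖ → ‖b‖ ^ lx T c < r₀ → ‖b‖ < 2 * S.r c →
        lam (γ j b) * lx T c = d1 L y K c j + δ) ∧
      (∀ w : ℂ, 0 < ‖w - c₀‖ → ‖w - c₀‖ < r₀ → ∀ E : ConnectedComponents (XV U v),
        ∑ᶠ x ∈ {x : XV U v | pV U v x = w ∧ (x : ConnectedComponents (XV U v)) = E}, lam x =
          ∑ c ∈ (NC S).filter (fun c => v1 T c = some v ∧ cx T c = c₀), ∑ j,
            open Classical in if L.e1 c j = some ⟨⟨v, hv⟩, E⟩ then (d1 L y K c j + δ) / lx T c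
              else 0) := by
    intro c₀
    by_cases hc₀ : c₀ ∈ sp T v
    · obtain ⟨lam, r₀, h⟩ := P1 hE hW y K δ hv hc₀
      exact ⟨lam, r₀, fun _ => h⟩
    · exact ⟨fun _ => 0, 0, fun h => absurd h hc₀⟩
  choose lam₁ r₁ hP1 using hP1
  obtain ⟨lam₂, r₂, hr₂, a1, a2, a3⟩ := P2 hE hW y K δ hv
  obtain ⟨Q, t, hQ, hQ1, hQ2⟩ := P3 hE K hF δ hv
  -- the radius
  have hinv : Tendsto (fun r : ℝ => r⁻¹) (𝓝[>] 0) atTop := tendsto_inv_nhdsGT_zero
  have hsm : ∀ x : ℝ, 0 < x → ∀ᶠ r in 𝓝[>] (0 : ℝ), r < x := fun x hx =>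
    nhdsWithin_le_nhds (gt_mem_nhds hx)
  have hr : ∀ᶠ r in 𝓝[>] (0 : ℝ), 0 < r ∧ (∀ c ∈ sp T v, ∀ c' ∈ sp T v, c ≠ c' → 2 * r ≤ ‖c - c'‖) ∧
      (∀ c ∈ sp T v, ‖c‖ + 2 * r ≤ r⁻¹) ∧ (∀ c ∈ sp T v, r < r₁ c) ∧ r < r₂ ∧
      (∀ q ∈ Q, (∀ c ∈ sp T v, r ≤ ‖pV U v q - c‖) ∧ ‖pV U v q‖ ≤ r⁻¹) := by
    refine Eventually.and self_mem_nhdsWithin (Eventually.and ?_ (Eventually.and ?_
      (Eventually.and ?_ (Eventually.and (hsm _ hr₂) ?_))))
    · rw [Finset.eventually_all]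
      intro c hc
      rw [Finset.eventually_all]
      intro c' hc'
      by_cases h : c = c'
      · exact Eventually.of_forall fun r h' => absurd h h'
      · have h1 : 0 < ‖c - c'‖ := norm_pos_iff.2 (sub_ne_zero.2 h)
        filter_upwards [hsm (‖c - c'‖ / 2) (by linarith)] with r hr _
        linarith
    · rw [Finset.eventually_all]
      intro c hc
      filter_upwards [hsm (1 / 2) (by norm_num), hinv.eventually_ge_atTop (‖c‖ + 1)] with r h1 h2
      linarith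
    · rw [Finset.eventually_all]
      intro c hc
      exact hsm _ (hP1 c hc).1
    · rw [Finset.eventually_all]
      intro q hq
      refine Eventually.and ?_ (hinv.eventually_ge_atTop _)
      rw [Finset.eventually_all]
      intro c hc
      have h1 : pV U v q ≠ c := fun h => q.2.2.1 (by
        have h' : q.1.1 = c := h
        rw [h']; exact hc)
      have h2 : 0 < ‖pV U v q - c‖ := norm_pos_iff.2 (sub_ne_zero.2 h1)
      filter_upwards [hsm _ h2] with r hr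
      exact hr.le
  obtain ⟨r, hr0, hr1, hr2, hr3, hr4, hr5⟩ := hr.exists
  have hri : 0 < r⁻¹ := inv_pos.2 hr0
  obtain ⟨h, C, hs, e1, e2, e3⟩ := hRSW (sp T v) (XV U v) inferInstance inferInstance
    (Tb_941.covV hv) Q t (fun o => o.elim lam₂ lam₁) r ⟨hr0, hr1, hr2⟩ hr5
    (fun c hc x hx => (hP1 c hc).2.1 x (lt_trans hx (hr3 c hc)))
    (fun x hx => a1 x (lt_trans ((inv_lt_inv₀ hr₂ hr0).2 hr4) hx)) (by
      intro E
      have n1 : ∀ c : ℂ, ‖(c + (r / 2 : ℝ) : ℂ) - c‖ = r / 2 := fun c => by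
        rw [add_sub_cancel_left, Complex.norm_real, Real.norm_of_nonneg (by linarith)]
      have n2 : ‖((2 * r⁻¹ : ℝ) : ℂ)‖ = 2 * r⁻¹ := by
        rw [Complex.norm_real, Real.norm_of_nonneg (by linarith)]
      refine ⟨fun o => o.elim ((2 * r⁻¹ : ℝ) : ℂ) (fun c => c + (r / 2 : ℝ)), ?_, ?_, ?_⟩
      · intro c hc
        show 0 < ‖(c + (r / 2 : ℝ) : ℂ) - c‖ ∧ ‖(c + (r / 2 : ℝ) : ℂ) - c‖ < r
        rw [n1]
        constructor <;> linarith
      · show r⁻¹ < ‖((2 * r⁻¹ : ℝ) : ℂ)‖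
        rw [n2]
        linarith
      · have m1 : ∀ c ∈ sp T v, ∑ᶠ x ∈ {x : XV U v | pV U v x = c + (r / 2 : ℝ) ∧
            (x : ConnectedComponents (XV U v)) = E}, lam₁ c x =
            ∑ c' ∈ (NC S).filter (fun c' => v1 T c' = some v ∧ cx T c' = c), ∑ j,
            if L.e1 c' j = some ⟨⟨v, hv⟩, E⟩ then (d1 L y K c' j + δ) / lx T c' else 0 := by
          intro c hc
          have m2 := (hP1 c hc).2.2.2 (c + (r / 2 : ℝ)) (by rw [n1]; linarith)
            (by rw [n1]; linarith [hr3 c hc]) E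
          rw [m2]
        have m3 : ∑ᶠ x ∈ {x : XV U v | pV U v x = ((2 * r⁻¹ : ℝ) : ℂ) ∧
            (x : ConnectedComponents (XV U v)) = E}, lam₂ x =
            ∑ j, if L.e2 (ec S v) j = some ⟨⟨v, hv⟩, E⟩ then
            (d2 L y K (ec S v) j + δ) / lx T (ec S v) else 0 := by
          rw [a3 _ (by
            rw [n2]
            have := (inv_lt_inv₀ hr₂ hr0).2 hr4
            linarith) E]
        have m4 : ∑ c ∈ sp T v, ∑ c' ∈ (NC S).filter (fun c' => v1 T c' = some v ∧ cx T c' = c), ∑ j,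
            (if L.e1 c' j = some ⟨⟨v, hv⟩, E⟩ then (d1 L y K c' j + δ) / lx T c' else 0) =
            ∑ c' ∈ NC S, ∑ j,
              (if L.e1 c' j = some ⟨⟨v, hv⟩, E⟩ then (d1 L y K c' j + δ) / lx T c' else 0) := by
          simp only [Finset.sum_filter]
          rw [Finset.sum_comm]
          refine Finset.sum_congr rfl fun c' hc' => ?_
          by_cases h1 : v1 T c' = some v
          · simp only [h1, true_and]
            rw [Finset.sum_ite_eq (sp T v) (cx T c'), if_pos (cx_mem (mem_NC.1 hc').2 h1)]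
          · have h2 : ∀ j, ¬ L.e1 c' j = some ⟨⟨v, hv⟩, E⟩ := by
              intro j h
              have h3 := L.v_e1 c' (mem_NC.1 hc').1 j
              rw [h] at h3
              exact h1 h3.symm
            simp only [h1, false_and, if_false, h2, Finset.sum_const_zero]
        have m5 := hneg E
        unfold tot at m5
        have m6 := hQ2 E
        have m7 : (∑ c ∈ sp T v, ∑ᶠ x ∈ {x : XV U v | pV U v x = c + (r / 2 : ℝ) ∧
            (x : ConnectedComponents (XV U v)) = E}, lam₁ c x) +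
            (∑ᶠ x ∈ {x : XV U v | pV U v x = ((2 * r⁻¹ : ℝ) : ℂ) ∧
            (x : ConnectedComponents (XV U v)) = E}, lam₂ x) +
            (∑ q ∈ Q, if (q : ConnectedComponents (XV U v)) = E then t q else 0) < 0 := by
          rw [Finset.sum_congr rfl m1, m4, m3]
          rw [m6]
          exact m5
        exact m7)
  -- vertex poles
  have hG : ∀ a ∈ F ×ˢ (Finset.univ : Finset (Fin T.d)), ∀ᶠ τ in 𝓝[>] (0 : ℝ),
      a ∈ K.κ → IsV a.1 → v1 T a.1 = some v → ∀ γ, End1 U S a.1 v γ →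
        ∀ b : ℂ, 0 < ‖b‖ → ‖b‖ < τ → ‖b‖ < S.r a.1 →
        |h (γ a.2 b) - (d1 L y K a.1 a.2 + δ) * Real.log (‖b‖ ^ 2)| ≤ C := by
    intro a ha
    by_cases hk : a ∈ K.κ ∧ IsV a.1 ∧ v1 T a.1 = some v
    swap
    · exact Eventually.of_forall fun τ h1 h2 h3 => absurd ⟨h1, h2, h3⟩ hk
    obtain ⟨hk, hV, h1⟩ := hk
    have hc : Ok S a.1 := hF _ (K.mem _ hk)
    obtain ⟨γ₀, hγ₀, -⟩ := (hE a.1 hc ⟨v, hv⟩).1 h1
    obtain ⟨hq, htq⟩ := hQ1 a.1 a.2 γ₀ hk hV h1 hγ₀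
    have hlx : lx T a.1 = 1 := (vert_eq hc hV h1).2.2.2
    have hPD : PDv S a.1 ∈ 𝓝 (0 : ℂ) := by
      have : ball (0 : ℂ) (2 * S.r a.1) ∈ 𝓝 (0 : ℂ) := ball_mem_nhds _ (by
        have := S.pos a.1; linarith)
      refine mem_of_superset this fun b hb => ⟨Or.inl hV, ?_⟩
      simpa using hb
    have hcont : ContinuousAt (γ₀ a.2) 0 := (hγ₀.cont a.2).continuousAt hPD
    have h2 := hcont.eventually (e3 _ hq)
    obtain ⟨ε, hε, hε2⟩ := Metric.eventually_nhds_iff.1 h2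
    filter_upwards [hsm ε hε] with τ hτ _ _ _ γ hγ b hb hb1 hb2
    have hbm : b ∈ PDv S a.1 := ⟨Or.inl hV, by linarith [S.pos a.1]⟩
    have h3 : γ a.2 b = γ₀ a.2 b := (AE.of1 hγ).uniq (AE.of1 hγ₀) a.2 hbm
    have p0 := hγ₀.pr a.2 0 (zero_mem_PDv hV)
    have pb := hγ₀.pr a.2 b hbm
    rw [hlx, pow_one] at p0 pb
    have h4 : pV U v (γ₀ a.2 b) - pV U v (γ₀ a.2 0) = b := by rw [p0, pb]; ring
    have h5 : γ₀ a.2 b ≠ γ₀ a.2 0 := by
      intro h
      rw [h, sub_self] at h4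
      rw [← h4, norm_zero] at hb
      exact lt_irrefl _ hb
    have h6 := hε2 (y := b) (by rw [dist_zero_right]; exact hb1.trans hτ) h5
    have h7 : d1 L y K a.1 a.2 = K.t a * K.a a := by
      have hnE : ¬ IsE a.1 := by
        intro h
        have hV' := hV
        revert h hV'
        cases a.1 <;> simp [IsE, IsV]
      unfold d1 dk1
      rw [if_neg hnE, if_pos hk, zero_add]
    have h8 : ((Tb_941.covV hv).p (γ₀ a.2 b)).1 - ((Tb_941.covV hv).p (γ₀ a.2 0)).1 = b := h4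
    rw [h8, htq] at h6
    rw [h3, h7]
    exact h6
  have hτ := (((Finset.eventually_all _).2 hG).and
    ((hsm _ one_pos).and (hsm (r / 2) (by linarith)))).and self_mem_nhdsWithin
  obtain ⟨τ, ⟨hτ1, hτ2, hτ3⟩, hτ0⟩ := hτ.exists
  refine ⟨τ, C, h, hτ0, by rw [← hQ]; exact hs, fun c hc => ⟨?_, ?_⟩⟩
  · intro h1 γ hγ j hj b hb hb1 hb2
    by_cases hV : IsV c
    · have hk := hj hV
      exact hτ1 (c, j) (Finset.mem_product.2 ⟨K.mem _ hk, Finset.mem_univ _⟩) hk hV h1 γ hγ b hb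
        hb1 hb2
    · have hcx := cx_mem hV h1
      have hl : 0 < lx T c := lx_pos hc.1
      have hbm : b ∈ PDv S c := ⟨Or.inr hb, by linarith [S.pos c]⟩
      have hpb := hγ.pr j b hbm
      have hle : ‖b‖ ^ lx T c ≤ ‖b‖ := pow_le_of_le_one (norm_nonneg _) (by linarith) hl.ne'
      have h2 : pV U v (γ j b) - cx T c = b ^ lx T c := by rw [hpb]; ring
      have h3 := (hP1 _ hcx).2.2.1 c hc hV h1 rfl γ hγ j b hb
        (by linarith [hr3 _ hcx]) (by linarith [S.pos c])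
      have h4 := e1 _ hcx (γ j b) (by
        show ‖pV U v (γ j b) - cx T c‖ < r / 2
        rw [h2, norm_pow]
        linarith)
      have h5 : |h (γ j b) - lam₁ (cx T c) (γ j b) *
          Real.log (‖pV U v (γ j b) - cx T c‖ ^ 2)| ≤ C := h4
      rw [h2, norm_pow, log_pow_sq, ← mul_assoc, h3] at h5
      exact h5
  · intro h1 γ hγ j b hb hb1 hb2
    have hl : 0 < lx T c := lx_pos hc.1
    have hbm : b ∈ PDc S c := ⟨hb, by linarith [S.pos c]⟩
    have hpb := hγ.pr j b hbm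
    have hle : ‖b‖ ^ lx T c ≤ ‖b‖ := pow_le_of_le_one (norm_nonneg _) (by linarith) hl.ne'
    have hbp : 0 < ‖b‖ ^ lx T c := pow_pos hb _
    have h3 := a2 c hc h1 γ hγ j b hb (by linarith) (by linarith [S.pos c])
    have h4 := e2 (γ j b) (by
      show 2 * r⁻¹ < ‖pV U v (γ j b)‖
      rw [hpb, norm_inv, norm_pow]
      have h6 : ‖b‖ ^ lx T c < r / 2 := by linarith
      have h7 := (inv_lt_inv₀ (by linarith : (0 : ℝ) < r / 2) hbp).2 h6
      rw [inv_div] at h7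
      rwa [← div_eq_mul_inv])
    have h5 : |h (γ j b) + lam₂ (γ j b) * Real.log (‖pV U v (γ j b)‖ ^ 2)| ≤ C := h4
    rw [hpb, norm_inv, norm_pow, inv_pow, Real.log_inv, log_pow_sq] at h5
    have h6 : h (γ j b) + lam₂ (γ j b) * -(↑(lx T c) * Real.log (‖b‖ ^ 2)) =
        h (γ j b) - (d2 L y K c j + δ) * Real.log (‖b‖ ^ 2) := by
      rw [← h3]; ring
    rw [h6] at h5
    exact h5

end Crest.Agent.R257.Hv_174
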