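import Mathlib
import Crest.Agent.R257.Hv4_174

/-!
Row 257 (S0395), task C-HV (helper174), file 5: **`HVDStmt`** from `RSWStmt`, `EndStmt`, `LabWD` and
the sum formula `SumStmt`.
-/

set_option autoImplicit false
set_option linter.unusedSectionVars false

open Polynomial Set Filter Topology Metric
open Crest.AlgGeometry.Germ Crest.Agent.R257.AJ387 Crest.Agent.R257.T387
open Crest.Agent.R257.Gr1_157 Crest.Agent.R257.HoB_843 Crest.Agent.R257.BP_258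
open Crest.Agent.R257.Wt_258 Crest.Agent.R257.Cpt1_419

noncomputable section

namespace Crest.Agent.R257.Hv_174

variable {f : (Fin 3 → ℂ) → ℂ} {T : TB f} {S : Sh T} {U : Tub T}

/-- a common positive bound -/
lemma exists_lower {ι : Type*} (s : Finset ι) (τ : ι → ℝ) (h : ∀ i ∈ s, 0 < τ i) :
    ∃ τ₁ : ℝ, 0 < τ₁ ∧ ∀ i ∈ s, τ₁ < τ i := by
  have h1 : ∀ᶠ t in 𝓝[>] (0 : ℝ), ∀ i ∈ s, t < τ i := by
    rw [Finset.eventually_all]
    exact fun i hi => nhdsWithin_le_nhds (gt_mem_nhds (h i hi))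
  obtain ⟨t, ht, h0⟩ := (h1.and self_mem_nhdsWithin).exists
  exact ⟨t, h0, ht⟩

theorem hvdStmt_of [Fintype (II U)] (hRSW : RSWStmt) {L : Lab U S} (hE : EndStmt L) (hW : LabWD L)
    (hsum : ∀ (y : II U → ℝ) (F : Finset (Ch T.m)) (K : DKill S F), (∀ c ∈ F, Ok S c) →
      (∀ E, DSup L y K E) → ∀ E, tot L y K 0 E < 0) : HVDStmt L := by
  classical
  intro y F K hF hK
  have h1 : ∀ᶠ δ in 𝓝 (0 : ℝ), ∀ E, tot L y K δ E < 0 := by
    rw [eventually_all]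
    intro E
    have h2 : tot L y K 0 E < 0 := hsum y F K hF hK E
    exact (tot_cont L y K E).continuousAt.eventually (gt_mem_nhds h2)
  obtain ⟨δ, hδ, hδ0⟩ := ((h1.filter_mono (nhdsWithin_le_nhds (s := Ioi (0 : ℝ)))).and
    self_mem_nhdsWithin).exists
  have hV : ∀ v : Vtx, ∃ (τ C : ℝ) (h : XV U v → ℝ), v ∈ Vs T → (0 < τ ∧
      SmPos (pV U v) (QD K v) h ∧ ∀ c, Ok S c →
      (v1 T c = some v → ∀ γ, End1 U S c v γ → ∀ j, (IsV c → (c, j) ∈ K.κ) →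
        ∀ b : ℂ, 0 < ‖b‖ → ‖b‖ < τ → ‖b‖ < S.r c →
        |h (γ j b) - (d1 L y K c j + δ) * Real.log (‖b‖ ^ 2)| ≤ C) ∧
      (v2 T c = some v → ∀ γ, End2 U S c v γ → ∀ j,
        ∀ a : ℂ, 0 < ‖a‖ → ‖a‖ < τ → ‖a‖ < S.r c →
        |h (γ j a) - (d2 L y K c j + δ) * Real.log (‖a‖ ^ 2)| ≤ C)) := by
    intro v
    by_cases hv : v ∈ Vs T
    · obtain ⟨τ, C, h, h3⟩ := perV hRSW hE hW y K hF hv (fun E => hδ ⟨⟨v, hv⟩, E⟩)
      exact ⟨τ, C, h, fun _ => h3⟩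
    · exact ⟨0, 0, fun _ => 0, fun h => absurd h hv⟩
  choose τ C h hh using hV
  obtain ⟨τ₁, hτ₁, hτ⟩ := exists_lower (Vs T) τ fun v hv => (hh v hv).1
  have hC : ∀ v ∈ Vs T, C v ≤ ∑ v ∈ Vs T, |C v| := fun v hv =>
    (le_abs_self _).trans (Finset.single_le_sum (f := fun v => |C v|) (fun _ _ => abs_nonneg _) hv)
  refine ⟨δ, τ₁, ∑ v ∈ Vs T, |C v|, h, hδ0, hτ₁, fun v hv => (hh v hv).2.1, ?_⟩
  intro c hc v
  obtain ⟨h2, h3⟩ := (hh v.1 v.2).2.2 c hc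
  refine ⟨fun e γ hγ j hj b hb hb1 hb2 => ?_, fun e γ hγ j a ha ha1 ha2 => ?_⟩
  · exact (h2 e γ hγ j hj b hb (hb1.trans (hτ _ v.2)) hb2).trans (hC _ v.2)
  · exact (h3 e γ hγ j a ha (ha1.trans (hτ _ v.2)) ha2).trans (hC _ v.2)

end Crest.Agent.R257.Hv_174
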