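import Crest.Agent.R257.Hv1_174

/-!
Row 257 (S0395), task C-HV, the degree identity (helper636, for helper174): the exact slopes of a
component `E` sum up to the left side of `KSup`.
-/

set_option autoImplicit false
set_option linter.unusedSectionVars false

open Polynomial Set Filter Topology Metric
open Crest.AlgGeometry.Germ Crest.Agent.R257.AJ387 Crest.Agent.R257.T387
open Crest.Agent.R257.Gr1_157 Crest.Agent.R257.HoB_843 Crest.Agent.R257.BP_258
open Crest.Agent.R257.Wt_258 Crest.Agent.R257.Hv_174 Crest.Agent.R257.Lab_931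

noncomputable section

namespace Crest.Agent.R257.HvS_636

variable {f : (Fin 3 → ℂ) → ℂ} {T : TB f} {U : Tub T} {S : Sh T}

lemma e2_ec (L : Lab U S) {c : Ch T.m} (hc : Ok S c) {j : Fin T.d} {E : II U}
    (h : L.e2 c j = some E) : c = ec S E.1.1 := by
  refine v2_eq hc ?_
  rw [← L.v_e2 c hc j, h]
  rfl

lemma cd_eq (v : Vtx) : cd S v = 1 / (lx T (ec S v) : ℝ) := by
  unfold cd ec lx
  push_cast
  rfl

lemma kc_v {c : Ch T.m} (h : IsV c) : kc c = 1 := by
  cases c with
  | edge i k k' => exact absurd h (by simp [IsV])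
  | leg i => exact absurd h (by simp [IsV])
  | vert i k w => rfl

open Classical in
theorem sumE (L : Lab U S) [Fintype (II U)] (y : II U → ℝ) {F : Finset (Ch T.m)}
    (K : Kill (S := S) F) (hF : ∀ c ∈ F, Ok S c) (E : II U) :
    (∑ c ∈ NC S, ∑ j, if L.e1 c j = some E then s1 L y K c j / lx T c else 0) +
      (∑ j, if L.e2 (ec S E.1.1) j = some E then
        s2 L y K (ec S E.1.1) j / lx T (ec S E.1.1) else 0) +
      (∑ c ∈ F.filter IsV, ∑ j, if (c, j) ∈ K.κ ∧ L.e1 c j = some E then K.t (c, j) else 0) =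
    dg (Mx L) y E + ∑ c ∈ F, ∑ j, (if (c, j) ∈ K.κ then kc c * K.t (c, j) *
      ((if L.e1 c j = some E then 1 else 0) + (if L.e2 c j = some E then 1 else 0)) else 0) := by
  -- the kill sum, first labels
  set X : Ch T.m → ℝ := fun c => ∑ j, if L.e1 c j = some E then kc c * tk K c j else 0 with hX
  set Y : Ch T.m → ℝ := fun c => ∑ j, if L.e2 c j = some E then kc c * tk K c j else 0 with hY
  have hXY : ∀ c, (∑ j, (if (c, j) ∈ K.κ then kc c * K.t (c, j) *
      ((if L.e1 c j = some E then 1 else 0) + (if L.e2 c j = some E then 1 else 0)) else 0)) =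
      X c + Y c := by
    intro c
    rw [hX, hY]
    simp only
    rw [← Finset.sum_add_distrib]
    refine Finset.sum_congr rfl fun j _ => ?_
    unfold tk
    split_ifs <;> ring
  have hX0 : ∀ c, c ∉ F → X c = 0 := by
    intro c hc
    refine Finset.sum_eq_zero fun j _ => ?_
    have : (c, j) ∉ K.κ := fun h => hc (K.mem _ h)
    simp [tk, this]
  have hY0 : ∀ c, c ∉ F → Y c = 0 := by
    intro c hc
    refine Finset.sum_eq_zero fun j _ => ?_
    have : (c, j) ∉ K.κ := fun h => hc (K.mem _ h)
    simp [tk, this]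
  have e1 : ∑ c ∈ F, X c = (∑ c ∈ F.filter IsV, ∑ j,
      if (c, j) ∈ K.κ ∧ L.e1 c j = some E then K.t (c, j) else 0) + ∑ c ∈ NC S, X c := by
    rw [← Finset.sum_filter_add_sum_filter_not F IsV X]
    congr 1
    · refine Finset.sum_congr rfl fun c hc => ?_
      have h1 := kc_v (Finset.mem_filter.1 hc).2
      rw [hX]
      refine Finset.sum_congr rfl fun j _ => ?_
      rw [h1]
      unfold tk
      by_cases h2 : (c, j) ∈ K.κ <;> by_cases h3 : L.e1 c j = some E <;> simp [h2, h3]
    · refine Finset.sum_subset ?_ ?_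
      · intro c hc
        have := Finset.mem_filter.1 hc
        exact mem_NC.2 ⟨hF c this.1, this.2⟩
      · intro c hc hc'
        refine hX0 c fun h => hc' (Finset.mem_filter.2 ⟨h, (mem_NC.1 hc).2⟩)
  have e2 : ∑ c ∈ F, Y c = Y (ec S E.1.1) := by
    by_cases hm : ec S E.1.1 ∈ F
    · refine Finset.sum_eq_single_of_mem _ hm fun c hc hne => ?_
      refine Finset.sum_eq_zero fun j _ => ?_
      rw [if_neg]
      exact fun h => hne (e2_ec L (hF c hc) h)
    · rw [hY0 _ hm]
      refine Finset.sum_eq_zero fun c hc => Finset.sum_eq_zero fun j _ => ?_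
      rw [if_neg]
      intro h
      exact hm (e2_ec L (hF c hc) h ▸ hc)
  have e3 : ∑ c ∈ NC S, (∑ j, if L.e1 c j = some E then s1 L y K c j / lx T c else 0) =
      (∑ v ∈ Vs T, ∑ j, cd S v * (if L.e1 (ec S v) j = some E then
        yo y (L.e2 (ec S v) j) - y E else 0)) + ∑ c ∈ NC S, X c := by
    have h1 : ∀ c, (∑ j, if L.e1 c j = some E then s1 L y K c j / lx T c else 0) =
        (∑ j, if L.e1 c j = some E then
          (if IsE c then yo y (L.e2 c j) - yo y (L.e1 c j) else 0) / lx T c else 0) + X c := by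
      intro c
      rw [hX]
      simp only
      rw [← Finset.sum_add_distrib]
      refine Finset.sum_congr rfl fun j _ => ?_
      rw [kc_eq c]
      unfold s1
      split_ifs <;> ring
    rw [Finset.sum_congr rfl fun c _ => h1 c, Finset.sum_add_distrib, sum_NC]
    congr 1
    have h2 : ∑ i : Fin T.m, (∑ j, if L.e1 (.leg i) j = some E then
        (if IsE (Ch.leg i : Ch T.m) then yo y (L.e2 (.leg i) j) - yo y (L.e1 (.leg i) j) else 0) /
          (lx T (.leg i) : ℝ) else 0) = 0 := by
      refine Finset.sum_eq_zero fun i _ => Finset.sum_eq_zero fun j _ => ?_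
      have : ¬ IsE (Ch.leg i : Ch T.m) := by simp [IsE]
      simp [this]
    rw [h2, add_zero]
    refine Finset.sum_congr rfl fun v _ => Finset.sum_congr rfl fun j _ => ?_
    have : IsE (ec S v) := by simp [IsE, ec]
    rw [if_pos this, cd_eq]
    by_cases h : L.e1 (ec S v) j = some E
    · rw [if_pos h, if_pos h, h]
      simp only [yo, Option.elim]
      ring
    · rw [if_neg h, if_neg h, mul_zero]
  have e4 : (∑ j, if L.e2 (ec S E.1.1) j = some E then
        s2 L y K (ec S E.1.1) j / lx T (ec S E.1.1) else 0) =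
      (∑ v ∈ Vs T, ∑ j, cd S v * (if L.e2 (ec S v) j = some E then
        yo y (L.e1 (ec S v) j) - y E else 0)) + Y (ec S E.1.1) := by
    have h1 : (∑ v ∈ Vs T, ∑ j, cd S v * (if L.e2 (ec S v) j = some E then
        yo y (L.e1 (ec S v) j) - y E else 0)) = ∑ j, cd S E.1.1 *
          (if L.e2 (ec S E.1.1) j = some E then yo y (L.e1 (ec S E.1.1) j) - y E else 0) := by
      refine Finset.sum_eq_single_of_mem _ E.1.2 fun v hv hne => ?_
      refine Finset.sum_eq_zero fun j _ => ?_
      rw [if_neg, mul_zero]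
      intro h
      have := e2_ec L (ok_ec S hv) h
      exact hne (ec_inj hv E.1.2 this)
    rw [h1, hY]
    simp only
    rw [← Finset.sum_add_distrib]
    refine Finset.sum_congr rfl fun j _ => ?_
    rw [kc_eq, cd_eq]
    unfold s2
    by_cases h : L.e2 (ec S E.1.1) j = some E
    · rw [if_pos h, if_pos h, if_pos h, h]
      simp only [yo, Option.elim]
      ring
    · rw [if_neg h, if_neg h, if_neg h, mul_zero, zero_add]
  rw [dg_Mx, Finset.sum_congr rfl fun c _ => hXY c, Finset.sum_add_distrib, e1, e2, e3, e4]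
  have e5 : (∑ v ∈ Vs T, ∑ j, cd S v *
    ((if L.e1 (ec S v) j = some E then yo y (L.e2 (ec S v) j) - y E else 0) +
     (if L.e2 (ec S v) j = some E then yo y (L.e1 (ec S v) j) - y E else 0))) =
      (∑ v ∈ Vs T, ∑ j, cd S v * (if L.e1 (ec S v) j = some E then
        yo y (L.e2 (ec S v) j) - y E else 0)) +
      (∑ v ∈ Vs T, ∑ j, cd S v * (if L.e2 (ec S v) j = some E then
        yo y (L.e1 (ec S v) j) - y E else 0)) := by
    rw [← Finset.sum_add_distrib]
    refine Finset.sum_congr rfl fun v _ => ?_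
    rw [← Finset.sum_add_distrib]
    refine Finset.sum_congr rfl fun j _ => ?_
    ring
  rw [e5]
  ring

end Crest.Agent.R257.HvS_636
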