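import Crest.Agent.R257.RSW3_176
import Crest.Agent.R257.Cpt2_419

/-!
# Row 257, part C, weights on finite coverings (helper176), file RSW4

`rsw : Wt_258.RSWStmt`.
-/

set_option autoImplicit false
set_option linter.unusedSectionVars false

open Set Filter Topology Metric
open scoped ContDiff

noncomputable section

namespace Crest.Agent.R257.RS_176

open Crest.Agent.R257.Wt_258 Crest.Agent.R257.Cpt1_419 Crest.Agent.R257.HoB_843

lemma Srf.finsum_fib {X : Type} [TopologicalSpace X] (T : Srf X) {w : ℂ} (hw : w ∉ T.S)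
    (f : X → ℝ) : ∑ᶠ x ∈ {x | T.pr x = w}, f x = ∑ x ∈ T.fib w, f x := by
  have h : {x | T.pr x = w} = ((T.fib w : Finset X) : Set X) := by
    ext x
    simp only [Finset.mem_coe, Srf.mem_fib hw, mem_ofPred_eq]
  rw [h, finsum_mem_coe_finset]

/-- **the connected case** -/
theorem wt_fcov {S : Finset ℂ} {Y : Type} [TopologicalSpace Y] [T2Space Y] [ConnectedSpace Y]
    (P : FCov (↑S : Set ℂ) Y) (Q : Finset Y) (t : Y → ℝ) (lam : Option ℂ → Y → ℝ) (r : ℝ)
    (hs : Wt_258.Sep S r)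
    (hQ : ∀ q ∈ Q, (∀ c ∈ S, r ≤ ‖(P.p q).1 - c‖) ∧ ‖(P.p q).1‖ ≤ r⁻¹)
    (hl1 : ∀ c ∈ S, ∀ x, ‖(P.p x).1 - c‖ < r → ∀ᶠ y in 𝓝 x, lam (some c) y = lam (some c) x)
    (hl2 : ∀ x, r⁻¹ < ‖(P.p x).1‖ → ∀ᶠ y in 𝓝 x, lam none y = lam none x)
    (w : Option ℂ → ℂ) (hw1 : ∀ c ∈ S, 0 < ‖w (some c) - c‖ ∧ ‖w (some c) - c‖ < r)
    (hw2 : r⁻¹ < ‖w none‖)
    (hneg : (∑ c ∈ S, ∑ᶠ x ∈ {x : Y | (P.p x).1 = w (some c)}, lam (some c) x) +
      (∑ᶠ x ∈ {x : Y | (P.p x).1 = w none}, lam none x) + ∑ q ∈ Q, t q < 0) :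
    ∃ (h : Y → ℝ) (C : ℝ), SmPos (fun x => (P.p x).1) (↑Q) h ∧
      (∀ c ∈ S, ∀ x, ‖(P.p x).1 - c‖ < r / 2 →
        |h x - lam (some c) x * Real.log (‖(P.p x).1 - c‖ ^ 2)| ≤ C) ∧
      (∀ x, 2 * r⁻¹ < ‖(P.p x).1‖ → |h x + lam none x * Real.log (‖(P.p x).1‖ ^ 2)| ≤ C) ∧
      ∀ q ∈ Q, ∀ᶠ x in 𝓝 q, x ≠ q →
        |h x - t q * Real.log (‖(P.p x).1 - (P.p q).1‖ ^ 2)| ≤ C := by
  have hne : Nonempty Y := inferInstance
  obtain ⟨T, hpr, hS⟩ := exists_srf P
  have hpr' : ∀ x, (P.p x).1 = T.pr x := fun x => (congrFun hpr x).symm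
  have hfun : (fun x => (P.p x).1) = T.pr := hpr.symm
  simp only [hpr'] at hQ hl1 hl2 hneg ⊢
  rw [← hS] at hs hQ hl1 hw1 hneg ⊢
  have hr := hs.pos
  refine T.wt_srf Q t lam hs hQ hl1 hl2 w hw1 hw2 ?_
  have h1 : ∀ c ∈ T.S, w (some c) ∉ T.S := by
    intro c hc
    have h2 : w (some c) ∈ PR (some c) r := by
      rw [mem_PR hr]
      refine ⟨(hw1 c hc).2, fun b hb => ?_⟩
      have hb' : c = b := by simpa using hb
      rw [← hb']
      exact sub_ne_zero.1 (norm_pos_iff.1 (hw1 c hc).1)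
    obtain ⟨q, hq, h3⟩ := h2
    rw [← h3]
    refine endPr_notMem hs (fun a ha => ?_) hq
    have ha' : c = a := by simpa using ha
    rwa [← ha']
  have h2 : w none ∉ T.S := by
    have h3 : w none ∈ PR none r := by
      rw [mem_PR hr]
      exact ⟨hw2, by simp⟩
    obtain ⟨q, hq, h4⟩ := h3
    rw [← h4]
    exact endPr_notMem hs (by simp) hq
  rw [T.finsum_fib h2, Finset.sum_congr rfl fun c hc => T.finsum_fib (h1 c hc) _] at hneg
  exact hneg

/-- **weights on a finite étale cover** -/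
theorem rsw : RSWStmt := by
  intro S X _ _ P Q t lam r hs hQ hl1 hl2 hneg
  classical
  rcases isEmpty_or_nonempty X with hX | hX
  · exact ⟨fun _ => 0, 0, fun w₀ _ σ _ _ _ _ => (hX.false (σ w₀)).elim,
      fun _ _ x => (hX.false x).elim, fun x => (hX.false x).elim, fun q _ => (hX.false q).elim⟩
  obtain ⟨T, hpr, hTS⟩ := exists_srf P
  -- the components
  have hop : ∀ x : X, IsOpen (connectedComponent x) := by
    intro x
    rw [isOpen_iff_mem_nhds]
    intro y hy
    rw [connectedComponent_eq hy]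
    obtain ⟨s, hr, hw, hsy⟩ := T.exists_secD y
    have hb : s.w ∈ ball s.w s.r := mem_ball_self hr
    have h1 : s.s s.w = y := by rw [hw]; exact hsy
    have h2 := T.map_nhds_sec s hb
    rw [h1] at h2
    rw [← h2, Filter.mem_map]
    refine mem_of_superset (ball_mem_nhds _ hr) ?_
    have h3 : IsPreconnected (s.s '' ball s.w s.r) :=
      (convex_ball _ _).isPreconnected.image _ s.cont
    have h4 := h3.subset_connectedComponent (x := y) ⟨s.w, hb, h1⟩
    exact fun z hz => h4 ⟨z, hz, rfl⟩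
  let Y : ConnectedComponents X → Set X := fun E => {x | (x : ConnectedComponents X) = E}
  have hY : ∀ x : X, Y x = connectedComponent x := by
    intro x
    ext y
    exact ConnectedComponents.coe_eq_coe'
  have hYcl : ∀ E, IsClopen (Y E) := by
    intro E
    obtain ⟨x, rfl⟩ := ConnectedComponents.surjective_coe E
    rw [hY]
    exact ⟨isClosed_connectedComponent, hop x⟩
  have hYc : ∀ E, ConnectedSpace (Y E) := by
    intro E
    obtain ⟨x, rfl⟩ := ConnectedComponents.surjective_coe E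
    rw [hY]
    exact isConnected_iff_connectedSpace.1 isConnected_connectedComponent
  -- finitely many
  have hfin : Finite (ConnectedComponents X) := by
    have x₁ : X := Classical.arbitrary X
    have hf : Finite (P.fb (P.p x₁).1) := P.fb_finite _
    refine Finite.of_surjective (fun x : P.fb (P.p x₁).1 => (x.1 : ConnectedComponents X)) ?_
    intro E
    obtain ⟨x, hx⟩ := ConnectedComponents.surjective_coe E
    have hxE : x ∈ Y E := hx
    have h1 := ncard_const (P.restrict (Y E) (hYcl E)) (w := (P.p x).1) (w' := (P.p x₁).1)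
      (by simpa using (P.p x).2) (by simpa using (P.p x₁).2)
    have h2 : 0 < ((P.restrict (Y E) (hYcl E)).fb (P.p x).1).ncard := by
      rw [Set.ncard_pos ((P.restrict (Y E) (hYcl E)).fb_finite _)]
      exact ⟨⟨x, hxE⟩, rfl⟩
    rw [h1, Set.ncard_pos ((P.restrict (Y E) (hYcl E)).fb_finite _)] at h2
    obtain ⟨y, hy⟩ := h2
    exact ⟨⟨y.1, hy⟩, y.2⟩
  -- the weights on the components
  have main : ∀ E, ∃ (h : Y E → ℝ) (C : ℝ), SmPos (fun x : Y E => (P.p x.1).1)
        {x | x.1 ∈ Q} h ∧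
      (∀ c ∈ S, ∀ x : Y E, ‖(P.p x.1).1 - c‖ < r / 2 →
        |h x - lam (some c) x.1 * Real.log (‖(P.p x.1).1 - c‖ ^ 2)| ≤ C) ∧
      (∀ x : Y E, 2 * r⁻¹ < ‖(P.p x.1).1‖ →
        |h x + lam none x.1 * Real.log (‖(P.p x.1).1‖ ^ 2)| ≤ C) ∧
      ∀ q : Y E, q.1 ∈ Q → ∀ᶠ x in 𝓝 q, x ≠ q →
        |h x - t q.1 * Real.log (‖(P.p x.1).1 - (P.p q.1).1‖ ^ 2)| ≤ C := by
    intro E
    have := hYc E
    obtain ⟨w, hw1, hw2, hn⟩ := hneg E
    have hsub : ∀ (z : ℂ) (f : X → ℝ),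
        ∑ᶠ x ∈ {x : X | (P.p x).1 = z ∧ (x : ConnectedComponents X) = E}, f x =
        ∑ᶠ y ∈ {y : Y E | (P.p y.1).1 = z}, f y.1 := by
      intro z f
      rw [← finsum_mem_image (f := f) (g := (Subtype.val : Y E → X))
        Subtype.val_injective.injOn]
      have he : {x : X | (P.p x).1 = z ∧ (x : ConnectedComponents X) = E} =
          Subtype.val '' {y : Y E | (P.p y.1).1 = z} := by
        ext x
        refine ⟨fun h => ⟨⟨x, h.2⟩, h.1, rfl⟩, ?_⟩
        rintro ⟨y, hy, rfl⟩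
        exact ⟨hy, y.2⟩
      rw [he]
    rw [Finset.sum_congr rfl fun c _ => hsub (w (some c)) _, hsub, ← Finset.sum_filter,
      ← Finset.sum_subtype_eq_sum_filter] at hn
    have hmemQ : ∀ x : Y E, x ∈ Q.subtype (fun x : X => (x : ConnectedComponents X) = E) ↔
      x.1 ∈ Q := fun x => Finset.mem_subtype
    obtain ⟨h, C, h1, h2, h3, h4⟩ := wt_fcov (P.restrict (Y E) (hYcl E))
      (Q.subtype (fun x : X => (x : ConnectedComponents X) = E)) (fun x => t x.1)
      (fun c x => lam c x.1) r hs (fun q hq => hQ q.1 ((hmemQ q).1 hq))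
      (fun c hc x hx => continuous_subtype_val.continuousAt.eventually (hl1 c hc x.1 hx))
      (fun x hx => continuous_subtype_val.continuousAt.eventually (hl2 x.1 hx))
      w hw1 hw2 hn
    refine ⟨h, C, ?_, h2, h3, fun q hq => h4 q ((hmemQ q).2 hq)⟩
    intro w₀ ρ σ hρ hσ hσ' hq
    exact h1 w₀ ρ σ hρ hσ hσ' fun hm => hq ((hmemQ _).1 hm)
  choose h C h1 h2 h3 h4 using main
  have hft : Fintype (ConnectedComponents X) := Fintype.ofFinite _
  have hCE : ∀ E, C E ≤ ∑ E, |C E| := fun E => (le_abs_self _).trans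
    (Finset.single_le_sum (f := fun E => |C E|) (fun _ _ => abs_nonneg _) (Finset.mem_univ E))
  let H : X → ℝ := fun x => h (x : ConnectedComponents X) ⟨x, rfl⟩
  have hH : ∀ E, ∀ y : Y E, H y.1 = h E y := by
    rintro E ⟨y, hy⟩
    have hy' : (y : ConnectedComponents X) = E := hy
    subst hy'
    rfl
  refine ⟨H, ∑ E, |C E|, ?_, ?_, ?_, ?_⟩
  · intro w₀ ρ σ hρ hσ hσ' hq
    set E : ConnectedComponents X := (σ w₀ : ConnectedComponents X) with hE
    have hw : w₀ ∈ ball w₀ ρ := mem_ball_self hρ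
    have hin : ∀ z ∈ ball w₀ ρ, σ z ∈ Y E := by
      intro z hz
      have h5 : IsPreconnected (σ '' ball w₀ ρ) := (convex_ball _ _).isPreconnected.image _ hσ
      have h6 := h5.subset_connectedComponent (x := σ w₀) ⟨w₀, hw, rfl⟩ ⟨z, hz, rfl⟩
      exact ConnectedComponents.coe_eq_coe'.2 h6
    let σ' : ℂ → Y E := fun z => if hz : σ z ∈ Y E then ⟨σ z, hz⟩ else ⟨σ w₀, rfl⟩
    have hσv : ∀ z ∈ ball w₀ ρ, (σ' z).1 = σ z := by
      intro z hz
      simp only [σ']
      rw [dif_pos (hin z hz)]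
    have hσc : ContinuousOn σ' (ball w₀ ρ) := by
      rw [Topology.IsInducing.subtypeVal.continuousOn_iff]
      exact hσ.congr fun z hz => hσv z hz
    have h5 := h1 E w₀ ρ σ' hρ hσc (fun z hz => by
        change (P.p (σ' z).1).1 = z
        rw [hσv z hz]; exact hσ' z hz)
      (fun hm => hq (by
        have : (σ' w₀).1 ∈ Q := hm
        rwa [hσv w₀ hw] at this))
    have he : H ∘ σ =ᶠ[𝓝 w₀] h E ∘ σ' := by
      filter_upwards [ball_mem_nhds w₀ hρ] with z hz
      simp only [Function.comp_apply]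
      rw [← hH E (σ' z), hσv z hz]
    exact ⟨h5.1.congr_of_eventuallyEq he, by rw [lvE_congr he]; exact h5.2⟩
  · intro c hc x hx
    exact (h2 (x : ConnectedComponents X) c hc ⟨x, rfl⟩ hx).trans (hCE _)
  · intro x hx
    exact (h3 (x : ConnectedComponents X) ⟨x, rfl⟩ hx).trans (hCE _)
  · intro q hq
    set E : ConnectedComponents X := (q : ConnectedComponents X) with hE
    have h5 := h4 E ⟨q, rfl⟩ hq
    have h6 := (hYcl E).2.isOpenEmbedding_subtypeVal.map_nhds_eq (⟨q, rfl⟩ : Y E)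
    simp only at h6
    rw [← h6, Filter.eventually_map]
    filter_upwards [h5] with y hy hyq
    have h7 := hy fun h => hyq (congrArg Subtype.val h)
    rw [hH E y]
    exact h7.trans (hCE _)

end Crest.Agent.R257.RS_176
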