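import Crest.Agent.R257.BPDefs_258
import Crest.Agent.R257.Can_287
import Crest.Agent.R257.T2_387

/-!
R257 / OB1_287 (task C-ORDS, OrdStmt of BPDefs_258), part 1: Taylor coefficients of the branches and
the children of a vertex.

* `taylor`     : `φ_i = tr_i k + s^k h`, `h 0 = co_i k`
* `tr_eq_iff`  : `tr T i k = tr T j k ↔ Eqv T k i j`
* `ci_tr`, `ci_co`, `ci_vx` : the canonical centre of a vertex
* `Chd S v c`  : the chart `c` is a child of the vertex `v` (its first branch lies in `v`)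
* `chd_exists`, `chd_uniq` : children ↔ finite special points
-/

set_option autoImplicit false
set_option linter.unusedSectionVars false

open Polynomial Set Filter Topology Metric
open Crest.AlgGeometry.Germ Crest.Agent.R257.AJ387 Crest.Agent.R257.T387
open Crest.Agent.R257.Frm_547 (Eqv lev_of_eqv Eqv.symm)
open Crest.Agent.R257.BP_258

noncomputable section

namespace Crest.Agent.R257.OB_287

variable {f : (Fin 3 → ℂ) → ℂ} {T : TB f}

theorem φ_an0 (i : Fin T.m) : AnalyticAt ℂ (T.φ i) 0 := T.φ_an i 0 (mem_ball_self T.ρ_pos)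

theorem eval_tr (i : Fin T.m) (k : ℕ) (s : ℂ) :
    (tr T i k).eval s = ∑ n ∈ Finset.range k, co T i n * s ^ n := by
  simp [tr, eval_finsetSum]

theorem coeff_tr (i : Fin T.m) (k n : ℕ) :
    (tr T i k).coeff n = if n < k then co T i n else 0 := by
  simp only [tr, finsetSum_coeff, coeff_C_mul, coeff_X_pow, mul_ite, mul_one, mul_zero]
  rw [Finset.sum_ite_eq]
  simp [Finset.mem_range]

/-- Taylor expansion of the branches -/
theorem taylor (i : Fin T.m) (k : ℕ) : ∃ h : ℂ → ℂ, AnalyticAt ℂ h 0 ∧ h 0 = co T i k ∧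
    ∀ s, T.φ i s = (tr T i k).eval s + s ^ k * h s := by
  obtain ⟨F, hF, h⟩ := (φ_an0 (T := T) i).exists_eq_sum_add_pow_mul (k + 1)
  refine ⟨fun s => co T i k + s * F s, analyticAt_const.add (analyticAt_id.mul hF), by simp,
    fun s => ?_⟩
  rw [h s, Finset.sum_range_succ, eval_tr]
  have e1 : ∑ n ∈ Finset.range k, (s ^ n / (n.factorial : ℂ)) • iteratedDeriv n (T.φ i) 0 =
      ∑ n ∈ Finset.range k, co T i n * s ^ n := by
    refine Finset.sum_congr rfl fun n _ => ?_
    simp only [smul_eq_mul, co]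
    ring
  rw [e1]
  simp only [smul_eq_mul, co]
  ring

theorem tr_congr {i j : Fin T.m} {k : ℕ} (h : ∀ n < k, co T i n = co T j n) :
    tr T i k = tr T j k := by
  unfold tr
  exact Finset.sum_congr rfl fun n hn => by rw [h n (Finset.mem_range.1 hn)]

theorem co_of_tr {i j : Fin T.m} {k : ℕ} (h : tr T i k = tr T j k) {n : ℕ} (hn : n < k) :
    co T i n = co T j n := by
  have h1 := congrArg (fun p : ℂ[X] => p.coeff n) h
  simpa [coeff_tr, hn] using h1

/-- comparison of the coefficients of two branches -/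
theorem co_sub {i j : Fin T.m} {e : ℕ} {u : ℂ → ℂ} (hu : ContinuousAt u 0)
    (h : ∀ᶠ s in 𝓝[≠] (0 : ℂ), T.φ i s - T.φ j s = s ^ e * u s) :
    ∀ n ≤ e, co T i n - co T j n = if n = e then u 0 else 0 := by
  intro n
  induction n using Nat.strong_induction_on with
  | _ n ih =>
    intro hne
    have h1 : tr T i n = tr T j n := tr_congr fun l hl => by
      have := ih l hl (by omega)
      rw [if_neg (by omega)] at this
      exact sub_eq_zero.1 this
    obtain ⟨a, ha, ha0, hae⟩ := taylor (T := T) i n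
    obtain ⟨b, hb, hb0, hbe⟩ := taylor (T := T) j n
    have h2 : ∀ᶠ s in 𝓝[≠] (0 : ℂ), a s - b s = s ^ (e - n) * u s := by
      filter_upwards [h, self_mem_nhdsWithin] with s hs hs0
      rw [hae, hbe, h1] at hs
      have h3 : s ^ n ≠ 0 := pow_ne_zero _ hs0
      apply mul_left_cancel₀ h3
      have h4 : s ^ e = s ^ n * s ^ (e - n) := by rw [← pow_add, Nat.add_sub_cancel' hne]
      rw [h4] at hs
      linear_combination hs
    have h3 : Tendsto (fun s => a s - b s) (𝓝[≠] 0) (𝓝 (a 0 - b 0)) :=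
      (ha.continuousAt.sub hb.continuousAt).tendsto.mono_left nhdsWithin_le_nhds
    have h4 : Tendsto (fun s : ℂ => s ^ (e - n) * u s) (𝓝[≠] 0) (𝓝 ((0 : ℂ) ^ (e - n) * u 0)) :=
      ((continuousAt_id.pow _).mul hu).tendsto.mono_left nhdsWithin_le_nhds
    have h5 := tendsto_nhds_unique (h3.congr' h2) h4
    rw [← ha0, ← hb0, h5]
    by_cases hn : n = e
    · simp [hn]
    · rw [if_neg hn, zero_pow (by omega), zero_mul]

theorem co_sub_del {i j : Fin T.m} (hij : i ≠ j) : ∀ n ≤ T.del i j, co T i n - co T j n =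
    if n = T.del i j then T.u i j 0 else 0 := by
  refine co_sub (T.u_an i j hij 0 (mem_ball_self T.ρ_pos)).continuousAt ?_
  refine Filter.Eventually.filter_mono nhdsWithin_le_nhds ?_
  filter_upwards [ball_mem_nhds (0 : ℂ) T.ρ_pos] with s hs
  exact T.φ_sub i j hij s hs

theorem tr_eq_iff {i j : Fin T.m} {k : ℕ} : tr T i k = tr T j k ↔ Eqv T k i j := by
  constructor
  · intro h
    by_contra hcon
    unfold Eqv at hcon
    push Not at hcon
    obtain ⟨hij, hd⟩ := hcon
    have h1 := co_sub_del (T := T) hij _ le_rfl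
    rw [if_pos rfl, co_of_tr h hd, sub_self] at h1
    exact T.u_ne i j hij 0 (mem_ball_self T.ρ_pos) h1.symm
  · rintro (h | h)
    · rw [h]
    · by_cases hij : i = j
      · rw [hij]
      · refine tr_congr fun n hn => ?_
        have := co_sub_del (T := T) hij n (by omega)
        rw [if_neg (by omega)] at this
        exact sub_eq_zero.1 this

/-- equal truncations to the next order -/
theorem tr_succ {i j : Fin T.m} {k : ℕ} (h : tr T i k = tr T j k) (hc : co T i k = co T j k) :
    tr T i (k + 1) = tr T j (k + 1) :=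
  tr_congr fun n hn => by
    rcases Nat.lt_succ_iff_lt_or_eq.1 hn with h1 | h1
    · exact co_of_tr h h1
    · rw [h1, hc]

theorem tr_mono {i j : Fin T.m} {k l : ℕ} (hkl : k ≤ l) (h : tr T i l = tr T j l) :
    tr T i k = tr T j k := tr_congr fun _ hn => co_of_tr h (lt_of_lt_of_le hn hkl)

theorem mem_Vs {v : Vtx} : v ∈ Vs T ↔ ∃ i, ∃ k ∈ T.lev i, vx T i k = v := by
  classical
  simp [Vs]

theorem vx_mem {i : Fin T.m} {k : ℕ} (hk : k ∈ T.lev i) : vx T i k ∈ Vs T :=
  mem_Vs.2 ⟨i, k, hk, rfl⟩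

theorem mem_sp {v : Vtx} {c : ℂ} : c ∈ sp T v ↔ ∃ j, tr T j v.1 = v.2 ∧ co T j v.1 = c := by
  classical
  simp [sp]

theorem Vs_lev {v : Vtx} (hv : v ∈ Vs T) {j : Fin T.m} (hj : tr T j v.1 = v.2) :
    v.1 ∈ T.lev j := by
  obtain ⟨i, k, hk, rfl⟩ := mem_Vs.1 hv
  exact lev_of_eqv T (tr_eq_iff.1 hj).symm hk

theorem Vs_pos {v : Vtx} (hv : v ∈ Vs T) : 0 < v.1 := by
  obtain ⟨i, k, hk, rfl⟩ := mem_Vs.1 hv
  exact TB.lev_pos T hk

variable (S : Sh T)

/-- the canonical centre is a branch of the vertex -/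
theorem ci_tr {v : Vtx} (hv : v ∈ Vs T) : tr T (S.ci v) v.1 = v.2 := by
  obtain ⟨i, k, hk, rfl⟩ := mem_Vs.1 hv
  obtain ⟨a, ha, -, hae⟩ := taylor (T := T) i k
  have h1 : ∀ n ≤ k, co T (S.ci (vx T i k)) n - co T i n = if n = k then - a 0 else 0 := by
    refine co_sub (u := fun s => - a s) ha.continuousAt.neg ?_
    refine Filter.Eventually.filter_mono nhdsWithin_le_nhds ?_
    filter_upwards [ball_mem_nhds (0 : ℂ) T.ρ_pos] with s hs
    rw [S.ci_eq _ hv s hs, hae s]
    show (tr T i k).eval s - _ = _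
    ring
  refine tr_congr (T := T) (i := S.ci (vx T i k)) (j := i) fun n hn => ?_
  have hn' : n < k := hn
  have := h1 n hn'.le
  rw [if_neg hn'.ne] at this
  exact sub_eq_zero.1 this

theorem ci_vx {v : Vtx} (hv : v ∈ Vs T) : vx T (S.ci v) v.1 = v := Prod.ext rfl (ci_tr S hv)

theorem ci_co {v : Vtx} (hv : v ∈ Vs T) : co T (S.ci v) v.1 = 0 := by
  obtain ⟨a, ha, ha0, hae⟩ := taylor (T := T) (S.ci v) v.1
  have h1 : ∀ᶠ s in 𝓝[≠] (0 : ℂ), a s = 0 := by
    filter_upwards [nhdsWithin_le_nhds (ball_mem_nhds (0 : ℂ) T.ρ_pos), self_mem_nhdsWithin]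
      with s hs hs0
    have h2 := hae s
    rw [S.ci_eq _ hv s hs, ci_tr S hv] at h2
    have h3 : s ^ v.1 * a s = 0 := by linear_combination -h2
    exact (mul_eq_zero.1 h3).resolve_left (pow_ne_zero _ hs0)
  have h2 : Tendsto a (𝓝[≠] 0) (𝓝 (a 0)) := ha.continuousAt.tendsto.mono_left nhdsWithin_le_nhds
  rw [← ha0]
  exact tendsto_nhds_unique (h2.congr' h1) tendsto_const_nhds

theorem ci_lev {v : Vtx} (hv : v ∈ Vs T) : v.1 ∈ T.lev (S.ci v) := (S.kp_cons v hv).2.1

theorem kp_lt {v : Vtx} (hv : v ∈ Vs T) : S.kp v < v.1 := (S.kp_cons v hv).2.2.1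

/-- uniqueness of the predecessor -/
theorem cons_pred {i j : Fin T.m} {k l k' : ℕ} (h : tr T i k' = tr T j k') (hi : T.Cons i k k')
    (hj : T.Cons j l k') : k = l := by
  have he := tr_eq_iff.1 h
  have hj' := Can_287.cons_of_eqv T he.symm hj
  obtain ⟨a1, a2, a3, a4⟩ := hi
  obtain ⟨b1, b2, b3, b4⟩ := hj'
  rcases a1 with rfl | a1
  · rcases b1 with rfl | b1
    · rfl
    · rcases a4 l b1 with h1 | h1 <;> omega
  · rcases b4 k a1 with h1 | h1
    · rcases b1 with rfl | b1
      · omega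
      · rcases a4 l b1 with h2 | h2 <;> omega
    · omega

/-- the chart `c` is a child of the vertex `v` -/
def Chd (v : Vtx) (c : Ch T.m) : Prop :=
  (∃ v' ∈ Vs T, c = ec S v' ∧ S.kp v' ≠ 0 ∧ vx T (S.ci v') (S.kp v') = v) ∨
    ∃ i, c = .leg i ∧ vx T i (T.top i) = v

variable (T) in
/-- the special point of a child -/
def pc : Ch T.m → ℂ
  | .edge i k _ => co T i k
  | .leg i => co T i (T.top i)
  | .vert _ _ _ => 0

theorem exists_next {j : Fin T.m} {k : ℕ} (hk : k ∈ T.lev j) (hkt : k ≠ T.top j) :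
    ∃ k', T.Cons j k k' := by
  classical
  have hlt : k < T.top j := lt_of_le_of_ne (TB.le_top T hk) hkt
  have hne : ((T.lev j).filter fun l => k < l).Nonempty :=
    ⟨T.top j, Finset.mem_filter.2 ⟨TB.top_mem T j, hlt⟩⟩
  have hm := Finset.min'_mem _ hne
  refine ⟨((T.lev j).filter fun l => k < l).min' hne, Or.inr hk, (Finset.mem_filter.1 hm).1,
    (Finset.mem_filter.1 hm).2, fun l hl => ?_⟩
  by_cases h : k < l
  · exact Or.inr (Finset.min'_le _ _ (Finset.mem_filter.2 ⟨hl, h⟩))
  · exact Or.inl (not_lt.1 h)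

/-- every finite special point belongs to a child -/
theorem chd_exists {v : Vtx} (hv : v ∈ Vs T) {c : ℂ} (hc : c ∈ sp T v) :
    ∃ a, Chd S v a ∧ pc T a = c := by
  obtain ⟨j, hj, hjc⟩ := mem_sp.1 hc
  have hlev := Vs_lev hv hj
  by_cases ht : v.1 = T.top j
  · refine ⟨.leg j, Or.inr ⟨j, rfl, ?_⟩, ?_⟩
    · rw [← ht]; exact Prod.ext rfl hj
    · show co T j (T.top j) = c
      rw [← ht]; exact hjc
  · obtain ⟨k', hk'⟩ := exists_next hlev ht
    have hv' : vx T j k' ∈ Vs T := vx_mem hk'.2.1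
    have h1 : tr T (S.ci (vx T j k')) k' = tr T j k' := ci_tr S hv'
    have h2 : S.kp (vx T j k') = v.1 := cons_pred h1 (S.kp_cons _ hv') hk'
    have h3 : tr T (S.ci (vx T j k')) v.1 = v.2 := (tr_mono hk'.2.2.1.le h1).trans hj
    refine ⟨ec S (vx T j k'), Or.inl ⟨_, hv', rfl, ?_, ?_⟩, ?_⟩
    · rw [h2]; exact (Vs_pos hv).ne'
    · rw [h2]; exact Prod.ext rfl h3
    · show co T (S.ci (vx T j k')) (S.kp (vx T j k')) = c
      rw [h2, co_of_tr h1 hk'.2.2.1, hjc]

/-- different children have different special points -/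
theorem chd_uniq {v : Vtx} {a b : Ch T.m} (ha : Chd S v a) (hb : Chd S v b)
    (h : pc T a = pc T b) : a = b := by
  rcases ha with ⟨v₁, hv₁, rfl, h1, rfl⟩ | ⟨i₁, rfl, h1⟩
  · rcases hb with ⟨v₂, hv₂, rfl, h2, h3⟩ | ⟨i₂, rfl, h2⟩
    · have e1 : S.kp v₂ = S.kp v₁ := congrArg Prod.fst h3
      have e2 : tr T (S.ci v₂) (S.kp v₁) = tr T (S.ci v₁) (S.kp v₁) := by
        have := congrArg Prod.snd h3
        simp only [vx] at this
        rwa [e1] at this
      have e3 : co T (S.ci v₁) (S.kp v₁) = co T (S.ci v₂) (S.kp v₁) := by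
        have h' : co T (S.ci v₁) (S.kp v₁) = co T (S.ci v₂) (S.kp v₂) := h
        rwa [e1] at h'
      have e4 := tr_eq_iff.1 (tr_succ e2 e3.symm)
      have c1 := S.kp_cons v₁ hv₁
      have c2 := S.kp_cons v₂ hv₂
      rw [e1] at c2
      have key : v₁.1 = v₂.1 ∧ tr T (S.ci v₁) v₁.1 = tr T (S.ci v₂) v₁.1 := by
        rcases e4 with e5 | e5
        · rw [e5] at c2
          refine ⟨?_, by rw [e5]⟩
          rcases c1.2.2.2 _ c2.2.1 with h4 | h4
          · have := c2.2.2.1; omega
          · rcases c2.2.2.2 _ c1.2.1 with h5 | h5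
            · have := c1.2.2.1; omega
            · omega
        · by_cases hij : S.ci v₂ = S.ci v₁
          · rw [hij] at c2
            refine ⟨?_, by rw [hij]⟩
            rcases c1.2.2.2 _ c2.2.1 with h4 | h4
            · have := c2.2.2.1; omega
            · rcases c2.2.2.2 _ c1.2.1 with h5 | h5
              · have := c1.2.2.1; omega
              · omega
          · have d1 : T.del (S.ci v₂) (S.ci v₁) ∈ T.lev (S.ci v₂) := TB.del_mem_lev T (Ne.symm hij)
            have d2 : T.del (S.ci v₂) (S.ci v₁) ∈ T.lev (S.ci v₁) := by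
              rw [Frm_547.del_symm T _ _ hij]; exact TB.del_mem_lev T hij
            have g1 : v₂.1 ≤ T.del (S.ci v₂) (S.ci v₁) := by
              rcases c2.2.2.2 _ d1 with h4 | h4
              · omega
              · exact h4
            have g2 : v₁.1 ≤ T.del (S.ci v₂) (S.ci v₁) := by
              rcases c1.2.2.2 _ d2 with h4 | h4
              · omega
              · exact h4
            have f1 : v₁.1 ∈ T.lev (S.ci v₂) := lev_of_eqv T (Eqv.symm (Or.inr g2 : Eqv T v₁.1 (S.ci v₂) (S.ci v₁))) c1.2.1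
            have f2 : v₂.1 ∈ T.lev (S.ci v₁) := lev_of_eqv T (Or.inr g1 : Eqv T v₂.1 _ _) c2.2.1
            have f3 : v₁.1 = v₂.1 := by
              rcases c1.2.2.2 _ f2 with h4 | h4
              · have := c2.2.2.1; omega
              · rcases c2.2.2.2 _ f1 with h5 | h5
                · have := c1.2.2.1; omega
                · omega
            exact ⟨f3, (tr_eq_iff.2 (Or.inr g2)).symm⟩
      have hvv : v₁ = v₂ := by
        refine Prod.ext key.1 ?_
        rw [← ci_tr S hv₁, key.2, key.1, ci_tr S hv₂]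
      rw [hvv]
    · exfalso
      have e1 : T.top i₂ = S.kp v₁ := congrArg Prod.fst h2
      have e2 : tr T i₂ (S.kp v₁) = tr T (S.ci v₁) (S.kp v₁) := by
        have := congrArg Prod.snd h2
        simp only [vx] at this
        rwa [e1] at this
      have e3 : co T i₂ (S.kp v₁) = co T (S.ci v₁) (S.kp v₁) := by
        have h' : co T (S.ci v₁) (S.kp v₁) = co T i₂ (T.top i₂) := h
        rw [e1] at h'
        exact h'.symm
      have c1 := S.kp_cons v₁ hv₁
      rcases tr_eq_iff.1 (tr_succ e2 e3) with e5 | e5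
      · have := TB.le_top T (e5 ▸ c1.2.1 : v₁.1 ∈ T.lev i₂)
        have := c1.2.2.1
        omega
      · by_cases hij : i₂ = S.ci v₁
        · have := TB.le_top T (hij ▸ c1.2.1 : v₁.1 ∈ T.lev i₂)
          have := c1.2.2.1
          omega
        · have := TB.le_top T (TB.del_mem_lev T (Ne.symm hij))
          omega
  · rcases hb with ⟨v₂, hv₂, rfl, h2, rfl⟩ | ⟨i₂, rfl, h2⟩
    · exfalso
      have e1 : T.top i₁ = S.kp v₂ := congrArg Prod.fst h1
      have e2 : tr T i₁ (S.kp v₂) = tr T (S.ci v₂) (S.kp v₂) := by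
        have := congrArg Prod.snd h1
        simp only [vx] at this
        rwa [e1] at this
      have e3 : co T i₁ (S.kp v₂) = co T (S.ci v₂) (S.kp v₂) := by
        have h' : co T i₁ (T.top i₁) = co T (S.ci v₂) (S.kp v₂) := h
        rwa [e1] at h'
      have c1 := S.kp_cons v₂ hv₂
      rcases tr_eq_iff.1 (tr_succ e2 e3) with e5 | e5
      · have := TB.le_top T (e5 ▸ c1.2.1 : v₂.1 ∈ T.lev i₁)
        have := c1.2.2.1
        omega
      · by_cases hij : i₁ = S.ci v₂
        · have := TB.le_top T (hij ▸ c1.2.1 : v₂.1 ∈ T.lev i₁)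
          have := c1.2.2.1
          omega
        · have := TB.le_top T (TB.del_mem_lev T (Ne.symm hij))
          omega
    · subst h1
      have e1 : T.top i₂ = T.top i₁ := congrArg Prod.fst h2
      have e2 : tr T i₂ (T.top i₁) = tr T i₁ (T.top i₁) := by
        have := congrArg Prod.snd h2
        simp only [vx] at this
        rwa [e1] at this
      have e3 : co T i₂ (T.top i₁) = co T i₁ (T.top i₁) := by
        have h' : co T i₁ (T.top i₁) = co T i₂ (T.top i₂) := h
        rw [e1] at h'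
        exact h'.symm
      rcases tr_eq_iff.1 (tr_succ e2 e3) with e5 | e5
      · rw [e5]
      · by_cases hij : i₂ = i₁
        · rw [hij]
        · exfalso
          have := TB.le_top T (TB.del_mem_lev T (Ne.symm hij))
          omega

theorem pc_mem {v : Vtx} {a : Ch T.m} (ha : Chd S v a) : pc T a ∈ sp T v := by
  rcases ha with ⟨v', hv', rfl, h1, rfl⟩ | ⟨i, rfl, rfl⟩
  · exact mem_sp.2 ⟨S.ci v', rfl, rfl⟩
  · exact mem_sp.2 ⟨i, rfl, rfl⟩

end Crest.Agent.R257.OB_287
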