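import Mathlib
import Crest.Agent.R257.WtE_258
import Crest.Agent.R257.Wt1_258
import Crest.Agent.R257.Typ_201
import Crest.Agent.R257.Vx_331
import Crest.Agent.R257.Lab3_931

/-!
Row 257 (S0395), C-WT, file 2 (helper258): types of filters (201) in the language of `BPDefs_258`,
the key lemma: a sheet of a chart whose points tend to a point `q₀` of a vertex curve does so along
one of the axes of the chart.
-/

set_option autoImplicit false
set_option linter.unusedSectionVars false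

open Polynomial Set Filter Topology Metric
open Crest.AlgGeometry.Germ Crest.Agent.R257.AJ387 Crest.Agent.R257.T387
open Crest.Agent.R257.Gr1_157 Crest.Agent.R257.HoB_843 Crest.Agent.R257.BP_258
open Crest.Agent.R257.Frm_547 Crest.Agent.R257.Typ_201 Crest.Agent.R257.Lab_931

noncomputable section

namespace Crest.Agent.R257.Wt_258

variable {f : (Fin 3 → ℂ) → ℂ} {T : TB f} {U : Tub T} {S : Sh T}

section types

variable {l : Filter (ℂ × ℂ)} (h0 : Tendsto Prod.fst l (𝓝 0)) (h1 : ∀ᶠ q in l, q.1 ≠ 0)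

include h0 in
lemma ev_sD : ∀ᶠ q in l, q.1 ∈ sD T := h0.eventually ((isOpen_sD T).mem_nhds (zero_mem_sD T))

include h0 h1 in
lemma tv_vx {i : Fin T.m} {k : ℕ} (hk : k ∈ T.lev i) {w : ℂ}
    (hw : Tendsto (wv T (vx T i k)) l (𝓝 w)) (hs : w ∉ sp T (vx T i k)) :
    TV T l i k (w - co T i k) := by
  refine ⟨hk, ?_, fun h => hs ((Vx_331.mem_sp T).2 h)⟩
  have h2 : Tendsto (fun q : ℂ × ℂ => Vx_331.rest T i k q.1) l (𝓝 (co T i k)) := by
    have := (Vx_331.rest_an T i k 0 (zero_mem_sD T)).continuousAt.tendsto.comp h0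
    rwa [Vx_331.rest_zero] at this
  refine (hw.sub h2).congr' ?_
  filter_upwards [h1] with q hq
  have := Vx_331.wv_add T i k (s := q.1) (y := q.2) hq
  rw [show wv T (vx T i k) q = wv T (vx T i k) (q.1, q.2) from rfl, this]
  unfold Typ_201.wc
  ring

include h0 h1 in
lemma v_unique [l.NeBot] {v v' : Vtx} (hv : v ∈ Vs T) (hv' : v' ∈ Vs T) {w w' : ℂ}
    (hw : Tendsto (wv T v) l (𝓝 w)) (hs : w ∉ sp T v)
    (hw' : Tendsto (wv T v') l (𝓝 w')) (hs' : w' ∉ sp T v') : v = v' := by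
  obtain ⟨i, k, hk, rfl⟩ := (Vx_331.mem_Vs T).1 hv
  obtain ⟨i', k', hk', rfl⟩ := (Vx_331.mem_Vs T).1 hv'
  obtain ⟨rfl, h⟩ := TV_TV h0 h1 (tv_vx h0 h1 hk hw hs) (tv_vx h0 h1 hk' hw' hs')
  exact (Vx_331.vx_eq_iff T i i' k).2 h

include h0 h1 in
lemma not_node [l.NeBot] {v : Vtx} (hv : v ∈ Vs T) {w : ℂ}
    (hw : Tendsto (wv T v) l (𝓝 w)) (hs : w ∉ sp T v) {i : Fin T.m} {k k' : ℕ}
    (h : TN T l i k k') : False := by
  obtain ⟨i', k'', hk, rfl⟩ := (Vx_331.mem_Vs T).1 hv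
  exact TV_TN h0 h1 (tv_vx h0 h1 hk hw hs) h

include h0 h1 in
lemma not_leg [l.NeBot] {v : Vtx} (hv : v ∈ Vs T) {w : ℂ}
    (hw : Tendsto (wv T v) l (𝓝 w)) (hs : w ∉ sp T v) {i : Fin T.m} (h : TL T l i) : False := by
  obtain ⟨i', k'', hk, rfl⟩ := (Vx_331.mem_Vs T).1 hv
  exact TV_TL h0 h1 (tv_vx h0 h1 hk hw hs) h

include h0 in
lemma φ_tendsto (i : Fin T.m) : Tendsto (fun q : ℂ × ℂ => T.φ i (q.1 ^ T.M)) l (𝓝 0) := by
  have h2 : ContinuousAt (T.φ i) 0 := (T.φ_an i 0 (mem_ball_self T.ρ_pos)).continuousAt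
  have h3 : Tendsto (fun q : ℂ × ℂ => q.1 ^ T.M) l (𝓝 0) := by
    have := h0.pow T.M
    rwa [zero_pow T.M_pos.ne'] at this
  have := h2.tendsto.comp h3
  rwa [T.φ_zero] at this

include h0 h1 in
lemma snd_zero {i : Fin T.m} {k : ℕ} {w : ℂ} (hw : Tendsto (Typ_201.wc T i k) l (𝓝 w))
    (h : k ≠ 0 ∨ w = 0) : Tendsto Prod.snd l (𝓝 0) := by
  have h2 : Tendsto (fun q : ℂ × ℂ => T.φ i (q.1 ^ T.M) + q.1 ^ (T.M * k) * Typ_201.wc T i k q) l
      (𝓝 (0 + 0 ^ (T.M * k) * w)) := (φ_tendsto h0 i).add ((h0.pow _).mul hw)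
  have h3 : (0 : ℂ) + 0 ^ (T.M * k) * w = 0 := by
    rcases h with h | h
    · rw [zero_pow (Nat.mul_ne_zero T.M_pos.ne' h)]; ring
    · rw [h]; ring
  rw [h3] at h2
  refine h2.congr' ?_
  filter_upwards [h1] with q hq
  unfold Typ_201.wc
  have : q.1 ^ (T.M * k) ≠ 0 := pow_ne_zero _ hq
  field_simp
  ring

include h0 h1 in
lemma v_snd_zero {v : Vtx} (hv : v ∈ Vs T) {w : ℂ}
    (hw : Tendsto (wv T v) l (𝓝 w)) (hs : w ∉ sp T v) : Tendsto Prod.snd l (𝓝 0) := by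
  obtain ⟨i, k, hk, rfl⟩ := (Vx_331.mem_Vs T).1 hv
  exact snd_zero h0 h1 (tv_vx h0 h1 hk hw hs).2.1 (Or.inl (TB.lev_pos T hk).ne')

end types

instance (v : Vtx) : T2Space (XV U v) := inferInstanceAs (T2Space {q : ℂ × ℂ // _})

lemma gen_fst {c : Ch T.m} {p : ℂ × ℂ} (h : T.Gen c p) : p.1 ≠ 0 := by
  cases c with
  | edge i k k' => exact h.1
  | leg i => exact h.1
  | vert i k w₀ => exact h

lemma gen_snd {c : Ch T.m} {p : ℂ × ℂ} (h : T.Gen c p) (hc : ¬ IsV c) : p.2 ≠ 0 := by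
  cases c with
  | edge i k k' => exact h.2
  | leg i => exact h.2
  | vert i k w₀ => exact absurd trivial hc

lemma eq_of_lim {v : Vtx} {j : Fin T.d} {c : Ch T.m} {𝒰 : Filter (ℂ × ℂ)} [𝒰.NeBot] {q₀ q₁ : XV U v}
    (h1 : ∀ O ∈ 𝓝 q₀, ∀ᶠ p in 𝒰, ∀ q, IsRet U v (wc S c j p) q → q ∈ O)
    (h2 : ∀ O ∈ 𝓝 q₁, ∀ᶠ p in 𝒰, ∀ q, IsRet U v (wc S c j p) q → q ∈ O)
    (hex : ∀ᶠ p in 𝒰, ∃ q', IsRet U v (wc S c j p) q') : q₀ = q₁ := by
  by_contra hne
  obtain ⟨O, O', hO, hO', ho, ho', hd⟩ := t2_separation hne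
  obtain ⟨p, hp1, hp2, q, hq⟩ := ((h1 O (hO.mem_nhds ho)).and
    ((h2 O' (hO'.mem_nhds ho')).and hex)).exists
  exact Set.disjoint_left.1 hd (hp1 q hq) (hp2 q hq)

/-- **the key lemma** -/
theorem key (hR : RetStmt U) {v : Vtx} (hv : v ∈ Vs T) {c : Ch T.m} (hc : T.Valid c) {j : Fin T.d}
    {q₀ : XV U v} {r₁ r₂ : ℝ} (hr₁ : r₁ ≤ S.r c) (hr₂ : r₂ ≤ S.r c) (𝒰 : Ultrafilter (ℂ × ℂ))
    (hb : ∀ᶠ p in (𝒰 : Filter (ℂ × ℂ)), ‖p.1‖ ≤ r₁ ∧ ‖p.2‖ ≤ r₂ ∧ T.Gen c p)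
    (hs : Tendsto (fun p => (T.map c p).1) (𝒰 : Filter (ℂ × ℂ)) (𝓝 0))
    (hq : ∀ O ∈ 𝓝 q₀, ∀ᶠ p in (𝒰 : Filter (ℂ × ℂ)), ∀ q, IsRet U v (wc S c j p) q → q ∈ O)
    (hex : ∀ᶠ p in (𝒰 : Filter (ℂ × ℂ)), ∃ q, IsRet U v (wc S c j p) q) :
    (∃ b, (𝒰 : Filter (ℂ × ℂ)) ≤ 𝓝 (0, b) ∧ v1 T c = some v ∧ (IsV c ∨ b ≠ 0) ∧ ‖b‖ ≤ r₂ ∧
      ∀ γ, End1 U S c v γ → γ j b = q₀) ∨
    (∃ a, (𝒰 : Filter (ℂ × ℂ)) ≤ 𝓝 (a, 0) ∧ v2 T c = some v ∧ a ≠ 0 ∧ ‖a‖ ≤ r₁ ∧
      ∀ γ, End2 U S c v γ → γ j a = q₀) := by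
  have hM := T.M_pos.ne'
  -- the limit
  have hK : IsCompact (closedBall (0 : ℂ) r₁ ×ˢ closedBall (0 : ℂ) r₂) :=
    (isCompact_closedBall _ _).prod (isCompact_closedBall _ _)
  obtain ⟨ps, hps, hle⟩ := hK.ultrafilter_le_nhds 𝒰 (by
    rw [le_principal_iff]
    filter_upwards [hb] with p hp
    exact ⟨mem_closedBall_zero_iff.2 hp.1, mem_closedBall_zero_iff.2 hp.2.1⟩)
  have hp1 : ‖ps.1‖ ≤ r₁ := mem_closedBall_zero_iff.1 hps.1
  have hp2 : ‖ps.2‖ ≤ r₂ := mem_closedBall_zero_iff.1 hps.2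
  have hBD : ps ∈ BD (2 * S.r c) (2 * S.r c) :=
    ⟨lt_two_r S (hp1.trans hr₁), lt_two_r S (hp2.trans hr₂)⟩
  have hBDn : BD (2 * S.r c) (2 * S.r c) ∈ 𝓝 ps := (isOpen_BD _ _).mem_nhds hBD
  -- the map
  have hmc : ContinuousAt (T.map c) ps := (map_cont S hc).continuousAt hBDn
  have hs0 : (T.map c ps).1 = 0 :=
    tendsto_nhds_unique ((hmc.fst.tendsto).mono_left hle) hs
  set l : Filter (ℂ × ℂ) := Filter.map (T.map c) 𝒰 with hl
  have lne : l.NeBot := by rw [hl]; infer_instance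
  have l0 : Tendsto Prod.fst l (𝓝 0) := tendsto_map'_iff.2 hs
  have l1 : ∀ᶠ q in l, q.1 ≠ 0 := by
    rw [hl, eventually_map]
    filter_upwards [hb] with p hp
    exact map_ne hp.2.2
  -- `w → pV q₀`
  have hw : Tendsto (wv T v) l (𝓝 (pV U v q₀)) := by
    rw [hl, tendsto_map'_iff]
    intro O hO
    have hc1 : Continuous (pV U v) := continuous_fst.comp continuous_subtype_val
    show ∀ᶠ p in (𝒰 : Filter (ℂ × ℂ)), wv T v (T.map c p) ∈ O
    filter_upwards [hq _ (hc1.continuousAt.preimage_mem_nhds hO), hex] with p hp hp'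
    obtain ⟨q, hq'⟩ := hp'
    have h2 := hp q hq'
    have h3 : pV U v q = wv T v (T.map c p) := hq'.2.1
    rw [← h3]
    exact h2
  have hsp : pV U v q₀ ∉ sp T v := q₀.2.2.1
  -- type of the axes
  have axis1 : ∀ {v' : Vtx}, v1 T c = some v' → ps.1 = 0 → (IsV c ∨ ps.2 ≠ 0) → 
      (∃ b, (𝒰 : Filter (ℂ × ℂ)) ≤ 𝓝 (0, b) ∧ v1 T c = some v ∧ (IsV c ∨ b ≠ 0) ∧ ‖b‖ ≤ r₂ ∧
      ∀ γ, End1 U S c v γ → γ j b = q₀) := by
    intro v' hv' h10 h20
    have e : ps = (0, ps.2) := Prod.ext h10 rfl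
    have hW : Tendsto (wv T v') l (𝓝 (W1 c (0, ps.2))) := by
      rw [hl, tendsto_map'_iff]
      have h2 : Tendsto (W1 c) (𝒰 : Filter (ℂ × ℂ)) (𝓝 (W1 c ps)) :=
        ((W1_cont S hc).continuousAt hBDn).tendsto.mono_left hle
      rw [e] at h2
      refine h2.congr' ?_
      filter_upwards [hb] with p hp
      exact (W1_eq hc hv' hp.2.2).symm
    have hv'' := v1_mem hc hv'
    have hns : W1 c (0, ps.2) ∉ sp T v' := W1_zero S hc hv' (hp2.trans hr₂) h20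
    obtain rfl := v_unique l0 l1 hv hv'' hw hsp hW hns
    refine ⟨ps.2, by rw [← e]; exact hle, hv', h20, hp2, fun γ hγ => ?_⟩
    have hPD : ps.2 ∈ PDv S c := by
      refine ⟨h20.imp id fun h => norm_pos_iff.2 h, hBD.2⟩
    refine eq_of_lim (𝒰 := (𝒰 : Filter (ℂ × ℂ))) (c := c) (j := j) (S := S) (fun O hO => ?_) hq hex
    have h3 := (hγ.lim j ps.2 hPD).2 O hO
    have h4 : ∀ᶠ p in (𝒰 : Filter (ℂ × ℂ)), p.1 ≠ 0 → ∀ q, IsRet U v (wc S c j p) q → q ∈ O :=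
      h3.filter_mono (by rw [← e]; exact hle)
    filter_upwards [h4, hb] with p hp hp'
    exact hp (gen_fst hp'.2.2)
  have axis2 : ∀ {v' : Vtx}, v2 T c = some v' → ps.2 = 0 → ps.1 ≠ 0 → 
      (∃ a, (𝒰 : Filter (ℂ × ℂ)) ≤ 𝓝 (a, 0) ∧ v2 T c = some v ∧ a ≠ 0 ∧ ‖a‖ ≤ r₁ ∧
      ∀ γ, End2 U S c v γ → γ j a = q₀) := by
    intro v' hv' h20 h10
    have e : ps = (ps.1, 0) := Prod.ext rfl h20
    have hnV : ¬ IsV c := by
      intro h
      cases c with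
      | edge i k k' => exact h
      | leg i => exact h
      | vert i k w₀ => simp [v2] at hv'
    have hW : Tendsto (wv T v') l (𝓝 (W2 c (ps.1, 0))) := by
      rw [hl, tendsto_map'_iff]
      have h2 : Tendsto (W2 c) (𝒰 : Filter (ℂ × ℂ)) (𝓝 (W2 c ps)) := by
        refine ((W2_cont S hc).continuousAt ?_).tendsto.mono_left hle
        exact Filter.inter_mem hBDn ((isOpen_ne_fun continuous_fst continuous_const).mem_nhds h10)
      rw [e] at h2
      refine h2.congr' ?_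
      filter_upwards [hb] with p hp
      exact (W2_eq hc hv' hp.2.2).symm
    have hv'' := v2_mem hc hv'
    have hns : W2 c (ps.1, 0) ∉ sp T v' := W2_zero S hc hv' (hp1.trans hr₁) h10
    obtain rfl := v_unique l0 l1 hv hv'' hw hsp hW hns
    refine ⟨ps.1, by rw [← e]; exact hle, hv', h10, hp1, fun γ hγ => ?_⟩
    have hPD : ps.1 ∈ PDc S c := ⟨norm_pos_iff.2 h10, hBD.1⟩
    refine eq_of_lim (𝒰 := (𝒰 : Filter (ℂ × ℂ))) (c := c) (j := j) (S := S) (fun O hO => ?_) hq hex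
    have h3 := (hγ.lim j ps.1 hPD).2 O hO
    have h4 : ∀ᶠ p in (𝒰 : Filter (ℂ × ℂ)), p.2 ≠ 0 → ∀ q, IsRet U v (wc S c j p) q → q ∈ O :=
      h3.filter_mono (by rw [← e]; exact hle)
    filter_upwards [h4, hb] with p hp hp'
    exact hp (gen_snd hp'.2.2 hnV)
  -- the cases
  cases c with
  | vert i k w₀ =>
    left
    exact axis1 (v' := vx T i k) rfl hs0 (Or.inl trivial)
  | leg i =>
    left
    have h10 : ps.1 = 0 := hs0
    refine axis1 (v' := vx T i (T.top i)) rfl h10 (Or.inr fun h20 => ?_)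
    refine not_leg l0 l1 hv hw hsp (i := i) ?_
    unfold TL
    rw [hl, tendsto_map'_iff]
    have h2 : Tendsto (fun p : ℂ × ℂ => p.2 ^ T.M) (𝒰 : Filter (ℂ × ℂ)) (𝓝 (ps.2 ^ T.M)) :=
      ((continuous_snd.pow _).tendsto ps).mono_left hle
    rw [h20, zero_pow hM] at h2
    refine h2.congr' ?_
    filter_upwards [hb] with p hp
    have hp0 : p.1 ≠ 0 := hp.2.2.1
    simp only [Function.comp_apply, Typ_201.wc, TB.map]
    rw [add_sub_cancel_left, mul_div_cancel_left₀ _ (pow_ne_zero _ hp0)]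
  | edge i k k' =>
    have hkk : k < k' := hc.2.2.1
    have hll : T.M * (k' - k) ≠ 0 := Nat.mul_ne_zero hM (by omega)
    have e1 : ∀ p : ℂ × ℂ, p.1 ≠ 0 → p.2 ≠ 0 →
        Typ_201.wc T i k (T.map (.edge i k k') p) = p.2 ^ (T.M * (k' - k)) := by
      intro p hp1 hp2
      simp only [Typ_201.wc, TB.map]
      rw [add_sub_cancel_left, mul_pow, mul_div_mul_left _ _ (pow_ne_zero _ hp1),
        div_eq_iff (pow_ne_zero _ hp2), ← pow_add, ← mul_add, Nat.sub_add_cancel hkk.le]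
    have e2 : ∀ p : ℂ × ℂ, p.1 ≠ 0 → p.2 ≠ 0 →
        Typ_201.wc T i k' (T.map (.edge i k k') p) = (p.1 ^ (T.M * (k' - k)))⁻¹ := by
      intro p hp1 hp2
      simp only [Typ_201.wc, TB.map]
      rw [add_sub_cancel_left, mul_pow, mul_div_mul_right _ _ (pow_ne_zero _ hp2)]
      have h3 : p.1 ^ (T.M * k') = p.1 ^ (T.M * k) * p.1 ^ (T.M * (k' - k)) := by
        rw [← pow_add, ← mul_add, Nat.add_sub_cancel' hkk.le]
      rw [h3, ← div_div, div_self (pow_ne_zero _ hp1), one_div]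
    have hs0' : ps.1 * ps.2 = 0 := hs0
    by_cases h10 : ps.1 = 0
    · by_cases h20 : ps.2 = 0
      · -- the corner
        exfalso
        refine not_node l0 l1 hv hw hsp (i := i) (k := k) (k' := k') ⟨hc, ?_, ?_⟩
        · rw [hl, tendsto_map'_iff]
          have h2 : Tendsto (fun p : ℂ × ℂ => p.2 ^ (T.M * (k' - k))) (𝒰 : Filter (ℂ × ℂ))
              (𝓝 (ps.2 ^ (T.M * (k' - k)))) := ((continuous_snd.pow _).tendsto ps).mono_left hle
          rw [h20, zero_pow hll] at h2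
          refine h2.congr' ?_
          filter_upwards [hb] with p hp
          exact (e1 p hp.2.2.1 hp.2.2.2).symm
        · rw [hl, tendsto_map'_iff, ← tendsto_norm_atTop_iff_cobounded]
          have h2 : Tendsto (fun p : ℂ × ℂ => ‖p.1 ^ (T.M * (k' - k))‖) (𝒰 : Filter (ℂ × ℂ))
              (𝓝 ‖ps.1 ^ (T.M * (k' - k))‖) :=
            ((continuous_fst.pow _).norm.tendsto ps).mono_left hle
          rw [h10, zero_pow hll, norm_zero] at h2
          have h3 : Tendsto (fun p : ℂ × ℂ => ‖p.1 ^ (T.M * (k' - k))‖⁻¹) (𝒰 : Filter (ℂ × ℂ))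
              atTop := by
            refine tendsto_inv_nhdsGT_zero.comp ?_
            rw [tendsto_nhdsWithin_iff]
            refine ⟨h2, ?_⟩
            filter_upwards [hb] with p hp
            exact norm_pos_iff.2 (pow_ne_zero _ hp.2.2.1)
          refine h3.congr' ?_
          filter_upwards [hb] with p hp
          rw [Function.comp_apply, e2 p hp.2.2.1 hp.2.2.2, norm_inv]
      · -- first axis
        by_cases hk0 : k = 0
        · exfalso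
          subst hk0
          have h3 := v_snd_zero l0 l1 hv hw hsp
          have h4 : Tendsto (fun q : ℂ × ℂ => Typ_201.wc T i 0 q) l (𝓝 0) := by
            have h5 := h3.sub (φ_tendsto l0 i)
            rw [sub_zero] at h5
            refine h5.congr fun q => ?_
            simp [Typ_201.wc]
          have h6 : Tendsto (fun q : ℂ × ℂ => Typ_201.wc T i 0 q) l
              (𝓝 (ps.2 ^ (T.M * (k' - 0)))) := by
            rw [hl, tendsto_map'_iff]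
            have h2 : Tendsto (fun p : ℂ × ℂ => p.2 ^ (T.M * (k' - 0))) (𝒰 : Filter (ℂ × ℂ))
                (𝓝 (ps.2 ^ (T.M * (k' - 0)))) := ((continuous_snd.pow _).tendsto ps).mono_left hle
            refine h2.congr' ?_
            filter_upwards [hb] with p hp
            exact (e1 p hp.2.2.1 hp.2.2.2).symm
          exact pow_ne_zero _ h20 (tendsto_nhds_unique h6 h4)
        · left
          exact axis1 (v' := vx T i k) (by simp [v1, hk0]) h10 (Or.inr h20)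
    · right
      have h20 : ps.2 = 0 := (mul_eq_zero.1 hs0').resolve_left h10
      exact axis2 (v' := vx T i k') rfl h20 h10

end Crest.Agent.R257.Wt_258
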