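import Mathlib
import Crest.Agent.R257.Wt2_258
import Crest.Agent.R257.WtF_258

/-!
Row 257 (S0395), C-WT, file 3 (helper258): the parameters of the construction and the weight `Φ₀`.
-/

set_option autoImplicit false
set_option linter.unusedSectionVars false
set_option linter.unusedVariables false

open Polynomial Set Filter Topology Metric
open Crest.AlgGeometry.Germ Crest.Agent.R257.AJ387 Crest.Agent.R257.T387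
open Crest.Agent.R257.Gr1_157 Crest.Agent.R257.HoB_843 Crest.Agent.R257.BP_258
open Crest.Agent.R257.Frm_547 Crest.Agent.R257.Lab_931

noncomputable section

namespace Crest.Agent.R257.Wt_258

variable {f : (Fin 3 → ℂ) → ℂ} {T : TB f} {U : Tub T} {S : Sh T}

/-- charts carrying an edge function -/
def Es {F : Finset (Ch T.m)} (K : DKill S F) (c : Ch T.m) (j : Fin T.d) : Prop :=
  Ok S c ∧ (IsV c → (c, j) ∈ K.κ)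

/-- radius in `α` of the zone of a chart -/
def ta (S : Sh T) (τ : ℝ) (c : Ch T.m) : ℝ := if v2 T c = none then S.r c else τ

/-- radius in `β` of the zone of a chart -/
def tb (S : Sh T) (τ : ℝ) (c : Ch T.m) : ℝ := if v1 T c = none then S.r c else τ

/-- the zone of a chart -/
def zn (S : Sh T) (τ : ℝ) (c : Ch T.m) : Set (ℂ × ℂ) :=
  {p | ‖p.1‖ < ta S τ c ∧ ‖p.2‖ < tb S τ c ∧ T.Gen c p}

/-- the core of the curve over `v` -/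
def Om {F : Finset (Ch T.m)} (K : DKill S F)
    (γ1 : ∀ (_ : Ch T.m) (v : Vtx) (_ : v ∈ Vs T), Fin T.d → ℂ → XV U v) (κ : ℝ) (v : Vtx) : Set (XV U v) :=
  {q | ‖pV U v q‖ < κ⁻¹ ∧ (∀ c ∈ sp T v, κ < ‖pV U v q - c‖) ∧
    ∀ c j, (c, j) ∈ K.κ → IsV c → v1 T c = some v → ∀ b : ℂ, ‖b‖ ≤ κ → γ1 c v q.2.1 j b ≠ q}

open Classical in
/-- the excess, `0` if there is no kill -/
def tt {F : Finset (Ch T.m)} (K : DKill S F) (c : Ch T.m) (j : Fin T.d) : ℝ :=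
  if (c, j) ∈ K.κ then K.t (c, j) else 0

/-- the edge function of a sheet of a chart -/
def EL (L : Lab U S) (y : II U → ℝ) {F : Finset (Ch T.m)} (K : DKill S F) (c : Ch T.m)
    (j : Fin T.d) (p : ℂ × ℂ) : ℝ :=
  yo y (L.e1 c j) * Real.log (‖p.1‖ ^ 2) + yo y (L.e2 c j) * Real.log (‖p.2‖ ^ 2) +
    tt K c j * Real.log (‖p.1‖ ^ (2 * K.b (c, j)) + ‖p.2‖ ^ (2 * K.a (c, j)))

/-- the parameters -/
structure WPar (L : Lab U S) [Fintype (II U)] (y : II U → ℝ) {F : Finset (Ch T.m)} (K : DKill S F)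
    (τ₀ τ₁ : ℝ) where
  γ1 : ∀ (_ : Ch T.m) (v : Vtx) (_ : v ∈ Vs T), Fin T.d → ℂ → XV U v
  γ2 : ∀ (_ : Ch T.m) (v : Vtx) (_ : v ∈ Vs T), Fin T.d → ℂ → XV U v
  h : ∀ v, XV U v → ℝ
  δ : ℝ
  C : ℝ
  τH : ℝ
  τ : ℝ
  κ : ℝ
  B : ℝ
  hF : ∀ c ∈ F, Ok S c
  end1 : ∀ c, Ok S c → ∀ v : {v // v ∈ Vs T}, v1 T c = some v.1 →
    End1 U S c v.1 (γ1 c v.1 v.2) ∧ ∀ j, ∀ b ∈ PDv S c, L.e1 c j = some (lab U v (γ1 c v.1 v.2 j b))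
  end2 : ∀ c, Ok S c → ∀ v : {v // v ∈ Vs T}, v2 T c = some v.1 →
    End2 U S c v.1 (γ2 c v.1 v.2) ∧ ∀ j, ∀ a ∈ PDc S c, L.e2 c j = some (lab U v (γ2 c v.1 v.2 j a))
  smp : ∀ v ∈ Vs T, SmPos (pV U v)
    {q | ∃ c j, (c, j) ∈ K.κ ∧ IsV c ∧ v1 T c = some v ∧ q = γ1 c v q.2.1 j 0} (h v)
  hv1 : ∀ c, Ok S c → ∀ v : {v // v ∈ Vs T}, v1 T c = some v.1 → ∀ j, (IsV c → (c, j) ∈ K.κ) →
    ∀ b : ℂ, 0 < ‖b‖ → ‖b‖ < τH → ‖b‖ < S.r c →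
      |h v.1 (γ1 c v.1 v.2 j b) - (d1 L y K c j + δ) * Real.log (‖b‖ ^ 2)| ≤ C
  hv2 : ∀ c, Ok S c → ∀ v : {v // v ∈ Vs T}, v2 T c = some v.1 → ∀ j,
    ∀ a : ℂ, 0 < ‖a‖ → ‖a‖ < τH → ‖a‖ < S.r c →
      |h v.1 (γ2 c v.1 v.2 j a) - (d2 L y K c j + δ) * Real.log (‖a‖ ^ 2)| ≤ C
  δ_pos : 0 < δ
  τ_pos : 0 < τ
  τ_lt1 : τ < 1
  τ_τ₀ : τ < τ₀
  κ_pos : 0 < κ
  κ_lt : κ < τ
  τ_lt : τ < τH
  τ_r : ∀ c j, Es K c j → τ < S.r c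
  sep11 : ∀ c c' j j', Es K c j → Es K c' j' → ∀ v, v1 T c = some v → v1 T c' = some v →
    ∀ b b' : ℂ, ‖b‖ ≤ τ → ‖b'‖ ≤ τ → cx T c + b ^ lx T c = cx T c' + b' ^ lx T c' → c = c'
  sep12 : ∀ c c' j j', Es K c j → Es K c' j' → ∀ v, v1 T c = some v → v2 T c' = some v →
    ∀ b a : ℂ, ‖b‖ ≤ τ → a ≠ 0 → ‖a‖ ≤ τ → cx T c + b ^ lx T c ≠ (a ^ lx T c')⁻¹
  bigB : 2 + C < B + δ * Real.log (τ ^ 2)
  smallκ : ∀ c j, Es K c j → ∀ b : ℂ, b ≠ 0 → ‖b‖ ^ lx T c ≤ κ →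
    ‖b‖ < τ ∧ δ * Real.log (‖b‖ ^ 2) + C + B < -1
  sm1 : ∀ c j, Es K c j → ∀ v, v1 T c = some v → ∀ b : ℂ, ‖b‖ ≤ τ →
    ‖cx T c + b ^ lx T c‖ < κ⁻¹ ∧ ∀ c' ∈ sp T v, c' ≠ cx T c → κ < ‖cx T c + b ^ lx T c - c'‖
  sm2 : ∀ c j, Es K c j → ∀ v, v2 T c = some v → ∀ a : ℂ, a ≠ 0 → ‖a‖ ≤ τ →
    ∀ c' ∈ sp T v, κ < ‖(a ^ lx T c)⁻¹ - c'‖
  str1 : ∀ c ∈ F, ∀ j v, v1 T c = some v → ∀ b : ℂ, ‖b‖ ≤ S.r c →
    ((K.κ = ∅ ∧ (IsV c ∨ τ₀ ≤ ‖b‖)) ∨ ((c, j) ∈ K.κ ∧ τ₀ ≤ ‖b‖ ∧ ‖b‖ ≤ τ₁)) →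
    (∀ c' j', Es K c' j' → v1 T c' = some v → ∀ b' : ℂ, ‖b'‖ ≤ τ →
      cx T c + b ^ lx T c ≠ cx T c' + b' ^ lx T c') ∧
    (∀ c' j', Es K c' j' → v2 T c' = some v → ∀ a : ℂ, a ≠ 0 → ‖a‖ ≤ τ →
      cx T c + b ^ lx T c ≠ (a ^ lx T c')⁻¹)
  str2 : ∀ c ∈ F, ∀ j v, v2 T c = some v → ∀ a : ℂ, ‖a‖ ≤ S.r c → τ₀ ≤ ‖a‖ →
    (K.κ = ∅ ∨ ((c, j) ∈ K.κ ∧ ‖a‖ ≤ τ₁)) →
    (∀ c' j', Es K c' j' → v1 T c' = some v → ∀ b' : ℂ, ‖b'‖ ≤ τ →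
      (a ^ lx T c)⁻¹ ≠ cx T c' + b' ^ lx T c') ∧
    (∀ c' j', Es K c' j' → v2 T c' = some v → ∀ a' : ℂ, a' ≠ 0 → ‖a'‖ ≤ τ →
      (a ^ lx T c)⁻¹ ≠ (a' ^ lx T c')⁻¹)

variable {L : Lab U S} [Fintype (II U)] {y : II U → ℝ} {F : Finset (Ch T.m)} {K : DKill S F}
  {τ₀ τ₁ : ℝ} (P : WPar L y K τ₀ τ₁)

namespace WPar

/-- values of the vertex functions at `x` -/
def RV (x : Fin 3 → ℂ) (a : ℝ) : Prop := ∃ v : {v // v ∈ Vs T}, ∃ q, IsRet U v.1 x q ∧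
  q ∈ Om K P.γ1 P.κ v.1 ∧ a = y (lab U v q) * Real.log (‖x 1‖ ^ 2) + P.h v.1 q

/-- values of the edge functions at `x` -/
def RE (x : Fin 3 → ℂ) (b : ℝ) : Prop := ∃ c j p, Es K c j ∧ p ∈ zn S P.τ c ∧
  wc S c j p = x ∧ b = EL L y K c j p - P.B

open Classical in
/-- the glued weight -/
def Φ (x : Fin 3 → ℂ) : ℝ :=
  if hV : ∃ a, P.RV x a then
    if hE : ∃ b, P.RE x b then smx hV.choose hE.choose else hV.choose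
  else if hE : ∃ b, P.RE x b then hE.choose else 0

variable {P}

lemma Φ_VE {x : Fin 3 → ℂ} {A B : ℝ} (h1 : P.RV x A) (h1' : ∀ a, P.RV x a → a = A)
    (h2 : P.RE x B) (h2' : ∀ b, P.RE x b → b = B) : P.Φ x = smx A B := by
  unfold Φ
  have hV : ∃ a, P.RV x a := ⟨A, h1⟩
  have hE : ∃ b, P.RE x b := ⟨B, h2⟩
  rw [dif_pos hV, dif_pos hE, h1' _ hV.choose_spec, h2' _ hE.choose_spec]

lemma Φ_V {x : Fin 3 → ℂ} {A : ℝ} (h1 : P.RV x A) (h1' : ∀ a, P.RV x a → a = A)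
    (h2 : ∀ b, P.RE x b → b + 1 ≤ A) : P.Φ x = A := by
  unfold Φ
  have hV : ∃ a, P.RV x a := ⟨A, h1⟩
  rw [dif_pos hV]
  split_ifs with hE
  · rw [h1' _ hV.choose_spec]
    exact smx_left (h2 _ hE.choose_spec)
  · exact h1' _ hV.choose_spec

lemma Φ_E {x : Fin 3 → ℂ} {B : ℝ} (h1 : P.RE x B) (h1' : ∀ b, P.RE x b → b = B)
    (h2 : ∀ a, P.RV x a → a + 1 ≤ B) : P.Φ x = B := by
  unfold Φ
  have hE : ∃ b, P.RE x b := ⟨B, h1⟩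
  split_ifs with hV
  · rw [h1' _ hE.choose_spec]
    exact smx_right (h2 _ hV.choose_spec)
  · exact h1' _ hE.choose_spec

end WPar

/-! ### tube charts -/

variable (U) in
/-- the tube chart at a point of the curve over `v` -/
structure TC (v : Vtx) (q₀ : XV U v) where
  r : ℝ
  R : ℝ
  r_pos : 0 < r
  R_pos : 0 < R
  Z : ℂ × ℂ → ℂ
  σ : ℂ → XV U v
  hv : v ∈ Vs T
  σ0 : σ (pV U v q₀) = q₀
  σc : ContinuousOn σ (ball (pV U v q₀) r)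
  σp : ∀ w ∈ ball (pV U v q₀) r, pV U v (σ w) = w
  ρR : ∀ w ∈ ball (pV U v q₀) r, w ∉ sp T v ∧ U.ρ v w < R
  Zan : AnalyticOnNhd ℂ Z (ball 0 R ×ˢ ball (pV U v q₀) r)
  mem : ∀ q ∈ ball (0 : ℂ) R ×ˢ ball (pV U v q₀) r, (q.1, yv T v q) ∈ BD 1 T.R ∧
    ‖q.1‖ ^ T.M < T.ρ ∧ (T.Q (q.1, yv T v q)).eval (Z q) = 0
  ret : ∀ w ∈ ball (pV U v q₀) r, ∀ s, s ≠ 0 → ‖s‖ < U.ρ v w →
    IsRet U v (pt (Z (s, w)) (s, yv T v (s, w))) (σ w)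

theorem exists_TC (hR : RetStmt U) {v : Vtx} (hv : v ∈ Vs T) (q₀ : XV U v) :
    Nonempty (TC U v q₀) := by
  obtain ⟨r, hr, R, hR0, Z, σ, h1, h2, h3, h4, h5, h6, h7, h8, h9⟩ := (hR v hv).2 (pV U v q₀) q₀.2.2.1
  obtain ⟨i, hi⟩ := h8 q₀ (mem_ball_self hr)
  exact ⟨{ r := r, R := R, r_pos := hr, R_pos := hR0, Z := Z i, σ := σ i, hv := hv, σ0 := hi
           σc := h5 i, σp := h6 i, ρR := h1, Zan := h2 i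
           mem := fun q hq => ⟨(h3 q hq).1, (h3 q hq).2.1, by
             rw [(h3 q hq).2.2, eval_prod_X_sub_C]
             exact ⟨i, rfl⟩⟩
           ret := fun w hw s hs hs' => h9 i w hw s hs hs' }⟩

namespace TC

variable {v : Vtx} {q₀ : XV U v} (D : TC U v q₀)

/-- the points of the tube chart -/
def X (q : ℂ × ℂ) : Fin 3 → ℂ := pt (D.Z q) (q.1, yv T v q)

/-- the filter of the generic points near `(0, w₁)` -/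
def Fl (_ : TC U v q₀) : Filter (ℂ × ℂ) := 𝓝[{q : ℂ × ℂ | q.1 ≠ 0}] ((0 : ℂ), pV U v q₀)

lemma Fl_le : D.Fl ≤ 𝓝 ((0 : ℂ), pV U v q₀) := nhdsWithin_le_nhds

lemma ev_ne : ∀ᶠ q in D.Fl, q.1 ≠ 0 := self_mem_nhdsWithin

lemma ev_ball : ∀ᶠ q in D.Fl, q.2 ∈ ball (pV U v q₀) D.r := by
  have h1 : ∀ᶠ q : ℂ × ℂ in 𝓝 ((0 : ℂ), pV U v q₀), q.2 ∈ ball (pV U v q₀) D.r :=
    continuous_snd.continuousAt.preimage_mem_nhds (isOpen_ball.mem_nhds (mem_ball_self D.r_pos))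
  exact h1.filter_mono D.Fl_le

include D in
lemma ρ_cont : ContinuousAt (U.ρ v) (pV U v q₀) :=
  (U.cont v D.hv).continuousAt ((isClosed_sp v).isOpen_compl.mem_nhds q₀.2.2.1)

lemma ev_ρ : ∀ᶠ q in D.Fl, ‖q.1‖ < U.ρ v q.2 := by
  have h1 : Tendsto (fun q : ℂ × ℂ => ‖q.1‖) (𝓝 ((0 : ℂ), pV U v q₀)) (𝓝 0) := by
    have := (continuous_fst (X := ℂ) (Y := ℂ)).norm.tendsto ((0 : ℂ), pV U v q₀)
    simpa using this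
  have h2 : Tendsto (fun q : ℂ × ℂ => U.ρ v q.2) (𝓝 ((0 : ℂ), pV U v q₀))
      (𝓝 (U.ρ v (pV U v q₀))) := D.ρ_cont.tendsto.comp (continuous_snd.tendsto _)
  exact (h1.eventually_lt h2 (U.pos v D.hv _ q₀.2.2.1)).filter_mono D.Fl_le

lemma ev_ret : ∀ᶠ q in D.Fl, IsRet U v (D.X q) (D.σ q.2) := by
  filter_upwards [D.ev_ne, D.ev_ball, D.ev_ρ] with q h1 h2 h3
  exact D.ret q.2 h2 q.1 h1 h3

lemma σ_cont : ContinuousAt D.σ (pV U v q₀) :=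
  D.σc.continuousAt (isOpen_ball.mem_nhds (mem_ball_self D.r_pos))

lemma σ_tendsto : Tendsto (fun q : ℂ × ℂ => D.σ q.2) D.Fl (𝓝 q₀) := by
  have h1 : Tendsto (fun q : ℂ × ℂ => D.σ q.2) (𝓝 ((0 : ℂ), pV U v q₀)) (𝓝 (D.σ (pV U v q₀))) :=
    D.σ_cont.tendsto.comp (continuous_snd.tendsto _)
  rw [D.σ0] at h1
  exact h1.mono_left D.Fl_le

lemma fst_tendsto : Tendsto (fun q : ℂ × ℂ => q.1) D.Fl (𝓝 0) :=
  ((continuous_fst (X := ℂ) (Y := ℂ)).tendsto _).mono_left D.Fl_le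

lemma snd_tendsto : Tendsto (fun q : ℂ × ℂ => q.2) D.Fl (𝓝 (pV U v q₀)) :=
  ((continuous_snd (X := ℂ) (Y := ℂ)).tendsto _).mono_left D.Fl_le

instance : D.Fl.NeBot := by
  unfold Fl
  rw [← mem_closure_iff_nhdsWithin_neBot]
  have h1 : Dense ({0}ᶜ : Set ℂ) := dense_compl_singleton 0
  have h2 : Dense ({q : ℂ × ℂ | q.1 ≠ 0}) := by
    have := h1.prod (dense_univ (X := ℂ))
    refine this.mono fun q hq => hq.1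
  exact h2 _

lemma ret_unique (hR : RetStmt U) {x : Fin 3 → ℂ} {q q' : XV U v} (h : IsRet U v x q)
    (h' : IsRet U v x q') : q = q' :=
  ((hR v h.1.mem).1 x h.1).unique h h'

/-- retractions of the points of the tube chart -/
lemma ev_ret_lim (hR : RetStmt U) (O : Set (XV U v)) (hO : O ∈ 𝓝 q₀) :
    ∀ᶠ q in D.Fl, ∀ q', IsRet U v (D.X q) q' → q' ∈ O := by
  filter_upwards [D.ev_ret, D.σ_tendsto.eventually_mem hO] with q h1 h2 q' h3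
  rw [ret_unique hR h3 h1]
  exact h2

/-- **frequent points of a chart in the tube chart** -/
theorem freq (hR : RetStmt U) {c : Ch T.m} (hc : T.Valid c) {j : Fin T.d} {r₁ r₂ : ℝ}
    (hr₁ : r₁ ≤ S.r c) (hr₂ : r₂ ≤ S.r c) {A : ℂ × ℂ → ℂ × ℂ → Prop}
    (h : ∃ᶠ q in D.Fl, ∃ p, (‖p.1‖ ≤ r₁ ∧ ‖p.2‖ ≤ r₂ ∧ T.Gen c p) ∧ wc S c j p = D.X q ∧ A q p) :
    ∃ (𝒱 : Ultrafilter (ℂ × ℂ)) (g : ℂ × ℂ → ℂ × ℂ), (𝒱 : Filter (ℂ × ℂ)) ≤ D.Fl ∧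
      (∀ᶠ q in (𝒱 : Filter (ℂ × ℂ)), (‖(g q).1‖ ≤ r₁ ∧ ‖(g q).2‖ ≤ r₂ ∧ T.Gen c (g q)) ∧
        wc S c j (g q) = D.X q ∧ A q (g q)) ∧
      ((∃ b, Tendsto g 𝒱 (𝓝 (0, b)) ∧ v1 T c = some v ∧ (IsV c ∨ b ≠ 0) ∧ ‖b‖ ≤ r₂ ∧
        ∀ γ, End1 U S c v γ → γ j b = q₀) ∨
      (∃ a, Tendsto g 𝒱 (𝓝 (a, 0)) ∧ v2 T c = some v ∧ a ≠ 0 ∧ ‖a‖ ≤ r₁ ∧
        ∀ γ, End2 U S c v γ → γ j a = q₀)) := by
  classical
  set Aset : Set (ℂ × ℂ) := {q | ∃ p, (‖p.1‖ ≤ r₁ ∧ ‖p.2‖ ≤ r₂ ∧ T.Gen c p) ∧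
    wc S c j p = D.X q ∧ A q p} with hA
  have hne : (D.Fl ⊓ 𝓟 Aset).NeBot := Filter.frequently_mem_iff_neBot.1 h
  obtain ⟨𝒱, h𝒱⟩ := Ultrafilter.exists_le (D.Fl ⊓ 𝓟 Aset)
  have hV1 : (𝒱 : Filter (ℂ × ℂ)) ≤ D.Fl := h𝒱.trans inf_le_left
  have hV2 : Aset ∈ (𝒱 : Filter (ℂ × ℂ)) := h𝒱 (mem_inf_of_right (mem_principal_self _))
  let g : ℂ × ℂ → ℂ × ℂ := fun q => if hq : q ∈ Aset then hq.choose else 0
  have hg : ∀ᶠ q in (𝒱 : Filter (ℂ × ℂ)), (‖(g q).1‖ ≤ r₁ ∧ ‖(g q).2‖ ≤ r₂ ∧ T.Gen c (g q)) ∧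
      wc S c j (g q) = D.X q ∧ A q (g q) := by
    filter_upwards [hV2] with q hq
    have e : g q = hq.choose := dif_pos hq
    rw [e]
    exact hq.choose_spec
  refine ⟨𝒱, g, hV1, hg, ?_⟩
  have hk := key hR D.hv hc (j := j) (q₀ := q₀) hr₁ hr₂ (𝒱.map g) ?_ ?_ ?_ ?_
  · exact hk
  · show ∀ᶠ q in (𝒱 : Filter (ℂ × ℂ)), _
    filter_upwards [hg] with q hq
    exact hq.1
  · show Tendsto (fun p => (T.map c p).1) (Filter.map g 𝒱) (𝓝 0)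
    rw [tendsto_map'_iff]
    refine (D.fst_tendsto.mono_left hV1).congr' ?_
    filter_upwards [hg] with q hq
    have h2 : wc S c j (g q) 1 = D.X q 1 := by rw [hq.2.1]
    exact h2.symm
  · intro O hO
    show ∀ᶠ q in (𝒱 : Filter (ℂ × ℂ)), _
    filter_upwards [hg, (D.ev_ret_lim hR O hO).filter_mono hV1] with q hq hq'
    rw [hq.2.1]
    exact hq'
  · show ∀ᶠ q in (𝒱 : Filter (ℂ × ℂ)), _
    filter_upwards [hg, D.ev_ret.filter_mono hV1] with q hq hq'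
    rw [hq.2.1]
    exact ⟨_, hq'⟩

end TC

end Crest.Agent.R257.Wt_258
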