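import Mathlib
import Crest.Agent.R257.Wt3_258
import Crest.Agent.R257.FrmF_547
import Crest.Agent.R257.Glue2_101

/-!
Row 257 (S0395), C-WT, file 4 (helper258): the edge function `EL`: independence of the sheet
(`EL_val`), smoothness and plurisubharmonicity (`EL_sm`), bounds.
-/

set_option autoImplicit false
set_option linter.unusedSectionVars false
set_option linter.unusedVariables false

open Polynomial Set Filter Topology Metric
open Crest.AlgGeometry.Germ Crest.Agent.R257.AJ387 Crest.Agent.R257.T387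
open Crest.Agent.R257.Gr1_157 Crest.Agent.R257.HoB_843 Crest.Agent.R257.BP_258
open Crest.Agent.R257.Frm_547 Crest.Agent.R257.Lab_931

noncomputable section

namespace Crest.Agent.R257.Wt_258

variable {f : (Fin 3 → ℂ) → ℂ} {T : TB f} {U : Tub T} {S : Sh T}

lemma wc_1 (c : Ch T.m) (j : Fin T.d) (p : ℂ × ℂ) : wc S c j p 1 = (T.map c p).1 := rfl

lemma wc_2 (c : Ch T.m) (j : Fin T.d) (p : ℂ × ℂ) : wc S c j p 2 = (T.map c p).2 := rfl

lemma wc_0 (c : Ch T.m) (j : Fin T.d) (p : ℂ × ℂ) : wc S c j p 0 = S.ζ c j p := rfl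

lemma map_of_wc {c c' : Ch T.m} {j j' : Fin T.d} {p p' : ℂ × ℂ}
    (h : wc S c j p = wc S c' j' p') : T.map c p = T.map c' p' :=
  Prod.ext (by rw [← wc_1 c j, ← wc_1 c' j', h]) (by rw [← wc_2 c j, ← wc_2 c' j', h])

lemma nodup_of_gen {c : Ch T.m} {r : ℝ} {ζ : Fin T.d → ℂ × ℂ → ℂ} (hS : T.Sheets c r ζ)
    {p : ℂ × ℂ} (hp : p ∈ BD r r) (hg : T.Gen c p) : (T.Q (T.map c p)).roots.Nodup := by
  have h1 : (∏ j, (Polynomial.X - C (ζ j p)) : ℂ[X]) =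
      ((Finset.univ.val.map fun j => ζ j p).map fun a => Polynomial.X - C a).prod := by
    rw [Multiset.map_map]
    rfl
  rw [hS.split p hp, h1, roots_multiset_prod_X_sub_C]
  exact Multiset.Nodup.map (hS.inj p hp hg) Finset.univ.nodup

/-- two generic points of one chart with the same point of `W` -/
theorem rel {c : Ch T.m} (hc : Ok S c) {j j' : Fin T.d} {p p' : ℂ × ℂ}
    (hp : p ∈ BD (2 * S.r c) (2 * S.r c)) (hg : T.Gen c p)
    (h : wc S c j p = wc S c j' p') :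
    ∃ R : ℂ × ℂ → ℂ × ℂ, (∀ q, ‖(R q).1‖ = ‖q.1‖ ∧ ‖(R q).2‖ = ‖q.2‖) ∧ R p = p' ∧
      ∀ q ∈ BD (2 * S.r c) (2 * S.r c), wc S c j q = wc S c j' (R q) := by
  have hm := map_of_wc h
  have hs : (T.map c p).1 ≠ 0 := map_ne hg
  have hnd := nodup_of_gen (S.sheets c hc.1) hp hg
  have hζ : S.ζ c j p = S.ζ c j' p' := by rw [← wc_0 c j, ← wc_0 c j', h]
  by_cases hV : IsV c
  · cases c with
    | edge i k k' => exact absurd hV (by simp [IsV])
    | leg i => exact absurd hV (by simp [IsV])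
    | vert i k w₀ =>
      have e1 : p.1 = p'.1 := by
        have h1 := congrArg Prod.fst hm
        simpa only [TB.map] using h1
      have e2 : p = p' := by
        refine Prod.ext e1 ?_
        have h2 := congrArg Prod.snd hm
        simp only [TB.map] at h2
        rw [← e1] at h2
        have h3 := add_left_cancel h2
        have h4 : p.1 ^ (T.M * k) ≠ 0 := pow_ne_zero _ (show p.1 ≠ 0 from hg)
        exact add_left_cancel (mul_left_cancel₀ h4 h3)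
      subst e2
      have e3 : j = j' := (S.sheets _ hc.1).inj p hp hg hζ
      subst e3
      exact ⟨id, fun q => ⟨rfl, rfl⟩, rfl, fun q _ => rfl⟩
  · obtain ⟨R, hRa, hRn, hRm, hRp⟩ := FrmF_547.exists_rot hc.1 hV hm hs
    have hz := FrmF_547.sheets_rot (S.sheets c hc.1) hRa
      (fun q hq => ⟨by rw [(hRn q).1]; exact hq.1, by rw [(hRn q).2]; exact hq.2⟩) hRm
      hp hnd (j := j) (j' := j') (by rw [hRp]; exact hζ)
    refine ⟨R, hRn, hRp, fun q hq => ?_⟩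
    unfold wc
    rw [hz q hq, hRm]

lemma gen_norm {c : Ch T.m} {p p' : ℂ × ℂ} (h1 : ‖p.1‖ = ‖p'.1‖) (h2 : ‖p.2‖ = ‖p'.2‖)
    (h : T.Gen c p) : T.Gen c p' := by
  have e1 : p.1 ≠ 0 → p'.1 ≠ 0 := fun h => norm_pos_iff.1 (by rw [← h1]; exact norm_pos_iff.2 h)
  have e2 : p.2 ≠ 0 → p'.2 ≠ 0 := fun h => norm_pos_iff.1 (by rw [← h2]; exact norm_pos_iff.2 h)
  cases c with
  | edge i k k' => exact ⟨e1 h.1, e2 h.2⟩
  | leg i => exact ⟨e1 h.1, e2 h.2⟩
  | vert i k w₀ => exact e1 h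

/-- small generic points -/
lemma exists_small (c : Ch T.m) {r : ℝ} (hr : 0 < r) : ∃ q ∈ BD r r, T.Gen c q := by
  have h1 : ‖((r / 2 : ℝ) : ℂ)‖ = r / 2 := by
    rw [Complex.norm_real, Real.norm_of_nonneg (by linarith)]
  have h2 : ((r / 2 : ℝ) : ℂ) ≠ 0 := by
    rw [← norm_pos_iff, h1]; linarith
  refine ⟨(((r / 2 : ℝ) : ℂ), ((r / 2 : ℝ) : ℂ)), ⟨?_, ?_⟩, gen_of h2 (Or.inr h2)⟩
  · show ‖((r / 2 : ℝ) : ℂ)‖ < r
    rw [h1]; linarith
  · show ‖((r / 2 : ℝ) : ℂ)‖ < r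
    rw [h1]; linarith

variable {L : Lab U S} {y : II U → ℝ} {F : Finset (Ch T.m)} {K : DKill S F}

/-- kills are the same on equal points -/
theorem kill_val {c : Ch T.m} (hc : Ok S c) {j j' : Fin T.d} {p p' : ℂ × ℂ}
    (hp : p ∈ BD (2 * S.r c) (2 * S.r c)) (hg : T.Gen c p)
    (h : wc S c j p = wc S c j' p') (hk : (c, j) ∈ K.κ) :
    (c, j') ∈ K.κ ∧ K.t (c, j') = K.t (c, j) ∧ K.a (c, j') = K.a (c, j) ∧
      K.b (c, j') = K.b (c, j) := by
  obtain ⟨R, hRn, hRp, hw⟩ := rel hc hp hg h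
  obtain ⟨r, hr, hex⟩ := K.ex
  obtain ⟨q, hq, hqg⟩ := exists_small (T := T) c (r := min r (2 * S.r c))
    (lt_min hr (by have := S.pos c; linarith))
  have hq1 : q ∈ BD r r := ⟨hq.1.trans_le (min_le_left _ _), hq.2.trans_le (min_le_left _ _)⟩
  have hq2 : q ∈ BD (2 * S.r c) (2 * S.r c) :=
    ⟨hq.1.trans_le (min_le_right _ _), hq.2.trans_le (min_le_right _ _)⟩
  have hRq : R q ∈ BD r r := ⟨by rw [(hRn q).1]; exact hq1.1, by rw [(hRn q).2]; exact hq1.2⟩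
  exact (hex (c, j) hk c (Or.inl rfl) j' q (R q) hq1 hRq hqg
    (gen_norm (hRn q).1.symm (hRn q).2.symm hqg) (hw q hq2)).2

variable (L y K) in
/-- **the value of the edge function depends only on the point of `W`** -/
theorem EL_val (hR : RetStmt U) {c : Ch T.m} (hc : Ok S c) {j j' : Fin T.d} {p p' : ℂ × ℂ}
    (hp : p ∈ BD (2 * S.r c) (2 * S.r c)) (hg : T.Gen c p)
    (h : wc S c j p = wc S c j' p') : EL L y K c j p = EL L y K c j' p' := by
  obtain ⟨R, hRn, hRp, hw⟩ := rel hc hp hg h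
  have hl := FrmF_547.lab_eq L hR hc hRn hw
  have n1 : ‖p'.1‖ = ‖p.1‖ := by rw [← hRp]; exact (hRn p).1
  have n2 : ‖p'.2‖ = ‖p.2‖ := by rw [← hRp]; exact (hRn p).2
  have hp' : p' ∈ BD (2 * S.r c) (2 * S.r c) := ⟨by rw [n1]; exact hp.1, by rw [n2]; exact hp.2⟩
  have hg' : T.Gen c p' := gen_norm n1.symm n2.symm hg
  unfold EL tt
  rw [hl.1, hl.2, n1, n2]
  by_cases hk : (c, j) ∈ K.κ
  · obtain ⟨k1, k2, k3, k4⟩ := kill_val hc hp hg h hk
    rw [if_pos hk, if_pos k1, k2, k3, k4]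
  · have hk' : (c, j') ∉ K.κ := fun hk' => hk (kill_val hc hp' hg' h.symm hk').1
    rw [if_neg hk, if_neg hk', zero_mul, zero_mul]

lemma tt_nn (K : DKill S F) (c : Ch T.m) (j : Fin T.d) : 0 ≤ tt K c j := by
  unfold tt
  split_ifs with h
  · exact (K.t_pos _ h).le
  · exact le_rfl

lemma yo_v2 (L : Lab U S) (y : II U → ℝ) {c : Ch T.m} (hc : Ok S c) (j : Fin T.d)
    (h : v2 T c = none) : yo y (L.e2 c j) = 0 := by
  rw [FrmF_547.e2_none L hc j h]; rfl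

lemma yo_v1 (L : Lab U S) (y : II U → ℝ) {c : Ch T.m} (hc : Ok S c) (j : Fin T.d)
    (h : v1 T c = none) : yo y (L.e1 c j) = 0 := by
  rw [FrmF_547.e1_none L hc j h]; rfl

lemma fst_cd {p : ℂ × ℂ} : ContDiffAt ℂ (⊤ : ℕ∞) (fun p : ℂ × ℂ => p.1) p := contDiffAt_fst
lemma snd_cd {p : ℂ × ℂ} : ContDiffAt ℂ (⊤ : ℕ∞) (fun p : ℂ × ℂ => p.2) p := contDiffAt_snd

variable (L y K) in
/-- smoothness and plurisubharmonicity of the edge function -/
theorem EL_sm {c : Ch T.m} (hc : Ok S c) (j : Fin T.d) {p : ℂ × ℂ} (hg : T.Gen c p) :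
    ContDiffAt ℝ (⊤ : ℕ∞) (EL L y K c j) p ∧ ∀ w, 0 ≤ lvE (EL L y K c j) p w := by
  have h1 : p.1 ≠ 0 := gen_fst hg
  have two : (2 : WithTop ℕ∞) ≤ ((⊤ : ℕ∞) : WithTop ℕ∞) := by norm_cast
  -- the three terms
  have a1 : ContDiffAt ℝ (⊤ : ℕ∞) (fun p : ℂ × ℂ => Real.log (‖p.1‖ ^ 2)) p := cd_log fst_cd h1
  have b1 : ∀ w, lvE (fun p : ℂ × ℂ => Real.log (‖p.1‖ ^ 2)) p w = 0 := lvE_log fst_cd h1
  have A1 : ContDiffAt ℝ (⊤ : ℕ∞) (fun p : ℂ × ℂ => yo y (L.e1 c j) * Real.log (‖p.1‖ ^ 2)) p :=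
    contDiffAt_const.mul a1
  have B1 : ∀ w, lvE (fun p : ℂ × ℂ => yo y (L.e1 c j) * Real.log (‖p.1‖ ^ 2)) p w = 0 := by
    intro w
    rw [lvE_const_mul (a1.of_le two), b1, mul_zero]
  have AB2 : ContDiffAt ℝ (⊤ : ℕ∞) (fun p : ℂ × ℂ => yo y (L.e2 c j) * Real.log (‖p.2‖ ^ 2)) p ∧
      ∀ w, lvE (fun p : ℂ × ℂ => yo y (L.e2 c j) * Real.log (‖p.2‖ ^ 2)) p w = 0 := by
    by_cases hV : IsV c
    · have h2 : v2 T c = none := by
        cases c with
        | edge i k k' => exact absurd hV (by simp [IsV])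
        | leg i => rfl
        | vert i k w₀ => rfl
      have e : (fun p : ℂ × ℂ => yo y (L.e2 c j) * Real.log (‖p.2‖ ^ 2)) = fun _ => 0 := by
        funext p
        rw [yo_v2 L y hc j h2, zero_mul]
      rw [e]
      exact ⟨contDiffAt_const, fun w => lvE_const 0 p w⟩
    · have h2 : p.2 ≠ 0 := gen_snd hg hV
      have a2 : ContDiffAt ℝ (⊤ : ℕ∞) (fun p : ℂ × ℂ => Real.log (‖p.2‖ ^ 2)) p := cd_log snd_cd h2
      refine ⟨contDiffAt_const.mul a2, fun w => ?_⟩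
      rw [lvE_const_mul (a2.of_le two), lvE_log snd_cd h2, mul_zero]
  obtain ⟨A2, B2⟩ := AB2
  have e3 : (fun p : ℂ × ℂ => Real.log (‖p.1‖ ^ (2 * K.b (c, j)) + ‖p.2‖ ^ (2 * K.a (c, j)))) =
      fun p => Real.log (‖p.1 ^ K.b (c, j)‖ ^ 2 + ‖p.2 ^ K.a (c, j)‖ ^ 2) := by
    funext p
    rw [norm_pow, norm_pow, ← pow_mul, ← pow_mul, mul_comm 2, mul_comm 2]
  have a3 : ContDiffAt ℝ (⊤ : ℕ∞)
      (fun p : ℂ × ℂ => Real.log (‖p.1‖ ^ (2 * K.b (c, j)) + ‖p.2‖ ^ (2 * K.a (c, j)))) p := by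
    rw [e3]
    exact Glue2_101.sm_log2 (fst_cd.pow _) (snd_cd.pow _) (Or.inl (pow_ne_zero _ h1))
  have b3 : ∀ w, 0 ≤ lvE
      (fun p : ℂ × ℂ => Real.log (‖p.1‖ ^ (2 * K.b (c, j)) + ‖p.2‖ ^ (2 * K.a (c, j)))) p w := by
    intro w
    rw [e3]
    exact Glue2_101.lvE_log2 (fst_cd.pow _) (snd_cd.pow _) (Or.inl (pow_ne_zero _ h1)) w
  have A3 := (contDiffAt_const (c := tt K c j) (x := p)).mul a3
  refine ⟨(A1.add A2).add A3, fun w => ?_⟩
  have e : EL L y K c j = fun p => (yo y (L.e1 c j) * Real.log (‖p.1‖ ^ 2) +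
      yo y (L.e2 c j) * Real.log (‖p.2‖ ^ 2)) +
      tt K c j * Real.log (‖p.1‖ ^ (2 * K.b (c, j)) + ‖p.2‖ ^ (2 * K.a (c, j))) := rfl
  rw [e, lvE_add ((A1.add A2).of_le two) (A3.of_le two),
    lvE_add (A1.of_le two) (A2.of_le two), B1, B2, lvE_const_mul (a3.of_le two)]
  have := mul_nonneg (tt_nn K c j) (b3 w)
  linarith

/-! ### bounds -/

variable (L y K) in
/-- upper bound -/
theorem EL_le (c : Ch T.m) (j : Fin T.d) {p : ℂ × ℂ} (h1 : ‖p.1‖ ≤ 1) (h2 : ‖p.2‖ ≤ 1) :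
    EL L y K c j p ≤ yo y (L.e1 c j) * Real.log (‖p.1‖ ^ 2) +
      yo y (L.e2 c j) * Real.log (‖p.2‖ ^ 2) + tt K c j * Real.log 2 := by
  unfold EL
  have h3 : ‖p.1‖ ^ (2 * K.b (c, j)) ≤ 1 := pow_le_one₀ (norm_nonneg _) h1
  have h4 : ‖p.2‖ ^ (2 * K.a (c, j)) ≤ 1 := pow_le_one₀ (norm_nonneg _) h2
  have h5 : Real.log (‖p.1‖ ^ (2 * K.b (c, j)) + ‖p.2‖ ^ (2 * K.a (c, j))) ≤ Real.log 2 := by
    by_cases h0 : ‖p.1‖ ^ (2 * K.b (c, j)) + ‖p.2‖ ^ (2 * K.a (c, j)) = 0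
    · rw [h0, Real.log_zero]
      exact Real.log_nonneg (by norm_num)
    · refine Real.log_le_log (lt_of_le_of_ne (by positivity) (Ne.symm h0)) (by linarith)
  have := mul_le_mul_of_nonneg_left h5 (tt_nn K c j)
  linarith

variable (L y K) in
/-- comparison with the linear function of the axis `{α = 0}` -/
theorem EL_ge1 (c : Ch T.m) (j : Fin T.d) {p : ℂ × ℂ} (h2 : p.2 ≠ 0) :
    yo y (L.e1 c j) * Real.log (‖p.1‖ ^ 2) +
      (yo y (L.e2 c j) + dk1 K c j) * Real.log (‖p.2‖ ^ 2) ≤ EL L y K c j p := by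
  unfold EL
  have h3 : 0 < ‖p.2‖ ^ (2 * K.a (c, j)) := by
    have := norm_pos_iff.2 h2
    positivity
  have h4 : Real.log (‖p.2‖ ^ (2 * K.a (c, j))) ≤
      Real.log (‖p.1‖ ^ (2 * K.b (c, j)) + ‖p.2‖ ^ (2 * K.a (c, j))) :=
    Real.log_le_log h3 (by have : 0 ≤ ‖p.1‖ ^ (2 * K.b (c, j)) := by positivity
                           linarith)
  have h5 : dk1 K c j * Real.log (‖p.2‖ ^ 2) = tt K c j * Real.log (‖p.2‖ ^ (2 * K.a (c, j))) := by
    unfold dk1 tt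
    rw [Real.log_pow, Real.log_pow]
    split_ifs
    · push_cast; ring
    · simp
  have := mul_le_mul_of_nonneg_left h4 (tt_nn K c j)
  rw [add_mul, h5]
  linarith

variable (L y K) in
/-- comparison with the linear function of the axis `{β = 0}` -/
theorem EL_ge2 (c : Ch T.m) (j : Fin T.d) {p : ℂ × ℂ} (h1 : p.1 ≠ 0) :
    (yo y (L.e1 c j) + dk2 K c j) * Real.log (‖p.1‖ ^ 2) +
      yo y (L.e2 c j) * Real.log (‖p.2‖ ^ 2) ≤ EL L y K c j p := by
  unfold EL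
  have h3 : 0 < ‖p.1‖ ^ (2 * K.b (c, j)) := by
    have := norm_pos_iff.2 h1
    positivity
  have h4 : Real.log (‖p.1‖ ^ (2 * K.b (c, j))) ≤
      Real.log (‖p.1‖ ^ (2 * K.b (c, j)) + ‖p.2‖ ^ (2 * K.a (c, j))) :=
    Real.log_le_log h3 (by have : 0 ≤ ‖p.2‖ ^ (2 * K.a (c, j)) := by positivity
                           linarith)
  have h5 : dk2 K c j * Real.log (‖p.1‖ ^ 2) = tt K c j * Real.log (‖p.1‖ ^ (2 * K.b (c, j))) := by
    unfold dk2 tt
    rw [Real.log_pow, Real.log_pow]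
    split_ifs
    · push_cast; ring
    · simp
  have := mul_le_mul_of_nonneg_left h4 (tt_nn K c j)
  rw [add_mul, h5]
  linarith

variable (L y K) in
/-- the edge function along `{α = 0}` -/
theorem EL_lim1 (c : Ch T.m) (j : Fin T.d) {b : ℂ} (hb : b ≠ 0) (hab : (c, j) ∈ K.κ → 0 < K.b (c, j)) :
    Tendsto (fun p : ℂ × ℂ => EL L y K c j p - (yo y (L.e1 c j) * Real.log (‖p.1‖ ^ 2) +
      (yo y (L.e2 c j) + dk1 K c j) * Real.log (‖p.2‖ ^ 2))) (𝓝 (0, b)) (𝓝 0) := by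
  have e : (fun p : ℂ × ℂ => EL L y K c j p - (yo y (L.e1 c j) * Real.log (‖p.1‖ ^ 2) +
      (yo y (L.e2 c j) + dk1 K c j) * Real.log (‖p.2‖ ^ 2))) = fun p : ℂ × ℂ => tt K c j *
      (Real.log (‖p.1‖ ^ (2 * K.b (c, j)) + ‖p.2‖ ^ (2 * K.a (c, j))) -
        Real.log (‖p.2‖ ^ (2 * K.a (c, j)))) := by
    funext p
    have h5 : dk1 K c j * Real.log (‖p.2‖ ^ 2) =
        tt K c j * Real.log (‖p.2‖ ^ (2 * K.a (c, j))) := by
      unfold dk1 tt
      rw [Real.log_pow, Real.log_pow]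
      split_ifs
      · push_cast; ring
      · simp
    unfold EL
    rw [add_mul, h5]
    ring
  rw [e]
  by_cases hk : (c, j) ∈ K.κ
  · have hbp := hab hk
    have hbn := norm_pos_iff.2 hb
    have c1 : ContinuousAt (fun p : ℂ × ℂ => tt K c j *
        (Real.log (‖p.1‖ ^ (2 * K.b (c, j)) + ‖p.2‖ ^ (2 * K.a (c, j))) -
        Real.log (‖p.2‖ ^ (2 * K.a (c, j))))) (0, b) := by
      refine continuousAt_const.mul (ContinuousAt.sub ?_ ?_)
      · refine ContinuousAt.log (by fun_prop) ?_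
        have : 0 < ‖b‖ ^ (2 * K.a (c, j)) := by positivity
        show ‖(0 : ℂ)‖ ^ (2 * K.b (c, j)) + ‖b‖ ^ (2 * K.a (c, j)) ≠ 0
        have : 0 ≤ ‖(0 : ℂ)‖ ^ (2 * K.b (c, j)) := by positivity
        positivity
      · refine ContinuousAt.log (by fun_prop) ?_
        show ‖b‖ ^ (2 * K.a (c, j)) ≠ 0
        positivity
    have h0 := c1.tendsto
    have e0 : ‖(0 : ℂ)‖ ^ (2 * K.b (c, j)) = 0 := by
      rw [norm_zero, zero_pow (by omega)]
    simp only [e0, zero_add, sub_self, mul_zero] at h0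
    exact h0
  · have : tt K c j = 0 := if_neg hk
    simp only [this, zero_mul]
    exact tendsto_const_nhds

variable (L y K) in
/-- the edge function along `{β = 0}` -/
theorem EL_lim2 (c : Ch T.m) (j : Fin T.d) {a : ℂ} (ha : a ≠ 0) (hab : (c, j) ∈ K.κ → 0 < K.a (c, j)) :
    Tendsto (fun p : ℂ × ℂ => EL L y K c j p - ((yo y (L.e1 c j) + dk2 K c j) * Real.log (‖p.1‖ ^ 2) +
      yo y (L.e2 c j) * Real.log (‖p.2‖ ^ 2))) (𝓝 (a, 0)) (𝓝 0) := by
  have e : (fun p : ℂ × ℂ => EL L y K c j p - ((yo y (L.e1 c j) + dk2 K c j) * Real.log (‖p.1‖ ^ 2) +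
      yo y (L.e2 c j) * Real.log (‖p.2‖ ^ 2))) = fun p : ℂ × ℂ => tt K c j *
      (Real.log (‖p.1‖ ^ (2 * K.b (c, j)) + ‖p.2‖ ^ (2 * K.a (c, j))) -
        Real.log (‖p.1‖ ^ (2 * K.b (c, j)))) := by
    funext p
    have h5 : dk2 K c j * Real.log (‖p.1‖ ^ 2) =
        tt K c j * Real.log (‖p.1‖ ^ (2 * K.b (c, j))) := by
      unfold dk2 tt
      rw [Real.log_pow, Real.log_pow]
      split_ifs
      · push_cast; ring
      · simp
    unfold EL
    rw [add_mul, h5]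
    ring
  rw [e]
  by_cases hk : (c, j) ∈ K.κ
  · have hbp := hab hk
    have hbn := norm_pos_iff.2 ha
    have c1 : ContinuousAt (fun p : ℂ × ℂ => tt K c j *
        (Real.log (‖p.1‖ ^ (2 * K.b (c, j)) + ‖p.2‖ ^ (2 * K.a (c, j))) -
        Real.log (‖p.1‖ ^ (2 * K.b (c, j))))) (a, 0) := by
      refine continuousAt_const.mul (ContinuousAt.sub ?_ ?_)
      · refine ContinuousAt.log (by fun_prop) ?_
        have : 0 < ‖a‖ ^ (2 * K.b (c, j)) := by positivity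
        show ‖a‖ ^ (2 * K.b (c, j)) + ‖(0 : ℂ)‖ ^ (2 * K.a (c, j)) ≠ 0
        have : 0 ≤ ‖(0 : ℂ)‖ ^ (2 * K.a (c, j)) := by positivity
        positivity
      · refine ContinuousAt.log (by fun_prop) ?_
        show ‖a‖ ^ (2 * K.b (c, j)) ≠ 0
        positivity
    have h0 := c1.tendsto
    have e0 : ‖(0 : ℂ)‖ ^ (2 * K.a (c, j)) = 0 := by
      rw [norm_zero, zero_pow (by omega)]
    simp only [e0, add_zero, sub_self, mul_zero] at h0
    exact h0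
  · have : tt K c j = 0 := if_neg hk
    simp only [this, zero_mul]
    exact tendsto_const_nhds

end Crest.Agent.R257.Wt_258
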