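import Mathlib
import Crest.Agent.R257.Wt4_258
import Crest.Agent.R257.OB1_287
import Crest.Agent.R257.Hv1_174
import Crest.Agent.R257.Vt2_558
import Crest.Agent.R257.EndB_636

/-!
Row 257 (S0395), C-WT, file 5 (helper258): tube charts and retractions, uniqueness of the values of
the vertex functions, values of the edge functions near a point of a vertex curve.
-/

set_option autoImplicit false
set_option linter.unusedSectionVars false
set_option linter.unusedVariables false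

open Polynomial Set Filter Topology Metric
open Crest.AlgGeometry.Germ Crest.Agent.R257.AJ387 Crest.Agent.R257.T387
open Crest.Agent.R257.Gr1_157 Crest.Agent.R257.HoB_843 Crest.Agent.R257.BP_258
open Crest.Agent.R257.Frm_547 Crest.Agent.R257.Lab_931

noncomputable section

namespace Crest.Agent.R257.Wt_258

variable {f : (Fin 3 → ℂ) → ℂ} {T : TB f} {U : Tub T} {S : Sh T}

/-- every special point is attached -/
lemma ex_att {v : Vtx} (hv : v ∈ Vs T) {c' : ℂ} (hc : c' ∈ sp T v) :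
    ∃ c, Ok S c ∧ ¬ IsV c ∧ v1 T c = some v ∧ cx T c = c' := by
  obtain ⟨a, ha, hp⟩ := OB_287.chd_exists (S := S) hv hc
  rcases ha with ⟨v', hv', rfl, h0, h1⟩ | ⟨i, rfl, h1⟩
  · refine ⟨ec S v', Lab_931.ok_ec S hv', by simp [ec, IsV], ?_, hp⟩
    simp [ec, v1, h0, h1]
  · exact ⟨.leg i, ⟨trivial, trivial⟩, by simp [IsV], by simp [v1, h1], hp⟩

lemma pV_cont (v : Vtx) : Continuous (pV U v) := continuous_fst.comp continuous_subtype_val

/-- a point is determined by its retraction and `s` -/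
theorem ret_inj (hR : RetStmt U) {v : Vtx} {x x' : Fin 3 → ℂ} {q : XV U v} (h : IsRet U v x q)
    (h' : IsRet U v x' q) (h1 : x 1 = x' 1) : x = x' := by
  obtain ⟨D⟩ := Vt2_558.exists_LD hR h.1.mem (w₀ := pV U v q) q.2.2.1
  obtain ⟨l, -, -, a2, c1, c2⟩ := D.of_ret h (mem_ball_self D.r_pos)
  obtain ⟨l', -, -, b2, c3, c4⟩ := D.of_ret h' (mem_ball_self D.r_pos)
  have c5 : l = l' := D.σinj _ (mem_ball_self D.r_pos) (c2.symm.trans c4)
  subst c5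
  funext t
  fin_cases t
  · show x 0 = x' 0
    rw [c1, c3, h1]
  · exact h1
  · show x 2 = x' 2
    rw [a2, b2, h1]

namespace TC

variable {v : Vtx} {q₀ : XV U v} (D : TC U v q₀)

lemma near_ball : ∀ᶠ q' in 𝓝 q₀, pV U v q' ∈ ball (pV U v q₀) D.r :=
  (pV_cont v).continuousAt.eventually (isOpen_ball.mem_nhds (mem_ball_self D.r_pos))

theorem near (hR : RetStmt U) : ∀ᶠ q' in 𝓝 q₀, D.σ (pV U v q') = q' := by
  obtain ⟨E⟩ := Vt2_558.exists_LD hR D.hv (w₀ := pV U v q₀) q₀.2.2.1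
  obtain ⟨i, hi⟩ := E.surj q₀ (mem_ball_self E.r_pos)
  have h1 := E.near (j := i) (mem_ball_self E.r_pos)
  rw [hi] at h1
  have h2 : Tendsto (fun q' => D.σ (pV U v q')) (𝓝 q₀) (𝓝 q₀) := by
    have h3 : Tendsto (fun q' => D.σ (pV U v q')) (𝓝 q₀) (𝓝 (D.σ (pV U v q₀))) :=
      D.σ_cont.tendsto.comp ((pV_cont v).tendsto q₀)
    rwa [D.σ0] at h3
  filter_upwards [h1, h2.eventually h1, D.near_ball] with q' a1 a2 a3
  have e1 := a2.1
  rw [D.σp _ a3] at e1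
  rw [← e1, a1.1]

/-- points whose retraction is near `q₀` are in the tube chart -/
theorem ident (hR : RetStmt U) {α : Type*} {l : Filter α} {X : α → Fin 3 → ℂ}
    (hT : ∀ᶠ a in l, InT U v (X a))
    (h : ∀ O ∈ 𝓝 q₀, ∀ᶠ a in l, ∀ q', IsRet U v (X a) q' → q' ∈ O) :
    ∀ᶠ a in l, X a = D.X (X a 1, wv T v (X a 1, X a 2)) ∧
      wv T v (X a 1, X a 2) ∈ ball (pV U v q₀) D.r ∧
      IsRet U v (X a) (D.σ (wv T v (X a 1, X a 2))) := by
  filter_upwards [hT, h _ (D.near hR), h _ D.near_ball] with a a1 a2 a3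
  obtain ⟨q', hq', -⟩ := (hR v D.hv).1 _ a1
  have e1 : D.σ (pV U v q') = q' := a2 q' hq'
  have e2 : pV U v q' ∈ ball (pV U v q₀) D.r := a3 q' hq'
  have e3 : pV U v q' = wv T v (X a 1, X a 2) := hq'.2.1
  have e4 := D.ret (pV U v q') e2 (X a 1) a1.ne (by rw [e3]; exact a1.lt)
  rw [e1] at e4
  have e5 := ret_inj hR hq' e4 rfl
  rw [← e3]
  exact ⟨e5, e2, by rw [e1]; exact hq'⟩

/-- the labels along the section -/
lemma lab_σ {w : ℂ} (hw : w ∈ ball (pV U v q₀) D.r) :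
    lab U ⟨v, D.hv⟩ (D.σ w) = lab U ⟨v, D.hv⟩ q₀ := by
  have h1 : IsPreconnected (D.σ '' ball (pV U v q₀) D.r) :=
    (convex_ball _ _).isPreconnected.image _ D.σc
  have h2 : (D.σ w : ConnectedComponents (XV U v)) = (q₀ : ConnectedComponents (XV U v)) := by
    rw [ConnectedComponents.coe_eq_coe']
    have h3 : q₀ ∈ D.σ '' ball (pV U v q₀) D.r := ⟨_, mem_ball_self D.r_pos, D.σ0⟩
    exact h1.subset_connectedComponent h3 ⟨w, hw, rfl⟩
  unfold lab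
  rw [h2]

lemma X_1 (q : ℂ × ℂ) : D.X q 1 = q.1 := rfl
lemma X_2 (q : ℂ × ℂ) : D.X q 2 = yv T v q := rfl

lemma wv_X {q : ℂ × ℂ} (hq : q.1 ≠ 0) : wv T v (D.X q 1, D.X q 2) = q.2 := by
  rw [X_1, X_2]
  exact wv_yv v q.2 hq

end TC

variable {L : Lab U S} [Fintype (II U)] {y : II U → ℝ} {F : Finset (Ch T.m)} {K : DKill S F}
  {τ₀ τ₁ : ℝ} (P : WPar L y K τ₀ τ₁)

/-! ### the vertex functions -/

/-- bounded vertex coordinates converge along ultrafilters -/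
theorem RV_lim {v' : Vtx} {α : Type*} {𝒱 : Ultrafilter α} {X : α → Fin 3 → ℂ}
    (h : ∀ᶠ a in (𝒱 : Filter α), ∃ q', IsRet U v' (X a) q' ∧ q' ∈ Om K P.γ1 P.κ v') :
    ∃ w' ∉ sp T v', Tendsto (fun a => wv T v' (X a 1, X a 2)) 𝒱 (𝓝 w') := by
  set Kc : Set ℂ := closedBall 0 P.κ⁻¹ ∩ ⋂ c ∈ sp T v', {w | P.κ ≤ ‖w - c‖} with hKc
  have hK : IsCompact Kc := by
    refine (isCompact_closedBall _ _).inter_right ?_
    refine isClosed_biInter fun c _ => ?_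
    exact isClosed_le continuous_const (by fun_prop)
  obtain ⟨w', hw', hle⟩ := hK.ultrafilter_le_nhds (𝒱.map fun a => wv T v' (X a 1, X a 2)) (by
    rw [le_principal_iff]
    show ∀ᶠ a in (𝒱 : Filter α), wv T v' (X a 1, X a 2) ∈ Kc
    filter_upwards [h] with a ha
    obtain ⟨q', hq', hO⟩ := ha
    have e3 : pV U v' q' = wv T v' (X a 1, X a 2) := hq'.2.1
    rw [← e3]
    refine ⟨mem_closedBall_zero_iff.2 hO.1.le, mem_iInter₂.2 fun c hc => (hO.2.1 c hc).le⟩)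
  refine ⟨w', fun hs => ?_, hle⟩
  have h1 := mem_iInter₂.1 hw'.2 w' hs
  simp only [Set.mem_ofPred_eq, sub_self, norm_zero] at h1
  exact absurd P.κ_pos (not_lt.2 h1)

section tube

variable {v : Vtx} {q₀ : XV U v} (D : TC U v q₀)

/-- the vertex function in the tube chart -/
def FV (q : ℂ × ℂ) : ℝ := y (lab U ⟨v, D.hv⟩ q₀) * Real.log (‖q.1‖ ^ 2) + P.h v (D.σ q.2)

/-- **uniqueness of the value of the vertex functions** -/
theorem RV_uniq (hR : RetStmt U) : ∀ᶠ q in D.Fl, ∀ a, P.RV (D.X q) a →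
    D.σ q.2 ∈ Om K P.γ1 P.κ v ∧ a = FV P D q := by
  have h1 : ∀ᶠ q in D.Fl, ∀ v' ∈ Vs T, v' ≠ v →
      ¬ ∃ q', IsRet U v' (D.X q) q' ∧ q' ∈ Om K P.γ1 P.κ v' := by
    rw [Filter.eventually_all_finset]
    intro v' hv'
    by_cases hne : v' = v
    · exact Eventually.of_forall fun q h => absurd hne h
    by_contra hcon
    have hcon' : ∃ᶠ q in D.Fl, ∃ q', IsRet U v' (D.X q) q' ∧ q' ∈ Om K P.γ1 P.κ v' := by
      intro h
      exact hcon (h.mono fun q hq _ => hq)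
    haveI hne' : (D.Fl ⊓ 𝓟 {q | ∃ q', IsRet U v' (D.X q) q' ∧
        q' ∈ Om K P.γ1 P.κ v'}).NeBot := Filter.frequently_mem_iff_neBot.1 hcon'
    obtain ⟨𝒱, h𝒱⟩ := Ultrafilter.exists_le (D.Fl ⊓ 𝓟 {q | ∃ q', IsRet U v' (D.X q) q' ∧
      q' ∈ Om K P.γ1 P.κ v'})
    have hV1 : (𝒱 : Filter (ℂ × ℂ)) ≤ D.Fl := h𝒱.trans inf_le_left
    have hV2 : ∀ᶠ q in (𝒱 : Filter (ℂ × ℂ)), ∃ q', IsRet U v' (D.X q) q' ∧
        q' ∈ Om K P.γ1 P.κ v' := h𝒱 (mem_inf_of_right (mem_principal_self _))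
    obtain ⟨w', hw', ht⟩ := RV_lim P hV2
    set l : Filter (ℂ × ℂ) := Filter.map (fun q => (D.X q 1, D.X q 2)) 𝒱 with hl
    have lne : l.NeBot := by rw [hl]; infer_instance
    have l0 : Tendsto Prod.fst l (𝓝 0) := tendsto_map'_iff.2 (D.fst_tendsto.mono_left hV1)
    have l1 : ∀ᶠ q in l, q.1 ≠ 0 := by
      rw [hl, eventually_map]
      exact D.ev_ne.filter_mono hV1
    have hw : Tendsto (wv T v) l (𝓝 (pV U v q₀)) := by
      rw [hl, tendsto_map'_iff]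
      refine (D.snd_tendsto.mono_left hV1).congr' ?_
      filter_upwards [D.ev_ne.filter_mono hV1] with q hq
      exact (D.wv_X hq).symm
    exact hne (v_unique l0 l1 hv' D.hv (tendsto_map'_iff.2 ht) hw' hw q₀.2.2.1)
  filter_upwards [h1, D.ev_ret, D.ev_ball] with q a1 a2 a3 a hRV
  obtain ⟨⟨v', hv'⟩, q', b1, b2, b3⟩ := hRV
  have e : v' = v := by
    by_contra hne
    exact a1 v' hv' hne ⟨q', b1, b2⟩
  subst e
  have e2 : q' = D.σ q.2 := TC.ret_unique hR b1 a2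
  subst e2
  refine ⟨b2, ?_⟩
  rw [b3]
  unfold FV
  have h5 : lab U ⟨v', hv'⟩ (D.σ q.2) = lab U ⟨v', D.hv⟩ q₀ := D.lab_σ a3
  rw [h5]
  rfl

/-- the core is open -/
lemma Om_open {v : Vtx} (hv : v ∈ Vs T) {q₀ : XV U v} (h : q₀ ∈ Om K P.γ1 P.κ v) :
    ∀ᶠ q' in 𝓝 q₀, q' ∈ Om K P.γ1 P.κ v := by
  have h1 : ∀ᶠ q' in 𝓝 q₀, ‖pV U v q'‖ < P.κ⁻¹ :=
    (pV_cont v).norm.continuousAt.eventually (gt_mem_nhds h.1)
  have h2 : ∀ᶠ q' in 𝓝 q₀, ∀ c ∈ sp T v, P.κ < ‖pV U v q' - c‖ := by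
    rw [Filter.eventually_all_finset]
    intro c hc
    exact ((pV_cont v).sub continuous_const).norm.continuousAt.eventually (lt_mem_nhds (h.2.1 c hc))
  have h3 : ∀ᶠ q' in 𝓝 q₀, ∀ c ∈ F, ∀ j, (c, j) ∈ K.κ → IsV c → v1 T c = some v →
      ∀ b : ℂ, ‖b‖ ≤ P.κ → P.γ1 c v hv j b ≠ q' := by
    rw [Filter.eventually_all_finset]
    intro c hc
    rw [eventually_all]
    intro j
    by_cases hk : (c, j) ∈ K.κ ∧ IsV c ∧ v1 T c = some v
    · obtain ⟨k1, k2, k3⟩ := hk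
      have hEs : Es K c j := ⟨P.hF c hc, fun _ => k1⟩
      have hsub : closedBall (0 : ℂ) P.κ ⊆ PDv S c := by
        intro b hb
        refine ⟨Or.inl k2, ?_⟩
        have := mem_closedBall_zero_iff.1 hb
        have h4 := P.τ_r c j hEs
        have h5 := P.κ_lt
        have h6 := S.pos c
        linarith
      have hcl : IsClosed (P.γ1 c v hv j '' closedBall (0 : ℂ) P.κ) :=
        ((isCompact_closedBall _ _).image_of_continuousOn
          (((P.end1 c (P.hF c hc) ⟨v, hv⟩ k3).1.cont j).mono hsub)).isClosed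
      have hn : q₀ ∉ P.γ1 c v hv j '' closedBall (0 : ℂ) P.κ := by
        rintro ⟨b, hb, hb'⟩
        exact h.2.2 c j k1 k2 k3 b (mem_closedBall_zero_iff.1 hb) hb'
      filter_upwards [hcl.isOpen_compl.mem_nhds hn] with q' hq' _ _ _ b hb hb'
      exact hq' ⟨b, mem_closedBall_zero_iff.2 hb, hb'⟩
    · exact Eventually.of_forall fun q' k1 k2 k3 => absurd ⟨k1, k2, k3⟩ hk
  filter_upwards [h1, h2, h3] with q' a1 a2 a3
  exact ⟨a1, a2, fun c j k1 k2 k3 b hb => a3 c (K.mem _ k1) j k1 k2 k3 b hb⟩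

theorem RV_ex (hR : RetStmt U) (h : q₀ ∈ Om K P.γ1 P.κ v) :
    ∀ᶠ q in D.Fl, P.RV (D.X q) (FV P D q) := by
  filter_upwards [D.ev_ret, D.ev_ball, D.σ_tendsto.eventually (Om_open P D.hv h)] with q a1 a2 a3
  refine ⟨⟨v, D.hv⟩, D.σ q.2, a1, a3, ?_⟩
  unfold FV
  rw [D.lab_σ a2]
  rfl

/-! ### the edge functions -/

lemma ev_Es {α : Type*} {l : Filter α} {A : Ch T.m → Fin T.d → α → Prop} (hF : ∀ c ∈ F, Ok S c)
    (h : ∀ c j, Es K c j → ∀ᶠ a in l, A c j a) : ∀ᶠ a in l, ∀ c j, Es K c j → A c j a := by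
  classical
  have h1 : ∀ᶠ a in l, ∀ c ∈ Hv_174.NC S ∪ F, ∀ j, Es K c j → A c j a := by
    rw [Filter.eventually_all_finset]
    intro c _
    rw [eventually_all]
    intro j
    by_cases hE : Es K c j
    · exact (h c j hE).mono fun a ha _ => ha
    · exact Eventually.of_forall fun a hE' => absurd hE' hE
  filter_upwards [h1] with a ha c j hE
  refine ha c ?_ j hE
  by_cases hV : IsV c
  · exact Finset.mem_union_right _ (K.mem _ (hE.2 hV))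
  · exact Finset.mem_union_left _ (Hv_174.mem_NC.2 ⟨hE.1, hV⟩)

lemma ta_le {c : Ch T.m} {j : Fin T.d} (hE : Es K c j) : ta S P.τ c ≤ S.r c := by
  unfold ta
  split_ifs
  · exact le_rfl
  · exact (P.τ_r c j hE).le

lemma tb_le {c : Ch T.m} {j : Fin T.d} (hE : Es K c j) : tb S P.τ c ≤ S.r c := by
  unfold tb
  split_ifs
  · exact le_rfl
  · exact (P.τ_r c j hE).le

lemma zn_BD {c : Ch T.m} {j : Fin T.d} (hE : Es K c j) {p : ℂ × ℂ} (hp : p ∈ zn S P.τ c) :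
    p ∈ BD (2 * S.r c) (2 * S.r c) := by
  have := S.pos c
  exact ⟨hp.1.trans_le ((ta_le P hE).trans (by linarith)),
    hp.2.1.trans_le ((tb_le P hE).trans (by linarith))⟩

/-- **frequent points of the zones near `q₀`** -/
theorem zn_freq (hR : RetStmt U) {c : Ch T.m} {j : Fin T.d} (hE : Es K c j)
    {A : ℂ × ℂ → ℂ × ℂ → Prop}
    (h : ∃ᶠ q in D.Fl, ∃ p ∈ zn S P.τ c, wc S c j p = D.X q ∧ A q p) :
    ∃ (𝒱 : Ultrafilter (ℂ × ℂ)) (g : ℂ × ℂ → ℂ × ℂ), (𝒱 : Filter (ℂ × ℂ)) ≤ D.Fl ∧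
      (∀ᶠ q in (𝒱 : Filter (ℂ × ℂ)), g q ∈ BD (2 * S.r c) (2 * S.r c) ∧ T.Gen c (g q) ∧
        wc S c j (g q) = D.X q ∧ A q (g q)) ∧
      ((∃ b, Tendsto g 𝒱 (𝓝 (0, b)) ∧ v1 T c = some v ∧ (IsV c ∨ b ≠ 0) ∧ ‖b‖ ≤ P.τ ∧
        P.γ1 c v D.hv j b = q₀) ∨
      (∃ a, Tendsto g 𝒱 (𝓝 (a, 0)) ∧ v2 T c = some v ∧ a ≠ 0 ∧ ‖a‖ ≤ P.τ ∧
        P.γ2 c v D.hv j a = q₀)) := by
  obtain ⟨𝒱, g, h1, h2, h3⟩ := D.freq hR hE.1.1 (j := j) (ta_le P hE) (tb_le P hE) (A := A)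
    (h.mono fun q ⟨p, hp, hp'⟩ => ⟨p, ⟨hp.1.le, hp.2.1.le, hp.2.2⟩, hp'⟩)
  refine ⟨𝒱, g, h1, ?_, ?_⟩
  · filter_upwards [h2] with q hq
    have hr := S.pos c
    exact ⟨⟨lt_of_le_of_lt (hq.1.1.trans (ta_le P hE)) (by linarith),
      lt_of_le_of_lt (hq.1.2.1.trans (tb_le P hE)) (by linarith)⟩, hq.1.2.2, hq.2⟩
  · rcases h3 with ⟨b, b1, b2, b3, b4, b5⟩ | ⟨a, b1, b2, b3, b4, b5⟩
    · left
      refine ⟨b, b1, b2, b3, ?_, b5 _ (P.end1 c hE.1 ⟨v, D.hv⟩ b2).1⟩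
      have : tb S P.τ c = P.τ := if_neg (by rw [b2]; simp)
      rwa [this] at b4
    · right
      refine ⟨a, b1, b2, b3, ?_, b5 _ (P.end2 c hE.1 ⟨v, D.hv⟩ b2).1⟩
      have : ta S P.τ c = P.τ := if_neg (by rw [b2]; simp)
      rwa [this] at b4

/-- **uniqueness of the value of the edge functions at an attached point** -/
theorem RE_uniq (hR : RetStmt U) {c : Ch T.m} {j : Fin T.d} (hE : Es K c j) {Pm : ℂ × ℂ → ℂ × ℂ}
    (hP : ∀ᶠ q in D.Fl, Pm q ∈ zn S P.τ c ∧ wc S c j (Pm q) = D.X q)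
    (hs1 : ∀ c' j', Es K c' j' → v1 T c' = some v → ∀ b' : ℂ, ‖b'‖ ≤ P.τ →
      P.γ1 c' v D.hv j' b' = q₀ → (IsV c' ∨ b' ≠ 0) → c' = c)
    (hs2 : ∀ c' j', Es K c' j' → v2 T c' = some v → ∀ a' : ℂ, ‖a'‖ ≤ P.τ → a' ≠ 0 →
      P.γ2 c' v D.hv j' a' = q₀ → c' = c) :
    ∀ᶠ q in D.Fl, P.RE (D.X q) (EL L y K c j (Pm q) - P.B) ∧
      ∀ b, P.RE (D.X q) b → b = EL L y K c j (Pm q) - P.B := by
  have h1 : ∀ᶠ q in D.Fl, ∀ c' j', Es K c' j' → ∀ p ∈ zn S P.τ c', wc S c' j' p = D.X q →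
      EL L y K c' j' p = EL L y K c j (Pm q) := by
    refine ev_Es P.hF fun c' j' hE' => ?_
    by_contra hcon
    have hcon' : ∃ᶠ q in D.Fl, ∃ p ∈ zn S P.τ c', wc S c' j' p = D.X q ∧
        ¬ EL L y K c' j' p = EL L y K c j (Pm q) := by
      intro h
      refine hcon (h.mono fun q hq p hp hw => ?_)
      by_contra hn
      exact hq ⟨p, hp, hw, hn⟩
    obtain ⟨𝒱, g, k1, k2, k3⟩ := zn_freq P D hR hE' hcon'
    have hcc : c' = c := by
      rcases k3 with ⟨b, b1, b2, b3, b4, b5⟩ | ⟨a, b1, b2, b3, b4, b5⟩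
      · exact hs1 c' j' hE' b2 b b4 b5 b3
      · exact hs2 c' j' hE' b2 a b4 b3 b5
    subst hcc
    obtain ⟨q, q1, q2⟩ := (k2.and (hP.filter_mono k1)).exists
    exact q1.2.2.2 (EL_val L y K hR hE.1 q1.1 q1.2.1 (q1.2.2.1.trans q2.2.symm))
  filter_upwards [h1, hP] with q a1 a2
  refine ⟨⟨c, j, Pm q, hE, a2.1, a2.2, rfl⟩, fun b hb => ?_⟩
  obtain ⟨c', j', p, b1, b2, b3, b4⟩ := hb
  rw [b4, a1 c' j' b1 p b2 b3]

end tube

end Crest.Agent.R257.Wt_258
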