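import Mathlib
import Crest.Agent.R257.Wt5_258

/-!
Row 257 (S0395), C-WT, file 6 (helper258): comparison of the vertex and edge functions.
-/

set_option autoImplicit false
set_option linter.unusedSectionVars false
set_option linter.unusedVariables false

open Polynomial Set Filter Topology Metric
open Crest.AlgGeometry.Germ Crest.Agent.R257.AJ387 Crest.Agent.R257.T387
open Crest.Agent.R257.Gr1_157 Crest.Agent.R257.HoB_843 Crest.Agent.R257.BP_258
open Crest.Agent.R257.Frm_547 Crest.Agent.R257.Lab_931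

noncomputable section

namespace Crest.Agent.R257.Wt_258

variable {f : (Fin 3 → ℂ) → ℂ} {T : TB f} {U : Tub T} {S : Sh T}
variable {L : Lab U S} {y : II U → ℝ} {F : Finset (Ch T.m)} {K : DKill S F}

lemma isV_v2 {c : Ch T.m} {v : Vtx} (h : v2 T c = some v) : IsE c := by
  cases c with
  | edge i k k' => trivial
  | leg i => simp [v2] at h
  | vert i k w => simp [v2] at h

lemma v2_none {c : Ch T.m} (h : ¬ IsE c) : v2 T c = none := by
  cases c with
  | edge i k k' => exact absurd trivial h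
  | leg i => rfl
  | vert i k w => rfl

lemma map1_nE {c : Ch T.m} (h : ¬ IsE c) (p : ℂ × ℂ) : (T.map c p).1 = p.1 := by
  cases c with
  | edge i k k' => exact absurd trivial h
  | leg i => rfl
  | vert i k w => rfl

lemma map1_E {c : Ch T.m} (h : IsE c) (p : ℂ × ℂ) : (T.map c p).1 = p.1 * p.2 := by
  cases c with
  | edge i k k' => rfl
  | leg i => exact absurd h (by simp [IsE])
  | vert i k w => exact absurd h (by simp [IsE])

lemma gen_snd_E {c : Ch T.m} (h : IsE c) {p : ℂ × ℂ} (hg : T.Gen c p) : p.2 ≠ 0 := by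
  cases c with
  | edge i k k' => exact hg.2
  | leg i => exact absurd h (by simp [IsE])
  | vert i k w => exact absurd h (by simp [IsE])

lemma log_mul_sq {a b : ℂ} (ha : a ≠ 0) (hb : b ≠ 0) :
    Real.log (‖a * b‖ ^ 2) = Real.log (‖a‖ ^ 2) + Real.log (‖b‖ ^ 2) := by
  have h1 := norm_pos_iff.2 ha
  have h2 := norm_pos_iff.2 hb
  rw [norm_mul, mul_pow, Real.log_mul (by positivity) (by positivity)]

lemma tend_log {α : Type*} {l : Filter α} {g : α → ℂ} {b : ℂ} (hb : b ≠ 0) (h : Tendsto g l (𝓝 b)) :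
    Tendsto (fun a => Real.log (‖g a‖ ^ 2)) l (𝓝 (Real.log (‖b‖ ^ 2))) := by
  have h1 := norm_pos_iff.2 hb
  exact (h.norm.pow 2).log (by positivity)

/-- the edge function along the first axis -/
theorem EL_along1 {c : Ch T.m} (hc : Ok S c) (j : Fin T.d) {b : ℂ} (hb : b ≠ 0)
    {α : Type*} {l : Filter α} {g : α → ℂ × ℂ} {s : α → ℂ} (hg : Tendsto g l (𝓝 (0, b)))
    (hgen : ∀ᶠ q in l, T.Gen c (g q) ∧ (T.map c (g q)).1 = s q) :
    Tendsto (fun q => EL L y K c j (g q) - yo y (L.e1 c j) * Real.log (‖s q‖ ^ 2)) l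
      (𝓝 (d1 L y K c j * Real.log (‖b‖ ^ 2))) := by
  have h1 := (EL_lim1 L y K c j hb (fun h => (K.ab_pos _ h).2)).comp hg
  have h2 : Tendsto (fun q => (g q).2) l (𝓝 b) := (continuous_snd.tendsto _).comp hg
  have h3 := (tend_log hb h2).const_mul (d1 L y K c j)
  have h4 := h1.add h3
  rw [zero_add] at h4
  refine h4.congr' ?_
  filter_upwards [hgen, h2.eventually_ne hb] with q hq hq2
  obtain ⟨q1, q3⟩ := hq
  have hq1 : (g q).1 ≠ 0 := gen_fst q1
  simp only [Function.comp_apply]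
  by_cases hE : IsE c
  · have e1 : Real.log (‖s q‖ ^ 2) = Real.log (‖(g q).1‖ ^ 2) + Real.log (‖(g q).2‖ ^ 2) := by
      rw [← q3, map1_E hE, log_mul_sq hq1 hq2]
    rw [e1]
    unfold d1
    rw [if_pos hE]
    ring
  · have e1 : Real.log (‖s q‖ ^ 2) = Real.log (‖(g q).1‖ ^ 2) := by
      rw [← q3, map1_nE hE]
    rw [e1]
    unfold d1
    rw [if_neg hE, yo_v2 L y hc j (v2_none hE)]
    ring

/-- the edge function along the second axis -/
theorem EL_along2 {c : Ch T.m} (hE : IsE c) (j : Fin T.d) {a : ℂ} (ha : a ≠ 0)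
    {α : Type*} {l : Filter α} {g : α → ℂ × ℂ} {s : α → ℂ} (hg : Tendsto g l (𝓝 (a, 0)))
    (hgen : ∀ᶠ q in l, T.Gen c (g q) ∧ (T.map c (g q)).1 = s q) :
    Tendsto (fun q => EL L y K c j (g q) - yo y (L.e2 c j) * Real.log (‖s q‖ ^ 2)) l
      (𝓝 (d2 L y K c j * Real.log (‖a‖ ^ 2))) := by
  have h1 := (EL_lim2 L y K c j ha (fun h => (K.ab_pos _ h).1)).comp hg
  have h2 : Tendsto (fun q => (g q).1) l (𝓝 a) := (continuous_fst.tendsto _).comp hg
  have h3 := (tend_log ha h2).const_mul (d2 L y K c j)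
  have h4 := h1.add h3
  rw [zero_add] at h4
  refine h4.congr' ?_
  filter_upwards [hgen, h2.eventually_ne ha] with q hq hq1
  obtain ⟨q1, q3⟩ := hq
  have hq2 : (g q).2 ≠ 0 := gen_snd_E hE q1
  simp only [Function.comp_apply]
  have e1 : Real.log (‖s q‖ ^ 2) = Real.log (‖(g q).1‖ ^ 2) + Real.log (‖(g q).2‖ ^ 2) := by
    rw [← q3, map1_E hE, log_mul_sq hq1 hq2]
  rw [e1]
  unfold d2
  ring

variable [Fintype (II U)] {τ₀ τ₁ : ℝ} (P : WPar L y K τ₀ τ₁)

section tube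

variable {v : Vtx} {q₀ : XV U v} (D : TC U v q₀)

/-- killed points -/
def Kd (v : Vtx) : Set (XV U v) :=
  {q | ∃ c j, (c, j) ∈ K.κ ∧ IsV c ∧ v1 T c = some v ∧ q = P.γ1 c v q.2.1 j 0}

lemma Kd_closed : IsClosed (Kd P v) := by
  classical
  by_cases hv : v ∈ Vs T
  swap
  · have h0 : Kd P v = ∅ := by
      ext q
      exact ⟨fun h => absurd q.2.1 hv, fun h => absurd h (by simp)⟩
    rw [h0]
    exact isClosed_empty
  have h : Kd P v ⊆ ⋃ c ∈ F, ⋃ j : Fin T.d, {P.γ1 c v hv j 0} := by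
    rintro q ⟨c, j, h1, h2, h3, h4⟩
    exact mem_iUnion₂.2 ⟨c, K.mem _ h1, mem_iUnion.2 ⟨j, h4⟩⟩
  have hf : (⋃ c ∈ F, ⋃ j : Fin T.d, ({P.γ1 c v hv j 0} : Set (XV U v))).Finite :=
    F.finite_toSet.biUnion fun c _ => finite_iUnion fun j => finite_singleton _
  exact (hf.subset h).isClosed

/-- the function `h` along the section, off the kills -/
theorem hσ (hq : q₀ ∉ Kd P v) : ∀ᶠ w in 𝓝 (pV U v q₀),
    ContDiffAt ℝ (⊤ : ℕ∞) (fun w => P.h v (D.σ w)) w ∧ 0 < lvE (fun w => P.h v (D.σ w)) w 1 := by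
  have h1 : ∀ᶠ w in 𝓝 (pV U v q₀), D.σ w ∉ Kd P v := by
    have h0 : ∀ᶠ q' in 𝓝 (D.σ (pV U v q₀)), q' ∉ Kd P v := by
      rw [D.σ0]
      exact (Kd_closed P).isOpen_compl.mem_nhds hq
    exact D.σ_cont.tendsto.eventually h0
  filter_upwards [h1, isOpen_ball.mem_nhds (mem_ball_self D.r_pos)] with w a1 a2
  obtain ⟨ε, hε, hsub⟩ := Metric.isOpen_iff.1 isOpen_ball w a2
  exact P.smp v D.hv w ε D.σ hε (D.σc.mono hsub) (fun w' hw' => D.σp w' (hsub hw')) a1

end tube

end Crest.Agent.R257.Wt_258
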