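import Mathlib
import Crest.Agent.R257.Wt6_258

/-!
Row 257 (S0395), C-WT, file 7 (helper258): literal statements of the remaining pieces.

* `Unk K τ₁` : the killed vertex points are not on the small discs of the killed charts;
* `LA`, `LocS` : the local form of the estimates of `WTDStmt`;
* `TubeOut` : the estimates in a tube chart.
-/

set_option autoImplicit false
set_option linter.unusedSectionVars false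
set_option linter.unusedVariables false

open Polynomial Set Filter Topology Metric
open Crest.AlgGeometry.Germ Crest.Agent.R257.AJ387 Crest.Agent.R257.T387
open Crest.Agent.R257.Gr1_157 Crest.Agent.R257.HoB_843 Crest.Agent.R257.BP_258
open Crest.Agent.R257.Frm_547 Crest.Agent.R257.Lab_931

noncomputable section

namespace Crest.Agent.R257.Wt_258

variable {f : (Fin 3 → ℂ) → ℂ} {T : TB f} {U : Tub T} {S : Sh T}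
variable {L : Lab U S} {y : II U → ℝ} {F : Finset (Ch T.m)} {K : DKill S F}

/-- the killed vertex points are away from the small discs of the killed charts -/
structure Unk (K : DKill S F) (τ₁ : ℝ) : Prop where
  unk1 : ∀ c j, (c, j) ∈ K.κ → ∀ v, v1 T c = some v → ∀ b : ℂ, b ≠ 0 → ‖b‖ ≤ τ₁ →
    ∀ c' j', (c', j') ∈ K.κ → IsV c' → v1 T c' = some v → cx T c + b ^ lx T c ≠ cx T c'
  unk2 : ∀ c j, (c, j) ∈ K.κ → ∀ v, v2 T c = some v → ∀ a : ℂ, a ≠ 0 → ‖a‖ ≤ τ₁ →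
    ∀ c' j', (c', j') ∈ K.κ → IsV c' → v1 T c' = some v → (a ^ lx T c)⁻¹ ≠ cx T c'

variable [Fintype (II U)] {τ₀ τ₁ : ℝ} (P : WPar L y K τ₀ τ₁)

/-- the weight -/
def WPar.Ψ (x : Fin 3 → ℂ) : ℝ := P.Φ x + ‖x 1‖ ^ 2

/-- the estimates of `WTDStmt` at a point `p` of the chart `c` -/
structure LA (c : Ch T.m) (j : Fin T.d) (C c₀ : ℝ) (p : ℂ × ℂ) : Prop where
  sm : ContDiffAt ℝ (⊤ : ℕ∞) (P.Ψ ∘ wc S c j) p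
  psh : ∀ w, 0 ≤ lvE (P.Ψ ∘ wc S c j) p w
  ub : P.Ψ (wc S c j p) ≤ yo y (L.e1 c j) * Real.log (‖p.1‖ ^ 2) +
    yo y (L.e2 c j) * Real.log (‖p.2‖ ^ 2) + C
  lb : K.κ = ∅ → yo y (L.e1 c j) * Real.log (‖p.1‖ ^ 2) +
    yo y (L.e2 c j) * Real.log (‖p.2‖ ^ 2) - C ≤ P.Ψ (wc S c j p)
  kil : (c, j) ∈ K.κ → ‖p.1‖ < τ₁ → ‖p.2‖ < τ₁ →
    |P.Ψ (wc S c j p) - yo y (L.e1 c j) * Real.log (‖p.1‖ ^ 2) -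
      yo y (L.e2 c j) * Real.log (‖p.2‖ ^ 2) -
      K.t (c, j) * Real.log (‖p.1‖ ^ (2 * K.b (c, j)) + ‖p.2‖ ^ (2 * K.a (c, j)))| ≤ C
  st1 : K.κ = ∅ → L.e1 c j ≠ none → IsV c ∨ τ₀ ≤ ‖p.2‖ →
    ∀ w, c₀ * (‖w.1‖ ^ 2 + ‖w.2‖ ^ 2) ≤ lvE (P.Ψ ∘ wc S c j) p w
  st2 : K.κ = ∅ → L.e2 c j ≠ none → τ₀ ≤ ‖p.1‖ →
    ∀ w, c₀ * (‖w.1‖ ^ 2 + ‖w.2‖ ^ 2) ≤ lvE (P.Ψ ∘ wc S c j) p w
  ks1 : (c, j) ∈ K.κ → ‖p.1‖ < τ₁ → ‖p.2‖ < τ₁ → L.e1 c j ≠ none → τ₀ ≤ ‖p.2‖ →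
    ∀ w, c₀ * (‖w.1‖ ^ 2 + ‖w.2‖ ^ 2) ≤ lvE (P.Ψ ∘ wc S c j) p w
  ks2 : (c, j) ∈ K.κ → ‖p.1‖ < τ₁ → ‖p.2‖ < τ₁ → L.e2 c j ≠ none → τ₀ ≤ ‖p.1‖ →
    ∀ w, c₀ * (‖w.1‖ ^ 2 + ‖w.2‖ ^ 2) ≤ lvE (P.Ψ ∘ wc S c j) p w

/-- the local form at a point of `{s = 0}` -/
def LocS (c : Ch T.m) (j : Fin T.d) (p₀ : ℂ × ℂ) : Prop :=
  ∃ C c₀ : ℝ, 0 < c₀ ∧ ∀ᶠ p in 𝓝 p₀, ‖p.1‖ < S.r c → ‖p.2‖ < S.r c → T.Gen c p →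
    LA P c j C c₀ p

variable {v : Vtx} {q₀ : XV U v} (D : TC U v q₀)

/-- the estimates in a tube chart -/
structure TubeOut : Prop where
  sm : ∀ᶠ q in D.Fl, ContDiffAt ℝ (⊤ : ℕ∞) (P.Φ ∘ D.X) q ∧ ∀ w, 0 ≤ lvE (P.Φ ∘ D.X) q w
  ub : ∃ C', ∀ᶠ q in D.Fl, P.Φ (D.X q) ≤ y (lab U ⟨v, D.hv⟩ q₀) * Real.log (‖q.1‖ ^ 2) + C'
  lb : q₀ ∉ Kd P v → ∃ C', ∀ᶠ q in D.Fl,
    y (lab U ⟨v, D.hv⟩ q₀) * Real.log (‖q.1‖ ^ 2) - C' ≤ P.Φ (D.X q)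
  nat : (∀ c' j', Es K c' j' → v1 T c' = some v → ∀ b' : ℂ, ‖b'‖ < P.τ → (IsV c' ∨ b' ≠ 0) →
      P.γ1 c' v D.hv j' b' ≠ q₀) →
    (∀ c' j', Es K c' j' → v2 T c' = some v → ∀ a' : ℂ, ‖a'‖ < P.τ → a' ≠ 0 →
      P.γ2 c' v D.hv j' a' ≠ q₀) → ∀ᶠ q in D.Fl, P.Φ (D.X q) = FV P D q
  kil : q₀ ∈ Kd P v → ∀ᶠ q in D.Fl, ∀ b, P.RE (D.X q) b → P.Φ (D.X q) = b

end Crest.Agent.R257.Wt_258
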