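import Mathlib
import Crest.Agent.R257.Wt7_258
import Crest.Agent.R257.Hv2_174

/-!
Row 257 (S0395), C-WT (helper258): existence of the parameters, elementary part.
-/

set_option autoImplicit false
set_option linter.unusedSectionVars false
set_option linter.unusedVariables false

open Polynomial Set Filter Topology Metric
open Crest.AlgGeometry.Germ Crest.Agent.R257.AJ387 Crest.Agent.R257.T387
open Crest.Agent.R257.Gr1_157 Crest.Agent.R257.HoB_843 Crest.Agent.R257.BP_258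
open Crest.Agent.R257.Frm_547 Crest.Agent.R257.Lab_931

noncomputable section

namespace Crest.Agent.R257.Wt_258

/-! ### discs -/

lemma ev_small (ε : ℝ) (hε : 0 < ε) : ∀ᶠ τ in 𝓝[>] (0 : ℝ), τ < ε :=
  (gt_mem_nhds hε).filter_mono nhdsWithin_le_nhds

lemma ev_of_nhds {A : ℂ → Prop} (h : ∀ᶠ b in 𝓝 (0 : ℂ), A b) :
    ∀ᶠ τ in 𝓝[>] (0 : ℝ), ∀ b : ℂ, ‖b‖ ≤ τ → A b := by
  obtain ⟨ε, hε, h⟩ := Metric.eventually_nhds_iff.1 h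
  filter_upwards [ev_small ε hε] with τ hτ b hb
  exact h (by rw [dist_zero_right]; linarith)

lemma ev_of_nhds2 {A : ℂ × ℂ → Prop} (h : ∀ᶠ b in 𝓝 (0 : ℂ × ℂ), A b) :
    ∀ᶠ τ in 𝓝[>] (0 : ℝ), ∀ b b' : ℂ, ‖b‖ ≤ τ → ‖b'‖ ≤ τ → A (b, b') := by
  obtain ⟨ε, hε, h⟩ := Metric.eventually_nhds_iff.1 h
  filter_upwards [ev_small ε hε] with τ hτ b b' hb hb'
  refine h ?_
  rw [dist_zero_right, Prod.norm_def]
  exact max_lt (by linarith) (by linarith)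

lemma d1c {x x' : ℂ} (h : x ≠ x') {l : ℕ} (hl : 0 < l) :
    ∀ᶠ τ in 𝓝[>] (0 : ℝ), ∀ b : ℂ, ‖b‖ ≤ τ → x + b ^ l ≠ x' := by
  refine ev_of_nhds ?_
  have hc : ContinuousAt (fun b : ℂ => x + b ^ l) 0 := by fun_prop
  exact hc.eventually_ne (by rw [zero_pow hl.ne', add_zero]; exact h)

lemma d11 {x x' : ℂ} (h : x ≠ x') {l l' : ℕ} (hl : 0 < l) (hl' : 0 < l') :
    ∀ᶠ τ in 𝓝[>] (0 : ℝ), ∀ b b' : ℂ, ‖b‖ ≤ τ → ‖b'‖ ≤ τ → x + b ^ l ≠ x' + b' ^ l' := by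
  refine ev_of_nhds2 (A := fun p => x + p.1 ^ l ≠ x' + p.2 ^ l') ?_
  have hc : ContinuousAt (fun b : ℂ × ℂ => (x + b.1 ^ l) - (x' + b.2 ^ l')) 0 := by fun_prop
  have h1 : (fun b : ℂ × ℂ => (x + b.1 ^ l) - (x' + b.2 ^ l')) 0 ≠ 0 := by
    simp only [Prod.fst_zero, Prod.snd_zero, zero_pow hl.ne', zero_pow hl'.ne', add_zero]
    exact sub_ne_zero.2 h
  filter_upwards [hc.eventually_ne h1] with p hp
  exact sub_ne_zero.1 hp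

lemma d12 (x : ℂ) {l l' : ℕ} (hl' : 0 < l') :
    ∀ᶠ τ in 𝓝[>] (0 : ℝ), ∀ b a : ℂ, ‖b‖ ≤ τ → ‖a‖ ≤ τ → a ≠ 0 → x + b ^ l ≠ (a ^ l')⁻¹ := by
  have hc : ContinuousAt (fun b : ℂ × ℂ => (x + b.1 ^ l) * b.2 ^ l') 0 := by fun_prop
  have h1 : (fun b : ℂ × ℂ => (x + b.1 ^ l) * b.2 ^ l') 0 ≠ 1 := by
    simp only [Prod.fst_zero, Prod.snd_zero, zero_pow hl'.ne', mul_zero]
    exact zero_ne_one
  filter_upwards [ev_of_nhds2 (hc.eventually_ne h1)] with τ hτ b a hb ha h0 he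
  refine hτ b a hb ha ?_
  show (x + b ^ l) * a ^ l' = 1
  rw [he, inv_mul_cancel₀ (pow_ne_zero _ h0)]

lemma d2c (x : ℂ) {l' : ℕ} (hl' : 0 < l') :
    ∀ᶠ τ in 𝓝[>] (0 : ℝ), ∀ a : ℂ, a ≠ 0 → ‖a‖ ≤ τ → (a ^ l')⁻¹ ≠ x := by
  filter_upwards [d12 (l := 1) x hl', self_mem_nhdsWithin] with τ hτ hτ0 a h0 ha he
  exact hτ 0 a (by rw [norm_zero]; exact (mem_Ioi.1 hτ0).le) ha h0 (by rw [he]; simp)

lemma inv_big (M : ℝ) {l' : ℕ} (hl' : 0 < l') :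
    ∀ᶠ τ in 𝓝[>] (0 : ℝ), ∀ a : ℂ, a ≠ 0 → ‖a‖ ≤ τ → M < ‖(a ^ l')⁻¹‖ := by
  have hM : 0 < |M| + 1 := by positivity
  have hc : ContinuousAt (fun a : ℂ => ‖a ^ l'‖) 0 := by fun_prop
  have h1 : (fun a : ℂ => ‖a ^ l'‖) 0 < (|M| + 1)⁻¹ := by
    simp only [zero_pow hl'.ne', norm_zero]
    positivity
  filter_upwards [ev_of_nhds (hc.eventually (gt_mem_nhds h1))] with τ hτ a h0 ha
  have h2 := hτ a ha
  have h3 : 0 < ‖a ^ l'‖ := norm_pos_iff.2 (pow_ne_zero _ h0)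
  rw [norm_inv]
  have h4 : |M| + 1 < ‖a ^ l'‖⁻¹ := by
    rw [lt_inv_comm₀ hM h3]
    exact h2
  have := le_abs_self M
  linarith

lemma d2far (x : ℂ) {l' : ℕ} (hl' : 0 < l') :
    ∀ᶠ τ in 𝓝[>] (0 : ℝ), ∀ a : ℂ, a ≠ 0 → ‖a‖ ≤ τ → 1 < ‖(a ^ l')⁻¹ - x‖ := by
  filter_upwards [inv_big (‖x‖ + 1) hl'] with τ hτ a h0 ha
  have h1 := hτ a h0 ha
  have h2 := norm_sub_norm_le ((a ^ l')⁻¹) x
  linarith

/-- a disc and a compact set -/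
lemma dK1 {Kb : Set ℂ} (hK : IsCompact Kb) {g : ℂ → ℂ} (hg : ContinuousOn g Kb) {x : ℂ}
    (hx : ∀ b ∈ Kb, g b ≠ x) {l' : ℕ} (hl' : 0 < l') :
    ∀ᶠ τ in 𝓝[>] (0 : ℝ), ∀ b ∈ Kb, ∀ b' : ℂ, ‖b'‖ ≤ τ → g b ≠ x + b' ^ l' := by
  have h1 : (g '' Kb)ᶜ ∈ 𝓝 x := by
    refine (hK.image_of_continuousOn hg).isClosed.isOpen_compl.mem_nhds ?_
    rintro ⟨b, hb, hb'⟩
    exact hx b hb hb'
  have hc : ContinuousAt (fun b : ℂ => x + b ^ l') 0 := by fun_prop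
  have h2 : ∀ᶠ b' : ℂ in 𝓝 0, x + b' ^ l' ∈ (g '' Kb)ᶜ := by
    have e0 : (fun b : ℂ => x + b ^ l') 0 = x := by simp [zero_pow hl'.ne']
    have h3 : ∀ᶠ z in 𝓝 ((fun b : ℂ => x + b ^ l') 0), z ∈ (g '' Kb)ᶜ := by rw [e0]; exact h1
    exact hc.eventually h3
  filter_upwards [ev_of_nhds h2] with τ hτ b hb b' hb' he
  exact hτ b' hb' ⟨b, hb, he⟩

lemma dK2 {Kb : Set ℂ} (hK : IsCompact Kb) {g : ℂ → ℂ} (hg : ContinuousOn g Kb)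
    {l' : ℕ} (hl' : 0 < l') :
    ∀ᶠ τ in 𝓝[>] (0 : ℝ), ∀ b ∈ Kb, ∀ a : ℂ, a ≠ 0 → ‖a‖ ≤ τ → g b ≠ (a ^ l')⁻¹ := by
  obtain ⟨M, hM⟩ := (hK.image_of_continuousOn hg).isBounded.exists_norm_le
  filter_upwards [inv_big M hl'] with τ hτ b hb a h0 ha he
  have h1 := hτ a h0 ha
  rw [← he] at h1
  exact absurd (hM _ ⟨b, hb, rfl⟩) (not_le.2 h1)

lemma dK3 {Kb : Set ℂ} (hK : IsCompact Kb) {g : ℂ → ℂ} (hg : ContinuousOn g Kb) {x : ℂ}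
    (hx : ∀ b ∈ Kb, g b ≠ x) : ∀ᶠ κ in 𝓝[>] (0 : ℝ), ∀ b ∈ Kb, κ < ‖g b - x‖ := by
  have h1 : (g '' Kb)ᶜ ∈ 𝓝 x := by
    refine (hK.image_of_continuousOn hg).isClosed.isOpen_compl.mem_nhds ?_
    rintro ⟨b, hb, hb'⟩
    exact hx b hb hb'
  obtain ⟨ε, hε, h2⟩ := Metric.mem_nhds_iff.1 h1
  filter_upwards [ev_small ε hε] with κ hκ b hb
  by_contra hcon
  rw [not_lt] at hcon
  refine h2 (show g b ∈ ball x ε from ?_) ⟨b, hb, rfl⟩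
  rw [mem_ball, dist_eq_norm]
  linarith

lemma dK4 {Kb : Set ℂ} (hK : IsCompact Kb) {g : ℂ → ℂ} (hg : ContinuousOn g Kb) :
    ∀ᶠ κ in 𝓝[>] (0 : ℝ), ∀ b ∈ Kb, ‖g b‖ < κ⁻¹ := by
  obtain ⟨M, hM⟩ := (hK.image_of_continuousOn hg).isBounded.exists_norm_le
  have hM1 : 0 < |M| + 1 := by positivity
  filter_upwards [ev_small (|M| + 1)⁻¹ (by positivity), self_mem_nhdsWithin] with κ hκ hκ0 b hb
  have h1 : ‖g b‖ ≤ M := hM _ ⟨b, hb, rfl⟩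
  have h2 : |M| + 1 < κ⁻¹ := (lt_inv_comm₀ hM1 hκ0).2 hκ
  have := le_abs_self M
  linarith

lemma dlog {δ : ℝ} (hδ : 0 < δ) (C' : ℝ) {τ : ℝ} (hτ : 0 < τ) {l : ℕ} (hl : 0 < l) :
    ∀ᶠ κ in 𝓝[>] (0 : ℝ), ∀ b : ℂ, b ≠ 0 → ‖b‖ ^ l ≤ κ →
      ‖b‖ < τ ∧ δ * Real.log (‖b‖ ^ 2) + C' < -1 := by
  -- bound for the norm
  set M : ℝ := (-1 - C') / (2 * δ) with hM
  set ε : ℝ := min τ (Real.exp M) with hε
  have hε0 : 0 < ε := lt_min hτ (Real.exp_pos _)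
  filter_upwards [ev_small (ε ^ l) (pow_pos hε0 l)] with κ hκ b h0 hb
  have h1 : ‖b‖ < ε := lt_of_pow_lt_pow_left₀ l hε0.le (hb.trans_lt hκ)
  have h2 : 0 < ‖b‖ := norm_pos_iff.2 h0
  refine ⟨h1.trans_le (min_le_left _ _), ?_⟩
  have h3 : Real.log ‖b‖ < M := by
    rw [Real.log_lt_iff_lt_exp h2]
    exact h1.trans_le (min_le_right _ _)
  rw [Real.log_pow]
  have h4 : M * (2 * δ) = -1 - C' := by
    rw [hM]; field_simp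
  have h5 : δ * (2 * Real.log ‖b‖) < -1 - C' := by
    rw [← h4]
    have := mul_lt_mul_of_pos_right h3 (show 0 < 2 * δ by linarith)
    linarith
  push_cast
  linarith

lemma ev_some {α : Type*} {l : Filter α} {o : Option Vtx} {A : Vtx → α → Prop}
    (h : ∀ v, o = some v → ∀ᶠ a in l, A v a) : ∀ᶠ a in l, ∀ v, o = some v → A v a := by
  cases o with
  | none => exact Eventually.of_forall fun a v h => by cases h
  | some v =>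
    exact (h v rfl).mono fun a ha v' hv' => by
      cases hv'
      exact ha

end Crest.Agent.R257.Wt_258
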