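import Mathlib
import Crest.Agent.R257.Par1_258
import Crest.Agent.R257.EndB_636

/-!
Row 257 (S0395), C-WT (helper258): existence of the parameters.
-/

set_option autoImplicit false
set_option linter.unusedSectionVars false
set_option linter.unusedVariables false

open Polynomial Set Filter Topology Metric
open Crest.AlgGeometry.Germ Crest.Agent.R257.AJ387 Crest.Agent.R257.T387
open Crest.Agent.R257.Gr1_157 Crest.Agent.R257.HoB_843 Crest.Agent.R257.BP_258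
open Crest.Agent.R257.Frm_547 Crest.Agent.R257.Lab_931

noncomputable section

namespace Crest.Agent.R257.Wt_258

variable {f : (Fin 3 → ℂ) → ℂ} {T : TB f} {U : Tub T} {S : Sh T}
variable {F : Finset (Ch T.m)} {K : DKill S F}

lemma notsp1 {c : Ch T.m} (hc : Ok S c) {v : Vtx} (hv : v1 T c = some v) {b : ℂ}
    (hb : ‖b‖ ≤ S.r c) (h0 : IsV c ∨ b ≠ 0) : cx T c + b ^ lx T c ∉ sp T v := by
  have h := W1_zero S hc.1 hv hb h0
  rwa [End_636.W1_axis hc] at h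

lemma notsp2 {c : Ch T.m} (hc : Ok S c) {v : Vtx} (hv : v2 T c = some v) {a : ℂ}
    (ha : ‖a‖ ≤ S.r c) (h0 : a ≠ 0) : (a ^ lx T c)⁻¹ ∉ sp T v := by
  have h := W2_zero S hc.1 hv ha h0
  rwa [End_636.W2_axis hc hv] at h

/-- different attached charts have different centres -/
lemma cx_ne {c c' : Ch T.m} {j j' : Fin T.d} (hE : Es K c j) (hE' : Es K c' j') {v : Vtx}
    (hv : v1 T c = some v) (hv' : v1 T c' = some v) (h : cx T c = cx T c') : c = c' := by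
  by_cases hV : IsV c
  · by_cases hV' : IsV c'
    · exact Hv_174.vert_unique hE.1 hE'.1 hV hV' hv hv' h
    · exact absurd (h ▸ Hv_174.cx_mem hV' hv') (Hv_174.vert_eq hE.1 hV hv).2.2.1
  · by_cases hV' : IsV c'
    · exact absurd (h ▸ Hv_174.cx_mem hV hv) (Hv_174.vert_eq hE'.1 hV' hv').2.2.1
    · exact Hv_174.att_unique hE.1 hE'.1 hV hV' hv hv' h

/-- finitely many kills -/
lemma ev_kill {α : Type*} {l : Filter α} {A : Ch T.m → Fin T.d → α → Prop}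
    (h : ∀ c j, (c, j) ∈ K.κ → ∀ᶠ a in l, A c j a) :
    ∀ᶠ a in l, ∀ c j, (c, j) ∈ K.κ → A c j a := by
  have h1 : ∀ᶠ a in l, ∀ c ∈ F, ∀ j, (c, j) ∈ K.κ → A c j a := by
    rw [Filter.eventually_all_finset]
    intro c _
    rw [eventually_all]
    intro j
    by_cases hE : (c, j) ∈ K.κ
    · exact (h c j hE).mono fun a ha _ => ha
    · exact Eventually.of_forall fun a hE' => absurd hE' hE
  filter_upwards [h1] with a ha c j hE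
  exact ha c (K.mem _ hE) j hE

/-- **the radius `τ₁`** -/
theorem exists_unk (hF : ∀ c ∈ F, Ok S c) : ∃ τ₁ > 0, Unk K τ₁ := by
  have hok : ∀ {c j}, (c, j) ∈ K.κ → Ok S c := fun h => hF _ (K.mem _ h)
  have u1 : ∀ᶠ τ in 𝓝[>] (0 : ℝ), ∀ c j, (c, j) ∈ K.κ → ∀ v, v1 T c = some v →
      ∀ c' j', (c', j') ∈ K.κ → IsV c' → v1 T c' = some v → ∀ b : ℂ, b ≠ 0 → ‖b‖ ≤ τ →
      cx T c + b ^ lx T c ≠ cx T c' := by
    refine ev_kill fun c j hk => ev_some fun v hv => ev_kill fun c' j' hk' => ?_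
    have hl := Hv_174.lx_pos (hok hk).1
    by_cases hx : cx T c = cx T c'
    · refine Eventually.of_forall fun τ _ _ b hb _ he => ?_
      rw [hx] at he
      exact pow_ne_zero _ hb (add_eq_left.1 he)
    · filter_upwards [d1c hx hl] with τ hτ _ _ b _ hb
      exact hτ b hb
  have u2 : ∀ᶠ τ in 𝓝[>] (0 : ℝ), ∀ c j, (c, j) ∈ K.κ → ∀ v, v2 T c = some v →
      ∀ c' j', (c', j') ∈ K.κ → IsV c' → v1 T c' = some v → ∀ a : ℂ, a ≠ 0 → ‖a‖ ≤ τ →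
      (a ^ lx T c)⁻¹ ≠ cx T c' := by
    refine ev_kill fun c j hk => ev_some fun v hv => ev_kill fun c' j' hk' => ?_
    filter_upwards [d2c (cx T c') (Hv_174.lx_pos (hok hk).1)] with τ hτ _ _ a ha0 ha
    exact hτ a ha0 ha
  obtain ⟨τ, h1, h2, h3⟩ := (u1.and (u2.and self_mem_nhdsWithin)).exists
  exact ⟨τ, h3, fun c j hk v hv b hb hb' c' j' hk' hV' hv' =>
    h1 c j hk v hv c' j' hk' hV' hv' b hb hb', fun c j hk v hv a ha ha' c' j' hk' hV' hv' =>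
    h2 c j hk v hv c' j' hk' hV' hv' a ha ha'⟩

/-- compactness of the strict regions -/
lemma cptK {A : ℂ → Prop} {r : ℝ} (hA : IsClosed {b | A b}) : IsCompact {b : ℂ | ‖b‖ ≤ r ∧ A b} := by
  have h1 : {b : ℂ | ‖b‖ ≤ r ∧ A b} = closedBall (0 : ℂ) r ∩ {b | A b} := by
    ext b
    simp
  rw [h1]
  exact (isCompact_closedBall _ _).inter_right hA

/-- **the radius `τ`** -/
theorem exists_tau (hF : ∀ c ∈ F, Ok S c) {τ₁ : ℝ} (hu : Unk K τ₁) {τ₀ : ℝ} (hτ₀ : 0 < τ₀)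
    {τH : ℝ} (hτH : 0 < τH) :
    ∃ τ, 0 < τ ∧ τ < 1 ∧ τ < τ₀ ∧ τ < τH ∧ (∀ c j, Es K c j → τ < S.r c) ∧
    (∀ c c' j j', Es K c j → Es K c' j' → ∀ v, v1 T c = some v → v1 T c' = some v →
      ∀ b b' : ℂ, ‖b‖ ≤ τ → ‖b'‖ ≤ τ → cx T c + b ^ lx T c = cx T c' + b' ^ lx T c' → c = c') ∧
    (∀ c c' j j', Es K c j → Es K c' j' → ∀ v, v1 T c = some v → v2 T c' = some v →
      ∀ b a : ℂ, ‖b‖ ≤ τ → a ≠ 0 → ‖a‖ ≤ τ → cx T c + b ^ lx T c ≠ (a ^ lx T c')⁻¹) ∧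
    (∀ c j, Es K c j → ∀ v, v1 T c = some v → ∀ b : ℂ, ‖b‖ ≤ τ →
      ∀ c' ∈ sp T v, c' ≠ cx T c → cx T c + b ^ lx T c ≠ c') ∧
    (∀ c j, Es K c j → ∀ v, v2 T c = some v → ∀ a : ℂ, a ≠ 0 → ‖a‖ ≤ τ →
      ∀ c' ∈ sp T v, 1 < ‖(a ^ lx T c)⁻¹ - c'‖) ∧
    (∀ c ∈ F, ∀ j v, v1 T c = some v → ∀ b : ℂ, ‖b‖ ≤ S.r c →
      ((K.κ = ∅ ∧ (IsV c ∨ τ₀ ≤ ‖b‖)) ∨ ((c, j) ∈ K.κ ∧ τ₀ ≤ ‖b‖ ∧ ‖b‖ ≤ τ₁)) →
      (∀ c' j', Es K c' j' → v1 T c' = some v → ∀ b' : ℂ, ‖b'‖ ≤ τ →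
        cx T c + b ^ lx T c ≠ cx T c' + b' ^ lx T c') ∧
      (∀ c' j', Es K c' j' → v2 T c' = some v → ∀ a : ℂ, a ≠ 0 → ‖a‖ ≤ τ →
        cx T c + b ^ lx T c ≠ (a ^ lx T c')⁻¹)) ∧
    (∀ c ∈ F, ∀ j v, v2 T c = some v → ∀ a : ℂ, ‖a‖ ≤ S.r c → τ₀ ≤ ‖a‖ →
      (K.κ = ∅ ∨ ((c, j) ∈ K.κ ∧ ‖a‖ ≤ τ₁)) →
      (∀ c' j', Es K c' j' → v1 T c' = some v → ∀ b' : ℂ, ‖b'‖ ≤ τ →
        (a ^ lx T c)⁻¹ ≠ cx T c' + b' ^ lx T c') ∧
      (∀ c' j', Es K c' j' → v2 T c' = some v → ∀ a' : ℂ, a' ≠ 0 → ‖a'‖ ≤ τ →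
        (a ^ lx T c)⁻¹ ≠ (a' ^ lx T c')⁻¹)) := by
  have hlp : ∀ {c j}, Es K c j → 0 < lx T c := fun h => Hv_174.lx_pos h.1.1
  have e1 : ∀ᶠ τ in 𝓝[>] (0 : ℝ), ∀ c j, Es K c j → τ < S.r c :=
    ev_Es hF fun c j _ => ev_small _ (S.pos c)
  have e2 : ∀ᶠ τ in 𝓝[>] (0 : ℝ), ∀ c j, Es K c j → ∀ c' j', Es K c' j' → ∀ v, v1 T c = some v →
      v1 T c' = some v → ∀ b b' : ℂ, ‖b‖ ≤ τ → ‖b'‖ ≤ τ →
      cx T c + b ^ lx T c = cx T c' + b' ^ lx T c' → c = c' := by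
    refine ev_Es hF fun c j hE => ev_Es hF fun c' j' hE' => ev_some fun v hv => ?_
    by_cases hcc : c = c'
    · exact Eventually.of_forall fun τ _ b b' _ _ _ => hcc
    by_cases hv' : v1 T c' = some v
    · have hx : cx T c ≠ cx T c' := fun h => hcc (cx_ne hE hE' hv hv' h)
      filter_upwards [d11 hx (hlp hE) (hlp hE')] with τ hτ _ b b' hb hb' he
      exact absurd he (hτ b b' hb hb')
    · exact Eventually.of_forall fun τ h => absurd h hv'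
  have e3 : ∀ᶠ τ in 𝓝[>] (0 : ℝ), ∀ c j, Es K c j → ∀ c' j', Es K c' j' →
      ∀ b a : ℂ, ‖b‖ ≤ τ → ‖a‖ ≤ τ → a ≠ 0 → cx T c + b ^ lx T c ≠ (a ^ lx T c')⁻¹ :=
    ev_Es hF fun c j hE => ev_Es hF fun c' j' hE' => d12 (cx T c) (hlp hE')
  have e4 : ∀ᶠ τ in 𝓝[>] (0 : ℝ), ∀ c j, Es K c j → ∀ v, v1 T c = some v →
      ∀ c' ∈ sp T v, c' ≠ cx T c → ∀ b : ℂ, ‖b‖ ≤ τ → cx T c + b ^ lx T c ≠ c' := by
    refine ev_Es hF fun c j hE => ev_some fun v hv => ?_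
    rw [Filter.eventually_all_finset]
    intro c' hc'
    by_cases hx : c' = cx T c
    · exact Eventually.of_forall fun τ h => absurd hx h
    · filter_upwards [d1c (Ne.symm hx) (hlp hE)] with τ hτ _ b hb
      exact hτ b hb
  have e5 : ∀ᶠ τ in 𝓝[>] (0 : ℝ), ∀ c j, Es K c j → ∀ v, v2 T c = some v →
      ∀ c' ∈ sp T v, ∀ a : ℂ, a ≠ 0 → ‖a‖ ≤ τ → 1 < ‖(a ^ lx T c)⁻¹ - c'‖ := by
    refine ev_Es hF fun c j hE => ev_some fun v hv => ?_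
    rw [Filter.eventually_all_finset]
    intro c' hc'
    exact d2far c' (hlp hE)
  -- strict regions
  set R1 : Ch T.m → Fin T.d → ℂ → Prop := fun c j b =>
    (K.κ = ∅ ∧ (IsV c ∨ τ₀ ≤ ‖b‖)) ∨ ((c, j) ∈ K.κ ∧ τ₀ ≤ ‖b‖ ∧ ‖b‖ ≤ τ₁) with hR1
  have cl1 : ∀ c j, IsClosed {b | R1 c j b} := by
    intro c j
    have g1 : IsClosed {b : ℂ | τ₀ ≤ ‖b‖} := isClosed_le continuous_const continuous_norm
    have g2 : IsClosed {b : ℂ | ‖b‖ ≤ τ₁} := isClosed_le continuous_norm continuous_const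
    have c1 : ∀ A : Prop, IsClosed {_b : ℂ | A} := fun A => isClosed_const
    exact ((c1 (K.κ = ∅)).inter ((c1 (IsV c)).union g1)).union
      ((c1 ((c, j) ∈ K.κ)).inter (g1.inter g2))
  have R1_ne : ∀ {c j b}, R1 c j b → IsV c ∧ K.κ = ∅ ∨ b ≠ 0 := by
    intro c j b h
    rcases h with ⟨h1, h2 | h2⟩ | ⟨-, h2, -⟩
    · exact Or.inl ⟨h2, h1⟩
    · exact Or.inr (norm_pos_iff.1 (lt_of_lt_of_le hτ₀ h2))
    · exact Or.inr (norm_pos_iff.1 (lt_of_lt_of_le hτ₀ h2))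
  have e6 : ∀ᶠ τ in 𝓝[>] (0 : ℝ), ∀ c ∈ F, ∀ j v, v1 T c = some v → ∀ c' j', Es K c' j' →
      v1 T c' = some v → ∀ b ∈ {b : ℂ | ‖b‖ ≤ S.r c ∧ R1 c j b}, ∀ b' : ℂ, ‖b'‖ ≤ τ →
      cx T c + b ^ lx T c ≠ cx T c' + b' ^ lx T c' := by
    rw [Filter.eventually_all_finset]
    intro c hc
    rw [eventually_all]
    intro j
    refine ev_some fun v hv => ev_Es hF fun c' j' hE' => ?_
    by_cases hv' : v1 T c' = some v
    · have hOk := hF c hc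
      have hx : ∀ b ∈ {b : ℂ | ‖b‖ ≤ S.r c ∧ R1 c j b}, cx T c + b ^ lx T c ≠ cx T c' := by
        rintro b ⟨hb, hb2⟩ he
        have h0 := R1_ne hb2
        by_cases hV' : IsV c'
        · have hk' := hE'.2 hV'
          rcases hb2 with ⟨h1, -⟩ | ⟨h1, h2, h3⟩
          · rw [h1] at hk'
            exact hk'
          · exact hu.unk1 c j h1 v hv b (h0.resolve_left fun h => by
              rw [h.2] at hk'; exact hk') h3 c' j' hk' hV' hv' he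
        · have h4 := Hv_174.cx_mem hV' hv'
          rw [← he] at h4
          exact notsp1 hOk hv hb (h0.imp (fun h => h.1) id) h4
      filter_upwards [dK1 (cptK (cl1 c j)) (g := fun b => cx T c + b ^ lx T c)
        (by fun_prop) hx (hlp hE')] with τ hτ _ b hb b' hb'
      exact hτ b hb b' hb'
    · exact Eventually.of_forall fun τ h => absurd h hv'
  have e7 : ∀ᶠ τ in 𝓝[>] (0 : ℝ), ∀ c ∈ F, ∀ j, ∀ c' j', Es K c' j' →
      ∀ b ∈ {b : ℂ | ‖b‖ ≤ S.r c ∧ R1 c j b}, ∀ a : ℂ, a ≠ 0 → ‖a‖ ≤ τ →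
      cx T c + b ^ lx T c ≠ (a ^ lx T c')⁻¹ := by
    rw [Filter.eventually_all_finset]
    intro c hc
    rw [eventually_all]
    intro j
    refine ev_Es hF fun c' j' hE' => ?_
    exact dK2 (cptK (cl1 c j)) (g := fun b => cx T c + b ^ lx T c) (by fun_prop) (hlp hE')
  set R2 : Ch T.m → Fin T.d → ℂ → Prop := fun c j a =>
    τ₀ ≤ ‖a‖ ∧ (K.κ = ∅ ∨ ((c, j) ∈ K.κ ∧ ‖a‖ ≤ τ₁)) with hR2
  have cl2 : ∀ c j, IsClosed {b | R2 c j b} := by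
    intro c j
    have g1 : IsClosed {b : ℂ | τ₀ ≤ ‖b‖} := isClosed_le continuous_const continuous_norm
    have g2 : IsClosed {b : ℂ | ‖b‖ ≤ τ₁} := isClosed_le continuous_norm continuous_const
    have c1 : ∀ A : Prop, IsClosed {_b : ℂ | A} := fun A => isClosed_const
    exact g1.inter ((c1 (K.κ = ∅)).union ((c1 ((c, j) ∈ K.κ)).inter g2))
  have R2_ne : ∀ {c j a}, R2 c j a → a ≠ 0 := fun h =>
    norm_pos_iff.1 (lt_of_lt_of_le hτ₀ h.1)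
  have ct2 : ∀ c j, ContinuousOn (fun a : ℂ => (a ^ lx T c)⁻¹)
      {b : ℂ | ‖b‖ ≤ S.r c ∧ R2 c j b} := fun c j =>
    (continuous_pow _).continuousOn.inv₀ fun a ha => pow_ne_zero _ (R2_ne ha.2)
  have e8 : ∀ᶠ τ in 𝓝[>] (0 : ℝ), ∀ c ∈ F, ∀ j v, v2 T c = some v → ∀ c' j', Es K c' j' →
      v1 T c' = some v → ∀ a ∈ {b : ℂ | ‖b‖ ≤ S.r c ∧ R2 c j b}, ∀ b' : ℂ, ‖b'‖ ≤ τ →
      (a ^ lx T c)⁻¹ ≠ cx T c' + b' ^ lx T c' := by
    rw [Filter.eventually_all_finset]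
    intro c hc
    rw [eventually_all]
    intro j
    refine ev_some fun v hv => ev_Es hF fun c' j' hE' => ?_
    by_cases hv' : v1 T c' = some v
    · have hOk := hF c hc
      have hx : ∀ a ∈ {b : ℂ | ‖b‖ ≤ S.r c ∧ R2 c j b}, (a ^ lx T c)⁻¹ ≠ cx T c' := by
        rintro a ⟨hb, hb2⟩ he
        have h0 := R2_ne hb2
        by_cases hV' : IsV c'
        · have hk' := hE'.2 hV'
          rcases hb2.2 with h1 | ⟨h1, h3⟩
          · rw [h1] at hk'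
            exact hk'
          · exact hu.unk2 c j h1 v hv a h0 h3 c' j' hk' hV' hv' he
        · have h4 := Hv_174.cx_mem hV' hv'
          rw [← he] at h4
          exact notsp2 hOk hv hb h0 h4
      filter_upwards [dK1 (cptK (cl2 c j)) (ct2 c j) hx (hlp hE')] with τ hτ _ b hb b' hb'
      exact hτ b hb b' hb'
    · exact Eventually.of_forall fun τ h => absurd h hv'
  have e9 : ∀ᶠ τ in 𝓝[>] (0 : ℝ), ∀ c ∈ F, ∀ j, ∀ c' j', Es K c' j' →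
      ∀ b ∈ {b : ℂ | ‖b‖ ≤ S.r c ∧ R2 c j b}, ∀ a : ℂ, a ≠ 0 → ‖a‖ ≤ τ →
      (b ^ lx T c)⁻¹ ≠ (a ^ lx T c')⁻¹ := by
    rw [Filter.eventually_all_finset]
    intro c hc
    rw [eventually_all]
    intro j
    refine ev_Es hF fun c' j' hE' => ?_
    exact dK2 (cptK (cl2 c j)) (ct2 c j) (hlp hE')
  obtain ⟨τ, h0, h1, h2, h3, h4, h5, h6, h7, h8, h9, h10, h11, h12⟩ := ((show ∀ᶠ τ in 𝓝[>] (0 : ℝ), 0 < τ
    from self_mem_nhdsWithin).and ((ev_small 1 one_pos).and ((ev_small τ₀ hτ₀).and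
    ((ev_small τH hτH).and (e1.and (e2.and (e3.and (e4.and (e5.and (e6.and (e7.and
    (e8.and e9)))))))))))).exists
  refine ⟨τ, h0, h1, h2, h3, h4, ?_, ?_, ?_, ?_, ?_, ?_⟩
  · exact fun c c' j j' hE hE' v hv hv' b b' hb hb' he => h5 c j hE c' j' hE' v hv hv' b b' hb hb' he
  · exact fun c c' j j' hE hE' v _ _ b a hb h0 ha => h6 c j hE c' j' hE' b a hb ha h0
  · exact fun c j hE v hv b hb c' hc' hne => h7 c j hE v hv c' hc' hne b hb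
  · exact fun c j hE v hv a ha0 ha c' hc' => h8 c j hE v hv c' hc' a ha0 ha
  · exact fun c hc j v hv b hb hreg =>
      ⟨fun c' j' hE' hv' b' hb' => h9 c hc j v hv c' j' hE' hv' b ⟨hb, hreg⟩ b' hb',
       fun c' j' hE' _ a ha0 ha => h10 c hc j c' j' hE' b ⟨hb, hreg⟩ a ha0 ha⟩
  · exact fun c hc j v hv b hb hb0 hreg =>
      ⟨fun c' j' hE' hv' b' hb' => h11 c hc j v hv c' j' hE' hv' b ⟨hb, hb0, hreg⟩ b' hb',
       fun c' j' hE' _ a ha0 ha => h12 c hc j c' j' hE' b ⟨hb, hb0, hreg⟩ a ha0 ha⟩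

end Crest.Agent.R257.Wt_258
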