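import Mathlib
import Crest.Agent.R257.Par2_258

/-!
Row 257 (S0395), C-WT (helper258): existence of the parameters: `exists_par'`.
-/

set_option autoImplicit false
set_option linter.unusedSectionVars false
set_option linter.unusedVariables false

open Polynomial Set Filter Topology Metric
open Crest.AlgGeometry.Germ Crest.Agent.R257.AJ387 Crest.Agent.R257.T387
open Crest.Agent.R257.Gr1_157 Crest.Agent.R257.HoB_843 Crest.Agent.R257.BP_258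
open Crest.Agent.R257.Frm_547 Crest.Agent.R257.Lab_931

noncomputable section

namespace Crest.Agent.R257.Wt_258

variable {f : (Fin 3 → ℂ) → ℂ} {T : TB f} {U : Tub T} {S : Sh T}
variable {F : Finset (Ch T.m)} {K : DKill S F}

/-- **the radius `κ`** -/
theorem exists_kap (hF : ∀ c ∈ F, Ok S c) {τ δ C' : ℝ} (hτ : 0 < τ) (hδ : 0 < δ)
    (h4 : ∀ c j, Es K c j → ∀ v, v1 T c = some v → ∀ b : ℂ, ‖b‖ ≤ τ →
      ∀ c' ∈ sp T v, c' ≠ cx T c → cx T c + b ^ lx T c ≠ c')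
    (h5 : ∀ c j, Es K c j → ∀ v, v2 T c = some v → ∀ a : ℂ, a ≠ 0 → ‖a‖ ≤ τ →
      ∀ c' ∈ sp T v, 1 < ‖(a ^ lx T c)⁻¹ - c'‖) :
    ∃ κ, 0 < κ ∧ κ < τ ∧
    (∀ c j, Es K c j → ∀ b : ℂ, b ≠ 0 → ‖b‖ ^ lx T c ≤ κ →
      ‖b‖ < τ ∧ δ * Real.log (‖b‖ ^ 2) + C' < -1) ∧
    (∀ c j, Es K c j → ∀ v, v1 T c = some v → ∀ b : ℂ, ‖b‖ ≤ τ →
      ‖cx T c + b ^ lx T c‖ < κ⁻¹ ∧ ∀ c' ∈ sp T v, c' ≠ cx T c → κ < ‖cx T c + b ^ lx T c - c'‖) ∧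
    (∀ c j, Es K c j → ∀ v, v2 T c = some v → ∀ a : ℂ, a ≠ 0 → ‖a‖ ≤ τ →
      ∀ c' ∈ sp T v, κ < ‖(a ^ lx T c)⁻¹ - c'‖) := by
  have hlp : ∀ {c j}, Es K c j → 0 < lx T c := fun h => Hv_174.lx_pos h.1.1
  have hK : IsCompact (closedBall (0 : ℂ) τ) := isCompact_closedBall _ _
  have e1 : ∀ᶠ κ in 𝓝[>] (0 : ℝ), ∀ c j, Es K c j → ∀ b : ℂ, b ≠ 0 → ‖b‖ ^ lx T c ≤ κ →
      ‖b‖ < τ ∧ δ * Real.log (‖b‖ ^ 2) + C' < -1 :=
    ev_Es hF fun c j hE => dlog hδ C' hτ (hlp hE)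
  have e2 : ∀ᶠ κ in 𝓝[>] (0 : ℝ), ∀ c j, Es K c j → ∀ b ∈ closedBall (0 : ℂ) τ,
      ‖cx T c + b ^ lx T c‖ < κ⁻¹ :=
    ev_Es hF fun c j hE => dK4 hK (g := fun b => cx T c + b ^ lx T c) (by fun_prop)
  have e3 : ∀ᶠ κ in 𝓝[>] (0 : ℝ), ∀ c j, Es K c j → ∀ v, v1 T c = some v → ∀ c' ∈ sp T v,
      c' ≠ cx T c → ∀ b ∈ closedBall (0 : ℂ) τ, κ < ‖cx T c + b ^ lx T c - c'‖ := by
    refine ev_Es hF fun c j hE => ev_some fun v hv => ?_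
    rw [Filter.eventually_all_finset]
    intro c' hc'
    by_cases hx : c' = cx T c
    · exact Eventually.of_forall fun τ h => absurd hx h
    · filter_upwards [dK3 hK (g := fun b => cx T c + b ^ lx T c) (by fun_prop)
        (fun b hb => h4 c j hE v hv b (mem_closedBall_zero_iff.1 hb) c' hc' hx)] with κ hκ _
      exact hκ
  obtain ⟨κ, k0, k1, k2, k3, k4, k5⟩ := ((show ∀ᶠ τ in 𝓝[>] (0 : ℝ), 0 < τ
    from self_mem_nhdsWithin).and ((ev_small τ hτ).and ((ev_small 1 one_pos).and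
    (e1.and (e2.and e3))))).exists
  refine ⟨κ, k0, k1, k3, fun c j hE v hv b hb => ⟨k4 c j hE b (mem_closedBall_zero_iff.2 hb),
    fun c' hc' hne => k5 c j hE v hv c' hc' hne b (mem_closedBall_zero_iff.2 hb)⟩,
    fun c j hE v hv a ha0 ha c' hc' => k2.trans (h5 c j hE v hv a ha0 ha c' hc')⟩

/-- **(P')** existence of the parameters -/
theorem exists_par' (L : Lab U S) [Fintype (II U)] (hE : EndStmt L) (hH : HVDStmt L) :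
    ∀ (y : II U → ℝ) (F : Finset (Ch T.m)) (K : DKill S F), (∀ c ∈ F, Ok S c) →
      (∀ E, DSup L y K E) → ∃ τ₁ > 0, Unk K τ₁ ∧ ∀ τ₀ > 0, τ₀ < τ₁ →
        Nonempty (WPar L y K τ₀ τ₁) := by
  classical
  intro y F K hF hK
  obtain ⟨τ₁, hτ₁, hu⟩ := exists_unk (K := K) hF
  refine ⟨τ₁, hτ₁, hu, fun τ₀ hτ₀ _ => ?_⟩
  obtain ⟨δ, τH, C, h, hδ, hτH, hsm, hsl⟩ := hH y F K hF hK
  -- the ends
  have nn : ∀ v, v ∈ Vs T → Nonempty (Fin T.d → ℂ → XV U v) := by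
    intro v hv
    obtain ⟨w₀, hw₀⟩ : ∃ w₀ : ℂ, w₀ ∉ sp T v := by
      obtain ⟨w, hw⟩ := (sp T v).finite_toSet.infinite_compl.nonempty
      exact ⟨w, hw⟩
    obtain ⟨D⟩ := Vt2_558.exists_LD (Tb_941.retStmt U) hv hw₀
    exact ⟨fun j _ => D.σ j w₀⟩
  have g1 : ∀ (c : Ch T.m) (v : Vtx) (hv : v ∈ Vs T), ∃ γ : Fin T.d → ℂ → XV U v,
      Ok S c → v1 T c = some v → End1 U S c v γ ∧ ∀ j, ∀ b ∈ PDv S c,
        L.e1 c j = some (lab U ⟨v, hv⟩ (γ j b)) := by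
    intro c v hv
    by_cases hx : Ok S c ∧ v1 T c = some v
    · obtain ⟨γ, b1, b2⟩ := (hE c hx.1 ⟨v, hv⟩).1 hx.2
      exact ⟨γ, fun _ _ => ⟨b1, b2⟩⟩
    · obtain ⟨γ⟩ := nn v hv
      exact ⟨γ, fun a1 a2 => absurd ⟨a1, a2⟩ hx⟩
  have g2 : ∀ (c : Ch T.m) (v : Vtx) (hv : v ∈ Vs T), ∃ γ : Fin T.d → ℂ → XV U v,
      Ok S c → v2 T c = some v → End2 U S c v γ ∧ ∀ j, ∀ a ∈ PDc S c,
        L.e2 c j = some (lab U ⟨v, hv⟩ (γ j a)) := by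
    intro c v hv
    by_cases hx : Ok S c ∧ v2 T c = some v
    · obtain ⟨γ, b1, b2⟩ := (hE c hx.1 ⟨v, hv⟩).2 hx.2
      exact ⟨γ, fun _ _ => ⟨b1, b2⟩⟩
    · obtain ⟨γ⟩ := nn v hv
      exact ⟨γ, fun a1 a2 => absurd ⟨a1, a2⟩ hx⟩
  choose γ1 hγ1 using g1
  choose γ2 hγ2 using g2
  obtain ⟨τ, t0, t1, t2, t3, t4, t5, t6, t7, t8, t9, t10⟩ := exists_tau (K := K) hF hu hτ₀ hτH
  obtain ⟨κ, k0, k1, k2, k3, k4⟩ := exists_kap (K := K) (τ := τ) (δ := δ)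
    (C' := C + (3 + C - δ * Real.log (τ ^ 2))) hF t0 hδ t7 t8
  refine ⟨{ γ1 := γ1, γ2 := γ2, h := h, δ := δ, C := C, τH := τH, τ := τ, κ := κ
            B := 3 + C - δ * Real.log (τ ^ 2), hF := hF
            end1 := fun c hc v hv => hγ1 c v.1 v.2 hc hv
            end2 := fun c hc v hv => hγ2 c v.1 v.2 hc hv
            smp := ?_
            hv1 := fun c hc v hv j hVj b hb0 hb1 hb2 =>
              (hsl c hc v).1 hv _ (hγ1 c v.1 v.2 hc hv).1 j hVj b hb0 hb1 hb2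
            hv2 := fun c hc v hv j a ha0 ha1 ha2 =>
              (hsl c hc v).2 hv _ (hγ2 c v.1 v.2 hc hv).1 j a ha0 ha1 ha2
            δ_pos := hδ, τ_pos := t0, τ_lt1 := t1, τ_τ₀ := t2, κ_pos := k0, κ_lt := k1
            τ_lt := t3, τ_r := t4, sep11 := t5, sep12 := t6
            bigB := by linarith
            smallκ := fun c j hEs b hb0 hb => ?_
            sm1 := k3, sm2 := k4, str1 := t9, str2 := t10 }⟩
  · intro v hv w₀ ρ σ hρ hσc hσp hσQ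
    refine hsm v hv w₀ ρ σ hρ hσc hσp fun hq => hσQ ?_
    obtain ⟨c, j, γ, q1, q2, q3, q4, q5⟩ := hq
    refine ⟨c, j, q1, q2, q3, ?_⟩
    have hOk := hF c (K.mem _ q1)
    have hd : (0 : ℂ) ∈ PDv S c := ⟨Or.inl q2, by
      rw [norm_zero]; have := S.pos c; linarith⟩
    rw [q5]
    exact Hv_174.AE.uniq (Hv_174.AE.of1 q4) (Hv_174.AE.of1 (hγ1 c v hv hOk q3).1) j hd
  · obtain ⟨m1, m2⟩ := k2 c j hEs b hb0 hb
    exact ⟨m1, by linarith⟩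

end Crest.Agent.R257.Wt_258
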