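import Crest.Agent.R257.Lab5_931
import Crest.Agent.R257.WtD_258

/-!
# Row 257 (S0395), C-WT, leaf (V1) (helper82): the local inverses of the charts at the points of the axes

* `root_fn` : analytic roots;
* `inv1`, `inv2` : local inverse of `p ↦ (s, w)` at `(0, b₀)` resp. `(a₀, 0)`.
-/

set_option autoImplicit false
set_option linter.unusedSectionVars false
set_option linter.unusedVariables false

open Polynomial Set Filter Topology Metric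
open Crest.AlgGeometry.Germ Crest.Agent.R257.AJ387 Crest.Agent.R257.T387
open Crest.Agent.R257.BP_258 Crest.Agent.R257.Lab_931 Crest.Agent.R257.Wt_258

noncomputable section

namespace Crest.Agent.R257.V1_82

/-- analytic `l`-th roots -/
theorem root_fn {E : Type*} [NormedAddCommGroup E] [NormedSpace ℂ E] {l : ℕ} (hl : l ≠ 0) {b₀ : ℂ}
    (hb : b₀ ≠ 0) {F : E → ℂ} {q₀ : E} (hF : AnalyticAt ℂ F q₀) (h0 : F q₀ = b₀ ^ l) :
    ∃ β : E → ℂ, AnalyticAt ℂ β q₀ ∧ β q₀ = b₀ ∧ ∀ᶠ q in 𝓝 q₀, β q ^ l = F q ∧ β q ≠ 0 := by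
  have hbl : b₀ ^ l ≠ 0 := pow_ne_zero _ hb
  have h1 : AnalyticAt ℂ (fun q => F q / b₀ ^ l) q₀ := hF.div analyticAt_const hbl
  have h2 : F q₀ / b₀ ^ l = 1 := by rw [h0, div_self hbl]
  have h3 : AnalyticAt ℂ (fun q => Complex.log (F q / b₀ ^ l)) q₀ := by
    refine h1.clog ?_
    rw [h2]
    exact Complex.one_mem_slitPlane
  have hlC : (l : ℂ) ≠ 0 := Nat.cast_ne_zero.2 hl
  refine ⟨fun q => b₀ * Complex.exp (Complex.log (F q / b₀ ^ l) / l),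
    analyticAt_const.mul (h3.div analyticAt_const hlC).cexp, ?_, ?_⟩
  · simp only
    rw [h2, Complex.log_one, zero_div, Complex.exp_zero, mul_one]
  · have h4 : ∀ᶠ q in 𝓝 q₀, F q / b₀ ^ l ≠ 0 :=
      h1.continuousAt.eventually_ne (by rw [h2]; exact one_ne_zero)
    filter_upwards [h4] with q hq
    refine ⟨?_, mul_ne_zero hb (Complex.exp_ne_zero _)⟩
    rw [mul_pow, ← Complex.exp_nat_mul, mul_div_cancel₀ _ hlC, Complex.exp_log hq,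
      mul_div_cancel₀ _ hbl]

variable {f : (Fin 3 → ℂ) → ℂ} {T : TB f} {S : Sh T}

/-- `q ↦ hk (φ i) k (q.1 ^ M)` is analytic at `(0, w)` -/
theorem hk_an (i : Fin T.m) (k : ℕ) (w : ℂ) :
    AnalyticAt ℂ (fun q : ℂ × ℂ => hk (T.φ i) k (q.1 ^ T.M)) ((0 : ℂ), w) := by
  have h1 : DifferentiableOn ℂ (hk (T.φ i) k) (ball 0 T.ρ) :=
    hk_diff T.ρ_pos (T.φ_an i).differentiableOn k
  have h2 : AnalyticAt ℂ (hk (T.φ i) k) 0 := h1.analyticAt (ball_mem_nhds 0 T.ρ_pos)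
  refine AnalyticAt.comp (g := hk (T.φ i) k) (f := fun q : ℂ × ℂ => q.1 ^ T.M) ?_
    (analyticAt_fst.pow _)
  simpa [T.M_pos.ne'] using h2

theorem hk_an0 (i : Fin T.m) (k : ℕ) (w : ℂ) :
    (fun q : ℂ × ℂ => hk (T.φ i) k (q.1 ^ T.M)) ((0 : ℂ), w) = co T i k := by
  simp only
  rw [zero_pow T.M_pos.ne', hk_φ]

/-- **local inverse at `(0, b₀)`** -/
theorem inv1 {c : Ch T.m} (hc : Ok S c) {v : Vtx} (hv : v1 T c = some v) {b₀ : ℂ}
    (hb : ‖b₀‖ ≤ S.r c) (h0 : IsV c ∨ b₀ ≠ 0) :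
    ∃ P : ℂ × ℂ → ℂ × ℂ, AnalyticAt ℂ P ((0 : ℂ), cx T c + b₀ ^ lx T c) ∧
      P (0, cx T c + b₀ ^ lx T c) = (0, b₀) ∧
      ∀ᶠ q in 𝓝 ((0 : ℂ), cx T c + b₀ ^ lx T c), (T.map c (P q)).1 = q.1 ∧ W1 c (P q) = q.2 ∧
        (q.1 ≠ 0 → (P q).1 ≠ 0) := by
  cases c with
  | edge i k k' =>
    have hkk : k < k' := hc.1.2.2.1
    have hb0 : b₀ ≠ 0 := h0.resolve_left fun h => h
    have hl : T.M * (k' - k) ≠ 0 := mul_ne_zero T.M_pos.ne' (by omega)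
    obtain ⟨β, hβ, hβ0, hβe⟩ := root_fn hl hb0
      (F := fun q : ℂ × ℂ => q.2 - hk (T.φ i) k (q.1 ^ T.M))
      (q₀ := ((0 : ℂ), co T i k + b₀ ^ (T.M * (k' - k))))
      (analyticAt_snd.sub (hk_an i k _)) (by
        have := hk_an0 i k (co T i k + b₀ ^ (T.M * (k' - k)))
        simp only at this ⊢
        rw [this, add_sub_cancel_left])
    refine ⟨fun q => (q.1 / β q, β q), (analyticAt_fst.div hβ (by rw [hβ0]; exact hb0)).prod hβ,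
      ?_, ?_⟩
    · show ((0 : ℂ) / β _, β _) = _
      rw [zero_div]
      exact Prod.ext rfl hβ0
    · filter_upwards [hβe] with q hq
      have e1 : q.1 / β q * β q = q.1 := div_mul_cancel₀ _ hq.2
      refine ⟨e1, ?_, fun h => div_ne_zero h hq.2⟩
      show hk (T.φ i) k ((q.1 / β q * β q) ^ T.M) + β q ^ (T.M * (k' - k)) = q.2
      rw [e1, hq.1]
      ring
  | leg i =>
    have hb0 : b₀ ≠ 0 := h0.resolve_left fun h => h
    obtain ⟨β, hβ, hβ0, hβe⟩ := root_fn T.M_pos.ne' hb0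
      (F := fun q : ℂ × ℂ => q.2 - hk (T.φ i) (T.top i) (q.1 ^ T.M))
      (q₀ := ((0 : ℂ), co T i (T.top i) + b₀ ^ T.M))
      (analyticAt_snd.sub (hk_an i (T.top i) _)) (by
        have := hk_an0 i (T.top i) (co T i (T.top i) + b₀ ^ T.M)
        simp only at this ⊢
        rw [this, add_sub_cancel_left])
    refine ⟨fun q => (q.1, β q), analyticAt_fst.prod hβ, Prod.ext rfl hβ0, ?_⟩
    filter_upwards [hβe] with q hq
    refine ⟨rfl, ?_, fun h => h⟩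
    show hk (T.φ i) (T.top i) (q.1 ^ T.M) + β q ^ T.M = q.2
    rw [hq.1]
    ring
  | vert i k w₀ =>
    obtain ⟨v', hv', rfl, rfl, hw⟩ := hc.2
    have hco : co T (S.ci v') v'.1 = 0 := co_ci S hv'
    refine ⟨fun q => (q.1, q.2 - hk (T.φ (S.ci v')) v'.1 (q.1 ^ T.M) - w₀),
      analyticAt_fst.prod ((analyticAt_snd.sub (hk_an _ _ _)).sub analyticAt_const), ?_, ?_⟩
    · refine Prod.ext rfl ?_
      have := hk_an0 (S.ci v') v'.1 (w₀ + b₀ ^ 1)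
      show w₀ + b₀ ^ 1 - hk (T.φ (S.ci v')) v'.1 ((0 : ℂ) ^ T.M) - w₀ = b₀
      simp only at this
      rw [this, hco]
      ring
    · refine Eventually.of_forall fun q => ⟨rfl, ?_, fun h => h⟩
      show hk (T.φ (S.ci v')) v'.1 (q.1 ^ T.M) +
        (w₀ + (q.2 - hk (T.φ (S.ci v')) v'.1 (q.1 ^ T.M) - w₀)) = q.2
      ring

/-- **local inverse at `(a₀, 0)`** -/
theorem inv2 {c : Ch T.m} (hc : Ok S c) {v : Vtx} (hv : v2 T c = some v) {a₀ : ℂ}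
    (ha : ‖a₀‖ ≤ S.r c) (h0 : a₀ ≠ 0) :
    ∃ P : ℂ × ℂ → ℂ × ℂ, AnalyticAt ℂ P ((0 : ℂ), (a₀ ^ lx T c)⁻¹) ∧
      P (0, (a₀ ^ lx T c)⁻¹) = (a₀, 0) ∧
      ∀ᶠ q in 𝓝 ((0 : ℂ), (a₀ ^ lx T c)⁻¹), (T.map c (P q)).1 = q.1 ∧ W2 c (P q) = q.2 ∧
        (q.1 ≠ 0 → (P q).2 ≠ 0) := by
  cases c with
  | edge i k k' =>
    have hkk : k < k' := hc.1.2.2.1
    have hl : T.M * (k' - k) ≠ 0 := mul_ne_zero T.M_pos.ne' (by omega)
    obtain ⟨v', hv', rfl, rfl, rfl⟩ := hc.2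
    have hco : co T (S.ci v') v'.1 = 0 := co_ci S hv'
    set l : ℕ := T.M * (v'.1 - S.kp v') with hldef
    have hal : a₀ ^ l ≠ 0 := pow_ne_zero _ h0
    have hz : ((a₀ ^ l)⁻¹ : ℂ) - hk (T.φ (S.ci v')) v'.1 ((0 : ℂ) ^ T.M) = (a₀ ^ l)⁻¹ := by
      have := hk_an0 (S.ci v') v'.1 (a₀ ^ l)⁻¹
      simp only at this
      rw [this, hco, sub_zero]
    have hFa : AnalyticAt ℂ (fun q : ℂ × ℂ => q.2 - hk (T.φ (S.ci v')) v'.1 (q.1 ^ T.M))
        ((0 : ℂ), (a₀ ^ l)⁻¹) := analyticAt_snd.sub (hk_an _ _ _)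
    have hF0 : (fun q : ℂ × ℂ => q.2 - hk (T.φ (S.ci v')) v'.1 (q.1 ^ T.M))
        ((0 : ℂ), (a₀ ^ l)⁻¹) ≠ 0 := by
      show ((a₀ ^ l)⁻¹ : ℂ) - hk (T.φ (S.ci v')) v'.1 ((0 : ℂ) ^ T.M) ≠ 0
      rw [hz]
      exact inv_ne_zero hal
    obtain ⟨α, hα, hα0, hαe⟩ := root_fn hl h0
      (F := fun q : ℂ × ℂ => (q.2 - hk (T.φ (S.ci v')) v'.1 (q.1 ^ T.M))⁻¹)
      (q₀ := ((0 : ℂ), (a₀ ^ l)⁻¹)) (hFa.inv hF0) (by
        show (((a₀ ^ l)⁻¹ : ℂ) - hk (T.φ (S.ci v')) v'.1 ((0 : ℂ) ^ T.M))⁻¹ = _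
        rw [hz, inv_inv])
    refine ⟨fun q => (α q, q.1 / α q), hα.prod (analyticAt_fst.div hα (by rw [hα0]; exact h0)),
      ?_, ?_⟩
    · show (α _, (0 : ℂ) / α _) = _
      rw [zero_div]
      exact Prod.ext hα0 rfl
    · filter_upwards [hαe] with q hq
      have e1 : α q * (q.1 / α q) = q.1 := mul_div_cancel₀ _ hq.2
      refine ⟨e1, ?_, fun h => div_ne_zero h hq.2⟩
      show hk (T.φ (S.ci v')) v'.1 ((α q * (q.1 / α q)) ^ T.M) + (α q ^ l)⁻¹ = q.2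
      rw [e1, hq.1, inv_inv]
      ring
  | leg i => simp [v2] at hv
  | vert i k w₀ => simp [v2] at hv

end Crest.Agent.R257.V1_82
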