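import Mathlib
import Crest.Agent.R257.Wt4_258
import Crest.Agent.R257.Vt2_558
import Crest.Agent.R257.V1_82

/-!
Row 257 (S0395), C-WT, transfer (helper938): near a point of an axis of a chart the points of the
chart are the points of the tube chart at the corresponding point of the vertex curve.

* `trans_gen`, `trans1`, `trans2` : `wc S c j p = D.X ((T.map c p).1, W p)`;
* `back1`, `back2` : `D.X q = wc S c j (P q)` with the local inverse `P` of `V1_82`.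
-/

set_option autoImplicit false
set_option linter.unusedSectionVars false
set_option linter.unusedVariables false

open Polynomial Set Filter Topology Metric
open Crest.AlgGeometry.Germ Crest.Agent.R257.AJ387 Crest.Agent.R257.T387
open Crest.Agent.R257.Gr1_157 Crest.Agent.R257.HoB_843 Crest.Agent.R257.BP_258
open Crest.Agent.R257.Frm_547 Crest.Agent.R257.Lab_931 Crest.Agent.R257.Wt_258

noncomputable section

namespace Crest.Agent.R257.WtTr_938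

variable {f : (Fin 3 → ℂ) → ℂ} {T : TB f} {U : Tub T} {S : Sh T} [Fintype (II U)]

/-- a point whose retraction lies on a section is on the corresponding sheet -/
lemma pt_of {v : Vtx} {w₀ : ℂ} (E : Vt2_558.LD U v w₀) {i : Fin T.d} {x : Fin 3 → ℂ} {q : XV U v}
    (h : IsRet U v x q) (h1 : E.σ i (pV U v q) = q) (h2 : pV U v q ∈ ball w₀ E.r) :
    x = pt (E.Z i (x 1, pV U v q)) (x 1, yv T v (x 1, pV U v q)) := by
  obtain ⟨j', h3, h4, h5, h6, h7⟩ := E.of_ret h h2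
  have h8 : j' = i := E.σinj _ h2 (h7.symm.trans h1.symm)
  subst h8
  funext k
  fin_cases k
  · exact h6
  · rfl
  · exact h5

/-- general form of the transfer -/
theorem trans_gen (hR : RetStmt U) {v : Vtx} {q₀ : XV U v} (D : TC U v q₀) {X : Type*}
    {𝓕 : Filter X} {x : X → Fin 3 → ℂ} {g : X → ℂ × ℂ}
    (hg : Tendsto g 𝓕 (𝓝 ((0 : ℂ), pV U v q₀))) (hne : ∀ᶠ p in 𝓕, (g p).1 ≠ 0)
    (hin : ∀ᶠ p in 𝓕, InT U v (x p))
    (h1 : ∀ᶠ p in 𝓕, x p 1 = (g p).1 ∧ wv T v (x p 1, x p 2) = (g p).2)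
    (hlim : ∀ O ∈ 𝓝 q₀, ∀ᶠ p in 𝓕, ∀ q, IsRet U v (x p) q → q ∈ O) :
    ∀ᶠ p in 𝓕, x p = D.X (g p) := by
  obtain ⟨E⟩ := Vt2_558.exists_LD hR D.hv q₀.2.2.1
  obtain ⟨i, hi⟩ := E.surj q₀ E.w0_mem
  have hnear := E.near (j := i) E.w0_mem
  have hi' : E.σ i (pV U v q₀) = q₀ := hi
  change E.σ i (q₀.1.1) = q₀ at hi'
  rw [hi'] at hnear
  have hgl : Tendsto g 𝓕 D.Fl := tendsto_nhdsWithin_iff.2 ⟨hg, hne⟩
  have hD : ∀ᶠ p in 𝓕, IsRet U v (D.X (g p)) (D.σ (g p).2) := hgl.eventually D.ev_ret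
  have hDn : ∀ᶠ p in 𝓕, E.σ i (pV U v (D.σ (g p).2)) = D.σ (g p).2 ∧
      pV U v (D.σ (g p).2) ∈ ball (q₀.1.1) E.r := (D.σ_tendsto.comp hgl).eventually hnear
  have hDb : ∀ᶠ p in 𝓕, (g p).2 ∈ ball (pV U v q₀) D.r := hgl.eventually D.ev_ball
  filter_upwards [hin, h1, hlim _ hnear, hD, hDn, hDb] with p e1 e2 e3 e4 e5 e6
  obtain ⟨q, hq⟩ := (((hR v D.hv).1 (x p) e1).exists)
  have e7 : pV U v q = (g p).2 := hq.2.1.trans e2.2
  have e8 : pV U v (D.σ (g p).2) = (g p).2 := D.σp _ e6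
  have e9 := e3 q hq
  have a1 := pt_of E hq e9.1 e9.2
  have a2 := pt_of E e4 e5.1 e5.2
  rw [e8] at a2
  rw [e7, e2.1] at a1
  exact a1.trans a2.symm

lemma W1_at {c : Ch T.m} (hc : Ok S c) {v : Vtx} (hv : v1 T c = some v) (b : ℂ) :
    W1 c ((0 : ℂ), b) = cx T c + b ^ lx T c := by
  cases c with
  | edge i k k' =>
    simp only [W1, cx, lx, zero_mul]
    rw [zero_pow T.M_pos.ne', hk_φ]
  | leg i =>
    simp only [W1, cx, lx]
    rw [zero_pow T.M_pos.ne', hk_φ]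
  | vert i k w₀ =>
    obtain ⟨v', hv', rfl, rfl, hw⟩ := hc.2
    simp only [W1, cx, lx]
    rw [zero_pow T.M_pos.ne', hk_φ, co_ci S hv', zero_add, pow_one]

lemma W2_at {c : Ch T.m} (hc : Ok S c) {v : Vtx} (hv : v2 T c = some v) (a : ℂ) :
    W2 c (a, (0 : ℂ)) = (a ^ lx T c)⁻¹ := by
  cases c with
  | edge i k k' =>
    obtain ⟨v', hv', rfl, rfl, rfl⟩ := hc.2
    simp only [W2, lx, mul_zero]
    rw [zero_pow T.M_pos.ne', hk_φ, co_ci S hv', zero_add]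
  | leg i => simp [v2] at hv
  | vert i k w₀ => simp [v2] at hv

lemma PDv_BD {c : Ch T.m} {b : ℂ} (hb : b ∈ PDv S c) :
    ((0 : ℂ), b) ∈ BD (2 * S.r c) (2 * S.r c) :=
  ⟨by simpa using two_r_pos S c, hb.2⟩

lemma PDc_BD {c : Ch T.m} {a : ℂ} (ha : a ∈ PDc S c) :
    (a, (0 : ℂ)) ∈ BD (2 * S.r c) (2 * S.r c) :=
  ⟨ha.2, by simpa using two_r_pos S c⟩

lemma map_zero1 {c : Ch T.m} (b : ℂ) : (T.map c ((0 : ℂ), b)).1 = 0 := by
  cases c with
  | edge i k k' => exact zero_mul _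
  | leg i => rfl
  | vert i k w₀ => rfl

lemma map_zero2 {c : Ch T.m} {v : Vtx} (hv : v2 T c = some v) (a : ℂ) :
    (T.map c (a, (0 : ℂ))).1 = 0 := by
  cases c with
  | edge i k k' => exact mul_zero _
  | leg i => simp [v2] at hv
  | vert i k w₀ => simp [v2] at hv

/-- the coordinates `(s, w)` of the chart near `(0, b)` -/
lemma tend1 {c : Ch T.m} (hc : Ok S c) {v : Vtx} (hv : v1 T c = some v) {b : ℂ}
    (hb : b ∈ PDv S c) : Tendsto (fun p => ((T.map c p).1, W1 c p)) (𝓝 ((0 : ℂ), b))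
      (𝓝 ((0 : ℂ), cx T c + b ^ lx T c)) := by
  have hn : BD (2 * S.r c) (2 * S.r c) ∈ 𝓝 ((0 : ℂ), b) := (isOpen_BD _ _).mem_nhds (PDv_BD hb)
  have h1 : ContinuousAt (fun p => (T.map c p).1) ((0 : ℂ), b) :=
    (((map_cont S hc.1).continuousAt hn)).fst
  have h2 : ContinuousAt (W1 c) ((0 : ℂ), b) := (W1_cont S hc.1).continuousAt hn
  have h3 := h1.tendsto.prodMk_nhds h2.tendsto
  rw [map_zero1, W1_at hc hv] at h3
  exact h3

lemma tend2 {c : Ch T.m} (hc : Ok S c) {v : Vtx} (hv : v2 T c = some v) {a : ℂ}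
    (ha : a ∈ PDc S c) : Tendsto (fun p => ((T.map c p).1, W2 c p)) (𝓝 (a, (0 : ℂ)))
      (𝓝 ((0 : ℂ), (a ^ lx T c)⁻¹)) := by
  have hn : BD (2 * S.r c) (2 * S.r c) ∈ 𝓝 (a, (0 : ℂ)) := (isOpen_BD _ _).mem_nhds (PDc_BD ha)
  have h1 : ContinuousAt (fun p => (T.map c p).1) (a, (0 : ℂ)) :=
    (((map_cont S hc.1).continuousAt hn)).fst
  have ha0 : a ≠ 0 := norm_pos_iff.1 ha.1
  have h2 : ContinuousAt (W2 c) (a, (0 : ℂ)) :=
    (W2_cont S hc.1).continuousAt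
      (Filter.inter_mem hn ((isOpen_ne_fun continuous_fst continuous_const).mem_nhds ha0))
  have h3 := h1.tendsto.prodMk_nhds h2.tendsto
  rw [map_zero2 hv, W2_at hc hv] at h3
  exact h3

/-- **transfer at `(0, b)`** -/
theorem trans1 (hR : RetStmt U) {c : Ch T.m} (hc : Ok S c) {v : Vtx} (hv : v1 T c = some v)
    {γ : Fin T.d → ℂ → XV U v} (hγ : End1 U S c v γ) {b : ℂ} (hb : b ∈ PDv S c) (j : Fin T.d)
    {q₀ : XV U v} (hq : γ j b = q₀) (D : TC U v q₀) :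
    ∀ᶠ p in 𝓝 ((0 : ℂ), b), T.Gen c p → wc S c j p = D.X ((T.map c p).1, W1 c p) := by
  subst hq
  have hne : ∀ᶠ p in 𝓝 ((0 : ℂ), b) ⊓ 𝓟 {p | T.Gen c p}, T.Gen c p :=
    mem_inf_of_right (mem_principal_self _)
  have hle : 𝓝 ((0 : ℂ), b) ⊓ 𝓟 {p | T.Gen c p} ≤ 𝓝 ((0 : ℂ), b) := inf_le_left
  have ht : Tendsto (fun p => ((T.map c p).1, W1 c p)) (𝓝 ((0 : ℂ), b))
      (𝓝 ((0 : ℂ), pV U v (γ j b))) := by
    rw [hγ.pr j b hb]
    exact tend1 hc hv hb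
  have h := trans_gen hR D (𝓕 := 𝓝 ((0 : ℂ), b) ⊓ 𝓟 {p | T.Gen c p})
    (x := fun p => wc S c j p) (g := fun p => ((T.map c p).1, W1 c p)) (ht.mono_left hle)
    (by filter_upwards [hne] with p hp using map_ne hp)
    (by filter_upwards [hne, (hγ.lim j b hb).1.filter_mono hle] with p hp h using h (gen_fst hp))
    (by
      filter_upwards [hne] with p hp
      exact ⟨rfl, W1_eq hc.1 hv hp⟩)
    (fun O hO => by
      filter_upwards [hne, ((hγ.lim j b hb).2 O hO).filter_mono hle] with p hp h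
      exact h (gen_fst hp))
  rw [eventually_inf_principal] at h
  exact h

/-- **transfer at `(a, 0)`** -/
theorem trans2 (hR : RetStmt U) {c : Ch T.m} (hc : Ok S c) {v : Vtx} (hv : v2 T c = some v)
    {γ : Fin T.d → ℂ → XV U v} (hγ : End2 U S c v γ) {a : ℂ} (ha : a ∈ PDc S c) (j : Fin T.d)
    {q₀ : XV U v} (hq : γ j a = q₀) (D : TC U v q₀) :
    ∀ᶠ p in 𝓝 (a, (0 : ℂ)), T.Gen c p → wc S c j p = D.X ((T.map c p).1, W2 c p) := by
  subst hq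
  have hnV : ¬ IsV c := by
    intro h
    cases c with
    | edge i k k' => exact h
    | leg i => exact h
    | vert i k w₀ => simp [v2] at hv
  have hne : ∀ᶠ p in 𝓝 (a, (0 : ℂ)) ⊓ 𝓟 {p | T.Gen c p}, T.Gen c p :=
    mem_inf_of_right (mem_principal_self _)
  have hle : 𝓝 (a, (0 : ℂ)) ⊓ 𝓟 {p | T.Gen c p} ≤ 𝓝 (a, (0 : ℂ)) := inf_le_left
  have ht : Tendsto (fun p => ((T.map c p).1, W2 c p)) (𝓝 (a, (0 : ℂ)))
      (𝓝 ((0 : ℂ), pV U v (γ j a))) := by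
    rw [hγ.pr j a ha]
    exact tend2 hc hv ha
  have h := trans_gen hR D (𝓕 := 𝓝 (a, (0 : ℂ)) ⊓ 𝓟 {p | T.Gen c p})
    (x := fun p => wc S c j p) (g := fun p => ((T.map c p).1, W2 c p)) (ht.mono_left hle)
    (by filter_upwards [hne] with p hp using map_ne hp)
    (by
      filter_upwards [hne, (hγ.lim j a ha).1.filter_mono hle] with p hp h
      exact h (gen_snd hp hnV))
    (by
      filter_upwards [hne] with p hp
      exact ⟨rfl, W2_eq hc.1 hv hp⟩)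
    (fun O hO => by
      filter_upwards [hne, ((hγ.lim j a ha).2 O hO).filter_mono hle] with p hp h
      exact h (gen_snd hp hnV))
  rw [eventually_inf_principal] at h
  exact h

lemma gen_near1 {c : Ch T.m} {b : ℂ} (h0 : IsV c ∨ b ≠ 0) :
    ∀ᶠ p in 𝓝 ((0 : ℂ), b), p.1 ≠ 0 → T.Gen c p := by
  rcases h0 with h | h
  · exact Eventually.of_forall fun p hp => gen_of hp (Or.inl h)
  · have h1 : ∀ᶠ p : ℂ × ℂ in 𝓝 ((0 : ℂ), b), p.2 ≠ 0 :=
      continuous_snd.continuousAt.eventually_ne h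
    filter_upwards [h1] with p hp hp1
    exact gen_of hp1 (Or.inr hp)

lemma gen_near2 {c : Ch T.m} {a : ℂ} (h0 : a ≠ 0) :
    ∀ᶠ p in 𝓝 (a, (0 : ℂ)), p.2 ≠ 0 → T.Gen c p := by
  have h1 : ∀ᶠ p : ℂ × ℂ in 𝓝 (a, (0 : ℂ)), p.1 ≠ 0 :=
    continuous_fst.continuousAt.eventually_ne h0
  filter_upwards [h1] with p hp hp1
  exact gen_of hp (Or.inr hp1)

/-- **the tube chart in terms of the chart at `(0, b)`** -/
theorem back1 (hR : RetStmt U) {c : Ch T.m} (hc : Ok S c) {v : Vtx} (hv : v1 T c = some v)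
    {γ : Fin T.d → ℂ → XV U v} (hγ : End1 U S c v γ) {b : ℂ} (hb : ‖b‖ ≤ S.r c)
    (h0 : IsV c ∨ b ≠ 0) (j : Fin T.d) {q₀ : XV U v} (hq : γ j b = q₀) (D : TC U v q₀) :
    ∃ P : ℂ × ℂ → ℂ × ℂ, AnalyticAt ℂ P ((0 : ℂ), pV U v q₀) ∧ P (0, pV U v q₀) = (0, b) ∧
      ∀ᶠ q in D.Fl, (T.map c (P q)).1 = q.1 ∧ W1 c (P q) = q.2 ∧ T.Gen c (P q) ∧
        D.X q = wc S c j (P q) := by
  have hb' : b ∈ PDv S c := ⟨h0.imp_right norm_pos_iff.2, lt_two_r S hb⟩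
  have hpr : pV U v q₀ = cx T c + b ^ lx T c := by rw [← hq]; exact hγ.pr j b hb'
  obtain ⟨P, hP, hP0, hPe⟩ := V1_82.inv1 hc hv hb h0
  rw [← hpr] at hP hP0 hPe
  refine ⟨P, hP, hP0, ?_⟩
  have ht : Tendsto P D.Fl (𝓝 ((0 : ℂ), b)) := by
    have := hP.continuousAt.tendsto
    rw [hP0] at this
    exact this.mono_left D.Fl_le
  filter_upwards [D.ev_ne, hPe.filter_mono D.Fl_le, ht.eventually (gen_near1 h0),
    ht.eventually (trans1 hR hc hv hγ hb' j hq D)] with q h1 h2 h3 h4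
  have h5 := h3 (h2.2.2 h1)
  refine ⟨h2.1, h2.2.1, h5, ?_⟩
  rw [h4 h5, h2.1, h2.2.1]

/-- **the tube chart in terms of the chart at `(a, 0)`** -/
theorem back2 (hR : RetStmt U) {c : Ch T.m} (hc : Ok S c) {v : Vtx} (hv : v2 T c = some v)
    {γ : Fin T.d → ℂ → XV U v} (hγ : End2 U S c v γ) {a : ℂ} (ha : ‖a‖ ≤ S.r c)
    (h0 : a ≠ 0) (j : Fin T.d) {q₀ : XV U v} (hq : γ j a = q₀) (D : TC U v q₀) :
    ∃ P : ℂ × ℂ → ℂ × ℂ, AnalyticAt ℂ P ((0 : ℂ), pV U v q₀) ∧ P (0, pV U v q₀) = (a, 0) ∧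
      ∀ᶠ q in D.Fl, (T.map c (P q)).1 = q.1 ∧ W2 c (P q) = q.2 ∧ T.Gen c (P q) ∧
        D.X q = wc S c j (P q) := by
  have ha' : a ∈ PDc S c := ⟨norm_pos_iff.2 h0, lt_two_r S ha⟩
  have hpr : pV U v q₀ = (a ^ lx T c)⁻¹ := by rw [← hq]; exact hγ.pr j a ha'
  obtain ⟨P, hP, hP0, hPe⟩ := V1_82.inv2 hc hv ha h0
  rw [← hpr] at hP hP0 hPe
  refine ⟨P, hP, hP0, ?_⟩
  have ht : Tendsto P D.Fl (𝓝 (a, (0 : ℂ))) := by
    have := hP.continuousAt.tendsto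
    rw [hP0] at this
    exact this.mono_left D.Fl_le
  filter_upwards [D.ev_ne, hPe.filter_mono D.Fl_le, ht.eventually (gen_near2 (T := T) (c := c) h0),
    ht.eventually (trans2 hR hc hv hγ ha' j hq D)] with q h1 h2 h3 h4
  have h5 := h3 (h2.2.2 h1)
  refine ⟨h2.1, h2.2.1, h5, ?_⟩
  rw [h4 h5, h2.1, h2.2.1]

end Crest.Agent.R257.WtTr_938
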