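import Mathlib
import Crest.Agent.R257.WtTr_938
import Crest.Agent.R257.Wt7_258
import Crest.Agent.R257.V2_808

/-!
Row 257 (S0395), C-WT, leaf (F4), common part of both axes (helper938).

Setting of `Ax`: a chart `c`, a point `p₀`, a map `g = (s, W)` of the chart to the tube chart `D`.
* `Ax.smpsh`, `Ax.ub`, `Ax.lb`, `Ax.nat` : pull-back of `TubeOut`;
* `Ax.strict` : strictness from `V2`;
* `finish` : assembly of `LocS`.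
-/

set_option autoImplicit false
set_option linter.unusedSectionVars false
set_option linter.unusedVariables false

open Polynomial Set Filter Topology Metric
open Crest.AlgGeometry.Germ Crest.Agent.R257.AJ387 Crest.Agent.R257.T387
open Crest.Agent.R257.Gr1_157 Crest.Agent.R257.HoB_843 Crest.Agent.R257.BP_258
open Crest.Agent.R257.Frm_547 Crest.Agent.R257.Lab_931 Crest.Agent.R257.Wt_258
open Crest.Agent.R257.WtTr_938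

noncomputable section

namespace Crest.Agent.R257.Ta_938

variable {f : (Fin 3 → ℂ) → ℂ} {T : TB f} {U : Tub T} {S : Sh T}
variable {L : Lab U S} {y : II U → ℝ} {F : Finset (Ch T.m)} {K : DKill S F}

lemma gen_open (c : Ch T.m) {p : ℂ × ℂ} (h : T.Gen c p) : ∀ᶠ p' in 𝓝 p, T.Gen c p' := by
  have e1 : p.1 ≠ 0 → ∀ᶠ p' : ℂ × ℂ in 𝓝 p, p'.1 ≠ 0 := fun h =>
    continuous_fst.continuousAt.eventually_ne h
  have e2 : p.2 ≠ 0 → ∀ᶠ p' : ℂ × ℂ in 𝓝 p, p'.2 ≠ 0 := fun h =>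
    continuous_snd.continuousAt.eventually_ne h
  cases c with
  | edge i k k' => exact (e1 h.1).and (e2 h.2)
  | leg i => exact (e1 h.1).and (e2 h.2)
  | vert i k w₀ => exact e1 h

lemma ev_near {α : Type*} {u v : ℂ × ℂ → α} {c : Ch T.m} {p₀ : ℂ × ℂ}
    (h : ∀ᶠ p in 𝓝 p₀, T.Gen c p → u p = v p) :
    ∀ᶠ p in 𝓝 p₀, T.Gen c p → u =ᶠ[𝓝 p] v := by
  filter_upwards [h.eventually_nhds] with p hp hg
  filter_upwards [hp, gen_open c hg] with p' h1 h2 using h1 h2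

variable [Fintype (II U)] {τ₀ τ₁ : ℝ} (P : WPar L y K τ₀ τ₁)

lemma Ψ_wc (c : Ch T.m) (j : Fin T.d) (p : ℂ × ℂ) :
    P.Ψ (wc S c j p) = P.Φ (wc S c j p) + ‖(T.map c p).1‖ ^ 2 := rfl

/-- the linear function of the chart -/
def lin (L : Lab U S) (y : II U → ℝ) (c : Ch T.m) (j : Fin T.d) (p : ℂ × ℂ) : ℝ :=
  yo y (L.e1 c j) * Real.log (‖p.1‖ ^ 2) + yo y (L.e2 c j) * Real.log (‖p.2‖ ^ 2)

/-- the region of strictness -/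
def StC (L : Lab U S) {F : Finset (Ch T.m)} (K : DKill S F) (τ₀ τ₁ : ℝ) (c : Ch T.m)
    (j : Fin T.d) (p : ℂ × ℂ) : Prop :=
  (K.κ = ∅ ∧ ((L.e1 c j ≠ none ∧ (IsV c ∨ τ₀ ≤ ‖p.2‖)) ∨ (L.e2 c j ≠ none ∧ τ₀ ≤ ‖p.1‖))) ∨
  ((c, j) ∈ K.κ ∧ ‖p.1‖ < τ₁ ∧ ‖p.2‖ < τ₁ ∧
    ((L.e1 c j ≠ none ∧ τ₀ ≤ ‖p.2‖) ∨ (L.e2 c j ≠ none ∧ τ₀ ≤ ‖p.1‖)))

/-- **assembly of the local statement** -/
theorem finish {c : Ch T.m} {j : Fin T.d} {p₀ : ℂ × ℂ}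
    (h1 : ∀ᶠ p in 𝓝 p₀, T.Gen c p → ContDiffAt ℝ (⊤ : ℕ∞) (P.Ψ ∘ wc S c j) p ∧
      ∀ w, 0 ≤ lvE (P.Ψ ∘ wc S c j) p w)
    (h2 : ∃ C : ℝ, ∀ᶠ p in 𝓝 p₀, T.Gen c p → P.Ψ (wc S c j p) ≤ lin L y c j p + C)
    (h3 : K.κ = ∅ → ∃ C : ℝ, ∀ᶠ p in 𝓝 p₀, T.Gen c p → lin L y c j p - C ≤ P.Ψ (wc S c j p))
    (h4 : (c, j) ∈ K.κ → ∃ C : ℝ, ∀ᶠ p in 𝓝 p₀, T.Gen c p → ‖p.1‖ < τ₁ → ‖p.2‖ < τ₁ →
      |P.Ψ (wc S c j p) - lin L y c j p -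
        K.t (c, j) * Real.log (‖p.1‖ ^ (2 * K.b (c, j)) + ‖p.2‖ ^ (2 * K.a (c, j)))| ≤ C)
    (h5 : ∃ c₀ > 0, ∀ᶠ p in 𝓝 p₀, T.Gen c p → StC L K τ₀ τ₁ c j p →
      ∀ w : ℂ × ℂ, c₀ * (‖w.1‖ ^ 2 + ‖w.2‖ ^ 2) ≤ lvE (P.Ψ ∘ wc S c j) p w) :
    LocS P c j p₀ := by
  obtain ⟨C2, h2⟩ := h2
  have h3' : ∃ C : ℝ, K.κ = ∅ → ∀ᶠ p in 𝓝 p₀, T.Gen c p →
      lin L y c j p - C ≤ P.Ψ (wc S c j p) := by
    by_cases hk : K.κ = ∅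
    · obtain ⟨C, hC⟩ := h3 hk
      exact ⟨C, fun _ => hC⟩
    · exact ⟨0, fun h => absurd h hk⟩
  have h4' : ∃ C : ℝ, (c, j) ∈ K.κ → ∀ᶠ p in 𝓝 p₀, T.Gen c p → ‖p.1‖ < τ₁ → ‖p.2‖ < τ₁ →
      |P.Ψ (wc S c j p) - lin L y c j p -
        K.t (c, j) * Real.log (‖p.1‖ ^ (2 * K.b (c, j)) + ‖p.2‖ ^ (2 * K.a (c, j)))| ≤ C := by
    by_cases hk : (c, j) ∈ K.κ
    · obtain ⟨C, hC⟩ := h4 hk
      exact ⟨C, fun _ => hC⟩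
    · exact ⟨0, fun h => absurd h hk⟩
  obtain ⟨C3, h3'⟩ := h3'
  obtain ⟨C4, h4'⟩ := h4'
  obtain ⟨c₀, hc₀, h5⟩ := h5
  refine ⟨max C2 (max C3 C4), c₀, hc₀, ?_⟩
  have e3 : ∀ᶠ p in 𝓝 p₀, K.κ = ∅ → T.Gen c p → lin L y c j p - C3 ≤ P.Ψ (wc S c j p) := by
    by_cases hk : K.κ = ∅
    · exact (h3' hk).mono fun p hp _ => hp
    · exact Eventually.of_forall fun p h => absurd h hk
  have e4 : ∀ᶠ p in 𝓝 p₀, (c, j) ∈ K.κ → T.Gen c p → ‖p.1‖ < τ₁ → ‖p.2‖ < τ₁ →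
      |P.Ψ (wc S c j p) - lin L y c j p -
        K.t (c, j) * Real.log (‖p.1‖ ^ (2 * K.b (c, j)) + ‖p.2‖ ^ (2 * K.a (c, j)))| ≤ C4 := by
    by_cases hk : (c, j) ∈ K.κ
    · exact (h4' hk).mono fun p hp _ => hp
    · exact Eventually.of_forall fun p h => absurd h hk
  filter_upwards [h1, h2, e3, e4, h5] with p a1 a2 a3 a4 a5 _ _ hg
  have m2 : C2 ≤ max C2 (max C3 C4) := le_max_left _ _
  have m3 : C3 ≤ max C2 (max C3 C4) := (le_max_left _ _).trans (le_max_right _ _)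
  have m4 : C4 ≤ max C2 (max C3 C4) := (le_max_right _ _).trans (le_max_right _ _)
  exact
    { sm := (a1 hg).1
      psh := (a1 hg).2
      ub := by
        have := a2 hg
        unfold lin at this
        linarith
      lb := fun hk => by
        have := a3 hk hg
        unfold lin at this
        linarith
      kil := fun hk b1 b2 => by
        have := a4 hk hg b1 b2
        unfold lin at this
        rw [sub_add_eq_sub_sub] at this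
        exact this.trans m4
      st1 := fun hk b1 b2 => a5 hg (Or.inl ⟨hk, Or.inl ⟨b1, b2⟩⟩)
      st2 := fun hk b1 b2 => a5 hg (Or.inl ⟨hk, Or.inr ⟨b1, b2⟩⟩)
      ks1 := fun hk b1 b2 b3 b4 => a5 hg (Or.inr ⟨hk, b1, b2, Or.inl ⟨b3, b4⟩⟩)
      ks2 := fun hk b1 b2 b3 b4 => a5 hg (Or.inr ⟨hk, b1, b2, Or.inr ⟨b3, b4⟩⟩) }

variable {v : Vtx} {q₀ : XV U v}

/-- a chart at a point of an axis, seen in the tube chart -/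
structure Ax (D : TC U v q₀) (c : Ch T.m) (j : Fin T.d) (p₀ : ℂ × ℂ) (W : ℂ × ℂ → ℂ) : Prop where
  tend : Tendsto (fun p => ((T.map c p).1, W p)) (𝓝 p₀) (𝓝 ((0 : ℂ), pV U v q₀))
  an : AnalyticAt ℂ W p₀
  tr : ∀ᶠ p in 𝓝 p₀, T.Gen c p → wc S c j p = D.X ((T.map c p).1, W p)

namespace Ax

variable {D : TC U v q₀} {c : Ch T.m} {j : Fin T.d} {p₀ : ℂ × ℂ} {W : ℂ × ℂ → ℂ}
  (A : Ax (S := S) D c j p₀ W)

include A in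
lemma pull {Q : ℂ × ℂ → Prop} (h : ∀ᶠ q in D.Fl, Q q) :
    ∀ᶠ p in 𝓝 p₀, T.Gen c p → Q ((T.map c p).1, W p) := by
  have h' : ∀ᶠ q in 𝓝[{q : ℂ × ℂ | q.1 ≠ 0}] ((0 : ℂ), pV U v q₀), Q q := h
  rw [eventually_nhdsWithin_iff] at h'
  exact (A.tend.eventually h').mono fun p hp hg => hp (map_ne hg)

include A in
/-- smoothness and plurisubharmonicity -/
theorem smpsh (hT : TubeOut P D) : ∀ᶠ p in 𝓝 p₀, T.Gen c p →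
    ContDiffAt ℝ (⊤ : ℕ∞) (P.Ψ ∘ wc S c j) p ∧ ∀ w, 0 ≤ lvE (P.Ψ ∘ wc S c j) p w := by
  have h0 : ∀ᶠ p in 𝓝 p₀, T.Gen c p → (P.Ψ ∘ wc S c j) p =
      (fun p => (P.Φ ∘ D.X) ((T.map c p).1, W p) + ‖(T.map c p).1‖ ^ 2) p := by
    filter_upwards [A.tr] with p hp hg
    show P.Φ (wc S c j p) + ‖(T.map c p).1‖ ^ 2 = _
    rw [hp hg]
    rfl
  filter_upwards [ev_near h0, A.pull hT.sm, A.an.eventually_analyticAt] with p h1 h2 h3 hg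
  obtain ⟨h4, h5⟩ := h2 hg
  have hs : AnalyticAt ℂ (fun p => (T.map c p).1) p := V2_808.s_an c p
  have hg' : AnalyticAt ℂ (fun p => ((T.map c p).1, W p)) p := hs.prod h3
  have two : (2 : WithTop ℕ∞) ≤ ((⊤ : ℕ∞) : WithTop ℕ∞) := by norm_cast
  have k1 : ContDiffAt ℝ (⊤ : ℕ∞) (fun p => (P.Φ ∘ D.X) ((T.map c p).1, W p)) p :=
    ContDiffAt.comp (g := P.Φ ∘ D.X) (f := fun p => ((T.map c p).1, W p)) p h4
      (hg'.contDiffAt.restrict_scalars ℝ)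
  have k2 : ContDiffAt ℝ (⊤ : ℕ∞) (fun p => ‖(T.map c p).1‖ ^ 2) p :=
    Glue2_101.sm_of_hol hs.contDiffAt
  refine ⟨(k1.add k2).congr_of_eventuallyEq (h1 hg), fun w => ?_⟩
  rw [lvE_congr (h1 hg), Glue2_101.lvE_add k1 k2, Glue2_101.lvE_sq hs.contDiffAt]
  have k3 : lvE (fun p => (P.Φ ∘ D.X) ((T.map c p).1, W p)) p w =
      lvE (P.Φ ∘ D.X) ((T.map c p).1, W p)
        (fderiv ℂ (fun p => ((T.map c p).1, W p)) p w) :=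
    lvE_comp (T := fun p => ((T.map c p).1, W p)) (u := P.Φ ∘ D.X)
      (hg'.contDiffAt.of_le two) (h4.of_le two) w
  rw [k3]
  have := h5 (fderiv ℂ (fun p => ((T.map c p).1, W p)) p w)
  positivity

lemma s_tend : Tendsto (fun p => ‖(T.map c p).1‖ ^ 2) (𝓝 p₀) (𝓝 (‖(T.map c p₀).1‖ ^ 2)) :=
  ((V2_808.s_an c p₀).continuousAt.norm.pow 2).tendsto

include A in
lemma s_small : ∀ᶠ p in 𝓝 p₀, ‖(T.map c p).1‖ ^ 2 ≤ 1 := by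
  have h1 : Tendsto (fun p => (T.map c p).1) (𝓝 p₀) (𝓝 0) :=
    (continuous_fst.tendsto _).comp A.tend
  have h2 := h1.norm.pow 2
  rw [norm_zero, zero_pow two_ne_zero] at h2
  exact (h2.eventually_lt_const one_pos).mono fun p hp => hp.le

include A in
/-- upper bound -/
theorem ub (hT : TubeOut P D) : ∃ C : ℝ, ∀ᶠ p in 𝓝 p₀, T.Gen c p →
    P.Ψ (wc S c j p) ≤ y (lab U ⟨v, D.hv⟩ q₀) * Real.log (‖(T.map c p).1‖ ^ 2) + C := by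
  obtain ⟨C, hC⟩ := hT.ub
  refine ⟨C + 1, ?_⟩
  filter_upwards [A.tr, A.pull hC, A.s_small] with p h1 h2 h3 hg
  rw [Ψ_wc, h1 hg]
  have := h2 hg
  linarith

include A in
/-- lower bound -/
theorem lb (hT : TubeOut P D) (hq : q₀ ∉ Kd P v) : ∃ C : ℝ, ∀ᶠ p in 𝓝 p₀, T.Gen c p →
    y (lab U ⟨v, D.hv⟩ q₀) * Real.log (‖(T.map c p).1‖ ^ 2) - C ≤ P.Ψ (wc S c j p) := by
  obtain ⟨C, hC⟩ := hT.lb hq
  refine ⟨C, ?_⟩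
  filter_upwards [A.tr, A.pull hC] with p h1 h2 hg
  rw [Ψ_wc, h1 hg]
  have := h2 hg
  have h3 : 0 ≤ ‖(T.map c p).1‖ ^ 2 := by positivity
  linarith

include A in
/-- **strictness** from `V2` and `TubeOut.nat` -/
theorem strict (hnat : ∀ᶠ q in D.Fl, P.Φ (D.X q) = FV P D q)
    (hV : ∃ c₀ > 0, ∀ᶠ p in 𝓝 p₀, T.Gen c p → ∀ w : ℂ × ℂ, c₀ * (‖w.1‖ ^ 2 + ‖w.2‖ ^ 2) ≤
      lvE (fun p => y (lab U ⟨v, D.hv⟩ q₀) * Real.log (‖(T.map c p).1‖ ^ 2) +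
        (fun w => P.h v (D.σ w)) (W p) + ‖(T.map c p).1‖ ^ 2) p w) :
    ∃ c₀ > 0, ∀ᶠ p in 𝓝 p₀, T.Gen c p →
      ∀ w : ℂ × ℂ, c₀ * (‖w.1‖ ^ 2 + ‖w.2‖ ^ 2) ≤ lvE (P.Ψ ∘ wc S c j) p w := by
  obtain ⟨c₀, hc₀, hV⟩ := hV
  refine ⟨c₀, hc₀, ?_⟩
  have h0 : ∀ᶠ p in 𝓝 p₀, T.Gen c p → (P.Ψ ∘ wc S c j) p =
      (fun p => y (lab U ⟨v, D.hv⟩ q₀) * Real.log (‖(T.map c p).1‖ ^ 2) +
        (fun w => P.h v (D.σ w)) (W p) + ‖(T.map c p).1‖ ^ 2) p := by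
    filter_upwards [A.tr, A.pull hnat] with p h1 h2 hg
    show P.Φ (wc S c j p) + ‖(T.map c p).1‖ ^ 2 = _
    rw [h1 hg, h2 hg]
    rfl
  filter_upwards [ev_near h0, hV] with p h1 h2 hg w
  rw [lvE_congr (h1 hg)]
  exact h2 hg w

end Ax

/-- `log ‖g p‖²` is bounded near a point where `g ≠ 0` -/
lemma log_bdd {g : ℂ × ℂ → ℂ} {p₀ : ℂ × ℂ} (hg : ContinuousAt g p₀) (h0 : g p₀ ≠ 0) (a : ℝ) :
    ∃ C : ℝ, 0 ≤ C ∧ ∀ᶠ p in 𝓝 p₀, |a * Real.log (‖g p‖ ^ 2)| ≤ C := by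
  have h1 : ContinuousAt (fun p => |a * Real.log (‖g p‖ ^ 2)|) p₀ :=
    (continuousAt_const.mul ((hg.norm.pow 2).log
      (pow_ne_zero 2 (norm_ne_zero_iff.2 h0)))).abs
  refine ⟨|a * Real.log (‖g p₀‖ ^ 2)| + 1, by positivity, ?_⟩
  exact (h1.eventually_lt continuousAt_const (by
    show |a * Real.log (‖g p₀‖ ^ 2)| < |a * Real.log (‖g p₀‖ ^ 2)| + 1
    linarith)).mono fun p hp => le_of_lt hp

/-- the kernel of the kill is bounded near a point `≠ 0` -/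
lemma ker_bdd {a b : ℕ} {p₀ : ℂ × ℂ} (h0 : p₀.1 ≠ 0 ∨ p₀.2 ≠ 0) (t : ℝ) :
    ∃ C : ℝ, 0 ≤ C ∧ ∀ᶠ p in 𝓝 p₀, |t * Real.log (‖p.1‖ ^ (2 * b) + ‖p.2‖ ^ (2 * a))| ≤ C := by
  have hpos : 0 < ‖p₀.1‖ ^ (2 * b) + ‖p₀.2‖ ^ (2 * a) := by
    rcases h0 with h | h
    · have := norm_pos_iff.2 h
      positivity
    · have := norm_pos_iff.2 h
      positivity
  have h1 : ContinuousAt (fun p : ℂ × ℂ =>
      |t * Real.log (‖p.1‖ ^ (2 * b) + ‖p.2‖ ^ (2 * a))|) p₀ := by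
    have h2 : ContinuousAt (fun p : ℂ × ℂ => ‖p.1‖ ^ (2 * b) + ‖p.2‖ ^ (2 * a)) p₀ := by fun_prop
    exact (continuousAt_const.mul (h2.log hpos.ne')).abs
  refine ⟨|t * Real.log (‖p₀.1‖ ^ (2 * b) + ‖p₀.2‖ ^ (2 * a))| + 1, by positivity, ?_⟩
  exact (h1.eventually_lt continuousAt_const (by
    show |t * Real.log (‖p₀.1‖ ^ (2 * b) + ‖p₀.2‖ ^ (2 * a))| <
      |t * Real.log (‖p₀.1‖ ^ (2 * b) + ‖p₀.2‖ ^ (2 * a))| + 1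
    linarith)).mono fun p hp => le_of_lt hp

end Crest.Agent.R257.Ta_938
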