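import Mathlib
import Crest.Agent.R257.Ta0_938

/-!
Row 257 (S0395), C-WT, leaf (F4), first axis (helper938): `loc_axis1`.
-/

set_option autoImplicit false
set_option linter.unusedSectionVars false
set_option linter.unusedVariables false

open Polynomial Set Filter Topology Metric
open Crest.AlgGeometry.Germ Crest.Agent.R257.AJ387 Crest.Agent.R257.T387
open Crest.Agent.R257.Gr1_157 Crest.Agent.R257.HoB_843 Crest.Agent.R257.BP_258
open Crest.Agent.R257.Frm_547 Crest.Agent.R257.Lab_931 Crest.Agent.R257.Wt_258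
open Crest.Agent.R257.WtTr_938 Crest.Agent.R257.Ta_938

noncomputable section

namespace Crest.Agent.R257.Ta1_938

variable {f : (Fin 3 → ℂ) → ℂ} {T : TB f} {U : Tub T} {S : Sh T}
variable {L : Lab U S} {y : II U → ℝ} {F : Finset (Ch T.m)} {K : DKill S F}
variable [Fintype (II U)] {τ₀ τ₁ : ℝ} (P : WPar L y K τ₀ τ₁)

/-- killed points are not on the small discs of the killed charts -/
lemma not_Kd1 (hu : Unk K τ₁) {c : Ch T.m} {j : Fin T.d} {v : Vtx} (hvV : v ∈ Vs T)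
    (hv : v1 T c = some v) {b : ℂ} (hk : (c, j) ∈ K.κ) (hb0 : b ≠ 0) (hb : ‖b‖ ≤ τ₁)
    {q₀ : XV U v} (hpr : pV U v q₀ = cx T c + b ^ lx T c) : q₀ ∉ Kd P v := by
  rintro ⟨c', j', k1, k2, k3, k4⟩
  have hok' : Ok S c' := P.hF c' (K.mem _ k1)
  have h2 := (P.end1 c' hok' ⟨v, hvV⟩ k3).1.pr j' 0
    ⟨Or.inl k2, by rw [norm_zero]; exact two_r_pos S c'⟩
  rw [← k4, hpr] at h2
  refine hu.unk1 c j hk v hv b hb0 hb c' j' k1 k2 k3 ?_
  rw [h2]
  have hl : lx T c' = 1 := by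
    cases c' with
    | edge i k k' => exact absurd k2 (by simp [IsV])
    | leg i => exact absurd k2 (by simp [IsV])
    | vert i k w₀ => rfl
  rw [hl, zero_pow one_ne_zero, add_zero]

/-- **the local statement at a point of the first axis** -/
theorem loc_axis1 (hR : RetStmt U) (hτ : 0 < τ₀) (hu : Unk K τ₁) {c : Ch T.m} (hc : c ∈ F)
    (j : Fin T.d) {v : Vtx} (hv : v1 T c = some v) {b : ℂ} (hb : ‖b‖ ≤ S.r c)
    (h0 : IsV c ∨ b ≠ 0)
    (hT : ∀ {v : Vtx} {q₀ : XV U v} (D : TC U v q₀), TubeOut P D) : LocS P c j ((0 : ℂ), b) := by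
  have hok : Ok S c := P.hF c hc
  have hvV : v ∈ Vs T := v1_mem hok.1 hv
  obtain ⟨hγ, hlab⟩ := P.end1 c hok ⟨v, hvV⟩ hv
  have hb' : b ∈ PDv S c := ⟨h0.imp_right norm_pos_iff.2, lt_two_r S hb⟩
  obtain ⟨q₀, hq₀⟩ : ∃ q₀, P.γ1 c v hvV j b = q₀ := ⟨_, rfl⟩
  have hpr : pV U v q₀ = cx T c + b ^ lx T c := by rw [← hq₀]; exact hγ.pr j b hb'
  obtain ⟨D⟩ := exists_TC hR hvV q₀
  have A : Ax (S := S) D c j ((0 : ℂ), b) (W1 c) :=
    ⟨by rw [hpr]; exact tend1 hok hv hb', V2_808.W1_an c b, trans1 hR hok hv hγ hb' j hq₀ D⟩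
  have hO := hT D
  obtain ⟨Y, hY⟩ : ∃ Y, y (lab U ⟨v, D.hv⟩ q₀) = Y := ⟨_, rfl⟩
  have hyo : yo y (L.e1 c j) = Y := by
    rw [hlab j b hb', hq₀, ← hY]; rfl
  -- the two linear functions
  have hΔ : ∃ C : ℝ, 0 ≤ C ∧ ∀ᶠ p in 𝓝 ((0 : ℂ), b), T.Gen c p →
      |Y * Real.log (‖(T.map c p).1‖ ^ 2) - lin L y c j p| ≤ C := by
    by_cases hE : IsE c
    · have hb0 : b ≠ 0 := by
        refine h0.resolve_left fun h => ?_
        cases c with
        | edge i k k' => exact h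
        | leg i => exact h
        | vert i k w₀ => exact hE
      obtain ⟨C, hC0, hC⟩ := log_bdd (g := Prod.snd) (p₀ := ((0 : ℂ), b))
        continuous_snd.continuousAt hb0 (Y - yo y (L.e2 c j))
      refine ⟨C, hC0, hC.mono fun p hp hg => ?_⟩
      rw [map1_E hE, log_mul_sq (gen_fst hg) (gen_snd_E hE hg)]
      unfold lin
      rw [hyo]
      refine le_of_eq_of_le ?_ hp
      congr 1
      ring
    · refine ⟨0, le_rfl, Eventually.of_forall fun p hg => ?_⟩
      rw [map1_nE hE]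
      unfold lin
      rw [hyo, yo_v2 L y hok j (v2_none hE)]
      simp
  obtain ⟨CΔ, hCΔ0, hΔ⟩ := hΔ
  have hub : ∃ C : ℝ, ∀ᶠ p in 𝓝 ((0 : ℂ), b), T.Gen c p →
      P.Ψ (wc S c j p) ≤ lin L y c j p + C := by
    obtain ⟨C, hC⟩ := A.ub P hO
    rw [hY] at hC
    refine ⟨C + CΔ, ?_⟩
    filter_upwards [hC, hΔ] with p h1 h2 hg
    have a1 := h1 hg
    have a2 := abs_le.1 (h2 hg)
    linarith [a2.2]
  have hlb : q₀ ∉ Kd P v → ∃ C : ℝ, ∀ᶠ p in 𝓝 ((0 : ℂ), b), T.Gen c p →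
      lin L y c j p - C ≤ P.Ψ (wc S c j p) := by
    intro hq
    obtain ⟨C, hC⟩ := A.lb P hO hq
    rw [hY] at hC
    refine ⟨C + CΔ, ?_⟩
    filter_upwards [hC, hΔ] with p h1 h2 hg
    have a1 := h1 hg
    have a2 := abs_le.1 (h2 hg)
    linarith [a2.1]
  refine finish P (A.smpsh P hO) hub (fun hk => hlb ?_) (fun hk => ?_) ?_
  · rintro ⟨c', j', k1, -⟩
    rw [hk] at k1
    exact k1
  · -- the kill estimate
    by_cases hb0 : b = 0
    · have hV : IsV c := h0.resolve_right fun h => h hb0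
      have hKd : q₀ ∈ Kd P v := ⟨c, j, hk, hV, hv, by rw [← hq₀, hb0]⟩
      have hEs : Es K c j := ⟨hok, fun _ => hk⟩
      have hzn : ∀ᶠ p in 𝓝 ((0 : ℂ), b), T.Gen c p → p ∈ zn S P.τ c := by
        have z1 : 0 < ta S P.τ c := by
          unfold ta
          split_ifs
          · exact S.pos c
          · exact P.τ_pos
        have z2 : 0 < tb S P.τ c := by
          unfold tb
          split_ifs
          · exact S.pos c
          · exact P.τ_pos
        have c1 : ∀ᶠ p : ℂ × ℂ in 𝓝 ((0 : ℂ), b), ‖p.1‖ < ta S P.τ c :=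
          (continuous_fst.norm.tendsto ((0 : ℂ), b)).eventually_lt_const (by simpa using z1)
        have c2 : ∀ᶠ p : ℂ × ℂ in 𝓝 ((0 : ℂ), b), ‖p.2‖ < tb S P.τ c :=
          (continuous_snd.norm.tendsto ((0 : ℂ), b)).eventually_lt_const
            (by simpa [hb0] using z2)
        filter_upwards [c1, c2] with p h1 h2 hg using ⟨h1, h2, hg⟩
      refine ⟨1 + |P.B|, ?_⟩
      filter_upwards [A.tr, A.pull (hO.kil hKd), hzn, A.s_small] with p h1 h2 h3 h4 hg _ _
      have e1 : P.Φ (wc S c j p) = EL L y K c j p - P.B := by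
        have := h2 hg (EL L y K c j p - P.B) ⟨c, j, p, hEs, h3 hg, h1 hg, rfl⟩
        rw [← h1 hg] at this
        exact this
      have e2 : EL L y K c j p = lin L y c j p +
          K.t (c, j) * Real.log (‖p.1‖ ^ (2 * K.b (c, j)) + ‖p.2‖ ^ (2 * K.a (c, j))) := by
        unfold EL lin tt
        rw [if_pos hk]
      rw [Ψ_wc, e1, e2]
      have e3 : lin L y c j p +
          K.t (c, j) * Real.log (‖p.1‖ ^ (2 * K.b (c, j)) + ‖p.2‖ ^ (2 * K.a (c, j))) - P.B +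
          ‖(T.map c p).1‖ ^ 2 - lin L y c j p -
          K.t (c, j) * Real.log (‖p.1‖ ^ (2 * K.b (c, j)) + ‖p.2‖ ^ (2 * K.a (c, j))) =
          ‖(T.map c p).1‖ ^ 2 - P.B := by ring
      rw [e3]
      refine (abs_sub _ _).trans (add_le_add ?_ le_rfl)
      rw [abs_of_nonneg (by positivity)]
      exact h4
    · by_cases hbτ : ‖b‖ ≤ τ₁
      · have hq : q₀ ∉ Kd P v := not_Kd1 P hu hvV hv hk hb0 hbτ hpr
        obtain ⟨C1, hC1⟩ := hub
        obtain ⟨C2, hC2⟩ := hlb hq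
        obtain ⟨C3, hC30, hC3⟩ := ker_bdd (a := K.a (c, j)) (b := K.b (c, j))
          (p₀ := ((0 : ℂ), b)) (Or.inr hb0) (K.t (c, j))
        refine ⟨|C1| + |C2| + C3, ?_⟩
        filter_upwards [hC1, hC2, hC3] with p h1 h2 h3 hg _ _
        have a1 := h1 hg
        have a2 := h2 hg
        have a3 := abs_le.1 h3
        have b1 := le_abs_self C1
        have b2 := le_abs_self C2
        have b3 := abs_nonneg C1
        have b4 := abs_nonneg C2
        rw [abs_le]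
        constructor <;> linarith [a3.1, a3.2]
      · refine ⟨0, ?_⟩
        have h1 : ∀ᶠ p : ℂ × ℂ in 𝓝 ((0 : ℂ), b), τ₁ < ‖p.2‖ :=
          (continuous_snd.norm.tendsto ((0 : ℂ), b)).eventually_const_lt (not_le.1 hbτ)
        filter_upwards [h1] with p hp _ _ h2
        exact absurd h2 (not_lt.2 hp.le)
  · -- strictness
    by_cases hg : (K.κ = ∅ ∧ (IsV c ∨ τ₀ ≤ ‖b‖)) ∨ ((c, j) ∈ K.κ ∧ τ₀ ≤ ‖b‖ ∧ ‖b‖ ≤ τ₁)
    · have hs := P.str1 c hc j v hv b hb hg
      have hq : q₀ ∉ Kd P v := by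
        rcases hg with ⟨hk, -⟩ | ⟨hk, h1, h2⟩
        · rintro ⟨c', j', k1, -⟩
          rw [hk] at k1
          exact k1
        · exact not_Kd1 P hu hvV hv hk (norm_pos_iff.1 (hτ.trans_le h1)) h2 hpr
      have hnat := hO.nat
        (fun c' j' hE' hv' b' hb1 hb2 he => by
          have hok' := hE'.1
          have hp' := (P.end1 c' hok' ⟨v, hvV⟩ hv').1.pr j' b' ⟨hb2.imp_right norm_pos_iff.2, by
            have := P.τ_r c' j' hE'
            have := S.pos c'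
            linarith⟩
          rw [he, hpr] at hp'
          exact hs.1 c' j' hE' hv' b' hb1.le hp')
        (fun c' j' hE' hv' a' ha1 ha2 he => by
          have hok' := hE'.1
          have hp' := (P.end2 c' hok' ⟨v, hvV⟩ hv').1.pr j' a' ⟨norm_pos_iff.2 ha2, by
            have := P.τ_r c' j' hE'
            have := S.pos c'
            linarith⟩
          rw [he, hpr] at hp'
          exact hs.2 c' j' hE' hv' a' ha2 ha1.le hp')
      have hσ0 := (hσ P D hq).self_of_nhds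
      rw [hpr] at hσ0
      obtain ⟨c₀, hc₀, h⟩ := A.strict P hnat
        (V2_808.strict1 hok hv hb h0 (H := fun w => P.h v (D.σ w)) hσ0.1 hσ0.2
          (y (lab U ⟨v, D.hv⟩ q₀)))
      exact ⟨c₀, hc₀, h.mono fun p hp hg' _ => hp hg'⟩
    · refine ⟨1, one_pos, ?_⟩
      have e1 : ∀ᶠ p : ℂ × ℂ in 𝓝 ((0 : ℂ), b), ‖p.1‖ < τ₀ :=
        (continuous_fst.norm.tendsto ((0 : ℂ), b)).eventually_lt_const (by simpa using hτ)
      have e2 : ∀ᶠ p : ℂ × ℂ in 𝓝 ((0 : ℂ), b), ‖b‖ < τ₀ → ‖p.2‖ < τ₀ := by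
        by_cases h : ‖b‖ < τ₀
        · exact ((continuous_snd.norm.tendsto ((0 : ℂ), b)).eventually_lt_const h).mono
            fun p hp _ => hp
        · exact Eventually.of_forall fun p h' => absurd h' h
      have e3 : ∀ᶠ p : ℂ × ℂ in 𝓝 ((0 : ℂ), b), τ₁ < ‖b‖ → τ₁ < ‖p.2‖ := by
        by_cases h : τ₁ < ‖b‖
        · exact ((continuous_snd.norm.tendsto ((0 : ℂ), b)).eventually_const_lt h).mono
            fun p hp _ => hp
        · exact Eventually.of_forall fun p h' => absurd h' h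
      filter_upwards [e1, e2, e3] with p h1 h2 h3 _ hSt
      exfalso
      have k1 : τ₀ ≤ ‖p.2‖ → τ₀ ≤ ‖b‖ := fun h => by
        by_contra hn
        exact absurd (h2 (not_le.1 hn)) (not_lt.2 h)
      have k2 : ‖p.2‖ < τ₁ → ‖b‖ ≤ τ₁ := fun h => by
        by_contra hn
        exact absurd (h3 (not_le.1 hn)) (not_lt.2 h.le)
      apply hg
      rcases hSt with ⟨hk, ⟨-, h⟩ | ⟨-, h⟩⟩ | ⟨hk, -, h4, ⟨-, h⟩ | ⟨-, h⟩⟩
      · exact Or.inl ⟨hk, h.imp_right k1⟩
      · exact absurd h1 (not_lt.2 h)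
      · exact Or.inr ⟨hk, k1 h, k2 h4⟩
      · exact absurd h1 (not_lt.2 h)

end Crest.Agent.R257.Ta1_938
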