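import Crest.Agent.R257.Ta2_980
import Crest.Agent.R257.V2_808

/-!
# Row 257 (S0395), C-WT, leaf (F4) (helper980): `loc_axis2`
-/

set_option autoImplicit false
set_option linter.unusedSectionVars false
set_option linter.unusedVariables false

open Polynomial Set Filter Topology Metric
open Crest.AlgGeometry.Germ Crest.Agent.R257.AJ387 Crest.Agent.R257.T387
open Crest.Agent.R257.Gr1_157 Crest.Agent.R257.HoB_843 Crest.Agent.R257.BP_258
open Crest.Agent.R257.Frm_547 Crest.Agent.R257.Lab_931 Crest.Agent.R257.Wt_258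

noncomputable section

namespace Crest.Agent.R257.Ta2_980

variable {f : (Fin 3 → ℂ) → ℂ} {T : TB f} {U : Tub T} {S : Sh T}
variable {L : Lab U S} {y : II U → ℝ} {F : Finset (Ch T.m)} {K : DKill S F}
variable [Fintype (II U)] {τ₀ τ₁ : ℝ}

theorem strict2 : Strict2 S := fun hc _ hv _ ha h0 _ hH hp Y =>
  V2_808.strict2 hc hv ha h0 hH hp Y

/-- **the second axis** -/
theorem loc_axis2 (P : WPar L y K τ₀ τ₁) (hR : RetStmt U) (hτ : 0 < τ₀) (hu : Unk K τ₁)
    {c : Ch T.m} (hc : c ∈ F) (j : Fin T.d) {v : Vtx} (hv : v2 T c = some v) {a : ℂ}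
    (ha : ‖a‖ ≤ S.r c) (h0 : a ≠ 0)
    (hT : ∀ {v : Vtx} {q₀ : XV U v} (D : TC U v q₀), TubeOut P D) : LocS P c j (a, 0) :=
  loc_axis2_of P strict2 hR hτ hu hc j hv ha h0 hT

end Crest.Agent.R257.Ta2_980
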