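import Mathlib
import Crest.Agent.R257.Wt3_258
import Crest.Agent.R257.Sep_547
import Crest.Agent.R257.LwD_89

/-!
Row 257 (S0395), C-WT-COR (helper547): the weight at the corners and on the top curve.

* `kinds`    : a sheet of a canonical chart tends to a point of type V, to the origin of a chart or
               to the top curve;
* `KV_OT`, `KV_KT`, `OT_KT`, `top_unique` : the kinds exclude each other;
* `el_val`   : the edge function depends only on the point;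
* `corner`   : near a corner or a point of the top curve, `Φ` is the edge function.
-/

set_option autoImplicit false
set_option linter.unusedSectionVars false

open Polynomial Set Filter Topology Metric
open Crest.AlgGeometry.Germ Crest.Agent.R257.AJ387 Crest.Agent.R257.T387
open Crest.Agent.R257.Gr1_157 Crest.Agent.R257.HoB_843 Crest.Agent.R257.BP_258
open Crest.Agent.R257.Frm_547 Crest.Agent.R257.Lab_931 Crest.Agent.R257.Wt_258
open Crest.Agent.R257.FrmF_547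
open Crest.Agent.R257.Typ_201 (TV TL TN)

noncomputable section

namespace Crest.Agent.R257.Cor_547

variable {f : (Fin 3 → ℂ) → ℂ} {T : TB f} {U : Tub T} {S : Sh T}

variable (T) in
/-- kind V -/
def KV (l : Filter (ℂ × ℂ)) : Prop :=
  ∃ v ∈ Vs T, ∃ w, w ∉ sp T v ∧ Tendsto (wv T v) l (𝓝 w)

/-- kind top -/
def KT (l : Filter (ℂ × ℂ)) : Prop := ∃ y : ℂ, y ≠ 0 ∧ Tendsto (Prod.snd : ℂ × ℂ → ℂ) l (𝓝 y)

section excl

variable {l : Filter (ℂ × ℂ)} (h0 : Tendsto Prod.fst l (𝓝 0)) (h1 : ∀ᶠ q in l, q.1 ≠ 0)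

include h0 h1 in
lemma KV_OT [l.NeBot] (h : KV T l) {c : Ch T.m} (hV : ¬ IsV c) (h' : Sep_547.OT c l) : False := by
  obtain ⟨v, hv, w, hw, ht⟩ := h
  cases c with
  | edge i k k' => exact not_node h0 h1 hv ht hw h'
  | leg i => exact not_leg h0 h1 hv ht hw h'
  | vert i k w₀ => exact hV trivial

include h0 h1 in
lemma KV_KT [l.NeBot] (h : KV T l) (h' : KT l) : False := by
  obtain ⟨v, hv, w, hw, ht⟩ := h
  obtain ⟨y, hy, hy'⟩ := h'
  exact hy (tendsto_nhds_unique hy' (v_snd_zero h0 h1 hv ht hw))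

include h0 h1 in
lemma OT_KT [l.NeBot] {c : Ch T.m} (hV : ¬ IsV c) (h : Sep_547.OT c l) (h' : KT l) : False := by
  obtain ⟨y, hy, hy'⟩ := h'
  cases c with
  | edge i k k' => exact hy (tendsto_nhds_unique hy' (snd_zero h0 h1 h.2.1 (Or.inr rfl)))
  | leg i => exact hy (tendsto_nhds_unique hy' (snd_zero h0 h1 h (Or.inr rfl)))
  | vert i k w₀ => exact hV trivial

end excl

lemma v1_none {c : Ch T.m} (h : v1 T c = none) : ∃ i k', c = .edge i 0 k' := by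
  cases c with
  | edge i k k' =>
    simp only [v1] at h
    split_ifs at h with hk
    exact ⟨i, k', by rw [hk]⟩
  | leg i => simp [v1] at h
  | vert i k w₀ => simp [v1] at h

lemma top_unique {c c' : Ch T.m} (hc : Ok S c) (hc' : Ok S c') (h : v1 T c = none)
    (h' : v1 T c' = none) : c = c' := by
  obtain ⟨i, k, rfl⟩ := v1_none h
  obtain ⟨i', k', rfl⟩ := v1_none h'
  have e : ∀ {i : Fin T.m} {k : ℕ}, T.Cons i 0 k → k = 1 := by
    intro i k hk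
    have h1 := hk.2.2.1
    have h2 := hk.2.2.2 1 (T.one_mem_lev i)
    omega
  obtain rfl := e hc.1
  obtain rfl := e hc'.1
  obtain ⟨v, hv, e1⟩ := ok_edge hc
  obtain ⟨v', hv', e1'⟩ := ok_edge hc'
  simp only [ec, Ch.edge.injEq] at e1 e1'
  obtain ⟨rfl, -, e2⟩ := e1
  obtain ⟨rfl, -, e2'⟩ := e1'
  have h3 : v = v' := Sep_547.ci_unique (S := S) hv hv' (e2 ▸ e2' ▸ rfl) (by
    rw [← e2]
    exact Or.inr (T.del_pos _ _))
  rw [h3]

lemma top_snd {c : Ch T.m} (h : v1 T c = none) {p : ℂ × ℂ} (h1 : p.1 = 0) (h2 : p.2 ≠ 0) :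
    (T.map c p).2 ≠ 0 := by
  obtain ⟨i, k', rfl⟩ := v1_none h
  simp only [TB.map, h1, zero_mul, zero_pow T.M_pos.ne', T.φ_zero, mul_zero, pow_zero, one_mul,
    zero_add]
  exact pow_ne_zero _ h2

lemma cont_at {c : Ch T.m} (hc : T.Valid c) {p₀ : ℂ × ℂ} (h1 : ‖p₀.1‖ ≤ S.r c)
    (h2 : ‖p₀.2‖ ≤ S.r c) : ContinuousAt (T.map c) p₀ :=
  (map_cont S hc).continuousAt ((isOpen_BD _ _).mem_nhds ⟨lt_two_r S h1, lt_two_r S h2⟩)

/-- **the kinds** -/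
theorem kinds {c : Ch T.m} (hc : T.Valid c) (𝒰 : Ultrafilter (ℂ × ℂ))
    (hb : ∀ᶠ p in (𝒰 : Filter (ℂ × ℂ)), ‖p.1‖ ≤ S.r c ∧ ‖p.2‖ ≤ S.r c ∧ T.Gen c p)
    (hs : Tendsto (fun p => (T.map c p).1) (𝒰 : Filter (ℂ × ℂ)) (𝓝 0)) :
    KV T (Filter.map (T.map c) 𝒰) ∨ (¬ IsV c ∧ Sep_547.OT c (Filter.map (T.map c) 𝒰)) ∨
      (v1 T c = none ∧ KT (Filter.map (T.map c) 𝒰)) := by
  have hK : IsCompact (closedBall (0 : ℂ) (S.r c) ×ˢ closedBall (0 : ℂ) (S.r c)) :=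
    (isCompact_closedBall _ _).prod (isCompact_closedBall _ _)
  obtain ⟨ps, hps, hle⟩ := hK.ultrafilter_le_nhds 𝒰 (by
    rw [le_principal_iff]
    filter_upwards [hb] with p hp
    exact ⟨mem_closedBall_zero_iff.2 hp.1, mem_closedBall_zero_iff.2 hp.2.1⟩)
  have hp1 : ‖ps.1‖ ≤ S.r c := mem_closedBall_zero_iff.1 hps.1
  have hp2 : ‖ps.2‖ ≤ S.r c := mem_closedBall_zero_iff.1 hps.2
  have hBD : ps ∈ BD (2 * S.r c) (2 * S.r c) := ⟨lt_two_r S hp1, lt_two_r S hp2⟩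
  have hBDn : BD (2 * S.r c) (2 * S.r c) ∈ 𝓝 ps := (isOpen_BD _ _).mem_nhds hBD
  have hmc : ContinuousAt (T.map c) ps := cont_at hc hp1 hp2
  have hs0 : (T.map c ps).1 = 0 :=
    tendsto_nhds_unique ((hmc.fst.tendsto).mono_left hle) hs
  have axis1 : ∀ {v' : Vtx}, v1 T c = some v' → ps.1 = 0 → (IsV c ∨ ps.2 ≠ 0) →
      KV T (Filter.map (T.map c) 𝒰) := by
    intro v' hv' h10 h20
    have e : ps = (0, ps.2) := Prod.ext h10 rfl
    refine ⟨v', v1_mem hc hv', W1 c (0, ps.2), W1_zero S hc hv' hp2 h20, ?_⟩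
    rw [tendsto_map'_iff]
    have h2 : Tendsto (W1 c) (𝒰 : Filter (ℂ × ℂ)) (𝓝 (W1 c ps)) :=
      ((W1_cont S hc).continuousAt hBDn).tendsto.mono_left hle
    rw [e] at h2
    refine h2.congr' ?_
    filter_upwards [hb] with p hp
    exact (W1_eq hc hv' hp.2.2).symm
  have axis2 : ∀ {v' : Vtx}, v2 T c = some v' → ps.2 = 0 → ps.1 ≠ 0 →
      KV T (Filter.map (T.map c) 𝒰) := by
    intro v' hv' h20 h10
    have e : ps = (ps.1, 0) := Prod.ext rfl h20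
    refine ⟨v', v2_mem hc hv', W2 c (ps.1, 0), W2_zero S hc hv' hp1 h10, ?_⟩
    rw [tendsto_map'_iff]
    have h2 : Tendsto (W2 c) (𝒰 : Filter (ℂ × ℂ)) (𝓝 (W2 c ps)) := by
      refine ((W2_cont S hc).continuousAt ?_).tendsto.mono_left hle
      exact Filter.inter_mem hBDn ((isOpen_ne_fun continuous_fst continuous_const).mem_nhds h10)
    rw [e] at h2
    refine h2.congr' ?_
    filter_upwards [hb] with p hp
    exact (W2_eq hc hv' hp.2.2).symm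
  have orig : ps.1 = 0 → ps.2 = 0 → Sep_547.OT c (Filter.map (T.map c) 𝒰) := by
    intro h10 h20
    have e : ps = 0 := Prod.ext h10 h20
    exact Sep_547.origin_type hc (e ▸ hle) (hb.mono fun p hp => hp.2.2)
  cases c with
  | vert i k w₀ => exact Or.inl (axis1 (v' := vx T i k) rfl hs0 (Or.inl trivial))
  | leg i =>
    have h10 : ps.1 = 0 := hs0
    by_cases h20 : ps.2 = 0
    · exact Or.inr (Or.inl ⟨id, orig h10 h20⟩)
    · exact Or.inl (axis1 (v' := vx T i (T.top i)) rfl h10 (Or.inr h20))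
  | edge i k k' =>
    have hs0' : ps.1 * ps.2 = 0 := hs0
    by_cases h10 : ps.1 = 0
    · by_cases h20 : ps.2 = 0
      · exact Or.inr (Or.inl ⟨id, orig h10 h20⟩)
      · by_cases hk0 : k = 0
        · refine Or.inr (Or.inr ⟨by simp [v1, hk0], (T.map (.edge i k k') ps).2,
            top_snd (by simp [v1, hk0]) h10 h20, ?_⟩)
          rw [tendsto_map'_iff]
          exact hmc.snd.tendsto.mono_left hle
        · exact Or.inl (axis1 (v' := vx T i k) (by simp [v1, hk0]) h10 (Or.inr h20))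
    · have h20 : ps.2 = 0 := (mul_eq_zero.1 hs0').resolve_left h10
      exact Or.inl (axis2 (v' := vx T i k') rfl h20 h10)

/-- the kind of the given point -/
theorem mine {c : Ch T.m} (hc : T.Valid c) {p₀ : ℂ × ℂ}
    (h : (p₀ = 0 ∧ ¬ IsV c) ∨ (v1 T c = none ∧ p₀.1 = 0 ∧ ‖p₀.2‖ ≤ S.r c)) {m : Filter (ℂ × ℂ)}
    (hm : m ≤ 𝓝 p₀) (hg : ∀ᶠ p in m, T.Gen c p) :
    (¬ IsV c ∧ Sep_547.OT c (Filter.map (T.map c) m)) ∨
      (v1 T c = none ∧ KT (Filter.map (T.map c) m)) := by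
  rcases h with ⟨rfl, hV⟩ | ⟨h1, h2, h3⟩
  · exact Or.inl ⟨hV, Sep_547.origin_type hc hm hg⟩
  · by_cases h4 : p₀.2 = 0
    · have e : p₀ = 0 := Prod.ext h2 h4
      subst e
      refine Or.inl ⟨?_, Sep_547.origin_type hc hm hg⟩
      obtain ⟨i, k', rfl⟩ := v1_none h1
      exact id
    · refine Or.inr ⟨h1, (T.map c p₀).2, top_snd h1 h2 h4, ?_⟩
      rw [tendsto_map'_iff]
      have h5 : ‖p₀.1‖ ≤ S.r c := by rw [h2, norm_zero]; exact (S.pos c).le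
      exact (cont_at hc h5 h3).snd.tendsto.mono_left hm

lemma fst_zero {c : Ch T.m} {p₀ : ℂ × ℂ}
    (h : (p₀ = 0 ∧ ¬ IsV c) ∨ (v1 T c = none ∧ p₀.1 = 0 ∧ ‖p₀.2‖ ≤ S.r c)) :
    p₀.1 = 0 ∧ ‖p₀.2‖ ≤ S.r c := by
  rcases h with ⟨rfl, -⟩ | h
  · exact ⟨rfl, by simpa using (S.pos c).le⟩
  · exact h.2

lemma map_fst_zero (c : Ch T.m) {p : ℂ × ℂ} (h : p.1 = 0) : (T.map c p).1 = 0 := by
  cases c <;> simp [TB.map, h]

/-! ### the charts -/

variable (S) in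
/-- the canonical charts which are no vertex charts or in `F` -/
def CS (F : Finset (Ch T.m)) : Set (Ch T.m) := {c | Ok S c ∧ (IsV c → c ∈ F)}

lemma finite_CS (F : Finset (Ch T.m)) : (CS S F).Finite := by
  refine Set.Finite.subset ((((Vs T).finite_toSet.image (ec S)).union
    (Set.finite_range (Ch.leg (m := T.m)))).union F.finite_toSet) ?_
  intro c hc
  cases c with
  | edge i k k' =>
    obtain ⟨v, hv, e⟩ := ok_edge hc.1
    exact Or.inl (Or.inl ⟨v, hv, e.symm⟩)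
  | leg i => exact Or.inl (Or.inr ⟨i, rfl⟩)
  | vert i k w => exact Or.inr (hc.2 trivial)

/-! ### the edge function -/

variable {L : Lab U S} [Fintype (II U)] {y : II U → ℝ} {F : Finset (Ch T.m)} {K : DKill S F}
  {τ₀ τ₁ : ℝ}

lemma gen_smul {c : Ch T.m} {p : ℂ × ℂ} (h : T.Gen c p) {t : ℂ} (ht : t ≠ 0) :
    T.Gen c (t • p) := by
  cases c with
  | edge i k k' => exact ⟨mul_ne_zero ht h.1, mul_ne_zero ht h.2⟩
  | leg i => exact ⟨mul_ne_zero ht h.1, mul_ne_zero ht h.2⟩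
  | vert i k w => exact mul_ne_zero ht h

/-- kills are invariant under the coincidences of a chart -/
theorem kill_val (K : DKill S F) {c : Ch T.m} (hc : Ok S c) {j j' : Fin T.d} {p p' : ℂ × ℂ}
    (hp : p ∈ BD (2 * S.r c) (2 * S.r c)) (hg : T.Gen c p) (hg' : T.Gen c p')
    (h : wc S c j p = wc S c j' p') (hκ : (c, j) ∈ K.κ) :
    (c, j') ∈ K.κ ∧ K.t (c, j') = K.t (c, j) ∧ K.a (c, j') = K.a (c, j) ∧
      K.b (c, j') = K.b (c, j) := by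
  obtain ⟨r, hr, hex⟩ := K.ex
  obtain ⟨e1, e2, -, hray⟩ := LwD_89.pers hc hp hg h
  set N : ℝ := max ‖p.1‖ ‖p.2‖ with hN
  have hN0 : 0 ≤ N := (norm_nonneg _).trans (le_max_left _ _)
  set t : ℝ := min 1 (r / (N + 1) / 2) with ht
  have ht0 : 0 < t := lt_min one_pos (by positivity)
  have ht1 : t ≤ 1 := min_le_left _ _
  have htN : ∀ x : ℝ, 0 ≤ x → x ≤ N → t * x < r := by
    intro x hx0 hx
    have h2 : t * x ≤ r / (N + 1) / 2 * N :=
      mul_le_mul (min_le_right _ _) hx hx0 (by positivity)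
    have h3 : r / (N + 1) / 2 * N < r := by
      have : r / (N + 1) * (N + 1) = r := div_mul_cancel₀ _ (by positivity)
      have h4 : 0 < r / (N + 1) := by positivity
      nlinarith
    linarith
  have hnorm : ∀ q : ℂ × ℂ, ‖q.1‖ ≤ N → ‖q.2‖ ≤ N → (t : ℂ) • q ∈ BD r r := by
    intro q h2 h3
    refine ⟨?_, ?_⟩
    · rw [Prod.smul_fst, norm_smul, Complex.norm_real, Real.norm_of_nonneg ht0.le]
      exact htN _ (norm_nonneg _) h2
    · rw [Prod.smul_snd, norm_smul, Complex.norm_real, Real.norm_of_nonneg ht0.le]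
      exact htN _ (norm_nonneg _) h3
  have htc : (t : ℂ) ≠ 0 := by exact_mod_cast ht0.ne'
  have := hex (c, j) hκ c (Or.inl rfl) j' ((t : ℂ) • p) ((t : ℂ) • p')
    (hnorm p (le_max_left _ _) (le_max_right _ _))
    (hnorm p' (e1 ▸ le_max_left _ _) (e2 ▸ le_max_right _ _))
    (gen_smul hg htc) (gen_smul hg' htc) (hray t ht0.le ht1)
  exact this.2

/-- **the edge function depends only on the point** -/
theorem el_val {c : Ch T.m} (hc : Ok S c) {j j' : Fin T.d} {p p' : ℂ × ℂ}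
    (hp : p ∈ BD (2 * S.r c) (2 * S.r c)) (hp' : p' ∈ BD (2 * S.r c) (2 * S.r c))
    (hg : T.Gen c p) (hg' : T.Gen c p') (h : wc S c j p = wc S c j' p') :
    EL L y K c j p = EL L y K c j' p' := by
  obtain ⟨e1, e2, -, -⟩ := LwD_89.pers hc hp hg h
  obtain ⟨l1, l2⟩ := LwD_89.labWD L c hc j j' p p' hp hp' hg hg' h
  unfold EL
  rw [e1, e2, l1, l2]
  congr 1
  by_cases hκ : (c, j) ∈ K.κ
  · obtain ⟨k1, k2, k3, k4⟩ := kill_val K hc hp hg hg' h hκ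
    unfold tt
    rw [if_pos hκ, if_pos k1, k2, k3, k4]
  · have hκ' : (c, j') ∉ K.κ := fun hκ' => hκ (kill_val K hc hp' hg' hg h.symm hκ').1
    unfold tt
    rw [if_neg hκ, if_neg hκ', zero_mul, zero_mul]

/-! ### the corners -/

lemma zn_le (P : WPar L y K τ₀ τ₁) {c : Ch T.m} {j : Fin T.d} (hE : Es K c j) {p : ℂ × ℂ}
    (hp : p ∈ zn S P.τ c) : ‖p.1‖ ≤ S.r c ∧ ‖p.2‖ ≤ S.r c ∧ T.Gen c p := by
  have hτ := P.τ_r c j hE
  refine ⟨hp.1.le.trans ?_, hp.2.1.le.trans ?_, hp.2.2⟩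
  · unfold ta; split_ifs
    · exact le_rfl
    · exact hτ.le
  · unfold tb; split_ifs
    · exact le_rfl
    · exact hτ.le

/-- the common data of a contradiction at a corner -/
lemma data {c : Ch T.m} (hc : T.Valid c) {p₀ : ℂ × ℂ}
    (h : (p₀ = 0 ∧ ¬ IsV c) ∨ (v1 T c = none ∧ p₀.1 = 0 ∧ ‖p₀.2‖ ≤ S.r c)) {m : Filter (ℂ × ℂ)}
    (hm : m ≤ 𝓝 p₀) (hg : ∀ᶠ p in m, T.Gen c p) :
    Tendsto Prod.fst (Filter.map (T.map c) m) (𝓝 0) ∧
      ∀ᶠ q in Filter.map (T.map c) m, q.1 ≠ 0 := by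
  obtain ⟨h1, h2⟩ := fst_zero h
  refine ⟨?_, ?_⟩
  · rw [tendsto_map'_iff]
    have h5 : ‖p₀.1‖ ≤ S.r c := by rw [h1, norm_zero]; exact (S.pos c).le
    have := (cont_at hc h5 h2).fst.tendsto.mono_left hm
    rwa [map_fst_zero c h1] at this
  · rw [eventually_map]
    exact hg.mono fun p hp => map_ne hp

/-- (1) no value of a vertex function -/
theorem no_RV (P : WPar L y K τ₀ τ₁) {c : Ch T.m} {j : Fin T.d} (hE : Es K c j)
    {p₀ : ℂ × ℂ}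
    (h : (p₀ = 0 ∧ ¬ IsV c) ∨ (v1 T c = none ∧ p₀.1 = 0 ∧ ‖p₀.2‖ ≤ S.r c)) :
    ∀ᶠ p in 𝓝 p₀, p ∈ zn S P.τ c → ∀ a, ¬ P.RV (wc S c j p) a := by
  by_contra hcon
  set A : Set (ℂ × ℂ) := {p | p ∈ zn S P.τ c ∧ ∃ a, P.RV (wc S c j p) a} with hA
  have hfr : ∃ᶠ p in 𝓝 p₀, p ∈ A := by
    intro hA'
    refine hcon ?_
    filter_upwards [hA'] with p hp hz a ha
    exact hp ⟨hz, a, ha⟩
  have hne : (𝓝 p₀ ⊓ 𝓟 A).NeBot := Filter.frequently_mem_iff_neBot.1 hfr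
  obtain ⟨𝒰, h𝒰⟩ := Ultrafilter.exists_le (𝓝 p₀ ⊓ 𝓟 A)
  have hU1 : (𝒰 : Filter (ℂ × ℂ)) ≤ 𝓝 p₀ := h𝒰.trans inf_le_left
  have hU2 : A ∈ (𝒰 : Filter (ℂ × ℂ)) := h𝒰 (mem_inf_of_right (mem_principal_self _))
  have hg : ∀ᶠ p in (𝒰 : Filter (ℂ × ℂ)), T.Gen c p := by
    filter_upwards [hU2] with p hp
    exact hp.1.2.2
  -- the vertex
  have hv : ∃ v ∈ (Vs T : Set Vtx), {p | ∃ q, IsRet U v (wc S c j p) q ∧
      q ∈ Om K P.γ1 P.κ v} ∈ 𝒰 := by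
    rw [← Ultrafilter.finite_biUnion_mem_iff (Vs T).finite_toSet]
    refine Filter.mem_of_superset (f := (𝒰 : Filter (ℂ × ℂ))) hU2 ?_
    rintro p ⟨-, a, v, q, hq, hq', -⟩
    exact mem_biUnion v.2 ⟨q, hq, hq'⟩
  obtain ⟨v, hv, hev⟩ := hv
  obtain ⟨d1, d2⟩ := data hE.1.1 h hU1 hg
  have lne : (Filter.map (T.map c) (𝒰 : Filter (ℂ × ℂ))).NeBot := by infer_instance
  have hKV : KV T (Filter.map (T.map c) (𝒰 : Filter (ℂ × ℂ))) := by
    have hcomp : IsCompact (closedBall (0 : ℂ) P.κ⁻¹ ∩ ⋂ c' ∈ sp T v, {w : ℂ | P.κ ≤ ‖w - c'‖}) := by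
      refine (isCompact_closedBall _ _).inter_right ?_
      refine isClosed_biInter fun c' _ => isClosed_le continuous_const ?_
      fun_prop
    obtain ⟨w, hw, hle⟩ := hcomp.ultrafilter_le_nhds (𝒰.map fun p => wv T v (T.map c p)) (by
      rw [le_principal_iff]
      show ∀ᶠ p in (𝒰 : Filter (ℂ × ℂ)), wv T v (T.map c p) ∈ _
      filter_upwards [show _ ∈ (𝒰 : Filter (ℂ × ℂ)) from hev] with p hp
      obtain ⟨q, hq, hq'⟩ := hp
      have h3 : pV U v q = wv T v (T.map c p) := hq.2.1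
      rw [← h3]
      refine ⟨mem_closedBall_zero_iff.2 hq'.1.le, ?_⟩
      rw [mem_iInter₂]
      exact fun c' hc' => (hq'.2.1 c' hc').le)
    refine ⟨v, hv, w, fun hsp => ?_, ?_⟩
    · have h4 := mem_iInter₂.1 hw.2 w hsp
      have h5 : P.κ ≤ ‖w - w‖ := h4
      rw [sub_self, norm_zero] at h5
      exact absurd h5 (not_le.2 P.κ_pos)
    · rw [tendsto_map'_iff]
      exact hle
  rcases mine hE.1.1 h hU1 hg with ⟨h1, h2⟩ | ⟨-, h2⟩
  · exact KV_OT d1 d2 hKV h1 h2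
  · exact KV_KT d1 d2 hKV h2

/-- (2) the value of the edge function is unique -/
theorem uniq_RE (P : WPar L y K τ₀ τ₁) {c : Ch T.m} {j : Fin T.d} (hE : Es K c j)
    {p₀ : ℂ × ℂ}
    (h : (p₀ = 0 ∧ ¬ IsV c) ∨ (v1 T c = none ∧ p₀.1 = 0 ∧ ‖p₀.2‖ ≤ S.r c)) :
    ∀ᶠ p in 𝓝 p₀, p ∈ zn S P.τ c → ∀ b, P.RE (wc S c j p) b → b = EL L y K c j p - P.B := by
  classical
  by_contra hcon
  set A : Set (ℂ × ℂ) := {p | p ∈ zn S P.τ c ∧ ∃ x : Ch T.m × Fin T.d, ∃ p', x.1 ≠ c ∧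
    Es K x.1 x.2 ∧ p' ∈ zn S P.τ x.1 ∧ wc S x.1 x.2 p' = wc S c j p} with hA
  have hfr : ∃ᶠ p in 𝓝 p₀, p ∈ A := by
    intro hA'
    refine hcon ?_
    filter_upwards [hA'] with p hp hz b hb
    obtain ⟨c', j', p', h1, h2, h3, h4⟩ := hb
    by_contra hne
    refine hp ⟨hz, (c', j'), p', ?_, h1, h2, h3⟩
    rintro (rfl : c' = c)
    obtain ⟨g1, g2, g3⟩ := zn_le P hE hz
    obtain ⟨g1', g2', g3'⟩ := zn_le P h1 h2
    refine hne ?_
    rw [h4, el_val h1.1 ⟨lt_two_r S g1', lt_two_r S g2'⟩ ⟨lt_two_r S g1, lt_two_r S g2⟩ g3' g3 h3]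
  have hne : (𝓝 p₀ ⊓ 𝓟 A).NeBot := Filter.frequently_mem_iff_neBot.1 hfr
  obtain ⟨𝒰, h𝒰⟩ := Ultrafilter.exists_le (𝓝 p₀ ⊓ 𝓟 A)
  have hU1 : (𝒰 : Filter (ℂ × ℂ)) ≤ 𝓝 p₀ := h𝒰.trans inf_le_left
  have hU2 : A ∈ (𝒰 : Filter (ℂ × ℂ)) := h𝒰 (mem_inf_of_right (mem_principal_self _))
  have hg : ∀ᶠ p in (𝒰 : Filter (ℂ × ℂ)), T.Gen c p := by
    filter_upwards [hU2] with p hp
    exact hp.1.2.2
  -- the chart
  have hx : ∃ x ∈ (CS S F) ×ˢ (univ : Set (Fin T.d)), {p | p ∈ zn S P.τ c ∧ ∃ p', x.1 ≠ c ∧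
      Es K x.1 x.2 ∧ p' ∈ zn S P.τ x.1 ∧ wc S x.1 x.2 p' = wc S c j p} ∈ 𝒰 := by
    rw [← Ultrafilter.finite_biUnion_mem_iff ((finite_CS F).prod finite_univ)]
    refine Filter.mem_of_superset (f := (𝒰 : Filter (ℂ × ℂ))) hU2 ?_
    rintro p ⟨hz, x, p', h1, h2, h3⟩
    exact mem_biUnion (x := x) ⟨⟨h2.1, fun h => K.mem _ (h2.2 h)⟩, mem_univ _⟩
      ⟨hz, p', h1, h2, h3⟩
  obtain ⟨⟨c', j'⟩, -, hev⟩ := hx
  let g : ℂ × ℂ → ℂ × ℂ := fun p => if hp : ∃ p', c' ≠ c ∧ Es K c' j' ∧ p' ∈ zn S P.τ c' ∧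
    wc S c' j' p' = wc S c j p then hp.choose else 0
  have hgg : ∀ᶠ p in (𝒰 : Filter (ℂ × ℂ)), c' ≠ c ∧ Es K c' j' ∧ g p ∈ zn S P.τ c' ∧
      wc S c' j' (g p) = wc S c j p := by
    filter_upwards [show _ ∈ (𝒰 : Filter (ℂ × ℂ)) from hev] with p hp
    have hp' : ∃ p', c' ≠ c ∧ Es K c' j' ∧ p' ∈ zn S P.τ c' ∧ wc S c' j' p' = wc S c j p := hp.2
    have e : g p = hp'.choose := dif_pos hp'
    rw [e]
    exact hp'.choose_spec
  obtain ⟨_, hcc, hE', -⟩ := hgg.exists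
  obtain ⟨d1, d2⟩ := data hE.1.1 h hU1 hg
  have hmap : Filter.map (T.map c') (𝒰.map g : Filter (ℂ × ℂ)) =
      Filter.map (T.map c) (𝒰 : Filter (ℂ × ℂ)) := by
    show Filter.map (T.map c') (Filter.map g 𝒰) = _
    rw [Filter.map_map]
    refine Filter.map_congr ?_
    filter_upwards [hgg] with p hp
    have h1 := congrFun hp.2.2.2 1
    have h2 := congrFun hp.2.2.2 2
    exact Prod.ext h1 h2
  have lne : (Filter.map (T.map c) (𝒰 : Filter (ℂ × ℂ))).NeBot := by infer_instance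
  have hk := kinds (S := S) hE'.1.1 (𝒰.map g) (by
    show ∀ᶠ p in (𝒰 : Filter (ℂ × ℂ)), _
    filter_upwards [hgg] with p hp
    exact zn_le P hE' hp.2.2.1) (by
    rw [← hmap, tendsto_map'_iff] at d1
    exact d1)
  rw [hmap] at hk
  rcases mine hE.1.1 h hU1 hg with ⟨h1, h2⟩ | ⟨h1, h2⟩
  · rcases hk with k | ⟨k1, k2⟩ | ⟨k1, k2⟩
    · exact KV_OT d1 d2 k h1 h2
    · exact hcc (Sep_547.eq_of_type hE'.1 hE.1 d1 d2 k2 h2)
    · exact OT_KT d1 d2 h1 h2 k2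
  · rcases hk with k | ⟨k1, k2⟩ | ⟨k1, k2⟩
    · exact KV_KT d1 d2 k h2
    · exact OT_KT d1 d2 k1 k2 h2
    · exact hcc (top_unique hE'.1 hE.1 k1 h1)

/-- **the weight at the corners and on the top curve** -/
theorem corner (P : WPar L y K τ₀ τ₁) (_hR : RetStmt U) {c : Ch T.m} {j : Fin T.d} (hE : Es K c j) {p₀ : ℂ × ℂ}
    (h : (p₀ = 0 ∧ ¬ IsV c) ∨ (v1 T c = none ∧ p₀.1 = 0 ∧ ‖p₀.2‖ ≤ S.r c)) :
    ∀ᶠ p in 𝓝 p₀, p ∈ zn S P.τ c → P.Φ (wc S c j p) = EL L y K c j p - P.B := by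
  filter_upwards [no_RV P hE h, uniq_RE P hE h] with p h1 h2 hz
  exact WPar.Φ_E ⟨c, j, p, hE, hz, rfl, rfl⟩ (h2 hz) fun a ha => absurd ha (h1 hz a)

end Crest.Agent.R257.Cor_547
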