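import Mathlib
import Crest.Agent.R257.Wt7_258
import Crest.Agent.R257.Cor_547

/-!
Row 257 (S0395), C-WT, leaf F3 (helper547): the local estimates at the corners and on the top curve
(`loc_corner`).
-/

set_option autoImplicit false
set_option linter.unusedSectionVars false

open Polynomial Set Filter Topology Metric
open Crest.AlgGeometry.Germ Crest.Agent.R257.AJ387 Crest.Agent.R257.T387
open Crest.Agent.R257.Gr1_157 Crest.Agent.R257.HoB_843 Crest.Agent.R257.BP_258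
open Crest.Agent.R257.Frm_547 Crest.Agent.R257.Lab_931 Crest.Agent.R257.Wt_258

noncomputable section

namespace Crest.Agent.R257.Cor_547

variable {f : (Fin 3 → ℂ) → ℂ} {T : TB f} {U : Tub T} {S : Sh T}
variable {L : Lab U S} [Fintype (II U)] {y : II U → ℝ} {F : Finset (Ch T.m)} {K : DKill S F}
  {τ₀ τ₁ : ℝ}

lemma isOpen_gen (c : Ch T.m) : IsOpen {p : ℂ × ℂ | T.Gen c p} := by
  have h1 : IsOpen {p : ℂ × ℂ | p.1 ≠ 0} := isOpen_ne_fun continuous_fst continuous_const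
  have h2 : IsOpen {p : ℂ × ℂ | p.2 ≠ 0} := isOpen_ne_fun continuous_snd continuous_const
  cases c with
  | edge i k k' => exact h1.inter h2
  | leg i => exact h1.inter h2
  | vert i k w => exact h1

lemma isOpen_zn (τ : ℝ) (c : Ch T.m) : IsOpen (zn S τ c) := by
  have h1 : IsOpen {p : ℂ × ℂ | ‖p.1‖ < ta S τ c} :=
    isOpen_lt continuous_fst.norm continuous_const
  have h2 : IsOpen {p : ℂ × ℂ | ‖p.2‖ < tb S τ c} :=
    isOpen_lt continuous_snd.norm continuous_const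
  exact h1.inter (h2.inter (isOpen_gen c))

lemma s_cd (c : Ch T.m) (p : ℂ × ℂ) :
    ContDiffAt ℂ (⊤ : ℕ∞) (fun p : ℂ × ℂ => (T.map c p).1) p := by
  cases c with
  | edge i k k' => exact contDiffAt_fst.mul contDiffAt_snd
  | leg i => exact contDiffAt_fst
  | vert i k w => exact contDiffAt_fst

lemma s_le (c : Ch T.m) {p : ℂ × ℂ} (h1 : ‖p.1‖ ≤ 1) (h2 : ‖p.2‖ ≤ 1) :
    ‖(T.map c p).1‖ ^ 2 ≤ 1 := by
  refine pow_le_one₀ (norm_nonneg _) ?_
  cases c with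
  | edge i k k' =>
    show ‖p.1 * p.2‖ ≤ 1
    rw [norm_mul]
    exact mul_le_one₀ h1 (norm_nonneg _) h2
  | leg i => exact h1
  | vert i k w => exact h1

/-- `Ψ` where `Φ` is the edge function -/
lemma psi_sm (P : WPar L y K τ₀ τ₁) {c : Ch T.m} (hc : Ok S c) {j : Fin T.d} {p : ℂ × ℂ}
    (hg : T.Gen c p) (h : ∀ᶠ p' in 𝓝 p, P.Φ (wc S c j p') = EL L y K c j p' - P.B) :
    ContDiffAt ℝ (⊤ : ℕ∞) (P.Ψ ∘ wc S c j) p ∧ ∀ w, 0 ≤ lvE (P.Ψ ∘ wc S c j) p w := by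
  have two : (2 : WithTop ℕ∞) ≤ ((⊤ : ℕ∞) : WithTop ℕ∞) := by norm_cast
  have e : (P.Ψ ∘ wc S c j) =ᶠ[𝓝 p] fun p' => (EL L y K c j p' + -P.B) + ‖(T.map c p').1‖ ^ 2 := by
    filter_upwards [h] with p' hp'
    show P.Φ (wc S c j p') + ‖wc S c j p' 1‖ ^ 2 = _
    rw [hp']
    rfl
  obtain ⟨a1, b1⟩ := EL_sm L y K hc j hg
  have a2 : ContDiffAt ℝ (⊤ : ℕ∞) (fun p' : ℂ × ℂ => EL L y K c j p' + -P.B) p :=
    a1.add contDiffAt_const
  have a3 : ContDiffAt ℝ (⊤ : ℕ∞) (fun p' : ℂ × ℂ => ‖(T.map c p').1‖ ^ 2) p := by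
    have h1 : ContDiffAt ℝ (⊤ : ℕ∞) (fun p : ℂ × ℂ => (T.map c p).1) p :=
      (s_cd c p).restrict_scalars ℝ
    exact (contDiff_norm_sq ℝ).contDiffAt.comp p h1
  refine ⟨(a2.add a3).congr_of_eventuallyEq e, fun w => ?_⟩
  rw [lvE_congr e, lvE_add (a2.of_le two) (a3.of_le two), lvE_add (a1.of_le two) contDiffAt_const,
    lvE_const, lvE_normSq ((s_cd c p).of_le two)]
  have := b1 w
  positivity

/-- **(F3)** the local estimates at the corners and on the top curve -/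
theorem loc_corner (P : WPar L y K τ₀ τ₁) (hR : RetStmt U) (hτ : 0 < τ₀) {c : Ch T.m} (hc : c ∈ F)
    (j : Fin T.d) {p₀ : ℂ × ℂ}
    (h : (p₀ = 0 ∧ ¬ IsV c) ∨ (v1 T c = none ∧ p₀.1 = 0 ∧ ‖p₀.2‖ ≤ S.r c)) : LocS P c j p₀ := by
  have hok : Ok S c := P.hF c hc
  have hV : ¬ IsV c := by
    rcases h with ⟨-, h⟩ | ⟨h, -⟩
    · exact h
    · obtain ⟨i, k', rfl⟩ := v1_none h
      exact id
  have hE : Es K c j := ⟨hok, fun h => absurd h hV⟩
  have h10 : p₀.1 = 0 := (fst_zero h).1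
  have hr := S.pos c
  have htt := mul_nonneg (tt_nn K c j) (Real.log_nonneg (show (1 : ℝ) ≤ 2 by norm_num))
  have hB1 := le_abs_self P.B
  have hB2 := neg_le_abs P.B
  refine ⟨tt K c j * Real.log 2 + |P.B| + 1, 1, one_pos, ?_⟩
  -- near `p₀`
  have n1 : ∀ ε > 0, ∀ᶠ p : ℂ × ℂ in 𝓝 p₀, ‖p.1‖ < ε := by
    intro ε hε
    have h1 : Tendsto (fun p : ℂ × ℂ => ‖p.1‖) (𝓝 p₀) (𝓝 ‖p₀.1‖) :=
      continuous_fst.norm.tendsto p₀
    rw [h10, norm_zero] at h1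
    exact h1.eventually (gt_mem_nhds hε)
  have n2 : ∀ ε > 0, v1 T c ≠ none → ∀ᶠ p : ℂ × ℂ in 𝓝 p₀, ‖p.2‖ < ε := by
    intro ε hε hv
    have h20 : p₀.2 = 0 := by
      rcases h with ⟨h, -⟩ | ⟨h, -⟩
      · rw [h]; rfl
      · exact absurd h hv
    have h1 : Tendsto (fun p : ℂ × ℂ => ‖p.2‖) (𝓝 p₀) (𝓝 ‖p₀.2‖) :=
      continuous_snd.norm.tendsto p₀
    rw [h20, norm_zero] at h1
    exact h1.eventually (gt_mem_nhds hε)
  have m1 : ∀ᶠ p : ℂ × ℂ in 𝓝 p₀, ‖p.1‖ < ta S P.τ c := by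
    refine n1 _ ?_
    unfold ta
    split_ifs
    · exact hr
    · exact P.τ_pos
  have m2 : ∀ᶠ p : ℂ × ℂ in 𝓝 p₀, ‖p.2‖ < S.r c → ‖p.2‖ < tb S P.τ c := by
    unfold tb
    split_ifs with hv
    · exact Eventually.of_forall fun p hp => hp
    · exact (n2 _ P.τ_pos hv).mono fun p hp _ => hp
  have m3 : ∀ᶠ p : ℂ × ℂ in 𝓝 p₀, L.e1 c j ≠ none → ‖p.2‖ < τ₀ := by
    by_cases hv : v1 T c = none
    · exact Eventually.of_forall fun p hp => absurd (FrmF_547.e1_none L hok j hv) hp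
    · exact (n2 _ hτ hv).mono fun p hp _ => hp
  filter_upwards [(corner P hR hE h).eventually_nhds, m1, m2, m3, n1 τ₀ hτ]
    with p h1 h2 h3 h4 h5 hr1 hr2 hg
  have hz : p ∈ zn S P.τ c := ⟨h2, h3 hr2, hg⟩
  have hev : ∀ᶠ p' in 𝓝 p, P.Φ (wc S c j p') = EL L y K c j p' - P.B := by
    filter_upwards [h1, (isOpen_zn P.τ c).mem_nhds hz] with p' hp' hz'
    exact hp' hz'
  have hval : P.Ψ (wc S c j p) = EL L y K c j p - P.B + ‖(T.map c p).1‖ ^ 2 := by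
    show P.Φ (wc S c j p) + ‖wc S c j p 1‖ ^ 2 = _
    rw [hev.self_of_nhds]
    rfl
  have hp1 : ‖p.1‖ ≤ 1 := by have := S.le c; linarith
  have hp2 : ‖p.2‖ ≤ 1 := by have := S.le c; linarith
  have hs1 := s_le c hp1 hp2
  have hs0 : 0 ≤ ‖(T.map c p).1‖ ^ 2 := by positivity
  obtain ⟨a1, a2⟩ := psi_sm P hok hg hev
  refine ⟨a1, a2, ?_, ?_, ?_, ?_, ?_, ?_, ?_⟩
  · have h6 := EL_le L y K c j hp1 hp2
    rw [hval]
    linarith
  · intro hκ
    have h6 : tt K c j = 0 := if_neg (by rw [hκ]; exact fun h => h)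
    rw [hval]
    unfold EL
    rw [h6, zero_mul, zero_mul]
    linarith
  · intro hκ _ _
    have h6 : tt K c j = K.t (c, j) := if_pos hκ
    rw [hval, abs_le]
    unfold EL
    rw [h6] at htt ⊢
    constructor <;> linarith
  · rintro - he (hv | hv)
    · exact absurd hv hV
    · exact absurd (h4 he) (not_lt.2 hv)
  · rintro - - hv
    exact absurd h5 (not_lt.2 hv)
  · rintro - - - he hv
    exact absurd (h4 he) (not_lt.2 hv)
  · rintro - - - - hv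
    exact absurd h5 (not_lt.2 hv)

end Crest.Agent.R257.Cor_547
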