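import Mathlib
import Crest.Agent.R257.Wt7_258
import Crest.Agent.R257.V1_82

/-!
Row 257 (S0395), C-WT, file 8 (helper258): attachments.
-/

set_option autoImplicit false
set_option linter.unusedSectionVars false
set_option linter.unusedVariables false

open Polynomial Set Filter Topology Metric
open Crest.AlgGeometry.Germ Crest.Agent.R257.AJ387 Crest.Agent.R257.T387
open Crest.Agent.R257.Gr1_157 Crest.Agent.R257.HoB_843 Crest.Agent.R257.BP_258
open Crest.Agent.R257.Frm_547 Crest.Agent.R257.Lab_931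

noncomputable section

namespace Crest.Agent.R257.Wt_258

variable {f : (Fin 3 → ℂ) → ℂ} {T : TB f} {U : Tub T} {S : Sh T}
variable {L : Lab U S} {y : II U → ℝ} {F : Finset (Ch T.m)} {K : DKill S F}
variable [Fintype (II U)] {τ₀ τ₁ : ℝ} (P : WPar L y K τ₀ τ₁)

section tube

variable {v : Vtx} {q₀ : XV U v} (D : TC U v q₀)

/-- attachment of an edge function at `q₀` -/
structure Att where
  c : Ch T.m
  j : Fin T.d
  hE : Es K c j
  Pm : ℂ × ℂ → ℂ × ℂ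
  an : AnalyticAt ℂ Pm ((0 : ℂ), pV U v q₀)
  ev : ∀ᶠ q in D.Fl, Pm q ∈ zn S P.τ c ∧ wc S c j (Pm q) = D.X q
  s1 : ∀ c' j', Es K c' j' → v1 T c' = some v → ∀ b' : ℂ, ‖b'‖ ≤ P.τ →
      P.γ1 c' v D.hv j' b' = q₀ → (IsV c' ∨ b' ≠ 0) → c' = c
  s2 : ∀ c' j', Es K c' j' → v2 T c' = some v → ∀ a' : ℂ, ‖a'‖ ≤ P.τ → a' ≠ 0 →
      P.γ2 c' v D.hv j' a' = q₀ → c' = c
  ub : ∃ C', ∀ᶠ q in D.Fl, EL L y K c j (Pm q) ≤
    y (lab U ⟨v, D.hv⟩ q₀) * Real.log (‖q.1‖ ^ 2) + C'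
  alt : (q₀ ∉ Kd P v ∧ ∃ sl u : ℝ, Tendsto (fun q => EL L y K c j (Pm q) -
        y (lab U ⟨v, D.hv⟩ q₀) * Real.log (‖q.1‖ ^ 2)) D.Fl (𝓝 (sl * u)) ∧
      |P.h v q₀ - (sl + P.δ) * u| ≤ P.C ∧
      (q₀ ∉ Om K P.γ1 P.κ v → P.δ * u + P.C + P.B < -1)) ∨
    (q₀ ∈ Kd P v ∧ ∀ᶠ q' in 𝓝 q₀, q' ∉ Om K P.γ1 P.κ v)

lemma mem_PDv {c : Ch T.m} {j : Fin T.d} (hE : Es K c j) {b : ℂ} (hb : ‖b‖ ≤ P.τ)
    (h0 : IsV c ∨ b ≠ 0) : b ∈ PDv S c := by
  have h1 := P.τ_r c j hE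
  have h2 := S.pos c
  exact ⟨h0.imp id fun h => norm_pos_iff.2 h, by linarith⟩

lemma mem_PDc {c : Ch T.m} {j : Fin T.d} (hE : Es K c j) {b : ℂ} (hb : ‖b‖ ≤ P.τ)
    (h0 : b ≠ 0) : b ∈ PDc S c := by
  have h1 := P.τ_r c j hE
  have h2 := S.pos c
  exact ⟨norm_pos_iff.2 h0, by linarith⟩

lemma lx_V {c : Ch T.m} (h : IsV c) : lx T c = 1 := by
  cases c with
  | edge i k k' => exact absurd h (by simp [IsV])
  | leg i => exact absurd h (by simp [IsV])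
  | vert i k w => rfl

include D in
/-- an attachment outside of the core is small -/
lemma small1 {c : Ch T.m} {j : Fin T.d} (hE : Es K c j) (hv : v1 T c = some v) {b : ℂ}
    (hb : ‖b‖ ≤ P.τ) (h0 : IsV c ∨ b ≠ 0) (hq : P.γ1 c v D.hv j b = q₀)
    (hO : q₀ ∉ Om K P.γ1 P.κ v) : ‖b‖ ^ lx T c ≤ P.κ := by
  have hpr : pV U v q₀ = cx T c + b ^ lx T c := by
    rw [← hq]
    exact (P.end1 c hE.1 ⟨v, D.hv⟩ hv).1.pr j b (mem_PDv P hE hb h0)
  obtain ⟨m1, m2⟩ := P.sm1 c j hE v hv b hb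
  by_contra hcon
  rw [not_le] at hcon
  refine hO ⟨by rw [hpr]; exact m1, fun c' hc' => ?_, fun c' j' k1 k2 k3 b' hb' hb'' => ?_⟩
  · rw [hpr]
    by_cases h : c' = cx T c
    · rw [h, add_sub_cancel_left, norm_pow]
      exact hcon
    · exact m2 c' hc' h
  · have hE' : Es K c' j' := ⟨P.hF c' (K.mem _ k1), fun _ => k1⟩
    have hb2 : ‖b'‖ ≤ P.τ := hb'.trans P.κ_lt.le
    have hpr' : pV U v q₀ = cx T c' + b' ^ lx T c' := by
      rw [← hb'']
      exact (P.end1 c' hE'.1 ⟨v, D.hv⟩ k3).1.pr j' b' (mem_PDv P hE' hb2 (Or.inl k2))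
    have hcc : c = c' := P.sep11 c c' j j' hE hE' v hv k3 b b' hb hb2 (hpr.symm.trans hpr')
    subst hcc
    rw [hpr, lx_V k2, pow_one, pow_one] at hpr'
    have h3 : b = b' := add_left_cancel hpr'
    rw [lx_V k2, pow_one, h3] at hcon
    exact absurd hb' (not_le.2 hcon)

include D in
lemma small2 {c : Ch T.m} {j : Fin T.d} (hE : Es K c j) (hv : v2 T c = some v) {a : ℂ}
    (ha : ‖a‖ ≤ P.τ) (h0 : a ≠ 0) (hq : P.γ2 c v D.hv j a = q₀)
    (hO : q₀ ∉ Om K P.γ1 P.κ v) : ‖a‖ ^ lx T c ≤ P.κ := by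
  have hpr : pV U v q₀ = (a ^ lx T c)⁻¹ := by
    rw [← hq]
    exact (P.end2 c hE.1 ⟨v, D.hv⟩ hv).1.pr j a (mem_PDc P hE ha h0)
  by_contra hcon
  rw [not_le] at hcon
  refine hO ⟨?_, fun c' hc' => ?_, fun c' j' k1 k2 k3 b' hb' hb'' => ?_⟩
  · rw [hpr, norm_inv, norm_pow]
    exact (inv_lt_inv₀ (pow_pos (norm_pos_iff.2 h0) _) P.κ_pos).2 hcon
  · rw [hpr]
    exact P.sm2 c j hE v hv a h0 ha c' hc'
  · have hE' : Es K c' j' := ⟨P.hF c' (K.mem _ k1), fun _ => k1⟩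
    have hb2 : ‖b'‖ ≤ P.τ := hb'.trans P.κ_lt.le
    have hpr' : pV U v q₀ = cx T c' + b' ^ lx T c' := by
      rw [← hb'']
      exact (P.end1 c' hE'.1 ⟨v, D.hv⟩ k3).1.pr j' b' (mem_PDv P hE' hb2 (Or.inl k2))
    exact P.sep12 c' c j' j hE' hE v k3 hv b' a hb2 h0 ha (hpr'.symm.trans hpr)

lemma ta_pos {c : Ch T.m} : 0 < ta S P.τ c := by
  unfold ta
  split_ifs
  · exact S.pos c
  · exact P.τ_pos

lemma tb_pos {c : Ch T.m} : 0 < tb S P.τ c := by
  unfold tb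
  split_ifs
  · exact S.pos c
  · exact P.τ_pos

/-- attachments along the first axis -/
theorem att1 (hR : RetStmt U) {c : Ch T.m} {j : Fin T.d} (hE : Es K c j) (hv : v1 T c = some v)
    {b₀ : ℂ} (hb : ‖b₀‖ < P.τ) (h0 : IsV c ∨ b₀ ≠ 0) (hq : P.γ1 c v D.hv j b₀ = q₀) :
    Nonempty (Att P D) := by
  have hbr : ‖b₀‖ ≤ S.r c := (hb.trans (P.τ_r c j hE)).le
  have hPD := mem_PDv P hE hb.le h0
  obtain ⟨hγ, hlab⟩ := P.end1 c hE.1 ⟨v, D.hv⟩ hv
  have hpr : pV U v q₀ = cx T c + b₀ ^ lx T c := by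
    rw [← hq]
    exact hγ.pr j b₀ hPD
  obtain ⟨Pm, an, p0, pev⟩ := V1_82.inv1 hE.1 hv hbr h0
  rw [← hpr] at an p0 pev
  have hPt : Tendsto Pm D.Fl (𝓝 (0, b₀)) := by
    have h1 := an.continuousAt.tendsto
    rw [p0] at h1
    exact h1.mono_left D.Fl_le
  have h1t : Tendsto (fun q => (Pm q).1) D.Fl (𝓝 0) := (continuous_fst.tendsto _).comp hPt
  have h2t : Tendsto (fun q => (Pm q).2) D.Fl (𝓝 b₀) := (continuous_snd.tendsto _).comp hPt
  have pev' := pev.filter_mono D.Fl_le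
  have hgen : ∀ᶠ q in D.Fl, T.Gen c (Pm q) ∧ (T.map c (Pm q)).1 = q.1 := by
    rcases h0 with h0 | h0
    · filter_upwards [pev', D.ev_ne] with q a1 a2
      exact ⟨gen_of (a1.2.2 a2) (Or.inl h0), a1.1⟩
    · filter_upwards [pev', D.ev_ne, h2t.eventually_ne h0] with q a1 a2 a3
      exact ⟨gen_of (a1.2.2 a2) (Or.inr a3), a1.1⟩
  have hwc : ∀ᶠ q in D.Fl, wc S c j (Pm q) = D.X q := by
    have hlim := hγ.lim j b₀ hPD
    have g1 : ∀ᶠ q in D.Fl, InT U v (wc S c j (Pm q)) := by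
      filter_upwards [hPt.eventually hlim.1, hgen] with q a1 a2
      exact a1 (gen_fst a2.1)
    have g2 : ∀ O ∈ 𝓝 q₀, ∀ᶠ q in D.Fl, ∀ q', IsRet U v (wc S c j (Pm q)) q' → q' ∈ O := by
      intro O hO
      rw [← hq] at hO
      filter_upwards [hPt.eventually (hlim.2 O hO), hgen] with q a1 a2
      exact a1 (gen_fst a2.1)
    filter_upwards [D.ident hR g1 g2, hgen, pev', D.ev_ne] with q a1 a2 a3 a4
    have e1 : wc S c j (Pm q) 1 = q.1 := a2.2
    have e2 : wv T v (wc S c j (Pm q) 1, wc S c j (Pm q) 2) = q.2 := by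
      have := W1_eq hE.1.1 hv a2.1
      rw [a3.2.1] at this
      exact this
    rw [a1.1, e2, e1]
  have hzn : ∀ᶠ q in D.Fl, Pm q ∈ zn S P.τ c := by
    have z1 : ∀ᶠ q in D.Fl, ‖(Pm q).1‖ < ta S P.τ c := by
      have := h1t.norm
      rw [norm_zero] at this
      exact this.eventually (gt_mem_nhds (ta_pos P))
    have z2 : ∀ᶠ q in D.Fl, ‖(Pm q).2‖ < tb S P.τ c := by
      have e : tb S P.τ c = P.τ := if_neg (by rw [hv]; simp)
      rw [e]
      exact h2t.norm.eventually (gt_mem_nhds hb)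
    filter_upwards [z1, z2, hgen] with q a1 a2 a3
    exact ⟨a1, a2, a3.1⟩
  have hY : yo y (L.e1 c j) = y (lab U ⟨v, D.hv⟩ q₀) := by
    rw [hlab j b₀ hPD, hq]
    rfl
  have hs1 : ∀ c' j', Es K c' j' → v1 T c' = some v → ∀ b' : ℂ, ‖b'‖ ≤ P.τ →
      P.γ1 c' v D.hv j' b' = q₀ → (IsV c' ∨ b' ≠ 0) → c' = c := by
    intro c' j' hE' hv' b' hb' hq' h0'
    have hpr' : pV U v q₀ = cx T c' + b' ^ lx T c' := by
      rw [← hq']
      exact (P.end1 c' hE'.1 ⟨v, D.hv⟩ hv').1.pr j' b' (mem_PDv P hE' hb' h0')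
    exact P.sep11 c' c j' j hE' hE v hv' hv b' b₀ hb' hb.le (hpr'.symm.trans hpr)
  have hs2 : ∀ c' j', Es K c' j' → v2 T c' = some v → ∀ a' : ℂ, ‖a'‖ ≤ P.τ → a' ≠ 0 →
      P.γ2 c' v D.hv j' a' = q₀ → c' = c := by
    intro c' j' hE' hv' a' ha' h0' hq'
    have hpr' : pV U v q₀ = (a' ^ lx T c')⁻¹ := by
      rw [← hq']
      exact (P.end2 c' hE'.1 ⟨v, D.hv⟩ hv').1.pr j' a' (mem_PDc P hE' ha' h0')
    exact absurd (hpr.symm.trans hpr') (P.sep12 c c' j j' hE hE' v hv hv' b₀ a' hb.le h0' ha')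
  by_cases hb0 : b₀ = 0
  · -- killed vertex
    subst hb0
    have hV : IsV c := h0.resolve_right (by simp)
    have hk : (c, j) ∈ K.κ := hE.2 hV
    refine ⟨{ c := c, j := j, hE := hE, Pm := Pm, an := an, ev := hzn.and hwc, s1 := hs1, s2 := hs2
              ub := ⟨tt K c j * Real.log 2, ?_⟩
              alt := Or.inr ⟨⟨c, j, hk, hV, hv, hq.symm⟩, ?_⟩ }⟩
    · have hnE : ¬ IsE c := by
        intro h
        cases c with
        | edge i k k' => exact hV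
        | leg i => exact h
        | vert i k w => exact h
      filter_upwards [hzn, hgen] with q a1 a2
      have hr := S.le c
      have l1 : ‖(Pm q).1‖ ≤ 1 := (a1.1.trans_le (ta_le P hE)).le.trans (by linarith)
      have l2 : ‖(Pm q).2‖ ≤ 1 := (a1.2.1.trans_le (tb_le P hE)).le.trans (by linarith)
      have h3 := EL_le L y K c j l1 l2
      rw [yo_v2 L y hE.1 j (v2_none hnE), hY] at h3
      have e : (Pm q).1 = q.1 := by rw [← a2.2, map1_nE hnE]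
      rw [e] at h3
      linarith
    · have hw : Tendsto (fun q' : XV U v => pV U v q' - cx T c) (𝓝 q₀) (𝓝 0) := by
        have h3 := (pV_cont (U := U) v).continuousAt (x := q₀)
        have h4 := h3.tendsto.sub_const (cx T c)
        rw [hpr, lx_V hV, pow_one, add_zero, sub_self] at h4
        exact h4
      have h5 : Tendsto (fun q' : XV U v => P.γ1 c v D.hv j (pV U v q' - cx T c)) (𝓝 q₀) (𝓝 q₀) := by
        have h6 : ContinuousAt (P.γ1 c v D.hv j) 0 := by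
          refine (hγ.cont j).continuousAt ?_
          have h7 : ball (0 : ℂ) (2 * S.r c) ∈ 𝓝 (0 : ℂ) :=
            ball_mem_nhds _ (by have := S.pos c; linarith)
          filter_upwards [h7] with b hb'
          exact ⟨Or.inl hV, mem_ball_zero_iff.1 hb'⟩
        have h8 := h6.tendsto.comp hw
        rw [hq] at h8
        exact h8
      have h9 : ∀ᶠ q' in 𝓝 q₀, ‖pV U v q' - cx T c‖ < P.κ := by
        have := hw.norm
        rw [norm_zero] at this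
        exact this.eventually (gt_mem_nhds P.κ_pos)
      filter_upwards [D.near hR, h5.eventually (D.near hR), h9, D.near_ball] with q' a1 a2 a3 a4 hO
      have hPD' : pV U v q' - cx T c ∈ PDv S c :=
        mem_PDv P hE (a3.le.trans P.κ_lt.le) (Or.inl hV)
      have e1 : pV U v (P.γ1 c v D.hv j (pV U v q' - cx T c)) = pV U v q' := by
        rw [hγ.pr j _ hPD', lx_V hV, pow_one]
        ring
      rw [e1, a1] at a2
      exact hO.2.2 c j hk hV hv _ a3.le a2.symm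
  · have hunk : q₀ ∉ Kd P v := by
      rintro ⟨c', j', k1, k2, k3, k4⟩
      have hE' : Es K c' j' := ⟨P.hF c' (K.mem _ k1), fun _ => k1⟩
      have hcc := hs1 c' j' hE' k3 0 (by rw [norm_zero]; exact P.τ_pos.le) k4.symm (Or.inl k2)
      subst hcc
      have e2 : pV U v q₀ = cx T c' + 0 ^ lx T c' := by
        rw [k4]
        exact hγ.pr j' 0 (mem_PDv P hE' (by rw [norm_zero]; exact P.τ_pos.le) (Or.inl k2))
      rw [hpr, lx_V k2, pow_one, pow_one] at e2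
      exact hb0 (add_left_cancel e2)
    have htend := EL_along1 (K := K) (y := y) (L := L) hE.1 j hb0 hPt hgen
    rw [hY] at htend
    refine ⟨{ c := c, j := j, hE := hE, Pm := Pm, an := an, ev := hzn.and hwc, s1 := hs1, s2 := hs2
              ub := ⟨d1 L y K c j * Real.log (‖b₀‖ ^ 2) + 1, ?_⟩
              alt := Or.inl ⟨hunk, d1 L y K c j, Real.log (‖b₀‖ ^ 2), htend, ?_, ?_⟩ }⟩
    · filter_upwards [htend.eventually (gt_mem_nhds (lt_add_one _))] with q a1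
      linarith
    · have := P.hv1 c hE.1 ⟨v, D.hv⟩ hv j hE.2 b₀ (norm_pos_iff.2 hb0) (hb.trans P.τ_lt)
        (hb.trans (P.τ_r c j hE))
      rw [hq] at this
      exact this
    · intro hO
      exact (P.smallκ c j hE b₀ hb0 (small1 P D hE hv hb.le h0 hq hO)).2

/-- attachments along the second axis -/
theorem att2 (hR : RetStmt U) {c : Ch T.m} {j : Fin T.d} (hE : Es K c j) (hv : v2 T c = some v)
    {a₀ : ℂ} (ha : ‖a₀‖ < P.τ) (h0 : a₀ ≠ 0) (hq : P.γ2 c v D.hv j a₀ = q₀) :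
    Nonempty (Att P D) := by
  have har : ‖a₀‖ ≤ S.r c := (ha.trans (P.τ_r c j hE)).le
  have hPD := mem_PDc P hE ha.le h0
  have hIE : IsE c := isV_v2 hv
  obtain ⟨hγ, hlab⟩ := P.end2 c hE.1 ⟨v, D.hv⟩ hv
  have hpr : pV U v q₀ = (a₀ ^ lx T c)⁻¹ := by
    rw [← hq]
    exact hγ.pr j a₀ hPD
  obtain ⟨Pm, an, p0, pev⟩ := V1_82.inv2 hE.1 hv har h0
  rw [← hpr] at an p0 pev
  have hPt : Tendsto Pm D.Fl (𝓝 (a₀, 0)) := by
    have h1 := an.continuousAt.tendsto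
    rw [p0] at h1
    exact h1.mono_left D.Fl_le
  have h1t : Tendsto (fun q => (Pm q).1) D.Fl (𝓝 a₀) := (continuous_fst.tendsto _).comp hPt
  have h2t : Tendsto (fun q => (Pm q).2) D.Fl (𝓝 0) := (continuous_snd.tendsto _).comp hPt
  have pev' := pev.filter_mono D.Fl_le
  have hgen : ∀ᶠ q in D.Fl, T.Gen c (Pm q) ∧ (T.map c (Pm q)).1 = q.1 := by
    filter_upwards [pev', D.ev_ne, h1t.eventually_ne h0] with q a1 a2 a3
    exact ⟨gen_of a3 (Or.inr (a1.2.2 a2)), a1.1⟩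
  have hwc : ∀ᶠ q in D.Fl, wc S c j (Pm q) = D.X q := by
    have hlim := hγ.lim j a₀ hPD
    have g1 : ∀ᶠ q in D.Fl, InT U v (wc S c j (Pm q)) := by
      filter_upwards [hPt.eventually hlim.1, hgen] with q a1 a2
      exact a1 (gen_snd_E hIE a2.1)
    have g2 : ∀ O ∈ 𝓝 q₀, ∀ᶠ q in D.Fl, ∀ q', IsRet U v (wc S c j (Pm q)) q' → q' ∈ O := by
      intro O hO
      rw [← hq] at hO
      filter_upwards [hPt.eventually (hlim.2 O hO), hgen] with q a1 a2
      exact a1 (gen_snd_E hIE a2.1)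
    filter_upwards [D.ident hR g1 g2, hgen, pev', D.ev_ne] with q a1 a2 a3 a4
    have e1 : wc S c j (Pm q) 1 = q.1 := a2.2
    have e2 : wv T v (wc S c j (Pm q) 1, wc S c j (Pm q) 2) = q.2 := by
      have := W2_eq hE.1.1 hv a2.1
      rw [a3.2.1] at this
      exact this
    rw [a1.1, e2, e1]
  have hzn : ∀ᶠ q in D.Fl, Pm q ∈ zn S P.τ c := by
    have z1 : ∀ᶠ q in D.Fl, ‖(Pm q).2‖ < tb S P.τ c := by
      have := h2t.norm
      rw [norm_zero] at this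
      exact this.eventually (gt_mem_nhds (tb_pos P))
    have z2 : ∀ᶠ q in D.Fl, ‖(Pm q).1‖ < ta S P.τ c := by
      have e : ta S P.τ c = P.τ := if_neg (by rw [hv]; simp)
      rw [e]
      exact h1t.norm.eventually (gt_mem_nhds ha)
    filter_upwards [z1, z2, hgen] with q a1 a2 a3
    exact ⟨a2, a1, a3.1⟩
  have hY : yo y (L.e2 c j) = y (lab U ⟨v, D.hv⟩ q₀) := by
    rw [hlab j a₀ hPD, hq]
    rfl
  have hs1 : ∀ c' j', Es K c' j' → v1 T c' = some v → ∀ b' : ℂ, ‖b'‖ ≤ P.τ →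
      P.γ1 c' v D.hv j' b' = q₀ → (IsV c' ∨ b' ≠ 0) → c' = c := by
    intro c' j' hE' hv' b' hb' hq' h0'
    have hpr' : pV U v q₀ = cx T c' + b' ^ lx T c' := by
      rw [← hq']
      exact (P.end1 c' hE'.1 ⟨v, D.hv⟩ hv').1.pr j' b' (mem_PDv P hE' hb' h0')
    exact absurd (hpr'.symm.trans hpr) (P.sep12 c' c j' j hE' hE v hv' hv b' a₀ hb' h0 ha.le)
  have hs2 : ∀ c' j', Es K c' j' → v2 T c' = some v → ∀ a' : ℂ, ‖a'‖ ≤ P.τ → a' ≠ 0 →
      P.γ2 c' v D.hv j' a' = q₀ → c' = c := by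
    intro c' j' hE' hv' a' ha' h0' hq'
    rw [Hv_174.v2_eq hE'.1 hv', Hv_174.v2_eq hE.1 hv]
  have hunk : q₀ ∉ Kd P v := by
    rintro ⟨c', j', k1, k2, k3, k4⟩
    have hE' : Es K c' j' := ⟨P.hF c' (K.mem _ k1), fun _ => k1⟩
    have hcc := hs1 c' j' hE' k3 0 (by rw [norm_zero]; exact P.τ_pos.le) k4.symm (Or.inl k2)
    subst hcc
    cases c' with
    | edge i k k' => exact k2
    | leg i => exact k2
    | vert i k w => exact hIE
  have htend := EL_along2 (K := K) (y := y) (L := L) hIE j h0 hPt hgen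
  rw [hY] at htend
  refine ⟨{ c := c, j := j, hE := hE, Pm := Pm, an := an, ev := hzn.and hwc, s1 := hs1, s2 := hs2
            ub := ⟨d2 L y K c j * Real.log (‖a₀‖ ^ 2) + 1, ?_⟩
            alt := Or.inl ⟨hunk, d2 L y K c j, Real.log (‖a₀‖ ^ 2), htend, ?_, ?_⟩ }⟩
  · filter_upwards [htend.eventually (gt_mem_nhds (lt_add_one _))] with q a1
    linarith
  · have := P.hv2 c hE.1 ⟨v, D.hv⟩ hv j a₀ (norm_pos_iff.2 h0) (ha.trans P.τ_lt)
      (ha.trans (P.τ_r c j hE))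
    rw [hq] at this
    exact this
  · intro hO
    exact (P.smallκ c j hE a₀ h0 (small2 P D hE hv ha.le h0 hq hO)).2

end tube

end Crest.Agent.R257.Wt_258
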