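import Mathlib
import Crest.Agent.R257.Wt8_258

/-!
Row 257 (S0395), C-WT, file 9 (helper258): the estimates in a tube chart.
-/

set_option autoImplicit false
set_option linter.unusedSectionVars false
set_option linter.unusedVariables false

open Polynomial Set Filter Topology Metric
open Crest.AlgGeometry.Germ Crest.Agent.R257.AJ387 Crest.Agent.R257.T387
open Crest.Agent.R257.Gr1_157 Crest.Agent.R257.HoB_843 Crest.Agent.R257.BP_258
open Crest.Agent.R257.Frm_547 Crest.Agent.R257.Lab_931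

noncomputable section

namespace Crest.Agent.R257.Wt_258

variable {f : (Fin 3 → ℂ) → ℂ} {T : TB f} {U : Tub T} {S : Sh T}
variable {L : Lab U S} {y : II U → ℝ} {F : Finset (Ch T.m)} {K : DKill S F}
variable [Fintype (II U)] {τ₀ τ₁ : ℝ} (P : WPar L y K τ₀ τ₁)

section tube

variable {v : Vtx} {q₀ : XV U v} (D : TC U v q₀)

/-- no attachment -/
structure NA : Prop where
  n1 : ∀ c' j', Es K c' j' → v1 T c' = some v → ∀ b' : ℂ, ‖b'‖ < P.τ → (IsV c' ∨ b' ≠ 0) →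
      P.γ1 c' v q₀.2.1 j' b' ≠ q₀
  n2 : ∀ c' j', Es K c' j' → v2 T c' = some v → ∀ a' : ℂ, ‖a'‖ < P.τ → a' ≠ 0 →
      P.γ2 c' v q₀.2.1 j' a' ≠ q₀

theorem na_or_att (hR : RetStmt U) : NA P (q₀ := q₀) ∨ Nonempty (Att P D) := by
  by_contra hcon
  rw [not_or] at hcon
  obtain ⟨h1, h2⟩ := hcon
  refine h1 ⟨fun c j hE hv b hb h0 hq => ?_, fun c j hE hv a ha h0 hq => ?_⟩
  · exact h2 (att1 P D hR hE hv hb h0 hq)
  · exact h2 (att2 P D hR hE hv ha h0 hq)

include D in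
lemma NA.unk (h : NA P (q₀ := q₀)) : q₀ ∉ Kd P v := by
  rintro ⟨c', j', k1, k2, k3, k4⟩
  have hE' : Es K c' j' := ⟨P.hF c' (K.mem _ k1), fun _ => k1⟩
  exact h.n1 c' j' hE' k3 0 (by rw [norm_zero]; exact P.τ_pos) (Or.inl k2) k4.symm

include D in
/-- points without attachments are in the core -/
theorem NA.om (h : NA P (q₀ := q₀)) : q₀ ∈ Om K P.γ1 P.κ v := by
  refine ⟨?_, fun c' hc' => ?_, fun c j k1 k2 k3 b hb hq => ?_⟩
  · by_contra hcon
    rw [not_lt] at hcon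
    set c : Ch T.m := ec S v with hc
    have hOk : Ok S c := Lab_931.ok_ec S D.hv
    have hv2 : v2 T c = some v := Lab_931.v2_ec S D.hv
    obtain ⟨j⟩ : Nonempty (Fin T.d) := by
      obtain ⟨E⟩ := Vt2_558.exists_LD (Tb_941.retStmt U) D.hv (w₀ := pV U v q₀) q₀.2.2.1
      obtain ⟨j, -⟩ := E.surj q₀ E.w0_mem
      exact ⟨j⟩
    have hE : ∀ j, Es K c j := fun j => ⟨hOk, fun h => absurd h (by simp [hc, ec, IsV])⟩
    obtain ⟨hγ, -⟩ := P.end2 c hOk ⟨v, D.hv⟩ hv2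
    have hl : 0 < lx T c := Hv_174.lx_pos hOk.1
    have hw : 0 < ‖pV U v q₀‖ := lt_of_lt_of_le (inv_pos.2 P.κ_pos) hcon
    obtain ⟨a, ha⟩ := IsAlgClosed.exists_pow_nat_eq (pV U v q₀)⁻¹ hl
    have ha0 : a ≠ 0 := by
      rintro rfl
      rw [zero_pow hl.ne'] at ha
      exact (inv_ne_zero (norm_pos_iff.1 hw)) ha.symm
    have hn : ‖a‖ ^ lx T c ≤ P.κ := by
      rw [← norm_pow, ha, norm_inv]
      exact (inv_le_comm₀ hw P.κ_pos).2 hcon
    have ht := (P.smallκ c j (hE j) a ha0 hn).1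
    obtain ⟨j', hj'⟩ := hγ.surj a (mem_PDc P (hE j) ht.le ha0) q₀ (by rw [ha, inv_inv])
    exact h.n2 c j' (hE j') hv2 a ht ha0 hj'
  · by_contra hcon
    rw [not_lt] at hcon
    obtain ⟨c, hOk, hnV, hv1, hcx⟩ := ex_att (S := S) D.hv hc'
    have hE : ∀ j, Es K c j := fun j => ⟨hOk, fun h => absurd h hnV⟩
    obtain ⟨hγ, -⟩ := P.end1 c hOk ⟨v, D.hv⟩ hv1
    have hl : 0 < lx T c := Hv_174.lx_pos hOk.1
    obtain ⟨j⟩ : Nonempty (Fin T.d) := by
      obtain ⟨E⟩ := Vt2_558.exists_LD (Tb_941.retStmt U) D.hv (w₀ := pV U v q₀) q₀.2.2.1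
      obtain ⟨j, -⟩ := E.surj q₀ E.w0_mem
      exact ⟨j⟩
    obtain ⟨b, hb⟩ := IsAlgClosed.exists_pow_nat_eq (pV U v q₀ - c') hl
    have hb0 : b ≠ 0 := by
      rintro rfl
      rw [zero_pow hl.ne'] at hb
      have : pV U v q₀ = c' := (sub_eq_zero.1 hb.symm)
      exact q₀.2.2.1 (by rw [show q₀.1.1 = c' from this]; exact hc')
    have hn : ‖b‖ ^ lx T c ≤ P.κ := by
      rw [← norm_pow, hb]
      exact hcon
    have ht := (P.smallκ c j (hE j) b hb0 hn).1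
    obtain ⟨j', hj'⟩ := hγ.surj b (mem_PDv P (hE j) ht.le (Or.inr hb0)) q₀ (by
      rw [hb, hcx]; ring)
    exact h.n1 c j' (hE j') hv1 b ht (Or.inr hb0) hj'
  · have hE' : Es K c j := ⟨P.hF c (K.mem _ k1), fun _ => k1⟩
    exact h.n1 c j hE' k3 b (hb.trans_lt P.κ_lt) (Or.inl k2) hq

lemma FV_tend (hq : q₀ ∉ Kd P v) : Tendsto (fun q => P.h v (D.σ q.2)) D.Fl (𝓝 (P.h v q₀)) := by
  have h1 := (hσ P D hq).self_of_nhds.1.continuousAt
  have h2 : Tendsto (fun q : ℂ × ℂ => P.h v (D.σ q.2)) D.Fl (𝓝 (P.h v (D.σ (pV U v q₀)))) :=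
    h1.tendsto.comp D.snd_tendsto
  rwa [D.σ0] at h2

/-- **edge functions are small at points without attachments** -/
theorem RE_small (hR : RetStmt U) (h : NA P (q₀ := q₀)) :
    ∀ᶠ q in D.Fl, ∀ b, P.RE (D.X q) b → b + 1 ≤ FV P D q := by
  have hunk := h.unk P D
  have h1 : ∀ᶠ q in D.Fl, ∀ c j, Es K c j → ∀ p ∈ zn S P.τ c, wc S c j p = D.X q →
      EL L y K c j p - P.B + 1 ≤ FV P D q := by
    refine ev_Es P.hF fun c j hE => ?_
    by_contra hcon
    have hcon' : ∃ᶠ q in D.Fl, ∃ p ∈ zn S P.τ c, wc S c j p = D.X q ∧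
        ¬ EL L y K c j p - P.B + 1 ≤ FV P D q := by
      intro h
      refine hcon (h.mono fun q hq p hp hw => ?_)
      by_contra hn
      exact hq ⟨p, hp, hw, hn⟩
    obtain ⟨𝒱, g, k1, k2, k3⟩ := zn_freq P D hR hE hcon'
    have hgen : ∀ᶠ q in (𝒱 : Filter (ℂ × ℂ)), T.Gen c (g q) ∧ (T.map c (g q)).1 = q.1 := by
      filter_upwards [k2] with q hq
      refine ⟨hq.2.1, ?_⟩
      have h2 : wc S c j (g q) 1 = D.X q 1 := by rw [hq.2.2.1]
      exact h2
    -- the limit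
    have key : ∃ sl u : ℝ, Tendsto (fun q => EL L y K c j (g q) -
        y (lab U ⟨v, D.hv⟩ q₀) * Real.log (‖q.1‖ ^ 2)) 𝒱 (𝓝 (sl * u)) ∧
        |P.h v q₀ - (sl + P.δ) * u| ≤ P.C ∧ u = Real.log (P.τ ^ 2) := by
      rcases k3 with ⟨b, b1, b2, b3, b4, b5⟩ | ⟨a, b1, b2, b3, b4, b5⟩
      · have hbt : ‖b‖ = P.τ := le_antisymm b4 (by
          by_contra hlt
          rw [not_le] at hlt
          exact h.n1 c j hE b2 b hlt b3 b5)
        have hb0 : b ≠ 0 := norm_pos_iff.1 (by rw [hbt]; exact P.τ_pos)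
        have ht := EL_along1 (K := K) (y := y) (L := L) hE.1 j hb0 b1 hgen
        have hY : yo y (L.e1 c j) = y (lab U ⟨v, D.hv⟩ q₀) := by
          rw [(P.end1 c hE.1 ⟨v, D.hv⟩ b2).2 j b (mem_PDv P hE b4 b3), b5]
          rfl
        rw [hY] at ht
        refine ⟨d1 L y K c j, Real.log (‖b‖ ^ 2), ht, ?_, by rw [hbt]⟩
        have := P.hv1 c hE.1 ⟨v, D.hv⟩ b2 j hE.2 b (norm_pos_iff.2 hb0)
          (by rw [hbt]; exact P.τ_lt) (by rw [hbt]; exact P.τ_r c j hE)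
        rw [b5] at this
        exact this
      · have hbt : ‖a‖ = P.τ := le_antisymm b4 (by
          by_contra hlt
          rw [not_le] at hlt
          exact h.n2 c j hE b2 a hlt b3 b5)
        have ht := EL_along2 (K := K) (y := y) (L := L) (isV_v2 b2) j b3 b1 hgen
        have hY : yo y (L.e2 c j) = y (lab U ⟨v, D.hv⟩ q₀) := by
          rw [(P.end2 c hE.1 ⟨v, D.hv⟩ b2).2 j a (mem_PDc P hE b4 b3), b5]
          rfl
        rw [hY] at ht
        refine ⟨d2 L y K c j, Real.log (‖a‖ ^ 2), ht, ?_, by rw [hbt]⟩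
        have := P.hv2 c hE.1 ⟨v, D.hv⟩ b2 j a (norm_pos_iff.2 b3)
          (by rw [hbt]; exact P.τ_lt) (by rw [hbt]; exact P.τ_r c j hE)
        rw [b5] at this
        exact this
    obtain ⟨sl, u, t1, t2, t3⟩ := key
    have t4 := ((FV_tend P D hunk).mono_left k1).sub t1
    have t5 : P.B - 1 > -(P.h v q₀ - sl * u) := by
      have e1 := (abs_le.1 t2).1
      have e2 := P.bigB
      rw [← t3] at e2
      have e3 : P.h v q₀ - (sl + P.δ) * u = P.h v q₀ - sl * u - P.δ * u := by ring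
      rw [e3] at e1
      linarith
    obtain ⟨q, q1, q2⟩ := (k2.and (t4.eventually
      (lt_mem_nhds (show -(P.B - 1) < P.h v q₀ - sl * u by linarith)))).exists
    refine q1.2.2.2 ?_
    unfold FV
    linarith
  filter_upwards [h1] with q a1 b hb
  obtain ⟨c, j, p, b1, b2, b3, b4⟩ := hb
  have := a1 c j b1 p b2 b3
  linarith

/-- **vertex functions are small at attached points outside of the core** -/
theorem RV_small (hR : RetStmt U) (A : Att P D) (hO : q₀ ∉ Om K P.γ1 P.κ v) :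
    ∀ᶠ q in D.Fl, ∀ a, P.RV (D.X q) a → a + 1 ≤ EL L y K A.c A.j (A.Pm q) - P.B := by
  rcases A.alt with ⟨hunk, sl, u, t1, t2, t3⟩ | ⟨hk, t1⟩
  · have t4 := (FV_tend P D hunk).sub t1
    have e0 := t3 hO
    have e1 := (abs_le.1 t2).2
    have e3 : P.h v q₀ - (sl + P.δ) * u = P.h v q₀ - sl * u - P.δ * u := by ring
    rw [e3] at e1
    have t5 : P.h v q₀ - sl * u < -1 - P.B := by linarith
    filter_upwards [RV_uniq P D hR, t4.eventually (gt_mem_nhds t5)] with q a1 a2 a ha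
    obtain ⟨-, b2⟩ := a1 a ha
    rw [b2]
    unfold FV
    linarith
  · filter_upwards [RV_uniq P D hR, D.σ_tendsto.eventually t1] with q a1 a2 a ha
    exact absurd (a1 a ha).1 a2

/-- local form of eventual statements -/
lemma ev_ev {A : ℂ × ℂ → Prop} (h : ∀ᶠ q in D.Fl, A q) : ∀ᶠ q in D.Fl, ∀ᶠ q' in 𝓝 q, A q' := by
  have h1 : ∀ᶠ q in D.Fl, ∀ᶠ q' in 𝓝[{q : ℂ × ℂ | q.1 ≠ 0}] q, A q' :=
    eventually_eventually_nhdsWithin.2 h
  filter_upwards [h1, D.ev_ne] with q a1 a2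
  have ho : IsOpen {q : ℂ × ℂ | q.1 ≠ 0} := isOpen_ne_fun continuous_fst continuous_const
  rwa [ho.nhdsWithin_eq a2] at a1

/-- the vertex function is smooth and psh -/
theorem FV_sm (hq : q₀ ∉ Kd P v) : ∀ᶠ q in D.Fl, ContDiffAt ℝ (⊤ : ℕ∞) (FV P D) q ∧
    ∀ w, 0 ≤ lvE (FV P D) q w := by
  filter_upwards [D.ev_ne, D.snd_tendsto.eventually (hσ P D hq)] with q a1 a2
  have h := Glue2_101.tube (s := fun q : ℂ × ℂ => q.1) (g := fun q : ℂ × ℂ => q.2)
    (H := fun w => P.h v (D.σ w)) (z := q) (y (lab U ⟨v, D.hv⟩ q₀)) 0 fst_cd a1 snd_cd a2.1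
  have e : (fun p : ℂ × ℂ => y (lab U ⟨v, D.hv⟩ q₀) * Real.log (‖p.1‖ ^ 2) + P.h v (D.σ p.2) +
      0 * ‖p.1‖ ^ 2) = FV P D := by
    funext p
    unfold FV
    ring
  rw [e] at h
  refine ⟨h.1, fun w => ?_⟩
  rw [h.2 w]
  have := a2.2
  positivity

/-- the edge function in the tube chart -/
theorem EP_sm (A : Att P D) : ∀ᶠ q in D.Fl,
    ContDiffAt ℝ (⊤ : ℕ∞) (fun q => EL L y K A.c A.j (A.Pm q) - P.B) q ∧
    ∀ w, 0 ≤ lvE (fun q => EL L y K A.c A.j (A.Pm q) - P.B) q w := by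
  filter_upwards [A.ev, A.an.eventually_analyticAt.filter_mono D.Fl_le] with q a1 a2
  obtain ⟨b1, b2⟩ := EL_sm L y K A.hE.1 A.j a1.1.2.2
  have c1 : ContDiffAt ℂ (⊤ : ℕ∞) A.Pm q := a2.contDiffAt
  have two : (2 : WithTop ℕ∞) ≤ ((⊤ : ℕ∞) : WithTop ℕ∞) := by norm_cast
  have c2 : ContDiffAt ℝ (⊤ : ℕ∞) (fun q => EL L y K A.c A.j (A.Pm q)) q :=
    b1.comp q (c1.restrict_scalars ℝ)
  refine ⟨c2.sub contDiffAt_const, fun w => ?_⟩
  have e : (fun q => EL L y K A.c A.j (A.Pm q) - P.B) =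
      fun q => EL L y K A.c A.j (A.Pm q) + (-P.B) := by
    funext q; ring
  rw [e, lvE_add (c2.of_le two) contDiffAt_const, lvE_const, add_zero]
  have h3 := lvE_comp (c1.of_le two) (b1.of_le two) w
  have e2 : (EL L y K A.c A.j) ∘ A.Pm = fun q => EL L y K A.c A.j (A.Pm q) := rfl
  rw [e2] at h3
  rw [h3]
  exact b2 _

/-- **the estimates in a tube chart** -/
theorem tubeOut (hR : RetStmt U) : TubeOut P D := by
  have two : (2 : WithTop ℕ∞) ≤ ((⊤ : ℕ∞) : WithTop ℕ∞) := by norm_cast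
  have congr_sm : ∀ {G : ℂ × ℂ → ℝ}, (∀ᶠ q in D.Fl, P.Φ (D.X q) = G q) →
      (∀ᶠ q in D.Fl, ContDiffAt ℝ (⊤ : ℕ∞) G q ∧ ∀ w, 0 ≤ lvE G q w) →
      ∀ᶠ q in D.Fl, ContDiffAt ℝ (⊤ : ℕ∞) (P.Φ ∘ D.X) q ∧ ∀ w, 0 ≤ lvE (P.Φ ∘ D.X) q w := by
    intro G h1 h2
    filter_upwards [ev_ev D h1, h2] with q a1 a2
    have e : P.Φ ∘ D.X =ᶠ[𝓝 q] G := a1
    refine ⟨a2.1.congr_of_eventuallyEq e, fun w => ?_⟩
    rw [lvE_congr e]
    exact a2.2 w
  by_cases hna : NA P (q₀ := q₀)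
  · -- no attachment
    have hO := hna.om P D
    have hunk := hna.unk P D
    have hΦ : ∀ᶠ q in D.Fl, P.Φ (D.X q) = FV P D q := by
      filter_upwards [RV_uniq P D hR, RV_ex P D hR hO, RE_small P D hR hna] with q a1 a2 a3
      exact WPar.Φ_V a2 (fun a ha => (a1 a ha).2) a3
    have ht := FV_tend P D hunk
    refine ⟨congr_sm hΦ (FV_sm P D hunk), ⟨P.h v q₀ + 1, ?_⟩, fun _ => ⟨-P.h v q₀ + 1, ?_⟩,
      fun _ _ => hΦ, fun hk => absurd hk hunk⟩
    · filter_upwards [hΦ, ht.eventually (gt_mem_nhds (lt_add_one _))] with q a1 a2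
      rw [a1]
      unfold FV
      linarith
    · filter_upwards [hΦ, ht.eventually (lt_mem_nhds (sub_one_lt _))] with q a1 a2
      rw [a1]
      unfold FV
      linarith
  · obtain ⟨A⟩ := (na_or_att P D hR).resolve_left hna
    have hRE := RE_uniq P D hR A.hE A.ev A.s1 A.s2
    obtain ⟨C₂, hub⟩ := A.ub
    have hnat : NA P (q₀ := q₀) → False := hna
    by_cases hO : q₀ ∈ Om K P.γ1 P.κ v
    · -- transition
      have hunk : q₀ ∉ Kd P v := by
        rintro ⟨c', j', k1, k2, k3, k4⟩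
        exact hO.2.2 c' j' k1 k2 k3 0 (by rw [norm_zero]; exact P.κ_pos.le) k4.symm
      have hΦ : ∀ᶠ q in D.Fl, P.Φ (D.X q) = smx (FV P D q) (EL L y K A.c A.j (A.Pm q) - P.B) := by
        filter_upwards [RV_uniq P D hR, RV_ex P D hR hO, hRE] with q a1 a2 a3
        exact WPar.Φ_VE a2 (fun a ha => (a1 a ha).2) a3.1 a3.2
      have ht := FV_tend P D hunk
      have hG : ∀ᶠ q in D.Fl, ContDiffAt ℝ (⊤ : ℕ∞)
          (fun q => smx (FV P D q) (EL L y K A.c A.j (A.Pm q) - P.B)) q ∧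
          ∀ w, 0 ≤ lvE (fun q => smx (FV P D q) (EL L y K A.c A.j (A.Pm q) - P.B)) q w := by
        filter_upwards [FV_sm P D hunk, EP_sm P D A] with q a1 a2
        exact ⟨smx_contDiffAt le_rfl a1.1 a2.1, fun w => lvE_smx_nonneg (a1.1.of_le two)
          (a2.1.of_le two) w (a1.2 w) (a2.2 w)⟩
      refine ⟨congr_sm hΦ hG, ⟨max (P.h v q₀ + 1) (C₂ - P.B) + 1, ?_⟩, fun _ => ⟨-P.h v q₀ + 1, ?_⟩,
        fun n1 n2 => (hnat ⟨n1, n2⟩).elim, fun hk => absurd hk hunk⟩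
      · filter_upwards [hΦ, ht.eventually (gt_mem_nhds (lt_add_one _)), hub] with q a1 a2 a3
        rw [a1]
        refine (smx_le _ _).trans ?_
        have m1 := le_max_left (P.h v q₀ + 1) (C₂ - P.B)
        have m2 := le_max_right (P.h v q₀ + 1) (C₂ - P.B)
        have : max (FV P D q) (EL L y K A.c A.j (A.Pm q) - P.B) ≤
            y (lab U ⟨v, D.hv⟩ q₀) * Real.log (‖q.1‖ ^ 2) + max (P.h v q₀ + 1) (C₂ - P.B) := by
          refine max_le ?_ (by linarith)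
          unfold FV
          linarith
        linarith
      · filter_upwards [hΦ, ht.eventually (lt_mem_nhds (sub_one_lt _))] with q a1 a2
        rw [a1]
        refine le_trans ?_ (le_smx_left _ _)
        unfold FV
        linarith
    · -- outside of the core
      have hΦ : ∀ᶠ q in D.Fl, P.Φ (D.X q) = EL L y K A.c A.j (A.Pm q) - P.B := by
        filter_upwards [RV_small P D hR A hO, hRE] with q a1 a3
        exact WPar.Φ_E a3.1 a3.2 a1
      refine ⟨congr_sm hΦ (EP_sm P D A), ⟨C₂ - P.B, ?_⟩, fun hunk => ?_,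
        fun n1 n2 => (hnat ⟨n1, n2⟩).elim, fun hk => ?_⟩
      · filter_upwards [hΦ, hub] with q a1 a2
        rw [a1]
        linarith
      · rcases A.alt with ⟨-, sl, u, t1, -, -⟩ | ⟨hk, -⟩
        · refine ⟨-(sl * u) + 1 + P.B, ?_⟩
          filter_upwards [hΦ, t1.eventually (lt_mem_nhds (sub_one_lt _))] with q a1 a2
          rw [a1]
          linarith
        · exact absurd hk hunk
      · filter_upwards [hΦ, hRE] with q a1 a2 b hb
        rw [a1, a2.2 b hb]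

end tube

end Crest.Agent.R257.Wt_258
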