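import Mathlib
import Crest.Agent.R257.BPDefs_258
import Crest.Agent.R257.T3_387
import Crest.Agent.R257.Flag3A_799

/-!
Row 257 (S0395), part C, **C-TUBE** (helper941), file 2:
* Taylor coefficients of the branches and contact orders (`co_sub_lt`, `co_sub_eq`, `del_eq`);
* canonical centres `exists_centre` (`φ j = v.2`, `v.1 ∈ lev j`, `Sp j v.1 = sp v`, `vx j v.1 = v`);
* `tub T hC : Tub T` (canonical radii `rho`, `1/2`-Lipschitz), `exists_Tub`.
-/

set_option autoImplicit false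
set_option linter.unusedSectionVars false

open Polynomial Set Filter Topology Metric
open Crest.AlgGeometry.Germ Crest.Agent.R257.AJ387 Crest.Agent.R257.T387
open Crest.Agent.R257.BP_258

noncomputable section

namespace Crest.Agent.R257.Tb_941

lemma iteratedDeriv_eval (p : ℂ[X]) (m : ℕ) :
    iteratedDeriv m (fun s => p.eval s) = fun x => (derivative^[m] p).eval x := by
  induction m with
  | zero => simp
  | succ m ih =>
    rw [iteratedDeriv_succ, ih, Function.iterate_succ_apply']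
    funext x
    exact Polynomial.deriv _

lemma iteratedDeriv_eval_zero (p : ℂ[X]) (m : ℕ) :
    iteratedDeriv m (fun s => p.eval s) 0 / (m.factorial : ℂ) = p.coeff m := by
  rw [iteratedDeriv_eval]
  simp only
  rw [← coeff_zero_eq_eval_zero, coeff_iterate_derivative, zero_add, Nat.descFactorial_self,
    nsmul_eq_mul, mul_div_cancel_left₀]
  exact_mod_cast Nat.factorial_ne_zero m

lemma iter_lt {n D : ℕ} (hn : n < D) {u : ℂ → ℂ} (hu : AnalyticAt ℂ u 0) :
    iteratedDeriv n (fun s => s ^ D * u s) 0 = 0 := by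
  have h1 : (fun s : ℂ => s ^ D * u s) = fun s => s ^ n * (s ^ (D - n) * u s) := by
    funext s
    rw [← mul_assoc, ← pow_add, Nat.add_sub_cancel' hn.le]
  have h3 : AnalyticAt ℂ (fun s : ℂ => s ^ (D - n) * u s) 0 :=
    (analyticAt_id (𝕜 := ℂ) (z := (0 : ℂ))).fun_pow (D - n) |>.fun_mul hu
  rw [h1, Flag3_799.iter_pow n _ h3]
  have h2 : D - n ≠ 0 := by omega
  simp [zero_pow h2]

variable {f : (Fin 3 → ℂ) → ℂ} {T : TB f}

lemma zero_mem : (0 : ℂ) ∈ ball (0 : ℂ) T.ρ := mem_ball_self T.ρ_pos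

lemma co_of_poly {j : Fin T.m} {p : ℂ[X]} (h : ∀ s ∈ ball (0 : ℂ) T.ρ, T.φ j s = p.eval s)
    (n : ℕ) : co T j n = p.coeff n := by
  have h1 : T.φ j =ᶠ[𝓝 0] fun s => p.eval s := by
    filter_upwards [ball_mem_nhds (0 : ℂ) T.ρ_pos] with s hs using h s hs
  unfold co
  rw [h1.iteratedDeriv_eq, iteratedDeriv_eval_zero]

lemma coeff_tr (i : Fin T.m) (k n : ℕ) :
    (tr T i k).coeff n = if n < k then co T i n else 0 := by
  unfold tr
  rw [finsetSum_coeff]
  simp only [coeff_C_mul, coeff_X_pow]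
  by_cases hn : n < k
  · rw [if_pos hn, Finset.sum_eq_single n]
    · simp
    · intro m _ hm
      simp [Ne.symm hm]
    · intro h
      exact absurd (Finset.mem_range.2 hn) h
  · rw [if_neg hn]
    refine Finset.sum_eq_zero fun m hm => ?_
    have : n ≠ m := by
      have := Finset.mem_range.1 hm
      omega
    simp [this]

lemma tr_eq_iff {a b : Fin T.m} {k : ℕ} :
    tr T a k = tr T b k ↔ ∀ n < k, co T a n = co T b n := by
  constructor
  · intro h n hn
    have h1 := congrArg (fun p => p.coeff n) h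
    simpa [coeff_tr, hn] using h1
  · intro h
    ext n
    rw [coeff_tr, coeff_tr]
    split_ifs with hn
    · exact h n hn
    · rfl

lemma co_sub {a b : Fin T.m} (hab : a ≠ b) (n : ℕ) : co T a n - co T b n =
    iteratedDeriv n (fun s => s ^ T.del a b * T.u a b s) 0 / (n.factorial : ℂ) := by
  have h1 : (fun s => s ^ T.del a b * T.u a b s) =ᶠ[𝓝 0] (T.φ a - T.φ b) := by
    filter_upwards [ball_mem_nhds (0 : ℂ) T.ρ_pos] with s hs
    exact (T.φ_sub a b hab s hs).symm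
  rw [h1.iteratedDeriv_eq, iteratedDeriv_sub, co, co, sub_div]
  · exact (T.φ_an a 0 zero_mem).contDiffAt
  · exact (T.φ_an b 0 zero_mem).contDiffAt

lemma co_sub_lt {a b : Fin T.m} (hab : a ≠ b) {n : ℕ} (hn : n < T.del a b) :
    co T a n = co T b n := by
  have h1 := co_sub hab n
  rw [iter_lt hn (T.u_an a b hab 0 zero_mem), zero_div] at h1
  exact sub_eq_zero.1 h1

lemma co_sub_eq {a b : Fin T.m} (hab : a ≠ b) :
    co T a (T.del a b) - co T b (T.del a b) = T.u a b 0 := by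
  rw [co_sub hab, Flag3_799.iter_pow _ _ (T.u_an a b hab 0 zero_mem), mul_div_cancel_left₀]
  exact_mod_cast Nat.factorial_ne_zero _

lemma co_ne {a b : Fin T.m} (hab : a ≠ b) : co T a (T.del a b) ≠ co T b (T.del a b) := by
  intro h
  have h1 := co_sub_eq hab
  rw [h, sub_self] at h1
  exact T.u_ne a b hab 0 zero_mem h1.symm

lemma del_eq {a b : Fin T.m} (hab : a ≠ b) {k : ℕ} (h1 : ∀ n < k, co T a n = co T b n)
    (h2 : co T a k ≠ co T b k) : T.del a b = k := by
  rcases lt_trichotomy (T.del a b) k with h | h | h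
  · exact absurd (h1 _ h) (co_ne hab)
  · exact h
  · exact absurd (co_sub_lt hab h) h2

lemma mem_Vs {v : Vtx} : v ∈ Vs T ↔ ∃ i, ∃ k ∈ T.lev i, v = vx T i k := by
  classical
  unfold Vs
  simp only [Finset.mem_biUnion, Finset.mem_univ, true_and, Finset.mem_image]
  constructor
  · rintro ⟨i, k, hk, rfl⟩; exact ⟨i, k, hk, rfl⟩
  · rintro ⟨i, k, hk, rfl⟩; exact ⟨i, k, hk, rfl⟩

lemma mem_sp {v : Vtx} {w : ℂ} : w ∈ sp T v ↔ ∃ l, tr T l v.1 = v.2 ∧ co T l v.1 = w := by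
  classical
  unfold sp
  simp only [Finset.mem_image, Finset.mem_filter, Finset.mem_univ, true_and]

lemma mem_lev {i : Fin T.m} {k : ℕ} : k ∈ T.lev i ↔ k = 1 ∨ ∃ l, l ≠ i ∧ T.del i l = k := by
  unfold TB.lev
  simp only [Finset.mem_insert, Finset.mem_image, Finset.mem_erase, Finset.mem_univ, and_true]

lemma mem_Sp {i : Fin T.m} {k : ℕ} {w : ℂ} :
    w ∈ T.Sp i k ↔ w = 0 ∨ ∃ l, (l ≠ i ∧ T.del i l = k) ∧ -T.u i l 0 = w := by
  unfold TB.Sp
  simp only [Finset.mem_insert, Finset.mem_image, Finset.mem_filter, Finset.mem_univ, true_and]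

/-- properties of a canonical centre -/
structure Cent (v : Vtx) (j : Fin T.m) : Prop where
  eq : ∀ s ∈ ball (0 : ℂ) T.ρ, T.φ j s = v.2.eval s
  lev : v.1 ∈ T.lev j
  tr : BP_258.tr T j v.1 = v.2
  Sp : T.Sp j v.1 = sp T v

lemma Cent.vx {v : Vtx} {j : Fin T.m} (h : Cent v j) : vx T j v.1 = v := Prod.ext rfl h.tr

lemma cent_of {v : Vtx} (hv : v ∈ Vs T) {j : Fin T.m}
    (hj : ∀ s ∈ ball (0 : ℂ) T.ρ, T.φ j s = v.2.eval s) : Cent v j := by
  obtain ⟨i, k, hk, rfl⟩ := mem_Vs.1 hv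
  have hco : ∀ n, co T j n = if n < k then co T i n else 0 := fun n => by
    rw [co_of_poly hj n]
    exact coeff_tr i k n
  have hcok : co T j k = 0 := by rw [hco, if_neg (lt_irrefl _)]
  have hlt : ∀ n < k, co T j n = co T i n := fun n hn => by rw [hco, if_pos hn]
  have htr : tr T j k = tr T i k := tr_eq_iff.2 hlt
  refine ⟨hj, ?_, htr, ?_⟩
  · -- the level
    change k ∈ T.lev j
    by_cases hij : i = j
    · rw [← hij]; exact hk
    rcases mem_lev.1 hk with h1 | ⟨l, hl, hdl⟩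
    · rw [h1]; exact T.one_mem_lev j
    · rw [mem_lev]
      right
      by_cases hlk : co T l k = 0
      · have h2 : co T i k ≠ 0 := by
          intro h3
          have h4 := co_ne (Ne.symm hl)
          rw [hdl, h3, hlk] at h4
          exact h4 rfl
        exact ⟨i, hij, del_eq (Ne.symm hij) hlt (by rw [hcok]; exact h2.symm)⟩
      · have h2 : l ≠ j := fun h => hlk (by rw [h]; exact hcok)
        refine ⟨l, h2, del_eq (Ne.symm h2) (fun n hn => ?_) (by rw [hcok]; exact Ne.symm hlk)⟩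
        rw [hlt n hn]
        exact co_sub_lt (Ne.symm hl) (by rw [hdl]; exact hn)
  · ext w
    change w ∈ T.Sp j k ↔ w ∈ sp T (vx T i k)
    rw [mem_Sp, mem_sp]
    change _ ↔ ∃ l, tr T l k = tr T i k ∧ co T l k = w
    rw [← htr]
    constructor
    · rintro (rfl | ⟨l, ⟨h1, h2⟩, h3⟩)
      · exact ⟨j, rfl, hcok⟩
      · refine ⟨l, tr_eq_iff.2 fun n hn => (co_sub_lt (Ne.symm h1) (by rw [h2]; exact hn)).symm, ?_⟩
        have h4 := co_sub_eq (Ne.symm h1)
        rw [h2, hcok, zero_sub] at h4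
        rw [← h3, ← h4, neg_neg]
    · rintro ⟨l, h1, h2⟩
      by_cases hlj : l = j
      · left
        rw [← h2, hlj, hcok]
      · rcases lt_trichotomy (T.del j l) k with h | h | h
        · exact absurd (tr_eq_iff.1 h1 _ h) (co_ne (Ne.symm hlj)).symm
        · right
          refine ⟨l, ⟨hlj, h⟩, ?_⟩
          have h4 := co_sub_eq (Ne.symm hlj)
          rw [h, hcok, zero_sub] at h4
          rw [← h2, ← h4, neg_neg]
        · left
          rw [← h2, ← co_sub_lt (Ne.symm hlj) h, hcok]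

theorem exists_centre (hC : Clo T) {v : Vtx} (hv : v ∈ Vs T) : ∃ j : Fin T.m, Cent v j := by
  obtain ⟨i, k, hk, rfl⟩ := mem_Vs.1 hv
  obtain ⟨j, hj⟩ := hC.tr_mem i k hk
  exact ⟨j, cent_of hv hj⟩

/-! ### the radii -/

/-- good radius -/
structure Gd (v : Vtx) (w : ℂ) (r : ℝ) : Prop where
  pos : 0 < r
  le : r ≤ 1
  nsp : ∀ w' ∈ ball w r, w' ∉ sp T v
  ex : ∃ Z : Fin T.d → ℂ × ℂ → ℂ,
    (∀ j, AnalyticOnNhd ℂ (Z j) (ball 0 r ×ˢ ball w r)) ∧
    (∀ q ∈ ball (0 : ℂ) r ×ˢ ball w r, (q.1, yv T v q) ∈ BD 1 T.R ∧ ‖q.1‖ ^ T.M < T.ρ ∧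
      T.Q (q.1, yv T v q) = ∏ j, (X - C (Z j q))) ∧
    (∀ q ∈ ball (0 : ℂ) r ×ˢ ball w r, q.1 ≠ 0 → Function.Injective fun j => Z j q)

theorem exists_Gd (hC : Clo T) {v : Vtx} (hv : v ∈ Vs T) {w : ℂ} (hw : w ∉ sp T v) :
    ∃ r, Gd (T := T) v w r := by
  obtain ⟨j, hj⟩ := exists_centre hC hv
  have hval : T.Valid (.vert j v.1 w) := ⟨hj.lev, by rw [hj.Sp]; exact hw⟩
  obtain ⟨r₀, hr₀, hr⟩ := TB.sheets T _ hval
  have hop : IsOpen ((sp T v : Set ℂ)ᶜ) := (sp T v).finite_toSet.isClosed.isOpen_compl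
  obtain ⟨r₁, hr₁, hsub⟩ := Metric.isOpen_iff.1 hop w (by simpa using hw)
  have hpos : 0 < min (min r₀ r₁) 1 := lt_min (lt_min hr₀ hr₁) one_pos
  obtain ⟨ζ, hζ⟩ := hr (min (min r₀ r₁) 1) hpos ((min_le_left _ _).trans (min_le_left _ _))
  set r := min (min r₀ r₁) 1 with hrdef
  have hmem : ∀ q : ℂ × ℂ, q ∈ ball (0 : ℂ) r ×ˢ ball w r → (q.1, q.2 - w) ∈ BD r r := by
    rintro ⟨s, w'⟩ ⟨h1, h2⟩
    exact ⟨by simpa using h1, by simpa [dist_eq_norm] using h2⟩
  have hmap : ∀ q : ℂ × ℂ, q ∈ ball (0 : ℂ) r ×ˢ ball w r →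
      T.map (.vert j v.1 w) (q.1, q.2 - w) = (q.1, yv T v q) := by
    intro q hq
    have h1 := (hζ.mem _ (hmem q hq)).2
    have h2 : ‖q.1‖ ^ T.M < T.ρ := h1
    have h3 : T.φ j (q.1 ^ T.M) = v.2.eval (q.1 ^ T.M) := hj.eq _ (by simpa using h2)
    simp only [TB.map, yv]
    rw [h3]
    congr 2
    ring
  refine ⟨r, hpos, min_le_right _ _, fun w' hw' => ?_, fun l q => ζ l (q.1, q.2 - w), ?_, ?_, ?_⟩
  · have h1 : w' ∈ ball w r₁ := ball_subset_ball ((min_le_left _ _).trans (min_le_right _ _)) hw'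
    simpa using hsub h1
  · intro l q hq
    exact AnalyticAt.comp_of_eq (hζ.an l _ (hmem q hq))
      (analyticAt_fst.prod (analyticAt_snd.sub analyticAt_const)) rfl
  · intro q hq
    have h1 := hζ.mem _ (hmem q hq)
    rw [hmap q hq] at h1
    refine ⟨h1.1, h1.2, ?_⟩
    rw [← hmap q hq]
    exact hζ.split _ (hmem q hq)
  · intro q hq hq0
    exact hζ.inj _ (hmem q hq) hq0

/-- the values of which `rho` is the supremum -/
def SS (T : TB f) (v : Vtx) (w : ℂ) : Set ℝ :=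
  {t | ∃ w₁ r, Gd (T := T) v w₁ r ∧ t = r - dist w w₁}

/-- the radius of the tube -/
def rho (T : TB f) (v : Vtx) (w : ℂ) : ℝ := sSup (SS T v w) / 2

lemma bdd_SS (v : Vtx) (w : ℂ) : BddAbove (SS T v w) := by
  refine ⟨1, ?_⟩
  rintro t ⟨w₁, r, h, rfl⟩
  linarith [h.le, dist_nonneg (x := w) (y := w₁)]

lemma rho_lip {v : Vtx} {w w' : ℂ} (hne : (SS T v w).Nonempty) :
    rho T v w ≤ rho T v w' + dist w w' / 2 := by
  have h1 : sSup (SS T v w) ≤ sSup (SS T v w') + dist w w' := by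
    refine csSup_le hne ?_
    rintro t ⟨w₁, r, h, rfl⟩
    have h2 : r - dist w' w₁ ≤ sSup (SS T v w') := le_csSup (bdd_SS v w') ⟨w₁, r, h, rfl⟩
    have h3 : dist w' w₁ ≤ dist w' w + dist w w₁ := dist_triangle _ _ _
    rw [dist_comm w' w] at h3
    linarith
  unfold rho
  linarith

lemma nonempty_SS {v : Vtx} {w w' : ℂ} (h : (SS T v w).Nonempty) : (SS T v w').Nonempty := by
  obtain ⟨t, w₁, r, h, -⟩ := h
  exact ⟨_, w₁, r, h, rfl⟩

lemma rho_lip' {v : Vtx} {w w' : ℂ} (hne : (SS T v w).Nonempty) :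
    |rho T v w - rho T v w'| ≤ dist w w' / 2 := by
  rw [abs_sub_le_iff]
  constructor
  · linarith [rho_lip (w' := w') hne]
  · have := rho_lip (w' := w) (nonempty_SS (w' := w') hne)
    rw [dist_comm] at this
    linarith

lemma continuous_rho (v : Vtx) : Continuous (rho T v) := by
  by_cases hne : (SS T v 0).Nonempty
  · rw [Metric.continuous_iff]
    intro w ε hε
    refine ⟨ε, hε, fun w' hw' => ?_⟩
    rw [Real.dist_eq]
    have := rho_lip' (w := w') (w' := w) (nonempty_SS hne)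
    have h0 := dist_nonneg (x := w') (y := w)
    linarith
  · have h1 : ∀ w, rho T v w = 0 := by
      intro w
      have h2 : SS T v w = ∅ := by
        rw [← Set.not_nonempty_iff_eq_empty]
        exact fun h => hne (nonempty_SS h)
      unfold rho
      rw [h2]; simp
    have h2 : rho T v = fun _ => 0 := funext h1
    rw [h2]; exact continuous_const

lemma rho_pos (hC : Clo T) {v : Vtx} (hv : v ∈ Vs T) {w : ℂ} (hw : w ∉ sp T v) :
    0 < rho T v w := by
  obtain ⟨r, hr⟩ := exists_Gd hC hv hw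
  have h1 : r ≤ sSup (SS T v w) := le_csSup (bdd_SS v w) ⟨w, r, hr, by simp⟩
  unfold rho
  linarith [hr.pos]

/-- **the tubes** -/
def tub (T : TB f) (hC : Clo T) : Tub T where
  ρ := rho T
  cont v _ := (continuous_rho v).continuousOn
  pos v hv w hw := rho_pos hC hv hw
  loc v hv w₀ hw₀ := by
    have h0 := rho_pos hC hv hw₀
    set m := sSup (SS T v w₀) with hm
    have hρm : rho T v w₀ = m / 2 := rfl
    have hm0 : 0 < m := by linarith
    have hne : (SS T v w₀).Nonempty := by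
      obtain ⟨r, hr⟩ := exists_Gd hC hv hw₀
      exact ⟨_, w₀, r, hr, rfl⟩
    obtain ⟨t, ⟨w₁, r₁, hg, rfl⟩, ht⟩ := exists_lt_of_lt_csSup hne
      (show 3 / 4 * m < sSup (SS T v w₀) by rw [← hm]; linarith)
    obtain ⟨Z, h1, h2, h3⟩ := hg.ex
    have hsub1 : ball w₀ (m / 4) ⊆ ball w₁ r₁ := by
      intro w hw
      rw [mem_ball] at hw ⊢
      have := dist_triangle w w₀ w₁
      linarith
    have hsub2 : ball (0 : ℂ) (3 / 4 * m) ⊆ ball (0 : ℂ) r₁ := by
      refine ball_subset_ball ?_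
      linarith [dist_nonneg (x := w₀) (y := w₁)]
    have hsub : ball (0 : ℂ) (3 / 4 * m) ×ˢ ball w₀ (m / 4) ⊆ ball (0 : ℂ) r₁ ×ˢ ball w₁ r₁ :=
      prod_mono hsub2 hsub1
    refine ⟨m / 4, by positivity, 3 / 4 * m, by positivity, Z, ?_, ?_, ?_, ?_⟩
    · intro w hw
      refine ⟨hg.nsp w (hsub1 hw), ?_⟩
      have h4 := rho_lip (w' := w₀) (nonempty_SS (w' := w) hne)
      rw [mem_ball] at hw
      rw [hρm] at h4
      linarith
    · exact fun j => (h1 j).mono hsub
    · exact fun q hq => h2 q (hsub hq)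
    · exact fun q hq => h3 q (hsub hq)

theorem exists_Tub (T : TB f) (hC : Clo T) : Nonempty (Tub T) := ⟨tub T hC⟩

end Crest.Agent.R257.Tb_941
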