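import Mathlib
import Crest.Agent.R257.Tb1_941
import Crest.Agent.R257.Tb2_941
import Crest.Agent.R257.GrH_547

/-!
Row 257 (S0395), part C, C-LAB second half (helper387): every component of every vertex is the end of a
sheet of its parent edge and of a sheet of every vertex chart; the matrix `Mx L` is an intersection form.
-/

set_option autoImplicit false
set_option linter.unusedSectionVars false

open Polynomial Set Filter Topology Metric
open Crest.AlgGeometry.Germ Crest.Agent.R257.AJ387 Crest.Agent.R257.T387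
open Crest.Agent.R257.Gr1_157 Crest.Agent.R257.GrH_547 Crest.Agent.R257.BP_258 Crest.Agent.R257.Tb_941

noncomputable section

namespace Crest.Agent.R257.LabI_387

variable {f : (Fin 3 → ℂ) → ℂ} {T : TB f} {U : Tub T} {S : Sh T} (L : Lab U S)

/-- a chart point over `(s, w)` in the tube retracts onto any given point over `w` on a suitable sheet -/
theorem exists_sheet {v : Vtx} (hv : v ∈ Vs T) {c : Ch T.m} (hc : T.Valid c) {p : ℂ × ℂ}
    (hp : p ∈ BD (2 * S.r c) (2 * S.r c)) (hs : (T.map c p).1 ≠ 0) {x : XV U v}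
    (hw : wv T v (T.map c p) = pV U v x) (hlt : ‖(T.map c p).1‖ < U.ρ v (pV U v x)) :
    ∃ j, IsRet U v (wc S c j p) x := by
  have hnsp : pV U v x ∉ sp T v := x.2.2.1
  obtain ⟨r, R, Z, h⟩ := exists_LS (U := U) hv hnsp
  have hball : pV U v x ∈ ball (pV U v x) r := mem_ball_self h.r_pos
  obtain ⟨l, hl⟩ := h.sg_surj hv x hball
  have h1 := h.isRet hv l hball hs hlt
  have hy : yv T v ((T.map c p).1, pV U v x) = (T.map c p).2 := by
    rw [← hw]
    exact yv_wv hs _
  have hroot := h.root (h.mem_of hball hlt) l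
  simp only at hroot
  rw [hy] at hroot h1
  have hq : T.Q (T.map c p) = ∏ j, (X - C (S.ζ c j p)) := (S.sheets c hc).split p hp
  have hroot' : (T.Q (T.map c p)).eval (Z l ((T.map c p).1, pV U v x)) = 0 := hroot
  rw [hq, eval_prod, Finset.prod_eq_zero_iff] at hroot'
  obtain ⟨j, -, hj⟩ := hroot'
  refine ⟨j, ?_⟩
  have h2 : wc S c j p = pt (Z l ((T.map c p).1, pV U v x)) ((T.map c p).1, (T.map c p).2) := by
    rw [wc]
    congr 1
    simp only [eval_sub, eval_X, eval_C] at hj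
    exact (sub_eq_zero.1 hj).symm
  rw [h2]
  rw [hl] at h1
  exact h1

lemma ec_ok {v : Vtx} (hv : v ∈ Vs T) : Ok S (ec S v) :=
  ⟨S.kp_cons v hv, v, hv, rfl, rfl, rfl⟩

lemma ci_cent {v : Vtx} (hv : v ∈ Vs T) : Cent (T := T) v (S.ci v) := cent_of hv (S.ci_eq v hv)

/-- in a canonical chart centred at the vertex the coordinate `w` is explicit -/
lemma wv_center {v : Vtx} (hv : v ∈ Vs T) {s y : ℂ} (hs : ‖s‖ ^ T.M < T.ρ) :
    wv T v (s, T.φ (S.ci v) (s ^ T.M) + y) = y / s ^ (T.M * v.1) := by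
  have h1 : s ^ T.M ∈ ball (0 : ℂ) T.ρ := by rwa [mem_ball_zero_iff, norm_pow]
  simp only [wv]
  rw [S.ci_eq v hv _ h1, add_sub_cancel_left]

/-- small positive numbers -/
lemma exists_small {a b : ℝ} (ha : 0 < a) (hb : 0 < b) : ∃ t : ℝ, 0 < t ∧ t < a ∧ t < b :=
  ⟨min a b / 2, by positivity, by have := min_le_left a b; have := lt_min ha hb; linarith,
    by have := min_le_right a b; have := lt_min ha hb; linarith⟩

/-- **every component is the end of a sheet of the parent edge** -/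
theorem surj2 (E : II U) : ∃ j, L.e2 (ec S E.1.1) j = some E := by
  obtain ⟨⟨v, hv⟩, E₀⟩ := E
  obtain ⟨x₀, rfl⟩ := ConnectedComponents.surjective_coe E₀
  have hok := ec_ok (S := S) hv
  have hcent := ci_cent (S := S) hv
  set c : Ch T.m := ec S v with hc
  have hr := S.pos c
  have hkk : S.kp v < v.1 := (S.kp_cons v hv).2.2.1
  -- the labels of the sheets
  have hlab : ∀ j, ∃ E : II U, L.e2 c j = some E ∧ E.1.1 = v := by
    intro j
    have h1 := L.v_e2 c hok j
    have h2 : v2 T c = some (vx T (S.ci v) v.1) := rfl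
    rw [h2, hcent.vx] at h1
    cases he : L.e2 c j with
    | none => rw [he] at h1; simp at h1
    | some E =>
      rw [he] at h1
      exact ⟨E, rfl, by simpa using h1⟩
  choose E hE hEv using hlab
  -- one radius for all sheets
  have hnear := fun j => L.near2 c hok j (E j) (hE j) (S.r c) hr
  choose a ha hnear using hnear
  have hd : Nonempty (Fin T.d) := ⟨⟨0, T.d_pos⟩⟩
  obtain ⟨j₀, hj₀⟩ := Finite.exists_min a
  -- the point `(r, β)`
  set α : ℂ := ((S.r c : ℝ) : ℂ) with hα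
  have hα0 : α ≠ 0 := by rw [hα]; exact_mod_cast hr.ne'
  have hαn : ‖α‖ = S.r c := by rw [hα, Complex.norm_real, Real.norm_of_nonneg hr.le]
  set w : ℂ := (α ^ (T.M * (v.1 - S.kp v)))⁻¹ with hw
  have hcoord : ∀ β : ℂ, β ≠ 0 → ‖β‖ < 2 * S.r c → wv T v (T.map c (α, β)) = w := by
    intro β hβ hβr
    have hp : (α, β) ∈ BD (2 * S.r c) (2 * S.r c) := ⟨by rw [hαn]; linarith, hβr⟩
    have hs := ((S.sheets c hok.1).mem _ hp).2
    have h1 : T.map c (α, β) = (α * β, T.φ (S.ci v) ((α * β) ^ T.M) +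
      α ^ (T.M * S.kp v) * β ^ (T.M * v.1)) := rfl
    rw [h1] at hs ⊢
    rw [wv_center hv hs, hw, mul_pow]
    have h2 : T.M * v.1 = T.M * (v.1 - S.kp v) + T.M * S.kp v := by
      rw [← mul_add]; congr 1; omega
    have h3 : α ^ (T.M * S.kp v) ≠ 0 := pow_ne_zero _ hα0
    have h4 : β ^ (T.M * v.1) ≠ 0 := pow_ne_zero _ hβ
    have h5 : α ^ (T.M * (v.1 - S.kp v)) ≠ 0 := pow_ne_zero _ hα0
    conv_lhs => rw [h2]
    rw [pow_add α, ← h2]
    field_simp
  have hInT : ∀ j, ∀ β : ℂ, 0 < ‖β‖ → ‖β‖ < a j → _ := fun j β h1 h2 =>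
    hnear j (α, β) h1 h2 (by rw [hαn]) (by rw [hαn])
  -- `w` is not special
  obtain ⟨t₀, ht₀, ht₀a, ht₀r⟩ := exists_small (ha j₀) (by positivity : 0 < 2 * S.r c)
  have hw0 : w ∉ sp T v := by
    have hn : ‖((t₀ : ℝ) : ℂ)‖ = t₀ := by rw [Complex.norm_real, Real.norm_of_nonneg ht₀.le]
    have h1 := (hInT j₀ ((t₀ : ℝ) : ℂ) (by rw [hn]; exact ht₀) (by rw [hn]; exact ht₀a)).1
    have h2 := h1.nsp
    rw [hEv j₀] at h2
    have h3 : wv T v ((wc S c j₀ (α, ((t₀ : ℝ) : ℂ))) 1, (wc S c j₀ (α, ((t₀ : ℝ) : ℂ))) 2) =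
        wv T v (T.map c (α, ((t₀ : ℝ) : ℂ))) := rfl
    rw [h3, hcoord _ (by exact_mod_cast ht₀.ne') (by rw [hn]; exact ht₀r)] at h2
    exact h2
  obtain ⟨x, hx, hxE⟩ := exists_pV hv x₀ hw0
  have hρ := U.pos v hv w hw0
  -- a small `β`
  obtain ⟨t₁, ht₁, ht₁a, ht₁b⟩ := exists_small ht₀ (div_pos hρ hr)
  have hn : ‖((t₁ : ℝ) : ℂ)‖ = t₁ := by rw [Complex.norm_real, Real.norm_of_nonneg ht₁.le]
  set β : ℂ := ((t₁ : ℝ) : ℂ) with hβ
  have hβ0 : β ≠ 0 := by rw [hβ]; exact_mod_cast ht₁.ne'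
  have hp : (α, β) ∈ BD (2 * S.r c) (2 * S.r c) :=
    ⟨by rw [hαn]; linarith, by show ‖β‖ < _; rw [hn]; linarith⟩
  have hs1 : (T.map c (α, β)).1 = α * β := rfl
  obtain ⟨j, hj⟩ := exists_sheet (S := S) (x := x) hv hok.1 hp
    (by rw [hs1]; exact mul_ne_zero hα0 hβ0)
    (by rw [hx]; exact hcoord β hβ0 (by rw [hn]; linarith)) (by
      rw [hs1, norm_mul, hαn, hn, hx]
      rwa [lt_div_iff₀' hr] at ht₁b)
  refine ⟨j, ?_⟩
  rw [hE j]
  have h1 := (hInT j β (by rw [hn]; exact ht₁) (by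
    rw [hn]; exact (ht₁a.trans ht₀a).trans_le (hj₀ j))).2
  -- transport along `(E j).1.1 = v`
  have key : ∀ (F : II U) (hF : F.1.1 = v), (∀ q, IsRet U F.1.1 (wc S c j (α, β)) q →
      (q : ConnectedComponents _) = F.2) → F = ⟨⟨v, hv⟩, (x : ConnectedComponents (XV U v))⟩ := by
    rintro ⟨⟨v', hv'⟩, F₀⟩ hF h2
    have hF' : v' = v := hF
    subst hF'
    have h3 := h2 x hj
    simp only at h3
    rw [← h3]
  rw [key (E j) (hEv j) h1, hxE]

/-- **every component is the end of a sheet of every canonical vertex chart** -/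
theorem surj1 (E : II U) {w₀ : ℂ} (hw₀ : w₀ ∉ sp T E.1.1) :
    ∃ j, L.e1 (.vert (S.ci E.1.1) E.1.1.1 w₀) j = some E := by
  obtain ⟨⟨v, hv⟩, E₀⟩ := E
  obtain ⟨x₀, rfl⟩ := ConnectedComponents.surjective_coe E₀
  have hcent := ci_cent (S := S) hv
  have hok : Ok S (.vert (S.ci v) v.1 w₀) :=
    ⟨⟨hcent.lev, by rw [hcent.Sp]; exact hw₀⟩, v, hv, rfl, rfl, hw₀⟩
  set c : Ch T.m := .vert (S.ci v) v.1 w₀ with hc
  have hr := S.pos c
  have hlab : ∀ j, ∃ E : II U, L.e1 c j = some E ∧ E.1.1 = v := by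
    intro j
    have h1 := L.v_e1 c hok j
    have h2 : v1 T c = some (vx T (S.ci v) v.1) := rfl
    rw [h2, hcent.vx] at h1
    cases he : L.e1 c j with
    | none => rw [he] at h1; simp at h1
    | some E =>
      rw [he] at h1
      exact ⟨E, rfl, by simpa using h1⟩
  choose E hE hEv using hlab
  have hnear := fun j => L.near1 c hok j (E j) (hE j) 1 one_pos
  choose a ha hnear using hnear
  have hd : Nonempty (Fin T.d) := ⟨⟨0, T.d_pos⟩⟩
  obtain ⟨j₀, hj₀⟩ := Finite.exists_min a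
  obtain ⟨x, hx, hxE⟩ := exists_pV hv x₀ hw₀
  have hρ := U.pos v hv w₀ hw₀
  obtain ⟨t₁, ht₁, ht₁a, ht₁b⟩ := exists_small (ha j₀) (lt_min hρ (by positivity : 0 < 2 * S.r c))
  have hn : ‖((t₁ : ℝ) : ℂ)‖ = t₁ := by rw [Complex.norm_real, Real.norm_of_nonneg ht₁.le]
  set s : ℂ := ((t₁ : ℝ) : ℂ) with hs
  have hs0 : s ≠ 0 := by rw [hs]; exact_mod_cast ht₁.ne'
  have hp : (s, (0 : ℂ)) ∈ BD (2 * S.r c) (2 * S.r c) :=
    ⟨by show ‖s‖ < _; rw [hn]; exact ht₁b.trans_le (min_le_right _ _), by simpa using hr⟩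
  have hs1 : (T.map c (s, 0)).1 = s := rfl
  have hcoord : wv T v (T.map c (s, 0)) = w₀ := by
    have hss := ((S.sheets c hok.1).mem _ hp).2
    have h1 : T.map c (s, 0) = (s, T.φ (S.ci v) (s ^ T.M) + s ^ (T.M * v.1) * (w₀ + 0)) := rfl
    rw [h1] at hss ⊢
    rw [wv_center hv hss, add_zero, mul_div_cancel_left₀ _ (pow_ne_zero _ hs0)]
  obtain ⟨j, hj⟩ := exists_sheet (S := S) (x := x) hv hok.1 hp
    (by rw [hs1]; exact hs0) (by rw [hx]; exact hcoord) (by
      rw [hs1, hn, hx]; exact ht₁b.trans_le (min_le_left _ _))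
  refine ⟨j, ?_⟩
  rw [hE j]
  have h1 := (hnear j (s, 0) (by show 0 < ‖s‖; rw [hn]; exact ht₁) (by
    show ‖s‖ < _; rw [hn]; exact ht₁a.trans_le (hj₀ j)) (by simpa using hr.le)
    (Or.inl trivial)).2
  have key : ∀ (F : II U) (hF : F.1.1 = v), (∀ q, IsRet U F.1.1 (wc S c j (s, 0)) q →
      (q : ConnectedComponents _) = F.2) → F = ⟨⟨v, hv⟩, (x : ConnectedComponents (XV U v))⟩ := by
    rintro ⟨⟨v', hv'⟩, F₀⟩ hF h2
    have hF' : v' = v := hF
    subst hF'
    have h3 := h2 x hj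
    simp only at h3
    rw [← h3]
  rw [key (E j) (hEv j) h1, hxE]

/-- every component is `e1` of a canonical vertex chart -/
theorem exists_vert (E : II U) : ∃ c, Ok S c ∧ IsV c ∧ ∃ j, L.e1 c j = some E := by
  obtain ⟨w₀, hw₀⟩ := Infinite.exists_notMem_finset (sp T E.1.1)
  have hcent := ci_cent (S := S) E.1.2
  obtain ⟨j, hj⟩ := surj1 L E hw₀
  exact ⟨.vert (S.ci E.1.1) E.1.1.1 w₀, ⟨⟨hcent.lev, by rw [hcent.Sp]; exact hw₀⟩, E.1.1, E.1.2, rfl,
    rfl, hw₀⟩, trivial, j, hj⟩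

/-! ### the intersection form -/

/-- half-edges: the sheets of the parent edges -/
abbrev HE (T : TB f) : Type := {v // v ∈ Vs T} × Fin T.d

/-- the parent end of a half-edge -/
def ha (h : HE T) : Option (II U) := L.e1 (ec S h.1.1) h.2

/-- the lower end of a half-edge -/
def hb (h : HE T) : Option (II U) := L.e2 (ec S h.1.1) h.2

/-- the conductance of a half-edge -/
def hc (S : Sh T) (h : HE T) : ℝ := cd S h.1.1

lemma hc_pos (h : HE T) : 0 < hc S h := by
  have h1 : S.kp h.1.1 < h.1.1.1 := (S.kp_cons _ h.1.2).2.2.1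
  have h2 : 0 < h.1.1.1 - S.kp h.1.1 := by omega
  have h3 := T.M_pos
  unfold hc cd
  positivity

/-- `Mx` is the matrix of the half-edge graph -/
theorem Mx_eq : Mx L = LM (ha L) (hb L) (hc S) := by
  classical
  funext E E'
  unfold LM Mx
  rw [Fintype.sum_prod_type]
  have h1 : ∀ g : Vtx → ℝ, ∑ v ∈ Vs T, g v = ∑ v : {v // v ∈ Vs T}, g v.1 := fun g =>
    (Finset.sum_coe_sort (Vs T) g).symm
  rw [h1]
  refine Finset.sum_congr rfl fun v _ => Finset.sum_congr rfl fun j _ => ?_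
  simp only [ha, hb, hc, dl]
  by_cases e1 : L.e1 (ec S v.1) j = some E
  · by_cases e2 : L.e2 (ec S v.1) j = some E
    · simp only [e1, e2, if_true, Option.some.injEq, one_mul]
    · simp only [e1, e2, if_true, if_false, Option.some.injEq, zero_mul, add_zero, one_mul]
      congr
  · by_cases e2 : L.e2 (ec S v.1) j = some E
    · simp only [e1, e2, if_true, if_false, Option.some.injEq, zero_mul, zero_add, one_mul]
      congr
    · simp only [e1, e2, if_false, zero_mul, add_zero]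

/-- the level of the parent end is smaller -/
lemma ha_lt {h : HE T} {E : II U} (hE : ha L h = some E) : E.1.1.1 < h.1.1.1 := by
  have h1 := L.v_e1 _ (ec_ok h.1.2) h.2
  have h2 : S.kp h.1.1 < h.1.1.1 := (S.kp_cons _ h.1.2).2.2.1
  unfold ha at hE
  rw [hE] at h1
  simp only [Option.map_some, ec, v1] at h1
  split_ifs at h1 with h3
  simp only [Option.some.injEq] at h1
  rw [h1]
  exact h2

lemma hb_lev {h : HE T} {E : II U} (hE : hb L h = some E) : E.1.1 = h.1.1 := by
  have h1 := L.v_e2 _ (ec_ok h.1.2) h.2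
  unfold hb at hE
  rw [hE] at h1
  simp only [Option.map_some, ec, v2, Option.some.injEq] at h1
  rw [h1, (ci_cent h.1.2).vx]

/-- **`Mx L` is negative definite** -/
theorem iform [Fintype (II U)] : IForm (Mx L) := by
  rw [Mx_eq]
  have hcp : ∀ h : HE T, 0 < hc S h := hc_pos
  refine ⟨LM_symm, fun i j hij => ?_, fun x hx => ?_⟩
  · rw [LM_off hcp hij]
    exact Finset.sum_nonneg fun h _ => mul_nonneg (hcp h).le (add_nonneg
      (mul_nonneg (dl_nonneg _ _) (dl_nonneg _ _)) (mul_nonneg (dl_nonneg _ _) (dl_nonneg _ _)))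
  · rw [dt_LM]
    have hnn : ∀ h ∈ Finset.univ, 0 ≤ hc S h * (ev x (ha L h) - ev x (hb L h)) ^ 2 :=
      fun h _ => mul_nonneg (hcp h).le (sq_nonneg _)
    rcases (Finset.sum_nonneg hnn).lt_or_eq with h | h
    · linarith
    · exfalso
      have h3 : ∀ h, ev x (ha L h) = ev x (hb L h) := by
        intro k
        have h4 := (Finset.sum_eq_zero_iff_of_nonneg hnn).1 h.symm k (Finset.mem_univ k)
        rcases mul_eq_zero.1 h4 with h5 | h5
        · exact absurd h5 (hcp k).ne'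
        · exact sub_eq_zero.1 (pow_eq_zero_iff (two_ne_zero) |>.1 h5)
      have h4 : ∀ (n : ℕ) (E : II U), E.1.1.1 = n → x E = 0 := by
        intro n
        induction n using Nat.strong_induction_on with
        | _ n ih =>
          intro E hE
          obtain ⟨j, hj⟩ := surj2 L E
          have h5 := h3 (E.1, j)
          have h6 : hb L (E.1, j) = some E := hj
          rw [h6, ev_some] at h5
          rw [← h5]
          cases h7 : ha L (E.1, j) with
          | none => rfl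
          | some E' =>
            rw [ev_some]
            exact ih _ (hE ▸ ha_lt L h7) E' rfl
      exact hx (funext fun E => h4 _ E rfl)

end Crest.Agent.R257.LabI_387
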