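import Crest.Agent.R257.Wt7_258
import Crest.Agent.R257.LabI_387

/-!
# Row 257 (S0395), C-WT, leaves (F1), (F2) (helper82): compactness and assembly

* `y_nn` : the values `y` of a superharmonic function are non-negative;
* `assemble` : `WTDStmt` from the local estimates `LocS` at the points of `{s = 0}`.
-/

set_option autoImplicit false
set_option linter.unusedSectionVars false
set_option linter.unusedVariables false

open Polynomial Set Filter Topology Metric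
open Crest.AlgGeometry.Germ Crest.Agent.R257.AJ387 Crest.Agent.R257.T387
open Crest.Agent.R257.Gr1_157 Crest.Agent.R257.HoB_843 Crest.Agent.R257.BP_258
open Crest.Agent.R257.Frm_547 Crest.Agent.R257.Lab_931 Crest.Agent.R257.Wt_258

noncomputable section

namespace Crest.Agent.R257.WtAs_82

variable {f : (Fin 3 → ℂ) → ℂ} {T : TB f} {U : Tub T} {S : Sh T}

lemma kc_nn (c : Ch T.m) : 0 ≤ kc (T := T) c := by
  cases c with
  | edge i k k' =>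
    show (0 : ℝ) ≤ 1 / (T.M * (k' - k : ℕ) : ℝ)
    positivity
  | leg i =>
    show (0 : ℝ) ≤ 1 / (T.M : ℝ)
    positivity
  | vert i k w₀ =>
    show (0 : ℝ) ≤ 1
    exact zero_le_one

/-- **(F2)** -/
theorem y_nn (L : Lab U S) [Fintype (II U)] : ∀ (y : II U → ℝ) (F : Finset (Ch T.m))
    (K : DKill S F), (∀ c ∈ F, Ok S c) → (∀ E, DSup L y K E) → ∀ E, 0 ≤ y E := by
  classical
  intro y F K hF hK
  refine nonneg_of (LabI_387.iform (L := L)) (S := Set.univ) (fun E _ => ?_)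
    (fun E h => absurd (mem_univ E) h)
  have h1 := hK E
  unfold DSup at h1
  have h2 : 0 ≤ ∑ c ∈ F, ∑ j, (if (c, j) ∈ K.κ then kc c * K.t (c, j) *
      ((K.a (c, j) : ℝ) * (if L.e1 c j = some E then 1 else 0) +
        (K.b (c, j) : ℝ) * (if L.e2 c j = some E then 1 else 0)) else 0) := by
    refine Finset.sum_nonneg fun c _ => Finset.sum_nonneg fun j _ => ?_
    split_ifs with hk
    all_goals first
      | exact le_rfl
      | (have := K.t_pos _ hk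
         have := kc_nn c
         positivity)
  linarith

/-! ### compactness -/

variable {L : Lab U S} {y : II U → ℝ} {F : Finset (Ch T.m)} {K : DKill S F}
variable [Fintype (II U)] {τ₀ τ₁ : ℝ}

lemma map1_cont (c : Ch T.m) : Continuous fun p : ℂ × ℂ => (T.map c p).1 := by
  cases c with
  | edge i k k' => exact continuous_fst.mul continuous_snd
  | leg i => exact continuous_fst
  | vert i k w₀ => exact continuous_fst

lemma LA_mono {P : WPar L y K τ₀ τ₁} {c : Ch T.m} {j : Fin T.d} {C C' c₀ c₀' : ℝ} {p : ℂ × ℂ}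
    (h : LA P c j C c₀ p) (hC : C ≤ C') (hc : c₀' ≤ c₀) : LA P c j C' c₀' p := by
  have hq : ∀ w : ℂ × ℂ, c₀' * (‖w.1‖ ^ 2 + ‖w.2‖ ^ 2) ≤ c₀ * (‖w.1‖ ^ 2 + ‖w.2‖ ^ 2) :=
    fun w => mul_le_mul_of_nonneg_right hc (by positivity)
  exact
    { sm := h.sm
      psh := h.psh
      ub := h.ub.trans (by linarith)
      lb := fun a => le_trans (by linarith) (h.lb a)
      kil := fun a b d => (h.kil a b d).trans hC
      st1 := fun a b d w => (hq w).trans (h.st1 a b d w)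
      st2 := fun a b d w => (hq w).trans (h.st2 a b d w)
      ks1 := fun a b d e g w => (hq w).trans (h.ks1 a b d e g w)
      ks2 := fun a b d e g w => (hq w).trans (h.ks2 a b d e g w) }

/-- uniform constants for one sheet of one chart -/
theorem one (P : WPar L y K τ₀ τ₁) (c : Ch T.m) (j : Fin T.d)
    (h : ∀ p₀ : ℂ × ℂ, ‖p₀.1‖ ≤ S.r c → ‖p₀.2‖ ≤ S.r c → (T.map c p₀).1 = 0 → LocS P c j p₀) :
    ∃ ρ C c₀ : ℝ, 0 < ρ ∧ 0 < c₀ ∧ ∀ p ∈ Og (S := S) c ρ, LA P c j C c₀ p := by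
  set Q : ℝ → ℝ → ℂ × ℂ → Prop := fun C c₀ p =>
    ‖p.1‖ < S.r c → ‖p.2‖ < S.r c → T.Gen c p → LA P c j C c₀ p with hQ
  set D : Set (ℂ × ℂ) := closedBall 0 (S.r c) ×ˢ closedBall 0 (S.r c) with hD
  have hDc : IsCompact D := (isCompact_closedBall _ _).prod (isCompact_closedBall _ _)
  set Kc : Set (ℂ × ℂ) := D ∩ {p | (T.map c p).1 = 0} with hKc
  have hKcc : IsCompact Kc :=
    hDc.inter_right (isClosed_eq (map1_cont c) continuous_const)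
  have h1 : ∃ C c₀ : ℝ, 0 < c₀ ∧ ∀ᶠ p in 𝓝ˢ Kc, Q C c₀ p := by
    refine hKcc.induction_on (p := fun A => ∃ C c₀ : ℝ, 0 < c₀ ∧ ∀ᶠ p in 𝓝ˢ A, Q C c₀ p)
      ?_ ?_ ?_ ?_
    · exact ⟨0, 1, one_pos, by simp⟩
    · rintro A B hAB ⟨C, c₀, h0, h⟩
      exact ⟨C, c₀, h0, h.filter_mono (nhdsSet_mono hAB)⟩
    · rintro A B ⟨C, c₀, h0, h⟩ ⟨C', c₀', h0', h'⟩
      refine ⟨max C C', min c₀ c₀', lt_min h0 h0', ?_⟩
      rw [nhdsSet_union, eventually_sup]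
      refine ⟨h.mono fun p hp a b d => ?_, h'.mono fun p hp a b d => ?_⟩
      · exact LA_mono (hp a b d) (le_max_left _ _) (min_le_left _ _)
      · exact LA_mono (hp a b d) (le_max_right _ _) (min_le_right _ _)
    · intro x hx
      obtain ⟨C, c₀, h0, h2⟩ := h x (by simpa using hx.1.1) (by simpa using hx.1.2) hx.2
      have h3 : ∀ᶠ p in 𝓝 x, ∀ᶠ p' in 𝓝 p, Q C c₀ p' := eventually_eventually_nhds.2 h2
      refine ⟨{p | ∀ᶠ p' in 𝓝 p, Q C c₀ p'}, mem_nhdsWithin_of_mem_nhds h3, C, c₀, h0, ?_⟩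
      exact eventually_nhdsSet_iff_forall.2 fun p hp => hp
  obtain ⟨C, c₀, h0, h2⟩ := h1
  obtain ⟨O, hO, hO1, hO2⟩ := mem_nhdsSet_iff_exists.1 h2
  have h3 : ∃ ρ : ℝ, 0 < ρ ∧ ∀ p ∈ D, ‖(T.map c p).1‖ < ρ → p ∈ O := by
    have hc2 : IsCompact (D \ O) := hDc.diff hO
    rcases (D \ O).eq_empty_or_nonempty with he | hne
    · refine ⟨1, one_pos, fun p hp _ => ?_⟩
      by_contra hn
      have : p ∈ D \ O := ⟨hp, hn⟩
      rw [he] at this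
      exact this
    · obtain ⟨p₁, hp1, hmin⟩ := hc2.exists_isMinOn hne (f := fun p => ‖(T.map c p).1‖)
        (map1_cont c).norm.continuousOn
      have hpos : 0 < ‖(T.map c p₁).1‖ := by
        rw [norm_pos_iff]
        intro hz
        exact hp1.2 (hO1 ⟨hp1.1, hz⟩)
      refine ⟨_, hpos, fun p hp hlt => ?_⟩
      by_contra hn
      exact absurd (hmin ⟨hp, hn⟩) (not_le.2 hlt)
  obtain ⟨ρ, hρ, h4⟩ := h3
  refine ⟨ρ, C, c₀, hρ, h0, fun p hp => ?_⟩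
  have hpD : p ∈ D := ⟨by simpa using hp.1.le, by simpa using hp.2.1.le⟩
  exact hO2 (h4 p hpD hp.2.2.2) hp.1 hp.2.1 hp.2.2.1

/-- uniform constants -/
theorem all (P : WPar L y K τ₀ τ₁)
    (h : ∀ c ∈ F, ∀ j, ∀ p₀ : ℂ × ℂ, ‖p₀.1‖ ≤ S.r c → ‖p₀.2‖ ≤ S.r c → (T.map c p₀).1 = 0 →
      LocS P c j p₀) :
    ∃ ρ C c₀ : ℝ, 0 < ρ ∧ 0 < c₀ ∧ ∀ c ∈ F, ∀ j, ∀ p ∈ Og (S := S) c ρ, LA P c j C c₀ p := by
  have h1 : ∀ c ∈ F, ∀ j, ∀ᶠ x : ℝ × ℝ × ℝ in (𝓝[>] (0 : ℝ)) ×ˢ (atTop : Filter ℝ) ×ˢ (𝓝[>] (0 : ℝ)),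
      ∀ p ∈ Og (S := S) c x.1, LA P c j x.2.1 x.2.2 p := by
    intro c hc j
    obtain ⟨ρ, C, c₀, h0, h1, h2⟩ := one P c j (h c hc j)
    have e1 : ∀ᶠ r : ℝ in 𝓝[>] (0 : ℝ), r < ρ := by
      filter_upwards [Ioo_mem_nhdsGT h0] with r hr using hr.2
    have e2 : ∀ᶠ r : ℝ in 𝓝[>] (0 : ℝ), r < c₀ := by
      filter_upwards [Ioo_mem_nhdsGT h1] with r hr using hr.2
    filter_upwards [e1.prod_mk ((eventually_ge_atTop C).prod_mk e2)] with x hx p hp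
    exact LA_mono (h2 p ⟨hp.1, hp.2.1, hp.2.2.1, hp.2.2.2.trans hx.1⟩) hx.2.1 hx.2.2.le
  have h2 : ∀ᶠ x : ℝ × ℝ × ℝ in (𝓝[>] (0 : ℝ)) ×ˢ (atTop : Filter ℝ) ×ˢ (𝓝[>] (0 : ℝ)),
      ∀ c ∈ F, ∀ j, ∀ p ∈ Og (S := S) c x.1, LA P c j x.2.1 x.2.2 p := by
    rw [Filter.eventually_all_finset]
    intro c hc
    rw [Filter.eventually_all]
    exact h1 c hc
  have e1 : ∀ᶠ r : ℝ in 𝓝[>] (0 : ℝ), 0 < r := self_mem_nhdsWithin
  have h3 := e1.prod_mk ((eventually_ge_atTop (0 : ℝ)).prod_mk e1)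
  obtain ⟨x, hx, hx0⟩ := (h2.and h3).exists
  exact ⟨x.1, x.2.1, x.2.2, hx0.1, hx0.2.2, hx⟩

/-- **(F1)** -/
theorem assemble (L : Lab U S)
    (hP : ∀ (y : II U → ℝ) (F : Finset (Ch T.m)) (K : DKill S F), (∀ c ∈ F, Ok S c) →
      (∀ E, DSup L y K E) →
      ∃ τ₁ > 0, Unk K τ₁ ∧ ∀ τ₀ > 0, τ₀ < τ₁ → Nonempty (WPar L y K τ₀ τ₁))
    (hy : ∀ (y : II U → ℝ) (F : Finset (Ch T.m)) (K : DKill S F), (∀ c ∈ F, Ok S c) →
      (∀ E, DSup L y K E) → ∀ E, 0 ≤ y E)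
    (hloc : ∀ (y : II U → ℝ) (F : Finset (Ch T.m)) (K : DKill S F) (τ₀ τ₁ : ℝ), 0 < τ₀ →
      τ₀ < τ₁ → Unk K τ₁ → ∀ P : WPar L y K τ₀ τ₁, ∀ c ∈ F, ∀ j, ∀ p₀ : ℂ × ℂ,
      ‖p₀.1‖ ≤ S.r c → ‖p₀.2‖ ≤ S.r c → (T.map c p₀).1 = 0 → LocS P c j p₀) : WTDStmt L := by
  intro y F K hF hK
  obtain ⟨τ₁, hτ₁, hu, hpar⟩ := hP y F K hF hK
  refine ⟨τ₁, hτ₁, fun τ₀ h0 h01 => ?_⟩
  obtain ⟨P⟩ := hpar τ₀ h0 h01
  obtain ⟨ρ, C, c₀, hρ, hc₀, h1⟩ := all P (hloc y F K τ₀ τ₁ h0 h01 hu P)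
  have hy' := hy y F K hF hK
  have hyo : ∀ e : Option (II U), 0 ≤ yo y e := fun e => by
    cases e with
    | none => exact le_rfl
    | some E => exact hy' E
  refine ⟨P.Ψ, ρ, C, c₀, hρ, hc₀, fun c hc j => ?_⟩
  have h2 := h1 c hc j
  have hlog : ∀ z : ℂ, ‖z‖ < S.r c → Real.log (‖z‖ ^ 2) ≤ 0 := fun z hz => by
    have h3 : ‖z‖ ≤ 1 := hz.le.trans ((S.le c).trans (by norm_num))
    exact Real.log_nonpos (by positivity) (pow_le_one₀ (norm_nonneg _) h3)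
  refine ⟨fun p hp => ⟨(h2 p hp).sm, (h2 p hp).psh, ?_⟩, fun p hp => (h2 p hp).ub,
    fun hk p hp => (h2 p hp).lb hk, fun hk p hp a b => (h2 p hp).kil hk a b,
    fun hk p hp => ⟨(h2 p hp).st1 hk, (h2 p hp).st2 hk⟩,
    fun hk p hp a b => ⟨(h2 p hp).ks1 hk a b, (h2 p hp).ks2 hk a b⟩⟩
  have h3 := (h2 p hp).ub
  have h4 := mul_nonpos_of_nonneg_of_nonpos (hyo (L.e1 c j)) (hlog p.1 hp.1)
  have h5 := mul_nonpos_of_nonneg_of_nonpos (hyo (L.e2 c j)) (hlog p.2 hp.2.1)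
  linarith

end Crest.Agent.R257.WtAs_82
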