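import Mathlib
import Crest.Agent.R257.Wt9_258
import Crest.Agent.R257.WtAs_82
import Crest.Agent.R257.Cor2_547

/-!
Row 257 (S0395), C-WT (helper258): last assembly, from the parameters and the two transfer theorems.
-/

set_option autoImplicit false
set_option linter.unusedSectionVars false
set_option linter.unusedVariables false

open Polynomial Set Filter Topology Metric
open Crest.AlgGeometry.Germ Crest.Agent.R257.AJ387 Crest.Agent.R257.T387
open Crest.Agent.R257.Gr1_157 Crest.Agent.R257.HoB_843 Crest.Agent.R257.BP_258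
open Crest.Agent.R257.Frm_547 Crest.Agent.R257.Lab_931

noncomputable section

namespace Crest.Agent.R257.Wt_258

variable {f : (Fin 3 → ℂ) → ℂ} {T : TB f} {U : Tub T} {S : Sh T}

/-- **the weights exist**, from the three leaves -/
theorem wtd_of (L : Lab U S) [Fintype (II U)]
    (hP : ∀ (y : II U → ℝ) (F : Finset (Ch T.m)) (K : DKill S F), (∀ c ∈ F, Ok S c) →
      (∀ E, DSup L y K E) → ∃ τ₁ > 0, Unk K τ₁ ∧ ∀ τ₀ > 0, τ₀ < τ₁ → Nonempty (WPar L y K τ₀ τ₁))
    (h1 : ∀ {y : II U → ℝ} {F : Finset (Ch T.m)} {K : DKill S F} {τ₀ τ₁ : ℝ}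
      (P : WPar L y K τ₀ τ₁), 0 < τ₀ → Unk K τ₁ → ∀ {c}, c ∈ F → ∀ (j : Fin T.d) {v : Vtx},
      v1 T c = some v → ∀ {b : ℂ}, ‖b‖ ≤ S.r c → (IsV c ∨ b ≠ 0) → LocS P c j (0, b))
    (h2 : ∀ {y : II U → ℝ} {F : Finset (Ch T.m)} {K : DKill S F} {τ₀ τ₁ : ℝ}
      (P : WPar L y K τ₀ τ₁), 0 < τ₀ → Unk K τ₁ → ∀ {c}, c ∈ F → ∀ (j : Fin T.d) {v : Vtx},
      v2 T c = some v → ∀ {a : ℂ}, ‖a‖ ≤ S.r c → a ≠ 0 → LocS P c j (a, 0)) : WTDStmt L := by
  refine WtAs_82.assemble L hP (WtAs_82.y_nn L) ?_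
  intro y F K τ₀ τ₁ hτ hττ hu P c hc j p₀ hp1 hp2 hs
  have hOk := P.hF c hc
  have hR := Tb_941.retStmt U
  obtain ⟨a, b⟩ := p₀
  cases c with
  | edge i k k' =>
    have hs' : a * b = 0 := hs
    by_cases ha : a = 0
    · subst ha
      by_cases hb : b = 0
      · subst hb
        exact Cor_547.loc_corner P hR hτ hc j (Or.inl ⟨rfl, by simp [IsV]⟩)
      · by_cases hk : k = 0
        · exact Cor_547.loc_corner P hR hτ hc j (Or.inr ⟨by simp [v1, hk], rfl, hp2⟩)
        · exact h1 P hτ hu hc j (v := vx T i k) (by simp [v1, hk]) hp2 (Or.inr hb)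
    · have hb : b = 0 := (mul_eq_zero.1 hs').resolve_left ha
      subst hb
      exact h2 P hτ hu hc j (v := vx T i k') rfl hp1 ha
  | leg i =>
    have ha : a = 0 := hs
    subst ha
    by_cases hb : b = 0
    · subst hb
      exact Cor_547.loc_corner P hR hτ hc j (Or.inl ⟨rfl, by simp [IsV]⟩)
    · exact h1 P hτ hu hc j (v := vx T i (T.top i)) rfl hp2 (Or.inr hb)
  | vert i k w₀ =>
    have ha : a = 0 := hs
    subst ha
    exact h1 P hτ hu hc j (v := vx T i k) rfl hp2 (Or.inl trivial)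

end Crest.Agent.R257.Wt_258
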