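import Mathlib
import Crest.Agent.R257.WtZ0_258
import Crest.Agent.R257.Par3_258
import Crest.Agent.R257.Ta1_938
import Crest.Agent.R257.Ta3_980
import Crest.Agent.R257.Hv6_174
import Crest.Agent.R257.LWD_547

/-!
Row 257 (S0395), C-WT (helper258): **the weights exist**, `WTDStmt`.
-/

set_option autoImplicit false
set_option linter.unusedSectionVars false
set_option linter.unusedVariables false

open Polynomial Set Filter Topology Metric
open Crest.AlgGeometry.Germ Crest.Agent.R257.AJ387 Crest.Agent.R257.T387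
open Crest.Agent.R257.Gr1_157 Crest.Agent.R257.HoB_843 Crest.Agent.R257.BP_258
open Crest.Agent.R257.Frm_547 Crest.Agent.R257.Lab_931

noncomputable section

namespace Crest.Agent.R257.Wt_258

variable {f : (Fin 3 → ℂ) → ℂ} {T : TB f} {U : Tub T} {S : Sh T}

/-- **C-WT** -/
theorem wtd (L : Lab U S) [Fintype (II U)] : WTDStmt L := by
  have hR := Tb_941.retStmt U
  refine wtd_of L (exists_par' L (End_636.endStmt L) (Hv_174.hvdStmt (LWD_547.labWD hR L))) ?_ ?_
  · intro y F K τ₀ τ₁ P h0 hu c hc j v hv b hb hb0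
    exact Ta1_938.loc_axis1 P hR h0 hu hc j hv hb hb0 fun D => tubeOut P D hR
  · intro y F K τ₀ τ₁ P h0 hu c hc j v hv a ha ha0
    exact Ta2_980.loc_axis2 P hR h0 hu hc j hv ha ha0 fun D => tubeOut P D hR


end Crest.Agent.R257.Wt_258
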