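import Crest.Agent.R257.FrBP11_808
import Crest.Agent.R257.K3_121
import Crest.Agent.R257.WtZ_258
import Crest.Agent.R257.ExNB_843
import Crest.Agent.R257.ExTC_952
import Crest.Agent.R257.CDataQ_250

/-!
R257 / Asm_82 : `WTAll`, `NTAll`, and the statement `CLogStmt` of row 257 with no hypothesis.
-/

set_option autoImplicit false

noncomputable section

namespace Crest.Agent.R257.Asm_82

open Crest.Agent.R257.FrBP_808

theorem wtAll : WTAll := by
  intro f hf T hC S L
  classical
  exact Wt_258.wtd L

theorem ntAll : NTAll := by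
  intro f hf T hC hG S L nu n1 n2 hM J
  classical
  have hR := Tb_941.retStmt (Tb_941.tub T hC)
  have hW := wtAll f hf T hC S L
  have hN := CDataQ_250.nullStmt L J
  exact ⟨Exf_843.exNBP hf hC hG hR hM (BPC_554.coverP S) L J hW hN,
    ExT2_952.exTBP hf hC hG hR hM (BPC_554.coverP S) L J hW hN⟩

/-- **Row 257** -/
theorem cLog : CLog_68.CLogStmt := top_of_wn wtAll ntAll

end Crest.Agent.R257.Asm_82
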