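import Crest.Agent.R257.BP0_554

/-!
Row 257 (S0395), part C (helper554), leaf C-SH of `BPDefs_258`: radii, sheets, canonical centres and
parent levels exist; the radii can be made as small as desired.

* `exists_Sh` : `Clo T → ∃ S : Sh T, ∀ c, S.r c ≤ b c`;
* `shr S b`   : the same data with the radii `min (S.r c) (b c)`.
-/

set_option autoImplicit false
set_option linter.unusedSectionVars false

open Polynomial Set Filter Topology Metric
open Crest.AlgGeometry.Germ Crest.Agent.R257.AJ387 Crest.Agent.R257.T387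
open Crest.Agent.R257.BP_258 Crest.Agent.R257.BP0_554

noncomputable section

namespace Crest.Agent.R257.BPS_554

variable {f : (Fin 3 → ℂ) → ℂ} {T : TB f}

lemma sheets_mono {c : Ch T.m} {r r' : ℝ} {ζ : Fin T.d → ℂ × ℂ → ℂ} (h : T.Sheets c r ζ)
    (hr' : 0 < r') (hle : r' ≤ r) : T.Sheets c r' ζ := by
  have hs : BD r' r' ⊆ BD r r := fun p hp => ⟨hp.1.trans_le hle, hp.2.trans_le hle⟩
  exact ⟨hr', fun p hp => h.mem p (hs hp), fun j => (h.an j).mono hs,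
    fun p hp => h.split p (hs hp), fun p hp => h.inj p (hs hp)⟩

/-- the parent level -/
lemma exists_parent {i : Fin T.m} {k : ℕ} (hk : k ∈ T.lev i) : ∃ l, T.Cons i l k := by
  classical
  by_cases h : ((T.lev i).filter fun l => l < k).Nonempty
  · obtain ⟨l, hl, hmax⟩ := Finset.exists_max_image _ id h
    rw [Finset.mem_filter] at hl
    refine ⟨l, Or.inr hl.1, hk, hl.2, fun l' hl' => ?_⟩
    rcases lt_or_ge l' k with h1 | h1
    · exact Or.inl (hmax l' (Finset.mem_filter.2 ⟨hl', h1⟩))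
    · exact Or.inr h1
  · rw [Finset.not_nonempty_iff_eq_empty, Finset.filter_eq_empty_iff] at h
    exact ⟨0, Or.inl rfl, hk, TCov554.lev_pos T hk, fun l' hl' => Or.inr (not_lt.1 (h hl'))⟩

lemma mem_Vs {v : Vtx} : v ∈ Vs T ↔ ∃ i, ∃ k ∈ T.lev i, vx T i k = v := by
  classical
  unfold Vs
  simp only [Finset.mem_biUnion, Finset.mem_univ, true_and, Finset.mem_image]

/-- small nonzero numbers and their inverses avoid a finite set -/
lemma exists_avoid (A : Finset ℂ) : ∃ δ > 0, δ ≤ 1 / 2 ∧ ∀ x : ℂ, x ≠ 0 → ‖x‖ ≤ 2 * δ →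
    x ∉ A ∧ x⁻¹ ∉ A := by
  set K : ℝ := 1 + ∑ a ∈ A, (‖a‖ + ‖a‖⁻¹) with hK
  have hnn : ∀ a ∈ A, 0 ≤ ‖a‖ + ‖a‖⁻¹ := fun a _ => by positivity
  have hK1 : 1 ≤ K := by
    have := Finset.sum_nonneg hnn
    linarith
  have hle : ∀ a ∈ A, ‖a‖ + ‖a‖⁻¹ < K := fun a ha => by
    have := Finset.single_le_sum hnn ha
    linarith
  refine ⟨1 / (4 * K), by positivity, ?_, fun x hx hxn => ?_⟩
  · rw [div_le_div_iff₀ (by positivity) (by norm_num)]
    linarith
  · have h1 : 2 * (1 / (4 * K)) = 1 / (2 * K) := by field_simp; norm_num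
    rw [h1] at hxn
    have hx0 : 0 < ‖x‖ := norm_pos_iff.2 hx
    have h2 : ‖x‖ * (2 * K) ≤ 1 := by
      rwa [le_div_iff₀ (by positivity)] at hxn
    constructor
    · intro h
      have h3 := hle x h
      have h4 : ‖x‖⁻¹ < K := by linarith
      have h5 : 1 < K * ‖x‖ := by
        rwa [inv_lt_iff_one_lt_mul₀ hx0] at h4
      nlinarith
    · intro h
      have h3 := hle _ h
      rw [norm_inv, inv_inv] at h3
      have h4 : ‖x‖⁻¹ < K := by linarith
      have h5 : 1 < K * ‖x‖ := by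
        rwa [inv_lt_iff_one_lt_mul₀ hx0] at h4
      nlinarith

lemma pow_small {δ : ℝ} (hδ : δ ≤ 1 / 2) {b : ℂ} (hb : ‖b‖ ≤ 2 * δ) {n : ℕ} (hn : 0 < n) :
    ‖b ^ n‖ ≤ 2 * δ := by
  rw [norm_pow]
  calc ‖b‖ ^ n ≤ ‖b‖ ^ 1 := pow_le_pow_of_le_one (norm_nonneg _) (by linarith) hn
    _ ≤ 2 * δ := by rw [pow_one]; exact hb

/-- the conditions on the radii of `Sh` -/
def FarC (c : Ch T.m) (r : ℝ) : Prop :=
  (∀ i k w₀, c = .vert i k w₀ → ∀ w, ‖w - w₀‖ ≤ 2 * r → w ∉ T.Sp i k) ∧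
  (∀ i k k', c = .edge i k k' → ∀ b : ℂ, b ≠ 0 → ‖b‖ ≤ 2 * r →
    b ^ (T.M * (k' - k)) ∉ T.Sp i k ∧ (b ^ (T.M * (k' - k)))⁻¹ ∉ T.Sp i k') ∧
  (∀ i, c = .leg i → ∀ b : ℂ, b ≠ 0 → ‖b‖ ≤ 2 * r → b ^ T.M ∉ T.Sp i (T.top i))

lemma FarC.mono {c : Ch T.m} {r r' : ℝ} (h : FarC c r) (hr : r' ≤ r) : FarC c r' :=
  ⟨fun i k w₀ hc w hw => h.1 i k w₀ hc w (hw.trans (by linarith)),
    fun i k k' hc b hb hb' => h.2.1 i k k' hc b hb (hb'.trans (by linarith)),
    fun i hc b hb hb' => h.2.2 i hc b hb (hb'.trans (by linarith))⟩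

lemma exists_farC {c : Ch T.m} (hc : T.Valid c) : ∃ δ > 0, FarC c δ := by
  rcases c with ⟨i, k, k'⟩ | i | ⟨i, k, w₀⟩
  · obtain ⟨δ, hδ, hδ1, h⟩ := exists_avoid (T.Sp i k ∪ T.Sp i k')
    have hn : 0 < T.M * (k' - k) := Nat.mul_pos T.M_pos (by have := hc.2.2.1; omega)
    refine ⟨δ, hδ, by rintro _ _ _ ⟨⟩, ?_, by rintro _ ⟨⟩⟩
    rintro _ _ _ ⟨⟩ b hb hb'
    obtain ⟨h1, h2⟩ := h _ (pow_ne_zero _ hb) (pow_small hδ1 hb' hn)
    exact ⟨fun h3 => h1 (Finset.mem_union_left _ h3), fun h3 => h2 (Finset.mem_union_right _ h3)⟩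
  · obtain ⟨δ, hδ, hδ1, h⟩ := exists_avoid (T.Sp i (T.top i))
    refine ⟨δ, hδ, by rintro _ _ _ ⟨⟩, by rintro _ _ _ ⟨⟩, ?_⟩
    rintro _ ⟨⟩ b hb hb'
    exact (h _ (pow_ne_zero _ hb) (pow_small hδ1 hb' T.M_pos)).1
  · have hopen : IsOpen ((T.Sp i k : Set ℂ)ᶜ) := (T.Sp i k).finite_toSet.isClosed.isOpen_compl
    obtain ⟨δ, hδ, hb⟩ := Metric.isOpen_iff.1 hopen w₀ (fun h => hc.2 h)
    refine ⟨δ / 4, by positivity, ?_, by rintro _ _ _ ⟨⟩, by rintro _ ⟨⟩⟩
    rintro _ _ _ ⟨⟩ w hw h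
    have : w ∈ ball w₀ δ := by
      rw [mem_ball, dist_eq_norm]
      linarith
    exact hb this h

theorem exists_Sh (hC : Clo T) (b : Ch T.m → ℝ) (hb : ∀ c, 0 < b c) :
    ∃ S : Sh T, ∀ c, S.r c ≤ b c := by
  classical
  -- centres
  have hci : ∀ v : Vtx, ∃ j : Fin T.m, v ∈ Vs T →
      (∀ s ∈ ball (0 : ℂ) T.ρ, T.φ j s = v.2.eval s) ∧ ∃ l, T.Cons j l v.1 := by
    intro v
    by_cases hv : v ∈ Vs T
    · obtain ⟨i, k, hk, rfl⟩ := mem_Vs.1 hv
      obtain ⟨j, hj⟩ := hC.tr_mem i k hk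
      exact ⟨j, fun _ => ⟨hj, exists_parent (lev_center hk hj)⟩⟩
    · exact ⟨⟨0, T.m_pos⟩, fun h => absurd h hv⟩
  choose ci hci using hci
  have hkp : ∀ v : Vtx, ∃ l : ℕ, v ∈ Vs T → T.Cons (ci v) l v.1 := by
    intro v
    by_cases hv : v ∈ Vs T
    · obtain ⟨l, hl⟩ := (hci v hv).2
      exact ⟨l, fun _ => hl⟩
    · exact ⟨0, fun h => absurd h hv⟩
  choose kp hkp using hkp
  -- radii
  have hr : ∀ c : Ch T.m, ∃ (r : ℝ) (ζ : Fin T.d → ℂ × ℂ → ℂ), 0 < r ∧ r ≤ 1 / 2 ∧ r ≤ b c ∧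
      (T.Valid c → T.Sheets c (2 * r) ζ) ∧
      (T.Valid c → FarC c r) := by
    intro c
    by_cases hc : T.Valid c
    · obtain ⟨r₀, hr₀, hs⟩ := T.sheets c hc
      obtain ⟨δ, hδ, hfar⟩ := exists_farC hc
      have hrp : 0 < min (min (r₀ / 2) δ) (min (1 / 2) (b c)) :=
        lt_min (lt_min (by positivity) hδ) (lt_min (by norm_num) (hb c))
      set r := min (min (r₀ / 2) δ) (min (1 / 2) (b c)) with hrdef
      have h1 : 2 * r ≤ r₀ := by
        have : r ≤ r₀ / 2 := (min_le_left _ _).trans (min_le_left _ _)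
        linarith
      obtain ⟨ζ, hζ⟩ := hs (2 * r) (by positivity) h1
      exact ⟨r, ζ, hrp, (min_le_right _ _).trans (min_le_left _ _),
        (min_le_right _ _).trans (min_le_right _ _), fun _ => hζ,
        fun _ => hfar.mono ((min_le_left _ _).trans (min_le_right _ _))⟩
    · exact ⟨min (1 / 2) (b c), fun _ _ => 0, lt_min (by norm_num) (hb c), min_le_left _ _,
        min_le_right _ _, fun h => absurd h hc, fun h => absurd h hc⟩
  choose r ζ h1 h2 h3 h4 h5 using hr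
  exact ⟨{ r := r, ζ := ζ, pos := h1, le := h2, sheets := h4
           far := fun i k w₀ hv w hw => (h5 _ hv).1 i k w₀ rfl w hw
           fare := fun i k k' hv b hb hb' => (h5 _ hv).2.1 i k k' rfl b hb hb'
           farl := fun i b hb hb' => (h5 (.leg i) trivial).2.2 i rfl b hb hb'
           ci := ci, ci_eq := fun v hv => (hci v hv).1
           kp := kp, kp_cons := hkp }, h3⟩

/-- **C-SH** -/
theorem nonempty_Sh (hC : Clo T) : Nonempty (Sh T) := by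
  obtain ⟨S, -⟩ := exists_Sh hC (fun _ => 1) fun _ => one_pos
  exact ⟨S⟩

/-- smaller radii, everything else unchanged -/
def shr (S : Sh T) (b : Ch T.m → ℝ) (hb : ∀ c, 0 < b c) : Sh T where
  r c := min (S.r c) (b c)
  ζ := S.ζ
  pos c := lt_min (S.pos c) (hb c)
  le c := (min_le_left _ _).trans (S.le c)
  sheets c hc := sheets_mono (S.sheets c hc) (by have := lt_min (S.pos c) (hb c); positivity)
    (by have := min_le_left (S.r c) (b c); linarith)
  far i k w₀ hv w hw := S.far i k w₀ hv w (hw.trans (by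
    have := min_le_left (S.r (.vert i k w₀)) (b (.vert i k w₀)); linarith))
  fare i k k' hv x hx hx' := S.fare i k k' hv x hx (hx'.trans (by
    have := min_le_left (S.r (.edge i k k')) (b (.edge i k k')); linarith))
  farl i x hx hx' := S.farl i x hx (hx'.trans (by
    have := min_le_left (S.r (.leg i)) (b (.leg i)); linarith))
  ci := S.ci
  ci_eq := S.ci_eq
  kp := S.kp
  kp_cons := S.kp_cons

end Crest.Agent.R257.BPS_554
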