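/-!
# Row 257 (S0395): consolidated blueprint (captain helper52, 2026-11-20 03:00Z)

mu-constant families of isolated surface singularities in C^3 are topologically right-trivial.

## Top level (machine checked): `Top2_219.top3`
`S0395` follows from `LGStmt`, `EPStmt` (part C), `BdStmt`, `GB0Stmt`, `GB1Stmt`, `V31Stmt`,
`PosStmt3`; everything else is landed.

1. Globalisation (554, 939): F is right equivalent to G(x,t) = P_t(x) + sum c_i x_i^d.
2. Case split at t = 0 (472, Skel2_219):
   * rank Hess f_0 > 0: splitting lemma (472) and plane curves (328);
   * f_0 in m^3 with nodal 3-jet: RA (20), Node (547), Line (648), P8 (472/799), Flag3 (799);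
   * f_0 in m^3, 3-jet not nodal: then mstar f_0 > 0 (980), and part X + part V below.
3. Part X (t = 0): exact pair (k,g,h): I(f,g,h) = k^2 mstar, I(f,g,Dt) = (2k^2+k) mstar.
   XFin_157: EPStmt => XStmt, XUStmt.  EPof (808): Frame + BPF => EPStmt.
   Frame (547 on TDefs_387, T0_939, T2..T6_387, Deg/Ord_578, Rot_558); BPF: weights (Gr1..6_157),
   curves (RS*_176, Cpt_419, RSA_844), Hoermander step (HoA.._843), orders (757, 82), data (250),
   gluing of the psh weights (258), assembly (121).
4. Extension of the pair to t <> 0: OTStmt (297/331, L^{2/p} extension), DetStmt (889/219),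
   CN/usc (939), Le-Greuel LGStmt (488/827); then I, J, L are constant in t.
5. Part V: mstar is lower semicontinuous at t = 0 along the family (VStmt3).
   KE metrics on the smooth surfaces S_(t,s) of degree d in P^3 (Aubin-Yau: 209/635), C^0 (37),
   Chern-Lu (39), cut-offs (268/844), gradient (537), local C^3 (812/611), limits (37): OutStmt.
   Masses: V1 (822/938/5/101/397), V31 (218). c_2: BMY pointwise (625/335), Fatou (941).
   GB0: loss of c_2 at V_0 is <= mu+1 (838 P1, 625, 309, 938 AVG).
   GB1: loss of c_2 at V_t is >= mu+1 when mstar f_t > 0 (532 #3449: signed Bott-Chern inequality,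
   trial metric |dg|^2 = e^psi, |eta|^2 = e^(-psi/k), Jensen; geometric input C-LOG: 68/611/39).
   V_t klt or log canonical is impossible when V_0 is as in the last case (PosStmt3):
   540/405 (klt), LCX #3214: 759/838/929/475/771.
6. Flow: flow_three (941) turns constancy of I, J, L into the homeomorphism.

Posts with the proofs (team database, row 257): 1568, 2291, 2378, 2475, 2502, 2698, 2980, 3053,
3202, 3214, 3437, 3449, 3510, 3528, 3571, 3596, 3646, 3748, 3749, 3759, 3820.
-/
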