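import Crest.Agent.R257.BPDefs_258
import Crest.Agent.R257.FrmB_547

/-!
# Row 257, part C, the bridge (BR) (helper578): the curve `XV U v` against the points of the special
fibre `X T i k`

`Rel U v i q x`  : the point `x` (a germ at `s = 0`) retracts to `q`;
`rel_cl`         : `Rel` matches connected components of `XV U v` with `Cmp T i k`;
`cmpEquiv`       : `ConnectedComponents (XV U v) ≃ Cmp T i v.1`;
`att_ret`        : a sheet attached to `x` retracts to the component of `x`.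
-/

set_option autoImplicit false
set_option linter.unusedSectionVars false

open Polynomial Set Filter Topology Metric
open Crest.AlgGeometry.Germ Crest.Agent.R257.AJ387 Crest.Agent.R257.T387

noncomputable section

namespace Crest.Agent.R257.Br_578

open Crest.Agent.R257.BP_258
open Crest.Agent.R257.Frm_547 (Z2 Sh1 Step Cmp cl Att bm)

/-- locally constant functions on preconnected sets are constant -/
theorem const_of_loc {α : Type*} {K : Set ℂ} (hK : IsPreconnected K) {F : ℂ → α}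
    (h : ∀ z ∈ K, ∀ᶠ z' in 𝓝[K] z, F z' = F z) {a b : ℂ} (ha : a ∈ K) (hb : b ∈ K) : F a = F b := by
  let _ : TopologicalSpace α := ⊥
  have : DiscreteTopology α := ⟨rfl⟩
  refine hK.constant (f := F) ?_ ha hb
  intro z hz
  refine ContinuousWithinAt.congr_of_eventuallyEq (f := fun _ => F z)
    continuousWithinAt_const ?_ rfl
  exact h z hz

variable {f : (Fin 3 → ℂ) → ℂ} {T : TB f} (U : Tub T)

/-- the point `x` retracts to `q` -/
def Rel (v : Vtx) (i : Fin T.m) (q : XV U v) (x : Frm_547.X T i v.1) : Prop :=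
  x.1.1 = q.1.1 ∧ ∃ γ : ℂ × ℂ → ℂ, x.1.2 = (γ : Z2) ∧
    ∀ᶠ s in 𝓝[≠] (0 : ℂ), IsRet U v (pt (γ (s, 0)) (s, yv T v (s, q.1.1))) q

/-- the standing hypotheses -/
structure Hyp (v : Vtx) (i : Fin T.m) : Prop where
  hv : v ∈ Vs T
  hk : v.1 ∈ T.lev i
  hi : ∀ s ∈ ball (0 : ℂ) T.ρ, T.φ i s = v.2.eval s
  hsp : ∀ w, w ∈ sp T v ↔ w ∈ T.Sp i v.1
  hS : T.SheetsStmt
  hR : RetStmt U

variable {U} {v : Vtx} {i : Fin T.m}

theorem yv_bm (h : Hyp U v i) {s w : ℂ} (hs : ‖s‖ ^ T.M < T.ρ) :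
    bm T i v.1 (s, w) = (s, yv T v (s, w)) := by
  have h1 := h.hi (s ^ T.M) (by rwa [mem_ball, dist_zero_right, norm_pow])
  simp only [bm, yv]
  rw [h1]

/-- the local data of `RetStmt` at `w₀` -/
structure Loc (U : Tub T) (v : Vtx) (w₀ : ℂ) (r R : ℝ) (Z : Fin T.d → ℂ × ℂ → ℂ)
    (σ : Fin T.d → ℂ → XV U v) : Prop where
  r_pos : 0 < r
  R_pos : 0 < R
  nsp : ∀ w ∈ ball w₀ r, w ∉ sp T v ∧ U.ρ v w < R
  an : ∀ j, AnalyticOnNhd ℂ (Z j) (ball 0 R ×ˢ ball w₀ r)
  split : ∀ q ∈ ball (0 : ℂ) R ×ˢ ball w₀ r, (q.1, yv T v q) ∈ BD 1 T.R ∧ ‖q.1‖ ^ T.M < T.ρ ∧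
    T.Q (q.1, yv T v q) = ∏ j, (X - C (Z j q))
  inj : ∀ q ∈ ball (0 : ℂ) R ×ˢ ball w₀ r, q.1 ≠ 0 → Function.Injective fun j => Z j q
  cont : ∀ j, ContinuousOn (σ j) (ball w₀ r)
  pV : ∀ j, ∀ w ∈ ball w₀ r, pV U v (σ j w) = w
  σinj : ∀ w ∈ ball w₀ r, Function.Injective fun j => σ j w
  surj : ∀ q, BP_258.pV U v q ∈ ball w₀ r → ∃ j, σ j (BP_258.pV U v q) = q
  ret : ∀ j, ∀ w ∈ ball w₀ r, ∀ s, s ≠ 0 → ‖s‖ < U.ρ v w →
    IsRet U v (pt (Z j (s, w)) (s, yv T v (s, w))) (σ j w)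

theorem exists_loc (h : Hyp U v i) {w₀ : ℂ} (hw : w₀ ∉ sp T v) :
    ∃ r R Z σ, Loc U v w₀ r R Z σ := by
  obtain ⟨r, hr, R, hR, Z, σ, h1, h2, h3, h4, h5, h6, h7, h8, h9⟩ := (h.hR v h.hv).2 w₀ hw
  exact ⟨r, R, Z, σ, hr, hR, h1, h2, h3, h4, h5, h6, h7, h8, h9⟩

variable {w₀ : ℂ} {r R : ℝ} {Z : Fin T.d → ℂ × ℂ → ℂ} {σ : Fin T.d → ℂ → XV U v}

theorem Loc.sh1 (h : Hyp U v i) (L : Loc U v w₀ r R Z σ) (j : Fin T.d) {w : ℂ}
    (hw : w ∈ ball w₀ r) :
    Sh1 T i v.1 w (min R (r - dist w w₀)) (fun p => Z j (p.1, w + p.2)) := by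
  have hw' : dist w w₀ < r := hw
  have hmem : ∀ p ∈ BD (min R (r - dist w w₀)) (min R (r - dist w w₀)),
      ((p.1, w + p.2) : ℂ × ℂ) ∈ ball (0 : ℂ) R ×ˢ ball w₀ r := by
    intro p hp
    refine ⟨?_, ?_⟩
    · rw [mem_ball_zero_iff]
      exact hp.1.trans_le (min_le_left _ _)
    · show dist (w + p.2) w₀ < r
      have h1 : ‖p.2‖ < r - dist w w₀ := hp.2.trans_le (min_le_right _ _)
      have h2 : dist (w + p.2) w₀ ≤ dist w w₀ + ‖p.2‖ := by
        rw [dist_eq_norm, dist_eq_norm]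
        calc ‖w + p.2 - w₀‖ = ‖(w - w₀) + p.2‖ := by ring_nf
          _ ≤ _ := norm_add_le _ _
      linarith
  have hmap : ∀ p : ℂ × ℂ, ‖p.1‖ ^ T.M < T.ρ →
      T.map (.vert i v.1 w) p = (p.1, yv T v (p.1, w + p.2)) := by
    intro p hp
    rw [Frm_547.map_vert, yv_bm h hp]
  refine ⟨lt_min L.R_pos (by linarith), ?_, ?_, ?_, ?_⟩
  · intro β hβ
    rw [← h.hsp]
    refine (L.nsp _ ?_).1
    have := hmem (0, β) ⟨by rw [norm_zero]; exact lt_min L.R_pos (sub_pos.2 hw'), hβ⟩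
    exact this.2
  · intro p hp
    obtain ⟨h1, h2, -⟩ := L.split _ (hmem p hp)
    rw [hmap p h2]
    exact ⟨h1, h2⟩
  · intro p hp
    exact AnalyticAt.comp (g := Z j) (f := fun p : ℂ × ℂ => (p.1, w + p.2)) (L.an j _ (hmem p hp))
      (analyticAt_fst.prod (analyticAt_const.add analyticAt_snd))
  · intro p hp
    obtain ⟨h1, h2, h3⟩ := L.split _ (hmem p hp)
    rw [hmap p h2, h3, eval_prod]
    exact Finset.prod_eq_zero (Finset.mem_univ j) (by simp)

/-- the point of the sheet `j` over `w` -/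
def Loc.zpt (h : Hyp U v i) (L : Loc U v w₀ r R Z σ) (j : Fin T.d) {w : ℂ}
    (hw : w ∈ ball w₀ r) : Frm_547.X T i v.1 := (L.sh1 h j hw).pt

theorem Loc.rel (h : Hyp U v i) (L : Loc U v w₀ r R Z σ) (j : Fin T.d) {w : ℂ}
    (hw : w ∈ ball w₀ r) : Rel U v i (σ j w) (L.zpt h j hw) := by
  have h1 : (σ j w).1.1 = w := L.pV j w hw
  refine ⟨h1.symm, fun p => Z j (p.1, w + p.2), rfl, ?_⟩
  have h2 : 0 < U.ρ v w := U.pos v h.hv w (L.nsp w hw).1
  have h3 : ∀ᶠ s in 𝓝[≠] (0 : ℂ), ‖s‖ < U.ρ v w :=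
    nhdsWithin_le_nhds (by
      have := ball_mem_nhds (0 : ℂ) h2
      filter_upwards [this] with s hs
      simpa using hs)
  filter_upwards [h3, self_mem_nhdsWithin] with s hs hs0
  rw [h1]
  have := L.ret j w hw s hs0 hs
  simpa using this

/-- every point over the ball is on one of the sheets -/
theorem Loc.eq_zpt (h : Hyp U v i) (L : Loc U v w₀ r R Z σ) (x : Frm_547.X T i v.1)
    (hw : x.1.1 ∈ ball w₀ r) : ∃ j, x = L.zpt h j hw := by
  obtain ⟨hx1, r', ξ, hξ, hx2⟩ := x.2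
  have hpos : 0 < min R (r - dist x.1.1 w₀) := (L.sh1 h ⟨0, T.d_pos⟩ hw).r_pos
  have hev : ∀ᶠ p in 𝓝 (0 : ℂ × ℂ), p ∈ BD r' r' ∧
      p ∈ BD (min R (r - dist x.1.1 w₀)) (min R (r - dist x.1.1 w₀)) :=
    Filter.inter_mem (Frm_547.BD_nhds hξ.r_pos) (Frm_547.BD_nhds hpos)
  have h1 : ∀ᶠ p in 𝓝 (0 : ℂ × ℂ), ∏ j, (ξ p - Z j (p.1, x.1.1 + p.2)) = 0 := by
    filter_upwards [hev] with p hp
    have h2 := hξ.root p hp.1
    have h3 := (hξ.mem p hp.1).2
    have hmem : ((p.1, x.1.1 + p.2) : ℂ × ℂ) ∈ ball (0 : ℂ) R ×ˢ ball w₀ r := by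
      refine ⟨?_, ?_⟩
      · rw [mem_ball_zero_iff]
        exact hp.2.1.trans_le (min_le_left _ _)
      · show dist (x.1.1 + p.2) w₀ < r
        have h1 : ‖p.2‖ < r - dist x.1.1 w₀ := hp.2.2.trans_le (min_le_right _ _)
        have h2 : dist (x.1.1 + p.2) w₀ ≤ dist x.1.1 w₀ + ‖p.2‖ := by
          rw [dist_eq_norm, dist_eq_norm]
          calc ‖x.1.1 + p.2 - w₀‖ = ‖(x.1.1 - w₀) + p.2‖ := by ring_nf
            _ ≤ _ := norm_add_le _ _
        linarith
    obtain ⟨-, h4, h5⟩ := L.split _ hmem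
    rw [Frm_547.map_vert, yv_bm h h4, h5, eval_prod] at h2
    simpa using h2
  obtain ⟨j, -, hj⟩ := Frm_547.prod_ev Finset.univ (fun j _ =>
    (hξ.an 0 (Frm_547.zero_mem_BD hξ.r_pos)).sub
      ((L.sh1 h j hw).an 0 (Frm_547.zero_mem_BD (L.sh1 h j hw).r_pos))) h1
  refine ⟨j, Subtype.ext (Prod.ext rfl ?_)⟩
  rw [hx2]
  refine Germ.coe_eq.2 ?_
  filter_upwards [hj] with p hp using sub_eq_zero.1 hp

theorem rel_unique (h : Hyp U v i) {q q' : XV U v} {x : Frm_547.X T i v.1} (h1 : Rel U v i q x)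
    (h2 : Rel U v i q' x) : q = q' := by
  obtain ⟨a1, γ, a2, a3⟩ := h1
  obtain ⟨b1, γ', b2, b3⟩ := h2
  have h3 : γ =ᶠ[𝓝 (0 : ℂ × ℂ)] γ' := Germ.coe_eq.1 (a2.symm.trans b2)
  have h4 : ∀ᶠ s in 𝓝[≠] (0 : ℂ), γ (s, 0) = γ' (s, 0) := by
    have h5 : Tendsto (fun s : ℂ => ((s, 0) : ℂ × ℂ)) (𝓝 0) (𝓝 0) :=
      (by fun_prop : Continuous fun s : ℂ => ((s, 0) : ℂ × ℂ)).tendsto' _ _ rfl
    exact (h5.eventually h3).filter_mono nhdsWithin_le_nhds
  obtain ⟨s, c1, c2, c3⟩ := (a3.and (b3.and h4)).exists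
  rw [← b1, a1, ← c3] at c2
  exact ((h.hR v h.hv).1 _ c1.1).unique c1 c2

theorem rel_exists (h : Hyp U v i) (x : Frm_547.X T i v.1) : ∃ q, Rel U v i q x := by
  have hw : x.1.1 ∉ sp T v := by
    rw [h.hsp]
    exact x.2.1
  obtain ⟨r, R, Z, σ, L⟩ := exists_loc h hw
  have hm : x.1.1 ∈ ball x.1.1 r := mem_ball_self L.r_pos
  obtain ⟨j, hj⟩ := L.eq_zpt h x hm
  exact ⟨σ j x.1.1, by
    have := L.rel h j hm
    rwa [← hj] at this⟩

theorem rel_exists' (h : Hyp U v i) (q : XV U v) : ∃ x, Rel U v i q x := by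
  have hw : q.1.1 ∉ sp T v := q.2.2.1
  obtain ⟨r, R, Z, σ, L⟩ := exists_loc h hw
  have hm : q.1.1 ∈ ball q.1.1 r := mem_ball_self L.r_pos
  obtain ⟨j, hj⟩ := L.surj q hm
  refine ⟨L.zpt h j hm, ?_⟩
  have := L.rel h j hm
  have h2 : σ j q.1.1 = q := hj
  rwa [h2] at this

theorem rel_unique' (h : Hyp U v i) {q : XV U v} {x x' : Frm_547.X T i v.1} (h1 : Rel U v i q x)
    (h2 : Rel U v i q x') : x = x' := by
  have hw : q.1.1 ∉ sp T v := q.2.2.1
  obtain ⟨r, R, Z, σ, L⟩ := exists_loc h hw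
  have hm : q.1.1 ∈ ball q.1.1 r := mem_ball_self L.r_pos
  have hx : x.1.1 ∈ ball q.1.1 r := by rw [h1.1]; exact hm
  have hx' : x'.1.1 ∈ ball q.1.1 r := by rw [h2.1]; exact hm
  obtain ⟨j, hj⟩ := L.eq_zpt h x hx
  obtain ⟨j', hj'⟩ := L.eq_zpt h x' hx'
  have e1 : Rel U v i (σ j x.1.1) x := by
    have := L.rel h j hx
    rwa [← hj] at this
  have e2 : Rel U v i (σ j' x'.1.1) x' := by
    have := L.rel h j' hx'
    rwa [← hj'] at this
  have e3 := rel_unique h h1 e1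
  have e4 := rel_unique h h2 e2
  have hxx : x.1.1 = x'.1.1 := h1.1.trans h2.1.symm
  rw [← hxx] at e4
  have e5 : j = j' := L.σinj _ hx (e3.symm.trans e4)
  subst e5
  rw [hj, hj']
  refine Subtype.ext (Prod.ext hxx ?_)
  refine Germ.coe_eq.2 (Eventually.of_forall fun p => ?_)
  show Z j (p.1, x.1.1 + p.2) = Z j (p.1, x'.1.1 + p.2)
  rw [hxx]

/-- sheets over a disc stay in one component -/
theorem Loc.conn (L : Loc U v w₀ r R Z σ) (j : Fin T.d) {w w' : ℂ} (hw : w ∈ ball w₀ r)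
    (hw' : w' ∈ ball w₀ r) :
    ((σ j w : XV U v) : ConnectedComponents (XV U v)) = (σ j w' : XV U v) := by
  have h1 : IsPreconnected (σ j '' ball w₀ r) :=
    (convex_ball w₀ r).isPreconnected.image _ (L.cont j)
  rw [ConnectedComponents.coe_eq_coe']
  exact h1.subset_connectedComponent (mem_image_of_mem _ hw') (mem_image_of_mem _ hw)

/-- steps stay in one component -/
theorem rel_step (h : Hyp U v i) {x y : Frm_547.X T i v.1} (hxy : Step T i v.1 x y) {q q' : XV U v}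
    (h1 : Rel U v i q x) (h2 : Rel U v i q' y) :
    (q : ConnectedComponents (XV U v)) = q' := by
  classical
  obtain ⟨r', ζ, hζ, hxζ, β, hβ, hy1, hy2⟩ := hxy
  -- the points along the disc
  have hQ : ∀ b : ℂ, ∃ q : XV U v, ∀ hb : ‖b‖ < r', Rel U v i q (hζ.shift hb).pt := by
    intro b
    by_cases hb : ‖b‖ < r'
    · obtain ⟨q, hq⟩ := rel_exists h (hζ.shift hb).pt
      exact ⟨q, fun _ => hq⟩
    · exact ⟨q, fun hb' => absurd hb' hb⟩
  choose Qf hQf using hQ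
  have key : ∀ b ∈ ball (0 : ℂ) r', ∀ᶠ b' in 𝓝[ball (0 : ℂ) r'] b,
      ((Qf b' : XV U v) : ConnectedComponents (XV U v)) = (Qf b : XV U v) := by
    intro b hb
    have hb' : ‖b‖ < r' := by simpa using hb
    have hw : x.1.1 + b ∉ sp T v := by
      rw [h.hsp]
      exact hζ.sp b hb'
    obtain ⟨r, R, Z, σ, L⟩ := exists_loc h hw
    have hm : (hζ.shift hb').pt.1.1 ∈ ball (x.1.1 + b) r := mem_ball_self L.r_pos
    obtain ⟨j, hj⟩ := L.eq_zpt h _ hm
    -- germs agree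
    have hg : (fun p : ℂ × ℂ => ζ (p.1, p.2 + b)) =ᶠ[𝓝 0] fun p => Z j (p.1, x.1.1 + b + p.2) := by
      have := congrArg (fun y : Frm_547.X T i v.1 => y.1.2) hj
      exact Germ.coe_eq.1 this
    have hg2 := hg.eventually_nhds
    have ht : Tendsto (fun b' : ℂ => ((0 : ℂ), b' - b)) (𝓝 b) (𝓝 0) := by
      have : Continuous fun b' : ℂ => ((0 : ℂ), b' - b) := by fun_prop
      exact this.tendsto' _ _ (by simp)
    have hball : ∀ᶠ b' in 𝓝 b, x.1.1 + b' ∈ ball (x.1.1 + b) r := by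
      have : Continuous fun b' : ℂ => x.1.1 + b' := by fun_prop
      exact this.continuousAt.eventually (ball_mem_nhds _ L.r_pos)
    filter_upwards [self_mem_nhdsWithin, nhdsWithin_le_nhds (ht.eventually hg2),
      nhdsWithin_le_nhds hball] with b' c1 c2 c3
    have c1' : ‖b'‖ < r' := by simpa using c1
    -- the point at `b'` is on the sheet `j`
    have hpt : (hζ.shift c1').pt = L.zpt h j c3 := by
      refine Subtype.ext (Prod.ext rfl ?_)
      refine Germ.coe_eq.2 ?_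
      have ht2 : Tendsto (fun p : ℂ × ℂ => ((p.1, p.2 + (b' - b)) : ℂ × ℂ)) (𝓝 0)
          (𝓝 ((0 : ℂ), b' - b)) := by
        have : Continuous fun p : ℂ × ℂ => ((p.1, p.2 + (b' - b)) : ℂ × ℂ) := by fun_prop
        exact this.tendsto' _ _ (by simp)
      filter_upwards [ht2.eventually c2] with p hp
      have e1 : p.2 + (b' - b) + b = p.2 + b' := by ring
      have e2 : x.1.1 + b + (p.2 + (b' - b)) = x.1.1 + b' + p.2 := by ring
      simp only [e1, e2] at hp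
      exact hp
    have r1 : Qf b' = σ j (x.1.1 + b') := by
      refine rel_unique h (hQf b' c1') ?_
      rw [hpt]
      exact L.rel h j c3
    have r2 : Qf b = σ j (x.1.1 + b) := by
      refine rel_unique h (hQf b hb') ?_
      rw [hj]
      exact L.rel h j hm
    rw [r1, r2]
    exact L.conn j c3 (mem_ball_self L.r_pos)
  have h0 : (0 : ℂ) ∈ ball (0 : ℂ) r' := mem_ball_self hζ.r_pos
  have hβm : β ∈ ball (0 : ℂ) r' := by simpa using hβ
  have hconst := const_of_loc (convex_ball (0 : ℂ) r').isPreconnected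
    (F := fun b => ((Qf b : XV U v) : ConnectedComponents (XV U v))) key h0 hβm
  have e1 : Qf 0 = q := by
    refine rel_unique h (hQf 0 (by simpa using h0)) ?_
    have : (hζ.shift (by simpa using h0 : ‖(0 : ℂ)‖ < r')).pt = x := by
      refine Subtype.ext (Prod.ext (add_zero _) ?_)
      rw [hxζ]
      refine Germ.coe_eq.2 (Eventually.of_forall fun p => ?_)
      simp
    rw [this]
    exact h1
  have e2 : Qf β = q' := by
    refine rel_unique h (hQf β hβ) ?_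
    have : (hζ.shift hβ).pt = y := Subtype.ext (Prod.ext hy1.symm hy2.symm)
    rw [this]
    exact h2
  simp only [e1, e2] at hconst
  exact hconst

theorem rel_of_cl (h : Hyp U v i) {x y : Frm_547.X T i v.1} (hxy : cl T x = cl T y) {q q' : XV U v}
    (h1 : Rel U v i q x) (h2 : Rel U v i q' y) :
    (q : ConnectedComponents (XV U v)) = q' := by
  choose F hF using rel_exists h
  have h3 : ∀ x y, Relation.EqvGen (Step T i v.1) x y →
      ((F x : XV U v) : ConnectedComponents (XV U v)) = (F y : XV U v) := by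
    intro x y h4
    induction h4 with
    | rel x y h => exact rel_step ‹_› h (hF x) (hF y)
    | refl x => rfl
    | symm x y _ ih => exact ih.symm
    | trans x y z _ _ ih1 ih2 => exact ih1.trans ih2
  rw [rel_unique h h1 (hF x), rel_unique h h2 (hF y)]
  exact h3 x y (Quot.eqvGen_exact hxy)

theorem t2_XV : T2Space (XV U v) := inferInstanceAs (T2Space (Subtype _))

/-- the class is locally constant on `XV` -/
theorem cl_loc (h : Hyp U v i) {F : XV U v → Frm_547.X T i v.1} (hF : ∀ q, Rel U v i q (F q))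
    (q₀ : XV U v) : ∀ᶠ q in 𝓝 q₀, cl T (F q) = cl T (F q₀) := by
  have hw : q₀.1.1 ∉ sp T v := q₀.2.2.1
  obtain ⟨r, R, Z, σ, L⟩ := exists_loc h hw
  have hm : q₀.1.1 ∈ ball q₀.1.1 r := mem_ball_self L.r_pos
  obtain ⟨j₀, hj₀⟩ := L.surj q₀ hm
  have hpc : Continuous (pV U v) := continuous_fst.comp continuous_subtype_val
  have hev1 : ∀ᶠ q in 𝓝 q₀, pV U v q ∈ ball q₀.1.1 r :=
    hpc.continuousAt.eventually (isOpen_ball.mem_nhds hm)
  have hev3 : ∀ᶠ q in 𝓝 q₀, pV U v q ∈ ball q₀.1.1 R :=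
    hpc.continuousAt.eventually (isOpen_ball.mem_nhds (mem_ball_self L.R_pos))
  have hev2 : ∀ᶠ q in 𝓝 q₀, ∀ j, j ≠ j₀ → σ j (pV U v q) ≠ q := by
    rw [Filter.eventually_all]
    intro j
    by_cases hj : j = j₀
    · exact Eventually.of_forall fun q h => absurd hj h
    · have h1 : Tendsto (fun q => σ j (pV U v q)) (𝓝 q₀) (𝓝 (σ j q₀.1.1)) := by
        have h2 : ContinuousAt (σ j) (pV U v q₀) :=
          (L.cont j).continuousAt (isOpen_ball.mem_nhds hm)
        exact (h2.comp hpc.continuousAt)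
      have h3 : σ j q₀.1.1 ≠ q₀ := by
        intro h4
        exact hj (L.σinj _ hm (h4.trans hj₀.symm))
      have := t2_XV (U := U) (v := v)
      have h5 := (h1.prodMk_nhds (tendsto_id (x := 𝓝 q₀))).eventually
        (isClosed_diagonal.isOpen_compl.mem_nhds (show (σ j q₀.1.1, q₀) ∉ diagonal _ from h3))
      filter_upwards [h5] with q hq _
      exact hq
  filter_upwards [hev1, hev2, hev3] with q hq1 hq2 hq3
  obtain ⟨j, hj⟩ := L.surj q hq1
  have hjj : j = j₀ := by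
    by_contra hne
    exact hq2 j hne hj
  subst hjj
  have e1 : F q = L.zpt h j hq1 := by
    refine rel_unique' h (hF q) ?_
    have := L.rel h j hq1
    rwa [hj] at this
  have e2 : F q₀ = L.zpt h j hm := by
    refine rel_unique' h (hF q₀) ?_
    have := L.rel h j hm
    have h6 : σ j q₀.1.1 = q₀ := hj₀
    rwa [h6] at this
  rw [e1, e2]
  -- the step
  symm
  refine Quot.sound ?_
  have hβ : ‖pV U v q - q₀.1.1‖ < min R (r - dist q₀.1.1 q₀.1.1) := by
    rw [dist_self, sub_zero]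
    rw [mem_ball, dist_eq_norm] at hq1 hq3
    exact lt_min hq3 hq1
  refine ⟨_, _, L.sh1 h j hm, rfl, pV U v q - q₀.1.1, hβ, ?_, ?_⟩
  · show pV U v q = q₀.1.1 + (pV U v q - q₀.1.1)
    ring
  · refine Germ.coe_eq.2 (Eventually.of_forall fun p => ?_)
    show Z j (p.1, pV U v q + p.2) = Z j (p.1, q₀.1.1 + (p.2 + (pV U v q - q₀.1.1)))
    congr 2
    ring

theorem cl_of_conn (h : Hyp U v i) {q q' : XV U v} {x x' : Frm_547.X T i v.1}
    (h1 : Rel U v i q x) (h2 : Rel U v i q' x')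
    (hq : (q : ConnectedComponents (XV U v)) = q') : cl T x = cl T x' := by
  choose F hF using rel_exists' h
  rw [rel_unique' h h1 (hF q), rel_unique' h h2 (hF q')]
  have hlc : IsLocallyConstant fun q => cl T (F q) := by
    rw [IsLocallyConstant.iff_eventually_eq]
    exact fun q₀ => cl_loc h hF q₀
  rw [ConnectedComponents.coe_eq_coe'] at hq
  exact hlc.apply_eq_of_isPreconnected isPreconnected_connectedComponent hq
    mem_connectedComponent

/-- **`Rel` matches connected components and classes** -/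
theorem rel_cl (h : Hyp U v i) {q q' : XV U v} {x x' : Frm_547.X T i v.1} (h1 : Rel U v i q x)
    (h2 : Rel U v i q' x') : (q : ConnectedComponents (XV U v)) = q' ↔ cl T x = cl T x' :=
  ⟨cl_of_conn h h1 h2, fun hc => rel_of_cl h hc h1 h2⟩

/-- the component of `X T i k` of a connected component of `XV` -/
def cmpFun (h : Hyp U v i) (E : ConnectedComponents (XV U v)) : Cmp T i v.1 :=
  cl T (rel_exists' h (Quotient.out E)).choose

theorem cmpFun_mk (h : Hyp U v i) {q : XV U v} {x : Frm_547.X T i v.1} (h1 : Rel U v i q x) :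
    cmpFun h (q : ConnectedComponents (XV U v)) = cl T x := by
  have h2 := (rel_exists' h (Quotient.out (q : ConnectedComponents (XV U v)))).choose_spec
  have h3 : ((Quotient.out (q : ConnectedComponents (XV U v)) : XV U v) :
      ConnectedComponents (XV U v)) = q := Quotient.out_eq _
  exact (rel_cl h h2 h1).1 h3

theorem cmpFun_bij (h : Hyp U v i) : Function.Bijective (cmpFun h) := by
  constructor
  · intro E E' hEE
    obtain ⟨q, rfl⟩ := ConnectedComponents.surjective_coe E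
    obtain ⟨q', rfl⟩ := ConnectedComponents.surjective_coe E'
    obtain ⟨x, hx⟩ := rel_exists' h q
    obtain ⟨x', hx'⟩ := rel_exists' h q'
    rw [cmpFun_mk h hx, cmpFun_mk h hx'] at hEE
    exact (rel_cl h hx hx').2 hEE
  · intro e
    obtain ⟨x, rfl⟩ := Quot.exists_rep e
    obtain ⟨q, hq⟩ := rel_exists h x
    exact ⟨q, cmpFun_mk h hq⟩

/-- the components of `XV U v` are the components over the vertex `(i, k)` -/
def cmpEquiv (h : Hyp U v i) : ConnectedComponents (XV U v) ≃ Cmp T i v.1 :=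
  Equiv.ofBijective _ (cmpFun_bij h)

theorem cmpEquiv_mk (h : Hyp U v i) {q : XV U v} {x : Frm_547.X T i v.1} (h1 : Rel U v i q x) :
    cmpEquiv h (q : ConnectedComponents (XV U v)) = cl T x := cmpFun_mk h h1

/-- **retraction of an attached sheet** -/
theorem att_ret (h : Hyp U v i) {μ : ℂ × ℂ → ℂ × ℂ} {ζ : ℂ × ℂ → ℂ} {p : ℂ × ℂ}
    (hμ : ContinuousAt (fun q => (μ q).1) p) {x : Frm_547.X T i v.1} (ha : Att T i v.1 x μ ζ p) :
    ∀ᶠ q in 𝓝 p, (μ q).1 ≠ 0 → ∃ q' : XV U v, q'.1.1 = wv T v (μ q) ∧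
      IsRet U v (pt (ζ q) (μ q)) q' ∧ cmpEquiv h (q' : ConnectedComponents (XV U v)) = cl T x := by
  obtain ⟨hs0, W, γ, hW, hWp, hγ, hxγ, he⟩ := ha
  have hw : x.1.1 ∉ sp T v := by
    rw [h.hsp]
    exact x.2.1
  obtain ⟨r, R, Z, σ, L⟩ := exists_loc h hw
  have hm : x.1.1 ∈ ball x.1.1 r := mem_ball_self L.r_pos
  obtain ⟨j, hj⟩ := L.eq_zpt h x hm
  have hg : γ =ᶠ[𝓝 (0 : ℂ × ℂ)] fun p => Z j (p.1, x.1.1 + p.2) := by
    have h1 := congrArg (fun y : Frm_547.X T i v.1 => y.1.2) hj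
    exact Germ.coe_eq.1 (hxγ.symm.trans h1)
  have hcl : ∀ w ∈ ball x.1.1 r,
      cmpEquiv h ((σ j w : XV U v) : ConnectedComponents (XV U v)) = cl T x := by
    intro w hw'
    rw [L.conn j hw' hm]
    refine cmpEquiv_mk h ?_
    have := L.rel h j hm
    rwa [← hj] at this
  have hWt : Tendsto W (𝓝 p) (𝓝 x.1.1) := by
    have := hW.continuousAt.tendsto
    rwa [hWp] at this
  have hμt : Tendsto (fun q => (μ q).1) (𝓝 p) (𝓝 0) := by
    have := hμ.tendsto
    rwa [hs0] at this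
  have ht : Tendsto (fun q => ((μ q).1, W q - x.1.1)) (𝓝 p) (𝓝 0) := by
    have h1 := hμt.prodMk_nhds (hWt.sub_const x.1.1)
    rw [sub_self] at h1
    exact h1
  -- the tube radius is bounded below
  have hρpos : 0 < U.ρ v x.1.1 := U.pos v h.hv _ hw
  have hρc : ContinuousAt (U.ρ v) x.1.1 := by
    refine (U.cont v h.hv).continuousAt ?_
    exact (sp T v).finite_toSet.isClosed.isOpen_compl.mem_nhds hw
  have hρ : ∀ᶠ q in 𝓝 p, U.ρ v x.1.1 / 2 < U.ρ v (W q) :=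
    (hWt.eventually (hρc.eventually_const_lt (by linarith)))
  have hs1 : ∀ᶠ q in 𝓝 p, ‖(μ q).1‖ < U.ρ v x.1.1 / 2 := by
    have h1 := hμt.eventually (ball_mem_nhds (0 : ℂ) (half_pos hρpos))
    filter_upwards [h1] with q hq
    simpa using hq
  have hs2 : ∀ᶠ q in 𝓝 p, ‖(μ q).1‖ ^ T.M < T.ρ := by
    have h1 : Tendsto (fun q => ‖(μ q).1‖ ^ T.M) (𝓝 p) (𝓝 (‖(0 : ℂ)‖ ^ T.M)) := (hμt.norm).pow _
    refine h1.eventually_lt_const ?_
    rw [norm_zero, zero_pow T.M_pos.ne']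
    exact T.ρ_pos
  filter_upwards [he, ht.eventually hg, hWt.eventually (isOpen_ball.mem_nhds hm), hρ, hs1, hs2]
    with q a1 a2 a3 a4 a5 a6 hq0
  have e1 : μ q = ((μ q).1, yv T v ((μ q).1, W q)) := by
    conv_lhs => rw [a1.1, Frm_547.map_vert_sub]
    rw [yv_bm h a6]
  have e2 : ζ q = Z j ((μ q).1, W q) := by
    rw [a1.2, a2]
    simp
  have e3 := L.ret j (W q) a3 (μ q).1 hq0 (a5.trans a4)
  rw [← e2, ← e1] at e3
  refine ⟨σ j (W q), ?_, e3, hcl _ a3⟩
  exact e3.2.1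

end Crest.Agent.R257.Br_578
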