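import Crest.Agent.R257.T10_387
import Crest.Agent.R257.T8_387
import Crest.Agent.R257.Cii_39
import Crest.Agent.R257.CLogDefs_68

/-!
# Row 257 (S0395), C-LOG (ii), chart estimates (helper39), part 1: the members of the list

* `X1`, `Y1`     : the coordinates `x'`, `y'`
* `PD l`         : `∂_z^l P`
* `DF T D R`     : `D x'` is the reduced discriminant polynomial: `D (s ^ N₀) = ∏ (X - φ_j s)`
* `DD D l`       : `∂_{y'}^l D`
* `wt q E`       : the weight `|q|² + |x'|^(2E) + |y'|^(2E)`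
-/

set_option autoImplicit false
set_option linter.unusedSectionVars false

open Polynomial Set Filter Topology Metric
open Crest.AlgGeometry.Germ Crest.Agent.R257.AJ387 Crest.Agent.R257.Defs_219
open Crest.Agent.R257.T387
open Crest.Agent.R257.T0_387 (ptL ptL_apply)
open Crest.Agent.R257.Fr_808 (jac2 jc)

noncomputable section

namespace Crest.Agent.R257.CLL_39

variable {f : (Fin 3 → ℂ) → ℂ} (T : TB f)

/-- `x'` -/
def X1 (x : E3) : ℂ := (T.bs x).1

/-- `y'` -/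
def Y1 (x : E3) : ℂ := (T.bs x).2

/-- `∂_z^l P` -/
def PD (l : ℕ) (x : E3) : ℂ := ((derivative^[l]) (T.P (T.bs x))).eval (x 0)

/-- `D x'` is the monic polynomial with the roots `φ_j` -/
structure DF (D : ℂ → ℂ[X]) (R : ℝ) : Prop where
  R_pos : 0 < R
  deg : ∀ x ∈ ball (0 : ℂ) R, (D x).natDegree = T.m
  an : ∀ i, AnalyticOnNhd ℂ (fun x => (D x).coeff i) (ball 0 R)
  eq : ∀ s ∈ ball (0 : ℂ) T.ρ, ‖s ^ T.N₀‖ < R → D (s ^ T.N₀) = ∏ j, (X - C (T.φ j s))

/-- `∂_{y'}^l D` -/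
def DD (D : ℂ → ℂ[X]) (l : ℕ) (x : E3) : ℂ := ((derivative^[l]) (D (X1 T x))).eval (Y1 T x)

/-- the weight of a member `q` with exponent `E` -/
def wt (q : E3 → ℂ) (E : ℕ) (x : E3) : ℝ := ‖q x‖ ^ 2 + ‖X1 T x‖ ^ (2 * E) + ‖Y1 T x‖ ^ (2 * E)

variable {T}

theorem X1_th (c : Ch T.m) (z : ℂ × ℂ → ℂ) (p : ℂ × ℂ) :
    X1 T (T.th c z p) = (T.map c p).1 ^ T.N := by
  unfold X1
  rw [T.bs_th]

theorem Y1_th (c : Ch T.m) (z : ℂ × ℂ → ℂ) (p : ℂ × ℂ) :
    Y1 T (T.th c z p) = (T.map c p).2 := by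
  unfold Y1
  rw [T.bs_th]

theorem th_0 (c : Ch T.m) (z : ℂ × ℂ → ℂ) (p : ℂ × ℂ) : T.th c z p 0 = z p := rfl

theorem PD_th (l : ℕ) (c : Ch T.m) (z : ℂ × ℂ → ℂ) (p : ℂ × ℂ) :
    PD T l (T.th c z p) = ((derivative^[l]) (T.Q (T.map c p))).eval (z p) := by
  unfold PD
  rw [T.bs_th, th_0]
  rfl

theorem DD_th {D : ℂ → ℂ[X]} (l : ℕ) (c : Ch T.m) (z : ℂ × ℂ → ℂ) (p : ℂ × ℂ) :
    DD T D l (T.th c z p) = ((derivative^[l]) (D ((T.map c p).1 ^ T.N))).eval (T.map c p).2 := by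
  unfold DD
  rw [X1_th, Y1_th]

/-- the coordinates as a linear map -/
def bsL : E3 →L[ℂ] ℂ × ℂ :=
  (T.A.symm : ℂ × ℂ →L[ℂ] ℂ × ℂ).comp
    ((ContinuousLinearMap.proj 1).prod (ContinuousLinearMap.proj 2))

theorem bsL_apply (x : E3) : bsL (T := T) x = T.bs x := rfl

theorem an_bs (x : E3) : AnalyticAt ℂ T.bs x := (bsL (T := T)).analyticAt x

theorem an_X1 (x : E3) : AnalyticAt ℂ (X1 T) x := analyticAt_fst.comp (an_bs x)

theorem an_Y1 (x : E3) : AnalyticAt ℂ (Y1 T) x := analyticAt_snd.comp (an_bs x)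

/-- analyticity of iterated derivatives of a family of polynomials -/
theorem an_iter {Y : Type*} [NormedAddCommGroup Y] [NormedSpace ℂ Y] {P : Y → ℂ[X]} {d : ℕ}
    {y₀ : Y} (hd : ∀ᶠ y in 𝓝 y₀, (P y).natDegree ≤ d)
    (hc : ∀ i, AnalyticAt ℂ (fun y => (P y).coeff i) y₀) (l : ℕ) {g : Y → ℂ}
    (hg : AnalyticAt ℂ g y₀) :
    AnalyticAt ℂ (fun y => ((derivative^[l]) (P y)).eval (g y)) y₀ := by
  have h1 : (fun y => ((derivative^[l]) (P y)).eval (g y)) =ᶠ[𝓝 y₀] fun y =>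
      ∑ i ∈ Finset.range (d + 1), ((derivative^[l]) (P y)).coeff i * g y ^ i := by
    filter_upwards [hd] with y hy
    refine eval_eq_sum_range' ?_ _
    exact lt_of_le_of_lt ((natDegree_iterate_derivative (P y) l).trans (Nat.sub_le _ _))
      (Nat.lt_succ_of_le hy)
  refine AnalyticAt.congr ?_ h1.symm
  refine Finset.analyticAt_fun_sum _ fun i _ => AnalyticAt.mul ?_ (hg.pow i)
  have h2 : (fun y => ((derivative^[l]) (P y)).coeff i) =
      fun y => ((i + l).descFactorial l : ℂ) * (P y).coeff (i + l) := by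
    funext y
    rw [coeff_iterate_derivative]
    simp
  rw [h2]
  exact analyticAt_const.mul (hc (i + l))

theorem an_PD (l : ℕ) {x : E3} (hx : T.bs x ∈ BD T.R T.R) : AnalyticAt ℂ (PD T l) x := by
  refine an_iter (P := fun x => T.P (T.bs x)) (d := T.d) ?_ (fun i => ?_) l ?_
  · filter_upwards [(an_bs x).continuousAt.eventually ((isOpen_BD T.R T.R).mem_nhds hx)] with y hy
    exact (T.deg _ hy).le
  · exact AnalyticAt.comp (g := fun q => (T.P q).coeff i) (f := T.bs) (T.coeff_an i _ hx) (an_bs x)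
  · exact (ContinuousLinearMap.proj (R := ℂ) (φ := fun _ : Fin 3 => ℂ) 0).analyticAt x

theorem an_DD {D : ℂ → ℂ[X]} {R : ℝ} (hD : DF T D R) (l : ℕ) {x : E3} (hx : ‖X1 T x‖ < R) :
    AnalyticAt ℂ (DD T D l) x := by
  have hx' : X1 T x ∈ ball (0 : ℂ) R := by rwa [mem_ball_zero_iff]
  refine an_iter (P := fun x => D (X1 T x)) (d := T.m) ?_ (fun i => ?_) l (an_Y1 x)
  · filter_upwards [(an_X1 x).continuousAt.eventually (isOpen_ball.mem_nhds hx')] with y hy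
    exact (hD.deg _ hy).le
  · exact AnalyticAt.comp (g := fun q => (D q).coeff i) (f := X1 T) (hD.an i _ hx') (an_X1 x)

end Crest.Agent.R257.CLL_39
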