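import Crest.Agent.R257.CLL1_39
import Crest.Agent.R257.Jac_39

/-!
# Row 257 (S0395), C-LOG (ii), chart estimates (helper39), part 2: derivatives in the `(z, x', y')` frame

* `e0`, `ea`, `eb` : the vectors `∂_z`, `∂_{x'}`, `∂_{y'}`
* `vec_eq`         : every vector in this basis
* `Dt_X1`          : `Dt f x' q * detA = f_z q_{y'} - f_{y'} q_z`
* `fd_f`           : `df = v dP` on `{f = 0}`
* `fd_PD`, `fd_DD` : `∂_z (∂_z^l P) = ∂_z^(l+1) P`, `∂_z D = 0`, `∂_{y'} D^(l) = D^(l+1)`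
-/

set_option autoImplicit false
set_option linter.unusedSectionVars false

open Polynomial Set Filter Topology Metric
open Crest.AlgGeometry.Germ Crest.Agent.R257.AJ387 Crest.Agent.R257.Defs_219
open Crest.Agent.R257.T387
open Crest.Agent.R257.T0_387 (ptL ptL_apply)

noncomputable section

namespace Crest.Agent.R257.CLL_39

variable {f : (Fin 3 → ℂ) → ℂ} {T : TB f}

/-- `∂_z` -/
def e0 : E3 := pt 1 0

variable (T) in
/-- `∂_{x'}` -/
def ea : E3 := pt 0 (T.A (1, 0))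

variable (T) in
/-- `∂_{y'}` -/
def eb : E3 := pt 0 (T.A (0, 1))

theorem pt_0 (z : ℂ) (q : ℂ × ℂ) : pt z q 0 = z := rfl
theorem pt_1 (z : ℂ) (q : ℂ × ℂ) : pt z q 1 = q.1 := rfl
theorem pt_2 (z : ℂ) (q : ℂ × ℂ) : pt z q 2 = q.2 := rfl

theorem bs_pt (z : ℂ) (q : ℂ × ℂ) : T.bs (pt z (T.A q)) = q := by
  unfold TB.bs
  rw [pt_1, pt_2]
  exact T.A.symm_apply_apply q

theorem bs_add (x y : E3) : T.bs (x + y) = T.bs x + T.bs y := by
  rw [← bsL_apply, ← bsL_apply, ← bsL_apply, map_add]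

theorem bs_smul (t : ℂ) (x : E3) : T.bs (t • x) = t • T.bs x := by
  rw [← bsL_apply, ← bsL_apply, map_smul]

theorem bs_e0 : T.bs e0 = 0 := by
  have h := bs_pt (T := T) 1 0
  rw [map_zero] at h
  exact h

theorem bs_ea : T.bs (ea T) = (1, 0) := bs_pt 0 (1, 0)

theorem bs_eb : T.bs (eb T) = (0, 1) := bs_pt 0 (0, 1)

/-- a vector in the basis `e0, ea, eb` -/
theorem vec_eq (w : E3) : w = w 0 • e0 + ((T.bs w).1 • ea T + (T.bs w).2 • eb T) := by
  have h2 : T.A (T.bs w) = (T.bs w).1 • T.A (1, 0) + (T.bs w).2 • T.A (0, 1) := T.A_apply _ _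
  have h3 : w = pt (w 0) (T.A (T.bs w)) := T.eq_pt_bs w
  have h4 : pt (w 0) (T.A (T.bs w)) = w 0 • e0 + ((T.bs w).1 • ea T + (T.bs w).2 • eb T) := by
    rw [h2]
    funext i
    fin_cases i
    · simp [e0, ea, eb, pt]
    · simp [e0, ea, eb, pt]
    · simp [e0, ea, eb, pt]
  exact h3.trans h4

theorem fd_vec (g : E3 → ℂ) (x w : E3) : fderiv ℂ g x w =
    w 0 * fderiv ℂ g x e0 + ((T.bs w).1 * fderiv ℂ g x (ea T) + (T.bs w).2 * fderiv ℂ g x (eb T)) := by
  conv_lhs => rw [vec_eq (T := T) w]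
  rw [map_add, map_add, map_smul, map_smul, map_smul]
  simp only [smul_eq_mul]

theorem fd_X1 (x w : E3) : fderiv ℂ (X1 T) x w = (T.bs w).1 := by
  have h : HasFDerivAt (X1 T) ((ContinuousLinearMap.fst ℂ ℂ ℂ).comp (bsL (T := T))) x :=
    ((ContinuousLinearMap.fst ℂ ℂ ℂ).comp (bsL (T := T))).hasFDerivAt
  rw [h.fderiv]
  rfl

/-- **`Dt f x' q` in the frame `(z, x', y')`** -/
theorem Dt_X1 (q : E3 → ℂ) (x : E3) : Dt f (X1 T) q x * T.detA =
    fderiv ℂ f x e0 * fderiv ℂ q x (eb T) - fderiv ℂ f x (eb T) * fderiv ℂ q x e0 := by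
  set G : Matrix (Fin 3) (Fin 3) ℂ := Matrix.of ![gr f x, gr (X1 T) x, gr q x] with hG
  set W : Matrix (Fin 3) (Fin 3) ℂ := Matrix.of fun k a => (![e0, ea T, eb T] : Fin 3 → E3) a k
    with hW
  have hGd : G.det = Dt f (X1 T) q x := rfl
  have hWd : W.det = T.detA := by
    rw [Matrix.det_fin_three]
    simp only [hW, Matrix.of_apply, Matrix.cons_val_zero, Matrix.cons_val_one, Matrix.cons_val]
    simp only [e0, ea, eb, pt_0, pt_1, pt_2, TB.detA, Prod.fst_zero, Prod.snd_zero]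
    ring
  have hmul : ∀ (i : Fin 3) (a : Fin 3), (G * W) i a =
      fderiv ℂ ((![f, X1 T, q] : Fin 3 → E3 → ℂ) i) x ((![e0, ea T, eb T] : Fin 3 → E3) a) := by
    intro i a
    rw [← Jac_39.gr_dot, Matrix.mul_apply]
    refine Finset.sum_congr rfl fun k _ => ?_
    rw [mul_comm]
    congr 1
    simp only [hG, Matrix.of_apply]
    fin_cases i <;> rfl
  have h1 : (G * W).det = Dt f (X1 T) q x * T.detA := by
    rw [Matrix.det_mul, hGd, hWd]
  rw [← h1, Matrix.det_fin_three]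
  simp only [hmul, Matrix.cons_val_zero, Matrix.cons_val_one, Matrix.cons_val, fd_X1, bs_e0,
    bs_ea, bs_eb, Prod.fst_zero]
  ring

/-- the domain of the identity `f = v P` -/
def Dom (T : TB f) : Set E3 := {x | T.bs x ∈ BD T.R T.R ∧ ‖x 0‖ < T.rz}

theorem isOpen_Dom : IsOpen (Dom T) := by
  have h1 : Continuous T.bs := (bsL (T := T)).continuous
  exact ((isOpen_BD T.R T.R).preimage h1).inter
    (isOpen_lt (continuous_apply 0).norm continuous_const)

theorem zero_Dom : (0 : E3) ∈ Dom T := by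
  refine ⟨?_, ?_⟩
  · have : T.bs 0 = 0 := by rw [← bsL_apply, map_zero]
    rw [this]
    exact ⟨by simpa using T.R_pos, by simpa using T.R_pos⟩
  · simpa using T.rz_pos

theorem f_Dom {x : E3} (hx : x ∈ Dom T) : f x = T.v (T.bs x, x 0) * PD T 0 x := by
  have h1 := T.f_eq _ hx.1 _ hx.2.le
  rw [← T.eq_pt_bs x] at h1
  rw [h1]
  rfl

theorem an_vD {x : E3} (hx : x ∈ Dom T) : AnalyticAt ℂ (fun x : E3 => T.v (T.bs x, x 0)) x := by
  refine AnalyticAt.comp (g := T.v) (f := fun x : E3 => (T.bs x, x 0)) (T.v_an _ hx.1 _ hx.2.le) ?_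
  exact (an_bs x).prod ((ContinuousLinearMap.proj (R := ℂ) (φ := fun _ : Fin 3 => ℂ) 0).analyticAt x)

theorem anf_Dom {x : E3} (hx : x ∈ Dom T) : AnalyticAt ℂ f x := by
  have h1 := T.f_an _ hx.1 _ hx.2.le
  rwa [← T.eq_pt_bs x] at h1

/-- `df = v dP` on `{f = 0}` -/
theorem fd_f {x : E3} (hx : x ∈ Dom T) (h0 : PD T 0 x = 0) (w : E3) :
    fderiv ℂ f x w = T.v (T.bs x, x 0) * fderiv ℂ (PD T 0) x w := by
  have h1 : f =ᶠ[𝓝 x] fun x => T.v (T.bs x, x 0) * PD T 0 x := by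
    filter_upwards [isOpen_Dom.mem_nhds hx] with y hy
    exact f_Dom hy
  rw [h1.fderiv_eq, fderiv_fun_mul (an_vD hx).differentiableAt (an_PD 0 hx.1).differentiableAt]
  simp [h0]

theorem v_ne {x : E3} (hx : x ∈ Dom T) : T.v (T.bs x, x 0) ≠ 0 := T.v_ne _ hx.1 _ hx.2.le

/-- derivative along a line -/
theorem fd_line {q : E3 → ℂ} {x w : E3} (hq : DifferentiableAt ℂ q x) {d : ℂ}
    (h : HasDerivAt (fun t : ℂ => q (x + t • w)) d 0) : fderiv ℂ q x w = d := by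
  have h1 : HasDerivAt (fun t : ℂ => x + t • w) w 0 := by
    have := ((hasDerivAt_id (0 : ℂ)).smul_const w).const_add x
    simpa using this
  have h2 : HasFDerivAt q (fderiv ℂ q x) (x + (0 : ℂ) • w) := by
    simpa using hq.hasFDerivAt
  have h3 := h2.comp_hasDerivAt (0 : ℂ) h1
  exact h3.unique h

/-- `∂_z` of `∂_z^l P` -/
theorem fd_PD (l : ℕ) {x : E3} (hx : x ∈ Dom T) : fderiv ℂ (PD T l) x e0 = PD T (l + 1) x := by
  refine fd_line (an_PD l hx.1).differentiableAt ?_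
  have h1 : (fun t : ℂ => PD T l (x + t • e0)) =
      fun t => ((derivative^[l]) (T.P (T.bs x))).eval (x 0 + t) := by
    funext t
    unfold PD
    rw [bs_add, bs_smul, bs_e0, smul_zero, add_zero]
    congr 1
    simp [e0, pt]
  rw [h1]
  have h2 := ((derivative^[l]) (T.P (T.bs x))).hasDerivAt (x 0 + 0)
  have h3 : HasDerivAt (fun t : ℂ => x 0 + t) 1 0 := by
    simpa using (hasDerivAt_id (0 : ℂ)).const_add (x 0)
  have h4 := h2.comp (0 : ℂ) h3
  rw [mul_one, add_zero] at h4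
  unfold PD
  rw [Function.iterate_succ_apply']
  exact h4

/-- `∂_z D = 0` -/
theorem fd_DD0 {D : ℂ → ℂ[X]} {R : ℝ} (hD : DF T D R) (l : ℕ) {x : E3} (hx : ‖X1 T x‖ < R) :
    fderiv ℂ (DD T D l) x e0 = 0 := by
  refine fd_line (an_DD hD l hx).differentiableAt ?_
  have h1 : (fun t : ℂ => DD T D l (x + t • e0)) = fun _ => DD T D l x := by
    funext t
    unfold DD X1 Y1
    rw [bs_add, bs_smul, bs_e0, smul_zero, add_zero]
  rw [h1]
  exact hasDerivAt_const _ _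

/-- `∂_{y'}` of `∂_{y'}^l D` -/
theorem fd_DD {D : ℂ → ℂ[X]} {R : ℝ} (hD : DF T D R) (l : ℕ) {x : E3} (hx : ‖X1 T x‖ < R) :
    fderiv ℂ (DD T D l) x (eb T) = DD T D (l + 1) x := by
  refine fd_line (an_DD hD l hx).differentiableAt ?_
  have h1 : (fun t : ℂ => DD T D l (x + t • eb T)) =
      fun t => ((derivative^[l]) (D (X1 T x))).eval (Y1 T x + t) := by
    funext t
    unfold DD X1 Y1
    rw [bs_add, bs_smul, bs_eb]
    simp
  rw [h1]
  have h2 := ((derivative^[l]) (D (X1 T x))).hasDerivAt (Y1 T x + 0)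
  have h3 : HasDerivAt (fun t : ℂ => Y1 T x + t) 1 0 := by
    simpa using (hasDerivAt_id (0 : ℂ)).const_add (Y1 T x)
  have h4 := h2.comp (0 : ℂ) h3
  rw [mul_one, add_zero] at h4
  unfold DD
  rw [Function.iterate_succ_apply']
  exact h4

end Crest.Agent.R257.CLL_39
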