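import Crest.Agent.R257.CLL1_39

/-!
# Row 257 (S0395), C-LOG (helper39): the literal list of post 4059 (helper68)

Members (`bm`, index `BI T = Option (Fin T.m ⊕ Fin T.d)`), exponents (`be`):
* `none`          : `x'`, exponent `E₀`
* `some (inl l)`  : `∂_{y'}^l D`, `l < m`, exponent `E₂`
* `some (inr l)`  : `∂_z^l P`, `l < d`, exponent `E₁`
The system of a member `b` with exponent `E` is `b, x'^E, y'^E` (`wt T b E` is its sum of squares).
* `lq`, `ls`      : the list of all systems, indexed by `Fin (LL T)`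
* `sq_lq`         : the sum of squares of a system is `wt`
* `ie_symm`, `sq_some`, `term_le` : `|{b, b'}|² / (wt b wt b') ≤ J2`
-/

set_option autoImplicit false
set_option linter.unusedSectionVars false

open Polynomial Set Filter Topology Metric
open Crest.AlgGeometry.Germ Crest.Agent.R257.AJ387 Crest.Agent.R257.Defs_219
open Crest.Agent.R257.T387
open Crest.Agent.R257.CLog_68 (sq phq J2 a2 Sys CI CII fib)

noncomputable section

namespace Crest.Agent.R257.CLL_39

variable {f : (Fin 3 → ℂ) → ℂ} (T : TB f)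

/-- the index set of the members -/
abbrev BI : Type := Option (Fin T.m ⊕ Fin T.d)

/-- the members -/
def bm (D : ℂ → ℂ[X]) : BI T → E3 → ℂ
  | none => X1 T
  | some (.inl l) => DD T D l
  | some (.inr l) => PD T l

/-- their exponents -/
def be (E₀ E₁ E₂ : ℕ) : BI T → ℕ
  | none => E₀
  | some (.inl _) => E₂
  | some (.inr _) => E₁

/-- length of the list -/
def LL : ℕ := Fintype.card (BI T × Fin 3)

/-- the index set of the list -/
def ie : Fin (LL T) ≃ BI T × Fin 3 := (Fintype.equivFin (BI T × Fin 3)).symm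

/-- the list -/
def lq (D : ℂ → ℂ[X]) (E₀ E₁ E₂ : ℕ) (l : Fin (LL T)) : E3 → ℂ :=
  (![bm T D (ie T l).1, fun x => X1 T x ^ be T E₀ E₁ E₂ (ie T l).1,
    fun x => Y1 T x ^ be T E₀ E₁ E₂ (ie T l).1] : Fin 3 → E3 → ℂ) (ie T l).2

/-- the systems -/
def ls (l : Fin (LL T)) : ℕ := (Fintype.equivFin (BI T) (ie T l).1 : ℕ)

/-- the index of the member `b` -/
def ib (b : BI T) : Fin (LL T) := (ie T).symm (b, 0)

variable {T} {D : ℂ → ℂ[X]} {E₀ E₁ E₂ : ℕ}

theorem lq_ib (b : BI T) : lq T D E₀ E₁ E₂ (ib T b) = bm T D b := by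
  unfold lq ib
  rw [Equiv.apply_symm_apply]
  rfl

theorem ls_eq_iff (l l' : Fin (LL T)) : ls T l = ls T l' ↔ (ie T l).1 = (ie T l').1 := by
  unfold ls
  rw [Fin.val_inj]
  exact (Fintype.equivFin (BI T)).apply_eq_iff_eq

/-- **the sum of squares of a system** -/
theorem sq_lq (l : Fin (LL T)) (x : E3) : sq (lq T D E₀ E₁ E₂) (ls T) l x =
    wt T (bm T D (ie T l).1) (be T E₀ E₁ E₂ (ie T l).1) x := by
  unfold CLog_68.sq
  have h1 : ∑ m ∈ fib (ls T) l, ‖lq T D E₀ E₁ E₂ m x‖ ^ 2 =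
      ∑ m : Fin (LL T), if (ie T m).1 = (ie T l).1 then ‖lq T D E₀ E₁ E₂ m x‖ ^ 2 else 0 := by
    unfold CLog_68.fib
    rw [Finset.sum_filter]
    refine Finset.sum_congr rfl fun m _ => ?_
    simp only [ls_eq_iff]
  rw [h1]
  set b := (ie T l).1 with hb
  have h2 : ∑ m : Fin (LL T), (if (ie T m).1 = b then ‖lq T D E₀ E₁ E₂ m x‖ ^ 2 else 0) =
      ∑ a : BI T × Fin 3, if a.1 = b then
        ‖(![bm T D a.1, fun x => X1 T x ^ be T E₀ E₁ E₂ a.1,
          fun x => Y1 T x ^ be T E₀ E₁ E₂ a.1] : Fin 3 → E3 → ℂ) a.2 x‖ ^ 2 else 0 := by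
    rw [← (ie T).sum_comp]
    rfl
  rw [h2, Fintype.sum_prod_type, Finset.sum_eq_single b]
  · rw [Fin.sum_univ_three]
    simp only [if_true, Matrix.cons_val_zero, Matrix.cons_val_one, Matrix.cons_val]
    unfold wt
    rw [norm_pow, norm_pow, ← pow_mul, ← pow_mul, mul_comm _ 2]
  · intro b' _ hb'
    simp [hb']
  · intro h
    exact absurd (Finset.mem_univ b) h

theorem sq_ib (b : BI T) (x : E3) : sq (lq T D E₀ E₁ E₂) (ls T) (ib T b) x =
    wt T (bm T D b) (be T E₀ E₁ E₂ b) x := by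
  rw [sq_lq]
  unfold ib
  rw [Equiv.apply_symm_apply]

/-- **lower bound of `J2` by the members** -/
theorem term_le {x : E3} (hpos : ∀ l, 0 < sq (lq T D E₀ E₁ E₂) (ls T) l x) {b b' : BI T}
    (h : b ≠ b') :
    ‖Dt f (bm T D b) (bm T D b') x‖ ^ 2 /
      (wt T (bm T D b) (be T E₀ E₁ E₂ b) x * wt T (bm T D b') (be T E₀ E₁ E₂ b') x) ≤
    J2 f (lq T D E₀ E₁ E₂) (ls T) x := by
  have hne : ib T b ≠ ib T b' := by
    intro h1
    apply h
    have := (ie T).symm.injective h1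
    exact (Prod.ext_iff.1 this).1
  have h1 := Cii_39.term_le_J2 (f := f) (lq T D E₀ E₁ E₂) (ls T) (ib T b) (ib T b') x hne
  refine le_trans (le_of_eq ?_) h1
  unfold CLog_68.phq
  rw [Real.exp_neg, Real.exp_add, Real.exp_log (hpos _), Real.exp_log (hpos _), sq_ib, sq_ib,
    lq_ib, lq_ib]
  rw [div_eq_mul_inv, mul_comm]

end Crest.Agent.R257.CLL_39
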