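import Crest.Agent.R257.CLL2_39
import Crest.Agent.R257.CLogL_39

/-!
# Row 257 (S0395), C-LOG (ii), chart estimates (helper39), part 3: monomials on a leg

* `Dp c`    : `D` in the chart `c`; `DD_eq : DD 0 ∘ th = Dp`
* `leg_D`   : `D = α^a β^M U`, `∂_β D = α^a β^(M-1) V`, `V ≠ 0`
* `leg_wt`  : `wt q E ≤ |q|² + C |α|^(2 M E)`
* `leg_A`   : zone A, `|α|^(M E₂) ≤ |α|^a |β|^(M-1)`
-/

set_option autoImplicit false
set_option linter.unusedSectionVars false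

open Polynomial Set Filter Topology Metric
open Crest.AlgGeometry.Germ Crest.Agent.R257.AJ387 Crest.Agent.R257.Defs_219
open Crest.Agent.R257.T387
open Crest.Agent.R257.T0_387 (ptL ptL_apply)
open Crest.Agent.R257.Fr_808 (jac2 jc)

noncomputable section

namespace Crest.Agent.R257.CLL_39

variable {f : (Fin 3 → ℂ) → ℂ} {T : TB f}

variable (T) in
/-- `D` in the chart `c` -/
def Dp (c : Ch T.m) (p : ℂ × ℂ) : ℂ := ∏ j, ((T.map c p).2 - T.φ j ((T.map c p).1 ^ T.M))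

/-- `D ∘ th` -/
theorem DD_eq {D : ℂ → ℂ[X]} {R : ℝ} (hD : DF T D R) {c : Ch T.m} {z : ℂ × ℂ → ℂ} {p : ℂ × ℂ}
    (h1 : ‖(T.map c p).1‖ ^ T.M < T.ρ) (h2 : ‖X1 T (T.th c z p)‖ < R) :
    DD T D 0 (T.th c z p) = Dp T c p := by
  have h3 : (T.map c p).1 ^ T.N = ((T.map c p).1 ^ T.M) ^ T.N₀ := by
    rw [← pow_mul, TB.N, mul_comm]
  rw [X1_th, h3] at h2
  rw [DD_th, h3, Function.iterate_zero, id_eq,
    hD.eq _ (by rwa [mem_ball_zero_iff, norm_pow]) h2, eval_prod]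
  simp [Dp]

theorem leg_fst (i : Fin T.m) (p : ℂ × ℂ) : (T.map (.leg i) p).1 = p.1 := rfl

theorem leg_snd (i : Fin T.m) (p : ℂ × ℂ) : (T.map (.leg i) p).2 =
    T.φ i (p.1 ^ T.M) + p.1 ^ (T.M * T.top i) * p.2 ^ T.M := rfl

theorem an_fd {W : ℂ × ℂ → ℂ} {p : ℂ × ℂ} (h : AnalyticAt ℂ W p) (v : ℂ × ℂ) :
    AnalyticAt ℂ (fun p => fderiv ℂ W p v) p :=
  ((ContinuousLinearMap.apply ℂ ℂ v).analyticAt _).comp h.fderiv

/-- `D` in the leg -/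
theorem leg_D (i : Fin T.m) : ∃ r₀ > 0, ∃ (a : ℕ) (U V : ℂ × ℂ → ℂ),
    AnalyticOnNhd ℂ U (BD r₀ r₀) ∧ AnalyticOnNhd ℂ V (BD r₀ r₀) ∧ (∀ p ∈ BD r₀ r₀, V p ≠ 0) ∧
    ∀ p ∈ BD r₀ r₀, Dp T (.leg i) p = p.1 ^ a * p.2 ^ T.M * U p ∧
      fderiv ℂ (Dp T (.leg i)) p (0, 1) = p.1 ^ a * p.2 ^ (T.M - 1) * V p := by
  obtain ⟨r, hr, hm⟩ := T.exists_monoC (c := .leg i) trivial
  choose U h1 h2 h3 using hm
  set W : ℂ × ℂ → ℂ := fun p => ∏ j, U j p with hW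
  have hWa : AnalyticOnNhd ℂ W (BD r r) := fun p hp =>
    Finset.analyticAt_fun_prod (f := fun j (p : ℂ × ℂ) => U j p) _ fun j _ => h1 j p hp
  have hWn : ∀ p ∈ BD r r, W p ≠ 0 := fun p hp => Finset.prod_ne_zero_iff.2 fun j _ => h2 j p hp
  set a : ℕ := T.M * ∑ j, (T.ex (.leg i) j).1 with ha
  have hsum : ∑ j, (T.ex (.leg i) j).2 = 1 := by
    have : ∀ j, (T.ex (.leg i) j).2 = if j = i then 1 else 0 := by
      intro j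
      by_cases h : j = i <;> simp [TB.ex, h]
    simp only [this]
    simp
  have hDp : ∀ p ∈ BD r r, Dp T (.leg i) p = p.1 ^ a * p.2 ^ T.M * W p := by
    intro p hp
    unfold Dp
    rw [Finset.prod_congr rfl fun j _ => h3 j p hp, Finset.prod_mul_distrib,
      Finset.prod_mul_distrib, Finset.prod_pow_eq_pow_sum, Finset.prod_pow_eq_pow_sum, hsum,
      pow_one]
    simp only [TB.kap, ← pow_mul]
    rfl
  set V : ℂ × ℂ → ℂ := fun p => T.M * W p + p.2 * fderiv ℂ W p (0, 1) with hV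
  have hVa : AnalyticOnNhd ℂ V (BD r r) := fun p hp =>
    (analyticAt_const.mul (hWa p hp)).add (analyticAt_snd.mul (an_fd (hWa p hp) _))
  have h00 : ((0 : ℂ), (0 : ℂ)) ∈ BD r r := ⟨by simpa using hr, by simpa using hr⟩
  have hM : (T.M : ℂ) ≠ 0 := by exact_mod_cast T.M_pos.ne'
  have hV0 : V (0, 0) ≠ 0 := by
    simp only [hV, zero_mul, add_zero]
    exact mul_ne_zero hM (hWn _ h00)
  obtain ⟨r₀, hr₀, hle, hVn⟩ := TB.unit_near hr hVa hV0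
  refine ⟨r₀, hr₀, a, W, V, hWa.mono (TB.BD_mono hle), hVa.mono (TB.BD_mono hle), hVn,
    fun p hp => ⟨hDp p (TB.BD_mono hle hp), ?_⟩⟩
  have hp' := TB.BD_mono hle hp
  have he : Dp T (.leg i) =ᶠ[𝓝 p] fun p => p.1 ^ a * p.2 ^ T.M * W p := by
    filter_upwards [(isOpen_BD r r).mem_nhds hp'] with p' hp'
    exact hDp p' hp'
  obtain ⟨L, hL, -, hL2⟩ := TB.fd_mono a T.M p
  have h5 : HasFDerivAt (fun p : ℂ × ℂ => p.1 ^ a * p.2 ^ T.M * W p)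
      ((p.1 ^ a * p.2 ^ T.M) • fderiv ℂ W p + W p • L) p :=
    hL.mul (hWa p hp').differentiableAt.hasFDerivAt
  rw [he.fderiv_eq, h5.fderiv]
  have hMs : T.M = (T.M - 1) + 1 := by have := T.M_pos; omega
  simp only [add_apply, smul_apply, smul_eq_mul, hL2, hV]
  have e2 : p.2 ^ T.M = p.2 ^ (T.M - 1) * p.2 := by
    conv_lhs => rw [hMs, pow_succ]
  rw [e2]
  ring

theorem near_norm_le {b : ℂ} : ∀ᶠ p in 𝓝 ((0 : ℂ), b), ‖p.1‖ ≤ 1 ∧ ‖p.2‖ ≤ ‖b‖ + 1 := by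
  have h1 : ∀ᶠ p in 𝓝 ((0 : ℂ), b), ‖p.1‖ < 1 := by
    have : Tendsto (fun p : ℂ × ℂ => ‖p.1‖) (𝓝 ((0 : ℂ), b)) (𝓝 ‖(0 : ℂ)‖) :=
      continuous_fst.norm.tendsto _
    exact this.eventually (gt_mem_nhds (by simp))
  have h2 : ∀ᶠ p in 𝓝 ((0 : ℂ), b), ‖p.2‖ < ‖b‖ + 1 := by
    have : Tendsto (fun p : ℂ × ℂ => ‖p.2‖) (𝓝 ((0 : ℂ), b)) (𝓝 ‖b‖) :=
      continuous_snd.norm.tendsto _
    exact this.eventually (gt_mem_nhds (by simp))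
  filter_upwards [h1, h2] with p h3 h4 using ⟨h3.le, h4.le⟩

/-- `|y'| ≤ C |α|^M` on a leg -/
theorem leg_Y (i : Fin T.m) (b : ℂ) : ∃ C : ℝ, 0 ≤ C ∧ ∀ᶠ p in 𝓝 ((0 : ℂ), b),
    ‖(T.map (.leg i) p).2‖ ≤ C * ‖p.1‖ ^ T.M := by
  have h1 : (fun s => T.φ i s) =O[𝓝 0] fun s => s := by
    have h2 := (T.φ_an i 0 (mem_ball_self T.ρ_pos)).differentiableAt.isBigO_sub
    simpa [T.φ_zero i] using h2
  obtain ⟨C, hC, h2⟩ := h1.exists_nonneg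
  have h3 := h2.bound
  have h4 : Tendsto (fun p : ℂ × ℂ => p.1 ^ T.M) (𝓝 ((0 : ℂ), b)) (𝓝 0) := by
    have : ContinuousAt (fun p : ℂ × ℂ => p.1 ^ T.M) ((0 : ℂ), b) := by fun_prop
    have h5 := this.tendsto
    simpa [T.M_pos.ne'] using h5
  refine ⟨C + (‖b‖ + 1) ^ T.M, by positivity, ?_⟩
  filter_upwards [h4.eventually h3, near_norm_le] with p h5 h6
  rw [leg_snd, add_mul]
  refine (norm_add_le _ _).trans (add_le_add ?_ ?_)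
  · rwa [norm_pow] at h5
  · rw [norm_mul, norm_pow, norm_pow, mul_comm]
    have ht : 1 ≤ T.top i := T.lev_pos (T.top_mem i)
    have h7 : ‖p.1‖ ^ (T.M * T.top i) ≤ ‖p.1‖ ^ T.M :=
      pow_le_pow_of_le_one (norm_nonneg _) h6.1 (Nat.le_mul_of_pos_right _ ht)
    exact mul_le_mul (pow_le_pow_left₀ (norm_nonneg _) h6.2 _) h7 (by positivity) (by positivity)

theorem M_le_N : T.M ≤ T.N := Nat.le_mul_of_pos_left _ T.N₀_pos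

/-- the weights on a leg -/
theorem leg_wt (i : Fin T.m) (b : ℂ) (E : ℕ) : ∃ C : ℝ, 0 ≤ C ∧ ∀ᶠ p in 𝓝 ((0 : ℂ), b),
    ∀ (z : ℂ × ℂ → ℂ) (q : E3 → ℂ), wt T q E (T.th (.leg i) z p) ≤
      ‖q (T.th (.leg i) z p)‖ ^ 2 + C * ‖p.1‖ ^ (2 * (T.M * E)) := by
  obtain ⟨C, hC, h1⟩ := leg_Y (T := T) i b
  refine ⟨1 + C ^ (2 * E), by positivity, ?_⟩
  filter_upwards [h1, near_norm_le] with p h2 h3 z q
  unfold wt
  rw [X1_th, Y1_th, leg_fst, norm_pow, ← pow_mul, add_mul, one_mul, add_assoc]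
  refine add_le_add le_rfl (add_le_add ?_ ?_)
  · refine pow_le_pow_of_le_one (norm_nonneg _) h3.1 ?_
    have := Nat.mul_le_mul_right (2 * E) (M_le_N (T := T))
    calc 2 * (T.M * E) = T.M * (2 * E) := by ring
      _ ≤ _ := this
  · calc ‖(T.map (.leg i) p).2‖ ^ (2 * E) ≤ (C * ‖p.1‖ ^ T.M) ^ (2 * E) :=
          pow_le_pow_left₀ (norm_nonneg _) h2 _
      _ = _ := by
        rw [mul_pow, ← pow_mul]
        congr 2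
        ring

/-- the weight of `x'` on a leg -/
theorem leg_wtX (i : Fin T.m) (b : ℂ) {E₀ : ℕ} (hE : T.N₀ ≤ E₀) : ∃ C : ℝ, 0 < C ∧
    ∀ᶠ p in 𝓝 ((0 : ℂ), b), ∀ (z : ℂ × ℂ → ℂ),
      wt T (X1 T) E₀ (T.th (.leg i) z p) ≤ C * ‖p.1‖ ^ (2 * T.N) := by
  obtain ⟨C, hC, h1⟩ := leg_wt (T := T) i b E₀
  refine ⟨1 + C, by positivity, ?_⟩
  filter_upwards [h1, near_norm_le] with p h2 h3 z
  refine (h2 z (X1 T)).trans ?_
  rw [X1_th, leg_fst, norm_pow, ← pow_mul, add_mul, one_mul, mul_comm T.N 2]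
  refine add_le_add le_rfl (mul_le_mul_of_nonneg_left ?_ hC)
  refine pow_le_pow_of_le_one (norm_nonneg _) h3.1 ?_
  have : T.N ≤ T.M * E₀ := by
    unfold TB.N
    rw [mul_comm]
    exact Nat.mul_le_mul_left _ hE
  omega

theorem X1_leg (i : Fin T.m) (z : ℂ × ℂ → ℂ) :
    (fun p => X1 T (T.th (.leg i) z p)) = fun p => p.1 ^ T.N := by
  funext p
  rw [X1_th, leg_fst]

/-- the Jacobian of `x'` and `q` on a leg -/
theorem leg_jc (i : Fin T.m) (z : ℂ × ℂ → ℂ) {G q : ℂ × ℂ → ℂ} {p : ℂ × ℂ} (h : q =ᶠ[𝓝 p] G) :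
    jc (fun p => X1 T (T.th (.leg i) z p)) q p =
      T.N * p.1 ^ (T.N - 1) * fderiv ℂ G p (0, 1) := by
  rw [X1_leg]
  obtain ⟨L, hL, hL1, hL2⟩ := TB.fd_mono T.N 0 p
  have hL' : HasFDerivAt (fun p : ℂ × ℂ => p.1 ^ T.N) L p := by simpa using hL
  unfold Fr_808.jc
  rw [hL'.fderiv, hL1, hL2, h.fderiv_eq]
  simp

theorem leg_rho {i : Fin T.m} {r : ℝ} {ζ : Fin T.d → ℂ × ℂ → ℂ} (hS : T.Sheets (.leg i) r ζ)
    {p : ℂ × ℂ} (hp : p ∈ BD r r) : ‖(T.map (.leg i) p).1‖ ^ T.M < T.ρ := (hS.mem p hp).2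

/-- near the special fibre `x'` is small -/
theorem leg_X_small (i : Fin T.m) (b : ℂ) {R : ℝ} (hR : 0 < R) :
    ∀ᶠ p in 𝓝 ((0 : ℂ), b), ∀ z : ℂ × ℂ → ℂ, ‖X1 T (T.th (.leg i) z p)‖ < R := by
  have h4 : Tendsto (fun p : ℂ × ℂ => ‖p.1 ^ T.N‖) (𝓝 ((0 : ℂ), b)) (𝓝 0) := by
    have : ContinuousAt (fun p : ℂ × ℂ => ‖p.1 ^ T.N‖) ((0 : ℂ), b) := by fun_prop
    have h5 := this.tendsto
    simpa [T.N_pos.ne'] using h5
  filter_upwards [h4.eventually (gt_mem_nhds hR)] with p h z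
  rw [X1_th, leg_fst]
  exact h

theorem mem_BD0 {r : ℝ} (hr : 0 < r) {b : ℂ} (hb : ‖b‖ < r) : ((0 : ℂ), b) ∈ BD r r :=
  ⟨by simpa using hr, hb⟩

/-- `DD 0 ∘ th = Dp` near the special fibre -/
theorem leg_DD {D : ℂ → ℂ[X]} {R : ℝ} (hD : DF T D R) {i : Fin T.m} {r : ℝ}
    {ζ : Fin T.d → ℂ × ℂ → ℂ} (hS : T.Sheets (.leg i) r ζ) (z : ℂ × ℂ → ℂ) {b : ℂ}
    (hb : ‖b‖ < r) : (fun p => DD T D 0 (T.th (.leg i) z p)) =ᶠ[𝓝 ((0 : ℂ), b)]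
      Dp T (.leg i) := by
  filter_upwards [leg_X_small (T := T) i b hD.R_pos,
    (isOpen_BD r r).mem_nhds (mem_BD0 hS.r_pos hb)] with p h1 h2
  exact DD_eq hD (leg_rho hS h2) (h1 z)

/-- **zone A of a leg** -/
theorem leg_A {i : Fin T.m} {r₀ : ℝ} (hr₀ : 0 < r₀) {a : ℕ} {U V : ℂ × ℂ → ℂ}
    (hU : AnalyticOnNhd ℂ U (BD r₀ r₀)) (hV : AnalyticOnNhd ℂ V (BD r₀ r₀))
    (hVn : ∀ p ∈ BD r₀ r₀, V p ≠ 0)
    (hDp : ∀ p ∈ BD r₀ r₀, Dp T (.leg i) p = p.1 ^ a * p.2 ^ T.M * U p ∧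
      fderiv ℂ (Dp T (.leg i)) p (0, 1) = p.1 ^ a * p.2 ^ (T.M - 1) * V p)
    {D : ℂ → ℂ[X]} {R : ℝ} (hD : DF T D R) {r : ℝ}
    {ζ : Fin T.d → ℂ × ℂ → ℂ} (hS : T.Sheets (.leg i) r ζ) (z : ℂ × ℂ → ℂ) {E₀ E₁ E₂ : ℕ}
    (hE : T.N₀ ≤ E₀) {b : ℂ} (hb : ‖b‖ < r) (hb₀ : ‖b‖ < r₀) :
    ∃ c₀ > 0, ∀ᶠ p in 𝓝 ((0 : ℂ), b), p.1 ≠ 0 → p.2 ≠ 0 →
      ‖p.1‖ ^ (T.M * E₂) ≤ ‖p.1‖ ^ a * ‖p.2‖ ^ (T.M - 1) →
      c₀ ≤ ‖jc (fun p => bm T D none (T.th (.leg i) z p))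
          (fun p => bm T D (some (.inl ⟨0, T.m_pos⟩)) (T.th (.leg i) z p)) p‖ ^ 2 * ‖p.1‖ ^ 2 /
        (wt T (bm T D none) (be T E₀ E₁ E₂ none) (T.th (.leg i) z p) *
          wt T (bm T D (some (.inl ⟨0, T.m_pos⟩))) (be T E₀ E₁ E₂ (some (.inl ⟨0, T.m_pos⟩)))
            (T.th (.leg i) z p)) := by
  have hb₀' := mem_BD0 hr₀ hb₀
  obtain ⟨C₁, hC₁, h1⟩ := leg_wtX (T := T) i b hE
  obtain ⟨C₂, hC₂, h2⟩ := leg_wt (T := T) i b E₂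
  have hV0 : 0 < ‖V (0, b)‖ := norm_pos_iff.2 (hVn _ hb₀')
  have hVl : ∀ᶠ p in 𝓝 ((0 : ℂ), b), ‖V (0, b)‖ / 2 < ‖V p‖ :=
    (hV _ hb₀').continuousAt.norm.tendsto.eventually (lt_mem_nhds (by linarith))
  have hUl : ∀ᶠ p in 𝓝 ((0 : ℂ), b), ‖U p‖ < ‖U (0, b)‖ + 1 :=
    (hU _ hb₀').continuousAt.norm.tendsto.eventually (gt_mem_nhds (by linarith))
  set C₃ : ℝ := (‖b‖ + 1) ^ 2 * (‖U (0, b)‖ + 1) ^ 2 + C₂ with hC₃
  have hC₃0 : 0 < C₃ := by positivity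
  have hN : (0 : ℝ) < T.N := by exact_mod_cast T.N_pos
  refine ⟨(T.N : ℝ) ^ 2 * (‖V (0, b)‖ / 2) ^ 2 / (C₁ * C₃), by positivity, ?_⟩
  filter_upwards [h1, h2, hVl, hUl, near_norm_le, (isOpen_BD r₀ r₀).mem_nhds hb₀',
    (leg_DD hD hS z hb).eventuallyEq_nhds] with p h3 h4 h5 h6 h7 h8 h9 hp1 hp2 hz
  have n1 := norm_pos_iff.2 hp1
  have n2 := norm_pos_iff.2 hp2
  obtain ⟨h10, h11⟩ := hDp p h8
  have hMs : T.M = (T.M - 1) + 1 := by have := T.M_pos; omega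
  have hNs : T.N = (T.N - 1) + 1 := by have := T.N_pos; omega
  set x := T.th (.leg i) z p with hx
  have ejc : ‖jc (fun p => bm T D none (T.th (.leg i) z p))
      (fun p => bm T D (some (.inl ⟨0, T.m_pos⟩)) (T.th (.leg i) z p)) p‖ ^ 2 * ‖p.1‖ ^ 2 =
      (T.N : ℝ) ^ 2 * ‖V p‖ ^ 2 * (‖p.1‖ ^ (2 * T.N) * (‖p.1‖ ^ a * ‖p.2‖ ^ (T.M - 1)) ^ 2) := by
    have e1 : jc (fun p => bm T D none (T.th (.leg i) z p))
      (fun p => bm T D (some (.inl ⟨0, T.m_pos⟩)) (T.th (.leg i) z p)) p =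
        T.N * p.1 ^ (T.N - 1) * (p.1 ^ a * p.2 ^ (T.M - 1) * V p) := by
      rw [← h11]
      exact leg_jc i z h9
    rw [e1]
    simp only [norm_mul, norm_pow, Complex.norm_natCast]
    have e2 : ‖p.1‖ ^ (2 * T.N) = (‖p.1‖ ^ (T.N - 1)) ^ 2 * ‖p.1‖ ^ 2 := by
      rw [← pow_mul, ← pow_add]
      congr 1
      omega
    rw [e2]
    ring
  have hX0 : 0 < wt T (X1 T) E₀ x := by
    have : X1 T x ≠ 0 := by
      rw [hx, X1_th, leg_fst]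
      exact pow_ne_zero _ hp1
    have := norm_pos_iff.2 this
    unfold wt
    positivity
  have hD0 : 0 < wt T (DD T D 0) E₂ x := by
    have : X1 T x ≠ 0 := by
      rw [hx, X1_th, leg_fst]
      exact pow_ne_zero _ hp1
    have := norm_pos_iff.2 this
    unfold wt
    positivity
  have hwD : wt T (DD T D 0) E₂ x ≤ C₃ * (‖p.1‖ ^ a * ‖p.2‖ ^ (T.M - 1)) ^ 2 := by
    refine (h4 z (DD T D 0)).trans ?_
    have e3 : DD T D 0 (T.th (.leg i) z p) = p.1 ^ a * p.2 ^ T.M * U p := by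
      rw [← h10]
      exact h9.self_of_nhds
    rw [e3, hC₃, add_mul]
    refine add_le_add ?_ (mul_le_mul_of_nonneg_left ?_ hC₂)
    · have e4 : ‖p.1 ^ a * p.2 ^ T.M * U p‖ ^ 2 =
          (‖p.2‖ ^ 2 * ‖U p‖ ^ 2) * (‖p.1‖ ^ a * ‖p.2‖ ^ (T.M - 1)) ^ 2 := by
        simp only [norm_mul, norm_pow]
        conv_lhs => rw [hMs]
        rw [pow_succ]
        ring
      rw [e4]
      refine mul_le_mul_of_nonneg_right ?_ (by positivity)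
      exact mul_le_mul (pow_le_pow_left₀ (norm_nonneg _) h7.2 2)
        (pow_le_pow_left₀ (norm_nonneg _) h6.le 2) (by positivity) (by positivity)
    · have e5 : ‖p.1‖ ^ (2 * (T.M * E₂)) = (‖p.1‖ ^ (T.M * E₂)) ^ 2 := by
        rw [← pow_mul, mul_comm]
      rw [e5]
      exact pow_le_pow_left₀ (by positivity) hz 2
  rw [ejc]
  show _ ≤ _ / (wt T (X1 T) E₀ x * wt T (DD T D 0) E₂ x)
  rw [div_le_div_iff₀ (by positivity) (by positivity)]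
  have h12 : wt T (X1 T) E₀ x * wt T (DD T D 0) E₂ x ≤
      (C₁ * ‖p.1‖ ^ (2 * T.N)) * (C₃ * (‖p.1‖ ^ a * ‖p.2‖ ^ (T.M - 1)) ^ 2) :=
    mul_le_mul (h3 z) hwD hD0.le (by positivity)
  have h13 : (‖V (0, b)‖ / 2) ^ 2 ≤ ‖V p‖ ^ 2 := pow_le_pow_left₀ (by positivity) h5.le 2
  calc (T.N : ℝ) ^ 2 * (‖V (0, b)‖ / 2) ^ 2 * (wt T (X1 T) E₀ x * wt T (DD T D 0) E₂ x)
      ≤ (T.N : ℝ) ^ 2 * ‖V p‖ ^ 2 *
        ((C₁ * ‖p.1‖ ^ (2 * T.N)) * (C₃ * (‖p.1‖ ^ a * ‖p.2‖ ^ (T.M - 1)) ^ 2)) :=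
        mul_le_mul (mul_le_mul_of_nonneg_left h13 (by positivity)) h12 (by positivity)
          (by positivity)
    _ = _ := by ring

end Crest.Agent.R257.CLL_39
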