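import Crest.Agent.R257.OtKD_331

/-!
# Row 257, leaf D-OT (helper331), file E: (D3), (D4)
-/

set_option autoImplicit false
set_option linter.unusedSectionVars false

noncomputable section

open Set Filter Topology MeasureTheory
open scoped ENNReal

namespace Crest.Agent.R257.OtK_331

open Crest.Agent.R273.OTD_34 (Cot)

variable {n : ℕ}

lemma volume_Pd_lt {m : ℕ} (R : Fin m → ℝ) : volume (Pd R) < ∞ := by
  have : Pd R = Set.pi univ fun i => Metric.ball (0 : ℂ) (R i) := by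
    ext x; simp [Pd, Set.mem_pi]
  rw [this, volume_pi_pi]
  exact ENNReal.prod_lt_top fun i _ => measure_ball_lt_top

/-- the constant -/
def C0 : ℝ := Cot 1 * Real.pi

lemma C0_nonneg : 0 ≤ C0 :=
  mul_nonneg (Crest.Agent.R273.OTE_34.Cot_nonneg 1) Real.pi_pos.le

/-- **(D3)**: extension from the reduced part of `{h = 0}` to the polydisc, with the estimate at
scale `r` -/
theorem d3 (d : Dat n) {q : ℝ} (hq0 : 0 < q) (hq1 : q ≤ 1) {r : ℝ} (hr : 0 < r)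
    {G0 : (Fin (n + 1) → ℂ) → ℂ} (hG0 : DifferentiableOn ℂ G0 (Pd d.R))
    (hB : ∃ B, ∀ x ∈ Pd d.R, ‖G0 x‖ ≤ B) {K : ℝ≥0∞} (hKt : K ≠ ∞)
    (hK : Sh d (fun x => ENNReal.ofReal (‖G0 x‖ ^ (2 * q) * (‖d0 d.h x‖ ^ 2)⁻¹)) ≤ K)
    {K' : ℝ≥0∞} (hK' : ENNReal.ofReal (C0 * (r ^ 2)⁻¹) * K < K') :
    ∃ G : (Fin (n + 1) → ℂ) → ℂ, DifferentiableOn ℂ G (Pd d.R) ∧
      (∀ x ∈ d.U, d.h x = 0 → G x = G0 x) ∧
      ∫⁻ x in Pd d.R, ENNReal.ofReal (‖G x‖ ^ (2 * q) * ((‖d.h x‖ ^ 2 + r ^ 2) ^ 2)⁻¹) ≤ K' := by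
  by_cases h1 : ∃ x ∈ Pd d.R, d0 d.h x ≠ 0
  swap
  · push Not at h1
    refine ⟨fun _ => 0, differentiableOn_const 0, fun x hx _ => absurd (h1 x hx.1) hx.2, ?_⟩
    simp only [norm_zero, Real.zero_rpow (show 2 * q ≠ 0 by positivity), zero_mul,
      ENNReal.ofReal_zero, lintegral_zero]
    exact zero_le
  obtain ⟨B, hB⟩ := hB
  have hwt : ∀ x, wt d r (fun _ => 0) 1 0 x = ((‖d.h x‖ ^ 2 + r ^ 2) ^ 2)⁻¹ := by
    intro x; simp [wt]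
  have hN0 : ∫⁻ x in Pd d.R, ENNReal.ofReal (‖G0 x‖ ^ (2 * q) * wt d r (fun _ => 0) 1 0 x) ≠ ∞ := by
    refine ne_top_of_le_ne_top (b := ∫⁻ _ in Pd d.R, ENNReal.ofReal ((|B|) ^ (2 * q) *
      ((r ^ 2) ^ 2)⁻¹)) ?_ ?_
    · rw [setLIntegral_const]
      exact ENNReal.mul_ne_top ENNReal.ofReal_ne_top (volume_Pd_lt _).ne
    · refine setLIntegral_mono' (isOpen_Pd _).measurableSet fun x hx => ?_
      apply ENNReal.ofReal_le_ofReal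
      rw [hwt]
      have h2 : ‖G0 x‖ ≤ |B| := (hB x hx).trans (le_abs_self _)
      have h3 : 0 ≤ ‖d.h x‖ ^ 2 := by positivity
      gcongr
      linarith
  obtain ⟨G, hG, hG1, hG2⟩ := d2 d h1 hr (F := fun _ => 0) (differentiableOn_const 0) one_pos 0
    hq0 hq1 hG0 hN0 hKt (by simpa using hK) (K' := K') hK'
  refine ⟨G, hG, hG1, ?_⟩
  simpa only [hwt] using hG2

/-! ### (D4) -/

/-- the data for the extension in the parameter -/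
def dT (R : Fin (n + 1) → ℝ) (T : ℝ) : Dat (n + 1) where
  R := Fin.cons T R
  h := fun X => X 0
  hol := (differentiable_apply 0).differentiableOn

lemma mem_PdT {R : Fin (n + 1) → ℝ} {T : ℝ} {X : Fin (n + 2) → ℂ} :
    X ∈ Pd (dT R T).R ↔ ‖X 0‖ < T ∧ Fin.tail X ∈ Pd R := by
  unfold Pd dT
  simp only [mem_ofPred_eq, Fin.forall_fin_succ (P := fun i => ‖X i‖ < (Fin.cons T R : _ → ℝ) i),
    Fin.cons_zero, Fin.cons_succ]
  rfl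

lemma d0_dT (R : Fin (n + 1) → ℝ) (T : ℝ) (X : Fin (n + 2) → ℂ) : d0 (dT R T).h X = 1 := by
  unfold d0 dT
  have h1 : HasFDerivAt (fun X : Fin (n + 2) → ℂ => X 0)
      (ContinuousLinearMap.proj (R := ℂ) (φ := fun _ : Fin (n + 2) => ℂ) 0) X :=
    (ContinuousLinearMap.proj (R := ℂ) (φ := fun _ : Fin (n + 2) => ℂ) 0).hasFDerivAt
  simp only
  rw [h1.fderiv]
  simp

lemma U_dT (R : Fin (n + 1) → ℝ) (T : ℝ) : (dT R T).U = Pd (dT R T).R := by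
  unfold Dat.U
  ext X
  simp [d0_dT]

/-- sheet integrals for the hyperplane `t = 0` -/
lemma Sh_dT {R : Fin (n + 1) → ℝ} {T : ℝ} (hT : 0 < T) (g : (Fin (n + 2) → ℂ) → ℝ≥0∞) :
    Sh (dT R T) g = ∫⁻ x in Pd R, g (Fin.cons 0 x) := by
  unfold Sh
  rw [← lintegral_indicator (isOpen_Pd R).measurableSet]
  refine lintegral_congr fun x => ?_
  by_cases hx : x ∈ Pd R
  · rw [indicator_of_mem hx]
    have h0 : (Fin.cons (0 : ℂ) x : Fin (n + 2) → ℂ) ∈ (dT R T).U ∧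
        (dT R T).h (Fin.cons 0 x) = 0 := by
      refine ⟨?_, rfl⟩
      rw [U_dT, mem_PdT]
      exact ⟨by simpa using hT, by simpa using hx⟩
    rw [tsum_eq_single (⟨0, h0⟩ : {z : ℂ // (Fin.cons z x : Fin (n + 2) → ℂ) ∈ (dT R T).U ∧
      (dT R T).h (Fin.cons z x) = 0})]
    rintro ⟨z, hz1, hz2⟩ hne
    have : z = 0 := hz2
    exact absurd (Subtype.ext this) hne
  · rw [indicator_of_notMem hx, ENNReal.tsum_eq_zero]
    rintro ⟨z, hz1, hz2⟩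
    rw [U_dT, mem_PdT] at hz1
    exact absurd (by simpa using hz1.2) hx

lemma diff_tail : Differentiable ℂ (fun X : Fin (n + 2) → ℂ => (Fin.tail X : Fin (n + 1) → ℂ)) :=
  differentiable_pi.2 fun j => differentiable_apply j.succ

/-- Fubini for the polydisc -/
lemma lint_PdT {R : Fin (n + 1) → ℝ} {T : ℝ} {g : (Fin (n + 1) → ℂ) → ℝ≥0∞}
    (hg : Measurable g) :
    ∫⁻ X in Pd (dT R T).R, g (Fin.tail X) = volume (Metric.ball (0 : ℂ) T) * ∫⁻ x in Pd R, g x := by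
  have h1 := (volume_preserving_piFinSuccAbove (fun _ : Fin (n + 2) => ℂ) 0)
  have h2 : Pd (dT R T).R = (MeasurableEquiv.piFinSuccAbove (fun _ : Fin (n + 2) => ℂ) 0) ⁻¹'
      (Metric.ball (0 : ℂ) T ×ˢ Pd R) := by
    ext X
    rw [mem_PdT, mem_preimage, Set.mem_prod, mem_ball_zero_iff]
    rfl
  rw [h2]
  have h3 := h1.setLIntegral_comp_preimage_emb (MeasurableEquiv.measurableEmbedding _)
    (fun p : ℂ × (Fin (n + 1) → ℂ) => g p.2) (Metric.ball (0 : ℂ) T ×ˢ Pd R)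
  refine (Eq.trans ?_ h3).trans ?_
  · rfl
  · rw [Measure.volume_eq_prod, ← Measure.prod_restrict,
      lintegral_prod (fun p : ℂ × (Fin (n + 1) → ℂ) => g p.2)
      (hg.comp measurable_snd).aemeasurable]
    simp only
    rw [setLIntegral_const, mul_comm]

lemma meas_ind {m : ℕ} {S : Set (Fin m → ℂ)} (hS : IsOpen S) {f : (Fin m → ℂ) → ℝ}
    (hf : ContinuousOn f S) : Measurable (S.indicator f) := by
  classical
  rw [← Set.piecewise_eq_indicator]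
  exact ContinuousOn.measurable_piecewise hf continuous_zero.continuousOn hS.measurableSet

/-- **(D4)**, coordinates `(t, x)`: `F(t, x)` holomorphic on the polydisc `|t| < T, x ∈ Pd R`, bounded;
`d.h = F(0, ·)` -/
theorem d4 (d : Dat n) {T : ℝ} (hT : 0 < T) {F : (Fin (n + 2) → ℂ) → ℂ}
    (hF : DifferentiableOn ℂ F (Pd (dT d.R T).R)) (hFh : ∀ x ∈ Pd d.R, F (Fin.cons 0 x) = d.h x)
    (hhb : ∃ B, ∀ x ∈ Pd d.R, ‖d.h x‖ ≤ B)
    {q : ℝ} (hq0 : 0 < q) (hq1 : q ≤ 1) {r : ℝ} (hr : 0 < r)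
    {G0 : (Fin (n + 1) → ℂ) → ℂ} (hG0 : DifferentiableOn ℂ G0 (Pd d.R))
    (hB : ∃ B, ∀ x ∈ Pd d.R, ‖G0 x‖ ≤ B) {K : ℝ≥0∞} (hKt : K ≠ ∞)
    (hK : Sh d (fun x => ENNReal.ofReal (‖G0 x‖ ^ (2 * q) * (‖d0 d.h x‖ ^ 2)⁻¹)) ≤ K)
    {K' : ℝ≥0∞} (hK' : ENNReal.ofReal (4 * T ^ 2 * (C0 * C0) * (r ^ 2)⁻¹) * K < K') :
    ∃ G : (Fin (n + 2) → ℂ) → ℂ, DifferentiableOn ℂ G (Pd (dT d.R T).R) ∧
      (∀ x ∈ d.U, d.h x = 0 → G (Fin.cons 0 x) = G0 x) ∧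
      ∫⁻ X in Pd (dT d.R T).R, ENNReal.ofReal (‖G X‖ ^ (2 * q) *
        ((‖F X‖ ^ 2 + r ^ 2) ^ 2)⁻¹) ≤ K' := by
  have hC := C0_nonneg
  -- intermediate constants
  set c1 : ℝ≥0∞ := ENNReal.ofReal (4 * T ^ 4) with hc1
  have hc1' : c1 ≠ 0 := by
    rw [hc1]
    simpa using (by positivity : (0 : ℝ) < 4 * T ^ 4)
  have hc1t : c1 ≠ ∞ := ENNReal.ofReal_ne_top
  obtain ⟨K2, hK2, hK2t, hK2'⟩ : ∃ K2 : ℝ≥0∞, ENNReal.ofReal (C0 * (r ^ 2)⁻¹) * K < K2 ∧ K2 ≠ ∞ ∧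
      c1 * (ENNReal.ofReal (C0 * (T ^ 2)⁻¹) * K2) < K' := by
    have hcont : Continuous fun k : ℝ≥0∞ => c1 * (ENNReal.ofReal (C0 * (T ^ 2)⁻¹) * k) :=
      (ENNReal.continuous_const_mul hc1t).comp (ENNReal.continuous_const_mul ENNReal.ofReal_ne_top)
    have h1 : c1 * (ENNReal.ofReal (C0 * (T ^ 2)⁻¹) * (ENNReal.ofReal (C0 * (r ^ 2)⁻¹) * K)) < K' := by
      refine lt_of_le_of_lt (le_of_eq ?_) hK'
      rw [← mul_assoc, ← mul_assoc, hc1, ← ENNReal.ofReal_mul (by positivity),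
        ← ENNReal.ofReal_mul (by positivity)]
      congr 2
      field_simp
    have h2 : ∀ᶠ k in 𝓝 (ENNReal.ofReal (C0 * (r ^ 2)⁻¹) * K),
        c1 * (ENNReal.ofReal (C0 * (T ^ 2)⁻¹) * k) < K' :=
      hcont.continuousAt.eventually_lt_const h1
    have h3 : ENNReal.ofReal (C0 * (r ^ 2)⁻¹) * K ≠ ∞ := ENNReal.mul_ne_top ENNReal.ofReal_ne_top hKt
    have h4 : (𝓝[>] (ENNReal.ofReal (C0 * (r ^ 2)⁻¹) * K)).NeBot :=
      nhdsGT_neBot_of_exists_gt ⟨∞, h3.lt_top⟩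
    have h5 : ∀ᶠ k in 𝓝[>] (ENNReal.ofReal (C0 * (r ^ 2)⁻¹) * K), k < ∞ :=
      nhdsWithin_le_nhds (gt_mem_nhds h3.lt_top)
    have h6 : ∀ᶠ k in 𝓝[>] (ENNReal.ofReal (C0 * (r ^ 2)⁻¹) * K),
        ENNReal.ofReal (C0 * (r ^ 2)⁻¹) * K < k := self_mem_nhdsWithin
    have h2' : ∀ᶠ k in 𝓝[>] (ENNReal.ofReal (C0 * (r ^ 2)⁻¹) * K),
        c1 * (ENNReal.ofReal (C0 * (T ^ 2)⁻¹) * k) < K' := nhdsWithin_le_nhds h2
    obtain ⟨k, hk1, hk2, hk3⟩ := (h6.and (h2'.and h5)).exists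
    exact ⟨k, hk1, hk3.ne, hk2⟩
  -- (D3)
  obtain ⟨G1, hG1, hG1e, hG1b⟩ := d3 d hq0 hq1 hr hG0 hB hKt hK hK2
  -- (D4)
  by_cases hne : (Pd d.R).Nonempty
  swap
  · have hE : Pd (dT d.R T).R = ∅ := by
      rw [Set.not_nonempty_iff_eq_empty] at hne
      ext X
      rw [mem_PdT, hne]
      simp
    refine ⟨fun _ => 0, differentiableOn_const 0, fun x hx _ => absurd ⟨x, hx.1⟩ hne, ?_⟩
    rw [hE]
    simp
  have h1 : ∃ X ∈ Pd (dT d.R T).R, d0 (dT d.R T).h X ≠ 0 := by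
    obtain ⟨x, hx⟩ := hne
    refine ⟨Fin.cons 0 x, ?_, by rw [d0_dT]; exact one_ne_zero⟩
    rw [mem_PdT]
    exact ⟨by simpa using hT, by simpa using hx⟩
  have hG1' : DifferentiableOn ℂ (fun X : Fin (n + 2) → ℂ => G1 (Fin.tail X))
      (Pd (dT d.R T).R) := by
    refine hG1.comp diff_tail.differentiableOn fun X hX => ?_
    exact (mem_PdT.1 hX).2
  obtain ⟨B, hhB⟩ := hhb
  have hr2 : 0 < r ^ 2 := by positivity
  -- `G₁` is in `L^{2q}`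
  have hL : ∫⁻ x in Pd d.R, ENNReal.ofReal (‖G1 x‖ ^ (2 * q)) ≠ ∞ := by
    refine ne_top_of_le_ne_top (b := ENNReal.ofReal ((|B| ^ 2 + r ^ 2) ^ 2) * K2)
      (ENNReal.mul_ne_top ENNReal.ofReal_ne_top hK2t) ?_
    refine le_trans ?_ (mul_le_mul_right hG1b _)
    rw [← lintegral_const_mul' _ _ ENNReal.ofReal_ne_top]
    refine setLIntegral_mono' (isOpen_Pd _).measurableSet fun x hx => ?_
    rw [← ENNReal.ofReal_mul (by positivity)]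
    apply ENNReal.ofReal_le_ofReal
    have h2 : ‖d.h x‖ ≤ |B| := (hhB x hx).trans (le_abs_self _)
    have h3 : (‖d.h x‖ ^ 2 + r ^ 2) ^ 2 ≤ (|B| ^ 2 + r ^ 2) ^ 2 := by gcongr
    have h4 : 0 < (‖d.h x‖ ^ 2 + r ^ 2) ^ 2 := by positivity
    have h5 : 1 ≤ (|B| ^ 2 + r ^ 2) ^ 2 * ((‖d.h x‖ ^ 2 + r ^ 2) ^ 2)⁻¹ := by
      rw [← div_eq_mul_inv, one_le_div h4]
      exact h3
    have h6 : 0 ≤ ‖G1 x‖ ^ (2 * q) := Real.rpow_nonneg (norm_nonneg _) _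
    nlinarith
  have hN0 : ∫⁻ X in Pd (dT d.R T).R, ENNReal.ofReal (‖G1 (Fin.tail X)‖ ^ (2 * q) *
      wt (dT d.R T) T F (r ^ 2) 2 X) ≠ ∞ := by
    have hcG : ContinuousOn (fun x => ‖G1 x‖ ^ (2 * q)) (Pd d.R) :=
      hG1.continuousOn.norm.rpow_const fun _ _ => Or.inr (by positivity)
    refine ne_top_of_le_ne_top (b := ENNReal.ofReal (((T ^ 2) ^ 2)⁻¹ * ((r ^ 2) ^ 2)⁻¹) *
      (volume (Metric.ball (0 : ℂ) T) *
        ∫⁻ x in Pd d.R, ENNReal.ofReal ((Pd d.R).indicator (fun x => ‖G1 x‖ ^ (2 * q)) x))) ?_ ?_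
    · refine ENNReal.mul_ne_top ENNReal.ofReal_ne_top (ENNReal.mul_ne_top
        measure_ball_lt_top.ne ?_)
      refine ne_top_of_le_ne_top hL (setLIntegral_mono' (isOpen_Pd _).measurableSet fun x hx => ?_)
      rw [indicator_of_mem hx]
    · rw [← lint_PdT (meas_ind (isOpen_Pd _) hcG).ennreal_ofReal,
        ← lintegral_const_mul' _ _ ENNReal.ofReal_ne_top]
      refine setLIntegral_mono' (isOpen_Pd _).measurableSet fun X hX => ?_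
      rw [indicator_of_mem (mem_PdT.1 hX).2, ← ENNReal.ofReal_mul (by positivity)]
      apply ENNReal.ofReal_le_ofReal
      have h2 : wt (dT d.R T) T F (r ^ 2) 2 X ≤ ((T ^ 2) ^ 2)⁻¹ * ((r ^ 2) ^ 2)⁻¹ := by
        unfold wt
        have h3 : 0 ≤ ‖(dT d.R T).h X‖ ^ 2 := by positivity
        have h4 : 0 ≤ ‖F X‖ ^ 2 := by positivity
        gcongr <;> linarith
      have h6 : 0 ≤ ‖G1 (Fin.tail X)‖ ^ (2 * q) := Real.rpow_nonneg (norm_nonneg _) _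
      calc ‖G1 (Fin.tail X)‖ ^ (2 * q) * wt (dT d.R T) T F (r ^ 2) 2 X
          ≤ ‖G1 (Fin.tail X)‖ ^ (2 * q) * (((T ^ 2) ^ 2)⁻¹ * ((r ^ 2) ^ 2)⁻¹) := by gcongr
        _ = _ := by ring
  have hK4 : Sh (dT d.R T) (fun X => ENNReal.ofReal (‖G1 (Fin.tail X)‖ ^ (2 * q) *
      ((‖d0 (dT d.R T).h X‖ ^ 2)⁻¹ * ((‖F X‖ ^ 2 + r ^ 2) ^ 2)⁻¹))) ≤ K2 := by
    rw [Sh_dT hT]
    refine le_trans (setLIntegral_mono' (isOpen_Pd _).measurableSet fun x hx => ?_) hG1b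
    rw [d0_dT, Fin.tail_cons, hFh x hx]
    simp
  have hK4' : ENNReal.ofReal (Cot 1 * Real.pi * (T ^ 2)⁻¹) * K2 < K' / c1 := by
    rw [ENNReal.lt_div_iff_mul_lt (Or.inl hc1') (Or.inl hc1t), mul_comm]
    exact hK2'
  obtain ⟨G, hG, hGe, hGb⟩ := d2 (dT d.R T) h1 hT hF hr2 2 hq0 hq1 hG1' hN0 hK2t hK4 hK4'
  refine ⟨G, hG, fun x hx hx0 => ?_, ?_⟩
  · rw [hGe (Fin.cons 0 x) ?_ rfl, Fin.tail_cons]
    · exact hG1e x hx hx0
    · rw [U_dT, mem_PdT]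
      exact ⟨by simpa using hT, by simpa using hx.1⟩
  · calc ∫⁻ X in Pd (dT d.R T).R, ENNReal.ofReal (‖G X‖ ^ (2 * q) * ((‖F X‖ ^ 2 + r ^ 2) ^ 2)⁻¹)
        ≤ ∫⁻ X in Pd (dT d.R T).R, c1 * ENNReal.ofReal (‖G X‖ ^ (2 * q) *
          wt (dT d.R T) T F (r ^ 2) 2 X) := by
          refine setLIntegral_mono' (isOpen_Pd _).measurableSet fun X hX => ?_
          rw [hc1, ← ENNReal.ofReal_mul (by positivity)]
          apply ENNReal.ofReal_le_ofReal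
          have h2 : ‖X 0‖ < T := (mem_PdT.1 hX).1
          have h3 : (‖X 0‖ ^ 2 + T ^ 2) ^ 2 ≤ 4 * T ^ 4 := by
            have h4 : ‖X 0‖ ^ 2 ≤ T ^ 2 := by gcongr
            calc (‖X 0‖ ^ 2 + T ^ 2) ^ 2 ≤ (T ^ 2 + T ^ 2) ^ 2 := by gcongr
              _ = 4 * T ^ 4 := by ring
          have h4 : 0 < (‖X 0‖ ^ 2 + T ^ 2) ^ 2 := by positivity
          have h5 : 1 ≤ 4 * T ^ 4 * ((‖X 0‖ ^ 2 + T ^ 2) ^ 2)⁻¹ := by
            rw [← div_eq_mul_inv, one_le_div h4]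
            exact h3
          have h6 : 0 ≤ ‖G X‖ ^ (2 * q) * ((‖F X‖ ^ 2 + r ^ 2) ^ 2)⁻¹ :=
            mul_nonneg (Real.rpow_nonneg (norm_nonneg _) _) (by positivity)
          have h7 : 4 * T ^ 4 * (‖G X‖ ^ (2 * q) * wt (dT d.R T) T F (r ^ 2) 2 X) =
              (4 * T ^ 4 * ((‖X 0‖ ^ 2 + T ^ 2) ^ 2)⁻¹) *
                (‖G X‖ ^ (2 * q) * ((‖F X‖ ^ 2 + r ^ 2) ^ 2)⁻¹) := by
            unfold wt
            show _ * (_ * (((‖X 0‖ ^ 2 + T ^ 2) ^ 2)⁻¹ * _)) = _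
            ring
          rw [h7]
          nlinarith
      _ = c1 * ∫⁻ X in Pd (dT d.R T).R, ENNReal.ofReal (‖G X‖ ^ (2 * q) *
          wt (dT d.R T) T F (r ^ 2) 2 X) := lintegral_const_mul' _ _ hc1t
      _ ≤ c1 * (K' / c1) := by gcongr
      _ ≤ K' := ENNReal.mul_div_le

end Crest.Agent.R257.OtK_331
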