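import Crest.Agent.R257.Sh13_297
import Crest.Agent.R257.OtKE_331
import Crest.Agent.R257.CNS_939

/-!
# Row 257, leaf D-SH (helper297), part 14: (1-OUT) from helper331's (D4); `OTStmt`
-/

set_option autoImplicit false
set_option linter.unusedSectionVars false

open MeasureTheory Set Metric Topology Filter
open scoped ENNReal
open Crest.AlgGeometry.Germ Crest.Agent.R257.Defs_219

namespace Crest.Agent.R257.Sh_297

noncomputable section

open Crest.Agent.R257.OtK_331 (Pd Dat dT Sh d0 C0 d4 mem_PdT isOpen_Pd)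

variable {n : ℕ}

/-- monotonicity in the radius -/
lemma JintN_mono {p r r' : ℝ} (h : r' ≤ r) (f g : (Fin (n + 1) → ℂ) → ℂ) :
    JintN p r' f g ≤ JintN p r f g := by
  unfold JintN
  refine (lintegral_mono fun x' => ?_).trans (lintegral_mono_set fun x' hx' i => (hx' i).trans_le h)
  have hinj : Function.Injective (fun z : {z : ℂ // ‖z‖ < r' ∧ f (Fin.cons z x') = 0 ∧
      coordDeriv f 0 (Fin.cons z x') ≠ 0} => (⟨z, z.2.1.trans_le h, z.2.2⟩ :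
      {z : ℂ // ‖z‖ < r ∧ f (Fin.cons z x') = 0 ∧ coordDeriv f 0 (Fin.cons z x') ≠ 0})) := by
    intro a b hab
    have hab' := congrArg Subtype.val hab
    exact Subtype.ext hab'
  exact ENNReal.tsum_comp_le_tsum_of_injective hinj
    (fun z => ENNReal.ofReal (‖g (Fin.cons z.1 x')‖ ^ (2 / p) / ‖coordDeriv f 0 (Fin.cons z.1 x')‖ ^ 2))

/-- `(x, t) ↦ cons t x` -/
def consE (n : ℕ) : (Fin (n + 1) → ℂ) × ℂ ≃ᵐ (Fin (n + 2) → ℂ) :=
  MeasurableEquiv.prodComm.trans (MeasurableEquiv.piFinSuccAbove (fun _ : Fin (n + 2) => ℂ) 0).symm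

lemma consE_apply (p : (Fin (n + 1) → ℂ) × ℂ) : consE n p = Fin.cons p.2 p.1 := by
  ext i
  refine Fin.cases ?_ (fun j => ?_) i
  · rfl
  · rfl

lemma consE_mp : MeasurePreserving (consE n) volume volume := by
  have h1 := (volume_preserving_piFinSuccAbove (fun _ : Fin (n + 2) => ℂ) 0).symm
    (MeasurableEquiv.piFinSuccAbove (fun _ : Fin (n + 2) => ℂ) 0)
  have h2 : MeasurePreserving (Prod.swap : (Fin (n + 1) → ℂ) × ℂ → _) volume volume :=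
    Measure.measurePreserving_swap
  exact h1.comp h2

lemma sh_le (d : Dat n) {R p : ℝ} (hR : d.R = fun _ => R) (g : (Fin (n + 1) → ℂ) → ℂ) :
    Sh d (fun x => ENNReal.ofReal (‖g x‖ ^ (2 * (1 / p)) * (‖d0 d.h x‖ ^ 2)⁻¹)) ≤
      JintN p R d.h g := by
  have hset : MeasurableSet {x' : Fin n → ℂ | ∀ i, ‖x' i‖ < R} := (isOpen_Pd fun _ => R).measurableSet
  unfold Sh JintN
  rw [← lintegral_indicator hset]
  refine lintegral_mono fun x' => ?_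
  by_cases hx : x' ∈ {x' : Fin n → ℂ | ∀ i, ‖x' i‖ < R}
  · rw [indicator_of_mem hx]
    have hm : ∀ z : {z : ℂ // (Fin.cons z x' : Fin (n + 1) → ℂ) ∈ d.U ∧ d.h (Fin.cons z x') = 0},
        ‖(z : ℂ)‖ < R ∧ d.h (Fin.cons (z : ℂ) x') = 0 ∧ coordDeriv d.h 0 (Fin.cons (z : ℂ) x') ≠ 0 := by
      rintro ⟨z, ⟨hz1, hz2⟩, hz3⟩
      refine ⟨?_, hz3, hz2⟩
      have := hz1 0
      rw [hR] at this
      simpa using this
    have hinj : Function.Injective (fun z : {z : ℂ // (Fin.cons z x' : Fin (n + 1) → ℂ) ∈ d.U ∧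
        d.h (Fin.cons z x') = 0} => (⟨z, hm z⟩ : {z : ℂ // ‖z‖ < R ∧ d.h (Fin.cons z x') = 0 ∧
          coordDeriv d.h 0 (Fin.cons z x') ≠ 0})) := by
      intro a b hab
      have hab' := congrArg Subtype.val hab
      exact Subtype.ext hab'
    refine le_trans (le_of_eq (tsum_congr fun z => ?_)) (ENNReal.tsum_comp_le_tsum_of_injective hinj
      (fun z => ENNReal.ofReal (‖g (Fin.cons z.1 x')‖ ^ (2 / p) /
        ‖coordDeriv d.h 0 (Fin.cons z.1 x')‖ ^ 2)))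
    have h1 : 2 * (1 / p) = 2 / p := by ring
    simp only
    rw [h1, ← div_eq_mul_inv]
    rfl
  · rw [indicator_of_notMem hx]
    have : IsEmpty {z : ℂ // (Fin.cons z x' : Fin (n + 1) → ℂ) ∈ d.U ∧ d.h (Fin.cons z x') = 0} := by
      refine ⟨?_⟩
      rintro ⟨z, ⟨hz1, hz2⟩, hz3⟩
      refine hx fun i => ?_
      have := hz1 i.succ
      rw [hR] at this
      simpa using this
    rw [tsum_empty]

/-- (1-OUT) -/
theorem exists_out1 {F : (Fin (n + 1) → ℂ) × ℂ → ℂ} {g : (Fin (n + 1) → ℂ) → ℂ} {p : ℝ}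
    (hp : 1 ≤ p) (hF : AnalyticAt ℂ F (0, 0)) (hg : AnalyticAt ℂ g 0)
    (hJ : InJN p (sl F 0) g) : ∃ R T C G, Out1 F g (2 / p) R T C G := by
  obtain ⟨r₀, hr₀, hJ⟩ := hJ
  have hp0 : 0 < p := by linarith
  -- the radius
  have hev1 : ∀ᶠ x in 𝓝 (((0 : Fin (n + 1) → ℂ), (0 : ℂ)) : (Fin (n + 1) → ℂ) × ℂ),
      AnalyticAt ℂ F x ∧ ‖F x‖ < ‖F (0, 0)‖ + 1 :=
    hF.eventually_analyticAt.and (hF.continuousAt.norm.tendsto.eventually (gt_mem_nhds (by simp)))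
  have hev2 : ∀ᶠ x in 𝓝 (0 : Fin (n + 1) → ℂ), AnalyticAt ℂ g x ∧ ‖g x‖ < ‖g 0‖ + 1 :=
    hg.eventually_analyticAt.and (hg.continuousAt.norm.tendsto.eventually (gt_mem_nhds (by simp)))
  obtain ⟨ε₁, hε₁, h1⟩ := Metric.eventually_nhds_iff_ball.1 hev1
  obtain ⟨ε₂, hε₂, h2⟩ := Metric.eventually_nhds_iff_ball.1 hev2
  set R : ℝ := min (min ε₁ ε₂) r₀ with hR
  have hR0 : 0 < R := lt_min (lt_min hε₁ hε₂) hr₀
  have hR1 : R ≤ ε₁ := (min_le_left _ _).trans (min_le_left _ _)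
  have hR2 : R ≤ ε₂ := (min_le_left _ _).trans (min_le_right _ _)
  have hR3 : R ≤ r₀ := min_le_right _ _
  set T : ℝ := ε₁ with hT
  have hbox : ∀ x : Fin (n + 1) → ℂ, ∀ t : ℂ, (∀ i, ‖x i‖ < R) → ‖t‖ < T →
      (x, t) ∈ ball (((0 : Fin (n + 1) → ℂ), (0 : ℂ)) : (Fin (n + 1) → ℂ) × ℂ) ε₁ := by
    intro x t hx ht
    rw [mem_ball, Prod.dist_eq, max_lt_iff]
    simp only [dist_zero_right]
    refine ⟨((pi_norm_lt_iff hR0).2 hx).trans_le hR1, ht⟩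
  have hboxg : ∀ x : Fin (n + 1) → ℂ, (∀ i, ‖x i‖ < R) → x ∈ ball (0 : Fin (n + 1) → ℂ) ε₂ := by
    intro x hx
    rw [mem_ball_zero_iff]
    exact ((pi_norm_lt_iff hR0).2 hx).trans_le hR2
  have hslan : ∀ x : Fin (n + 1) → ℂ, (∀ i, ‖x i‖ < R) → AnalyticAt ℂ (sl F 0) x := by
    intro x hx
    exact AnalyticAt.comp (g := F) (f := fun x => (x, (0 : ℂ)))
      (h1 _ (hbox x 0 hx (by simpa using hε₁))).1 (analyticAt_id.prod analyticAt_const)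
  set d : Dat n := ⟨fun _ => R, sl F 0, fun x hx =>
    (hslan x hx).differentiableAt.differentiableWithinAt⟩ with hd
  set F3 : (Fin (n + 2) → ℂ) → ℂ := fun X => F (Fin.tail X, X 0) with hF3
  have hF3d : DifferentiableOn ℂ F3 (Pd (dT d.R T).R) := by
    intro X hX
    obtain ⟨hX1, hX2⟩ := mem_PdT.1 hX
    have h3 : DifferentiableAt ℂ (fun X : Fin (n + 2) → ℂ => ((Fin.tail X : Fin (n + 1) → ℂ), X 0)) X :=
      (OtK_331.diff_tail X).prodMk (differentiable_apply 0 X)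
    exact (DifferentiableAt.comp (g := F) X (h1 _ (hbox _ _ hX2 hX1)).1.differentiableAt
      h3).differentiableWithinAt
  set K : ℝ≥0∞ := JintN p r₀ (sl F 0) g with hK
  have hKt : K ≠ ∞ := hJ.ne
  have hSh : Sh d (fun x => ENNReal.ofReal (‖g x‖ ^ (2 * (1 / p)) * (‖d0 d.h x‖ ^ 2)⁻¹)) ≤ K :=
    (sh_le d (R := R) rfl g).trans (JintN_mono hR3 _ _)
  have hC0 := OtK_331.C0_nonneg
  set c : ℝ := 4 * T ^ 2 * (C0 * C0) * K.toReal + 1 with hc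
  have hc0 : 0 < c := by positivity
  have hmain : ∀ k : ℕ, ∃ G : (Fin (n + 2) → ℂ) → ℂ, DifferentiableOn ℂ G (Pd (dT d.R T).R) ∧
      (∀ x ∈ d.U, d.h x = 0 → G (Fin.cons 0 x) = g x) ∧
      ∫⁻ X in Pd (dT d.R T).R, ENNReal.ofReal (‖G X‖ ^ (2 * (1 / p)) *
        ((‖F3 X‖ ^ 2 + (1 / ((k : ℝ) + 1)) ^ 2) ^ 2)⁻¹) ≤
        ENNReal.ofReal (c * ((1 / ((k : ℝ) + 1)) ^ 2)⁻¹) := by
    intro k
    have hr : 0 < 1 / ((k : ℝ) + 1) := by positivity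
    refine d4 d hε₁ hF3d (fun x hx => ?_) ⟨‖F (0, 0)‖ + 1, fun x hx => ?_⟩ (by positivity)
      (by rw [div_le_one hp0]; exact hp) hr (G0 := g) (fun x hx => ?_)
      ⟨‖g 0‖ + 1, fun x hx => (h2 x (hboxg x hx)).2.le⟩ hKt hSh ?_
    · simp only [hF3, Fin.tail_cons, Fin.cons_zero]
      rfl
    · exact (h1 _ (hbox x 0 hx (by simpa using hε₁))).2.le
    · exact (h2 x (hboxg x hx)).1.differentiableAt.differentiableWithinAt
    · rw [← ENNReal.ofReal_toReal hKt, ← ENNReal.ofReal_mul (by positivity)]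
      rw [ENNReal.ofReal_lt_ofReal_iff (by positivity), hc]
      have h3 : 0 < (((1 / ((k : ℝ) + 1)) ^ 2)⁻¹) := by positivity
      nlinarith
  choose G3 hG3d hG3e hG3i using hmain
  refine ⟨R, T, 4 * c, fun k x => G3 k (Fin.cons x.2 x.1), hR0, hε₁, ?_, ?_, ?_, ?_⟩
  · exact fun x hx => (h1 _ (hbox x.1 x.2 hx.1 hx.2)).1
  · intro k x hx
    have h3 : (Fin.cons x.2 x.1 : Fin (n + 2) → ℂ) ∈ Pd (dT d.R T).R := by
      rw [mem_PdT]
      simp only [Fin.cons_zero, Fin.tail_cons]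
      exact ⟨hx.2, hx.1⟩
    have h4 := Crest.Agent.R266.SCV.analyticOnNhd_of_differentiableOn (isOpen_Pd _) (hG3d k) _ h3
    have h5 : AnalyticAt ℂ (fun x : (Fin (n + 1) → ℂ) × ℂ => (Fin.cons x.2 x.1 : Fin (n + 2) → ℂ)) x := by
      have : (fun x : (Fin (n + 1) → ℂ) × ℂ => (Fin.cons x.2 x.1 : Fin (n + 2) → ℂ)) =
          consL (n := n + 1) := by
        funext x; exact (consL_apply x).symm
      rw [this]
      exact consL.analyticAt x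
    exact AnalyticAt.comp (g := G3 k) (f := fun x : (Fin (n + 1) → ℂ) × ℂ =>
      (Fin.cons x.2 x.1 : Fin (n + 2) → ℂ)) h4 h5
  · intro k x hx hF0 hcd
    exact hG3e k x ⟨hx, hcd⟩ hF0
  · intro k
    set r : ℝ := 1 / ((k : ℝ) + 1) with hr
    have hr0 : 0 < r := by rw [hr]; positivity
    set S : Set (Fin (n + 2) → ℂ) := {X | X ∈ Pd (dT d.R T).R ∧ ‖F3 X‖ < r} with hS
    have h3 := consE_mp (n := n) |>.setLIntegral_comp_preimage_emb (consE n).measurableEmbedding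
      (fun X => ‖G3 k X‖ₑ ^ (2 / p)) S
    have h4 : ∫⁻ x in {x | x ∈ Bx n R T ∧ ‖F x‖ < r}, ‖G3 k (Fin.cons x.2 x.1)‖ₑ ^ (2 / p) =
        ∫⁻ X in S, ‖G3 k X‖ₑ ^ (2 / p) := by
      rw [← h3]
      have h5 : (consE n) ⁻¹' S = {x | x ∈ Bx n R T ∧ ‖F x‖ < r} := by
        ext x
        rw [mem_preimage, consE_apply, hS, mem_ofPred_eq, mem_PdT, mem_ofPred_eq]
        simp only [hF3, Fin.cons_zero, Fin.tail_cons]
        constructor
        · rintro ⟨⟨h6, h7⟩, h8⟩; exact ⟨⟨h7, h6⟩, h8⟩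
        · rintro ⟨⟨h6, h7⟩, h8⟩; exact ⟨⟨h7, h6⟩, h8⟩
      rw [h5]
      refine lintegral_congr fun x => ?_
      rw [consE_apply]
    rw [h4]
    have hSm : MeasurableSet S := by
      have h5 : S = Pd (dT d.R T).R ∩ F3 ⁻¹' {w | ‖w‖ < r} := rfl
      rw [h5]
      exact (hF3d.continuousOn.isOpen_inter_preimage (isOpen_Pd _)
        (isOpen_lt continuous_norm continuous_const)).measurableSet
    have hpw : ∀ X ∈ S, ‖G3 k X‖ₑ ^ (2 / p) ≤ ENNReal.ofReal (4 * r ^ 4) *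
        ENNReal.ofReal (‖G3 k X‖ ^ (2 * (1 / p)) * ((‖F3 X‖ ^ 2 + r ^ 2) ^ 2)⁻¹) := by
      intro X hX
      have h6 : 2 * (1 / p) = 2 / p := by ring
      rw [← ofReal_norm, ENNReal.ofReal_rpow_of_nonneg (norm_nonneg _) (by positivity),
        ← ENNReal.ofReal_mul (by positivity), h6]
      refine ENNReal.ofReal_le_ofReal ?_
      have h7 : ‖F3 X‖ < r := hX.2
      have h8 : 0 ≤ ‖G3 k X‖ ^ (2 / p) := Real.rpow_nonneg (norm_nonneg _) _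
      have h9 : ‖F3 X‖ ^ 2 ≤ r ^ 2 := by gcongr
      have h10 : (‖F3 X‖ ^ 2 + r ^ 2) ^ 2 ≤ (r ^ 2 + r ^ 2) ^ 2 := by gcongr
      have h11 : (r ^ 2 + r ^ 2) ^ 2 = 4 * r ^ 4 := by ring
      rw [h11] at h10
      have h12 : 0 < (‖F3 X‖ ^ 2 + r ^ 2) ^ 2 := by positivity
      have h13 : 1 ≤ 4 * r ^ 4 * ((‖F3 X‖ ^ 2 + r ^ 2) ^ 2)⁻¹ := by
        rw [← div_eq_mul_inv, one_le_div h12]; exact h10
      calc ‖G3 k X‖ ^ (2 / p) = ‖G3 k X‖ ^ (2 / p) * 1 := (mul_one _).symm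
        _ ≤ ‖G3 k X‖ ^ (2 / p) * (4 * r ^ 4 * ((‖F3 X‖ ^ 2 + r ^ 2) ^ 2)⁻¹) :=
          mul_le_mul_of_nonneg_left h13 h8
        _ = _ := by ring
    calc ∫⁻ X in S, ‖G3 k X‖ₑ ^ (2 / p)
        ≤ ∫⁻ X in S, ENNReal.ofReal (4 * r ^ 4) *
          ENNReal.ofReal (‖G3 k X‖ ^ (2 * (1 / p)) * ((‖F3 X‖ ^ 2 + r ^ 2) ^ 2)⁻¹) :=
          setLIntegral_mono' hSm hpw
      _ ≤ ∫⁻ X in Pd (dT d.R T).R, ENNReal.ofReal (4 * r ^ 4) *
          ENNReal.ofReal (‖G3 k X‖ ^ (2 * (1 / p)) * ((‖F3 X‖ ^ 2 + r ^ 2) ^ 2)⁻¹) :=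
          lintegral_mono_set fun X hX => hX.1
      _ = ENNReal.ofReal (4 * r ^ 4) * ∫⁻ X in Pd (dT d.R T).R,
          ENNReal.ofReal (‖G3 k X‖ ^ (2 * (1 / p)) * ((‖F3 X‖ ^ 2 + r ^ 2) ^ 2)⁻¹) :=
          lintegral_const_mul' _ _ ENNReal.ofReal_ne_top
      _ ≤ ENNReal.ofReal (4 * r ^ 4) * ENNReal.ofReal (c * (r ^ 2)⁻¹) :=
          mul_le_mul' le_rfl (hG3i k)
      _ = ENNReal.ofReal (4 * c / ((k : ℝ) + 1) ^ 2) := by
          rw [← ENNReal.ofReal_mul (by positivity)]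
          congr 1
          rw [hr]
          field_simp

/-- finite Milnor number: isolated critical point -/
theorem iso_of_colFin {m : ℕ} {f : (Fin m → ℂ) → ℂ} (hf : AnalyticAt ℂ f 0)
    (hfin : ColFin (par f)) :
    ∀ᶠ x in 𝓝 (0 : Fin m → ℂ), x ≠ 0 → ∃ i, coordDeriv f i x ≠ 0 := by
  have hcd : ∀ i, AnalyticAt ℂ (coordDeriv f i) 0 := fun i =>
    (ContinuousLinearMap.analyticAt (ContinuousLinearMap.apply ℂ ℂ
      (Pi.single i 1 : Fin m → ℂ)) _).comp hf.fderiv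
  have h1 := UI939.cn_col (n := m) (m := m) (fun j q => coordDeriv f j q.1) (fun j => by
    exact AnalyticAt.comp (g := coordDeriv f j) (f := Prod.fst) (x := (0 : (Fin m → ℂ) × ℂ))
      (hcd j) analyticAt_fst) hfin
    (Eventually.of_forall (p := fun t : ℂ => _) fun t => le_rfl).frequently
  have h2 : Tendsto (fun x : Fin m → ℂ => (x, (0 : ℂ))) (𝓝 0) (𝓝 0) := by
    have : Continuous (fun x : Fin m → ℂ => (x, (0 : ℂ))) := by fun_prop
    exact this.tendsto 0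
  filter_upwards [h2.eventually h1] with x hx hx0
  by_contra hcon
  push Not at hcon
  exact hx0 (hx hcon)

/-- **`L^{2/p}` extension from `V_0` to the family `V_t`**, all dimensions `n ≥ 1`
(hypersurfaces in `ℂ^(n+1)`), in germ form -/
theorem otN (hn : 1 ≤ n) {F : (Fin (n + 1) → ℂ) × ℂ → ℂ} {g : (Fin (n + 1) → ℂ) → ℂ} {p : ℝ}
    (hp : 1 ≤ p) (hF : AnalyticAt ℂ F (0, 0)) (hfin : ColFin (par (sl F 0)))
    (hreg : ∃ᶠ z : ℂ in 𝓝[≠] 0, sl F 0 (Fin.cons z 0) ≠ 0) (hg : AnalyticAt ℂ g 0)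
    (hJ : InJN p (sl F 0) g) :
    ∃ G : (Fin (n + 1) → ℂ) × ℂ → ℂ, AnalyticAt ℂ G (0, 0) ∧
      (∃ a : (Fin (n + 1) → ℂ) → ℂ, AnalyticAt ℂ a 0 ∧
        ∀ᶠ x in 𝓝 (0 : Fin (n + 1) → ℂ), G (x, 0) = g x + a x * F (x, 0)) ∧
      ∃ δ : ℝ, 0 < δ ∧ ∀ᵐ t : ℂ, ‖t‖ < δ → InJN p (sl F t) (sl G t) := by
  obtain ⟨R, T, C, G, O⟩ := exists_out1 hp hF hg hJ
  have hsl : AnalyticAt ℂ (sl F 0) 0 :=
    AnalyticAt.comp (g := F) (f := fun x => (x, (0 : ℂ))) hF (analyticAt_id.prod analyticAt_const)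
  refine final hn hp O hg ?_ hreg
  filter_upwards [iso_of_colFin hsl hfin] with x hx hx0 _ using hx hx0

/-- `OTStmt` of `Defs_219` -/
theorem otStmt : OTStmt := by
  intro F g p hp hF _ hI hg hJ
  exact otN (n := 2) (by norm_num) hp hF hI.fin hI.reg hg hJ

end

end Crest.Agent.R257.Sh_297
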