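import Crest.Agent.R257.TDefs_387
import Crest.Agent.R257.T1_387
import Crest.Agent.R257.Sh14_297

/-!
Row 257 (S0395), part C, T-frame, T0 (helper939): base data `TB f` of the germ `f`.
-/

set_option autoImplicit false
set_option linter.unusedSectionVars false

open Polynomial Set Filter Topology Metric
open Crest.AlgGeometry.Germ Crest.Agent.R257.AJ387 Crest.Agent.R257.Sh_297
open Crest.Agent.R257.Defs_219 Crest.Agent.R257.T387

noncomputable section

namespace Crest.Agent.R257.T0_939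

/-- `(x,y) ↦ (x u + y v)` for a nonzero vector `v` -/
lemma exists_rot (v : ℂ × ℂ) (hv : v ≠ 0) : ∃ A : (ℂ × ℂ) ≃L[ℂ] (ℂ × ℂ), A (0, 1) = v := by
  by_cases h1 : v.1 = 0
  · have h2 : v.2 ≠ 0 := fun h => hv (Prod.ext h1 h)
    let e : (ℂ × ℂ) ≃ₗ[ℂ] (ℂ × ℂ) :=
      { toFun := fun p => (p.1, p.2 * v.2)
        invFun := fun p => (p.1, p.2 / v.2)
        map_add' := fun p q => by simp [add_mul]
        map_smul' := fun c p => by simp [mul_assoc]
        left_inv := fun p => by simp [h2]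
        right_inv := fun p => by simp [h2] }
    refine ⟨e.toContinuousLinearEquiv, ?_⟩
    show ((0 : ℂ), 1 * v.2) = v
    rw [one_mul]
    exact Prod.ext h1.symm rfl
  · let e : (ℂ × ℂ) ≃ₗ[ℂ] (ℂ × ℂ) :=
      { toFun := fun p => (p.2 * v.1, p.1 + p.2 * v.2)
        invFun := fun p => (p.2 - p.1 / v.1 * v.2, p.1 / v.1)
        map_add' := fun p q => by ext <;> simp <;> ring
        map_smul' := fun c p => by ext <;> simp <;> ring
        left_inv := fun p => by ext <;> simp [h1]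
        right_inv := fun p => by ext <;> simp [h1] }
    refine ⟨e.toContinuousLinearEquiv, ?_⟩
    show ((1 : ℂ) * v.1, (0 : ℂ) + 1 * v.2) = v
    simp

/-- a nonzero analytic germ is not identically zero on a generic line -/
lemma exists_line {D : ℂ × ℂ → ℂ} (hD : AnalyticAt ℂ D 0) (h : ∃ᶠ q in 𝓝 (0 : ℂ × ℂ), D q ≠ 0) :
    ∃ v : ℂ × ℂ, v ≠ 0 ∧ ∃ᶠ s in 𝓝 (0 : ℂ), D (s • v) ≠ 0 := by
  by_cases h00 : D 0 = 0
  · obtain ⟨ε, hε, hb⟩ := Metric.eventually_nhds_iff_ball.1 hD.eventually_analyticAt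
    obtain ⟨v, hv, hvε⟩ := (h.and_eventually (ball_mem_nhds (0 : ℂ × ℂ) (half_pos hε))).exists
    have hv0 : v ≠ 0 := fun h => hv (by rw [h, h00])
    refine ⟨v, hv0, ?_⟩
    intro hcon
    -- identity theorem on the disc of radius 3/2
    have hvn : ‖v‖ < ε / 2 := by simpa using hvε
    have hmem : ∀ s ∈ ball (0 : ℂ) (3 / 2), s • v ∈ ball (0 : ℂ × ℂ) ε := by
      intro s hs
      have hs' : ‖s‖ < 3 / 2 := by simpa using hs
      rw [mem_ball, dist_zero_right, norm_smul]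
      have := norm_nonneg v
      nlinarith [norm_nonneg s]
    have han : AnalyticOnNhd ℂ (fun s : ℂ => D (s • v)) (ball 0 (3 / 2)) := by
      intro s hs
      refine AnalyticAt.comp (g := D) (f := fun s : ℂ => s • v) (hb _ (hmem s hs)) ?_
      exact analyticAt_id.smul analyticAt_const
    have h1 : (fun s : ℂ => D (s • v)) =ᶠ[𝓝 0] 0 := by
      have : ∀ᶠ s in 𝓝 (0 : ℂ), ¬ (D (s • v) ≠ 0) := hcon
      filter_upwards [this] with s hs
      simpa using hs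
    have h2 := han.eqOn_zero_of_preconnected_of_eventuallyEq_zero
      (convex_ball (0 : ℂ) (3 / 2)).isPreconnected (mem_ball_self (by norm_num)) h1
    have h3 := h2 (show (1 : ℂ) ∈ ball (0 : ℂ) (3 / 2) by simp; norm_num)
    simp only [one_smul, Pi.zero_apply] at h3
    exact hv h3
  · refine ⟨(0, 1), by simp, ?_⟩
    have h1 : Tendsto (fun s : ℂ => s • ((0, 1) : ℂ × ℂ)) (𝓝 0) (𝓝 0) := by
      have : Continuous (fun s : ℂ => s • ((0, 1) : ℂ × ℂ)) := by fun_prop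
      exact this.tendsto' _ _ (by simp)
    exact (h1.eventually (hD.continuousAt.eventually_ne h00)).frequently

/-- contact data of two distinct functions -/
lemma exists_contact {g : ℂ → ℂ} {ρ : ℝ} (hρ : 0 < ρ) (hg : AnalyticOnNhd ℂ g (ball 0 ρ))
    (h0 : g 0 = 0) (hne : ∀ s ∈ ball (0 : ℂ) ρ, s ≠ 0 → g s ≠ 0) :
    ∃ (k : ℕ) (u : ℂ → ℂ), 0 < k ∧ AnalyticOnNhd ℂ u (ball 0 ρ) ∧
      (∀ s ∈ ball (0 : ℂ) ρ, u s ≠ 0) ∧ ∀ s ∈ ball (0 : ℂ) ρ, g s = s ^ k * u s := by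
  classical
  have h0m : (0 : ℂ) ∈ ball (0 : ℂ) ρ := mem_ball_self hρ
  have hfin : analyticOrderAt g 0 ≠ ⊤ := by
    rw [Ne, analyticOrderAt_eq_top]
    intro h
    have h1 : ∀ᶠ s in 𝓝[≠] (0 : ℂ), g s = 0 := h.filter_mono nhdsWithin_le_nhds
    have h2 : ∀ᶠ s in 𝓝[≠] (0 : ℂ), s ∈ ball (0 : ℂ) ρ :=
      nhdsWithin_le_nhds (ball_mem_nhds _ hρ)
    obtain ⟨s, ⟨hs1, hs2⟩, hs3⟩ := ((h1.and h2).and self_mem_nhdsWithin).exists
    exact hne s hs2 hs3 hs1
  obtain ⟨k, hk⟩ := ENat.ne_top_iff_exists.1 hfin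
  obtain ⟨v, hv, hv0, he⟩ := ((hg 0 h0m).analyticOrderAt_eq_natCast).1 hk.symm
  have hk0 : 0 < k := by
    rcases Nat.eq_zero_or_pos k with h | h
    · exfalso
      subst h
      have := he.self_of_nhds
      simp only [sub_zero, pow_zero, smul_eq_mul, one_mul] at this
      exact hv0 (this ▸ h0)
    · exact h
  let u : ℂ → ℂ := fun s => if s = 0 then v 0 else g s / s ^ k
  have hu0 : u =ᶠ[𝓝 0] v := by
    filter_upwards [he] with s hs
    by_cases h : s = 0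
    · subst h; simp [u]
    · simp only [u, if_neg h, hs, sub_zero, smul_eq_mul]
      field_simp
  refine ⟨k, u, hk0, ?_, ?_, ?_⟩
  · intro s hs
    by_cases h : s = 0
    · subst h; exact hv.congr hu0.symm
    · have h1 : AnalyticAt ℂ (fun s => g s / s ^ k) s :=
        (hg s hs).div (analyticAt_id.pow k) (pow_ne_zero k h)
      refine h1.congr ?_
      filter_upwards [eventually_ne_nhds h] with s' hs'
      simp only [u, if_neg hs']
  · intro s hs
    by_cases h : s = 0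
    · subst h; simpa [u] using hv0
    · simp only [u, if_neg h]
      exact div_ne_zero (hne s hs h) (pow_ne_zero k h)
  · intro s hs
    by_cases h : s = 0
    · subst h; rw [h0, zero_pow hk0.ne', zero_mul]
    · simp only [u, if_neg h]
      field_simp

/-- `pt` as a linear map -/
lemma pt_eq (z : ℂ) (q : ℂ × ℂ) : pt z q = Fin.cons z ![q.1, q.2] := rfl

lemma an_pt (p : (ℂ × ℂ) × ℂ) : AnalyticAt ℂ (fun p : (ℂ × ℂ) × ℂ => pt p.2 p.1) p := by
  refine AnalyticAt.pi fun i => ?_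
  fin_cases i
  · exact analyticAt_snd
  · exact analyticAt_fst.comp analyticAt_fst
  · exact analyticAt_snd.comp analyticAt_fst

lemma pt_zero : pt 0 (0 : ℂ × ℂ) = 0 := by
  ext i; fin_cases i <;> rfl

/-- the discriminant is not identically zero -/
lemma Dsc_freq {Y : Type*} [NormedAddCommGroup Y] [NormedSpace ℂ Y] [FiniteDimensional ℂ Y]
    {F v : Y × ℂ → ℂ} {w : ℕ → Y → ℂ} {d : ℕ} {δ' : ℝ} (hδ' : 0 < δ')
    (hwa : ∀ j, AnalyticAt ℂ (w j) 0) (hw1 : ∀ y, w d y = 1) (hw0 : ∀ j < d, w j 0 = 0)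
    (hv : AnalyticAt ℂ v (0, 0)) (hv0 : v (0, 0) ≠ 0)
    (hFe : ∀ᶠ p in 𝓝 (((0 : Y), (0 : ℂ)) : Y × ℂ), F p = v p * Wf w d p.1 p.2)
    (hs : ∃ᶠ y in 𝓝 (0 : Y), ∀ z ∈ ball (0 : ℂ) δ', F (y, z) = 0 → vd F (y, z) ≠ 0) :
    ∃ᶠ y in 𝓝 (0 : Y), Dsc w d y ≠ 0 := by
  have hev : ∀ᶠ p in 𝓝 (((0 : Y), (0 : ℂ)) : Y × ℂ), AnalyticAt ℂ v p ∧ v p ≠ 0 ∧
      F p = v p * Wf w d p.1 p.2 := by
    filter_upwards [hv.eventually_analyticAt, hv.continuousAt.eventually_ne hv0,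
      hFe] with p h2 h3 h4 using ⟨h2, h3, h4⟩
  obtain ⟨ε, hε, hεb⟩ := Metric.eventually_nhds_iff_ball.1 hev
  set ρ : ℝ := min (ε / 2) δ' with hρdef
  have hρ : 0 < ρ := lt_min (by positivity) hδ'
  have hρε : ρ < ε := (min_le_left _ _).trans_lt (by linarith)
  have hw2 : ∀ᶠ y in 𝓝 (0 : Y), (∀ j ∈ Finset.range d, ‖w j y‖ < ρ ^ (d - j) / (d + 1)) ∧
      y ∈ ball (0 : Y) ε := by
    refine ((Finset.eventually_all _).2 fun j hj => ?_).and (ball_mem_nhds _ hε)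
    rw [Finset.mem_range] at hj
    refine (hwa j).continuousAt.norm.tendsto.eventually (gt_mem_nhds ?_)
    rw [hw0 j hj, norm_zero]
    positivity
  refine (hs.and_eventually hw2).mono ?_
  rintro y ⟨hy, hyw, hyε⟩
  refine (Dsc_ne_zero_iff (hw1 y)).2 fun z hz => ?_
  have hzρ : ‖z‖ < ρ := root_bound (hw1 y) hρ (fun j hj => hyw j (Finset.mem_range.2 hj)) hz
  have hm : ((y, z) : Y × ℂ) ∈ ball (((0 : Y), (0 : ℂ)) : Y × ℂ) ε := by
    rw [mem_ball, Prod.dist_eq, max_lt_iff]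
    exact ⟨by simpa using hyε, by simpa using hzρ.trans hρε⟩
  obtain ⟨h2, h3, h4⟩ := hεb _ hm
  have hF0 : F (y, z) = 0 := by rw [h4, hz, mul_zero]
  have h1 := hy z (by
    rw [mem_ball, dist_zero_right]; exact hzρ.trans_le (min_le_right _ _)) hF0
  have h5 : HasDerivAt (fun z => v (y, z)) (deriv (fun z => v (y, z)) z) z := by
    have h6 : DifferentiableAt ℂ (fun z : ℂ => ((y, z) : Y × ℂ)) z :=
      (differentiableAt_const y).prodMk differentiableAt_id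
    exact (h2.differentiableAt.comp z h6).hasDerivAt
  have h7 := h5.mul (hasDerivAt_Wf w d y z)
  rw [hz, mul_zero, zero_add] at h7
  have h8 : (fun z => F (y, z)) =ᶠ[𝓝 z] fun z => v (y, z) * Wf w d y z := by
    have h9 : ∀ᶠ z' in 𝓝 z, (y, z') ∈ ball (((0 : Y), (0 : ℂ)) : Y × ℂ) ε :=
      (isOpen_ball.preimage (by fun_prop : Continuous fun z' : ℂ => ((y, z') : Y × ℂ))).mem_nhds hm
    filter_upwards [h9] with z' hz'
    exact (hεb _ hz').2.2
  have h10 : vd F (y, z) = v (y, z) * (Wp w d y).derivative.eval z :=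
    (h7.congr_of_eventuallyEq h8).deriv
  rw [h10, mul_ne_zero_iff, and_iff_right h3] at h1
  exact h1

/-- the discriminant data: Puiseux branches of a plane germ, with a dummy branch `y' = 0` -/
theorem exists_branches {D : ℂ × ℂ → ℂ} (hD : AnalyticAt ℂ D 0)
    (hreg : ∃ᶠ y in 𝓝 (0 : ℂ), D (0, y) ≠ 0) :
    ∃ (N₀ m : ℕ) (R₀ : ℝ), 0 < N₀ ∧ 0 < m ∧ 0 < R₀ ∧ ∀ R : ℝ, 0 < R → R ≤ R₀ →
      ∃ (ρ : ℝ) (φ : Fin m → ℂ → ℂ), 0 < ρ ∧ ρ ≤ 1 ∧
      (∀ s ∈ ball (0 : ℂ) ρ, ‖s ^ N₀‖ < R) ∧ (∀ i, AnalyticOnNhd ℂ (φ i) (ball 0 ρ)) ∧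
      (∀ i, φ i 0 = 0) ∧ (∀ i, ∀ s ∈ ball (0 : ℂ) ρ, ‖φ i s‖ < R) ∧
      (∀ s ∈ ball (0 : ℂ) ρ, s ≠ 0 → Function.Injective fun i => φ i s) ∧
      (∀ s ∈ ball (0 : ℂ) ρ, ∀ y ∈ ball (0 : ℂ) R, (∀ i, y ≠ φ i s) → D (s ^ N₀, y) ≠ 0) ∧
      (∀ ζ : ℂ, ζ ^ N₀ = 1 → ∀ s ∈ ball (0 : ℂ) ρ, ∀ i, ∃ j, φ i (ζ * s) = φ j s) := by
  classical
  have hD0 : AnalyticAt ℂ D ((0 : ℂ), (0 : ℂ)) := hD
  have hsl : AnalyticAt ℂ (fun y : ℂ => D (0, y)) 0 :=
    AnalyticAt.comp (g := D) (f := fun y : ℂ => ((0 : ℂ), y)) hD0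
      (analyticAt_const.prod analyticAt_id)
  have hfin : analyticOrderAt (fun y : ℂ => D (0, y)) 0 ≠ ⊤ := by
    rw [Ne, analyticOrderAt_eq_top]
    intro h
    exact hreg (by filter_upwards [h] with y hy; simpa using hy)
  obtain ⟨e, he⟩ := ENat.ne_top_iff_exists.1 hfin
  obtain ⟨w, v, hwa, hw1, hw0, hwz, hv, hv0, hFe⟩ := exists_wpoly (y₀ := (0 : ℂ)) hD0 he.symm
  -- the polynomial with the dummy root
  let Q : ℂ → ℂ[X] := fun x => X * Wp w e x
  have hWm : ∀ x, (Wp w e x).Monic := fun x => by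
    refine monic_of_natDegree_le_of_coeff_eq_one e (degree_Wp_le w e x) ?_
    rw [coeff_Wp, if_pos (Nat.lt_succ_self e), hw1]
  have hWn : ∀ x, (Wp w e x).natDegree = e := fun x => by
    refine le_antisymm (degree_Wp_le w e x) (le_natDegree_of_ne_zero ?_)
    rw [coeff_Wp, if_pos (Nat.lt_succ_self e), hw1]
    exact one_ne_zero
  have hQ : ∀ x, (Q x).Monic ∧ (Q x).natDegree = e + 1 := fun x => by
    refine ⟨monic_X.mul (hWm x), ?_⟩
    rw [Monic.natDegree_mul monic_X (hWm x), natDegree_X, hWn, add_comm]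
  have hQc : ∀ j, AnalyticAt ℂ (fun x => (Q x).coeff j) 0 := by
    intro j
    cases j with
    | zero =>
      simp only [Q, mul_coeff_zero, coeff_X_zero, zero_mul]
      exact analyticAt_const
    | succ j =>
      simp only [Q, coeff_X_mul, coeff_Wp]
      split_ifs
      · exact hwa j
      · exact analyticAt_const
  obtain ⟨m, N, r, φ, hN, hr, hφ, hroot, hinj⟩ := puiseux (Eventually.of_forall hQ) hQc
  have hQ0 : ∀ y, (Q 0).eval y = 0 ↔ y = 0 := by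
    intro y
    have h1 : Wp w e 0 = X ^ e := by
      ext j
      rw [coeff_Wp, coeff_X_pow]
      split_ifs with h1 h2 h2
      · rw [h2, hw1]
      · exact hw0 j (by omega)
      · omega
      · rfl
    simp only [Q, h1, eval_mul, eval_X, eval_pow]
    rw [← pow_succ']
    exact pow_eq_zero_iff (Nat.succ_ne_zero e)
  have hφ0 : ∀ i, φ i 0 = 0 := by
    intro i
    have := (hroot 0 (mem_ball_self hr) (φ i 0)).2 ⟨i, rfl⟩
    rw [zero_pow hN.ne'] at this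
    exact (hQ0 _).1 this
  have hm : 0 < m := by
    have := (hroot 0 (mem_ball_self hr) 0).1 (by rw [zero_pow hN.ne']; exact (hQ0 0).2 rfl)
    obtain ⟨i, -⟩ := this
    exact i.pos
  -- the good neighbourhood
  obtain ⟨ε, hε, hεb⟩ := Metric.eventually_nhds_iff_ball.1
    (hFe.and (hv.continuousAt.eventually_ne hv0))
  refine ⟨N, m, ε, hN, hm, hε, fun R hR hRε => ?_⟩
  have hφR : ∀ᶠ s in 𝓝 (0 : ℂ), ∀ i, ‖φ i s‖ < R := by
    refine Filter.eventually_all.2 fun i => ?_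
    have h1 := ((hφ i 0 (mem_ball_self hr)).continuousAt.norm).tendsto
    refine h1.eventually (gt_mem_nhds ?_)
    rw [hφ0 i, norm_zero]; exact hR
  have hsN : ∀ᶠ s in 𝓝 (0 : ℂ), ‖s ^ N‖ < R := by
    have h1 : Continuous fun s : ℂ => ‖s ^ N‖ := by fun_prop
    refine h1.continuousAt.tendsto.eventually (gt_mem_nhds ?_)
    rw [zero_pow hN.ne', norm_zero]; exact hR
  obtain ⟨ρ₁, hρ₁, hb⟩ := Metric.eventually_nhds_iff_ball.1 (hφR.and hsN)
  set ρ := min (min ρ₁ r) 1 with hρ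
  have hρ0 : 0 < ρ := by positivity
  have hρr : ρ ≤ r := (min_le_left _ _).trans (min_le_right _ _)
  have hρ1 : ρ ≤ ρ₁ := (min_le_left _ _).trans (min_le_left _ _)
  refine ⟨ρ, φ, hρ0, min_le_right _ _, fun s hs => (hb s (ball_subset_ball hρ1 hs)).2,
    fun i s hs => hφ i s (ball_subset_ball hρr hs), hφ0,
    fun i s hs => (hb s (ball_subset_ball hρ1 hs)).1 i,
    fun s hs h0 => hinj s (ball_subset_ball hρr hs) h0, ?_, ?_⟩
  swap
  · intro ζ hζ s hs i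
    have hζn : ‖ζ‖ = 1 := by
      have h1 : ‖ζ‖ ^ N = 1 := by rw [← norm_pow, hζ, norm_one]
      exact (pow_eq_one_iff_of_nonneg (norm_nonneg _) hN.ne').1 h1
    have hs' : ζ * s ∈ ball (0 : ℂ) r := by
      rw [mem_ball, dist_zero_right, norm_mul, hζn, one_mul]
      exact (by simpa using hs : ‖s‖ < ρ).trans_le hρr
    have h1 := (hroot (ζ * s) hs' (φ i (ζ * s))).2 ⟨i, rfl⟩
    rw [mul_pow, hζ, one_mul] at h1
    exact (hroot s (ball_subset_ball hρr hs) _).1 h1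
  intro s hs y hy hne
  have h1 : ((s ^ N, y) : ℂ × ℂ) ∈ ball (((0 : ℂ), (0 : ℂ)) : ℂ × ℂ) ε := by
    rw [mem_ball, Prod.dist_eq, max_lt_iff]
    refine ⟨?_, ?_⟩
    · rw [dist_zero_right]; exact ((hb s (ball_subset_ball hρ1 hs)).2).trans_le hRε
    · exact (mem_ball.1 hy).trans_le hRε
  obtain ⟨h2, h3⟩ := hεb _ h1
  rw [h2]
  refine mul_ne_zero h3 ?_
  intro h4
  have h5 : (Q (s ^ N)).eval y = 0 := by
    simp only [Q, eval_mul, eval_Wp]
    rw [h4, mul_zero]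
  obtain ⟨i, hi⟩ := (hroot s (ball_subset_ball hρr hs) y).1 h5
  exact hne i hi

/-- the set of branches is invariant under the Galois group of `x' = s₀ ^ N₀` -/
def GalPt {f : (Fin 3 → ℂ) → ℂ} (T : TB f) : Prop :=
  ∀ ζ : ℂ, ζ ^ T.N₀ = 1 → ∀ s ∈ ball (0 : ℂ) T.ρ, ∀ i, ∃ j, T.φ i (ζ * s) = T.φ j s

/-- **T0** -/
theorem exists_TB {f : E3 → ℂ} (hf : Iso f) : ∃ T : TB f, GalPt T := by
  classical
  -- the function in the coordinates `(q', z)`
  let F : (ℂ × ℂ) × ℂ → ℂ := fun p => f (pt p.2 p.1)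
  have hpt0 : pt (0 : (ℂ × ℂ) × ℂ).2 (0 : (ℂ × ℂ) × ℂ).1 = 0 := pt_zero
  have hF : AnalyticAt ℂ F ((0 : ℂ × ℂ), (0 : ℂ)) :=
    AnalyticAt.comp (g := f) (f := fun p : (ℂ × ℂ) × ℂ => pt p.2 p.1) (x := (0 : (ℂ × ℂ) × ℂ))
      (by rw [hpt0]; exact hf.an) (an_pt 0)
  have hord : analyticOrderAt (fun z : ℂ => F (0, z)) 0 ≠ ⊤ := by
    rw [Ne, analyticOrderAt_eq_top]
    intro h
    refine hf.reg ?_
    have h1 : ∀ᶠ z in 𝓝[≠] (0 : ℂ), F (0, z) = 0 := h.filter_mono nhdsWithin_le_nhds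
    filter_upwards [h1] with z hz hne
    refine hne ?_
    have h2 : (Fin.cons z 0 : Fin 3 → ℂ) = pt z 0 := by
      ext i; fin_cases i <;> rfl
    rw [h2]; exact hz
  obtain ⟨d, hd⟩ := ENat.ne_top_iff_exists.1 hord
  obtain ⟨w, v, hwa, hw1, hw0, hwz, hv, hv0, hFe⟩ := exists_wpoly hF hd.symm
  have hd0 : 0 < d := by
    rcases Nat.eq_zero_or_pos d with h | h
    · exfalso
      subst h
      have h1 : AnalyticAt ℂ (fun z : ℂ => F (0, z)) 0 :=
        AnalyticAt.comp (g := F) (f := fun z : ℂ => ((0 : ℂ × ℂ), z)) hF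
          (analyticAt_const.prod analyticAt_id)
      have h2 : (fun z : ℂ => F (0, z)) 0 ≠ 0 := h1.analyticOrderAt_eq_zero.1 hd.symm
      apply h2
      show f (pt 0 0) = 0
      rw [pt_zero]; exact hf.zero
    · exact h
  -- discriminant
  have hDan : AnalyticAt ℂ (Dsc w d) 0 := Dsc_analytic hwa
  have hDne : ∃ᶠ q in 𝓝 (0 : ℂ × ℂ), Dsc w d q ≠ 0 := by
    obtain ⟨δ', hδ', hgs⟩ := generic_simple (n := 2) (by norm_num) hf.an (by
      filter_upwards [iso_of_colFin hf.an hf.fin] with x hx h0 _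
      exact hx h0)
    refine Dsc_freq hδ' hwa hw1 hw0 hv hv0 hFe ?_
    have hc : Tendsto (fun x' : Fin 2 → ℂ => ((x' 0, x' 1) : ℂ × ℂ)) (𝓝 0) (𝓝 0) := by
      have : Continuous (fun x' : Fin 2 → ℂ => ((x' 0, x' 1) : ℂ × ℂ)) := by fun_prop
      exact this.tendsto' _ _ rfl
    refine hc.frequently (hgs.mono fun x' hx' z hz hFz => ?_)
    have hpt : ∀ z : ℂ, pt z (x' 0, x' 1) = Fin.cons z x' := by
      intro z
      ext i; fin_cases i <;> rfl
    have h1 := hx' z hz (by rw [← hpt]; exact hFz)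
    have h2 : (fun z : ℂ => F ((x' 0, x' 1), z)) = fun z : ℂ => f (Fin.cons z x') := by
      funext z
      show f (pt z (x' 0, x' 1)) = _
      rw [hpt]
    show deriv (fun z : ℂ => F ((x' 0, x' 1), z)) z ≠ 0
    rw [h2]
    exact h1
  obtain ⟨b, hb, hline⟩ := exists_line hDan hDne
  obtain ⟨A, hA⟩ := exists_rot b hb
  have hA0 : A 0 = 0 := map_zero A
  have hAc : Tendsto A (𝓝 0) (𝓝 0) := by
    have := A.continuous.tendsto 0
    rwa [hA0] at this
  have hAan : ∀ q, AnalyticAt ℂ A q := fun q => A.toContinuousLinearMap.analyticAt q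
  have hD1 : AnalyticAt ℂ (fun q => Dsc w d (A q)) 0 :=
    AnalyticAt.comp (g := Dsc w d) (f := A) (by rw [hA0]; exact hDan) (hAan 0)
  have hreg : ∃ᶠ y in 𝓝 (0 : ℂ), Dsc w d (A (0, y)) ≠ 0 := by
    refine hline.mono fun s hs => ?_
    have h1 : ((0 : ℂ), s) = s • ((0, 1) : ℂ × ℂ) := by simp
    rw [h1, map_smul, hA]
    exact hs
  obtain ⟨N₀, m, R₀, hN₀, hm, hR₀, hbr⟩ := exists_branches hD1 hreg
  -- the radii
  have hev : ∀ᶠ p in 𝓝 (0 : (ℂ × ℂ) × ℂ), AnalyticAt ℂ f (pt p.2 p.1) ∧ AnalyticAt ℂ v p ∧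
      v p ≠ 0 ∧ F p = v p * Wf w d p.1 p.2 := by
    have h1 : Tendsto (fun p : (ℂ × ℂ) × ℂ => pt p.2 p.1) (𝓝 0) (𝓝 0) := by
      have := (an_pt 0).continuousAt.tendsto
      rwa [hpt0] at this
    exact (h1.eventually hf.an.eventually_analyticAt).and
      (hv.eventually_analyticAt.and ((hv.continuousAt.eventually_ne hv0).and hFe))
  obtain ⟨ε, hε, hεb⟩ := Metric.eventually_nhds_iff_ball.1 hev
  set rz : ℝ := ε / 2 with hrz
  have hrz0 : 0 < rz := by positivity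
  have hw2 : ∀ᶠ y in 𝓝 (0 : ℂ × ℂ), (∀ j ∈ Finset.range d, ‖w j y‖ < rz ^ (d - j) / (d + 1)) ∧
      (∀ j ∈ Finset.range (d + 1), AnalyticAt ℂ (w j) y) ∧ y ∈ ball (0 : ℂ × ℂ) ε := by
    refine ((Finset.eventually_all _).2 fun j hj => ?_).and
      (((Finset.eventually_all _).2 fun j _ => (hwa j).eventually_analyticAt).and
        (ball_mem_nhds _ hε))
    rw [Finset.mem_range] at hj
    refine (hwa j).continuousAt.norm.tendsto.eventually (gt_mem_nhds ?_)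
    rw [hw0 j hj, norm_zero]
    positivity
  obtain ⟨δ, hδ, hδb⟩ := Metric.eventually_nhds_iff_ball.1 (hAc.eventually hw2)
  set R : ℝ := min δ R₀ with hR
  have hR0 : 0 < R := lt_min hδ hR₀
  have hBD : ∀ q ∈ BD R R, q ∈ ball (0 : ℂ × ℂ) δ := by
    intro q hq
    rw [mem_ball, Prod.dist_eq, max_lt_iff]
    exact ⟨by simpa using hq.1.trans_le (min_le_left _ _),
      by simpa using hq.2.trans_le (min_le_left _ _)⟩
  have hwan : ∀ q ∈ BD R R, ∀ j, AnalyticAt ℂ (w j) (A q) := by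
    intro q hq j
    rcases lt_or_ge d j with h | h
    · rw [hwz j h]; exact analyticAt_const
    · exact (hδb q (hBD q hq)).2.1 j (Finset.mem_range.2 (by omega))
  have hmem : ∀ q ∈ BD R R, ∀ z : ℂ, ‖z‖ ≤ rz → ((A q, z) : (ℂ × ℂ) × ℂ) ∈
      ball (0 : (ℂ × ℂ) × ℂ) ε := by
    intro q hq z hz
    rw [mem_ball, Prod.dist_eq, max_lt_iff]
    refine ⟨(hδb q (hBD q hq)).2.2, ?_⟩
    have : dist z 0 = ‖z‖ := dist_zero_right z
    show dist z 0 < ε
    rw [this]; linarith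
  have hWm : ∀ x, (Wp w d x).Monic := fun x => by
    refine monic_of_natDegree_le_of_coeff_eq_one d (degree_Wp_le w d x) ?_
    rw [coeff_Wp, if_pos (Nat.lt_succ_self d), hw1]
  have hWn : ∀ x, (Wp w d x).natDegree = d := fun x => by
    refine le_antisymm (degree_Wp_le w d x) (le_natDegree_of_ne_zero ?_)
    rw [coeff_Wp, if_pos (Nat.lt_succ_self d), hw1]
    exact one_ne_zero
  obtain ⟨ρ, φ, hρ0, hρ1, hρR, hφ, hφ0, hφR, hinj, hDφ, hgal⟩ := hbr R hR0 (min_le_right _ _)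
  -- contact data
  have hcon : ∀ i j, i ≠ j → ∃ (k : ℕ) (u : ℂ → ℂ), 0 < k ∧ AnalyticOnNhd ℂ u (ball 0 ρ) ∧
      (∀ s ∈ ball (0 : ℂ) ρ, u s ≠ 0) ∧ ∀ s ∈ ball (0 : ℂ) ρ, φ i s - φ j s = s ^ k * u s := by
    intro i j hij
    exact exists_contact (g := fun s => φ i s - φ j s) hρ0 ((hφ i).sub (hφ j))
      (by simp [hφ0]) (fun s hs h0 h => hij (hinj s hs h0 (sub_eq_zero.1 h)))
  choose! k u hk hu hune hφs using hcon
  refine ⟨{
    A := A
    d := d
    P := fun q => Wp w d (A q)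
    v := fun p => v (A p.1, p.2)
    R := R
    rz := rz
    R_pos := hR0
    rz_pos := hrz0
    d_pos := hd0
    monic := fun q _ => hWm _
    deg := fun q _ => hWn _
    coeff_an := ?_
    P_zero := ?_
    f_an := fun q hq z hz => (hεb _ (hmem q hq z hz)).1
    v_an := ?_
    v_ne := fun q hq z hz => (hεb _ (hmem q hq z hz)).2.2.1
    f_eq := fun q hq z hz => ?_
    roots_in := ?_
    N₀ := N₀
    N₀_pos := hN₀
    m := m
    m_pos := hm
    ρ := ρ
    ρ_pos := hρ0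
    ρ_le := hρ1
    ρ_R := hρR
    φ := φ
    φ_an := hφ
    φ_zero := hφ0
    φ_R := hφR
    del := fun i j => if i = j then 1 else k i j
    u := u
    del_pos := ?_
    u_an := hu
    u_ne := hune
    φ_sub := ?_
    nodup := ?_ }, hgal⟩
  · intro i q hq
    show AnalyticAt ℂ (fun q => (Wp w d (A q)).coeff i) q
    simp_rw [coeff_Wp]
    split_ifs
    · exact AnalyticAt.comp (g := w i) (f := A) (hwan q hq i) (hAan q)
    · exact analyticAt_const
  · show Wp w d (A 0) = X ^ d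
    rw [hA0]
    ext j
    rw [coeff_Wp, coeff_X_pow]
    split_ifs with h1 h2 h2
    · rw [h2, hw1]
    · exact hw0 j (by omega)
    · omega
    · rfl
  · intro q hq z hz
    exact AnalyticAt.comp (g := v) (f := fun p : (ℂ × ℂ) × ℂ => (A p.1, p.2))
      (x := ((q, z) : (ℂ × ℂ) × ℂ)) (hεb _ (hmem q hq z hz)).2.1
      ((AnalyticAt.comp (g := A) (f := Prod.fst) (hAan _) analyticAt_fst).prod analyticAt_snd)
  · have := (hεb _ (hmem q hq z hz)).2.2.2
    rw [eval_Wp]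
    exact this
  · intro q hq z hz
    rw [eval_Wp] at hz
    exact root_bound (hw1 _) hrz0
      (fun j hj => (hδb q (hBD q hq)).1 j (Finset.mem_range.2 hj)) hz
  · intro i j
    show 0 < if i = j then 1 else k i j
    split_ifs with h
    · exact one_pos
    · exact hk i j h
  · intro i j hij s hs
    show φ i s - φ j s = s ^ (if i = j then 1 else k i j) * u i j s
    rw [if_neg hij]
    exact hφs i j hij s hs
  · intro s hs y hy hne
    exact nodup_of_Dsc (hw1 _) (hDφ s hs y hy hne)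

end Crest.Agent.R257.T0_939

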