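import Crest.Agent.R257.CLogDefs_68
import Crest.Agent.R257.T0_939
import Crest.Agent.R257.T7_387

/-!
R257 / CLogB_68 (C-LOG, helper68): the reduced polynomial of the branches.

* `descend`  : functions invariant under the `N`-th roots of unity are functions of `s ^ N`;
* `RP T s`   : `∏_j (X - φ_j s)`;
* `exists_Dp`: analytic family `Dp x` of monic polynomials with `Dp (s ^ N₀) = RP T s`.
-/

set_option autoImplicit false
set_option linter.unusedSectionVars false

open Polynomial Set Filter Topology Metric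
open Crest.AlgGeometry.Germ Crest.Agent.R257.AJ387 Crest.Agent.R257.T387
open Crest.Agent.R257.T0_939 (GalPt)

noncomputable section

namespace Crest.Agent.R257.CLog_68

open Crest.Agent.R257.Defs_219

/-- **descent** -/
theorem descend {N : ℕ} (hN : 0 < N) {ρ : ℝ} (hρ : 0 < ρ) {h : ℂ → ℂ}
    (hh : AnalyticOnNhd ℂ h (ball 0 ρ))
    (hinv : ∀ ζ : ℂ, ζ ^ N = 1 → ∀ s ∈ ball (0 : ℂ) ρ, h (ζ * s) = h s) :
    ∃ k : ℂ → ℂ, AnalyticOnNhd ℂ k (ball 0 (ρ ^ N)) ∧ ∀ s ∈ ball (0 : ℂ) ρ, h s = k (s ^ N) := by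
  have hN' : N ≠ 0 := hN.ne'
  set k : ℂ → ℂ := fun x => h (x ^ ((N : ℂ)⁻¹)) with hk
  -- values at roots
  have hval : ∀ s ∈ ball (0 : ℂ) ρ, h s = k (s ^ N) := by
    intro s hs
    by_cases h0 : s = 0
    · subst h0
      rw [hk]
      simp only
      rw [zero_pow hN', Complex.zero_cpow]
      rw [ne_eq, inv_eq_zero]
      exact_mod_cast hN'
    · set r : ℂ := (s ^ N) ^ ((N : ℂ)⁻¹) with hr
      have hrN : r ^ N = s ^ N := Complex.cpow_nat_inv_pow _ hN'
      have hζ : (r / s) ^ N = 1 := by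
        rw [div_pow, hrN, div_self (pow_ne_zero _ h0)]
      have h1 := hinv (r / s) hζ s hs
      rw [div_mul_cancel₀ _ h0] at h1
      rw [hk]
      exact h1.symm
  have hroot : ∀ x ∈ ball (0 : ℂ) (ρ ^ N), ∀ b : ℂ, b ^ N = x → b ∈ ball (0 : ℂ) ρ := by
    intro x hx b hb
    have h1 : ‖b‖ ^ N < ρ ^ N := by
      rw [← norm_pow, hb]; simpa using hx
    have h2 : ‖b‖ < ρ := lt_of_pow_lt_pow_left₀ N hρ.le h1
    simpa using h2
  -- analytic off `0`
  have hoff : ∀ x ∈ ball (0 : ℂ) (ρ ^ N), x ≠ 0 → AnalyticAt ℂ k x := by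
    intro x₀ hx₀ h0
    set r₀ : ℂ := x₀ ^ ((N : ℂ)⁻¹) with hr₀
    have hr₀N : r₀ ^ N = x₀ := Complex.cpow_nat_inv_pow _ hN'
    set b : ℂ → ℂ := fun x => r₀ * (x / x₀) ^ ((N : ℂ)⁻¹) with hb
    have hbN : ∀ x, b x ^ N = x := by
      intro x
      rw [hb]
      simp only
      rw [mul_pow, hr₀N, Complex.cpow_nat_inv_pow _ hN', mul_div_cancel₀ _ h0]
    have hba : AnalyticAt ℂ b x₀ := by
      have h1 : AnalyticAt ℂ (fun x : ℂ => x / x₀) x₀ := analyticAt_id.div_const
      have h2 : x₀ / x₀ ∈ Complex.slitPlane := by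
        rw [div_self h0]; exact Complex.one_mem_slitPlane
      exact analyticAt_const.mul (AnalyticAt.cpow h1 analyticAt_const h2)
    have hbx : b x₀ ∈ ball (0 : ℂ) ρ := hroot x₀ hx₀ _ (hbN x₀)
    have hcomp : AnalyticAt ℂ (fun x => h (b x)) x₀ :=
      AnalyticAt.comp (g := h) (f := b) (hh _ hbx) hba
    refine hcomp.congr ?_
    have hev : ∀ᶠ x in 𝓝 x₀, b x ∈ ball (0 : ℂ) ρ :=
      hba.continuousAt.eventually (isOpen_ball.mem_nhds hbx)
    filter_upwards [hev] with x hx
    rw [hval _ hx, hbN]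
  -- continuity at `0`
  have hρN : 0 < ρ ^ N := pow_pos hρ N
  have hcont : ContinuousAt k 0 := by
    have h1 : k 0 = h 0 := by
      have := hval 0 (mem_ball_self hρ)
      rw [zero_pow hN'] at this
      exact this.symm
    have h2 : ContinuousAt h 0 := (hh 0 (mem_ball_self hρ)).continuousAt
    have h3 : Tendsto (fun x : ℂ => x ^ ((N : ℂ)⁻¹)) (𝓝 0) (𝓝 0) := by
      rw [tendsto_zero_iff_norm_tendsto_zero]
      have h4 : ∀ x : ℂ, ‖x ^ ((N : ℂ)⁻¹)‖ = ‖x‖ ^ ((N : ℝ)⁻¹) := by
        intro x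
        exact Complex.norm_cpow_inv_nat x N
      simp only [h4]
      have h5 : ContinuousAt (fun t : ℝ => t ^ ((N : ℝ)⁻¹)) 0 :=
        Real.continuousAt_rpow_const _ _ (Or.inr (by positivity))
      have h6 : Tendsto (fun x : ℂ => ‖x‖) (𝓝 0) (𝓝 0) := by
        have := (continuous_norm (E := ℂ)).tendsto 0
        rwa [norm_zero] at this
      have h7 := h5.tendsto.comp h6
      rw [Real.zero_rpow (by rw [ne_eq, inv_eq_zero]; exact_mod_cast hN')] at h7
      exact h7
    rw [ContinuousAt, h1]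
    exact h2.tendsto.comp h3
  refine ⟨k, fun x hx => ?_, hval⟩
  by_cases h0 : x = 0
  · subst h0
    refine Complex.analyticAt_of_differentiable_on_punctured_nhds_of_continuousAt ?_ hcont
    rw [eventually_nhdsWithin_iff]
    filter_upwards [isOpen_ball.mem_nhds hx] with y hy hy0
    exact (hoff y hy hy0).differentiableAt
  · exact hoff x hx h0

variable {f : (Fin 3 → ℂ) → ℂ} (T : TB f)

/-- `∏_j (X - φ_j s)` -/
def RP (s : ℂ) : ℂ[X] := ∏ j, (X - C (T.φ j s))

theorem RP_monic (s : ℂ) : (RP T s).Monic := monic_prod_of_monic _ _ fun _ _ => monic_X_sub_C _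

theorem RP_natDegree (s : ℂ) : (RP T s).natDegree = T.m := by
  unfold RP
  rw [natDegree_prod_of_monic _ _ fun j _ => monic_X_sub_C _]
  simp

theorem phi_inj {s : ℂ} (hs : s ∈ ball (0 : ℂ) T.ρ) (h0 : s ≠ 0) :
    Function.Injective fun i => T.φ i s := by
  intro i j hij
  by_contra hne
  have h1 := T.φ_sub i j hne s hs
  have h2 : T.φ i s - T.φ j s = 0 := sub_eq_zero.2 hij
  rw [h2] at h1
  exact mul_ne_zero (pow_ne_zero _ h0) (T.u_ne i j hne s hs) h1.symm

theorem RP_rot (hG : GalPt T) {ζ : ℂ} (hζ : ζ ^ T.N₀ = 1) {s : ℂ} (hs : s ∈ ball (0 : ℂ) T.ρ) :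
    RP T (ζ * s) = RP T s := by
  by_cases h0 : s = 0
  · rw [h0, mul_zero]
  · have hζn : ‖ζ‖ = 1 := by
      have h1 : ‖ζ‖ ^ T.N₀ = 1 := by rw [← norm_pow, hζ, norm_one]
      exact (pow_eq_one_iff_of_nonneg (norm_nonneg _) T.N₀_pos.ne').1 h1
    have hζ0 : ζ ≠ 0 := by
      intro h; rw [h, norm_zero] at hζn; exact zero_ne_one hζn
    have hs' : ζ * s ∈ ball (0 : ℂ) T.ρ := by
      rw [mem_ball, dist_zero_right, norm_mul, hζn, one_mul]
      simpa using hs
    choose τ hτ using hG ζ hζ s hs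
    have hinj : Function.Injective τ := by
      intro i j hij
      have h1 : T.φ i (ζ * s) = T.φ j (ζ * s) := by rw [hτ, hτ, hij]
      exact phi_inj T hs' (mul_ne_zero hζ0 h0) h1
    have hbij : Function.Bijective τ := Finite.injective_iff_bijective.1 hinj
    unfold RP
    calc ∏ j, (X - C (T.φ j (ζ * s))) = ∏ j, (X - C (T.φ (τ j) s)) := by
          refine Finset.prod_congr rfl fun j _ => ?_
          rw [hτ]
      _ = _ := Function.Bijective.prod_comp hbij fun j => (X - C (T.φ j s) : ℂ[X])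

/-- coefficients of products of analytic families are analytic -/
theorem coeff_prod_an {E : Type*} [NormedAddCommGroup E] [NormedSpace ℂ E] {ι : Type*}
    (t : Finset ι) {P : ι → E → ℂ[X]} {x : E}
    (h : ∀ i ∈ t, ∀ n, AnalyticAt ℂ (fun x => (P i x).coeff n) x) (n : ℕ) :
    AnalyticAt ℂ (fun x => (∏ i ∈ t, P i x).coeff n) x := by
  classical
  induction t using Finset.induction generalizing n with
  | empty =>
    simp only [Finset.prod_empty]
    exact analyticAt_const
  | insert a t ha ih =>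
    have h1 : (fun x => (∏ i ∈ insert a t, P i x).coeff n) =
        fun x => ∑ ij ∈ Finset.HasAntidiagonal.antidiagonal n, (P a x).coeff ij.1 * (∏ i ∈ t, P i x).coeff ij.2 := by
      funext x
      rw [Finset.prod_insert ha, coeff_mul]
    rw [h1]
    refine Finset.analyticAt_fun_sum _ fun ij _ => ?_
    exact (h a (Finset.mem_insert_self _ _) _).mul
      (ih (fun i hi => h i (Finset.mem_insert_of_mem hi)) _)

theorem coeff_lin_an {E : Type*} [NormedAddCommGroup E] [NormedSpace ℂ E] {c d : E → ℂ} {x : E}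
    (hc : AnalyticAt ℂ c x) (hd : AnalyticAt ℂ d x) (n : ℕ) :
    AnalyticAt ℂ (fun x => (C (c x) * X + C (d x) : ℂ[X]).coeff n) x := by
  have h1 : (fun x => (C (c x) * X + C (d x) : ℂ[X]).coeff n) =
      fun x => (if n = 1 then c x else 0) + (if n = 0 then d x else 0) := by
    funext x
    rw [coeff_add, coeff_C_mul, coeff_X, coeff_C]
    congr 1
    by_cases h : n = 1
    · simp [h]
    · rw [if_neg h, if_neg (fun h' => h h'.symm), mul_zero]
  rw [h1]
  refine AnalyticAt.add ?_ ?_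
  · split_ifs
    · exact hc
    · exact analyticAt_const
  · split_ifs
    · exact hd
    · exact analyticAt_const

theorem RP_coeff_an (n : ℕ) : AnalyticOnNhd ℂ (fun s => (RP T s).coeff n) (ball 0 T.ρ) := by
  intro s hs
  unfold RP
  refine coeff_prod_an _ (fun j _ n => ?_) n
  have h1 := coeff_lin_an (c := fun _ : ℂ => (1 : ℂ)) (d := fun s => - T.φ j s) (x := s)
    analyticAt_const (T.φ_an j s hs).neg n
  refine h1.congr (Eventually.of_forall fun s => ?_)
  simp [sub_eq_add_neg]

/-- **the reduced polynomial over the `x'`-disc** -/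
theorem exists_Dp (hG : GalPt T) : ∃ Dp : ℂ → ℂ[X],
    (∀ n, AnalyticOnNhd ℂ (fun x => (Dp x).coeff n) (ball 0 (T.ρ ^ T.N₀))) ∧
    (∀ x, (Dp x).natDegree ≤ T.m) ∧
    ∀ s ∈ ball (0 : ℂ) T.ρ, Dp (s ^ T.N₀) = RP T s := by
  choose k hk hke using fun n : ℕ => descend T.N₀_pos T.ρ_pos (RP_coeff_an T n)
    (fun ζ hζ s hs => by
      show (RP T (ζ * s)).coeff n = (RP T s).coeff n
      rw [RP_rot T hG hζ hs])
  refine ⟨fun x => ∑ n ∈ Finset.range (T.m + 1), C (k n x) * X ^ n, ?_, ?_, ?_⟩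
  · intro n x hx
    have h1 : (fun x => (∑ n ∈ Finset.range (T.m + 1), C (k n x) * X ^ n : ℂ[X]).coeff n) =
        fun x => if n ∈ Finset.range (T.m + 1) then k n x else 0 := by
      funext x
      rw [finsetSum_coeff]
      simp only [coeff_C_mul, coeff_X_pow]
      by_cases hn : n ∈ Finset.range (T.m + 1)
      · rw [if_pos hn, Finset.sum_eq_single n]
        · simp
        · intro i _ hi; rw [if_neg (Ne.symm hi), mul_zero]
        · intro h; exact absurd hn h
      · rw [if_neg hn]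
        refine Finset.sum_eq_zero fun i hi => ?_
        rw [if_neg (by rintro rfl; exact hn hi), mul_zero]
    rw [h1]
    split_ifs
    · exact hk n x hx
    · exact analyticAt_const
  · intro x
    refine natDegree_sum_le_of_forall_le _ _ fun n hn => ?_
    refine (natDegree_C_mul_X_pow_le _ _).trans ?_
    have := Finset.mem_range.1 hn
    omega
  · intro s hs
    ext n
    rw [finsetSum_coeff]
    simp only [coeff_C_mul, coeff_X_pow]
    by_cases hn : n < T.m + 1
    · rw [Finset.sum_eq_single n]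
      · simp only [if_true, mul_one]
        exact (hke n s hs).symm
      · intro i _ hi; rw [if_neg (Ne.symm hi), mul_zero]
      · intro h; exact absurd (Finset.mem_range.2 hn) h
    · rw [coeff_eq_zero_of_natDegree_lt (by rw [RP_natDegree]; omega)]
      refine Finset.sum_eq_zero fun i hi => ?_
      have := Finset.mem_range.1 hi
      rw [if_neg (by omega), mul_zero]

end Crest.Agent.R257.CLog_68
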