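import Crest.Agent.R257.CLogB_68

/-!
R257 / CLogC_68 (C-LOG, helper68): the reduced polynomial and its derivatives in the charts.

* `prod_mono`  : `∏_j (y' - φ_j s₀) = a ^ e * b ^ e' * unit`;
* `RP_comp`, `vert_form` : in a vertex chart the `(n_v - 1)`-st derivative is `s₀ ^ e * H`, with
  `∂_w H ≠ 0` on `s₀ = 0`.
-/

set_option autoImplicit false
set_option linter.unusedSectionVars false

open Polynomial Set Filter Topology Metric
open Crest.AlgGeometry.Germ Crest.Agent.R257.AJ387 Crest.Agent.R257.T387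
open Crest.Agent.R257.T0_939 (GalPt)

noncomputable section

namespace Crest.Agent.R257.CLog_68

open Crest.Agent.R257.Defs_219

variable {f : (Fin 3 → ℂ) → ℂ} (T : TB f)

theorem eval_RP (s y : ℂ) : (RP T s).eval y = ∏ j, (y - T.φ j s) := by
  unfold RP
  rw [eval_prod]
  simp

/-- **monomial formula for the product** -/
theorem prod_mono {c : Ch T.m} (hc : T.Valid c) : ∃ r > 0, r ≤ 1 ∧ ∃ U : ℂ × ℂ → ℂ,
    AnalyticOnNhd ℂ U (BD r r) ∧ (∀ p ∈ BD r r, U p ≠ 0) ∧
    ∀ p ∈ BD r r, (T.map0 c p).1 ∈ ball (0 : ℂ) T.ρ ∧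
      (RP T (T.map0 c p).1).eval (T.map0 c p).2 =
        p.1 ^ (∑ j, (T.ex c j).1) * p.2 ^ (∑ j, (T.ex c j).2) * U p := by
  choose r hr U hUa hU0 hU using fun j => T.mono hc j
  obtain ⟨R, hR, hRle⟩ : ∃ R > 0, R ≤ 1 ∧ ∀ j, R ≤ r j := by
    have hne : (Finset.univ : Finset (Fin T.m)).Nonempty := ⟨⟨0, T.m_pos⟩, Finset.mem_univ _⟩
    refine ⟨min 1 (Finset.univ.inf' hne r), lt_min one_pos ?_, min_le_left _ _, fun j => ?_⟩
    · rw [Finset.lt_inf'_iff]; exact fun j _ => hr j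
    · exact (min_le_right _ _).trans (Finset.inf'_le _ (Finset.mem_univ j))
  refine ⟨R, hR, hRle.1, fun p => ∏ j, U j p, ?_, ?_, ?_⟩
  · intro p hp
    exact Finset.analyticAt_fun_prod _ fun j _ => hUa j p (TB.BD_mono (hRle.2 j) hp)
  · intro p hp
    exact Finset.prod_ne_zero_iff.2 fun j _ => hU0 j p (TB.BD_mono (hRle.2 j) hp)
  · intro p hp
    refine ⟨(hU ⟨0, T.m_pos⟩ p (TB.BD_mono (hRle.2 _) hp)).1, ?_⟩
    rw [eval_RP]
    calc ∏ j, ((T.map0 c p).2 - T.φ j (T.map0 c p).1)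
        = ∏ j, (p.1 ^ (T.ex c j).1 * p.2 ^ (T.ex c j).2 * U j p) :=
          Finset.prod_congr rfl fun j _ => (hU j p (TB.BD_mono (hRle.2 j) hp)).2
      _ = _ := by
          rw [Finset.prod_mul_distrib, Finset.prod_mul_distrib, Finset.prod_pow_eq_pow_sum,
            Finset.prod_pow_eq_pow_sum]

/-! ### iterated derivatives -/

theorem iter_comp (R : ℂ[X]) (c d : ℂ) (l : ℕ) :
    derivative^[l] (R.comp (C c + C d * X)) =
      C (d ^ l) * (derivative^[l] R).comp (C c + C d * X) := by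
  induction l with
  | zero => simp
  | succ l ih =>
    rw [Function.iterate_succ_apply', ih, Function.iterate_succ_apply', derivative_mul,
      derivative_C, zero_mul, zero_add, derivative_comp]
    simp only [derivative_add, derivative_C, derivative_mul, derivative_X, zero_mul, zero_add,
      mul_one]
    rw [pow_succ, C_mul]
    ring

theorem eval_iter_natDegree {p : ℂ[X]} {n : ℕ} (hp : p.natDegree ≤ n) (w : ℂ) :
    (derivative^[n] p).eval w = (n.factorial : ℂ) * p.coeff n := by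
  have h1 : (derivative^[n] p).natDegree ≤ 0 := by
    have := natDegree_iterate_derivative p n
    omega
  rw [eq_C_of_natDegree_le_zero h1, eval_C, coeff_iterate_derivative, zero_add,
    Nat.descFactorial_self, nsmul_eq_mul]

section Vertex

variable (i : Fin T.m) (k : ℕ)

open Classical in
/-- the branches through the vertex -/
def Ai : Finset (Fin T.m) := Finset.univ.filter fun j => j = i ∨ k ≤ T.del i j

theorem mem_Ai {j : Fin T.m} : j ∈ Ai T i k ↔ j = i ∨ k ≤ T.del i j := by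
  classical
  simp [Ai]

theorem self_mem_Ai : i ∈ Ai T i k := (mem_Ai T i k).2 (Or.inl rfl)

theorem card_Ai_pos : 0 < (Ai T i k).card := Finset.card_pos.2 ⟨i, self_mem_Ai T i k⟩

open Classical in
/-- `(φ_i - φ_j) / s ^ k` -/
def shf (j : Fin T.m) (s : ℂ) : ℂ := if j = i then 0 else s ^ (T.del i j - k) * T.u i j s

theorem shf_an {j : Fin T.m} {s : ℂ} (hs : s ∈ ball (0 : ℂ) T.ρ) :
    AnalyticAt ℂ (shf T i k j) s := by
  classical
  unfold shf
  by_cases h : j = i
  · simp only [h, if_true]; exact analyticAt_const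
  · simp only [h, if_false]
    exact (analyticAt_id.pow _).mul (T.u_an i j (fun h' => h h'.symm) s hs)

theorem shf_eq {j : Fin T.m} (hj : j ∈ Ai T i k) {s : ℂ} (hs : s ∈ ball (0 : ℂ) T.ρ) :
    T.φ i s - T.φ j s = s ^ k * shf T i k j s := by
  classical
  unfold shf
  by_cases h : j = i
  · simp [h]
  · rw [if_neg h, ← mul_assoc, ← pow_add,
      Nat.add_sub_cancel' (((mem_Ai T i k).1 hj).resolve_left h)]
    exact T.φ_sub i j (fun h' => h h'.symm) s hs

open Classical in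
/-- the polynomial in `w` -/
def Bp (s : ℂ) : ℂ[X] := (∏ j ∈ Ai T i k, (X + C (shf T i k j s))) *
  ∏ j ∈ (Ai T i k)ᶜ, (C (s ^ (k - T.del i j)) * X + C (T.u i j s))

open Classical in
/-- the exponent -/
def ai : ℕ := k * (Ai T i k).card + ∑ j ∈ (Ai T i k)ᶜ, T.del i j

theorem RP_comp {s : ℂ} (hs : s ∈ ball (0 : ℂ) T.ρ) :
    (RP T s).comp (C (T.φ i s) + C (s ^ k) * X) = C (s ^ ai T i k) * Bp T i k s := by
  classical
  have h1 : (RP T s).comp (C (T.φ i s) + C (s ^ k) * X) =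
      ∏ j, (C (T.φ i s - T.φ j s) + C (s ^ k) * X) := by
    unfold RP
    rw [prod_comp]
    refine Finset.prod_congr rfl fun j _ => ?_
    rw [sub_comp, X_comp, C_comp, C_sub]
    ring
  rw [h1, ← Finset.prod_mul_prod_compl (Ai T i k)]
  have h2 : ∏ j ∈ Ai T i k, (C (T.φ i s - T.φ j s) + C (s ^ k) * X) =
      C (s ^ (k * (Ai T i k).card)) * ∏ j ∈ Ai T i k, (X + C (shf T i k j s)) := by
    rw [pow_mul, C_pow (n := (Ai T i k).card), ← Finset.prod_const, ← Finset.prod_mul_distrib]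
    refine Finset.prod_congr rfl fun j hj => ?_
    rw [shf_eq T i k hj hs, C_mul]
    ring
  have h3 : ∏ j ∈ (Ai T i k)ᶜ, (C (T.φ i s - T.φ j s) + C (s ^ k) * X) =
      C (s ^ (∑ j ∈ (Ai T i k)ᶜ, T.del i j)) *
        ∏ j ∈ (Ai T i k)ᶜ, (C (s ^ (k - T.del i j)) * X + C (T.u i j s)) := by
    rw [← Finset.prod_pow_eq_pow_sum, map_prod, ← Finset.prod_mul_distrib]
    refine Finset.prod_congr rfl fun j hj => ?_
    rw [Finset.mem_compl, mem_Ai, not_or, not_le] at hj
    rw [T.φ_sub i j (fun h => hj.1 h.symm) s hs, mul_add, ← mul_assoc, ← C_mul, ← C_mul, ← pow_add,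
      Nat.add_sub_cancel' hj.2.le]
    ring
  rw [h2, h3, Bp, ai, pow_add, C_mul]
  ring

theorem Bp_coeff_an {s : ℂ} (hs : s ∈ ball (0 : ℂ) T.ρ) (n : ℕ) :
    AnalyticAt ℂ (fun s => (Bp T i k s).coeff n) s := by
  classical
  have h1 : ∀ n, AnalyticAt ℂ (fun s => (∏ j ∈ Ai T i k, (X + C (shf T i k j s))).coeff n) s := by
    intro n
    refine coeff_prod_an _ (fun j _ n => ?_) n
    have h2 := coeff_lin_an (c := fun _ : ℂ => (1 : ℂ)) (d := shf T i k j) (x := s)
      analyticAt_const (shf_an T i k hs) n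
    refine h2.congr (Eventually.of_forall fun s => ?_)
    simp
  have h3 : ∀ n, AnalyticAt ℂ (fun s => (∏ j ∈ (Ai T i k)ᶜ,
      (C (s ^ (k - T.del i j)) * X + C (T.u i j s))).coeff n) s := by
    intro n
    refine coeff_prod_an _ (fun j hj n => ?_) n
    rw [Finset.mem_compl, mem_Ai, not_or, not_le] at hj
    exact coeff_lin_an (analyticAt_id.pow _) (T.u_an i j (fun h => hj.1 h.symm) s hs) n
  have h4 : (fun s => (Bp T i k s).coeff n) = fun s => ∑ ij ∈ Finset.HasAntidiagonal.antidiagonal n,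
      (∏ j ∈ Ai T i k, (X + C (shf T i k j s))).coeff ij.1 * (∏ j ∈ (Ai T i k)ᶜ,
      (C (s ^ (k - T.del i j)) * X + C (T.u i j s))).coeff ij.2 := by
    funext s
    rw [Bp, coeff_mul]
  rw [h4]
  exact Finset.analyticAt_fun_sum _ fun ij _ => (h1 _).mul (h3 _)

theorem Bp_natDegree (s : ℂ) : (Bp T i k s).natDegree ≤ T.m := by
  classical
  have h1 : (∏ j ∈ Ai T i k, (X + C (shf T i k j s))).natDegree ≤ (Ai T i k).card := by
    refine (natDegree_prod_le _ _).trans ?_
    refine (Finset.sum_le_card_nsmul _ _ 1 fun j _ => ?_).trans (by simp)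
    exact (natDegree_X_add_C _).le
  have h2 : (∏ j ∈ (Ai T i k)ᶜ, (C (s ^ (k - T.del i j)) * X + C (T.u i j s))).natDegree ≤
      ((Ai T i k)ᶜ).card := by
    refine (natDegree_prod_le _ _).trans ?_
    refine (Finset.sum_le_card_nsmul _ _ 1 fun j _ => ?_).trans (by simp)
    exact natDegree_linear_le
  have h3 : (Ai T i k).card + ((Ai T i k)ᶜ).card = T.m := by
    rw [Finset.card_add_card_compl]; simp
  unfold Bp
  refine natDegree_mul_le.trans ?_
  omega

theorem Bp_zero : (Bp T i k 0).natDegree ≤ (Ai T i k).card ∧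
    (Bp T i k 0).coeff (Ai T i k).card ≠ 0 := by
  classical
  have h1 : Bp T i k 0 = (∏ j ∈ Ai T i k, (X + C (shf T i k j 0))) *
      C (∏ j ∈ (Ai T i k)ᶜ, T.u i j 0) := by
    unfold Bp
    rw [map_prod]
    congr 1
    refine Finset.prod_congr rfl fun j hj => ?_
    rw [Finset.mem_compl, mem_Ai, not_or, not_le] at hj
    rw [zero_pow (by omega), C_0, zero_mul, zero_add]
  have hm : (∏ j ∈ Ai T i k, (X + C (shf T i k j 0))).Monic :=
    monic_prod_of_monic _ _ fun j _ => monic_X_add_C _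
  have hd : (∏ j ∈ Ai T i k, (X + C (shf T i k j 0))).natDegree = (Ai T i k).card := by
    rw [natDegree_prod_of_monic _ _ fun j _ => monic_X_add_C _]
    simp
  have hu : ∏ j ∈ (Ai T i k)ᶜ, T.u i j 0 ≠ 0 := by
    refine Finset.prod_ne_zero_iff.2 fun j hj => ?_
    rw [Finset.mem_compl, mem_Ai, not_or, not_le] at hj
    exact T.u_ne i j (fun h => hj.1 h.symm) 0 (mem_ball_self T.ρ_pos)
  rw [h1]
  refine ⟨(natDegree_mul_C_le _ _).trans hd.le, ?_⟩
  rw [coeff_mul_C, ← hd, hm.coeff_natDegree, one_mul]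
  exact hu

/-- the function `H` -/
def Hv (p : ℂ × ℂ) : ℂ := (derivative^[(Ai T i k).card - 1] (Bp T i k p.1)).eval p.2

theorem iter_coeff_an {s : ℂ} (hs : s ∈ ball (0 : ℂ) T.ρ) (l n : ℕ) :
    AnalyticAt ℂ (fun s => (derivative^[l] (Bp T i k s)).coeff n) s := by
  have h1 : (fun s => (derivative^[l] (Bp T i k s)).coeff n) =
      fun s => ((n + l).descFactorial l : ℂ) * (Bp T i k s).coeff (n + l) := by
    funext s
    rw [coeff_iterate_derivative, nsmul_eq_mul]
  rw [h1]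
  exact analyticAt_const.mul (Bp_coeff_an T i k hs _)

theorem eval_an {E : Type*} [NormedAddCommGroup E] [NormedSpace ℂ E] {P : E → ℂ[X]} {D : ℕ}
    (hD : ∀ x, (P x).natDegree ≤ D) {g : E → ℂ} {x : E}
    (hc : ∀ n, AnalyticAt ℂ (fun x => (P x).coeff n) x) (hg : AnalyticAt ℂ g x) :
    AnalyticAt ℂ (fun x => (P x).eval (g x)) x := by
  have h1 : (fun x => (P x).eval (g x)) =
      fun x => ∑ n ∈ Finset.range (D + 1), (P x).coeff n * g x ^ n := by
    funext x
    exact eval_eq_sum_range' (Nat.lt_succ_of_le (hD x)) _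
  rw [h1]
  exact Finset.analyticAt_fun_sum _ fun n _ => (hc n).mul (hg.pow n)

theorem iter_an {l : ℕ} {p : ℂ × ℂ} (hp : p.1 ∈ ball (0 : ℂ) T.ρ) :
    AnalyticAt ℂ (fun p : ℂ × ℂ => (derivative^[l] (Bp T i k p.1)).eval p.2) p := by
  refine eval_an (P := fun p : ℂ × ℂ => derivative^[l] (Bp T i k p.1)) (D := T.m) (fun x => ?_)
    (fun n => ?_) analyticAt_snd
  · exact ((natDegree_iterate_derivative _ _).trans (Nat.sub_le _ _)).trans (Bp_natDegree T i k _)
  · exact AnalyticAt.comp (g := fun s => (derivative^[l] (Bp T i k s)).coeff n)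
      (iter_coeff_an T i k hp l n) analyticAt_fst

theorem Hv_fderiv {p : ℂ × ℂ} (hp : p.1 ∈ ball (0 : ℂ) T.ρ) :
    fderiv ℂ (Hv T i k) p (0, 1) = (derivative^[(Ai T i k).card] (Bp T i k p.1)).eval p.2 := by
  have h1 : HasFDerivAt (Hv T i k) (fderiv ℂ (Hv T i k) p) p :=
    (iter_an T i k hp).differentiableAt.hasFDerivAt
  have h2 : HasDerivAt (fun z : ℂ => ((p.1, z) : ℂ × ℂ)) ((0 : ℂ), (1 : ℂ)) p.2 :=
    (hasDerivAt_const p.2 p.1).prodMk (hasDerivAt_id p.2)
  have h3 : HasDerivAt (fun z : ℂ => Hv T i k (p.1, z)) (fderiv ℂ (Hv T i k) p (0, 1)) p.2 :=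
    HasFDerivAt.comp_hasDerivAt (x := p.2) (f := fun z : ℂ => ((p.1, z) : ℂ × ℂ))
      (l := Hv T i k) h1 h2
  have h4 : HasDerivAt (fun z : ℂ => Hv T i k (p.1, z))
      ((derivative (derivative^[(Ai T i k).card - 1] (Bp T i k p.1))).eval p.2) p.2 :=
    Polynomial.hasDerivAt (derivative^[(Ai T i k).card - 1] (Bp T i k p.1)) p.2
  rw [h3.unique h4, ← Function.iterate_succ_apply' derivative, Nat.succ_eq_add_one,
    Nat.sub_add_cancel (card_Ai_pos T i k)]

theorem Hv_zero (w : ℂ) : fderiv ℂ (Hv T i k) (0, w) (0, 1) ≠ 0 := by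
  rw [Hv_fderiv T i k (mem_ball_self T.ρ_pos), eval_iter_natDegree (Bp_zero T i k).1]
  exact mul_ne_zero (by exact_mod_cast Nat.factorial_ne_zero _) (Bp_zero T i k).2

/-- **vertex formula** -/
theorem vert_form {s : ℂ} (hs : s ∈ ball (0 : ℂ) T.ρ) (h0 : s ≠ 0) (w : ℂ) :
    (derivative^[(Ai T i k).card - 1] (RP T s)).eval (T.φ i s + s ^ k * w) =
      s ^ (ai T i k - k * ((Ai T i k).card - 1)) * Hv T i k (s, w) := by
  set l := (Ai T i k).card - 1 with hl
  have h1 := congrArg (fun p : ℂ[X] => (derivative^[l] p).eval w) (RP_comp T i k hs)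
  rw [iter_comp, iterate_derivative_C_mul, eval_mul, eval_mul, eval_C, eval_C, eval_comp, eval_add,
    eval_mul, eval_C, eval_C, eval_X] at h1
  have h2 : k * l ≤ ai T i k := by
    have h3 : k * l ≤ k * (Ai T i k).card := Nat.mul_le_mul_left _ (by omega)
    unfold ai
    omega
  have h3 : s ^ ai T i k = (s ^ k) ^ l * s ^ (ai T i k - k * l) := by
    rw [← pow_mul, ← pow_add, Nat.add_sub_cancel' h2]
  rw [h3, mul_assoc] at h1
  exact mul_left_cancel₀ (pow_ne_zero _ (pow_ne_zero _ h0)) h1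

end Vertex

end Crest.Agent.R257.CLog_68
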