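import Crest.Agent.R257.CLogC_68
import Crest.Agent.R257.Fr7_808

/-!
R257 / CLogD_68 (C-LOG, helper68): plane functions in the charts.

* `pl T g`     : the function `g (x', y')` on `ℂ³`;  `X1 = pl fst`, `Y1 = pl snd`;
* `WT`, `Tm`   : the sum of squares of a system `{Q, x'^M, y'^M}`, and the quotient
                 `‖Dt f Q Q'‖² / (WT * WT')`;
* `DpD`, `Dl`  : the family `Dp` and its derivatives;
* `locA`       : the lower bound near a point where the chart is `(σ, φ_i + σ^k W)`;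
* `locB`       : the lower bound at the nodes.
-/

set_option autoImplicit false
set_option linter.unusedSectionVars false

open Polynomial Set Filter Topology Metric
open Crest.AlgGeometry.Germ Crest.Agent.R257.AJ387 Crest.Agent.R257.T387
open Crest.Agent.R257.T0_939 (GalPt)

noncomputable section

namespace Crest.Agent.R257.CLog_68

open Crest.Agent.R257.Defs_219
open Crest.Agent.R257.Fr_808 (jc jc_eq jac2)

variable {f : (Fin 3 → ℂ) → ℂ} (T : TB f)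

/-! ### plane functions -/

/-- a function of `(x', y')` on `ℂ³` -/
def pl (g : ℂ × ℂ → ℂ) (x : E3) : ℂ := g (T.A.symm (x 1, x 2))

/-- `x'` -/
def X1 : E3 → ℂ := pl T Prod.fst

/-- `y'` -/
def Y1 : E3 → ℂ := pl T Prod.snd

/-- the chart in the `(x', y')`-plane -/
def pm (c : Ch T.m) (p : ℂ × ℂ) : ℂ × ℂ := ((T.map c p).1 ^ T.N, (T.map c p).2)

theorem pl_th (g : ℂ × ℂ → ℂ) (c : Ch T.m) (z : ℂ × ℂ → ℂ) (p : ℂ × ℂ) :
    pl T g (T.th c z p) = g (pm T c p) := by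
  have h1 : ((T.th c z p) 1, (T.th c z p) 2) = T.A (pm T c p) := rfl
  unfold pl
  rw [h1, ContinuousLinearEquiv.symm_apply_apply]

theorem symm_an (x : E3) : AnalyticAt ℂ (fun x : E3 => T.A.symm (x 1, x 2)) x := by
  have h1 : AnalyticAt ℂ (fun x : E3 => ((x 1, x 2) : ℂ × ℂ)) x :=
    ((ContinuousLinearMap.proj (R := ℂ) (φ := fun _ : Fin 3 => ℂ) 1).analyticAt x).prod
      ((ContinuousLinearMap.proj (R := ℂ) (φ := fun _ : Fin 3 => ℂ) 2).analyticAt x)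
  exact AnalyticAt.comp (g := fun q => T.A.symm q) (f := fun x : E3 => ((x 1, x 2) : ℂ × ℂ))
    (T.A.symm.toContinuousLinearMap.analyticAt _) h1

theorem pl_an {g : ℂ × ℂ → ℂ} {x : E3} (hg : AnalyticAt ℂ g (T.A.symm (x 1, x 2))) :
    AnalyticAt ℂ (pl T g) x :=
  AnalyticAt.comp (g := g) (f := fun x : E3 => T.A.symm (x 1, x 2)) hg (symm_an T x)

theorem symm_zero : T.A.symm ((0 : E3) 1, (0 : E3) 2) = 0 := by
  have : (((0 : E3) 1, (0 : E3) 2) : ℂ × ℂ) = 0 := rfl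
  rw [this, map_zero]

theorem pl_an0 {g : ℂ × ℂ → ℂ} (hg : AnalyticAt ℂ g 0) : AnalyticAt ℂ (pl T g) 0 :=
  pl_an T (by rw [symm_zero]; exact hg)

theorem pl_zero {g : ℂ × ℂ → ℂ} : pl T g 0 = g 0 := by
  unfold pl
  rw [symm_zero]

theorem X1_an (x : E3) : AnalyticAt ℂ (X1 T) x := pl_an T analyticAt_fst

theorem Y1_an (x : E3) : AnalyticAt ℂ (Y1 T) x := pl_an T analyticAt_snd

theorem X1_zero : X1 T 0 = 0 := pl_zero T

theorem Y1_zero : Y1 T 0 = 0 := pl_zero T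

/-- the sum of squares of the system `{Q, x'^M, y'^M}` -/
def WT (M : ℕ) (Q : E3 → ℂ) (x : E3) : ℝ := ‖Q x‖ ^ 2 + ‖X1 T x ^ M‖ ^ 2 + ‖Y1 T x ^ M‖ ^ 2

/-- the term of `J2` -/
def Tm (M : ℕ) (Q : E3 → ℂ) (M' : ℕ) (Q' : E3 → ℂ) (x : E3) : ℝ :=
  ‖Dt f Q Q' x‖ ^ 2 / (WT T M Q x * WT T M' Q' x)

/-- derived families -/
def Dl (Dp : ℂ → ℂ[X]) (l : ℕ) (q : ℂ × ℂ) : ℂ := (derivative^[l] (Dp q.1)).eval q.2

/-- the properties of the family `Dp` -/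
structure DpD (Dp : ℂ → ℂ[X]) : Prop where
  an : ∀ n, AnalyticOnNhd ℂ (fun x => (Dp x).coeff n) (ball 0 (T.ρ ^ T.N₀))
  deg : ∀ x, (Dp x).natDegree ≤ T.m
  eq : ∀ s ∈ ball (0 : ℂ) T.ρ, Dp (s ^ T.N₀) = RP T s

theorem exists_DpD (hG : GalPt T) : ∃ Dp, DpD T Dp := by
  obtain ⟨Dp, h1, h2, h3⟩ := exists_Dp T hG
  exact ⟨Dp, h1, h2, h3⟩

variable {T}

theorem Dl_an {Dp : ℂ → ℂ[X]} (hD : DpD T Dp) (l : ℕ) {q : ℂ × ℂ}
    (hq : q.1 ∈ ball (0 : ℂ) (T.ρ ^ T.N₀)) : AnalyticAt ℂ (Dl Dp l) q := by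
  refine eval_an (P := fun p : ℂ × ℂ => derivative^[l] (Dp p.1)) (D := T.m) (fun x => ?_)
    (fun n => ?_) analyticAt_snd
  · exact ((natDegree_iterate_derivative _ _).trans (Nat.sub_le _ _)).trans (hD.deg _)
  · have h1 : (fun p : ℂ × ℂ => (derivative^[l] (Dp p.1)).coeff n) =
        fun p : ℂ × ℂ => ((n + l).descFactorial l : ℂ) * (Dp p.1).coeff (n + l) := by
      funext p
      rw [coeff_iterate_derivative, nsmul_eq_mul]
    rw [h1]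
    exact analyticAt_const.mul (AnalyticAt.comp (g := fun x => (Dp x).coeff (n + l))
      (hD.an _ _ hq) analyticAt_fst)

theorem Dl_an0 {Dp : ℂ → ℂ[X]} (hD : DpD T Dp) (l : ℕ) : AnalyticAt ℂ (Dl Dp l) 0 :=
  Dl_an hD l (by
    rw [mem_ball, Prod.fst_zero, dist_self]
    exact pow_pos T.ρ_pos _)

theorem Dl_zero {Dp : ℂ → ℂ[X]} (hD : DpD T Dp) {l : ℕ} (hl : l < T.m) : Dl Dp l 0 = 0 := by
  unfold Dl
  have h1 : Dp 0 = X ^ T.m := by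
    have := hD.eq 0 (mem_ball_self T.ρ_pos)
    rw [zero_pow T.N₀_pos.ne'] at this
    rw [this, RP]
    simp only [T.φ_zero, C_0, sub_zero, Finset.prod_const, Finset.card_univ, Fintype.card_fin]
  rw [Prod.fst_zero, Prod.snd_zero, h1, iterate_derivative_X_pow_eq_natCast_mul, eval_mul,
    eval_pow, eval_X, zero_pow (by omega), mul_zero]

/-! ### local computations -/

theorem jc_powl {σ F : ℂ × ℂ → ℂ} {p : ℂ × ℂ} (hσ : DifferentiableAt ℂ σ p) (n : ℕ) :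
    jc (fun p => σ p ^ n) F p = n * σ p ^ (n - 1) * jc σ F p := by
  have h1 := hσ.hasFDerivAt.pow n
  unfold jc
  rw [h1.fderiv]
  simp only [smul_apply, smul_eq_mul, nsmul_eq_mul]
  ring

/-- `jc σ (G(σ, W)) = ∂₂G * jc σ W` -/
theorem jc_comp {σ W : ℂ × ℂ → ℂ} {G : ℂ × ℂ → ℂ} {p : ℂ × ℂ} (hσ : DifferentiableAt ℂ σ p)
    (hW : DifferentiableAt ℂ W p) (hG : DifferentiableAt ℂ G (σ p, W p)) :
    jc σ (fun p => G (σ p, W p)) p = fderiv ℂ G (σ p, W p) (0, 1) * jc σ W p := by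
  have h1 : HasFDerivAt (fun p => G (σ p, W p))
      ((fderiv ℂ G (σ p, W p)).comp ((fderiv ℂ σ p).prod (fderiv ℂ W p))) p :=
    hG.hasFDerivAt.comp p (hσ.hasFDerivAt.prodMk hW.hasFDerivAt)
  have h2 : ∀ v : ℂ × ℂ, fderiv ℂ G (σ p, W p) v =
      v.1 * fderiv ℂ G (σ p, W p) (1, 0) + v.2 * fderiv ℂ G (σ p, W p) (0, 1) := by
    intro v
    have h3 : v = v.1 • ((1 : ℂ), (0 : ℂ)) + v.2 • ((0 : ℂ), (1 : ℂ)) := by
      ext <;> simp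
    conv_lhs => rw [h3, map_add, map_smul, map_smul]
    rfl
  unfold jc
  rw [h1.fderiv]
  simp only [ContinuousLinearMap.comp_apply, ContinuousLinearMap.prod_apply]
  rw [h2 (fderiv ℂ σ p (0, 1), fderiv ℂ W p (0, 1)), h2 (fderiv ℂ σ p (1, 0), fderiv ℂ W p (1, 0))]
  ring

theorem phi_le (i : Fin T.m) : ∃ C : ℝ, 0 ≤ C ∧ ∀ᶠ s in 𝓝 (0 : ℂ), ‖T.φ i s‖ ≤ C * ‖s‖ := by
  have h1 : DifferentiableAt ℂ (T.φ i) 0 := (T.φ_an i 0 (mem_ball_self T.ρ_pos)).differentiableAt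
  have h2 := h1.isBigO_sub
  obtain ⟨C, hC⟩ := h2.bound
  refine ⟨max C 0, le_max_right _ _, ?_⟩
  filter_upwards [hC] with s hs
  rw [T.φ_zero, sub_zero, sub_zero] at hs
  exact hs.trans (mul_le_mul_of_nonneg_right (le_max_left _ _) (norm_nonneg _))

theorem WT_nonneg (M : ℕ) (Q : E3 → ℂ) (x : E3) : 0 ≤ WT T M Q x := by
  unfold WT; positivity

theorem WT_pos {M : ℕ} {Q : E3 → ℂ} {x : E3} (h : X1 T x ≠ 0 ∨ Y1 T x ≠ 0) : 0 < WT T M Q x := by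
  unfold WT
  rcases h with h | h
  · have : 0 < ‖X1 T x ^ M‖ ^ 2 := by
      have := norm_pos_iff.2 (pow_ne_zero M h)
      positivity
    positivity
  · have : 0 < ‖Y1 T x ^ M‖ ^ 2 := by
      have := norm_pos_iff.2 (pow_ne_zero M h)
      positivity
    positivity

theorem WT_le {M : ℕ} {Q : E3 → ℂ} {x : E3} {t C₁ C₂ C₃ : ℝ} (h1 : ‖Q x‖ ≤ C₁ * t)
    (h2 : ‖X1 T x‖ ^ M ≤ C₂ * t) (h3 : ‖Y1 T x‖ ^ M ≤ C₃ * t) :
    WT T M Q x ≤ (C₁ ^ 2 + C₂ ^ 2 + C₃ ^ 2) * t ^ 2 := by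
  unfold WT
  rw [norm_pow, norm_pow]
  have e1 := pow_le_pow_left₀ (norm_nonneg _) h1 2
  have e2 := pow_le_pow_left₀ (by positivity) h2 2
  have e3 := pow_le_pow_left₀ (by positivity) h3 2
  nlinarith [e1, e2, e3]

theorem quot_ge {A a t t' W W' C C' : ℝ} (ha : 0 ≤ a) (ht : 0 < t) (ht' : 0 < t')
    (hA : a * (t * t') ≤ A) (hW : 0 < W) (hW' : 0 < W') (hC : 0 < C) (hC' : 0 < C')
    (h1 : W ≤ C * t ^ 2) (h2 : W' ≤ C' * t' ^ 2) :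
    a ^ 2 / (C * C') ≤ A ^ 2 / (W * W') := by
  have h3 : W * W' ≤ (C * C') * (t * t') ^ 2 := by
    calc W * W' ≤ (C * t ^ 2) * (C' * t' ^ 2) := mul_le_mul h1 h2 hW'.le (by positivity)
      _ = _ := by ring
  have h4 : a ^ 2 * (t * t') ^ 2 ≤ A ^ 2 := by
    rw [← mul_pow]
    exact pow_le_pow_left₀ (by positivity) hA 2
  rw [div_le_div_iff₀ (by positivity) (by positivity)]
  calc a ^ 2 * (W * W') ≤ a ^ 2 * ((C * C') * (t * t') ^ 2) :=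
        mul_le_mul_of_nonneg_left h3 (by positivity)
    _ = (a ^ 2 * (t * t') ^ 2) * (C * C') := by ring
    _ ≤ A ^ 2 * (C * C') := mul_le_mul_of_nonneg_right h4 (by positivity)

/-- a continuous function is bounded near a point -/
theorem bd_near {F : ℂ × ℂ → ℂ} {p₀ : ℂ × ℂ} (h : ContinuousAt F p₀) :
    ∃ C : ℝ, 0 ≤ C ∧ ∀ᶠ p in 𝓝 p₀, ‖F p‖ ≤ C := by
  refine ⟨‖F p₀‖ + 1, by positivity, ?_⟩
  exact (h.norm.eventually_lt continuousAt_const (by simp)).mono fun p hp => hp.le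

/-- a continuous function which does not vanish at a point is bounded below -/
theorem low_near {F : ℂ × ℂ → ℂ} {p₀ : ℂ × ℂ} (h : ContinuousAt F p₀) (h0 : F p₀ ≠ 0) :
    ∃ c : ℝ, 0 < c ∧ ∀ᶠ p in 𝓝 p₀, c ≤ ‖F p‖ := by
  have h1 := norm_pos_iff.2 h0
  refine ⟨‖F p₀‖ / 2, by positivity, ?_⟩
  exact (continuousAt_const.eventually_lt h.norm (by linarith)).mono fun p hp => hp.le

theorem jc_an {u w : ℂ × ℂ → ℂ} {p : ℂ × ℂ} (hu : AnalyticAt ℂ u p) (hw : AnalyticAt ℂ w p) :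
    AnalyticAt ℂ (jc u w) p := by
  have hd : ∀ {G : ℂ × ℂ → ℂ} (_ : AnalyticAt ℂ G p) (v : ℂ × ℂ),
      AnalyticAt ℂ (fun p => fderiv ℂ G p v) p := by
    intro G hG v
    have h1 : AnalyticAt ℂ (fderiv ℂ G) p := hG.fderiv
    have h2 := (ContinuousLinearMap.apply ℂ ℂ v).analyticAt (fderiv ℂ G p)
    exact h2.comp h1
  exact ((hd hu _).mul (hd hw _)).sub ((hd hu _).mul (hd hw _))

theorem jc_congr {u w u' w' : ℂ × ℂ → ℂ} {p : ℂ × ℂ} (hu : u =ᶠ[𝓝 p] u') (hw : w =ᶠ[𝓝 p] w') :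
    jc u w p = jc u' w' p := by
  unfold jc
  rw [hu.fderiv_eq, hw.fderiv_eq]

/-- the exponent of the derivative of `D` at the vertex `(i, k)` -/
def eA (T : TB f) (i : Fin T.m) (k : ℕ) : ℕ := ai T i k - k * ((Ai T i k).card - 1)

theorem le_eA (i : Fin T.m) (k : ℕ) : k ≤ eA T i k := by
  unfold eA ai
  have h1 := card_Ai_pos T i k
  obtain ⟨n, hn⟩ := Nat.exists_eq_add_of_lt h1
  rw [zero_add] at hn
  rw [hn, Nat.add_sub_cancel, Nat.mul_add, mul_one]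
  omega

/-- the function used at the vertex `(i, k)` -/
def QA (T : TB f) (Dp : ℂ → ℂ[X]) (i : Fin T.m) (k : ℕ) : E3 → ℂ :=
  pl T (Dl Dp ((Ai T i k).card - 1))

/-- **lower bound near a point where the chart is `(σ, φ_i + σ^k W)`** -/
theorem locA {Dp : ℂ → ℂ[X]} (hD : DpD T Dp) {c : Ch T.m} {z : ℂ × ℂ → ℂ} {p₀ : ℂ × ℂ}
    {i : Fin T.m} {k : ℕ} (hk : 0 < k) {σ W : ℂ × ℂ → ℂ} (hσ : AnalyticAt ℂ σ p₀)
    (hW : AnalyticAt ℂ W p₀) (hσ0 : σ p₀ = 0)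
    (hmap : ∀ᶠ p in 𝓝 p₀, T.map c p = (σ p, T.φ i (σ p ^ T.M) + σ p ^ (T.M * k) * W p))
    (hjc : jc σ W p₀ ≠ 0) : ∃ κ : ℝ, 0 < κ ∧ ∀ᶠ p in 𝓝 p₀, σ p ≠ 0 →
      κ ≤ (‖jc (fun p => X1 T (T.th c z p)) (fun p => QA T Dp i k (T.th c z p)) p‖ * ‖σ p‖) ^ 2 /
        (WT T T.N₀ (X1 T) (T.th c z p) * WT T (eA T i k) (QA T Dp i k) (T.th c z p)) := by
  set l := (Ai T i k).card - 1 with hl
  set e := eA T i k with he
  have hM := T.M_pos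
  have hN := T.N_pos
  have hN₀ := T.N₀_pos
  have he1 : 1 ≤ e := hk.trans_le (le_eA i k)
  -- small `σ`
  have hσt : Tendsto σ (𝓝 p₀) (𝓝 0) := by
    have := hσ.continuousAt.tendsto
    rwa [hσ0] at this
  have hσM : Tendsto (fun p => σ p ^ T.M) (𝓝 p₀) (𝓝 0) := by
    have := hσt.pow T.M
    rwa [zero_pow hM.ne'] at this
  have hball : ∀ᶠ p in 𝓝 p₀, σ p ^ T.M ∈ ball (0 : ℂ) T.ρ :=
    hσM.eventually (ball_mem_nhds _ T.ρ_pos)
  have hσ1 : ∀ᶠ p in 𝓝 p₀, ‖σ p‖ < 1 := by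
    have := hσt.eventually (ball_mem_nhds (0 : ℂ) one_pos)
    simpa using this
  -- the function `G`
  set G : ℂ × ℂ → ℂ := fun q => (q.1 ^ T.M) ^ e * Hv T i k (q.1 ^ T.M, q.2) with hG
  have hGan : ∀ q : ℂ × ℂ, q.1 ^ T.M ∈ ball (0 : ℂ) T.ρ → AnalyticAt ℂ G q := by
    intro q hq
    refine ((analyticAt_fst.pow _).pow _).mul ?_
    exact AnalyticAt.comp (g := Hv T i k) (f := fun q : ℂ × ℂ => ((q.1 ^ T.M, q.2) : ℂ × ℂ))
      (iter_an T i k hq) ((analyticAt_fst.pow _).prod analyticAt_snd)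
  have hG2 : ∀ q : ℂ × ℂ, q.1 ^ T.M ∈ ball (0 : ℂ) T.ρ →
      fderiv ℂ G q (0, 1) = (q.1 ^ T.M) ^ e * fderiv ℂ (Hv T i k) (q.1 ^ T.M, q.2) (0, 1) := by
    intro q hq
    have h2 : HasDerivAt (fun z : ℂ => ((q.1, z) : ℂ × ℂ)) ((0 : ℂ), (1 : ℂ)) q.2 :=
      (hasDerivAt_const q.2 q.1).prodMk (hasDerivAt_id q.2)
    have h2' : HasDerivAt (fun z : ℂ => ((q.1 ^ T.M, z) : ℂ × ℂ)) ((0 : ℂ), (1 : ℂ)) q.2 :=
      (hasDerivAt_const q.2 (q.1 ^ T.M)).prodMk (hasDerivAt_id q.2)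
    have h3 : HasDerivAt (fun z : ℂ => G (q.1, z)) (fderiv ℂ G q (0, 1)) q.2 :=
      HasFDerivAt.comp_hasDerivAt (x := q.2) (f := fun z : ℂ => ((q.1, z) : ℂ × ℂ)) (l := G)
        (hGan q hq).differentiableAt.hasFDerivAt h2
    have h4 : HasDerivAt (fun z : ℂ => Hv T i k (q.1 ^ T.M, z))
        (fderiv ℂ (Hv T i k) (q.1 ^ T.M, q.2) (0, 1)) q.2 :=
      HasFDerivAt.comp_hasDerivAt (x := q.2) (f := fun z : ℂ => ((q.1 ^ T.M, z) : ℂ × ℂ))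
        (l := Hv T i k) (iter_an (l := (Ai T i k).card - 1) T i k
          (p := (q.1 ^ T.M, q.2)) hq).differentiableAt.hasFDerivAt h2'
    exact h3.unique (h4.const_mul ((q.1 ^ T.M) ^ e))
  -- the values of the functions
  have hX : ∀ᶠ p in 𝓝 p₀, X1 T (T.th c z p) = σ p ^ T.N := by
    filter_upwards [hmap] with p hp
    rw [X1, pl_th, pm, hp]
  have hY : ∀ᶠ p in 𝓝 p₀, Y1 T (T.th c z p) = T.φ i (σ p ^ T.M) + σ p ^ (T.M * k) * W p := by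
    filter_upwards [hmap] with p hp
    rw [Y1, pl_th, pm, hp]
  have hQ : ∀ᶠ p in 𝓝 p₀, σ p ≠ 0 → QA T Dp i k (T.th c z p) = G (σ p, W p) := by
    filter_upwards [hmap, hball] with p hp hb h0
    have e1 : σ p ^ T.N = (σ p ^ T.M) ^ T.N₀ := by
      rw [← pow_mul, TB.N, mul_comm]
    rw [QA, pl_th, pm, hp, Dl]
    simp only
    rw [e1, hD.eq _ hb, pow_mul, vert_form T i k hb (pow_ne_zero _ h0)]
    rfl
  -- the Jacobian
  have hJ : ∀ᶠ p in 𝓝 p₀, σ p ≠ 0 →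
      jc (fun p => X1 T (T.th c z p)) (fun p => QA T Dp i k (T.th c z p)) p =
        T.N * σ p ^ (T.N - 1) * ((σ p ^ T.M) ^ e *
          fderiv ℂ (Hv T i k) (σ p ^ T.M, W p) (0, 1) * jc σ W p) := by
    filter_upwards [hX.eventually_nhds, hQ.eventually_nhds, hball, hσ.eventually_analyticAt,
      hW.eventually_analyticAt] with p h1 h2 hb h3 h4 h0
    have h5 : ∀ᶠ p' in 𝓝 p, σ p' ≠ 0 := h3.continuousAt.eventually_ne h0
    have h6 : (fun p => QA T Dp i k (T.th c z p)) =ᶠ[𝓝 p] fun p => G (σ p, W p) := by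
      filter_upwards [h2, h5] with p' a b using a b
    rw [jc_congr (h1 : (fun p => X1 T (T.th c z p)) =ᶠ[𝓝 p] fun p => σ p ^ T.N) h6,
      jc_powl h3.differentiableAt, jc_comp h3.differentiableAt h4.differentiableAt
        (hGan _ hb).differentiableAt, hG2 _ hb]
  -- bounds
  obtain ⟨a, ha, hlow⟩ := low_near (F := fun p =>
      fderiv ℂ (Hv T i k) (σ p ^ T.M, W p) (0, 1) * jc σ W p) (p₀ := p₀) (by
    refine ContinuousAt.mul ?_ (jc_an hσ hW).continuousAt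
    have h1 : ContinuousAt (fun q => fderiv ℂ (Hv T i k) q (0, 1)) (σ p₀ ^ T.M, W p₀) := by
      have h2 : AnalyticAt ℂ (fderiv ℂ (Hv T i k)) (σ p₀ ^ T.M, W p₀) :=
        (iter_an (l := (Ai T i k).card - 1) T i k (p := (σ p₀ ^ T.M, W p₀)) (by
          rw [hσ0]; simp only; rw [zero_pow hM.ne']; exact mem_ball_self T.ρ_pos)).fderiv
      exact ((ContinuousLinearMap.apply ℂ ℂ ((0 : ℂ), (1 : ℂ))).continuous.continuousAt).comp
        h2.continuousAt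
    exact ContinuousAt.comp (g := fun q => fderiv ℂ (Hv T i k) q (0, 1))
      (f := fun p => ((σ p ^ T.M, W p) : ℂ × ℂ)) h1
      ((hσ.continuousAt.pow _).prodMk hW.continuousAt)) (by
    rw [hσ0, zero_pow hM.ne']
    exact mul_ne_zero (Hv_zero T i k _) hjc)
  obtain ⟨Cw, hCw, hWb⟩ := bd_near hW.continuousAt
  obtain ⟨CH, hCH, hHb⟩ := bd_near (F := fun p => Hv T i k (σ p ^ T.M, W p)) (p₀ := p₀) (by
    have h1 : ContinuousAt (Hv T i k) (σ p₀ ^ T.M, W p₀) :=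
      (iter_an (l := (Ai T i k).card - 1) T i k (p := (σ p₀ ^ T.M, W p₀)) (by
          rw [hσ0]; simp only; rw [zero_pow hM.ne']; exact mem_ball_self T.ρ_pos)).continuousAt
    exact ContinuousAt.comp (g := Hv T i k) (f := fun p => ((σ p ^ T.M, W p) : ℂ × ℂ)) h1
      ((hσ.continuousAt.pow _).prodMk hW.continuousAt))
  obtain ⟨Cφ, hCφ, hφ⟩ := phi_le (T := T) i
  have hφ' : ∀ᶠ p in 𝓝 p₀, ‖T.φ i (σ p ^ T.M)‖ ≤ Cφ * ‖σ p ^ T.M‖ := hσM.eventually hφ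
  set CY := Cφ + Cw with hCY
  have hYb : ∀ᶠ p in 𝓝 p₀, ‖Y1 T (T.th c z p)‖ ≤ CY * ‖σ p‖ ^ T.M := by
    filter_upwards [hY, hφ', hWb, hσ1] with p h1 h2 h3 h4
    rw [h1]
    refine (norm_add_le _ _).trans ?_
    rw [norm_mul, norm_pow, pow_mul, hCY, add_mul]
    rw [norm_pow] at h2
    refine add_le_add h2 ?_
    have h5 : (‖σ p‖ ^ T.M) ^ k ≤ ‖σ p‖ ^ T.M := by
      calc (‖σ p‖ ^ T.M) ^ k ≤ (‖σ p‖ ^ T.M) ^ 1 :=
            pow_le_pow_of_le_one (by positivity) (pow_le_one₀ (norm_nonneg _) h4.le) hk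
        _ = _ := pow_one _
    calc (‖σ p‖ ^ T.M) ^ k * ‖W p‖ ≤ ‖σ p‖ ^ T.M * Cw :=
          mul_le_mul h5 h3 (norm_nonneg _) (by positivity)
      _ = _ := mul_comm _ _
  have hCY0 : 0 ≤ CY := by positivity
  refine ⟨(T.N * a) ^ 2 / ((1 ^ 2 + 1 ^ 2 + (CY ^ T.N₀) ^ 2) * (CH ^ 2 + 1 ^ 2 + (CY ^ e) ^ 2)),
    by positivity, ?_⟩
  filter_upwards [hX, hYb, hQ, hJ, hlow, hHb, hσ1] with p h1 h2 h3 h4 h5 h6 h7 h0
  have hn0 : 0 < ‖σ p‖ := norm_pos_iff.2 h0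
  have hXne : X1 T (T.th c z p) ≠ 0 := by rw [h1]; exact pow_ne_zero _ h0
  refine quot_ge (t := ‖σ p‖ ^ T.N) (t' := (‖σ p‖ ^ T.M) ^ e) (by positivity) (by positivity)
    (by positivity) ?_ (WT_pos (Or.inl hXne)) (WT_pos (Or.inl hXne)) (by positivity)
    (by positivity) (WT_le ?_ ?_ ?_) (WT_le ?_ ?_ ?_)
  · rw [h4 h0, norm_mul, norm_mul, norm_mul (( (σ p ^ T.M) ^ e * _)), norm_mul ((σ p ^ T.M) ^ e),
      norm_pow, norm_pow, norm_pow, RCLike.norm_natCast]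
    rw [norm_mul] at h5
    have e1 : ‖σ p‖ ^ T.N = ‖σ p‖ ^ (T.N - 1) * ‖σ p‖ := by
      rw [← pow_succ]; congr 1; omega
    calc (T.N : ℝ) * a * (‖σ p‖ ^ T.N * (‖σ p‖ ^ T.M) ^ e)
        = (T.N : ℝ) * ‖σ p‖ ^ (T.N - 1) * ((‖σ p‖ ^ T.M) ^ e) * ‖σ p‖ * a := by rw [e1]; ring
      _ ≤ (T.N : ℝ) * ‖σ p‖ ^ (T.N - 1) * ((‖σ p‖ ^ T.M) ^ e) * ‖σ p‖ *
          (‖fderiv ℂ (Hv T i k) (σ p ^ T.M, W p) (0, 1)‖ * ‖jc σ W p‖) :=
          mul_le_mul_of_nonneg_left h5 (by positivity)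
      _ = _ := by ring
  · rw [h1, norm_pow, one_mul]
  · rw [h1, norm_pow, one_mul]
    calc (‖σ p‖ ^ T.N) ^ T.N₀ ≤ (‖σ p‖ ^ T.N) ^ 1 :=
          pow_le_pow_of_le_one (by positivity) (pow_le_one₀ (norm_nonneg _) h7.le) hN₀
      _ = _ := pow_one _
  · calc ‖Y1 T (T.th c z p)‖ ^ T.N₀ ≤ (CY * ‖σ p‖ ^ T.M) ^ T.N₀ :=
          pow_le_pow_left₀ (norm_nonneg _) h2 _
      _ = CY ^ T.N₀ * ‖σ p‖ ^ T.N := by rw [mul_pow, ← pow_mul, TB.N, mul_comm T.M]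
  · rw [h3 h0, hG]
    simp only
    rw [norm_mul, norm_pow, norm_pow, mul_comm]
    exact mul_le_mul_of_nonneg_right h6 (by positivity)
  · rw [h1, norm_pow, one_mul]
    have e1 : T.M ≤ T.N := Nat.le_mul_of_pos_left _ hN₀
    exact pow_le_pow_left₀ (by positivity)
      (pow_le_pow_of_le_one (norm_nonneg _) h7.le e1) _
  · calc ‖Y1 T (T.th c z p)‖ ^ e ≤ (CY * ‖σ p‖ ^ T.M) ^ e :=
          pow_le_pow_left₀ (norm_nonneg _) h2 _
      _ = CY ^ e * (‖σ p‖ ^ T.M) ^ e := mul_pow _ _ _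

end Crest.Agent.R257.CLog_68
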