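import Crest.Agent.R257.CLogD_68

/-!
R257 / CLogE_68 (C-LOG, helper68): nodes and legs, the region where `D_red` is large.

* `QD`     : the function `D_red (x', y')`;
* `node`   : `D_red = α^A β^B unit` near the origin of a chart, `A < B` for edges;
* `locB`   : lower bound at the node of an edge between two exceptional components;
* `locTop` : lower bound at the node of a top edge;
* `locLeg` : lower bound at a leg, in `‖ω‖ ≥ ‖s‖ ^ L`.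
-/

set_option autoImplicit false
set_option linter.unusedSectionVars false

open Polynomial Set Filter Topology Metric
open Crest.AlgGeometry.Germ Crest.Agent.R257.AJ387 Crest.Agent.R257.T387
open Crest.Agent.R257.T0_939 (GalPt)

noncomputable section

namespace Crest.Agent.R257.CLog_68

open Crest.Agent.R257.Defs_219
open Crest.Agent.R257.Fr_808 (jc jc_eq jac2)

variable {f : (Fin 3 → ℂ) → ℂ} {T : TB f}

/-- `D_red (x', y')` -/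
def QD (T : TB f) (Dp : ℂ → ℂ[X]) : E3 → ℂ := pl T (Dl Dp 0)

theorem QD_th {Dp : ℂ → ℂ[X]} (hD : DpD T Dp) (c : Ch T.m) (z : ℂ × ℂ → ℂ) {p : ℂ × ℂ}
    (hp : (T.map c p).1 ^ T.M ∈ ball (0 : ℂ) T.ρ) :
    QD T Dp (T.th c z p) = (RP T ((T.map c p).1 ^ T.M)).eval (T.map c p).2 := by
  have e1 : (T.map c p).1 ^ T.N = ((T.map c p).1 ^ T.M) ^ T.N₀ := by
    rw [← pow_mul, TB.N, mul_comm]
  rw [QD, pl_th, pm, Dl]
  simp only [Function.iterate_zero, id_eq]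
  rw [e1, hD.eq _ hp]

/-- **`D_red` near the origin of an edge or leg chart** -/
theorem node {Dp : ℂ → ℂ[X]} (hD : DpD T Dp) {c : Ch T.m} (hc : T.Valid c)
    (hkap : ∀ p, T.kap c p = (p.1 ^ T.M, p.2 ^ T.M)) (z : ℂ × ℂ → ℂ) :
    ∃ U : ℂ × ℂ → ℂ, AnalyticAt ℂ U 0 ∧ U 0 ≠ 0 ∧ ∀ᶠ p in 𝓝 (0 : ℂ × ℂ),
      QD T Dp (T.th c z p) =
        p.1 ^ (T.M * ∑ j, (T.ex c j).1) * p.2 ^ (T.M * ∑ j, (T.ex c j).2) * U p := by
  obtain ⟨r, hr, hr1, U, hU, hU0, hform⟩ := prod_mono T hc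
  have hM := T.M_pos
  have hk : Tendsto (fun p : ℂ × ℂ => ((p.1 ^ T.M, p.2 ^ T.M) : ℂ × ℂ)) (𝓝 0) (𝓝 0) := by
    have h1 : Continuous fun p : ℂ × ℂ => ((p.1 ^ T.M, p.2 ^ T.M) : ℂ × ℂ) := by fun_prop
    have := h1.tendsto 0
    rwa [Prod.fst_zero, Prod.snd_zero, zero_pow hM.ne', Prod.mk_zero_zero] at this
  have hBD : BD r r ∈ 𝓝 (0 : ℂ × ℂ) := (isOpen_BD r r).mem_nhds ⟨by simpa using hr, by simpa using hr⟩
  have h00 : (0 : ℂ × ℂ) ∈ BD r r := ⟨by simpa using hr, by simpa using hr⟩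
  refine ⟨fun p => U (p.1 ^ T.M, p.2 ^ T.M), ?_, ?_, ?_⟩
  · refine AnalyticAt.comp_of_eq (g := U) (f := fun p : ℂ × ℂ => ((p.1 ^ T.M, p.2 ^ T.M) : ℂ × ℂ))
      (hU 0 h00) ((analyticAt_fst.pow _).prod (analyticAt_snd.pow _)) ?_
    rw [Prod.fst_zero, Prod.snd_zero, zero_pow hM.ne', Prod.mk_zero_zero]
  · simp only
    rw [Prod.fst_zero, Prod.snd_zero, zero_pow hM.ne', Prod.mk_zero_zero]
    exact hU0 0 h00
  · filter_upwards [hk.eventually hBD] with p hp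
    obtain ⟨h1, h2⟩ := hform (p.1 ^ T.M, p.2 ^ T.M) hp
    have e1 : (T.map c p).1 ^ T.M = (T.map0 c (p.1 ^ T.M, p.2 ^ T.M)).1 := by
      rw [T.map_fst_pow, hkap]
    have e2 : (T.map c p).2 = (T.map0 c (p.1 ^ T.M, p.2 ^ T.M)).2 := by
      rw [T.map_snd, hkap]
    rw [QD_th hD c z (by rw [e1]; exact h1), e1, e2, h2, pow_mul, pow_mul]

/-- exponents on edges -/
theorem ex_edge {i : Fin T.m} {k k' : ℕ} (hc : T.Valid (.edge i k k')) :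
    ∑ j, (T.ex (.edge i k k') j).1 < ∑ j, (T.ex (.edge i k k') j).2 := by
  have hkk : k < k' := hc.2.2.1
  refine Finset.sum_lt_sum (fun j _ => ?_) ⟨i, Finset.mem_univ _, ?_⟩
  · simp only [TB.ex]
    split_ifs
    · exact hkk.le
    · exact le_rfl
  · simp only [TB.ex, true_or, if_true]
    exact hkk

theorem ex_top {i : Fin T.m} {k' : ℕ} (hc : T.Valid (.edge i 0 k')) :
    ∑ j, (T.ex (.edge i 0 k') j).1 = 0 := by
  refine Finset.sum_eq_zero fun j _ => ?_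
  simp only [TB.ex]
  split_ifs with h
  · rfl
  · exfalso
    rw [not_or, not_le] at h
    obtain ⟨-, -, -, h4⟩ := hc
    rcases h4 _ (T.del_mem_lev h.1) with h5 | h5
    · have := T.del_pos i j
      omega
    · omega

theorem ex_leg (i : Fin T.m) : ∑ j, (T.ex (.leg i) j).2 = 1 := by
  classical
  have h1 : ∀ j, (T.ex (.leg i) j).2 = if j = i then 1 else 0 := by
    intro j
    simp only [TB.ex]
    split_ifs <;> rfl
  simp only [h1]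
  simp

/-! ### derivatives of monomials -/

theorem mon_snd {U : ℂ × ℂ → ℂ} {p : ℂ × ℂ} (hU : DifferentiableAt ℂ U p) (A B : ℕ) :
    p.2 * fderiv ℂ (fun p : ℂ × ℂ => p.1 ^ A * p.2 ^ B * U p) p (0, 1) =
      p.1 ^ A * p.2 ^ B * (B * U p + p.2 * fderiv ℂ U p (0, 1)) := by
  have h1 : HasFDerivAt (fun p : ℂ × ℂ => p.1 ^ A)
      ((A • p.1 ^ (A - 1)) • (ContinuousLinearMap.fst ℂ ℂ ℂ)) p :=
    (hasFDerivAt_fst (𝕜 := ℂ) (p := p)).pow A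
  have h2 : HasFDerivAt (fun p : ℂ × ℂ => p.2 ^ B)
      ((B • p.2 ^ (B - 1)) • (ContinuousLinearMap.snd ℂ ℂ ℂ)) p :=
    (hasFDerivAt_snd (𝕜 := ℂ) (p := p)).pow B
  have h3 : HasFDerivAt (fun p : ℂ × ℂ => p.1 ^ A * p.2 ^ B * U p) _ p :=
    (h1.mul h2).mul hU.hasFDerivAt
  rw [h3.fderiv]
  simp only [add_apply, smul_apply, smul_eq_mul, nsmul_eq_mul, ContinuousLinearMap.coe_fst',
    ContinuousLinearMap.coe_snd', Pi.mul_apply]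
  have e1 : p.2 * (B * p.2 ^ (B - 1)) = (B : ℂ) * p.2 ^ B := by
    rcases Nat.eq_zero_or_pos B with h | h
    · subst h; simp
    · have : p.2 ^ B = p.2 ^ (B - 1) * p.2 := by rw [← pow_succ]; congr 1; omega
      rw [this]; ring
  linear_combination (p.1 ^ A * U p) * e1

theorem mon_fst {U : ℂ × ℂ → ℂ} {p : ℂ × ℂ} (hU : DifferentiableAt ℂ U p) (A B : ℕ) :
    p.1 * fderiv ℂ (fun p : ℂ × ℂ => p.1 ^ A * p.2 ^ B * U p) p (1, 0) =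
      p.1 ^ A * p.2 ^ B * (A * U p + p.1 * fderiv ℂ U p (1, 0)) := by
  have h1 : HasFDerivAt (fun p : ℂ × ℂ => p.1 ^ A)
      ((A • p.1 ^ (A - 1)) • (ContinuousLinearMap.fst ℂ ℂ ℂ)) p :=
    (hasFDerivAt_fst (𝕜 := ℂ) (p := p)).pow A
  have h2 : HasFDerivAt (fun p : ℂ × ℂ => p.2 ^ B)
      ((B • p.2 ^ (B - 1)) • (ContinuousLinearMap.snd ℂ ℂ ℂ)) p :=
    (hasFDerivAt_snd (𝕜 := ℂ) (p := p)).pow B
  have h3 : HasFDerivAt (fun p : ℂ × ℂ => p.1 ^ A * p.2 ^ B * U p) _ p :=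
    (h1.mul h2).mul hU.hasFDerivAt
  rw [h3.fderiv]
  simp only [add_apply, smul_apply, smul_eq_mul, nsmul_eq_mul, ContinuousLinearMap.coe_fst',
    ContinuousLinearMap.coe_snd', Pi.mul_apply]
  have e1 : p.1 * (A * p.1 ^ (A - 1)) = (A : ℂ) * p.1 ^ A := by
    rcases Nat.eq_zero_or_pos A with h | h
    · subst h; simp
    · have : p.1 ^ A = p.1 ^ (A - 1) * p.1 := by rw [← pow_succ]; congr 1; omega
      rw [this]; ring
  linear_combination (p.2 ^ B * U p) * e1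

theorem jc_mul (F : ℂ × ℂ → ℂ) (p : ℂ × ℂ) :
    jc (fun p : ℂ × ℂ => p.1 * p.2) F p =
      p.2 * fderiv ℂ F p (0, 1) - p.1 * fderiv ℂ F p (1, 0) := by
  have h1 : HasFDerivAt (fun p : ℂ × ℂ => p.1 * p.2)
      (p.1 • (ContinuousLinearMap.snd ℂ ℂ ℂ) + p.2 • (ContinuousLinearMap.fst ℂ ℂ ℂ)) p :=
    (hasFDerivAt_fst (𝕜 := ℂ) (p := p)).mul (hasFDerivAt_snd (𝕜 := ℂ) (p := p))
  unfold jc
  rw [h1.fderiv]
  simp only [add_apply, smul_apply, smul_eq_mul, ContinuousLinearMap.coe_fst',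
    ContinuousLinearMap.coe_snd']
  ring

theorem jc_fst (F : ℂ × ℂ → ℂ) (p : ℂ × ℂ) :
    jc (fun p : ℂ × ℂ => p.1) F p = fderiv ℂ F p (0, 1) := by
  have h1 : HasFDerivAt (fun p : ℂ × ℂ => p.1) (ContinuousLinearMap.fst ℂ ℂ ℂ) p :=
    hasFDerivAt_fst (𝕜 := ℂ) (p := p)
  unfold jc
  rw [h1.fderiv]
  simp

/-- the unit in the Jacobian of `(αβ)` and `α^A β^B U` -/
def un (U : ℂ × ℂ → ℂ) (A B : ℕ) (p : ℂ × ℂ) : ℂ :=
  (B * U p + p.2 * fderiv ℂ U p (0, 1)) - (A * U p + p.1 * fderiv ℂ U p (1, 0))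

theorem un_low {U : ℂ × ℂ → ℂ} (hU : AnalyticAt ℂ U 0) (hU0 : U 0 ≠ 0) {A B : ℕ} (h : A < B) :
    ∃ a : ℝ, 0 < a ∧ ∀ᶠ p in 𝓝 (0 : ℂ × ℂ), a ≤ ‖un U A B p‖ := by
  have hd : ∀ v : ℂ × ℂ, ContinuousAt (fun p => fderiv ℂ U p v) 0 := by
    intro v
    have h1 : AnalyticAt ℂ (fderiv ℂ U) 0 := hU.fderiv
    exact ((ContinuousLinearMap.apply ℂ ℂ v).continuous.continuousAt).comp h1.continuousAt
  refine low_near (F := un U A B) ?_ ?_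
  · unfold un
    exact ((continuousAt_const.mul hU.continuousAt).add (continuousAt_snd.mul (hd _))).sub
      ((continuousAt_const.mul hU.continuousAt).add (continuousAt_fst.mul (hd _)))
  · simp only [un, Prod.fst_zero, Prod.snd_zero, zero_mul, add_zero]
    rw [← sub_mul]
    refine mul_ne_zero (sub_ne_zero.2 ?_) hU0
    exact_mod_cast h.ne'

/-- the chart of an edge -/
theorem edge_vals {i : Fin T.m} {k k' : ℕ} (z : ℂ × ℂ → ℂ) :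
    (∀ p, X1 T (T.th (.edge i k k') z p) = (p.1 * p.2) ^ T.N) ∧
    ∃ C : ℝ, 0 ≤ C ∧ ∀ᶠ p in 𝓝 (0 : ℂ × ℂ), ‖Y1 T (T.th (.edge i k k') z p)‖ ≤
      C * ‖p.1 * p.2‖ ^ T.M + (‖p.1‖ ^ T.M) ^ k * (‖p.2‖ ^ T.M) ^ k' := by
  refine ⟨fun p => by rw [X1, pl_th]; rfl, ?_⟩
  obtain ⟨C, hC, h1⟩ := phi_le (T := T) i
  refine ⟨C, hC, ?_⟩
  have h2 : Tendsto (fun p : ℂ × ℂ => (p.1 * p.2) ^ T.M) (𝓝 0) (𝓝 0) := by
    have h3 : Continuous fun p : ℂ × ℂ => (p.1 * p.2) ^ T.M := by fun_prop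
    have := h3.tendsto 0
    rwa [Prod.fst_zero, zero_mul, zero_pow T.M_pos.ne'] at this
  filter_upwards [h2.eventually h1] with p h3
  have e1 : Y1 T (T.th (.edge i k k') z p) =
      T.φ i ((p.1 * p.2) ^ T.M) + p.1 ^ (T.M * k) * p.2 ^ (T.M * k') := by
    rw [Y1, pl_th]; rfl
  rw [e1]
  refine (norm_add_le _ _).trans (add_le_add ?_ ?_)
  · rwa [norm_pow] at h3
  · rw [norm_mul, norm_pow, norm_pow, pow_mul, pow_mul]

theorem small1 : ∀ᶠ p in 𝓝 (0 : ℂ × ℂ), ‖p.1‖ ≤ 1 ∧ ‖p.2‖ ≤ 1 := by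
  have h1 : ∀ᶠ p in 𝓝 (0 : ℂ × ℂ), ‖p.1‖ < 1 := by
    have : ContinuousAt (fun p : ℂ × ℂ => ‖p.1‖) 0 := by fun_prop
    exact this.eventually_lt continuousAt_const (by simp)
  have h2 : ∀ᶠ p in 𝓝 (0 : ℂ × ℂ), ‖p.2‖ < 1 := by
    have : ContinuousAt (fun p : ℂ × ℂ => ‖p.2‖) 0 := by fun_prop
    exact this.eventually_lt continuousAt_const (by simp)
  filter_upwards [h1, h2] with p a b using ⟨a.le, b.le⟩

theorem kap_edge (i : Fin T.m) (k k' : ℕ) (p : ℂ × ℂ) :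
    T.kap (.edge i k k') p = (p.1 ^ T.M, p.2 ^ T.M) := rfl

theorem kap_leg (i : Fin T.m) (p : ℂ × ℂ) : T.kap (.leg i) p = (p.1 ^ T.M, p.2 ^ T.M) := rfl

/-- **nodes** -/
theorem locB {Dp : ℂ → ℂ[X]} (hD : DpD T Dp) {i : Fin T.m} {k k' : ℕ}
    (hc : T.Valid (.edge i k k')) (hk : 0 < k) (z : ℂ × ℂ → ℂ) :
    ∃ (M' : ℕ) (κ : ℝ), 0 < M' ∧ 0 < κ ∧ ∀ᶠ p in 𝓝 (0 : ℂ × ℂ), p.1 ≠ 0 → p.2 ≠ 0 →
      κ ≤ (‖jc (fun p => X1 T (T.th (.edge i k k') z p))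
          (fun p => QD T Dp (T.th (.edge i k k') z p)) p‖ * (‖p.1‖ * ‖p.2‖)) ^ 2 /
        (WT T T.N₀ (X1 T) (T.th (.edge i k k') z p) *
          WT T M' (QD T Dp) (T.th (.edge i k k') z p)) := by
  set c : Ch T.m := .edge i k k' with hcdef
  have hM := T.M_pos
  have hN := T.N_pos
  have hN₀ := T.N₀_pos
  have hkk : k < k' := hc.2.2.1
  obtain ⟨U, hU, hU0, hQ⟩ := node hD hc (kap_edge i k k') z
  set A := T.M * ∑ j, (T.ex c j).1 with hA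
  set B := T.M * ∑ j, (T.ex c j).2 with hB
  have hAB : A < B := Nat.mul_lt_mul_of_pos_left (ex_edge hc) hM
  obtain ⟨hX, C, hC, hY⟩ := edge_vals (T := T) (i := i) (k := k) (k' := k') z
  obtain ⟨a, ha, hlow⟩ := un_low hU hU0 hAB
  obtain ⟨CU, hCU, hUb⟩ := bd_near hU.continuousAt
  have hYb : ∀ᶠ p in 𝓝 (0 : ℂ × ℂ), ‖Y1 T (T.th c z p)‖ ≤ (C + 1) * (‖p.1‖ * ‖p.2‖) ^ T.M := by
    filter_upwards [hY, small1] with p h1 h2
    refine h1.trans ?_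
    rw [norm_mul, add_mul, one_mul, mul_pow]
    refine add_le_add le_rfl (mul_le_mul ?_ ?_ (by positivity) (by positivity))
    · calc (‖p.1‖ ^ T.M) ^ k ≤ (‖p.1‖ ^ T.M) ^ 1 :=
            pow_le_pow_of_le_one (by positivity) (pow_le_one₀ (norm_nonneg _) h2.1) hk
        _ = _ := pow_one _
    · calc (‖p.2‖ ^ T.M) ^ k' ≤ (‖p.2‖ ^ T.M) ^ 1 :=
            pow_le_pow_of_le_one (by positivity) (pow_le_one₀ (norm_nonneg _) h2.2) (by omega)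
        _ = _ := pow_one _
  have hJ : ∀ᶠ p in 𝓝 (0 : ℂ × ℂ), jc (fun p => X1 T (T.th c z p))
      (fun p => QD T Dp (T.th c z p)) p =
        T.N * (p.1 * p.2) ^ (T.N - 1) * (p.1 ^ A * p.2 ^ B * un U A B p) := by
    filter_upwards [hQ.eventually_nhds, hU.eventually_analyticAt] with p h1 h2
    have e1 : (fun p => X1 T (T.th c z p)) =ᶠ[𝓝 p] fun p : ℂ × ℂ => (p.1 * p.2) ^ T.N :=
      Eventually.of_forall hX
    have hd : DifferentiableAt ℂ (fun p : ℂ × ℂ => p.1 * p.2) p := by fun_prop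
    rw [jc_congr e1 (h1 : (fun p => QD T Dp (T.th c z p)) =ᶠ[𝓝 p] fun p =>
      p.1 ^ A * p.2 ^ B * U p), jc_powl (σ := fun p : ℂ × ℂ => p.1 * p.2) hd, jc_mul,
      mon_snd h2.differentiableAt, mon_fst h2.differentiableAt, un]
    ring
  refine ⟨B, (T.N * a) ^ 2 / ((1 ^ 2 + 1 ^ 2 + ((C + 1) ^ T.N₀) ^ 2) *
    (CU ^ 2 + 1 ^ 2 + ((C + 1) ^ B) ^ 2)), by omega, by positivity, ?_⟩
  filter_upwards [hYb, hJ, hlow, hUb, hQ, small1] with p h1 h2 h3 h4 h5 h6 hp1 hp2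
  have hn1 : 0 < ‖p.1‖ := norm_pos_iff.2 hp1
  have hn2 : 0 < ‖p.2‖ := norm_pos_iff.2 hp2
  have hXne : X1 T (T.th c z p) ≠ 0 := by
    rw [hX]; exact pow_ne_zero _ (mul_ne_zero hp1 hp2)
  have hs1 : ‖p.1‖ * ‖p.2‖ ≤ 1 := by nlinarith [h6.1, h6.2]
  refine quot_ge (t := (‖p.1‖ * ‖p.2‖) ^ T.N) (t' := ‖p.1‖ ^ A * ‖p.2‖ ^ B) (by positivity)
    (by positivity) (by positivity) ?_ (WT_pos (Or.inl hXne)) (WT_pos (Or.inl hXne))
    (by positivity) (by positivity) (WT_le ?_ ?_ ?_) (WT_le ?_ ?_ ?_)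
  · rw [h2, norm_mul, norm_mul, norm_mul (p.1 ^ A * p.2 ^ B), norm_mul (p.1 ^ A), norm_pow,
      norm_pow, norm_pow, norm_mul, RCLike.norm_natCast]
    have e1 : (‖p.1‖ * ‖p.2‖) ^ T.N = (‖p.1‖ * ‖p.2‖) ^ (T.N - 1) * (‖p.1‖ * ‖p.2‖) := by
      rw [← pow_succ]; congr 1; omega
    calc (T.N : ℝ) * a * ((‖p.1‖ * ‖p.2‖) ^ T.N * (‖p.1‖ ^ A * ‖p.2‖ ^ B))
        = (T.N : ℝ) * (‖p.1‖ * ‖p.2‖) ^ (T.N - 1) * (‖p.1‖ ^ A * ‖p.2‖ ^ B) *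
          (‖p.1‖ * ‖p.2‖) * a := by rw [e1]; ring
      _ ≤ (T.N : ℝ) * (‖p.1‖ * ‖p.2‖) ^ (T.N - 1) * (‖p.1‖ ^ A * ‖p.2‖ ^ B) *
          (‖p.1‖ * ‖p.2‖) * ‖un U A B p‖ := mul_le_mul_of_nonneg_left h3 (by positivity)
      _ = _ := by ring
  · rw [hX, norm_pow, norm_mul, one_mul]
  · rw [hX, norm_pow, norm_mul, one_mul]
    calc ((‖p.1‖ * ‖p.2‖) ^ T.N) ^ T.N₀ ≤ ((‖p.1‖ * ‖p.2‖) ^ T.N) ^ 1 :=
          pow_le_pow_of_le_one (by positivity) (pow_le_one₀ (by positivity) hs1) hN₀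
      _ = _ := pow_one _
  · calc ‖Y1 T (T.th c z p)‖ ^ T.N₀ ≤ ((C + 1) * (‖p.1‖ * ‖p.2‖) ^ T.M) ^ T.N₀ :=
          pow_le_pow_left₀ (norm_nonneg _) h1 _
      _ = (C + 1) ^ T.N₀ * (‖p.1‖ * ‖p.2‖) ^ T.N := by rw [mul_pow, ← pow_mul, TB.N, mul_comm T.M]
  · rw [h5, norm_mul, norm_mul, norm_pow, norm_pow, mul_comm]
    exact mul_le_mul_of_nonneg_right h4 (by positivity)
  · rw [hX, norm_pow, norm_mul, one_mul, ← pow_mul, mul_pow]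
    have e1 : B ≤ T.N * B := Nat.le_mul_of_pos_left _ hN
    exact mul_le_mul (pow_le_pow_of_le_one hn1.le h6.1 (by omega))
      (pow_le_pow_of_le_one hn2.le h6.2 e1) (by positivity) (by positivity)
  · calc ‖Y1 T (T.th c z p)‖ ^ B ≤ ((C + 1) * (‖p.1‖ * ‖p.2‖) ^ T.M) ^ B :=
          pow_le_pow_left₀ (norm_nonneg _) h1 _
      _ = (C + 1) ^ B * (‖p.1‖ ^ (T.M * B) * ‖p.2‖ ^ (T.M * B)) := by
          rw [mul_pow, ← pow_mul, mul_pow]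
      _ ≤ (C + 1) ^ B * (‖p.1‖ ^ A * ‖p.2‖ ^ B) := by
          have e1 : B ≤ T.M * B := Nat.le_mul_of_pos_left _ hM
          refine mul_le_mul_of_nonneg_left ?_ (by positivity)
          exact mul_le_mul (pow_le_pow_of_le_one hn1.le h6.1 (by omega))
            (pow_le_pow_of_le_one hn2.le h6.2 e1) (by positivity) (by positivity)

/-- **top nodes** -/
theorem locTop {Dp : ℂ → ℂ[X]} (hD : DpD T Dp) {i : Fin T.m} {k' : ℕ}
    (hc : T.Valid (.edge i 0 k')) (z : ℂ × ℂ → ℂ) :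
    ∃ (M' : ℕ) (κ : ℝ), 0 < M' ∧ 0 < κ ∧ ∀ᶠ p in 𝓝 (0 : ℂ × ℂ), p.1 ≠ 0 → p.2 ≠ 0 →
      κ * (‖p.1‖ ^ (T.N - 1)) ^ 2 ≤ (‖jc (fun p => X1 T (T.th (.edge i 0 k') z p))
          (fun p => QD T Dp (T.th (.edge i 0 k') z p)) p‖ * ‖p.2‖) ^ 2 /
        (WT T T.N₀ (X1 T) (T.th (.edge i 0 k') z p) *
          WT T M' (QD T Dp) (T.th (.edge i 0 k') z p)) := by
  set c : Ch T.m := .edge i 0 k' with hcdef
  have hM := T.M_pos
  have hN := T.N_pos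
  have hN₀ := T.N₀_pos
  have hkk : 0 < k' := hc.2.2.1
  obtain ⟨U, hU, hU0, hQ⟩ := node hD hc (kap_edge i 0 k') z
  have hex : ∑ j, (T.ex c j).1 = 0 := ex_top hc
  rw [hex, mul_zero] at hQ
  set B := T.M * ∑ j, (T.ex c j).2 with hB
  have hAB : 0 < B := by
    have h1 : ∑ j, (T.ex c j).1 < ∑ j, (T.ex c j).2 := ex_edge hc
    rw [hex] at h1
    exact Nat.mul_pos hM h1
  obtain ⟨hX, C, hC, hY⟩ := edge_vals (T := T) (i := i) (k := 0) (k' := k') z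
  obtain ⟨a, ha, hlow⟩ := un_low hU hU0 hAB
  obtain ⟨CU, hCU, hUb⟩ := bd_near hU.continuousAt
  have hYb : ∀ᶠ p in 𝓝 (0 : ℂ × ℂ), ‖Y1 T (T.th c z p)‖ ≤ (C + 1) * ‖p.2‖ ^ T.M := by
    filter_upwards [hY, small1] with p h1 h2
    refine h1.trans ?_
    rw [norm_mul, add_mul, one_mul, mul_pow, pow_zero, one_mul]
    refine add_le_add (mul_le_mul_of_nonneg_left ?_ hC) ?_
    · calc ‖p.1‖ ^ T.M * ‖p.2‖ ^ T.M ≤ 1 * ‖p.2‖ ^ T.M :=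
            mul_le_mul_of_nonneg_right (pow_le_one₀ (norm_nonneg _) h2.1) (by positivity)
        _ = _ := one_mul _
    · calc (‖p.2‖ ^ T.M) ^ k' ≤ (‖p.2‖ ^ T.M) ^ 1 :=
            pow_le_pow_of_le_one (by positivity) (pow_le_one₀ (norm_nonneg _) h2.2) (by omega)
        _ = _ := pow_one _
  have hJ : ∀ᶠ p in 𝓝 (0 : ℂ × ℂ), jc (fun p => X1 T (T.th c z p))
      (fun p => QD T Dp (T.th c z p)) p =
        T.N * (p.1 * p.2) ^ (T.N - 1) * (p.1 ^ 0 * p.2 ^ B * un U 0 B p) := by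
    filter_upwards [hQ.eventually_nhds, hU.eventually_analyticAt] with p h1 h2
    have e1 : (fun p => X1 T (T.th c z p)) =ᶠ[𝓝 p] fun p : ℂ × ℂ => (p.1 * p.2) ^ T.N :=
      Eventually.of_forall hX
    have hd : DifferentiableAt ℂ (fun p : ℂ × ℂ => p.1 * p.2) p := by fun_prop
    rw [jc_congr e1 (h1 : (fun p => QD T Dp (T.th c z p)) =ᶠ[𝓝 p] fun p =>
      p.1 ^ 0 * p.2 ^ B * U p), jc_powl (σ := fun p : ℂ × ℂ => p.1 * p.2) hd, jc_mul,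
      mon_snd h2.differentiableAt, mon_fst h2.differentiableAt, un]
    ring
  refine ⟨B, (T.N * a) ^ 2 / ((1 ^ 2 + 1 ^ 2 + ((C + 1) ^ T.N₀) ^ 2) *
    (CU ^ 2 + 1 ^ 2 + ((C + 1) ^ B) ^ 2)), by omega, by positivity, ?_⟩
  filter_upwards [hYb, hJ, hlow, hUb, hQ, small1] with p h1 h2 h3 h4 h5 h6 hp1 hp2
  have hn1 : 0 < ‖p.1‖ := norm_pos_iff.2 hp1
  have hn2 : 0 < ‖p.2‖ := norm_pos_iff.2 hp2
  have hXne : X1 T (T.th c z p) ≠ 0 := by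
    rw [hX]; exact pow_ne_zero _ (mul_ne_zero hp1 hp2)
  have hq := quot_ge (t := ‖p.2‖ ^ T.N) (t' := ‖p.2‖ ^ B) (a := T.N * a * ‖p.1‖ ^ (T.N - 1))
    (A := ‖jc (fun p => X1 T (T.th c z p)) (fun p => QD T Dp (T.th c z p)) p‖ * ‖p.2‖)
    (W := WT T T.N₀ (X1 T) (T.th c z p)) (W' := WT T B (QD T Dp) (T.th c z p))
    (C := 1 ^ 2 + 1 ^ 2 + ((C + 1) ^ T.N₀) ^ 2) (C' := CU ^ 2 + 1 ^ 2 + ((C + 1) ^ B) ^ 2)
    (by positivity) (by positivity) (by positivity) ?_ (WT_pos (Or.inl hXne))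
    (WT_pos (Or.inl hXne)) (by positivity) (by positivity) (WT_le ?_ ?_ ?_) (WT_le ?_ ?_ ?_)
  · refine le_trans (le_of_eq ?_) hq
    rw [mul_pow]
    ring
  · rw [h2, norm_mul, norm_mul, norm_mul (p.1 ^ 0 * p.2 ^ B), norm_mul (p.1 ^ 0), norm_pow,
      norm_pow, norm_pow, norm_mul, RCLike.norm_natCast, pow_zero, one_mul]
    have e1 : ‖p.2‖ ^ T.N = ‖p.2‖ ^ (T.N - 1) * ‖p.2‖ := by
      rw [← pow_succ]; congr 1; omega
    calc (T.N : ℝ) * a * ‖p.1‖ ^ (T.N - 1) * (‖p.2‖ ^ T.N * ‖p.2‖ ^ B)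
        = (T.N : ℝ) * (‖p.1‖ * ‖p.2‖) ^ (T.N - 1) * ‖p.2‖ ^ B * ‖p.2‖ * a := by
          rw [e1, mul_pow]; ring
      _ ≤ (T.N : ℝ) * (‖p.1‖ * ‖p.2‖) ^ (T.N - 1) * ‖p.2‖ ^ B * ‖p.2‖ * ‖un U 0 B p‖ :=
          mul_le_mul_of_nonneg_left h3 (by positivity)
      _ = _ := by ring
  · rw [hX, norm_pow, norm_mul, one_mul, mul_pow]
    calc ‖p.1‖ ^ T.N * ‖p.2‖ ^ T.N ≤ 1 * ‖p.2‖ ^ T.N :=
          mul_le_mul_of_nonneg_right (pow_le_one₀ (norm_nonneg _) h6.1) (by positivity)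
      _ = _ := one_mul _
  · rw [hX, norm_pow, norm_mul, one_mul]
    calc ((‖p.1‖ * ‖p.2‖) ^ T.N) ^ T.N₀ ≤ ((1 * ‖p.2‖) ^ T.N) ^ T.N₀ := by
          refine pow_le_pow_left₀ (by positivity) (pow_le_pow_left₀ (by positivity) ?_ _) _
          exact mul_le_mul_of_nonneg_right h6.1 hn2.le
      _ ≤ ((1 * ‖p.2‖) ^ T.N) ^ 1 := by
          rw [one_mul]
          exact pow_le_pow_of_le_one (by positivity) (pow_le_one₀ hn2.le h6.2) hN₀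
      _ = _ := by rw [pow_one, one_mul]
  · calc ‖Y1 T (T.th c z p)‖ ^ T.N₀ ≤ ((C + 1) * ‖p.2‖ ^ T.M) ^ T.N₀ :=
          pow_le_pow_left₀ (norm_nonneg _) h1 _
      _ = (C + 1) ^ T.N₀ * ‖p.2‖ ^ T.N := by rw [mul_pow, ← pow_mul, TB.N, mul_comm T.M]
  · rw [h5, norm_mul, norm_mul, norm_pow, norm_pow, pow_zero, one_mul, mul_comm]
    exact mul_le_mul_of_nonneg_right h4 (by positivity)
  · rw [hX, norm_pow, norm_mul, one_mul, ← pow_mul, mul_pow]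
    have e1 : B ≤ T.N * B := Nat.le_mul_of_pos_left _ hN
    calc ‖p.1‖ ^ (T.N * B) * ‖p.2‖ ^ (T.N * B) ≤ 1 * ‖p.2‖ ^ B :=
          mul_le_mul (pow_le_one₀ hn1.le h6.1) (pow_le_pow_of_le_one hn2.le h6.2 e1)
            (by positivity) zero_le_one
      _ = _ := one_mul _
  · calc ‖Y1 T (T.th c z p)‖ ^ B ≤ ((C + 1) * ‖p.2‖ ^ T.M) ^ B :=
          pow_le_pow_left₀ (norm_nonneg _) h1 _
      _ = (C + 1) ^ B * ‖p.2‖ ^ (T.M * B) := by rw [mul_pow, ← pow_mul]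
      _ ≤ (C + 1) ^ B * ‖p.2‖ ^ B := by
          have e1 : B ≤ T.M * B := Nat.le_mul_of_pos_left _ hM
          exact mul_le_mul_of_nonneg_left (pow_le_pow_of_le_one hn2.le h6.2 e1) (by positivity)

end Crest.Agent.R257.CLog_68
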