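import Crest.Agent.R257.CLogE_68

/-!
R257 / CLogF_68 (C-LOG, helper68): legs.

* `locLeg` : lower bound at a leg, in `‖ω‖ ≥ ‖s‖ ^ L`;
* `legQ`   : for every sheet over a leg there is a germ `q` which vanishes on the branch
             `γ(s) = th (s, 0)` with `Dt f x' q ≠ 0` on `γ`;
* `legI`   : lower bound at a leg, in `‖ω‖ ≤ ‖s‖ ^ L`.
-/

set_option autoImplicit false
set_option linter.unusedSectionVars false

open Polynomial Set Filter Topology Metric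
open Crest.AlgGeometry.Germ Crest.Agent.R257.AJ387 Crest.Agent.R257.T387
open Crest.Agent.R257.T0_939 (GalPt)
open Crest.Agent.R257.T0_387 (isolated)

noncomputable section

namespace Crest.Agent.R257.CLog_68

open Crest.Agent.R257.Defs_219
open Crest.Agent.R257.Fr_808 (jc jc_eq jac2 dt0_an)
open Crest.Agent.R257.Det_219 (fderiv_sum)

variable {f : (Fin 3 → ℂ) → ℂ} {T : TB f}

/-! ### the region `‖ω‖ ≥ ‖s‖ ^ L` -/

/-- the chart of a leg -/
theorem leg_vals {i : Fin T.m} (z : ℂ × ℂ → ℂ) :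
    (∀ p, X1 T (T.th (.leg i) z p) = p.1 ^ T.N) ∧
    ∃ C : ℝ, 0 ≤ C ∧ ∀ᶠ p in 𝓝 (0 : ℂ × ℂ), ‖Y1 T (T.th (.leg i) z p)‖ ≤ C * ‖p.1‖ ^ T.M := by
  refine ⟨fun p => by rw [X1, pl_th]; rfl, ?_⟩
  obtain ⟨C, hC, h1⟩ := phi_le (T := T) i
  refine ⟨C + 1, by positivity, ?_⟩
  have h2 : Tendsto (fun p : ℂ × ℂ => p.1 ^ T.M) (𝓝 0) (𝓝 0) := by
    have h3 : Continuous fun p : ℂ × ℂ => p.1 ^ T.M := by fun_prop
    have := h3.tendsto 0
    rwa [Prod.fst_zero, zero_pow T.M_pos.ne'] at this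
  have htop : 1 ≤ T.top i := T.lev_pos (Finset.max'_mem _ _)
  filter_upwards [h2.eventually h1, small1] with p h3 h4
  have e1 : Y1 T (T.th (.leg i) z p) =
      T.φ i (p.1 ^ T.M) + p.1 ^ (T.M * T.top i) * p.2 ^ T.M := by
    rw [Y1, pl_th]; rfl
  rw [e1, add_mul, one_mul]
  refine (norm_add_le _ _).trans (add_le_add ?_ ?_)
  · rwa [norm_pow] at h3
  · rw [norm_mul, norm_pow, norm_pow, pow_mul]
    calc (‖p.1‖ ^ T.M) ^ T.top i * ‖p.2‖ ^ T.M ≤ (‖p.1‖ ^ T.M) ^ 1 * 1 :=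
          mul_le_mul (pow_le_pow_of_le_one (by positivity) (pow_le_one₀ (norm_nonneg _) h4.1) htop)
            (pow_le_one₀ (norm_nonneg _) h4.2) (by positivity) (by positivity)
      _ = _ := by rw [mul_one, pow_one]

/-- **legs**, `‖ω‖ ≥ ‖s‖ ^ L` -/
theorem locLeg {Dp : ℂ → ℂ[X]} (hD : DpD T Dp) (i : Fin T.m) (z : ℂ × ℂ → ℂ) (Lx : ℕ) :
    ∃ (M' : ℕ) (κ : ℝ), 0 < M' ∧ 0 < κ ∧ ∀ᶠ p in 𝓝 (0 : ℂ × ℂ), p.1 ≠ 0 → p.2 ≠ 0 →
      ‖p.1‖ ^ Lx ≤ ‖p.2‖ →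
      κ ≤ (‖jc (fun p => X1 T (T.th (.leg i) z p))
          (fun p => QD T Dp (T.th (.leg i) z p)) p‖ * ‖p.1‖) ^ 2 /
        (WT T T.N₀ (X1 T) (T.th (.leg i) z p) *
          WT T M' (QD T Dp) (T.th (.leg i) z p)) := by
  set c : Ch T.m := .leg i with hcdef
  have hM := T.M_pos
  have hN := T.N_pos
  have hN₀ := T.N₀_pos
  obtain ⟨U, hU, hU0, hQ⟩ := node hD (c := c) trivial (kap_leg i) z
  set A := T.M * ∑ j, (T.ex c j).1 with hA
  have hex : ∑ j, (T.ex c j).2 = 1 := ex_leg i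
  rw [hex, mul_one] at hQ
  set B := T.M with hB
  obtain ⟨hX, C, hC, hY⟩ := leg_vals (T := T) (i := i) z
  obtain ⟨a, ha, hlow⟩ : ∃ a : ℝ, 0 < a ∧ ∀ᶠ p in 𝓝 (0 : ℂ × ℂ),
      a ≤ ‖B * U p + p.2 * fderiv ℂ U p (0, 1)‖ := by
    have hd : ContinuousAt (fun p => fderiv ℂ U p ((0 : ℂ), (1 : ℂ))) 0 := by
      have h1 : AnalyticAt ℂ (fderiv ℂ U) 0 := hU.fderiv
      exact ((ContinuousLinearMap.apply ℂ ℂ ((0 : ℂ), (1 : ℂ))).continuous.continuousAt).comp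
        h1.continuousAt
    refine low_near (F := fun p => B * U p + p.2 * fderiv ℂ U p (0, 1)) ?_ ?_
    · exact (continuousAt_const.mul hU.continuousAt).add (continuousAt_snd.mul hd)
    · simp only [Prod.snd_zero, zero_mul, add_zero]
      exact mul_ne_zero (by exact_mod_cast hM.ne') hU0
  obtain ⟨CU, hCU, hUb⟩ := bd_near hU.continuousAt
  have hJ : ∀ᶠ p in 𝓝 (0 : ℂ × ℂ), p.2 * jc (fun p => X1 T (T.th c z p))
      (fun p => QD T Dp (T.th c z p)) p =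
        T.N * p.1 ^ (T.N - 1) * (p.1 ^ A * p.2 ^ B * (B * U p + p.2 * fderiv ℂ U p (0, 1))) := by
    filter_upwards [hQ.eventually_nhds, hU.eventually_analyticAt] with p h1 h2
    have e1 : (fun p => X1 T (T.th c z p)) =ᶠ[𝓝 p] fun p : ℂ × ℂ => p.1 ^ T.N :=
      Eventually.of_forall hX
    have hd : DifferentiableAt ℂ (fun p : ℂ × ℂ => p.1) p := by fun_prop
    rw [jc_congr e1 (h1 : (fun p => QD T Dp (T.th c z p)) =ᶠ[𝓝 p] fun p =>
      p.1 ^ A * p.2 ^ B * U p), jc_powl (σ := fun p : ℂ × ℂ => p.1) hd, jc_fst,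
      ← mon_snd h2.differentiableAt]
    ring
  refine ⟨A + Lx * B + 1, (T.N * a) ^ 2 / ((1 ^ 2 + 1 ^ 2 + (C ^ T.N₀) ^ 2) *
    (CU ^ 2 + 1 ^ 2 + (C ^ (A + Lx * B + 1)) ^ 2)), by omega, by positivity, ?_⟩
  filter_upwards [hY, hJ, hlow, hUb, hQ, small1] with p h1 h2 h3 h4 h5 h6 hp1 hp2 hreg
  have hn1 : 0 < ‖p.1‖ := norm_pos_iff.2 hp1
  have hn2 : 0 < ‖p.2‖ := norm_pos_iff.2 hp2
  have hXne : X1 T (T.th c z p) ≠ 0 := by
    rw [hX]; exact pow_ne_zero _ hp1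
  have ht' : ‖p.1‖ ^ (A + Lx * B) ≤ ‖p.1‖ ^ A * ‖p.2‖ ^ B := by
    rw [pow_add, pow_mul ‖p.1‖ Lx B]
    exact mul_le_mul_of_nonneg_left (pow_le_pow_left₀ (by positivity) hreg _) (by positivity)
  refine quot_ge (t := ‖p.1‖ ^ T.N) (t' := ‖p.1‖ ^ A * ‖p.2‖ ^ B) (by positivity)
    (by positivity) (by positivity) ?_ (WT_pos (Or.inl hXne)) (WT_pos (Or.inl hXne))
    (by positivity) (by positivity) (WT_le ?_ ?_ ?_) (WT_le ?_ ?_ ?_)
  · set J := jc (fun p => X1 T (T.th c z p)) (fun p => QD T Dp (T.th c z p)) p with hJdef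
    have h7 : ‖p.2‖ * ‖J‖ = T.N * ‖p.1‖ ^ (T.N - 1) * (‖p.1‖ ^ A * ‖p.2‖ ^ B *
        ‖B * U p + p.2 * fderiv ℂ U p (0, 1)‖) := by
      rw [← norm_mul, h2, norm_mul, norm_mul, norm_mul (p.1 ^ A * p.2 ^ B), norm_mul (p.1 ^ A),
        norm_pow, norm_pow, norm_pow, RCLike.norm_natCast]
    have e1 : ‖p.1‖ ^ T.N = ‖p.1‖ ^ (T.N - 1) * ‖p.1‖ := by
      rw [← pow_succ]; congr 1; omega
    calc (T.N : ℝ) * a * (‖p.1‖ ^ T.N * (‖p.1‖ ^ A * ‖p.2‖ ^ B))
        = (T.N : ℝ) * ‖p.1‖ ^ (T.N - 1) * (‖p.1‖ ^ A * ‖p.2‖ ^ B * a) * ‖p.1‖ := by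
          rw [e1]; ring
      _ ≤ (T.N : ℝ) * ‖p.1‖ ^ (T.N - 1) * (‖p.1‖ ^ A * ‖p.2‖ ^ B *
          ‖B * U p + p.2 * fderiv ℂ U p (0, 1)‖) * ‖p.1‖ := by
          refine mul_le_mul_of_nonneg_right (mul_le_mul_of_nonneg_left
            (mul_le_mul_of_nonneg_left h3 (by positivity)) (by positivity)) hn1.le
      _ = ‖p.2‖ * ‖J‖ * ‖p.1‖ := by rw [h7]
      _ ≤ 1 * ‖J‖ * ‖p.1‖ := mul_le_mul_of_nonneg_right
          (mul_le_mul_of_nonneg_right h6.2 (norm_nonneg _)) hn1.le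
      _ = _ := by rw [one_mul]
  · rw [hX, norm_pow, one_mul]
  · rw [hX, norm_pow, one_mul]
    calc (‖p.1‖ ^ T.N) ^ T.N₀ ≤ (‖p.1‖ ^ T.N) ^ 1 :=
          pow_le_pow_of_le_one (by positivity) (pow_le_one₀ (by positivity) h6.1) hN₀
      _ = _ := pow_one _
  · calc ‖Y1 T (T.th c z p)‖ ^ T.N₀ ≤ (C * ‖p.1‖ ^ T.M) ^ T.N₀ :=
          pow_le_pow_left₀ (norm_nonneg _) h1 _
      _ = C ^ T.N₀ * ‖p.1‖ ^ T.N := by rw [mul_pow, ← pow_mul, TB.N, mul_comm T.M]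
  · rw [h5, norm_mul, norm_mul, norm_pow, norm_pow, mul_comm]
    exact mul_le_mul_of_nonneg_right h4 (by positivity)
  · rw [hX, norm_pow, one_mul, ← pow_mul]
    refine le_trans (pow_le_pow_of_le_one hn1.le h6.1 ?_) ht'
    exact (Nat.le_succ _).trans (Nat.le_mul_of_pos_left _ hN)
  · calc ‖Y1 T (T.th c z p)‖ ^ (A + Lx * B + 1) ≤ (C * ‖p.1‖ ^ T.M) ^ (A + Lx * B + 1) :=
          pow_le_pow_left₀ (norm_nonneg _) h1 _
      _ = C ^ (A + Lx * B + 1) * ‖p.1‖ ^ (T.M * (A + Lx * B + 1)) := by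
          rw [mul_pow, ← pow_mul]
      _ ≤ C ^ (A + Lx * B + 1) * (‖p.1‖ ^ A * ‖p.2‖ ^ B) := by
          refine mul_le_mul_of_nonneg_left ?_ (by positivity)
          refine le_trans (pow_le_pow_of_le_one hn1.le h6.1 ?_) ht'
          exact (Nat.le_succ _).trans (Nat.le_mul_of_pos_left _ hM)

/-! ### linear algebra -/

theorem Dt_ne {f g h : E3 → ℂ} {x u v w : E3}
    (h1 : fderiv ℂ f x v = 0) (h2 : fderiv ℂ g x u = 0) (h3 : fderiv ℂ g x w = 0)
    (h4 : fderiv ℂ h x v = 0)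
    (hd : fderiv ℂ g x v * (fderiv ℂ f x u * fderiv ℂ h x w - fderiv ℂ f x w * fderiv ℂ h x u) ≠ 0) :
    Dt f g h x ≠ 0 := by
  intro h0
  apply hd
  have e1 : Matrix.of ![gr f x, gr g x, gr h x] * (Matrix.of ![u, v, w]).transpose =
      !![fderiv ℂ f x u, fderiv ℂ f x v, fderiv ℂ f x w;
        fderiv ℂ g x u, fderiv ℂ g x v, fderiv ℂ g x w;
        fderiv ℂ h x u, fderiv ℂ h x v, fderiv ℂ h x w] := by
    ext a b
    rw [Matrix.mul_apply]
    fin_cases a <;> fin_cases b <;>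
      simp [Fin.sum_univ_three, fderiv_sum, gr, mul_comm]
  have e2 := congrArg Matrix.det e1
  rw [Matrix.det_mul] at e2
  have e3 : (Matrix.of ![gr f x, gr g x, gr h x]).det = 0 := h0
  rw [e3, zero_mul, Matrix.det_fin_three] at e2
  simp only [Matrix.of_apply, Matrix.cons_val_zero, Matrix.cons_val_one, Matrix.cons_val,
    Matrix.cons_val', Matrix.empty_val', Matrix.cons_val_fin_one] at e2
  rw [h1, h2, h3, h4] at e2
  linear_combination -e2

/-! ### directions -/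

/-- the projection to the `(x', y')`-plane -/
def SL (T : TB f) : E3 →L[ℂ] ℂ × ℂ :=
  T.A.symm.toContinuousLinearMap.comp
    ((ContinuousLinearMap.proj (R := ℂ) (φ := fun _ : Fin 3 => ℂ) 1).prod
      (ContinuousLinearMap.proj (R := ℂ) (φ := fun _ : Fin 3 => ℂ) 2))

theorem SL_apply (x : E3) : SL T x = T.A.symm (x 1, x 2) := rfl

theorem pl_eq (g : ℂ × ℂ → ℂ) : pl T g = fun x => g (SL T x) := rfl

theorem pl_fderiv {g : ℂ × ℂ → ℂ} {x : E3} (hg : DifferentiableAt ℂ g (SL T x)) (v : E3) :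
    fderiv ℂ (pl T g) x v = fderiv ℂ g (SL T x) (SL T v) := by
  have h1 : HasFDerivAt (fun x => g (SL T x)) ((fderiv ℂ g (SL T x)).comp (SL T)) x :=
    hg.hasFDerivAt.comp x (SL T).hasFDerivAt
  rw [pl_eq, h1.fderiv]
  rfl

theorem SL_e0 : SL T (pt 1 0) = 0 := by
  rw [SL_apply]
  have : (((pt 1 0 : Fin 3 → ℂ) 1, (pt 1 0 : Fin 3 → ℂ) 2) : ℂ × ℂ) = 0 := rfl
  rw [this, map_zero]

theorem SL_pt (z : ℂ) (q : ℂ × ℂ) : SL T (pt z (T.A q)) = q := by
  rw [SL_apply]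
  have : (((pt z (T.A q)) 1, (pt z (T.A q)) 2) : ℂ × ℂ) = T.A q := rfl
  rw [this, ContinuousLinearEquiv.symm_apply_apply]

theorem SL_ker {v : E3} (h : SL T v = 0) (h0 : v 0 = 0) : v = 0 := by
  rw [SL_apply] at h
  have h1 : ((v 1, v 2) : ℂ × ℂ) = 0 := by
    have := congrArg T.A h
    rwa [ContinuousLinearEquiv.apply_symm_apply, map_zero] at this
  rw [Prod.mk_eq_zero] at h1
  funext i
  fin_cases i
  · exact h0
  · exact h1.1
  · exact h1.2

/-- derivative along a line -/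
theorem fderiv_line {E : Type*} [NormedAddCommGroup E] [NormedSpace ℂ E] {F : E → ℂ} {x v : E}
    {a : ℂ} (hF : DifferentiableAt ℂ F x) (h : HasDerivAt (fun t : ℂ => F (x + t • v)) a 0) :
    fderiv ℂ F x v = a := by
  have h1 : HasDerivAt (fun t : ℂ => x + t • v) v 0 := by
    have := ((hasDerivAt_id (0 : ℂ)).smul_const v).const_add x
    simpa using this
  have h2 : HasDerivAt (fun t : ℂ => F (x + t • v)) (fderiv ℂ F x v) 0 := by
    have h3 : HasFDerivAt F (fderiv ℂ F x) (x + (0 : ℂ) • v) := by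
      rw [zero_smul, add_zero]; exact hF.hasFDerivAt
    exact HasFDerivAt.comp_hasDerivAt (x := (0 : ℂ)) (f := fun t : ℂ => x + t • v) (l := F) h3 h1
  exact h2.unique h

/-- the derivatives of the Weierstrass polynomial, as functions on `ℂ³` -/
def PT (T : TB f) (l : ℕ) (x : E3) : ℂ := (derivative^[l] (T.P (SL T x))).eval (x 0)

theorem PT_an {l : ℕ} {x : E3} (hx : SL T x ∈ BD T.R T.R) : AnalyticAt ℂ (PT T l) x := by
  classical
  have h0 : ∀ᶠ x' in 𝓝 x, SL T x' ∈ BD T.R T.R :=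
    (SL T).continuous.continuousAt.eventually ((isOpen_BD _ _).mem_nhds hx)
  set P' : E3 → ℂ[X] := fun x' => if SL T x' ∈ BD T.R T.R then derivative^[l] (T.P (SL T x')) else 0
    with hP'
  have h1 : AnalyticAt ℂ (fun x' => (P' x').eval (x' 0)) x := by
    refine eval_an (P := P') (D := T.d) (fun x' => ?_) (fun n => ?_)
      ((ContinuousLinearMap.proj (R := ℂ) (φ := fun _ : Fin 3 => ℂ) 0).analyticAt x)
    · rw [hP']
      simp only
      split_ifs with h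
      · exact ((natDegree_iterate_derivative _ _).trans (Nat.sub_le _ _)).trans (T.deg _ h).le
      · simp
    · have h2 : AnalyticAt ℂ (fun x' : E3 => ((n + l).descFactorial l : ℂ) *
          (T.P (SL T x')).coeff (n + l)) x := by
        refine analyticAt_const.mul ?_
        exact AnalyticAt.comp (g := fun q => (T.P q).coeff (n + l)) (f := fun x' : E3 => SL T x')
          (T.coeff_an _ _ hx) ((SL T).analyticAt x)
      refine h2.congr ?_
      filter_upwards [h0] with x' hx'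
      rw [hP']
      simp only
      rw [if_pos hx', coeff_iterate_derivative, nsmul_eq_mul]
  refine h1.congr ?_
  filter_upwards [h0] with x' hx'
  rw [hP']
  simp only
  rw [if_pos hx']
  rfl

theorem PT_zero {l : ℕ} (hl : l < T.d) : PT T l 0 = 0 := by
  unfold PT
  rw [map_zero, T.P_zero, iterate_derivative_X_pow_eq_natCast_mul, eval_mul, eval_pow, eval_X]
  show _ * (0 : ℂ) ^ (T.d - l) = 0
  rw [zero_pow (by omega), mul_zero]

theorem PT_e0 {l : ℕ} {x : E3} (hx : SL T x ∈ BD T.R T.R) :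
    fderiv ℂ (PT T l) x (pt 1 0) = PT T (l + 1) x := by
  refine fderiv_line (PT_an hx).differentiableAt ?_
  have h1 : (fun t : ℂ => PT T l (x + t • (pt 1 0 : Fin 3 → ℂ))) =
      fun t : ℂ => (derivative^[l] (T.P (SL T x))).eval (x 0 + t) := by
    funext t
    unfold PT
    rw [map_add, map_smul, SL_e0, smul_zero, add_zero]
    congr 1
    show x 0 + t * 1 = _
    rw [mul_one]
  rw [h1]
  have h2 := (derivative^[l] (T.P (SL T x))).hasDerivAt (x 0 + 0)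
  have h3 : HasDerivAt (fun t : ℂ => x 0 + t) 1 0 := (hasDerivAt_id (0 : ℂ)).const_add (x 0)
  have h4 := HasDerivAt.comp (0 : ℂ) h2 h3
  rw [mul_one, add_zero] at h4
  unfold PT
  rw [Function.iterate_succ_apply']
  exact h4

end Crest.Agent.R257.CLog_68
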