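import Crest.Agent.R257.FrBP3_808

/-!
R257 / FrBP4_808: the frame.

* `FrIn L nu n1 n2` : input data;
* `FrIn.fr`         : the `Frame f`.
-/

set_option autoImplicit false
set_option linter.unusedSectionVars false

open Polynomial Set Filter Topology Metric
open Crest.AlgGeometry.Germ

noncomputable section

namespace Crest.Agent.R257.FrBP_808

open Crest.Agent.R257.Defs_219 Crest.Agent.R257.AJ387 Crest.Agent.R257.T387
open Crest.Agent.R257.BP_258 Crest.Agent.R257.FrmF_547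
open Crest.Agent.R257.Gr1_157
open Crest.Agent.R257.Fr_808 (jac2 SFib ex2 Frame)

section toI

variable {α : Type} (A : Set α)

/-- restriction of a label -/
def toI (o : Option α) : Option A := by
  classical
  exact if h : ∃ E : A, o = some (E : α) then some h.choose else none

variable {A}

theorem toI_some {o : Option α} {E : α} (h : o = some E) (hE : E ∈ A) : toI A o = some ⟨E, hE⟩ := by
  have h1 : ∃ E : A, o = some (E : α) := ⟨⟨E, hE⟩, h⟩
  unfold toI
  rw [dif_pos h1]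
  congr 1
  refine Subtype.ext ?_
  exact (Option.some.inj (h.symm.trans h1.choose_spec)).symm

theorem toI_none {o : Option α} (h : o = none) : toI A o = none := by
  unfold toI
  rw [dif_neg]
  rintro ⟨E, hE⟩
  rw [h] at hE
  exact absurd hE (by simp)

theorem eq_some_of_toI {o : Option α} {E : A} (h : toI A o = some E) : o = some (E : α) := by
  unfold toI at h
  split_ifs at h with h1
  rw [← Option.some.inj h]
  exact h1.choose_spec

theorem eq_none_of_toI {o : Option α} (hA : ∀ E, o = some E → E ∈ A) (h : toI A o = none) :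
    o = none := by
  cases o with
  | none => rfl
  | some E =>
    have := toI_some (A := A) (o := some E) rfl (hA E rfl)
    rw [this] at h
    exact absurd h (by simp)

end toI

variable {f : (Fin 3 → ℂ) → ℂ} {T : TB f} {U : Tub T} {S : Sh T}

/-- input data of the frame -/
structure FrIn (L : Lab U S) (nu : II U → ℤ) (n1 n2 : Ch T.m → Fin T.d → ℤ)
    [Fintype (II U)] where
  hf : Iso f
  hR : RetStmt U
  jac : Jac L nu n1 n2
  ord : OrdStmt L
  /-- a component, which fixes the graph component -/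
  E₀ : II U
  F : Finset (Ch T.m)
  ok : ∀ c ∈ F, Ok S c
  vert : ∀ E : II U, ∃ c ∈ F, IsV c ∧ ∃ j, L.e1 c j = some E
  edge : ∀ v ∈ Vs T, ec S v ∈ F
  cov : ∃ ε > 0, ∀ s y : ℂ, ‖s‖ < ε → ‖y‖ < ε → (s, y) ≠ 0 → ∃ c ∈ F, ∃ p : ℂ × ℂ,
    ‖p.1‖ ≤ S.r c ∧ ‖p.2‖ ≤ S.r c ∧ T.map c p = (s, y)
  cover : ∃ ρ > 0, ∀ x : Fin 3 → ℂ, x ≠ 0 → ‖x‖ < ρ → f x = 0 → ∃ c ∈ F, ∃ j,
    (∃ E, (L.e1 c j = some E ∨ L.e2 c j = some E) ∧ E ∈ cls (Mx L) E₀) ∧
    (∀ E, (L.e1 c j = some E ∨ L.e2 c j = some E) → E ∈ cls (Mx L) E₀) ∧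
    ∃ p : ℂ × ℂ, ‖p.1‖ ≤ 1 ∧ ‖p.2‖ ≤ 1 ∧ T.thS c (S.r c) (S.ζ c j) p = x

namespace FrIn

variable {L : Lab U S} {nu : II U → ℤ} {n1 n2 : Ch T.m → Fin T.d → ℤ} [Fintype (II U)]
  (D : FrIn L nu n1 n2)

/-- the graph component -/
def I0 : Set (II U) := cls (Mx L) D.E₀

theorem adjc : Adjc L (fun E => E ∈ D.I0) :=
  FrmG_547.adjc_of_closed L fun _ _ h1 h2 => cls_step h1 h2

/-- the charts of the frame: sheets with labels in `I0` -/
def K : Type := {a : {c // c ∈ D.F} × Fin T.d // GS L (fun E => E ∈ D.I0) a.1.1 a.2}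

/-- the chart -/
def ch (a : D.K) : Ch T.m := a.1.1.1

/-- the sheet -/
def sh (a : D.K) : Fin T.d := a.1.2

theorem okK (a : D.K) : Ok S (D.ch a) := D.ok _ a.1.1.2

theorem gs (a : D.K) : GS L (fun E => E ∈ D.I0) (D.ch a) (D.sh a) := a.2

theorem all (a : D.K) {E : II U} (h : L.e1 (D.ch a) (D.sh a) = some E ∨
    L.e2 (D.ch a) (D.sh a) = some E) : E ∈ D.I0 :=
  (GS_iff L D.adjc (D.okK a) h).1 (D.gs a)

theorem exE (a : D.K) : ∃ E : D.I0, l1 L (D.ch a) (D.sh a) = some (E : II U) := by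
  obtain ⟨E, hE⟩ := l1_some (L := L) (D.okK a) (D.sh a)
  exact ⟨⟨E, D.all a (l1_or hE)⟩, hE⟩

/-- the first label -/
def e1 (a : D.K) : D.I0 := (D.exE a).choose

theorem e1_spec (a : D.K) : l1 L (D.ch a) (D.sh a) = some (D.e1 a : II U) := (D.exE a).choose_spec

/-- the second label -/
def e2 (a : D.K) : Option D.I0 := toI D.I0 (l2 L (D.ch a) (D.sh a))

theorem e2_some {a : D.K} {E : D.I0} (h : D.e2 a = some E) :
    l2 L (D.ch a) (D.sh a) = some (E : II U) := eq_some_of_toI h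

theorem e2_none {a : D.K} (h : D.e2 a = none) : l2 L (D.ch a) (D.sh a) = none :=
  eq_none_of_toI (fun _ hE => D.all a (l2_or hE)) h

theorem e2_none_iff (a : D.K) : D.e2 a = none ↔ l2 L (D.ch a) (D.sh a) = none :=
  ⟨D.e2_none, fun h => toI_none h⟩

theorem e2_ne_iff (a : D.K) : D.e2 a ≠ none ↔ ¬ T.NE (D.ch a) := by
  rw [Ne, D.e2_none_iff, l2_none_iff (D.okK a)]

/-- the chart map -/
def th (a : D.K) : ℂ × ℂ → Fin 3 → ℂ := T.thS (D.ch a) (S.r (D.ch a)) (S.ζ (D.ch a) (D.sh a))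

theorem sheetsK (a : D.K) : T.Sheets (D.ch a) (2 * S.r (D.ch a)) (S.ζ (D.ch a)) :=
  S.sheets _ (D.okK a).1

theorem mem2 {p : ℂ × ℂ} (hp : p ∈ Fr_808.BD) : p ∈ AJ387.BD 2 2 :=
  ⟨lt_of_le_of_lt hp.1 one_lt_two, lt_of_le_of_lt hp.2 one_lt_two⟩

theorem yn_l2 (a : D.K) (v : II U → ℕ) :
    yn v (l2 L (D.ch a) (D.sh a)) = ex2 (fun i : D.I0 => v i) (D.e2 a) := by
  cases h : D.e2 a with
  | none =>
    rw [D.e2_none h]
    rfl
  | some E =>
    rw [D.e2_some h]
    rfl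

theorem finK : Finite D.K := by
  unfold K
  infer_instance

/-- **the frame** -/
def fr : Frame f :=
  letI : Fintype D.I0 := Fintype.ofFinite _
  { I := D.I0
    fI := inferInstance
    M := rM (Mx L) D.I0
    form := iform_rM (LabI_387.iform L) D.I0
    conn := conn_cls (LabI_387.iform L).symm D.E₀
    nu := fun i => nu i
    K := D.K
    fK := haveI := D.finK; Fintype.ofFinite _
    th := D.th
    e1 := D.e1
    e2 := D.e2
    nu2 := fun a => m2 n1 n2 (D.ch a) (D.sh a)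
    nu2_some := fun a i h => m2_eq D.jac (D.okK a) (D.e2_some h)
    nu2_none := fun a h => m2_le D.jac (D.okK a) (D.e2_none h)
    surj := fun i => by
      obtain ⟨c, hc, hV, j, hj⟩ := D.vert i
      let a : D.K := ⟨(⟨c, hc⟩, j), ⟨i, Or.inl hj, i.2⟩⟩
      refine ⟨a, ?_⟩
      have h1 := D.e1_spec a
      have h2 : l1 L (D.ch a) (D.sh a) = some (i : II U) := by
        show l1 L c j = some (i : II U)
        rw [l1_not (not_top_of_V hV)]
        exact hj
      rw [h2] at h1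
      exact Subtype.ext (Option.some.inj h1).symm
    an := fun a p hp => TB.thS_an (S.pos _) (D.sheetsK a) _ (mem2 hp)
    onV := fun a p hp => TB.thS_V (S.pos _) (D.sheetsK a) _ (mem2 hp)
    zero := fun a p hp => by
      have h1 := TB.thS_zero (S.pos _) (D.sheetsK a) (D.okK a).1 (D.sh a) (mem2 hp)
      have h2 : D.th a p = 0 ↔ p.1 = 0 ∨ (¬ T.NE (D.ch a) ∧ p.2 = 0) := h1
      rw [h2, ← D.e2_ne_iff a]
      constructor
      · intro h; exact ⟨hp, h⟩
      · intro h; exact h.2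
    cover := by
      obtain ⟨ρ, hρ, h⟩ := D.cover
      refine ⟨ρ, hρ, fun x hx hxρ hfx => ?_⟩
      obtain ⟨c, hc, j, hG, -, p, hp1, hp2, hp⟩ := h x hx hxρ hfx
      exact ⟨⟨(⟨c, hc⟩, j), hG⟩, p, ⟨hp1, hp2⟩, hp⟩
    mult := by
      classical
      have h1 : ∀ c : {c // c ∈ D.F}, ∃ n : ℕ, ∀ (j : Fin T.d) (x : Fin 3 → ℂ), x ≠ 0 →
          {p | p ∈ AJ387.BD 2 2 ∧ T.thS c.1 (S.r c.1) (S.ζ c.1 j) p = x}.encard ≤ n := fun c =>
        T.thS_mult (D.ok _ c.2).1 (S.pos _) (S.sheets _ (D.ok _ c.2).1)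
      choose n hn using h1
      refine ⟨∑ c, n c, fun a x hx => ?_⟩
      refine (Set.encard_le_encard ?_).trans ((hn a.1.1 (D.sh a) x hx).trans ?_)
      · rintro p ⟨hp, hpx⟩
        exact ⟨mem2 hp, hpx⟩
      · exact_mod_cast Finset.single_le_sum (f := n) (fun _ _ => Nat.zero_le _)
          (Finset.mem_univ a.1.1)
    jac := fun a p₀ hp₀ => by
      obtain ⟨V, hV, hV0, h⟩ := jac_thS D.hf D.jac (D.okK a) (D.sh a)
      have hp2 := mem2 hp₀.1
      refine ⟨V, hV p₀ hp2, hV0 p₀ hp2, ?_⟩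
      have hopen : IsOpen (AJ387.BD (2 : ℝ) 2) := isOpen_BD 2 2
      filter_upwards [hopen.mem_nhds hp2] with p hp h1 h2
      have h3 := h p hp h1 h2
      rw [m1_eq D.jac (D.okK a) (D.e1_spec a)] at h3
      exact h3
    ord := fun g hg hne => by
      obtain ⟨v, hv, h⟩ := ord_thS D.ord hg hne
      have hdg : ∀ i : D.I0, dg (rM (Mx L) D.I0) (fun j => ((v j : ℕ) : ℝ)) i =
          dg (Mx L) (fun j => (v j : ℝ)) i := fun i =>
        dg_rM (A := D.I0) (fun _ h1 _ h2 => cls_step h1 h2) (fun j => (v j : ℝ)) i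
      refine ⟨fun i => v i, fun i => ?_, fun a p₀ hp₀ => ?_⟩
      · rw [hdg]; exact hv i
      · have hin : InSF L (D.ch a) (D.sh a) p₀ := by
          refine ⟨hp₀.1.1, hp₀.1.2, ?_⟩
          rcases hp₀.2 with h1 | ⟨h1, h2⟩
          · exact Or.inl h1
          · exact Or.inr ⟨fun h3 => h1 ((D.e2_none_iff a).2 h3), h2⟩
        obtain ⟨G, hG, hev, h3, h4⟩ := h (D.ch a) (D.okK a) (D.sh a) p₀ hin
        refine ⟨G, hG, ?_, ?_, ?_⟩
        · filter_upwards [hev] with p hp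
          rw [D.e1_spec a, D.yn_l2 a v] at hp
          exact hp
        · intro hp1
          obtain ⟨h5, h6⟩ := h3 hp1 _ (D.e1_spec a)
          refine ⟨h5, fun hd => h6 ?_⟩
          rw [hdg] at hd
          exact hd
        · intro i hi hp2
          obtain ⟨h5, h6⟩ := h4 hp2 _ (D.e2_some hi)
          refine ⟨h5, fun hd => h6 ?_⟩
          rw [hdg] at hd
          exact hd }

/-! ### access -/

theorem fr_I : D.fr.I = D.I0 := rfl

theorem fr_K : D.fr.K = D.K := rfl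

theorem fr_M (i j : D.I0) : D.fr.M i j = Mx L i j := rfl

theorem fr_nu (i : D.I0) : D.fr.nu i = nu i := rfl

theorem fr_th (a : D.K) (p : ℂ × ℂ) :
    D.fr.th a p = T.thS (D.ch a) (S.r (D.ch a)) (S.ζ (D.ch a) (D.sh a)) p := rfl

theorem fr_e1 (a : D.K) : D.fr.e1 a = D.e1 a := rfl

theorem fr_e2 (a : D.K) : D.fr.e2 a = D.e2 a := rfl

theorem fr_nu2 (a : D.K) : D.fr.nu2 a = m2 n1 n2 (D.ch a) (D.sh a) := rfl

theorem fr_dg (x : II U → ℝ) (i : D.I0) :
    dg D.fr.M (fun j : D.I0 => x j) i = dg (Mx L) x i := by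
  letI : Fintype D.I0 := Fintype.ofFinite _
  exact dg_rM (A := D.I0) (fun _ h1 _ h2 => cls_step h1 h2) x i

/-- the element of `K` for a sheet with a label in `I0` -/
def mkK {c : Ch T.m} (hc : c ∈ D.F) (j : Fin T.d) {E : II U}
    (hE : L.e1 c j = some E ∨ L.e2 c j = some E) (h : E ∈ D.I0) : D.K :=
  ⟨(⟨c, hc⟩, j), ⟨E, hE, h⟩⟩

theorem e1_of {a : D.K} {E : II U} (h : l1 L (D.ch a) (D.sh a) = some E) :
    ((D.e1 a : D.I0) : II U) = E := by
  have h1 := D.e1_spec a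
  rw [h] at h1
  exact (Option.some.inj h1).symm

theorem e2_of {a : D.K} {E : II U} (h : l2 L (D.ch a) (D.sh a) = some E) (hE : E ∈ D.I0) :
    D.e2 a = some ⟨E, hE⟩ := toI_some h hE

end FrIn

end Crest.Agent.R257.FrBP_808
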