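import Crest.Agent.R257.OrdK2_82
import Crest.Agent.R257.BPDefs_258

/-!
# Row 257 (S0395), task C-ORDK (helper82), file 4: orders and kills in the language of `BPDefs_258`

* `order_L2'`  : orders at any point `(0, z)`;
* `dn_low`     : lower bound of `dn²`;
* `log_le_max` : `y₁ log|α|² + y₂ log|β|² + t log(|α|^(2b) + |β|^(2a))` is at most a maximum of two forms;
* `bp_order`   : order along `{α = 0}`;
* `bp_kill`    : kill at the origin of a chart, direction `(a, b)`.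
-/

set_option autoImplicit false
set_option linter.unusedSectionVars false

noncomputable section

open Set Filter Topology MeasureTheory
open scoped ENNReal

namespace Crest.Agent.R257.OrdK_82

open Crest.AlgGeometry.Germ
open Crest.Agent.R257.Ord_757 Crest.Agent.R257.T387 Crest.Agent.R257.BP_258

/-- **`L²` ⇒ order** at any point `(0, z)` -/
theorem order_L2' {z : ℂ} {U : Set (ℂ × ℂ)}
    (hU : ∀ᶠ p in 𝓝 ((0 : ℂ), z), p.1 ≠ 0 → p ∈ U) {v : ℂ × ℂ → ℂ}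
    (hv : AnalyticAt ℂ v (0, z)) {w : ℂ × ℂ → ℝ} {r c : ℝ} (hc : 0 < c)
    (hw : ∀ᶠ p in 𝓝 ((0 : ℂ), z), p.1 ≠ 0 → c * ‖p.1‖ ^ (-2 * r - 2) ≤ w p)
    (hL : ∫⁻ p in U, ENNReal.ofReal (‖v p‖ ^ 2 * w p) ≠ ⊤) :
    ∃ (n : ℕ) (H : ℂ × ℂ → ℂ), r < n ∧ AnalyticAt ℂ H (0, z) ∧
      ∀ᶠ p in 𝓝 ((0 : ℂ), z), v p = p.1 ^ n * H p := by
  have hT : Tendsto (fun p : ℂ × ℂ => ((p.1, p.2 - 1 + z) : ℂ × ℂ)) (𝓝 ((0 : ℂ), (1 : ℂ)))
      (𝓝 ((0 : ℂ), z)) := by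
    have : Continuous (fun p : ℂ × ℂ => ((p.1, p.2 - 1 + z) : ℂ × ℂ)) := by fun_prop
    exact this.tendsto' _ _ (by simp)
  have hT' : Tendsto (fun p : ℂ × ℂ => ((p.1, p.2 + 1 - z) : ℂ × ℂ)) (𝓝 ((0 : ℂ), z))
      (𝓝 ((0 : ℂ), (1 : ℂ))) := by
    have : Continuous (fun p : ℂ × ℂ => ((p.1, p.2 + 1 - z) : ℂ × ℂ)) := by fun_prop
    exact this.tendsto' _ _ (by simp)
  set τ : ℂ × ℂ → ℂ × ℂ := fun p => (p.1, p.2 - 1 + z) with hτ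
  have hτe : τ = fun p => p + ((0 : ℂ), z - 1) := by
    funext p; simp only [hτ]; ext <;> simp; ring
  have hv' : AnalyticAt ℂ (v ∘ τ) ((0 : ℂ), (1 : ℂ)) := by
    refine AnalyticAt.comp (g := v) (f := τ) ?_
      (analyticAt_fst.prod ((analyticAt_snd.sub analyticAt_const).add analyticAt_const))
    simpa [hτ] using hv
  have hL' : ∫⁻ p in τ ⁻¹' U, ENNReal.ofReal (‖(v ∘ τ) p‖ ^ 2 * (w ∘ τ) p) ≠ ⊤ := by
    have : (volume : Measure (ℂ × ℂ)).IsAddRightInvariant := by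
      rw [Measure.volume_eq_prod]; infer_instance
    have hmp : MeasurePreserving τ (volume : Measure (ℂ × ℂ)) volume := by
      rw [hτe]; exact measurePreserving_add_right _ _
    have hem : MeasurableEmbedding τ := by
      rw [hτe]; exact measurableEmbedding_addRight _
    have := hmp.setLIntegral_comp_preimage_emb hem
      (fun p => ENNReal.ofReal (‖v p‖ ^ 2 * w p)) U
    show ∫⁻ p in τ ⁻¹' U, (fun p => ENNReal.ofReal (‖v p‖ ^ 2 * w p)) (τ p) ≠ ⊤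
    rw [this]
    exact hL
  obtain ⟨n, H, h1, h2, h3⟩ := order_L2 (z := 1) one_ne_zero (U := τ ⁻¹' U)
    ((hT.eventually hU).mono fun p hp n1 _ => hp n1) hv' (w := w ∘ τ) hc
    ((hT.eventually hw).mono fun p hp n1 _ => hp n1) hL'
  refine ⟨n, fun p => H (p.1, p.2 + 1 - z), h1, ?_, ?_⟩
  · refine AnalyticAt.comp (g := H) (f := fun p : ℂ × ℂ => ((p.1, p.2 + 1 - z) : ℂ × ℂ)) ?_
      (analyticAt_fst.prod ((analyticAt_snd.add analyticAt_const).sub analyticAt_const))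
    simpa using h2
  · filter_upwards [hT'.eventually h3] with p hp
    have e : τ (p.1, p.2 + 1 - z) = p := by
      simp only [hτ]
      ext
      · rfl
      · show p.2 + 1 - z - 1 + z = p.2
        ring
    have hp' : v (τ (p.1, p.2 + 1 - z)) = p.1 ^ n * H (p.1, p.2 + 1 - z) := hp
    rwa [e] at hp'

variable {f : (Fin 3 → ℂ) → ℂ} {T : TB f} {U : Tub T} {S : Sh T} {L : Lab U S}

theorem gen_of (c : Ch T.m) {p : ℂ × ℂ} (h1 : p.1 ≠ 0) (h2 : p.2 ≠ 0) : T.Gen c p := by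
  cases c
  · exact ⟨h1, h2⟩
  · exact ⟨h1, h2⟩
  · exact h1

theorem zp_sq {x : ℝ} (hx : 0 < x) (k : ℤ) :
    (x ^ (-k - 1)) ^ 2 = x ^ (-2 * (k : ℝ) - 2) := by
  rw [← Real.rpow_intCast, ← Real.rpow_natCast, ← Real.rpow_mul hx.le]
  congr 1
  push_cast
  ring

/-- lower bound of the density -/
theorem dn_low {nu : II U → ℤ} {n1 n2 : Ch T.m → Fin T.d → ℤ} (J : Jac L nu n1 n2) {c : Ch T.m}
    (hc : Ok S c) (j : Fin T.d) : ∃ κ > 0, ∀ p : ℂ × ℂ, ‖p.1‖ ≤ S.r c → ‖p.2‖ ≤ S.r c →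
      p.1 ≠ 0 → p.2 ≠ 0 →
      κ * (‖p.1‖ ^ (-2 * (n1 c j : ℝ) - 2) * ‖p.2‖ ^ (-2 * (n2 c j : ℝ) - 2)) ≤
        dn S c j p ^ 2 := by
  obtain ⟨K, hK, h⟩ := J.bd c hc j
  refine ⟨(K ^ 2)⁻¹, by positivity, fun p h1 h2 n1' n2' => ?_⟩
  obtain ⟨-, -, h3⟩ := h p h1 h2 (gen_of c n1' n2')
  have hp1 : 0 < ‖p.1‖ := norm_pos_iff.2 n1'
  have hp2 : 0 < ‖p.2‖ := norm_pos_iff.2 n2'
  have h4 : (‖p.1‖ ^ (-n1 c j - 1) * ‖p.2‖ ^ (-n2 c j - 1)) ^ 2 ≤ (K * dn S c j p) ^ 2 :=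
    pow_le_pow_left₀ (by positivity) h3 2
  rw [mul_pow, mul_pow, zp_sq hp1, zp_sq hp2] at h4
  rw [inv_mul_le_iff₀ (by positivity)]
  exact h4

/-- lower bound of the density, vertex charts -/
theorem dn_low_v {nu : II U → ℤ} {n1 n2 : Ch T.m → Fin T.d → ℤ} (J : Jac L nu n1 n2)
    {c : Ch T.m} (hc : Ok S c) (hv : IsV c) (j : Fin T.d) :
    ∃ κ > 0, ∀ p : ℂ × ℂ, ‖p.1‖ ≤ S.r c → ‖p.2‖ ≤ S.r c → p.1 ≠ 0 →
      κ * ‖p.1‖ ^ (-2 * (n1 c j : ℝ) - 2) ≤ dn S c j p ^ 2 := by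
  obtain ⟨K, hK, h⟩ := J.bd c hc j
  have hn2 := J.vert c hc hv j
  refine ⟨(K ^ 2)⁻¹, by positivity, fun p h1 h2 n1' => ?_⟩
  have hg : T.Gen c p := by
    cases c with
    | edge i k k' => exact absurd hv (by simp [IsV])
    | leg i => exact absurd hv (by simp [IsV])
    | vert i k w => exact n1'
  obtain ⟨-, -, h3⟩ := h p h1 h2 hg
  have hp1 : 0 < ‖p.1‖ := norm_pos_iff.2 n1'
  rw [hn2] at h3
  have h4 : (‖p.1‖ ^ (-n1 c j - 1)) ^ 2 ≤ (K * dn S c j p) ^ 2 := by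
    refine pow_le_pow_left₀ (by positivity) ?_ 2
    simpa using h3
  rw [mul_pow, zp_sq hp1] at h4
  rw [inv_mul_le_iff₀ (by positivity)]
  exact h4

/-- the kink function is at most a maximum of two linear forms -/
theorem log_le_max {y₁ y₂ t : ℝ} (ht : 0 ≤ t) (a b : ℕ) {p : ℂ × ℂ} (h1 : p.1 ≠ 0) (h2 : p.2 ≠ 0) :
    y₁ * Real.log (‖p.1‖ ^ 2) + y₂ * Real.log (‖p.2‖ ^ 2) +
      t * Real.log (‖p.1‖ ^ (2 * b) + ‖p.2‖ ^ (2 * a)) ≤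
    max (lin (y₁ + t * b) y₂ (0, 0) p) (lin y₁ (y₂ + t * a) (0, 0) p) + t * Real.log 2 := by
  have hp1 : 0 < ‖p.1‖ := norm_pos_iff.2 h1
  have hp2 : 0 < ‖p.2‖ := norm_pos_iff.2 h2
  have e1 : lin (y₁ + t * b) y₂ (0, 0) p = y₁ * Real.log (‖p.1‖ ^ 2) + y₂ * Real.log (‖p.2‖ ^ 2) +
      t * Real.log (‖p.1‖ ^ (2 * b)) := by
    unfold lin
    simp only [sub_zero]
    rw [pow_mul ‖p.1‖ 2 b, Real.log_pow (‖p.1‖ ^ 2) b]
    ring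
  have e2 : lin y₁ (y₂ + t * a) (0, 0) p = y₁ * Real.log (‖p.1‖ ^ 2) + y₂ * Real.log (‖p.2‖ ^ 2) +
      t * Real.log (‖p.2‖ ^ (2 * a)) := by
    unfold lin
    simp only [sub_zero]
    rw [pow_mul ‖p.2‖ 2 a, Real.log_pow (‖p.2‖ ^ 2) a]
    ring
  rw [e1, e2]
  rcases le_total (‖p.1‖ ^ (2 * b)) (‖p.2‖ ^ (2 * a)) with h | h
  · have h3 : Real.log (‖p.1‖ ^ (2 * b) + ‖p.2‖ ^ (2 * a)) ≤
        Real.log (‖p.2‖ ^ (2 * a)) + Real.log 2 := by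
      rw [← Real.log_mul (by positivity) (by norm_num)]
      exact Real.log_le_log (by positivity) (by linarith)
    have h4 := mul_le_mul_of_nonneg_left h3 ht
    have h5 := le_max_right (y₁ * Real.log (‖p.1‖ ^ 2) + y₂ * Real.log (‖p.2‖ ^ 2) +
      t * Real.log (‖p.1‖ ^ (2 * b))) (y₁ * Real.log (‖p.1‖ ^ 2) + y₂ * Real.log (‖p.2‖ ^ 2) +
      t * Real.log (‖p.2‖ ^ (2 * a)))
    linarith
  · have h3 : Real.log (‖p.1‖ ^ (2 * b) + ‖p.2‖ ^ (2 * a)) ≤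
        Real.log (‖p.1‖ ^ (2 * b)) + Real.log 2 := by
      rw [← Real.log_mul (by positivity) (by norm_num)]
      exact Real.log_le_log (by positivity) (by linarith)
    have h4 := mul_le_mul_of_nonneg_left h3 ht
    have h5 := le_max_left (y₁ * Real.log (‖p.1‖ ^ 2) + y₂ * Real.log (‖p.2‖ ^ 2) +
      t * Real.log (‖p.1‖ ^ (2 * b))) (y₁ * Real.log (‖p.1‖ ^ 2) + y₂ * Real.log (‖p.2‖ ^ 2) +
      t * Real.log (‖p.2‖ ^ (2 * a)))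
    linarith

/-- **orders in a chart**: at `(0, z)`, `z ≠ 0` or `c` a vertex chart -/
theorem bp_order {nu : II U → ℤ} {n1 n2 : Ch T.m → Fin T.d → ℤ} (J : Jac L nu n1 n2) {c : Ch T.m}
    (hc : Ok S c) (j : Fin T.d) {z : ℂ} (hz : z ≠ 0 ∨ IsV c) (hzr : ‖z‖ < S.r c)
    {O : Set (ℂ × ℂ)} (hO : ∀ᶠ p in 𝓝 ((0 : ℂ), z), T.Gen c p → p ∈ O) {v : ℂ × ℂ → ℂ}
    (hv : AnalyticAt ℂ v (0, z)) {Φ : ℂ × ℂ → ℝ} {y C : ℝ}
    (hΦ : ∀ᶠ p in 𝓝 ((0 : ℂ), z), T.Gen c p → Φ p ≤ y * Real.log (‖p.1‖ ^ 2) + C)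
    (hL : ∫⁻ p in O, ENNReal.ofReal (‖v p‖ ^ 2 * Real.exp (-Φ p) * dn S c j p ^ 2) ≠ ⊤) :
    ∃ (n : ℕ) (H : ℂ × ℂ → ℂ), y + n1 c j < n ∧ AnalyticAt ℂ H (0, z) ∧
      ∀ᶠ p in 𝓝 ((0 : ℂ), z), v p = p.1 ^ n * H p := by
  have hr1 : ∀ᶠ p : ℂ × ℂ in 𝓝 ((0 : ℂ), z), ‖p.1‖ ≤ S.r c ∧ ‖p.2‖ ≤ S.r c := by
    have e1 : ∀ᶠ p : ℂ × ℂ in 𝓝 ((0 : ℂ), z), ‖p.1‖ < S.r c :=
      (continuousAt_fst.norm.eventually (gt_mem_nhds (by simpa using S.pos c)))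
    have e2 : ∀ᶠ p : ℂ × ℂ in 𝓝 ((0 : ℂ), z), ‖p.2‖ < S.r c :=
      (continuousAt_snd.norm.eventually (gt_mem_nhds (by simpa using hzr)))
    filter_upwards [e1, e2] with p h1 h2 using ⟨h1.le, h2.le⟩
  -- generic points near `(0,z)`
  have hgen : ∀ᶠ p : ℂ × ℂ in 𝓝 ((0 : ℂ), z), p.1 ≠ 0 → T.Gen c p := by
    rcases hz with hz | hz
    · filter_upwards [continuousAt_snd.eventually_ne (x := ((0 : ℂ), z)) (y := (0 : ℂ)) hz]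
        with p hp n1' using gen_of c n1' hp
    · refine Eventually.of_forall fun p hp => ?_
      cases c with
      | edge i k k' => exact absurd hz (by simp [IsV])
      | leg i => exact absurd hz (by simp [IsV])
      | vert i k w => exact hp
  have hden : ∃ κ > 0, ∀ᶠ p : ℂ × ℂ in 𝓝 ((0 : ℂ), z), p.1 ≠ 0 →
      κ * ‖p.1‖ ^ (-2 * (n1 c j : ℝ) - 2) ≤ dn S c j p ^ 2 := by
    by_cases hV : IsV c
    · obtain ⟨κ, hκ, h⟩ := dn_low_v J hc hV j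
      exact ⟨κ, hκ, hr1.mono fun p hp n1' => h p hp.1 hp.2 n1'⟩
    · have hz' : z ≠ 0 := hz.resolve_right hV
      obtain ⟨κ, hκ, h⟩ := dn_low J hc j
      obtain ⟨κ', hκ', h2⟩ := rpow_low (x := fun p : ℂ × ℂ => p.2) (q := ((0 : ℂ), z))
        continuousAt_snd hz' (-2 * (n2 c j : ℝ) - 2)
      refine ⟨κ * κ', by positivity, ?_⟩
      filter_upwards [hr1, h2,
        continuousAt_snd.eventually_ne (x := ((0 : ℂ), z)) (y := (0 : ℂ)) hz'] with p q1 q2 q3 n1'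
      refine le_trans ?_ (h p q1.1 q1.2 n1' q3)
      calc κ * κ' * ‖p.1‖ ^ (-2 * (n1 c j : ℝ) - 2)
          = κ * (‖p.1‖ ^ (-2 * (n1 c j : ℝ) - 2) * κ') := by ring
        _ ≤ _ := by gcongr
  obtain ⟨κ, hκ, hd⟩ := hden
  refine order_L2' (U := O) (v := v) (w := fun p => Real.exp (-Φ p) * dn S c j p ^ 2)
    (r := y + n1 c j) (c := Real.exp (-C) * κ) ?_ hv (by positivity) ?_
    (by simpa [mul_assoc] using hL)
  · filter_upwards [hO, hgen] with p h1 h2 n1' using h1 (h2 n1')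
  · filter_upwards [hd, hΦ, hgen] with p q1 q2 q3 n1'
    have hp : 0 < ‖p.1‖ := norm_pos_iff.2 n1'
    have e1 : Real.exp (-C) * ‖p.1‖ ^ (-2 * y) ≤ Real.exp (-Φ p) := by
      rw [Real.rpow_def_of_pos hp, ← Real.exp_add]
      refine Real.exp_le_exp.2 ?_
      have := q2 (q3 n1')
      rw [Real.log_pow] at this
      push_cast at this
      linarith
    calc Real.exp (-C) * κ * ‖p.1‖ ^ (-2 * (y + (n1 c j : ℝ)) - 2)
        = (Real.exp (-C) * ‖p.1‖ ^ (-2 * y)) * (κ * ‖p.1‖ ^ (-2 * (n1 c j : ℝ) - 2)) := by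
          rw [show -2 * (y + (n1 c j : ℝ)) - 2 = -2 * y + (-2 * (n1 c j : ℝ) - 2) by ring,
            Real.rpow_add hp]
          ring
      _ ≤ _ := mul_le_mul e1 (q1 n1') (by positivity) (Real.exp_pos _).le

/-- **kill at the origin of a chart**, direction `(a, b)` : if `g - κ₀ α^m₁ β^m₂` has the `L²` bound and
`g = α^m₁ β^m₂ H`, then `H (0,0) = κ₀` -/
theorem bp_kill {nu : II U → ℤ} {n1 n2 : Ch T.m → Fin T.d → ℤ} (J : Jac L nu n1 n2) {c : Ch T.m}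
    (hc : Ok S c) (j : Fin T.d) {a b : ℕ} (ha : 0 < a) (hb : 0 < b)
    {O : Set (ℂ × ℂ)} (hO : ∀ᶠ p in 𝓝 ((0 : ℂ), (0 : ℂ)), p.1 ≠ 0 → p.2 ≠ 0 → p ∈ O)
    {u H : ℂ × ℂ → ℂ} {m₁ m₂ : ℕ} {κ₀ : ℂ} (hH : ContinuousAt H (0, 0))
    (hu : ∀ᶠ p in 𝓝 ((0 : ℂ), (0 : ℂ)), p.1 ≠ 0 → p.2 ≠ 0 → u p = p.1 ^ m₁ * p.2 ^ m₂ * H p)
    {D : ℂ × ℂ → ℂ}
    (hD : ∀ᶠ p in 𝓝 ((0 : ℂ), (0 : ℂ)), p.1 ≠ 0 → p.2 ≠ 0 → D p = κ₀ * (p.1 ^ m₁ * p.2 ^ m₂))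
    {Φ : ℂ × ℂ → ℝ} {y₁ y₂ t C : ℝ} (ht : 0 ≤ t)
    (hΦ : ∀ᶠ p in 𝓝 ((0 : ℂ), (0 : ℂ)), p.1 ≠ 0 → p.2 ≠ 0 →
      Φ p ≤ y₁ * Real.log (‖p.1‖ ^ 2) + y₂ * Real.log (‖p.2‖ ^ 2) +
        t * Real.log (‖p.1‖ ^ (2 * b) + ‖p.2‖ ^ (2 * a)) + C)
    (hm : (a : ℝ) * m₁ + b * m₂ ≤ a * (y₁ + n1 c j) + b * (y₂ + n2 c j) + a * b * t)
    (hL : ∫⁻ p in O, ENNReal.ofReal (‖u p - D p‖ ^ 2 * Real.exp (-Φ p) *
      dn S c j p ^ 2) ≠ ⊤) :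
    H (0, 0) = κ₀ := by
  obtain ⟨k, hk, hd⟩ := dn_low J hc j
  have hr1 : ∀ᶠ p : ℂ × ℂ in 𝓝 ((0 : ℂ), (0 : ℂ)), ‖p.1‖ ≤ S.r c ∧ ‖p.2‖ ≤ S.r c := by
    have e1 : ∀ᶠ p : ℂ × ℂ in 𝓝 ((0 : ℂ), (0 : ℂ)), ‖p.1‖ < S.r c :=
      (continuousAt_fst.norm.eventually (gt_mem_nhds (by simpa using S.pos c)))
    have e2 : ∀ᶠ p : ℂ × ℂ in 𝓝 ((0 : ℂ), (0 : ℂ)), ‖p.2‖ < S.r c :=
      (continuousAt_snd.norm.eventually (gt_mem_nhds (by simpa using S.pos c)))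
    filter_upwards [e1, e2] with p h1 h2 using ⟨h1.le, h2.le⟩
  have ha' : (0 : ℝ) < a := by exact_mod_cast ha
  have hb' : (0 : ℝ) < b := by exact_mod_cast hb
  have key : (fun p => H p - κ₀) ((0 : ℂ), (0 : ℂ)) = 0 := by
    refine kill_max ha' hb' (p₀ := ((0 : ℂ), (0 : ℂ))) (U := O) (v := fun p => u p - D p)
      (μ := fun p => p.1 ^ m₁ * p.2 ^ m₂) (H := fun p => H p - κ₀) (Φ := Φ)
      (den := fun p => dn S c j p ^ 2) hO (hH.sub continuousAt_const) ?_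
      (m := m₁) (n := m₂) (ν := n1 c j) (ν' := n2 c j) (x₁ := y₁ + t * b) (y₁ := y₂)
      (x₂ := y₁) (y₂ := y₂ + t * a) (C := t * Real.log 2 + C) (c₁ := 1) (c₂ := k) one_pos hk
      ?_ ?_ ?_ ?_ ?_ hL
    · filter_upwards [hu, hD] with p h1 h2 n1' n2'
      rw [h1 n1' n2', h2 n1' n2']; ring
    · refine Eventually.of_forall fun p _ _ => ?_
      simp only [sub_zero, one_mul, Real.rpow_natCast, norm_mul, norm_pow]
      exact le_rfl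
    · filter_upwards [hr1] with p h1 n1' n2'
      simpa only [sub_zero] using hd p h1.1 h1.2 n1' n2'
    · filter_upwards [hΦ] with p h1 n1' n2'
      have h2 := log_le_max (y₁ := y₁) (y₂ := y₂) ht a b n1' n2'
      have h3 := h1 n1' n2'
      linarith
    · nlinarith [hm]
    · nlinarith [hm]
  exact sub_eq_zero.1 key

end Crest.Agent.R257.OrdK_82
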