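import Crest.Agent.R257.HoT_843
import Crest.Agent.R257.OrdK4_82
import Crest.Agent.R257.T7_387
import Crest.Agent.R257.T8_387

/-!
# Row 257 (S0395), task C-ORDK (helper82), file 5: from the Hörmander step `hoT` to orders and kills

* `HT S g V D Φ ρ₁` : the conclusion of `HoT_843.hoT`;
* `HT.l2`    : the averaged `L²` bound for `g ∘ th` on an open set of generic points;
* `HT.order` : order along `{α = 0}` at `(0, z)`;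
* `HT.kill`  : kill at the origin of a chart;
* `rot_le`, `rot_mono` : the local hypotheses from the action of the rotations on the charts.
-/

set_option autoImplicit false
set_option linter.unusedSectionVars false

noncomputable section

open Set Filter Topology MeasureTheory
open scoped ENNReal

namespace Crest.Agent.R257.OrdK_82

open Crest.AlgGeometry.Germ
open Crest.Agent.R257.Ord_757 Crest.Agent.R257.T387 Crest.Agent.R257.BP_258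
open Crest.Agent.R257.HoT_843 Crest.Agent.R257.AJ387
open Polynomial (nthRootsFinset)

variable {f : (Fin 3 → ℂ) → ℂ} {T : TB f}

/-- the output of the Hörmander step -/
structure HT (S : Sh T) (g V D : (Fin 3 → ℂ) → ℂ) (Φ : (Fin 3 → ℂ) → ℝ) (ρ₁ : ℝ) : Prop where
  an : AnalyticAt ℂ g 0
  pos : 0 < ρ₁
  avg : ∀ c, T.Valid c → ∀ j, ∀ p ∈ Ogs S c ρ₁, g (T.th c (S.ζ c j) p) =
    1 / T.N * ∑ ξ ∈ nthRootsFinset T.N (1 : ℂ), V (rot ξ (wc S c j p))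
  hol : ∀ c, T.Valid c → ∀ j, ∀ ξ : ℂ, ξ ^ T.N = 1 →
    DifferentiableOn ℂ (fun p => V (rot ξ (wc S c j p))) (Ogs S c ρ₁)
  bd : ∀ c, T.Valid c → ∀ j,
    (∀ p ∈ Ogs S c ρ₁, ∀ i, (T.map c p).2 ≠ T.φ i ((T.map c p).1 ^ T.M)) → ∀ ξ : ℂ, ξ ^ T.N = 1 →
    ∫⁻ p in Ogs S c ρ₁, ENNReal.ofReal (‖V (rot ξ (wc S c j p)) - D (rot ξ (wc S c j p))‖ ^ 2 *
      Real.exp (-Φ (rot ξ (wc S c j p))) * dn S c j p ^ 2) ≠ ⊤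

/-- the conclusion of `hoT` gives `HT` -/
theorem HT.of_hoT {S : Sh T} {D : (Fin 3 → ℂ) → ℂ} {Φ : (Fin 3 → ℂ) → ℝ} {ρ₀ : ℝ}
    (h : ∃ (g V : (Fin 3 → ℂ) → ℂ) (ρ₁ : ℝ) (K : ℝ≥0∞), AnalyticAt ℂ g 0 ∧ 0 < ρ₁ ∧ ρ₁ ≤ ρ₀ ∧
      K ≠ ∞ ∧
      (∃ G : (Fin 3 → ℂ) → ℂ, DifferentiableOn ℂ G (OtK_331.Pd ![T.rz, ρ₁, ρ₁]) ∧
        ∀ u, V u = G u / u 1 ^ (T.N - 1)) ∧
      ∀ c, T.Valid c → ∀ j,
        (∀ p ∈ Ogs S c ρ₁, g (T.th c (S.ζ c j) p) =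
          1 / T.N * ∑ ξ ∈ nthRootsFinset T.N (1 : ℂ), V (rot ξ (wc S c j p))) ∧
        ∀ ξ : ℂ, ξ ^ T.N = 1 →
          DifferentiableOn ℂ (fun p => V (rot ξ (wc S c j p))) (Ogs S c ρ₁) ∧
          ((∀ p ∈ Ogs S c ρ₁, ∀ i, (T.map c p).2 ≠ T.φ i ((T.map c p).1 ^ T.M)) →
          ∫⁻ p in Ogs S c ρ₁, ENNReal.ofReal (‖V (rot ξ (wc S c j p)) -
            D (rot ξ (wc S c j p))‖ ^ 2 * Real.exp (-Φ (rot ξ (wc S c j p))) *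
              dn S c j p ^ 2) ≤ K)) :
    ∃ (g V : (Fin 3 → ℂ) → ℂ) (ρ₁ : ℝ), ρ₁ ≤ ρ₀ ∧ HT S g V D Φ ρ₁ := by
  obtain ⟨g, V, ρ₁, K, h1, h2, h3, h4, -, h5⟩ := h
  exact ⟨g, V, ρ₁, h3, h1, h2, fun c hc j => (h5 c hc j).1,
    fun c hc j ξ hξ => ((h5 c hc j).2 ξ hξ).1,
    fun c hc j hoff ξ hξ => ne_top_of_le_ne_top h4 (((h5 c hc j).2 ξ hξ).2 hoff)⟩

/-- off the branches, from `MonoC` -/
theorem off_of_mono {S : Sh T} {c : Ch T.m} (h : T.MonoC c (S.r c)) (ρ₁ : ℝ) :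
    ∀ p ∈ Ogs S c ρ₁, ∀ i, (T.map c p).2 ≠ T.φ i ((T.map c p).1 ^ T.M) :=
  fun _ hp i => h.ne ⟨hp.1.1, hp.1.2.1⟩ hp.1.2.2.1 i

variable {S : Sh T}

/-- the density is continuous at the generic points -/
theorem dn_cont {c : Ch T.m} (hc : T.Valid c) (j : Fin T.d) {p : ℂ × ℂ} (h1 : ‖p.1‖ < 2 * S.r c)
    (h2 : ‖p.2‖ < 2 * S.r c) (hg : T.Gen c p) : ContinuousAt (dn S c j) p := by
  have hm := (S.sheets c hc).map_an (p := p) ⟨h1, h2⟩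
  have hm1 : AnalyticAt ℂ (fun q => (T.map c q).1) p := analyticAt_fst.comp hm
  have hm2 : AnalyticAt ℂ (fun q => (T.map c q).2) p := analyticAt_snd.comp hm
  have ht := (S.sheets c hc).th_an j (p := p) ⟨h1, h2⟩
  have hf := (S.sheets c hc).f_an j (p := p) ⟨h1, h2⟩
  have e1 : ContinuousAt (fun q => coordDeriv f 0 (T.th c (S.ζ c j) q)) p := by
    have h3 : ContinuousAt (fun q => fderiv ℂ f (T.th c (S.ζ c j) q)) p :=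
      ContinuousAt.comp (g := fderiv ℂ f) hf.fderiv.continuousAt ht.continuousAt
    exact h3.clm_apply continuousAt_const
  have e2 : ContinuousAt (Jm T c) p := by
    unfold Jm
    have a1 := hm1.fderiv.continuousAt
    have a2 := hm2.fderiv.continuousAt
    exact ((a1.clm_apply continuousAt_const).mul (a2.clm_apply continuousAt_const)).sub
      ((a1.clm_apply continuousAt_const).mul (a2.clm_apply continuousAt_const))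
  have hne : coordDeriv f 0 (T.th c (S.ζ c j) p) ≠ 0 := cd_ne S hc h1 h2 hg j
  unfold dn
  exact ((hm1.continuousAt.norm.pow _).mul e2.norm).div e1.norm (norm_ne_zero_iff.2 hne)

/-- **the averaged `L²` bound** -/
theorem HT.l2 {g V D : (Fin 3 → ℂ) → ℂ} {Φ : (Fin 3 → ℂ) → ℝ} {ρ₁ : ℝ} (h : HT S g V D Φ ρ₁)
    {c : Ch T.m} (hc : T.Valid c) (j : Fin T.d)
    (hoff : ∀ p ∈ Ogs S c ρ₁, ∀ i, (T.map c p).2 ≠ T.φ i ((T.map c p).1 ^ T.M))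
    {W : Set (ℂ × ℂ)} (hW : IsOpen W) (hWO : W ⊆ Ogs S c ρ₁) {d : ℂ → ℂ × ℂ → ℂ}
    (hd : ∀ ξ : ℂ, ξ ^ T.N = 1 → ContinuousOn (d ξ) W)
    (hD : ∀ ξ : ℂ, ξ ^ T.N = 1 → ∀ p ∈ W, D (rot ξ (wc S c j p)) = d ξ p) {Ψ : ℂ × ℂ → ℝ}
    (hΨ : ContinuousOn Ψ W)
    (hΦ : ∀ ξ : ℂ, ξ ^ T.N = 1 → ∀ p ∈ W, Φ (rot ξ (wc S c j p)) ≤ Ψ p) :
    ∫⁻ p in W, ENNReal.ofReal (‖g (T.th c (S.ζ c j) p) -
      1 / T.N * ∑ ξ ∈ nthRootsFinset T.N (1 : ℂ), d ξ p‖ ^ 2 * Real.exp (-Ψ p) *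
        dn S c j p ^ 2) ≠ ⊤ := by
  have hroot : ∀ ξ ∈ nthRootsFinset T.N (1 : ℂ), ξ ^ T.N = 1 := fun ξ hξ => by
    rwa [Polynomial.mem_nthRootsFinset T.N_pos] at hξ
  have e : ∫⁻ p in W, ENNReal.ofReal (‖g (T.th c (S.ζ c j) p) -
      1 / T.N * ∑ ξ ∈ nthRootsFinset T.N (1 : ℂ), d ξ p‖ ^ 2 * Real.exp (-Ψ p) *
        dn S c j p ^ 2) =
      ∫⁻ p in W, ENNReal.ofReal (‖(1 / T.N : ℂ) * ∑ ξ ∈ nthRootsFinset T.N (1 : ℂ),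
        (V (rot ξ (wc S c j p)) - d ξ p)‖ ^ 2 * (Real.exp (-Ψ p) * dn S c j p ^ 2)) := by
    refine setLIntegral_congr_fun hW.measurableSet fun p hp => ?_
    rw [h.avg c hc j p (hWO hp), Finset.sum_sub_distrib, mul_sub, mul_assoc]
  rw [e]
  have hV : ∀ ξ : ℂ, ξ ^ T.N = 1 → ContinuousOn (fun p => V (rot ξ (wc S c j p)) - d ξ p) W :=
    fun ξ hξ => ((h.hol c hc j ξ hξ).continuousOn.mono hWO).sub (hd ξ hξ)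
  have hdn : ContinuousOn (fun p => Real.exp (-Ψ p) * dn S c j p ^ 2) W := by
    refine (Real.continuous_exp.comp_continuousOn hΨ.neg).mul (ContinuousOn.pow ?_ 2)
    intro p hp
    obtain ⟨b1, b2⟩ := Og_lt S (hWO hp).1
    exact (dn_cont hc j b1 b2 (hWO hp).1.2.2.1).continuousWithinAt
  refine avg_L2 (nthRootsFinset T.N (1 : ℂ)) hW.measurableSet
    (v := fun ξ p => V (rot ξ (wc S c j p)) - d ξ p)
    (w := fun _ p => Real.exp (-Ψ p) * dn S c j p ^ 2)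
    (w₀ := fun p => Real.exp (-Ψ p) * dn S c j p ^ 2) (fun p _ => by positivity)
    (fun _ _ _ _ => le_rfl) (fun ξ hξ => ?_) (fun ξ hξ => ?_) _
  · refine ContinuousOn.aemeasurable ?_ hW.measurableSet
    exact ENNReal.continuous_ofReal.comp_continuousOn (((hV ξ (hroot ξ hξ)).norm.pow 2).mul hdn)
  · refine ne_top_of_le_ne_top (h.bd c hc j hoff ξ (hroot ξ hξ)) ?_
    refine (setLIntegral_mono' hW.measurableSet (g := fun p => ENNReal.ofReal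
      (‖V (rot ξ (wc S c j p)) - D (rot ξ (wc S c j p))‖ ^ 2 *
      Real.exp (-Φ (rot ξ (wc S c j p))) * dn S c j p ^ 2)) fun p hp => ?_).trans
      (lintegral_mono_set hWO)
    refine ENNReal.ofReal_le_ofReal ?_
    rw [hD ξ (hroot ξ hξ) p hp, ← mul_assoc]
    refine mul_le_mul_of_nonneg_right ?_ (by positivity)
    refine mul_le_mul_of_nonneg_left ?_ (by positivity)
    exact Real.exp_le_exp.2 (neg_le_neg (hΦ ξ (hroot ξ hξ) p hp))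

/-- small generic points -/
theorem ogs_ev {c : Ch T.m} (hc : T.Valid c) {p₀ : ℂ × ℂ} (h1 : ‖p₀.1‖ < S.r c)
    (h2 : ‖p₀.2‖ < S.r c) (h0 : T.map c p₀ = 0) {ρ₁ : ℝ} (hρ : 0 < ρ₁) :
    ∀ᶠ p in 𝓝 p₀, T.Gen c p → p ∈ Ogs S c ρ₁ := by
  have hr := S.pos c
  have hm := ((S.sheets c hc).map_an (p := p₀) ⟨by linarith, by linarith⟩).continuousAt
  have e1 : ∀ᶠ p : ℂ × ℂ in 𝓝 p₀, ‖p.1‖ < S.r c :=
    continuousAt_fst.norm.eventually (gt_mem_nhds h1)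
  have e2 : ∀ᶠ p : ℂ × ℂ in 𝓝 p₀, ‖p.2‖ < S.r c :=
    continuousAt_snd.norm.eventually (gt_mem_nhds h2)
  have e3 : ∀ᶠ p : ℂ × ℂ in 𝓝 p₀, ‖(T.map c p).1‖ < ρ₁ := by
    refine hm.fst.norm.eventually (gt_mem_nhds ?_)
    show ‖(T.map c p₀).1‖ < ρ₁
    rw [h0]; simpa using hρ
  have e4 : ∀ᶠ p : ℂ × ℂ in 𝓝 p₀, ‖(T.map c p).2‖ < ρ₁ := by
    refine hm.snd.norm.eventually (gt_mem_nhds ?_)
    show ‖(T.map c p₀).2‖ < ρ₁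
    rw [h0]; simpa using hρ
  filter_upwards [e1, e2, e3, e4] with p a1 a2 a3 a4 hg
  exact ⟨⟨a1, a2, hg, a3⟩, a4⟩

/-- `g ∘ th` is analytic at the special fibre -/
theorem HT.an_th {g V D : (Fin 3 → ℂ) → ℂ} {Φ : (Fin 3 → ℂ) → ℝ} {ρ₁ : ℝ} (h : HT S g V D Φ ρ₁)
    {c : Ch T.m} (hc : T.Valid c) (j : Fin T.d) {p₀ : ℂ × ℂ} (h1 : ‖p₀.1‖ < S.r c)
    (h2 : ‖p₀.2‖ < S.r c) (h0 : T.map c p₀ = 0) :
    AnalyticAt ℂ (fun p => g (T.th c (S.ζ c j) p)) p₀ := by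
  have hr := S.pos c
  have hb : p₀ ∈ AJ387.BD (2 * S.r c) (2 * S.r c) := ⟨by linarith, by linarith⟩
  have e : T.th c (S.ζ c j) p₀ = 0 := by
    rw [(S.sheets c hc).th_zero hc j hb, ← T.map_eq_zero hc]
    exact h0
  exact h.an.comp_of_eq ((S.sheets c hc).th_an j hb) e

/-- **orders** at `(0, z)` -/
theorem HT.order {U : Tub T} {L : Lab U S} {nu : II U → ℤ} {n1 n2 : Ch T.m → Fin T.d → ℤ}
    (J : Jac L nu n1 n2) {g V D : (Fin 3 → ℂ) → ℂ} {Φ : (Fin 3 → ℂ) → ℝ} {ρ₁ : ℝ}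
    (h : HT S g V D Φ ρ₁) {c : Ch T.m} (hc : Ok S c) (j : Fin T.d)
    (hoff : ∀ p ∈ Ogs S c ρ₁, ∀ i, (T.map c p).2 ≠ T.φ i ((T.map c p).1 ^ T.M))
    {z : ℂ} (hz : z ≠ 0 ∨ IsV c) (hzr : ‖z‖ < S.r c) (h0 : T.map c (0, z) = 0)
    {d : ℂ → ℂ × ℂ → ℂ} (hd : ∀ ξ : ℂ, ξ ^ T.N = 1 → AnalyticAt ℂ (d ξ) (0, z))
    (hD : ∀ ξ : ℂ, ξ ^ T.N = 1 → ∀ᶠ p in 𝓝 ((0 : ℂ), z), T.Gen c p →
      D (rot ξ (wc S c j p)) = d ξ p) {y C : ℝ}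
    (hΦ : ∀ ξ : ℂ, ξ ^ T.N = 1 → ∀ᶠ p in 𝓝 ((0 : ℂ), z), T.Gen c p →
      Φ (rot ξ (wc S c j p)) ≤ y * Real.log (‖p.1‖ ^ 2) + C) :
    ∃ (n : ℕ) (H : ℂ × ℂ → ℂ), y + n1 c j < n ∧ AnalyticAt ℂ H (0, z) ∧
      ∀ᶠ p in 𝓝 ((0 : ℂ), z), g (T.th c (S.ζ c j) p) -
        1 / T.N * ∑ ξ ∈ nthRootsFinset T.N (1 : ℂ), d ξ p = p.1 ^ n * H p := by
  have hroot : ∀ ξ ∈ nthRootsFinset T.N (1 : ℂ), ξ ^ T.N = 1 := fun ξ hξ => by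
    rwa [Polynomial.mem_nthRootsFinset T.N_pos] at hξ
  have hall : ∀ᶠ p in 𝓝 ((0 : ℂ), z), ∀ ξ ∈ nthRootsFinset T.N (1 : ℂ),
      AnalyticAt ℂ (d ξ) p ∧ (T.Gen c p → D (rot ξ (wc S c j p)) = d ξ p ∧
        Φ (rot ξ (wc S c j p)) ≤ y * Real.log (‖p.1‖ ^ 2) + C) := by
    rw [Filter.eventually_all_finset]
    intro ξ hξ
    filter_upwards [(hd ξ (hroot ξ hξ)).eventually_analyticAt, hD ξ (hroot ξ hξ),
      hΦ ξ (hroot ξ hξ)] with p q1 q2 q3 using ⟨q1, fun hg => ⟨q2 hg, q3 hg⟩⟩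
  have hogs := ogs_ev (S := S) hc.1 (p₀ := ((0 : ℂ), z)) (by simpa using S.pos c) hzr h0 h.pos
  obtain ⟨A, hA, hAo, hA0⟩ := eventually_nhds_iff.1 (hall.and hogs)
  set W : Set (ℂ × ℂ) := A ∩ {p | T.Gen c p} with hW
  have hWo : IsOpen W := hAo.inter (isOpen_gen c)
  have hroot' : ∀ ξ : ℂ, ξ ^ T.N = 1 → ξ ∈ nthRootsFinset T.N (1 : ℂ) := fun ξ hξ => by
    rwa [Polynomial.mem_nthRootsFinset T.N_pos]
  have h1 : ∀ p ∈ W, p.1 ≠ 0 := by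
    rintro p ⟨-, hg⟩
    revert hg
    cases c with
    | edge i k k' => exact fun h => h.1
    | leg i => exact fun h => h.1
    | vert i k w₀ => exact fun h => h
  have hΨ : ContinuousOn (fun p : ℂ × ℂ => y * Real.log (‖p.1‖ ^ 2) + C) W := by
    intro p hp
    have : ‖p.1‖ ^ 2 ≠ 0 := pow_ne_zero _ (norm_ne_zero_iff.2 (h1 p hp))
    exact ((continuousAt_const.mul ((continuousAt_fst.norm.pow 2).log this)).add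
      continuousAt_const).continuousWithinAt
  have key := h.l2 hc.1 j hoff hWo (fun p hp => (hA p hp.1).2 hp.2) (d := d)
    (fun ξ hξ p hp => (((hA p hp.1).1 ξ (hroot' ξ hξ)).1.continuousAt).continuousWithinAt)
    (fun ξ hξ p hp => (((hA p hp.1).1 ξ (hroot' ξ hξ)).2 hp.2).1) hΨ
    (fun ξ hξ p hp => (((hA p hp.1).1 ξ (hroot' ξ hξ)).2 hp.2).2)
  refine bp_order J hc j hz hzr (O := W) ?_ ?_ (Φ := fun p => y * Real.log (‖p.1‖ ^ 2) + C)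
    (Eventually.of_forall fun p _ => le_rfl) key
  · filter_upwards [hAo.mem_nhds hA0] with p hp hg using ⟨hp, hg⟩
  · refine (h.an_th hc.1 j (by simpa using S.pos c) hzr h0).sub (analyticAt_const.mul ?_)
    exact Finset.analyticAt_fun_sum _ fun ξ hξ => hd ξ (hroot ξ hξ)

/-- orders, no data -/
theorem HT.order0 {U : Tub T} {L : Lab U S} {nu : II U → ℤ} {n1 n2 : Ch T.m → Fin T.d → ℤ}
    (J : Jac L nu n1 n2) {g V D : (Fin 3 → ℂ) → ℂ} {Φ : (Fin 3 → ℂ) → ℝ} {ρ₁ : ℝ}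
    (h : HT S g V D Φ ρ₁) {c : Ch T.m} (hc : Ok S c) (j : Fin T.d)
    (hoff : ∀ p ∈ Ogs S c ρ₁, ∀ i, (T.map c p).2 ≠ T.φ i ((T.map c p).1 ^ T.M))
    {z : ℂ} (hz : z ≠ 0 ∨ IsV c) (hzr : ‖z‖ < S.r c) (h0 : T.map c (0, z) = 0)
    (hD : ∀ ξ : ℂ, ξ ^ T.N = 1 → ∀ᶠ p in 𝓝 ((0 : ℂ), z), T.Gen c p →
      D (rot ξ (wc S c j p)) = 0) {y C : ℝ}
    (hΦ : ∀ ξ : ℂ, ξ ^ T.N = 1 → ∀ᶠ p in 𝓝 ((0 : ℂ), z), T.Gen c p →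
      Φ (rot ξ (wc S c j p)) ≤ y * Real.log (‖p.1‖ ^ 2) + C) :
    ∃ (n : ℕ) (H : ℂ × ℂ → ℂ), y + n1 c j < n ∧ AnalyticAt ℂ H (0, z) ∧
      ∀ᶠ p in 𝓝 ((0 : ℂ), z), g (T.th c (S.ζ c j) p) = p.1 ^ n * H p := by
  obtain ⟨n, H, h1, h2, h3⟩ := h.order J hc j hoff hz hzr h0 (d := fun _ _ => 0)
    (fun _ _ => analyticAt_const) hD hΦ
  refine ⟨n, H, h1, h2, ?_⟩
  filter_upwards [h3] with p hp
  rw [← hp]
  simp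

/-- orders with data of order `m ≤ y + n1` -/
theorem HT.exact {U : Tub T} {L : Lab U S} {nu : II U → ℤ} {n1 n2 : Ch T.m → Fin T.d → ℤ}
    (J : Jac L nu n1 n2) {g V D : (Fin 3 → ℂ) → ℂ} {Φ : (Fin 3 → ℂ) → ℝ} {ρ₁ : ℝ}
    (h : HT S g V D Φ ρ₁) {c : Ch T.m} (hc : Ok S c) (j : Fin T.d)
    (hoff : ∀ p ∈ Ogs S c ρ₁, ∀ i, (T.map c p).2 ≠ T.φ i ((T.map c p).1 ^ T.M))
    {z : ℂ} (hz : z ≠ 0 ∨ IsV c) (hzr : ‖z‖ < S.r c) (h0 : T.map c (0, z) = 0)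
    {m : ℕ} {e : ℂ → ℂ × ℂ → ℂ} (he : ∀ ξ : ℂ, ξ ^ T.N = 1 → AnalyticAt ℂ (e ξ) (0, z))
    (hD : ∀ ξ : ℂ, ξ ^ T.N = 1 → ∀ᶠ p in 𝓝 ((0 : ℂ), z), T.Gen c p →
      D (rot ξ (wc S c j p)) = p.1 ^ m * e ξ p) {y C : ℝ} (hm : (m : ℝ) ≤ y + n1 c j)
    (hΦ : ∀ ξ : ℂ, ξ ^ T.N = 1 → ∀ᶠ p in 𝓝 ((0 : ℂ), z), T.Gen c p →
      Φ (rot ξ (wc S c j p)) ≤ y * Real.log (‖p.1‖ ^ 2) + C) :
    ∃ H : ℂ × ℂ → ℂ, AnalyticAt ℂ H (0, z) ∧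
      (∀ᶠ p in 𝓝 ((0 : ℂ), z), g (T.th c (S.ζ c j) p) = p.1 ^ m * H p) ∧
      H (0, z) = 1 / T.N * ∑ ξ ∈ nthRootsFinset T.N (1 : ℂ), e ξ (0, z) := by
  have hroot : ∀ ξ ∈ nthRootsFinset T.N (1 : ℂ), ξ ^ T.N = 1 := fun ξ hξ => by
    rwa [Polynomial.mem_nthRootsFinset T.N_pos] at hξ
  obtain ⟨n, H, h1, h2, h3⟩ := h.order J hc j hoff hz hzr h0 (d := fun ξ p => p.1 ^ m * e ξ p)
    (fun ξ hξ => (analyticAt_fst.pow _).mul (he ξ hξ)) hD hΦ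
  have hmn : m < n := by exact_mod_cast hm.trans_lt h1
  refine ⟨fun p => 1 / T.N * ∑ ξ ∈ nthRootsFinset T.N (1 : ℂ), e ξ p + p.1 ^ (n - m) * H p,
    ?_, ?_, ?_⟩
  · exact (analyticAt_const.mul (Finset.analyticAt_fun_sum _ fun ξ hξ => he ξ (hroot ξ hξ))).add
      ((analyticAt_fst.pow _).mul h2)
  · filter_upwards [h3] with p hp
    have e1 : p.1 ^ n = p.1 ^ m * p.1 ^ (n - m) := by rw [← pow_add, Nat.add_sub_cancel' hmn.le]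
    have e2 : ∑ ξ ∈ nthRootsFinset T.N (1 : ℂ), p.1 ^ m * e ξ p =
      p.1 ^ m * ∑ ξ ∈ nthRootsFinset T.N (1 : ℂ), e ξ p := by rw [Finset.mul_sum]
    rw [e2, e1] at hp
    linear_combination hp
  · show 1 / (T.N : ℂ) * ∑ ξ ∈ nthRootsFinset T.N (1 : ℂ), e ξ (0, z) +
      (0 : ℂ) ^ (n - m) * H (0, z) = _
    rw [zero_pow (by omega), zero_mul, add_zero]

/-- **kills** at the origin of a chart -/
theorem HT.kill {U : Tub T} {L : Lab U S} {nu : II U → ℤ} {n1 n2 : Ch T.m → Fin T.d → ℤ}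
    (J : Jac L nu n1 n2) {g V D : (Fin 3 → ℂ) → ℂ} {Φ : (Fin 3 → ℂ) → ℝ} {ρ₁ : ℝ}
    (h : HT S g V D Φ ρ₁) {c : Ch T.m} (hc : Ok S c) (j : Fin T.d)
    (hoff : ∀ p ∈ Ogs S c ρ₁, ∀ i, (T.map c p).2 ≠ T.φ i ((T.map c p).1 ^ T.M))
    {a b : ℕ} (ha : 0 < a) (hb : 0 < b) {m₁ m₂ : ℕ} {κ : ℂ → ℂ}
    (hD : ∀ ξ : ℂ, ξ ^ T.N = 1 → ∀ᶠ p in 𝓝 ((0 : ℂ), (0 : ℂ)), p.1 ≠ 0 → p.2 ≠ 0 →
      D (rot ξ (wc S c j p)) = κ ξ * (p.1 ^ m₁ * p.2 ^ m₂)) {y₁ y₂ t C : ℝ} (ht : 0 ≤ t)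
    (hΦ : ∀ ξ : ℂ, ξ ^ T.N = 1 → ∀ᶠ p in 𝓝 ((0 : ℂ), (0 : ℂ)), p.1 ≠ 0 → p.2 ≠ 0 →
      Φ (rot ξ (wc S c j p)) ≤ y₁ * Real.log (‖p.1‖ ^ 2) + y₂ * Real.log (‖p.2‖ ^ 2) +
        t * Real.log (‖p.1‖ ^ (2 * b) + ‖p.2‖ ^ (2 * a)) + C)
    (hm : (a : ℝ) * m₁ + b * m₂ ≤ a * (y₁ + n1 c j) + b * (y₂ + n2 c j) + a * b * t)
    {H : ℂ × ℂ → ℂ} (hH : ContinuousAt H (0, 0))
    (hu : ∀ᶠ p in 𝓝 ((0 : ℂ), (0 : ℂ)), p.1 ≠ 0 → p.2 ≠ 0 →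
      g (T.th c (S.ζ c j) p) = p.1 ^ m₁ * p.2 ^ m₂ * H p) :
    H (0, 0) = 1 / T.N * ∑ ξ ∈ nthRootsFinset T.N (1 : ℂ), κ ξ := by
  have hroot : ∀ ξ ∈ nthRootsFinset T.N (1 : ℂ), ξ ^ T.N = 1 := fun ξ hξ => by
    rwa [Polynomial.mem_nthRootsFinset T.N_pos] at hξ
  have hroot' : ∀ ξ : ℂ, ξ ^ T.N = 1 → ξ ∈ nthRootsFinset T.N (1 : ℂ) := fun ξ hξ => by
    rwa [Polynomial.mem_nthRootsFinset T.N_pos]
  set Ψ : ℂ × ℂ → ℝ := fun p => y₁ * Real.log (‖p.1‖ ^ 2) + y₂ * Real.log (‖p.2‖ ^ 2) +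
        t * Real.log (‖p.1‖ ^ (2 * b) + ‖p.2‖ ^ (2 * a)) + C with hΨd
  have hall : ∀ᶠ p in 𝓝 ((0 : ℂ), (0 : ℂ)), ∀ ξ ∈ nthRootsFinset T.N (1 : ℂ),
      (p.1 ≠ 0 → p.2 ≠ 0 → D (rot ξ (wc S c j p)) = κ ξ * (p.1 ^ m₁ * p.2 ^ m₂) ∧
        Φ (rot ξ (wc S c j p)) ≤ Ψ p) := by
    rw [Filter.eventually_all_finset]
    intro ξ hξ
    filter_upwards [hD ξ (hroot ξ hξ), hΦ ξ (hroot ξ hξ)] with p q2 q3 n1' n2'
      using ⟨q2 n1' n2', q3 n1' n2'⟩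
  have h0 : T.map c (0, 0) = 0 := by
    rw [T.map_eq_zero hc.1]
    cases c with
    | edge i k k' => right; rfl
    | leg i => rfl
    | vert i k w₀ => rfl
  have hr := S.pos c
  have hogs := ogs_ev (S := S) hc.1 (p₀ := ((0 : ℂ), (0 : ℂ))) (by simpa using hr)
    (by simpa using hr) h0 h.pos
  obtain ⟨A, hA, hAo, hA0⟩ := eventually_nhds_iff.1 (hall.and hogs)
  have hG : IsOpen {p : ℂ × ℂ | p.1 ≠ 0 ∧ p.2 ≠ 0} :=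
    (isOpen_ne.preimage continuous_fst).inter (isOpen_ne.preimage continuous_snd)
  set W : Set (ℂ × ℂ) := A ∩ {p | p.1 ≠ 0 ∧ p.2 ≠ 0} with hW
  have hWo : IsOpen W := hAo.inter hG
  have hΨ : ContinuousOn Ψ W := by
    rintro p ⟨-, hp1, hp2⟩
    have e1 : ‖p.1‖ ^ 2 ≠ 0 := pow_ne_zero _ (norm_ne_zero_iff.2 hp1)
    have e2 : ‖p.2‖ ^ 2 ≠ 0 := pow_ne_zero _ (norm_ne_zero_iff.2 hp2)
    have e3 : ‖p.1‖ ^ (2 * b) + ‖p.2‖ ^ (2 * a) ≠ 0 := by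
      have := norm_pos_iff.2 hp1
      positivity
    exact ((((continuousAt_const.mul ((continuousAt_fst.norm.pow 2).log e1)).add
      (continuousAt_const.mul ((continuousAt_snd.norm.pow 2).log e2))).add
      (continuousAt_const.mul (((continuousAt_fst.norm.pow _).add
        (continuousAt_snd.norm.pow _)).log e3))).add continuousAt_const).continuousWithinAt
  have key := h.l2 hc.1 j hoff hWo (fun p hp => (hA p hp.1).2 (gen_of c hp.2.1 hp.2.2))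
    (d := fun ξ p => κ ξ * (p.1 ^ m₁ * p.2 ^ m₂))
    (fun ξ hξ => by fun_prop)
    (fun ξ hξ p hp => ((hA p hp.1).1 ξ (hroot' ξ hξ) hp.2.1 hp.2.2).1) hΨ
    (fun ξ hξ p hp => ((hA p hp.1).1 ξ (hroot' ξ hξ) hp.2.1 hp.2.2).2)
  refine bp_kill J hc j ha hb (O := W) ?_ hH hu
    (D := fun p => 1 / T.N * ∑ ξ ∈ nthRootsFinset T.N (1 : ℂ), κ ξ * (p.1 ^ m₁ * p.2 ^ m₂))
    (Eventually.of_forall fun p _ _ => ?_) (Φ := Ψ) ht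
    (Eventually.of_forall fun p _ _ => le_rfl) hm key
  · filter_upwards [hAo.mem_nhds hA0] with p hp h1 h2 using ⟨hp, h1, h2⟩
  · rw [← Finset.sum_mul, mul_assoc]

/-! ### the rotations -/

/-- a common constant for all rotations -/
theorem unif {P : ℂ → ℝ → Prop} (hmono : ∀ ξ C C', C ≤ C' → P ξ C → P ξ C')
    (h : ∀ ξ : ℂ, ξ ^ T.N = 1 → ∃ C, P ξ C) : ∃ C, ∀ ξ : ℂ, ξ ^ T.N = 1 → P ξ C := by
  classical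
  have h' : ∀ ξ : ℂ, ∃ C, ξ ^ T.N = 1 → P ξ C := fun ξ => by
    by_cases hξ : ξ ^ T.N = 1
    · obtain ⟨C, hC⟩ := h ξ hξ; exact ⟨C, fun _ => hC⟩
    · exact ⟨0, fun h => absurd h hξ⟩
  choose C hC using h'
  obtain ⟨M, hM⟩ := ((nthRootsFinset T.N (1 : ℂ)).image C).bddAbove
  refine ⟨M, fun ξ hξ => hmono ξ _ _ (hM ?_) (hC ξ hξ)⟩
  rw [Finset.mem_coe, Finset.mem_image]
  exact ⟨ξ, (Polynomial.mem_nthRootsFinset T.N_pos (1 : ℂ)).2 hξ, rfl⟩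

/-- the chart `(c, j)`, rotated by `ξ`, is the chart `(c', j')` up to `(a, b)` -/
structure RotC (S : Sh T) (ξ : ℂ) (c : Ch T.m) (j : Fin T.d) (c' : Ch T.m) (j' : Fin T.d)
    (a b : ℂ) : Prop where
  isV : IsV c' ↔ IsV c
  na : ‖a‖ = 1
  nb : ‖b‖ = 1
  eq : ∀ p : ℂ × ℂ, ‖p.1‖ < 2 * min (S.r c) (S.r c') → ‖p.2‖ < 2 * min (S.r c) (S.r c') →
    rot ξ (wc S c j p) = wc S c' j' (a * p.1, b * p.2)

theorem gen_iff_ne {c : Ch T.m} (hV : ¬ IsV c) (p : ℂ × ℂ) : T.Gen c p ↔ p.1 ≠ 0 ∧ p.2 ≠ 0 := by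
  cases c with
  | edge i k k' => exact Iff.rfl
  | leg i => exact Iff.rfl
  | vert i k w₀ => exact absurd trivial hV

theorem gen_iff_v {c : Ch T.m} (hV : IsV c) (p : ℂ × ℂ) : T.Gen c p ↔ p.1 ≠ 0 := by
  cases c with
  | edge i k k' => exact absurd hV (by simp [IsV])
  | leg i => exact absurd hV (by simp [IsV])
  | vert i k w₀ => exact Iff.rfl

theorem RotC.gen {ξ : ℂ} {c c' : Ch T.m} {j j' : Fin T.d} {a b : ℂ} (h : RotC S ξ c j c' j' a b)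
    {p : ℂ × ℂ} (hp : T.Gen c p) : T.Gen c' (a * p.1, b * p.2) := by
  have ha : a ≠ 0 := norm_ne_zero_iff.1 (by rw [h.na]; exact one_ne_zero)
  have hb : b ≠ 0 := norm_ne_zero_iff.1 (by rw [h.nb]; exact one_ne_zero)
  by_cases hV : IsV c
  · rw [gen_iff_v hV] at hp
    rw [gen_iff_v (h.isV.2 hV)]
    exact mul_ne_zero ha hp
  · rw [gen_iff_ne hV] at hp
    rw [gen_iff_ne fun h' => hV (h.isV.1 h')]
    exact ⟨mul_ne_zero ha hp.1, mul_ne_zero hb hp.2⟩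

/-- transport of local properties by rotations -/
theorem RotC.ev {ξ : ℂ} {c c' : Ch T.m} {j j' : Fin T.d} {a b : ℂ} (h : RotC S ξ c j c' j' a b)
    {p₀ : ℂ × ℂ} (h1 : ‖p₀.1‖ < 2 * min (S.r c) (S.r c'))
    (h2 : ‖p₀.2‖ < 2 * min (S.r c) (S.r c')) {P : (Fin 3 → ℂ) → ℂ × ℂ → Prop}
    (hP : ∀ᶠ p in 𝓝 ((a * p₀.1, b * p₀.2) : ℂ × ℂ), T.Gen c' p → P (wc S c' j' p) p) :
    ∀ᶠ p in 𝓝 p₀, T.Gen c p → P (rot ξ (wc S c j p)) (a * p.1, b * p.2) := by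
  have hT : Tendsto (fun p : ℂ × ℂ => ((a * p.1, b * p.2) : ℂ × ℂ)) (𝓝 p₀)
      (𝓝 ((a * p₀.1, b * p₀.2) : ℂ × ℂ)) := by
    have : Continuous (fun p : ℂ × ℂ => ((a * p.1, b * p.2) : ℂ × ℂ)) := by fun_prop
    exact this.tendsto _
  have e1 : ∀ᶠ p : ℂ × ℂ in 𝓝 p₀, ‖p.1‖ < 2 * min (S.r c) (S.r c') :=
    continuousAt_fst.norm.eventually (gt_mem_nhds h1)
  have e2 : ∀ᶠ p : ℂ × ℂ in 𝓝 p₀, ‖p.2‖ < 2 * min (S.r c) (S.r c') :=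
    continuousAt_snd.norm.eventually (gt_mem_nhds h2)
  filter_upwards [hT.eventually hP, e1, e2] with p q1 q2 q3 hg
  rw [h.eq p q2 q3]
  exact q1 (h.gen hg)

theorem map_fst_zero (c : Ch T.m) (z : ℂ) : (T.map c (0, z)).1 = 0 := by
  cases c with
  | edge i k k' => exact zero_mul _
  | leg i => rfl
  | vert i k w₀ => rfl

/-- small generic points, first coordinate only -/
theorem og_ev {c : Ch T.m} (hc : T.Valid c) {p₀ : ℂ × ℂ} (h1 : ‖p₀.1‖ < S.r c)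
    (h2 : ‖p₀.2‖ < S.r c) (h0 : (T.map c p₀).1 = 0) {ρ₁ : ℝ} (hρ : 0 < ρ₁) :
    ∀ᶠ p in 𝓝 p₀, T.Gen c p → p ∈ Og (S := S) c ρ₁ := by
  have hr := S.pos c
  have hm := ((S.sheets c hc).map_an (p := p₀) ⟨by linarith, by linarith⟩).continuousAt
  have e1 : ∀ᶠ p : ℂ × ℂ in 𝓝 p₀, ‖p.1‖ < S.r c :=
    continuousAt_fst.norm.eventually (gt_mem_nhds h1)
  have e2 : ∀ᶠ p : ℂ × ℂ in 𝓝 p₀, ‖p.2‖ < S.r c :=
    continuousAt_snd.norm.eventually (gt_mem_nhds h2)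
  have e3 : ∀ᶠ p : ℂ × ℂ in 𝓝 p₀, ‖(T.map c p).1‖ < ρ₁ := by
    refine hm.fst.norm.eventually (gt_mem_nhds ?_)
    show ‖(T.map c p₀).1‖ < ρ₁
    rw [h0]; simpa using hρ
  filter_upwards [e1, e2, e3] with p a1 a2 a3 hg
  exact ⟨a1, a2, hg, a3⟩

/-- the upper bound of `Φ` for the rotated chart -/
theorem RotC.le {ξ : ℂ} {c c' : Ch T.m} {j j' : Fin T.d} {a b : ℂ} (h : RotC S ξ c j c' j' a b)
    (hc' : T.Valid c') {z : ℂ} (hz : ‖z‖ < S.r c) (hz' : ‖z‖ < S.r c') {Φ : (Fin 3 → ℂ) → ℝ}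
    {ρ₀ Y₁ Y₂ C : ℝ} (hρ : 0 < ρ₀) (hY : z ≠ 0 ∨ Y₂ = 0)
    (hup : ∀ p ∈ Og (S := S) c' ρ₀, Φ (wc S c' j' p) ≤ Y₁ * Real.log (‖p.1‖ ^ 2) +
      Y₂ * Real.log (‖p.2‖ ^ 2) + C) :
    ∃ C', ∀ᶠ p in 𝓝 ((0 : ℂ), z), T.Gen c p →
      Φ (rot ξ (wc S c j p)) ≤ Y₁ * Real.log (‖p.1‖ ^ 2) + C' := by
  have hmin : 0 < min (S.r c) (S.r c') := lt_min (S.pos c) (S.pos c')
  have hzm : ‖z‖ < min (S.r c) (S.r c') := lt_min hz hz'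
  have hbz : ‖b * z‖ < S.r c' := by rw [norm_mul, h.nb, one_mul]; exact hz'
  have e1 := og_ev (S := S) hc' (p₀ := ((0 : ℂ), b * z)) (by simpa using S.pos c') hbz
    (map_fst_zero c' _) hρ
  have e2 := h.ev (p₀ := ((0 : ℂ), z)) (by simpa using hmin) (by linarith)
    (P := fun x q => Φ x ≤ Y₁ * Real.log (‖q.1‖ ^ 2) + Y₂ * Real.log (‖q.2‖ ^ 2) + C) (by
      rw [mul_zero]
      filter_upwards [e1] with p hp hg using hup p (hp hg))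
  simp only [norm_mul, h.na, h.nb, one_mul] at e2
  have e3 : ∃ C'', ∀ᶠ p in 𝓝 ((0 : ℂ), z), Y₂ * Real.log (‖p.2‖ ^ 2) ≤ C'' := by
    rcases hY with hY | hY
    · have hc2 : ContinuousAt (fun p : ℂ × ℂ => Y₂ * Real.log (‖p.2‖ ^ 2)) ((0 : ℂ), z) :=
        continuousAt_const.mul ((continuousAt_snd.norm.pow 2).log
          (pow_ne_zero _ (norm_ne_zero_iff.2 hY)))
      exact ⟨Y₂ * Real.log (‖z‖ ^ 2) + 1, (hc2.eventually (gt_mem_nhds (lt_add_one _))).mono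
        fun p hp => hp.le⟩
    · exact ⟨0, Eventually.of_forall fun p => by rw [hY, zero_mul]⟩
  obtain ⟨C'', e3⟩ := e3
  refine ⟨C'' + C, ?_⟩
  filter_upwards [e2, e3] with p q1 q2 hg
  have := q1 hg
  linarith

/-- **orders off the data** -/
theorem HT.lo {U : Tub T} {L : Lab U S} {nu : II U → ℤ} {n1 n2 : Ch T.m → Fin T.d → ℤ}
    (J : Jac L nu n1 n2) {g V D : (Fin 3 → ℂ) → ℂ} {Φ : (Fin 3 → ℂ) → ℝ} {ρ₁ : ℝ}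
    (h : HT S g V D Φ ρ₁) {c : Ch T.m} (hc : Ok S c) (j : Fin T.d)
    (hoff : ∀ p ∈ Ogs S c ρ₁, ∀ i, (T.map c p).2 ≠ T.φ i ((T.map c p).1 ^ T.M))
    {z : ℂ} (hz : z ≠ 0 ∨ IsV c) (hzr : ‖z‖ < S.r c) (h0 : T.map c (0, z) = 0)
    (hD : ∀ ξ : ℂ, ξ ^ T.N = 1 → ∀ᶠ p in 𝓝 ((0 : ℂ), z), T.Gen c p →
      D (rot ξ (wc S c j p)) = 0) {ρ₀ C Y₁ Y₂ : ℝ} (hρ : 0 < ρ₀)
    (hY : IsV c → Y₂ = 0)
    (hrot : ∀ ξ : ℂ, ξ ^ T.N = 1 → ∃ c' j' a b, T.Valid c' ∧ ‖z‖ < S.r c' ∧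
      RotC S ξ c j c' j' a b ∧ ∀ p ∈ Og (S := S) c' ρ₀, Φ (wc S c' j' p) ≤
        Y₁ * Real.log (‖p.1‖ ^ 2) + Y₂ * Real.log (‖p.2‖ ^ 2) + C) :
    ∃ (n : ℕ) (H : ℂ × ℂ → ℂ), Y₁ + n1 c j < n ∧ AnalyticAt ℂ H (0, z) ∧
      ∀ᶠ p in 𝓝 ((0 : ℂ), z), g (T.th c (S.ζ c j) p) = p.1 ^ n * H p := by
  obtain ⟨C', hC'⟩ := unif (T := T) (P := fun ξ C' => ∀ᶠ p in 𝓝 ((0 : ℂ), z), T.Gen c p →
      Φ (rot ξ (wc S c j p)) ≤ Y₁ * Real.log (‖p.1‖ ^ 2) + C')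
    (fun ξ C₁ C₂ hC hP => hP.mono fun p hp hg => (hp hg).trans (by linarith))
    (fun ξ hξ => by
      obtain ⟨c', j', a, b, h1, h2, h3, h4⟩ := hrot ξ hξ
      exact h3.le h1 hzr h2 hρ (hz.imp_right hY) h4)
  exact h.order0 J hc j hoff hz hzr h0 hD hC'

/-- the bound at a kill for the rotated chart -/
theorem RotC.le_kill {ξ : ℂ} {c c' : Ch T.m} {j j' : Fin T.d} {a b : ℂ}
    (h : RotC S ξ c j c' j' a b) (hc' : T.Valid c') {Φ : (Fin 3 → ℂ) → ℝ} {Ψ : ℝ → ℝ → ℝ}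
    {ρ₀ r₁ : ℝ} (hρ : 0 < ρ₀) (hr₁ : 0 < r₁)
    (hup : ∀ p ∈ Og (S := S) c' ρ₀, ‖p.1‖ < r₁ → ‖p.2‖ < r₁ →
      Φ (wc S c' j' p) ≤ Ψ ‖p.1‖ ‖p.2‖) :
    ∀ᶠ p in 𝓝 ((0 : ℂ), (0 : ℂ)), p.1 ≠ 0 → p.2 ≠ 0 →
      Φ (rot ξ (wc S c j p)) ≤ Ψ ‖p.1‖ ‖p.2‖ := by
  have hmin : 0 < min (S.r c) (S.r c') := lt_min (S.pos c) (S.pos c')
  have e1 := og_ev (S := S) hc' (p₀ := ((0 : ℂ), (0 : ℂ))) (by simpa using S.pos c')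
    (by simpa using S.pos c') (map_fst_zero c' _) hρ
  have e3 : ∀ᶠ p : ℂ × ℂ in 𝓝 ((0 : ℂ), (0 : ℂ)), ‖p.1‖ < r₁ :=
    continuousAt_fst.norm.eventually (gt_mem_nhds (by simpa using hr₁))
  have e4 : ∀ᶠ p : ℂ × ℂ in 𝓝 ((0 : ℂ), (0 : ℂ)), ‖p.2‖ < r₁ :=
    continuousAt_snd.norm.eventually (gt_mem_nhds (by simpa using hr₁))
  have e2 := h.ev (p₀ := ((0 : ℂ), (0 : ℂ))) (by simpa using hmin) (by simpa using hmin)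
    (P := fun x q => Φ x ≤ Ψ ‖q.1‖ ‖q.2‖) (by
      simp only [mul_zero]
      filter_upwards [e1, e3, e4] with p q1 q2 q3 hg using hup p (q1 hg) q2 q3)
  simp only [norm_mul, h.na, h.nb, one_mul] at e2
  filter_upwards [e2] with p hp n1 n2 using hp (gen_of c n1 n2)

/-- the data at a kill for the rotated chart -/
theorem RotC.dat_kill {ξ : ℂ} {c c' : Ch T.m} {j j' : Fin T.d} {a b : ℂ}
    (h : RotC S ξ c j c' j' a b) {D : (Fin 3 → ℂ) → ℂ} {m₁ m₂ : ℕ}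
    (hD : ∀ᶠ p in 𝓝 ((0 : ℂ), (0 : ℂ)), T.Gen c' p →
      D (wc S c' j' p) = p.1 ^ m₁ * p.2 ^ m₂) :
    ∀ᶠ p in 𝓝 ((0 : ℂ), (0 : ℂ)), p.1 ≠ 0 → p.2 ≠ 0 →
      D (rot ξ (wc S c j p)) = (a ^ m₁ * b ^ m₂) * (p.1 ^ m₁ * p.2 ^ m₂) := by
  have hmin : 0 < min (S.r c) (S.r c') := lt_min (S.pos c) (S.pos c')
  have e2 := h.ev (p₀ := ((0 : ℂ), (0 : ℂ))) (by simpa using hmin) (by simpa using hmin)
    (P := fun x q => D x = q.1 ^ m₁ * q.2 ^ m₂) (by simpa only [mul_zero] using hD)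
  filter_upwards [e2] with p hp n1 n2
  rw [hp (gen_of c n1 n2)]
  ring

/-- average of `1` over the rotations -/
theorem avg_one : (1 / T.N : ℂ) * ∑ _ξ ∈ nthRootsFinset T.N (1 : ℂ), (1 : ℂ) = 1 := by
  have h1 : (nthRootsFinset T.N (1 : ℂ)).card = T.N :=
    (Complex.isPrimitiveRoot_exp T.N T.N_pos.ne').card_nthRootsFinset
  rw [Finset.sum_const, h1, nsmul_eq_mul, mul_one]
  have : (T.N : ℂ) ≠ 0 := Nat.cast_ne_zero.2 T.N_pos.ne'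
  field_simp

/-- **kills**, with data equal to `α ^ m₁ * β ^ m₂` in all rotated charts and exponents killing the
rotations -/
theorem HT.kill_rot {U : Tub T} {L : Lab U S} {nu : II U → ℤ} {n1 n2 : Ch T.m → Fin T.d → ℤ}
    (J : Jac L nu n1 n2) {g V D : (Fin 3 → ℂ) → ℂ} {Φ : (Fin 3 → ℂ) → ℝ} {ρ₁ : ℝ}
    (h : HT S g V D Φ ρ₁) {c : Ch T.m} (hc : Ok S c) (j : Fin T.d)
    (hoff : ∀ p ∈ Ogs S c ρ₁, ∀ i, (T.map c p).2 ≠ T.φ i ((T.map c p).1 ^ T.M))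
    {a b : ℕ} (ha : 0 < a) (hb : 0 < b) {m₁ m₂ : ℕ} {y₁ y₂ t C ρ₀ r₁ : ℝ} (ht : 0 ≤ t)
    (hρ : 0 < ρ₀) (hr₁ : 0 < r₁)
    (hrot : ∀ ξ : ℂ, ξ ^ T.N = 1 → ∃ c' j' a' b', T.Valid c' ∧ RotC S ξ c j c' j' a' b' ∧
      a' ^ m₁ * b' ^ m₂ = 1 ∧
      (∀ᶠ p in 𝓝 ((0 : ℂ), (0 : ℂ)), T.Gen c' p → D (wc S c' j' p) = p.1 ^ m₁ * p.2 ^ m₂) ∧
      ∀ p ∈ Og (S := S) c' ρ₀, ‖p.1‖ < r₁ → ‖p.2‖ < r₁ → Φ (wc S c' j' p) ≤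
        y₁ * Real.log (‖p.1‖ ^ 2) + y₂ * Real.log (‖p.2‖ ^ 2) +
          t * Real.log (‖p.1‖ ^ (2 * b) + ‖p.2‖ ^ (2 * a)) + C)
    (hm : (a : ℝ) * m₁ + b * m₂ ≤ a * (y₁ + n1 c j) + b * (y₂ + n2 c j) + a * b * t)
    {H : ℂ × ℂ → ℂ} (hH : ContinuousAt H (0, 0))
    (hu : ∀ᶠ p in 𝓝 ((0 : ℂ), (0 : ℂ)), p.1 ≠ 0 → p.2 ≠ 0 →
      g (T.th c (S.ζ c j) p) = p.1 ^ m₁ * p.2 ^ m₂ * H p) :
    H (0, 0) = 1 := by
  rw [h.kill J hc j hoff ha hb (κ := fun _ => 1) ?_ ht (C := C) ?_ hm hH hu]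
  · exact avg_one
  · intro ξ hξ
    obtain ⟨c', j', a', b', h1, h2, h3, h4, h5⟩ := hrot ξ hξ
    filter_upwards [h2.dat_kill h4] with p hp n1' n2'
    rw [hp n1' n2', h3]
  · intro ξ hξ
    obtain ⟨c', j', a', b', h1, h2, h3, h4, h5⟩ := hrot ξ hξ
    exact h2.le_kill h1 (Ψ := fun x y => y₁ * Real.log (x ^ 2) + y₂ * Real.log (y ^ 2) +
      t * Real.log (x ^ (2 * b) + y ^ (2 * a)) + C) hρ hr₁ h5

end Crest.Agent.R257.OrdK_82
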