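import Crest.Agent.R257.Vt4_558
import Crest.Agent.R257.OrdK5_82

/-!
Row 257 (S0395), part C, kills at points and nodes (helper121): interface of

* (K2) kill orbits: `KOrbStmt` (existence of `KOrb`) and `KSumStmt` (the sum in `KSup`);
* (K1) one Hoermander step with a kill at the origin of a canonical chart: `KillBPStmt`.
-/

set_option autoImplicit false
set_option linter.unusedSectionVars false

open Polynomial Set Filter Topology Metric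
open Crest.AlgGeometry.Germ Crest.Agent.R257.AJ387 Crest.Agent.R257.T387
open Crest.Agent.R257.Gr1_157 Crest.Agent.R257.BP_258 Crest.Agent.R257.Rot1_558
open Crest.Agent.R257.Vt1_558 Crest.Agent.R257.Vt3_558 Crest.Agent.R257.OrdK_82

noncomputable section

namespace Crest.Agent.R257.KiD_121

variable {f : (Fin 3 → ℂ) → ℂ} {T : TB f} {U : Tub T}

variable (T) in
/-- the divisor: orders are multiples of it -/
def Dv : ℕ := T.N * (T.M * (Finset.univ.sup T.top).factorial)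

/-- **a kill orbit** of the sheet `(c₀, j₀)` -/
structure KOrb (hG : GalPt T) (hR : RetStmt U) {S : Sh T} (L : Lab U S) (c₀ : Ch T.m)
    (j₀ : Fin T.d) (κ : Finset (Ch T.m × Fin T.d)) : Prop where
  mem₀ : (c₀, j₀) ∈ κ
  card : κ.card ≤ T.N * T.d
  ok : ∀ x ∈ κ, Ok S x.1
  /-- small bidiscs around different killed points are disjoint -/
  ex : ∃ r > 0, ∀ x ∈ κ, ∀ c, (c = x.1 ∨ ∃ j, (c, j) ∈ κ) → ∀ j p p', p ∈ BD r r → p' ∈ BD r r →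
    T.Gen x.1 p → T.Gen c p' → wc S x.1 x.2 p = wc S c j p' → c = x.1 ∧ (c, j) ∈ κ
  /-- labels -/
  lab : ∀ x ∈ κ, ∃ (ξ : ℂ) (hξ : ξ ^ T.N = 1), x.1 = rc T ξ c₀ ∧
    L.e1 x.1 x.2 = (L.e1 c₀ j₀).map (pi hG hR hξ) ∧ L.e2 x.1 x.2 = (L.e2 c₀ j₀).map (pi hG hR hξ)
  /-- rotations -/
  rot : ∀ x ∈ κ, ∀ ξ : ℂ, ξ ^ T.N = 1 → ∃ (j' : Fin T.d) (a b : ℂ), (rc T ξ x.1, j') ∈ κ ∧
    RotC S ξ x.1 x.2 (rc T ξ x.1) j' a b ∧ a ^ Dv T = 1 ∧ b ^ Dv T = 1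

open Classical in
/-- `1` on the orbit of the label `e` -/
def exo (hG : GalPt T) (hR : RetStmt U) (e : Option (II U)) (E : II U) : ℝ :=
  if ∃ (ξ : ℂ) (hξ : ξ ^ T.N = 1), e.map (pi hG hR hξ) = some E then 1 else 0

variable (U) in
/-- **(K2), first half** -/
def KOrbStmt : Prop := ∀ (hG : GalPt T) (hR : RetStmt U) (S : Sh T) (L : Lab U S) (c₀ : Ch T.m),
  Ok S c₀ → ∀ j₀ : Fin T.d, ∃ κ, KOrb hG hR L c₀ j₀ κ

open Classical in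
variable (U) in
/-- **(K2), second half**: the kill terms of `KSup` -/
def KSumStmt : Prop := ∀ (hG : GalPt T) (hR : RetStmt U) (S : Sh T) (L : Lab U S) (c₀ : Ch T.m)
  (j₀ : Fin T.d) (κ : Finset (Ch T.m × Fin T.d)), KOrb hG hR L c₀ j₀ κ →
  ∀ (F : Finset (Ch T.m)) (t a b : ℝ), 0 ≤ t → 0 ≤ a → 0 ≤ b → ∀ E : II U,
    ∑ c ∈ F, ∑ j, (if (c, j) ∈ κ then kc c * t *
      (a * (if L.e1 c j = some E then 1 else 0) + b * (if L.e2 c j = some E then 1 else 0)) else 0) ≤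
    (T.N * T.d : ℕ) * t * (a * exo hG hR (L.e1 c₀ j₀) E + b * exo hG hR (L.e2 c₀ j₀) E)

/-- **(K1)**: one Hoermander step with a kill at the origin of `(c₀, j₀)`, in the direction `(a, b)`.
[To be proved for `Iso f`, `Clo T`, `S` with `∀ c, T.Valid c → T.MonoC c (S.r c)`, `Jac L nu n1 n2`,
from the weights.] -/
def KillBPStmt [Fintype (II U)] (hG : GalPt T) (hR : RetStmt U) {S : Sh T} (L : Lab U S)
  (nu : II U → ℤ) (n1 n2 : Ch T.m → Fin T.d → ℤ) : Prop :=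
  ∀ (c₀ : Ch T.m), Ok S c₀ → ∀ (j₀ : Fin T.d) (κ : Finset (Ch T.m × Fin T.d)),
    KOrb hG hR L c₀ j₀ κ → ∀ (a b : ℕ), 0 < a → 0 < b →
    ((a = 1 ∧ b = 1) ∨ (L.e1 c₀ j₀ ≠ none ∧ L.e2 c₀ j₀ ≠ none)) →
    ∀ (m : II U → ℕ) (y : II U → ℝ), (∀ E, Dv T ∣ m E) →
      (∀ (ξ : ℂ) (hξ : ξ ^ T.N = 1) (E : II U), m (pi hG hR hξ E) = m E) →
      (∀ (ξ : ℂ) (hξ : ξ ^ T.N = 1) (E : II U), y (pi hG hR hξ E) = y E) →
      (∀ E, y E + nu E < m E) → ∀ t : ℝ, 0 < t →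
      ((a : ℝ) * yn m (L.e1 c₀ j₀) + b * yn m (L.e2 c₀ j₀) ≤
        a * (yo y (L.e1 c₀ j₀) + n1 c₀ j₀) + b * (yo y (L.e2 c₀ j₀) + n2 c₀ j₀) + a * b * t) →
      (∀ E, dg (Mx L) y E + (T.N * T.d : ℕ) * t *
        (a * exo hG hR (L.e1 c₀ j₀) E + b * exo hG hR (L.e2 c₀ j₀) E) < 0) →
      ∃ g : (Fin 3 → ℂ) → ℂ, AnalyticAt ℂ g 0 ∧
        (∀ c, Ok S c → IsV c → ∀ (j : Fin T.d) (E : II U), L.e1 c j = some E → ∀ z : ℂ,
          ‖z‖ < S.r c → ∃ (n : ℕ) (H : ℂ × ℂ → ℂ), y E + nu E < n ∧ AnalyticAt ℂ H (0, z) ∧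
            ∀ᶠ p in 𝓝 ((0 : ℂ), z), g (T.th c (S.ζ c j) p) = p.1 ^ n * H p) ∧
        ∀ H : ℂ × ℂ → ℂ, ContinuousAt H (0, 0) →
          (∀ᶠ p in 𝓝 ((0 : ℂ), (0 : ℂ)), g (T.th c₀ (S.ζ c₀ j₀) p) =
            p.1 ^ yn m (L.e1 c₀ j₀) * p.2 ^ yn m (L.e2 c₀ j₀) * H p) → H (0, 0) ≠ 0

end Crest.Agent.R257.KiD_121
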