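import Crest.Agent.R257.Vt2_558

/-!
Row 257 (S0395), part C: the rotation on the components of the vertex curves (helper558, task C-ROT).

* `match_LD` : the local data of `RetStmt` at `(v, w₀)` and at the rotated vertex are permuted;
* `RR ξ a b` : `b` is the rotation of the point `a`;
* `pi U ξ : Equiv.Perm (II U)`, `pi_spec`.
-/

set_option autoImplicit false
set_option linter.unusedSectionVars false

open Polynomial Set Filter Topology Metric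
open Crest.AlgGeometry.Germ Crest.Agent.R257.AJ387 Crest.Agent.R257.T387
open Crest.Agent.R257.Frm_547 (mul_ev prod_ev)
open Crest.Agent.R257.Rot1_558 Crest.Agent.R257.BP_258 Crest.Agent.R257.Vt1_558
open Crest.Agent.R257.Vt2_558

noncomputable section

namespace Crest.Agent.R257.Vt3_558

variable {f : (Fin 3 → ℂ) → ℂ} {T : TB f} {U : Tub T}

/-- the factor on the coordinate `w` -/
def cw (T : TB f) (ξ : ℂ) (v : Vtx) : ℂ := (ξ ^ (T.M * v.1))⁻¹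

lemma cw_norm {ξ : ℂ} (hξ : ξ ^ T.N = 1) (v : Vtx) : ‖cw T ξ v‖ = 1 := by
  rw [cw, norm_inv, norm_pow, norm_one T hξ, one_pow, inv_one]

lemma cw_ball {ξ : ℂ} (hξ : ξ ^ T.N = 1) (v : Vtx) {w w₀ : ℂ} {r : ℝ} :
    cw T ξ v * w ∈ ball (cw T ξ v * w₀) r ↔ w ∈ ball w₀ r := by
  rw [mem_ball, mem_ball, dist_eq_norm, dist_eq_norm, ← mul_sub, norm_mul, cw_norm hξ, one_mul]

lemma xi_ball {ξ : ℂ} (hξ : ξ ^ T.N = 1) {s : ℂ} {r : ℝ} :
    ξ * s ∈ ball (0 : ℂ) r ↔ s ∈ ball (0 : ℂ) r := by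
  simp [norm_one T hξ]

theorem match_LD {ξ : ℂ} (hξ : ξ ^ T.N = 1) {v : Vtx} {w₀ : ℂ} (D : LD U v w₀)
    (D' : LD U (rv T ξ v) (cw T ξ v * w₀)) :
    ∃ τ : Fin T.d → Fin T.d, ∀ j, ∀ s w, s ∈ ball (0 : ℂ) (min D.R D'.R) →
      w ∈ ball w₀ (min D.r D'.r) → D.Z j (s, w) = D'.Z (τ j) (ξ * s, cw T ξ v * w) := by
  set B : Set (ℂ × ℂ) := ball (0 : ℂ) (min D.R D'.R) ×ˢ ball w₀ (min D.r D'.r) with hB
  have hBc : IsPreconnected B := ((convex_ball _ _).prod (convex_ball _ _)).isPreconnected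
  have h0 : ((0 : ℂ), w₀) ∈ B := ⟨mem_ball_self (lt_min D.R_pos D'.R_pos),
    mem_ball_self (lt_min D.r_pos D'.r_pos)⟩
  have hBD : ∀ q ∈ B, q ∈ ball (0 : ℂ) D.R ×ˢ ball w₀ D.r := fun q hq =>
    ⟨ball_subset_ball (min_le_left _ _) hq.1, ball_subset_ball (min_le_left _ _) hq.2⟩
  have hBD' : ∀ q ∈ B, (ξ * q.1, cw T ξ v * q.2) ∈
      ball (0 : ℂ) D'.R ×ˢ ball (cw T ξ v * w₀) D'.r := fun q hq =>
    ⟨(xi_ball hξ).2 (ball_subset_ball (min_le_right _ _) hq.1),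
      (cw_ball hξ v).2 (ball_subset_ball (min_le_right _ _) hq.2)⟩
  have hχ : ∀ q : ℂ × ℂ, AnalyticAt ℂ (fun q : ℂ × ℂ => (ξ * q.1, cw T ξ v * q.2)) q := fun q =>
    (analyticAt_const.mul analyticAt_fst).prod (analyticAt_const.mul analyticAt_snd)
  have h1 : ∀ j, ∃ l, ∀ q ∈ B, D.Z j q = D'.Z l (ξ * q.1, cw T ξ v * q.2) := by
    intro j
    obtain ⟨l, hl⟩ := D'.attach (μ := fun q : ℂ × ℂ => (ξ * q.1, yv T v q)) (ζ := D.Z j)
      (W := fun q : ℂ × ℂ => cw T ξ v * q.2) (p₀ := ((0 : ℂ), w₀))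
      (analyticAt_const.mul analyticAt_fst) (D.an j _ (hBD _ h0))
      (analyticAt_const.mul analyticAt_snd) (by simp) (hBD' _ h0).2 (by
        have hopen : B ∈ 𝓝 ((0 : ℂ), w₀) := (isOpen_ball.prod isOpen_ball).mem_nhds h0
        filter_upwards [hopen] with q hq
        refine ⟨(yv_rv hξ v q.1 q.2).symm, ?_⟩
        rw [Q_rot hξ]
        exact D.root j (hBD q hq))
    refine ⟨l, fun q hq => ?_⟩
    have h2 : AnalyticOnNhd ℂ (fun q : ℂ × ℂ => D'.Z l (ξ * q.1, cw T ξ v * q.2)) B := fun q hq =>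
      AnalyticAt.comp (g := D'.Z l) (f := fun q : ℂ × ℂ => (ξ * q.1, cw T ξ v * q.2))
        (D'.an l _ (hBD' q hq)) (hχ q)
    have h3 : AnalyticOnNhd ℂ (D.Z j) B := fun q hq => D.an j q (hBD q hq)
    exact h3.eqOn_of_preconnected_of_eventuallyEq h2 hBc h0 hl hq
  choose τ hτ using h1
  exact ⟨τ, fun j s w hs hw => hτ j (s, w) ⟨hs, hw⟩⟩

lemma rot_mul (ξ η : ℂ) (x : Fin 3 → ℂ) : rot ξ (rot η x) = rot (ξ * η) x := by
  funext i
  fin_cases i <;> simp [rot, mul_assoc]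

lemma rot_one (x : Fin 3 → ℂ) : rot 1 x = x := by
  funext i
  fin_cases i <;> simp [rot]

@[simp] lemma rot_0 (ξ : ℂ) (x : Fin 3 → ℂ) : rot ξ x 0 = x 0 := rfl
@[simp] lemma rot_1 (ξ : ℂ) (x : Fin 3 → ℂ) : rot ξ x 1 = ξ * x 1 := rfl
@[simp] lemma rot_2 (ξ : ℂ) (x : Fin 3 → ℂ) : rot ξ x 2 = x 2 := rfl

/-- the rotation of a retraction -/
theorem ret_rot {ξ : ℂ} (hξ : ξ ^ T.N = 1) {v : Vtx} {w₀ : ℂ} (D : LD U v w₀)
    (D' : LD U (rv T ξ v) (cw T ξ v * w₀)) {τ : Fin T.d → Fin T.d}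
    (hτ : ∀ j, ∀ s w, s ∈ ball (0 : ℂ) (min D.R D'.R) →
      w ∈ ball w₀ (min D.r D'.r) → D.Z j (s, w) = D'.Z (τ j) (ξ * s, cw T ξ v * w))
    {x : Fin 3 → ℂ} {q : XV U v} {q' : XV U (rv T ξ v)} (h : IsRet U v x q)
    (h' : IsRet U (rv T ξ v) (rot ξ x) q') (hw : pV U v q ∈ ball w₀ (min D.r D'.r)) {j : Fin T.d}
    (hj : D.σ j (pV U v q) = q) : q' = D'.σ (τ j) (cw T ξ v * pV U v q) := by
  have hw1 : pV U v q ∈ ball w₀ D.r := ball_subset_ball (min_le_left _ _) hw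
  have hw2 : cw T ξ v * pV U v q ∈ ball (cw T ξ v * w₀) D'.r :=
    (cw_ball hξ v).2 (ball_subset_ball (min_le_right _ _) hw)
  obtain ⟨j', h1, h2, h3, h4, h5⟩ := D.of_ret h hw1
  have hjj : j' = j := D.σinj _ hw1 (show D.σ j' _ = D.σ j _ by rw [← h5, hj])
  subst hjj
  have hq' : pV U (rv T ξ v) q' = cw T ξ v * pV U v q := by
    have e1 : pV U (rv T ξ v) q' = wv T (rv T ξ v) (ξ * x 1, x 2) := h'.2.1
    have e2 : pV U v q = wv T v (x 1, x 2) := h.2.1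
    rw [e1, wv_rv hξ v h1, e2]; rfl
  obtain ⟨l, k1, k2, k3, k4, k5⟩ := D'.of_ret h' (by rw [hq']; exact hw2)
  rw [hq'] at k2 k4 k5
  have hs : x 1 ∈ ball (0 : ℂ) (min D.R D'.R) := by
    rw [mem_ball_zero_iff]
    refine lt_min (h2.trans (D.lt _ hw1).2) ?_
    have := k2.trans (D'.lt _ hw2).2
    rwa [rot_1, norm_mul, norm_one T hξ, one_mul] at this
  have e3 := hτ j' (x 1) _ hs hw
  rw [← h4] at e3
  rw [rot_0, rot_1] at k4
  rw [k4] at e3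
  have e4 : l = τ j' := D'.inj (ξ * x 1, cw T ξ v * pV U v q)
    ⟨(xi_ball hξ).2 (ball_subset_ball (min_le_right _ _) hs), hw2⟩
    (mul_ne_zero (ne_zero T hξ) h1) e3
  rw [k5, e4]

theorem ret_rot_exists {ξ : ℂ} (hξ : ξ ^ T.N = 1) {v : Vtx} {w₀ : ℂ} (D : LD U v w₀)
    (D' : LD U (rv T ξ v) (cw T ξ v * w₀)) {τ : Fin T.d → Fin T.d}
    (hτ : ∀ j, ∀ s w, s ∈ ball (0 : ℂ) (min D.R D'.R) →
      w ∈ ball w₀ (min D.r D'.r) → D.Z j (s, w) = D'.Z (τ j) (ξ * s, cw T ξ v * w))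
    {w : ℂ} (hw : w ∈ ball w₀ (min D.r D'.r)) (j : Fin T.d) :
    ∃ x, IsRet U v x (D.σ j w) ∧ IsRet U (rv T ξ v) (rot ξ x) (D'.σ (τ j) (cw T ξ v * w)) := by
  have hw1 : w ∈ ball w₀ D.r := ball_subset_ball (min_le_left _ _) hw
  have hw2 : cw T ξ v * w ∈ ball (cw T ξ v * w₀) D'.r :=
    (cw_ball hξ v).2 (ball_subset_ball (min_le_right _ _) hw)
  have hp1 := U.pos v D.hv _ (D.lt _ hw1).1
  have hp2 := U.pos _ D'.hv _ (D'.lt _ hw2).1
  set m := min (U.ρ v w) (U.ρ (rv T ξ v) (cw T ξ v * w)) with hm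
  have hm0 : 0 < m := lt_min hp1 hp2
  set s : ℂ := ((m / 2 : ℝ) : ℂ) with hs
  have hn : ‖s‖ = m / 2 := by rw [hs, Complex.norm_real, Real.norm_of_nonneg (by linarith)]
  have hs0 : s ≠ 0 := by
    intro h
    rw [h, norm_zero] at hn
    linarith
  have hs1 : ‖s‖ < U.ρ v w := by rw [hn]; linarith [min_le_left (U.ρ v w) (U.ρ (rv T ξ v) (cw T ξ v * w))]
  have hs2 : ‖s‖ < U.ρ (rv T ξ v) (cw T ξ v * w) := by
    rw [hn]; linarith [min_le_right (U.ρ v w) (U.ρ (rv T ξ v) (cw T ξ v * w))]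
  have hsB : s ∈ ball (0 : ℂ) (min D.R D'.R) := by
    rw [mem_ball_zero_iff]
    exact lt_min (hs1.trans (D.lt _ hw1).2) (hs2.trans (D'.lt _ hw2).2)
  refine ⟨_, D.ret j w hw1 s hs0 hs1, ?_⟩
  have h1 := D'.ret (τ j) _ hw2 (ξ * s) (mul_ne_zero (ne_zero T hξ) hs0)
    (by rw [norm_mul, norm_one T hξ, one_mul]; exact hs2)
  have h2 : yv T (rv T ξ v) (ξ * s, cw T ξ v * w) = yv T v (s, w) := yv_rv hξ v s w
  rw [← hτ j s w hsB hw, h2] at h1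
  have h3 : rot ξ (pt (D.Z j (s, w)) (s, yv T v (s, w))) =
      pt (D.Z j (s, w)) (ξ * s, yv T v (s, w)) := by
    funext i
    fin_cases i <;> rfl
  rw [h3]
  exact h1

variable (U)

/-- all points of all vertex curves -/
abbrev PP : Type := Σ v : {v // v ∈ Vs T}, XV U v.1

/-- the component of a point -/
def ka (a : PP U) : II U := ⟨a.1, (a.2 : ConnectedComponents _)⟩

lemma ka_surj (E : II U) : ∃ a, ka U a = E := by
  obtain ⟨v, e⟩ := E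
  obtain ⟨q, rfl⟩ := ConnectedComponents.surjective_coe e
  exact ⟨⟨v, q⟩, rfl⟩

/-- `b` is the rotation of `a` -/
def RR (ξ : ℂ) (a b : PP U) : Prop :=
  b.1.1 = rv T ξ a.1.1 ∧ ∃ x, IsRet U a.1.1 x a.2 ∧ IsRet U b.1.1 (rot ξ x) b.2

variable {U}

lemma RR.symm {ξ : ℂ} (hξ : ξ ^ T.N = 1) {a b : PP U} (h : RR U ξ a b) : RR U ξ⁻¹ b a := by
  obtain ⟨h1, x, h2, h3⟩ := h
  refine ⟨by rw [h1, rv_inv hξ], rot ξ x, h3, ?_⟩
  rw [rot_mul, inv_mul_cancel₀ (ne_zero T hξ), rot_one]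
  exact h2

section

variable (hG : GalPt T) (hR : RetStmt U) {ξ : ℂ} (hξ : ξ ^ T.N = 1)

include hG hR hξ

/-- local data at a point and its rotation -/
lemma exists_DD {v : Vtx} (q : XV U v) : ∃ (D : LD U v (pV U v q))
    (D' : LD U (rv T ξ v) (cw T ξ v * pV U v q)) (j : Fin T.d) (τ : Fin T.d → Fin T.d),
    (∀ j, ∀ s w, s ∈ ball (0 : ℂ) (min D.R D'.R) →
      w ∈ ball (pV U v q) (min D.r D'.r) → D.Z j (s, w) = D'.Z (τ j) (ξ * s, cw T ξ v * w)) ∧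
    D.σ j (pV U v q) = q := by
  obtain ⟨D⟩ := exists_LD hR q.2.1 q.2.2.1
  obtain ⟨D'⟩ := exists_LD hR (rv_mem hG hξ q.2.1) (w₀ := cw T ξ v * pV U v q)
    (by rw [cw, mem_sp_rv hG hξ]; exact q.2.2.1)
  obtain ⟨τ, hτ⟩ := match_LD hξ D D'
  obtain ⟨j, hj⟩ := D.surj q D.w0_mem
  exact ⟨D, D', j, τ, hτ, hj⟩

lemma rr_fun {v : Vtx} (q : XV U v) : ∃ q' : XV U (rv T ξ v),
    ∃ x, IsRet U v x q ∧ IsRet U (rv T ξ v) (rot ξ x) q' := by
  obtain ⟨D, D', j, τ, hτ, hj⟩ := exists_DD hG hR hξ q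
  obtain ⟨x, h1, h2⟩ := ret_rot_exists hξ D D' hτ
    (mem_ball_self (lt_min D.r_pos D'.r_pos)) j
  rw [hj] at h1
  exact ⟨_, x, h1, h2⟩

lemma rr_uni {v : Vtx} {q : XV U v} {q' q'' : XV U (rv T ξ v)}
    (h : ∃ x, IsRet U v x q ∧ IsRet U (rv T ξ v) (rot ξ x) q')
    (h' : ∃ x, IsRet U v x q ∧ IsRet U (rv T ξ v) (rot ξ x) q'') : q' = q'' := by
  obtain ⟨D, D', j, τ, hτ, hj⟩ := exists_DD hG hR hξ q
  obtain ⟨x, h1, h2⟩ := h
  obtain ⟨x', h1', h2'⟩ := h'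
  have hw : pV U v q ∈ ball (pV U v q) (min D.r D'.r) := mem_ball_self (lt_min D.r_pos D'.r_pos)
  rw [ret_rot hξ D D' hτ h1 h2 hw hj, ret_rot hξ D D' hτ h1' h2' hw hj]

/-- the rotation as a map -/
def rg (v : Vtx) (q : XV U v) : XV U (rv T ξ v) := (rr_fun hG hR hξ q).choose

lemma rg_spec (v : Vtx) (q : XV U v) :
    ∃ x, IsRet U v x q ∧ IsRet U (rv T ξ v) (rot ξ x) (rg hG hR hξ v q) :=
  (rr_fun hG hR hξ q).choose_spec

lemma rg_cont (v : Vtx) : Continuous (rg hG hR hξ v : XV U v → XV U (rv T ξ v)) := by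
  rw [continuous_iff_continuousAt]
  intro q₀
  obtain ⟨D, D', j, τ, hτ, hj⟩ := exists_DD hG hR hξ q₀
  have hw₀ : pV U v q₀ ∈ ball (pV U v q₀) (min D.r D'.r) := mem_ball_self (lt_min D.r_pos D'.r_pos)
  have hp : Continuous (pV U v) := continuous_fst.comp continuous_subtype_val
  have h1 : ∀ᶠ q in 𝓝 q₀, D.σ j (pV U v q) = q ∧ pV U v q ∈ ball (pV U v q₀) D.r := by
    have := D.near (j := j) (w := pV U v q₀) D.w0_mem
    rwa [hj] at this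
  have h2 : ∀ᶠ q in 𝓝 q₀, pV U v q ∈ ball (pV U v q₀) (min D.r D'.r) :=
    hp.continuousAt.eventually (isOpen_ball.mem_nhds hw₀)
  have h3 : ∀ᶠ q in 𝓝 q₀, rg hG hR hξ v q = D'.σ (τ j) (cw T ξ v * pV U v q) := by
    filter_upwards [h1, h2] with q e1 e2
    obtain ⟨x, e3, e4⟩ := rg_spec hG hR hξ v q
    exact ret_rot hξ D D' hτ e3 e4 e2 e1.1
  have h4 : ContinuousAt (fun q => D'.σ (τ j) (cw T ξ v * pV U v q)) q₀ := by
    have h5 : ContinuousAt (D'.σ (τ j)) (cw T ξ v * pV U v q₀) :=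
      (D'.cont (τ j)).continuousAt (isOpen_ball.mem_nhds D'.w0_mem)
    exact ContinuousAt.comp (g := D'.σ (τ j)) (f := fun q => cw T ξ v * pV U v q) h5
      (continuousAt_const.mul hp.continuousAt)
  exact h4.congr (h3.mono fun q h => h.symm)

lemma rr_exists (a : PP U) : ∃ b, RR U ξ a b :=
  ⟨⟨⟨rv T ξ a.1.1, rv_mem hG hξ a.1.2⟩, rg hG hR hξ _ a.2⟩, rfl, rg_spec hG hR hξ _ a.2⟩

/-- the rotation respects components -/
lemma rr_ka {a a' b b' : PP U} (h : RR U ξ a b) (h' : RR U ξ a' b') (he : ka U a = ka U a') :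
    ka U b = ka U b' := by
  obtain ⟨⟨v, hv⟩, q⟩ := a
  obtain ⟨⟨v', hv'⟩, q'⟩ := a'
  obtain ⟨⟨v₁, hv₁⟩, p⟩ := b
  obtain ⟨⟨v₁', hv₁'⟩, p'⟩ := b'
  have e1 : v₁ = rv T ξ v := h.1
  have e2 : v₁' = rv T ξ v' := h'.1
  have e3 : (⟨v, hv⟩ : {v // v ∈ Vs T}) = ⟨v', hv'⟩ := congrArg Sigma.fst he
  have e4 : v = v' := congrArg Subtype.val e3
  subst e1 e2 e4
  have e5 : (q : ConnectedComponents (XV U v)) = q' := by
    have := he
    simp only [ka, Sigma.mk.injEq, heq_eq_eq, true_and] at this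
    exact this
  have e6 : p = rg hG hR hξ v q := rr_uni hG hR hξ h.2 (rg_spec hG hR hξ v q)
  have e7 : p' = rg hG hR hξ v q' := rr_uni hG hR hξ h'.2 (rg_spec hG hR hξ v q')
  have e8 : ((rg hG hR hξ v q : XV U (rv T ξ v)) : ConnectedComponents (XV U (rv T ξ v))) =
      ((rg hG hR hξ v q' : XV U (rv T ξ v)) : ConnectedComponents (XV U (rv T ξ v))) :=
    congrArg (rg_cont hG hR hξ v).connectedComponentsMap e5
  simp only [ka, Sigma.mk.injEq, heq_eq_eq, true_and]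
  rw [e6, e7]
  exact e8

/-- the map on components -/
def pf (E : II U) : II U := ka U (rr_exists hG hR hξ (ka_surj U E).choose).choose

lemma pf_spec {a b : PP U} (h : RR U ξ a b) : pf hG hR hξ (ka U a) = ka U b := by
  refine rr_ka hG hR hξ (rr_exists hG hR hξ (ka_surj U (ka U a)).choose).choose_spec h ?_
  exact (ka_surj U (ka U a)).choose_spec

lemma pf_inv (E : II U) : pf hG hR (inv_root hξ) (pf hG hR hξ E) = E := by
  obtain ⟨a, rfl⟩ := ka_surj U E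
  obtain ⟨b, hb⟩ := rr_exists hG hR hξ a
  rw [pf_spec hG hR hξ hb, pf_spec hG hR (inv_root hξ) (hb.symm hξ)]

lemma pf_inv' (E : II U) : pf hG hR hξ (pf hG hR (inv_root hξ) E) = E := by
  obtain ⟨a, rfl⟩ := ka_surj U E
  obtain ⟨b, hb⟩ := rr_exists hG hR (inv_root hξ) a
  have h1 := hb.symm (inv_root hξ)
  rw [inv_inv] at h1
  rw [pf_spec hG hR (inv_root hξ) hb, pf_spec hG hR hξ h1]

/-- **the permutation of the components** -/
def pi : Equiv.Perm (II U) where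
  toFun := pf hG hR hξ
  invFun := pf hG hR (inv_root hξ)
  left_inv := pf_inv hG hR hξ
  right_inv := pf_inv' hG hR hξ

lemma pi_spec {a b : PP U} (h : RR U ξ a b) : pi hG hR hξ (ka U a) = ka U b := pf_spec hG hR hξ h

lemma pi_fst (E : II U) : (pi hG hR hξ E).1.1 = rv T ξ E.1.1 := by
  obtain ⟨a, rfl⟩ := ka_surj U E
  obtain ⟨b, hb⟩ := rr_exists hG hR hξ a
  rw [pi_spec hG hR hξ hb]
  exact hb.1

end

end Crest.Agent.R257.Vt3_558
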