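import Mathlib
import Crest.Agent.R257.Vt3_558
import Crest.Agent.R257.Tb1_941
import Crest.Agent.R257.Tb2_941

/-!
Row 257 (S0395), part C (helper941), file 3: **the action of the rotations on the vertex curves**.

* `act hG hξ v : XV U v → XV U (rv T ξ v)`: continuous, `pV_act`, `isRet_act`;
* `actP` on all points (`PP U`), `actP_one`, `actP_mul`, `rr_iff`;
* `piH hG : Ru T →* Equiv.Perm (II U)` (558's `pi`), `piH_ka`;
* the component `XE E`, connected, `covE E : FCov (sp T E.1.1) (XE E)`;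
* its stabiliser `GE hG E` acts: `mulAct hG E : MulAction (GE hG E) (XE E)`, `continuous_smulE`,
  `pr_smulE`, `isRet_smulE`;
* `rho_rv`: the radii of the canonical tubes are invariant.
-/

set_option autoImplicit false
set_option linter.unusedSectionVars false

open Polynomial Set Filter Topology Metric
open Crest.AlgGeometry.Germ Crest.Agent.R257.AJ387 Crest.Agent.R257.T387
open Crest.Agent.R257.Cpt1_419 Crest.Agent.R257.BP_258 Crest.Agent.R257.Rot1_558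
open Crest.Agent.R257.Vt1_558 (rv rv_mem rv_rv rv_one mem_sp_rv yv_rv wv_rv galPt)
open Crest.Agent.R257.Vt3_558
open Crest.Agent.R257.Vt2_558 (exists_pt)
open Crest.Agent.R257.Tb_941 (retStmt covV Gd SS rho tub)

noncomputable section

namespace Crest.Agent.R257.Tb3_941

variable {f : (Fin 3 → ℂ) → ℂ} {T : TB f} {U : Tub T}

/-! ### one rotation -/

section one

variable (hG : GalPt T) {ξ : ℂ} (hξ : ξ ^ T.N = 1)

include hG hξ in
/-- the rotation of a point of a tube, if it is small enough -/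
lemma inT_rot {v : Vtx} {x : Fin 3 → ℂ} (h : InT U v x)
    (hlt : ‖x 1‖ < U.ρ (rv T ξ v) (cw T ξ v * wv T v (x 1, x 2))) :
    InT U (rv T ξ v) (rot ξ x) := by
  have e : wv T (rv T ξ v) (rot ξ x 1, rot ξ x 2) = cw T ξ v * wv T v (x 1, x 2) :=
    wv_rv hξ v h.ne _
  refine ⟨rv_mem hG hξ h.mem, ?_, ?_, ?_, ?_⟩
  · rw [rot_1]; exact mul_ne_zero (ne_zero T hξ) h.ne
  · rw [e]
    exact fun h1 => h.nsp ((mem_sp_rv hG hξ).1 h1)
  · rw [e, rot_1, norm_mul, norm_one T hξ, one_mul]; exact hlt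
  · rw [rot_1, rot_2, rot_0, Q_rot hξ]; exact h.root

/-- **the action of a rotation** -/
def act (v : Vtx) : XV U v → XV U (rv T ξ v) := rg hG (retStmt U) hξ v

lemma continuous_act (v : Vtx) : Continuous (act hG hξ v : XV U v → XV U (rv T ξ v)) :=
  rg_cont hG (retStmt U) hξ v

lemma act_spec (v : Vtx) (q : XV U v) :
    ∃ x, IsRet U v x q ∧ IsRet U (rv T ξ v) (rot ξ x) (act hG hξ v q) :=
  rg_spec hG (retStmt U) hξ v q

lemma act_unique {v : Vtx} {q : XV U v} {q' : XV U (rv T ξ v)}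
    (h : ∃ x, IsRet U v x q ∧ IsRet U (rv T ξ v) (rot ξ x) q') : q' = act hG hξ v q :=
  rr_uni hG (retStmt U) hξ h (act_spec hG hξ v q)

lemma pV_act (v : Vtx) (q : XV U v) :
    pV U (rv T ξ v) (act hG hξ v q) = cw T ξ v * pV U v q := by
  obtain ⟨x, h1, h2⟩ := act_spec hG hξ v q
  have e1 : pV U (rv T ξ v) (act hG hξ v q) = wv T (rv T ξ v) (rot ξ x 1, rot ξ x 2) := h2.2.1
  have e2 : pV U v q = wv T v (x 1, x 2) := h1.2.1
  rw [e1, e2]
  exact wv_rv hξ v h1.1.ne _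

/-- **compatibility with the retraction** -/
theorem isRet_act {v : Vtx} {x : Fin 3 → ℂ} {q : XV U v} (h : IsRet U v x q)
    (h' : InT U (rv T ξ v) (rot ξ x)) : IsRet U (rv T ξ v) (rot ξ x) (act hG hξ v q) := by
  obtain ⟨q', hq', -⟩ := (retStmt U _ h'.mem).1 _ h'
  have h1 : q' = act hG hξ v q := act_unique hG hξ ⟨x, h, hq'⟩
  rw [← h1]; exact hq'

/-- the action on all points -/
def actP (a : PP U) : PP U := ⟨⟨rv T ξ a.1.1, rv_mem hG hξ a.1.2⟩, act hG hξ a.1.1 a.2⟩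

lemma actP_fst (a : PP U) : (actP hG hξ a).1.1 = rv T ξ a.1.1 := rfl

theorem rr_iff {a b : PP U} : RR U ξ a b ↔ b = actP hG hξ a := by
  constructor
  · intro h
    obtain ⟨⟨v, hv⟩, q⟩ := a
    obtain ⟨⟨v', hv'⟩, q'⟩ := b
    have e1 : v' = rv T ξ v := h.1
    subst e1
    have h1 : q' = act hG hξ v q := act_unique hG hξ h.2
    subst h1
    rfl
  · rintro rfl
    exact ⟨rfl, act_spec hG hξ _ a.2⟩

lemma continuous_actP : Continuous (actP hG hξ : PP U → PP U) := by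
  refine continuous_sigma fun v => ?_
  have h1 : (fun q : XV U v.1 => actP hG hξ ⟨v, q⟩) =
      (fun q => Sigma.mk (β := fun v : {v // v ∈ Vs T} => XV U v.1)
        ⟨rv T ξ v.1, rv_mem hG hξ v.2⟩ q) ∘ act hG hξ v.1 := rfl
  rw [h1]
  exact continuous_sigmaMk.comp (continuous_act hG hξ v.1)

lemma ka_actP (a : PP U) : ka U (actP hG hξ a) = pi hG (retStmt U) hξ (ka U a) :=
  (pi_spec hG (retStmt U) hξ ((rr_iff hG hξ).2 rfl)).symm

end one

/-! ### the group law -/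

lemma rr_one (a : PP U) : RR U 1 a a := by
  obtain ⟨x, hx, -⟩ := exists_pt (retStmt U) a.2 1 one_pos
  exact ⟨(rv_one _).symm, x, hx, by rw [rot_one]; exact hx⟩

lemma actP_one (hG : GalPt T) (a : PP U) : actP hG one_root a = a :=
  ((rr_iff hG one_root).1 (rr_one a)).symm

theorem actP_mul (hG : GalPt T) {ξ η : ℂ} (hξ : ξ ^ T.N = 1) (hη : η ^ T.N = 1) (a : PP U) :
    actP hG (mul_root hξ hη) a = actP hG hξ (actP hG hη a) := by
  symm
  apply (rr_iff hG (mul_root hξ hη)).1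
  refine ⟨rv_rv ξ η a.1.1, ?_⟩
  have hv := a.1.2
  have hw : pV U a.1.1 a.2 ∉ sp T a.1.1 := a.2.2.2.1
  have h1 : cw T η a.1.1 * pV U a.1.1 a.2 ∉ sp T (rv T η a.1.1) := fun h => hw ((mem_sp_rv hG hη).1 h)
  have hm1 := rv_mem hG hη hv
  have h2 : cw T ξ (rv T η a.1.1) * (cw T η a.1.1 * pV U a.1.1 a.2) ∉
      sp T (rv T ξ (rv T η a.1.1)) := fun h => h1 ((mem_sp_rv hG hξ).1 h)
  have hm2 := rv_mem hG hξ hm1
  have p1 := U.pos _ hm1 _ h1
  have p2 := U.pos _ hm2 _ h2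
  obtain ⟨x, hx, hxe⟩ := exists_pt (retStmt U) a.2 _ (lt_min p1 p2)
  have e2 : pV U a.1.1 a.2 = wv T a.1.1 (x 1, x 2) := hx.2.1
  have hi1 : InT U (rv T η a.1.1) (rot η x) :=
    inT_rot hG hη hx.1 (by rw [← e2]; exact hxe.trans_le (min_le_left _ _))
  have hr1 := isRet_act hG hη hx hi1
  have hi2 : InT U (rv T ξ (rv T η a.1.1)) (rot ξ (rot η x)) := by
    refine inT_rot hG hξ hi1 ?_
    have e3 : wv T (rv T η a.1.1) (rot η x 1, rot η x 2) = cw T η a.1.1 * pV U a.1.1 a.2 := by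
      rw [e2]; exact wv_rv hη _ hx.1.ne _
    rw [e3, rot_1, norm_mul, norm_one T hη, one_mul]
    exact hxe.trans_le (min_le_right _ _)
  have hr2 := isRet_act hG hξ hr1 hi2
  exact ⟨x, hx, by rw [← rot_mul]; exact hr2⟩

/-- the rotations -/
abbrev Ru (T : TB f) : Subgroup ℂˣ := rootsOfUnity T.N ℂ

/-- the complex number -/
def vl (γ : Ru T) : ℂ := ((γ : ℂˣ) : ℂ)

lemma vl_pow (γ : Ru T) : vl γ ^ T.N = 1 := by
  have := (mem_rootsOfUnity T.N (γ : ℂˣ)).1 γ.2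
  have h2 := congrArg Units.val this
  simpa [vl] using h2

lemma vl_one : vl (1 : Ru T) = 1 := rfl

lemma vl_mul (γ δ : Ru T) : vl (γ * δ) = vl γ * vl δ := rfl

lemma exists_vl {ξ : ℂ} (hξ : ξ ^ T.N = 1) : ∃ γ : Ru T, vl γ = ξ := by
  refine ⟨⟨Units.mk0 ξ (ne_zero T hξ), ?_⟩, rfl⟩
  rw [mem_rootsOfUnity]
  ext
  simpa using hξ

instance : NeZero T.N := ⟨T.N_pos.ne'⟩

instance : Fintype (Ru T) := Fintype.ofFinite _

variable (hG : GalPt T)

lemma actP_congr {ξ η : ℂ} (hξ : ξ ^ T.N = 1) (hη : η ^ T.N = 1) (h : ξ = η) (a : PP U) :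
    actP hG hξ a = actP hG hη a := by
  subst h; rfl

/-- **one family of permutations of the components** -/
def piH : Ru T →* Equiv.Perm (II U) where
  toFun γ := pi hG (retStmt U) (vl_pow γ)
  map_one' := by
    refine Equiv.ext fun E => ?_
    obtain ⟨a, rfl⟩ := ka_surj U E
    rw [Equiv.Perm.one_apply, ← ka_actP hG]
    exact congrArg (ka U) ((actP_congr hG _ one_root vl_one a).trans (actP_one hG a))
  map_mul' γ δ := by
    refine Equiv.ext fun E => ?_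
    obtain ⟨a, rfl⟩ := ka_surj U E
    rw [Equiv.Perm.mul_apply, ← ka_actP hG, ← ka_actP hG, ← ka_actP hG]
    exact congrArg (ka U) ((actP_congr hG _ (mul_root (vl_pow γ) (vl_pow δ)) (vl_mul γ δ) a).trans
      (actP_mul hG _ _ a))

lemma piH_apply (γ : Ru T) (E : II U) : piH hG γ E = pi hG (retStmt U) (vl_pow γ) E := rfl

lemma piH_ka (γ : Ru T) (a : PP U) : piH hG γ (ka U a) = ka U (actP hG (vl_pow γ) a) :=
  (ka_actP hG (vl_pow γ) a).symm

lemma piH_fst (γ : Ru T) (E : II U) : (piH hG γ E).1.1 = rv T (vl γ) E.1.1 :=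
  pi_fst hG (retStmt U) (vl_pow γ) E

/-! ### the components -/

/-- the component `E` -/
def XE (E : II U) : Type := {q : XV U E.1.1 // (q : ConnectedComponents (XV U E.1.1)) = E.2}

instance (E : II U) : TopologicalSpace (XE E) := instTopologicalSpaceSubtype

instance (E : II U) : T2Space (XE E) :=
  inferInstanceAs (T2Space {q : XV U E.1.1 // (q : ConnectedComponents (XV U E.1.1)) = E.2})

lemma isClopen_comp (E : II U) :
    IsClopen {q : XV U E.1.1 | (q : ConnectedComponents (XV U E.1.1)) = E.2} := by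
  have h1 : DiscreteTopology (ConnectedComponents (XV U E.1.1)) := inferInstance
  exact (isClopen_discrete {E.2}).preimage ConnectedComponents.continuous_coe

lemma exists_comp (E : II U) :
    ∃ q₀ : XV U E.1.1, (q₀ : ConnectedComponents (XV U E.1.1)) = E.2 :=
  ConnectedComponents.surjective_coe E.2

lemma isConnected_comp (E : II U) :
    IsConnected {q : XV U E.1.1 | (q : ConnectedComponents (XV U E.1.1)) = E.2} := by
  obtain ⟨q₀, hq₀⟩ := exists_comp E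
  have h1 : {q : XV U E.1.1 | (q : ConnectedComponents (XV U E.1.1)) = E.2} =
      connectedComponent q₀ := by
    rw [← connectedComponents_preimage_singleton]
    ext q
    simp only [Set.mem_ofPred_eq, Set.mem_preimage, Set.mem_singleton_iff, hq₀]
  rw [h1]
  exact isConnected_connectedComponent

instance (E : II U) : ConnectedSpace (XE E) :=
  isConnected_iff_connectedSpace.1 (isConnected_comp E)

/-- the covering of a component -/
def covE (E : II U) : FCov ((sp T E.1.1 : Finset ℂ) : Set ℂ) (XE E) :=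
  (covV (U := U) E.1.2).restrict _ (isClopen_comp E)

lemma covE_p (E : II U) (x : XE E) : ((covE E).p x).1 = pV U E.1.1 x.1 := rfl

/-- the stabiliser of a component -/
def GE (E : II U) : Subgroup (Ru T) :=
  (MulAction.stabilizer (Equiv.Perm (II U)) E).comap (piH hG)

lemma mem_GE {E : II U} {γ : Ru T} : γ ∈ GE hG E ↔ piH hG γ E = E := Iff.rfl

lemma GE_fst {E : II U} {γ : Ru T} (h : γ ∈ GE hG E) : rv T (vl γ) E.1.1 = E.1.1 := by
  rw [← piH_fst hG, (mem_GE hG).1 h]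

instance (E : II U) : Fintype (GE hG E) := Fintype.ofFinite _

lemma exists_smul {ξ : ℂ} (hξ : ξ ^ T.N = 1) {v v' : Vtx} (h : v' = rv T ξ v) :
    ∃ g : XV U v → XV U v', Continuous g ∧ (∀ q, ∃ x, IsRet U v x q ∧ IsRet U v' (rot ξ x) (g q)) ∧
      (∀ q q', (∃ x, IsRet U v x q ∧ IsRet U v' (rot ξ x) q') → q' = g q) ∧
      (∀ q x, IsRet U v x q → InT U v' (rot ξ x) → IsRet U v' (rot ξ x) (g q)) ∧
      (∀ q, pV U v' (g q) = cw T ξ v * pV U v q) ∧
      ∀ (hv : v ∈ Vs T) (hv' : v' ∈ Vs T) (q : XV U v),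
        actP hG hξ ⟨⟨v, hv⟩, q⟩ = (⟨⟨v', hv'⟩, g q⟩ : PP U) := by
  subst h
  exact ⟨act hG hξ v, continuous_act hG hξ v, act_spec hG hξ v, fun q q' h => act_unique hG hξ h,
    fun q x h h' => isRet_act hG hξ h h', pV_act hG hξ v, fun _ _ _ => rfl⟩

/-- the action of an element of the stabiliser on the whole curve -/
def smv {E : II U} (γ : GE hG E) : XV U E.1.1 → XV U E.1.1 :=
  (exists_smul hG (vl_pow γ.1) (GE_fst hG γ.2).symm).choose

lemma smv_spec {E : II U} (γ : GE hG E) : Continuous (smv hG γ) ∧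
    (∀ q, ∃ x, IsRet U E.1.1 x q ∧ IsRet U E.1.1 (rot (vl γ.1) x) (smv hG γ q)) ∧
      (∀ q q', (∃ x, IsRet U E.1.1 x q ∧ IsRet U E.1.1 (rot (vl γ.1) x) q') → q' = smv hG γ q) ∧
      (∀ q x, IsRet U E.1.1 x q → InT U E.1.1 (rot (vl γ.1) x) →
        IsRet U E.1.1 (rot (vl γ.1) x) (smv hG γ q)) ∧
      (∀ q, pV U E.1.1 (smv hG γ q) = cw T (vl γ.1) E.1.1 * pV U E.1.1 q) ∧
      ∀ (hv : E.1.1 ∈ Vs T) (hv' : E.1.1 ∈ Vs T) (q : XV U E.1.1),
        actP hG (vl_pow γ.1) ⟨⟨E.1.1, hv⟩, q⟩ = (⟨⟨E.1.1, hv'⟩, smv hG γ q⟩ : PP U) :=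
  (exists_smul hG (vl_pow γ.1) (GE_fst hG γ.2).symm).choose_spec

lemma smv_actP {E : II U} (γ : GE hG E) (q : XV U E.1.1) :
    (⟨E.1, smv hG γ q⟩ : PP U) = actP hG (vl_pow γ.1) ⟨E.1, q⟩ :=
  ((smv_spec hG γ).2.2.2.2.2 E.1.2 E.1.2 q).symm

lemma smv_comp {E : II U} (γ : GE hG E) {q : XV U E.1.1}
    (hq : (q : ConnectedComponents (XV U E.1.1)) = E.2) :
    (smv hG γ q : ConnectedComponents (XV U E.1.1)) = E.2 := by
  have h1 : ka U (⟨E.1, smv hG γ q⟩ : PP U) = E := by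
    rw [smv_actP, ← piH_ka]
    have h2 : ka U (⟨E.1, q⟩ : PP U) = E := Sigma.ext rfl (heq_of_eq hq)
    rw [h2]; exact (mem_GE hG).1 γ.2
  obtain ⟨v, e⟩ := E
  have h3 : (⟨v, (smv hG γ q : ConnectedComponents (XV U v.1))⟩ : II U) = ⟨v, e⟩ := h1
  simpa using h3

lemma smv_one {E : II U} (q : XV U E.1.1) : smv hG (1 : GE hG E) q = q := by
  have h1 := smv_actP hG (1 : GE hG E) q
  have h2 : actP hG (vl_pow (1 : GE hG E).1) (⟨E.1, q⟩ : PP U) = ⟨E.1, q⟩ :=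
    (actP_congr hG _ one_root vl_one _).trans (actP_one hG _)
  rw [h2] at h1
  simpa using h1

lemma smv_mul {E : II U} (γ δ : GE hG E) (q : XV U E.1.1) :
    smv hG (γ * δ) q = smv hG γ (smv hG δ q) := by
  have h1 := smv_actP hG (γ * δ) q
  have h2 : actP hG (vl_pow (γ * δ).1) (⟨E.1, q⟩ : PP U) =
      actP hG (vl_pow γ.1) (actP hG (vl_pow δ.1) ⟨E.1, q⟩) :=
    (actP_congr hG _ (mul_root (vl_pow γ.1) (vl_pow δ.1)) (vl_mul γ.1 δ.1) _).trans
      (actP_mul hG _ _ _)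
  rw [h2, ← smv_actP, ← smv_actP] at h1
  simpa using h1

/-- **the action of the stabiliser on the component** -/
@[reducible] def mulAct (E : II U) : MulAction (GE hG E) (XE E) where
  smul γ x := ⟨smv hG γ x.1, smv_comp hG γ x.2⟩
  one_smul x := Subtype.ext (smv_one hG x.1)
  mul_smul γ δ x := Subtype.ext (smv_mul hG γ δ x.1)

lemma smul_val {E : II U} (γ : GE hG E) (x : XE E) :
    (letI := mulAct hG E; γ • x).1 = smv hG γ x.1 := rfl

lemma continuous_smulE {E : II U} (γ : GE hG E) :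
    Continuous fun x : XE E => (letI := mulAct hG E; γ • x) :=
  Continuous.subtype_mk ((smv_spec hG γ).1.comp continuous_subtype_val) _

/-- the character -/
def chE (E : II U) (γ : GE hG E) : ℂ := cw T (vl γ.1) E.1.1

lemma chE_norm (E : II U) (γ : GE hG E) : ‖chE hG E γ‖ = 1 := cw_norm (vl_pow γ.1) _

lemma pr_smulE {E : II U} (γ : GE hG E) (x : XE E) :
    ((covE E).p (letI := mulAct hG E; γ • x)).1 = chE hG E γ * ((covE E).p x).1 :=
  (smv_spec hG γ).2.2.2.2.1 x.1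

lemma isRet_smulE {E : II U} (γ : GE hG E) (x : XE E) {y : Fin 3 → ℂ} (h : IsRet U E.1.1 y x.1)
    (h' : InT U E.1.1 (rot (vl γ.1) y)) :
    IsRet U E.1.1 (rot (vl γ.1) y) (letI := mulAct hG E; γ • x).1 :=
  (smv_spec hG γ).2.2.2.1 x.1 y h h'

/-! ### the canonical tubes are invariant -/

include hG in
lemma Gd_rv {ξ : ℂ} (hξ : ξ ^ T.N = 1) {v : Vtx} {w : ℂ} {r : ℝ} (h : Gd (T := T) v w r) :
    Gd (T := T) (rv T ξ v) (cw T ξ v * w) r := by
  have h0 : ξ ≠ 0 := ne_zero T hξ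
  have hc0 : cw T ξ v ≠ 0 := by
    have := cw_norm hξ v
    intro h1
    rw [h1, norm_zero] at this
    exact zero_ne_one this
  obtain ⟨Z, h1, h2, h3⟩ := h.ex
  -- the inverse rotation of the polydisc
  have key : ∀ q : ℂ × ℂ, q ∈ ball (0 : ℂ) r ×ˢ ball (cw T ξ v * w) r →
      (ξ⁻¹ * q.1, (cw T ξ v)⁻¹ * q.2) ∈ ball (0 : ℂ) r ×ˢ ball w r ∧
      yv T (rv T ξ v) q = yv T v (ξ⁻¹ * q.1, (cw T ξ v)⁻¹ * q.2) := by
    rintro ⟨s, w'⟩ ⟨hs, hw'⟩
    have e1 : s = ξ * (ξ⁻¹ * s) := by rw [mul_inv_cancel_left₀ h0]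
    have e2 : w' = cw T ξ v * ((cw T ξ v)⁻¹ * w') := by rw [mul_inv_cancel_left₀ hc0]
    refine ⟨⟨?_, ?_⟩, ?_⟩
    · rw [e1] at hs
      exact (xi_ball hξ).1 hs
    · simp only at hw'
      rw [e2] at hw'
      exact (cw_ball hξ v).1 hw'
    · have := yv_rv hξ v (ξ⁻¹ * s) ((cw T ξ v)⁻¹ * w')
      rw [← this]
      congr 1
      exact Prod.ext e1 e2
  refine ⟨h.pos, h.le, ?_, fun j q => Z j (ξ⁻¹ * q.1, (cw T ξ v)⁻¹ * q.2), ?_, ?_, ?_⟩
  · intro w' hw'
    have e2 : w' = cw T ξ v * ((cw T ξ v)⁻¹ * w') := by rw [mul_inv_cancel_left₀ hc0]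
    rw [e2] at hw' ⊢
    intro hsp
    refine h.nsp _ ((cw_ball hξ v).1 hw') ((mem_sp_rv hG hξ).1 hsp)
  · intro j q hq
    refine AnalyticAt.comp_of_eq (h1 j _ (key q hq).1) ?_ rfl
    exact (analyticAt_const.mul analyticAt_fst).prod (analyticAt_const.mul analyticAt_snd)
  · intro q hq
    obtain ⟨k1, k2⟩ := key q hq
    obtain ⟨a1, a2, a3⟩ := h2 _ k1
    have hn : ‖ξ⁻¹ * q.1‖ = ‖q.1‖ := by rw [norm_mul, norm_inv, norm_one T hξ, inv_one, one_mul]
    refine ⟨⟨?_, ?_⟩, ?_, ?_⟩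
    · have := a1.1
      simp only at this
      rw [hn] at this; exact this
    · rw [k2]; exact a1.2
    · simp only at a2
      rw [hn] at a2; exact a2
    · rw [k2, ← a3]
      have := Q_rot (T := T) hξ (ξ⁻¹ * q.1) (yv T v (ξ⁻¹ * q.1, (cw T ξ v)⁻¹ * q.2))
      rw [mul_inv_cancel_left₀ h0] at this
      exact this
  · intro q hq hq0
    exact h3 _ (key q hq).1 (mul_ne_zero (inv_ne_zero h0) hq0)

include hG in
lemma rho_rv_le {ξ : ℂ} (hξ : ξ ^ T.N = 1) (v : Vtx) (w : ℂ) (hne : (SS T v w).Nonempty) :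
    rho T v w ≤ rho T (rv T ξ v) (cw T ξ v * w) := by
  unfold rho
  have h1 : sSup (SS T v w) ≤ sSup (SS T (rv T ξ v) (cw T ξ v * w)) := by
    refine csSup_le_csSup (Tb_941.bdd_SS _ _) hne ?_
    rintro t ⟨w₁, r, h, rfl⟩
    refine ⟨cw T ξ v * w₁, r, Gd_rv hG hξ h, ?_⟩
    rw [dist_eq_norm, dist_eq_norm, ← mul_sub, norm_mul, cw_norm hξ, one_mul]
  linarith

lemma cw_cw {ξ : ℂ} (hξ : ξ ^ T.N = 1) (v : Vtx) (w : ℂ) :
    cw T ξ⁻¹ (rv T ξ v) * (cw T ξ v * w) = w := by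
  have h0 : ξ ^ (T.M * v.1) ≠ 0 := pow_ne_zero _ (ne_zero T hξ)
  have h1 : cw T ξ⁻¹ (rv T ξ v) = ξ ^ (T.M * v.1) := by
    simp only [cw, Vt1_558.rv_fst, inv_pow, inv_inv]
  rw [h1, cw, mul_inv_cancel_left₀ h0]

include hG in
/-- **the canonical radii are invariant** -/
theorem rho_rv {ξ : ℂ} (hξ : ξ ^ T.N = 1) {v : Vtx} (hv : v ∈ Vs T) (hC : Clo T) (w : ℂ) :
    rho T (rv T ξ v) (cw T ξ v * w) = rho T v w := by
  have hne : ∀ {v : Vtx} (hv : v ∈ Vs T) (w : ℂ), (SS T v w).Nonempty := by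
    intro v hv w
    obtain ⟨w₁, hw₁⟩ : ∃ w₁ : ℂ, w₁ ∉ sp T v := Infinite.exists_notMem_finset _
    obtain ⟨r, hr⟩ := Tb_941.exists_Gd hC hv hw₁
    exact ⟨_, w₁, r, hr, rfl⟩
  refine le_antisymm ?_ (rho_rv_le hG hξ v w (hne hv w))
  have h1 := rho_rv_le hG (inv_root hξ) (rv T ξ v) (cw T ξ v * w) (hne (rv_mem hG hξ hv) _)
  rw [cw_cw hξ, Vt1_558.rv_inv hξ] at h1
  exact h1

/-- in the canonical tubes the rotation of a point of a tube is in the rotated tube -/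
theorem inT_tub {hC : Clo T} {ξ : ℂ} (hξ : ξ ^ T.N = 1) {v : Vtx} {x : Fin 3 → ℂ}
    (h : InT (tub T hC) v x) : InT (tub T hC) (rv T ξ v) (rot ξ x) := by
  refine inT_rot (galPt hC) hξ h ?_
  have h1 : (tub T hC).ρ (rv T ξ v) (cw T ξ v * wv T v (x 1, x 2)) =
      (tub T hC).ρ v (wv T v (x 1, x 2)) := rho_rv (galPt hC) hξ h.mem hC _
  rw [h1]; exact h.lt

end Crest.Agent.R257.Tb3_941
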