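import Crest.Agent.R257.ExF1_121
import Crest.Agent.R257.FrBP4_808
import Crest.Agent.R257.ExC_121
import Crest.Agent.R257.Tb3_941
import Crest.Agent.R257.Vt8_558
import Crest.Agent.R257.KiD_121

/-!
Row 257 (S0395), C-EXT (helper121): the rotations of the frame `D.fr` (808) and the extension of
invariant data from its graph component to all components.

* `GG D hG`    : the group; `rot_fr : Rot D.fr (GG D hG)`; `mem_orb_iff`;
* `exists_ext` : the extension; `exo_eq` : the orbit functions.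
-/

set_option autoImplicit false
set_option linter.unusedSectionVars false

open Polynomial Set Filter Topology Metric
open Crest.AlgGeometry.Germ Crest.Agent.R257.AJ387 Crest.Agent.R257.T387
open Crest.Agent.R257.Defs_219 Crest.Agent.R257.Gr1_157
open Crest.Agent.R257.BP_258 Crest.Agent.R257.Rot1_558 Crest.Agent.R257.Vt1_558
open Crest.Agent.R257.Vt2_558 Crest.Agent.R257.Vt3_558 Crest.Agent.R257.Vt4_558
open Crest.Agent.R257.Vt5_558 Crest.Agent.R257.Vt6_558 Crest.Agent.R257.Vt7_558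
open Crest.Agent.R257.Vt8_558 (exists_vert)
open Crest.Agent.R257.Tb_941 Crest.Agent.R257.Tb3_941
open Crest.Agent.R257.FrBP_808 Crest.Agent.R257.ExF_121
open Crest.Agent.R257.KiD_121

noncomputable section

namespace Crest.Agent.R257.ExF_121

variable {f : (Fin 3 → ℂ) → ℂ} {T : TB f} {U : Tub T} {S : Sh T}

/-- `nu` is invariant (558's proof of `rot'`) -/
theorem nu_pi (hG : GalPt T) (hR : RetStmt U) (L : Lab U S) {nu : II U → ℤ}
    {n1 n2 : Ch T.m → Fin T.d → ℤ} (hJ : Jac L nu n1 n2) {ξ : ℂ} (hξ : ξ ^ T.N = 1) (E : II U) :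
    nu (pi hG hR hξ E) = nu E := by
  obtain ⟨i, k, w₀, j, hok, hE⟩ := exists_vert hR L E
  set c : Ch T.m := .vert i k w₀ with hc
  obtain ⟨τ, hτ⟩ := exists_tau hG hξ S hok.1
  have hok' : Ok S (rc T ξ c) := ok_rc S hG hξ hok
  have hE' : L.e1 (rc T ξ c) (τ j) = some (pi hG hR hξ E) := by
    rw [lab1 hG hR hξ L hok (hτ j), hE]; rfl
  obtain ⟨K, hK, hb⟩ := hJ.bd c hok j
  obtain ⟨K', hK', hb'⟩ := hJ.bd _ hok' (τ j)
  rw [hJ.some1 c hok j E hE, hJ.vert c hok trivial j] at hb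
  rw [hJ.some1 _ hok' _ _ hE', hJ.vert _ hok' ((isV_rc ξ c).2 trivial) (τ j)] at hb'
  have hr := S.pos c
  have hr' := S.pos (rc T ξ c)
  have hsmall : ∀ {r : ℝ}, 0 < r → ∀ᶠ t in 𝓝[≠] (0 : ℂ), ‖t‖ < r := fun {r} hr => by
    have : ∀ᶠ t in 𝓝 (0 : ℂ), ‖t‖ < r :=
      continuous_norm.continuousAt.eventually (gt_mem_nhds (by simpa using hr))
    exact this.filter_mono nhdsWithin_le_nhds
  have h1 : ∀ᶠ t in 𝓝[≠] (0 : ℂ), K⁻¹ * ‖t‖ ^ (-nu E - 1) ≤ dn S c j (t, 0) ∧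
      dn S c j (t, 0) ≤ K * ‖t‖ ^ (-nu E - 1) := by
    filter_upwards [hsmall hr, self_mem_nhdsWithin] with t h2 h3
    obtain ⟨-, h4, h5⟩ := hb (t, 0) h2.le (by simpa using hr.le) h3
    simp only [neg_neg, sub_self, zpow_zero, mul_one] at h4 h5
    refine ⟨?_, h4⟩
    rw [inv_mul_le_iff₀ hK]
    exact h5
  have h2 : ∀ᶠ t in 𝓝[≠] (0 : ℂ), K'⁻¹ * ‖t‖ ^ (-nu (pi hG hR hξ E) - 1) ≤ dn S c j (t, 0) ∧
      dn S c j (t, 0) ≤ K' * ‖t‖ ^ (-nu (pi hG hR hξ E) - 1) := by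
    filter_upwards [hsmall hr, hsmall hr', self_mem_nhdsWithin] with t e1 e2 e3
    obtain ⟨r1, r2⟩ := rp_norm hξ c (t, (0 : ℂ))
    obtain ⟨-, h4, h5⟩ := hb' (rp T ξ c (t, 0)) (by rw [r1]; exact e2.le)
      (by rw [r2]; simpa using hr'.le) ((gen_rot hξ c _).2 e3)
    have hm : (t, (0 : ℂ)) ∈ BD (2 * S.r c) (2 * S.r c) :=
      ⟨by show ‖t‖ < _; linarith, by simpa using hr⟩
    have hm' : (t, (0 : ℂ)) ∈ BD (2 * S.r (rc T ξ c)) (2 * S.r (rc T ξ c)) :=
      ⟨by show ‖t‖ < _; linarith, by simpa using hr'⟩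
    have h6 := dn_rot hG hξ S hok.1 hm hm' (hτ j (t, 0)
      (by
        show ‖t‖ < 2 * min (S.r c) (S.r (rc T ξ c))
        have := lt_min e1 e2
        have := lt_min hr hr'
        linarith)
      (by
        show ‖(0 : ℂ)‖ < 2 * min (S.r c) (S.r (rc T ξ c))
        have := lt_min hr hr'
        rw [norm_zero]; linarith))
    rw [h6, r1, r2] at h4 h5
    simp only [neg_neg, sub_self, zpow_zero, mul_one] at h4 h5
    refine ⟨?_, h4⟩
    rw [inv_mul_le_iff₀ hK']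
    exact h5
  have h3 := exp_unique (inv_pos.2 hK') (inv_pos.2 hK) h2 h1
  linarith

/-- the two descriptions of the rotations -/
theorem forall_pi {P : II U → II U → Prop} (hG : GalPt T) (hR : RetStmt U)
    (h : ∀ (γ : Ru T) (E : II U), P (piH hG γ E) E) {ξ : ℂ} (hξ : ξ ^ T.N = 1) (E : II U) :
    P (pi hG hR hξ E) E := by
  obtain ⟨γ, rfl⟩ := exists_vl hξ
  exact h γ E

theorem exo_pos (hG : GalPt T) (hR : RetStmt U) {E E' : II U} (h : ∃ γ : Ru T, piH hG γ E = E') :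
    exo hG hR (some E) E' = 1 := by
  obtain ⟨γ, h⟩ := h
  unfold exo
  rw [if_pos]
  exact ⟨vl γ, vl_pow γ, congrArg some h⟩

theorem exo_neg (hG : GalPt T) (hR : RetStmt U) {E E' : II U} (h : ¬ ∃ γ : Ru T, piH hG γ E = E') :
    exo hG hR (some E) E' = 0 := by
  unfold exo
  rw [if_neg]
  rintro ⟨ξ, hξ, h'⟩
  obtain ⟨γ, rfl⟩ := exists_vl hξ
  exact h ⟨γ, Option.some.inj h'⟩

theorem exo_none (hG : GalPt T) (hR : RetStmt U) (E' : II U) : exo hG hR none E' = 0 := by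
  unfold exo
  rw [if_neg]
  rintro ⟨ξ, hξ, h'⟩
  exact absurd h' (by simp)

theorem exo_nonneg (hG : GalPt T) (hR : RetStmt U) (e : Option (II U)) (E' : II U) :
    0 ≤ exo hG hR e E' := by
  unfold exo; split_ifs <;> norm_num

section frame

variable {L : Lab U S} {nu : II U → ℤ} {n1 n2 : Ch T.m → Fin T.d → ℤ} [Fintype (II U)]
  (D : FrIn L nu n1 n2) (hG : GalPt T)

theorem Mx_piH (γ : Ru T) (E E' : II U) : Mx L (piH hG γ E) (piH hG γ E') = Mx L E E' :=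
  Mx_rot hG (retStmt U) (vl_pow γ) L E E'

include D in
theorem nu_piH (γ : Ru T) (E : II U) : nu (piH hG γ E) = nu E :=
  nu_pi hG (retStmt U) L D.jac (vl_pow γ) E

theorem Mx_symm (E E' : II U) : Mx L E E' = Mx L E' E := (LabI_387.iform L).symm E E'

theorem blk : Blk (piH (U := U) hG) D.I0 := blk_cls (Mx_piH hG) (Mx_symm) _

variable {D} in
/-- a component of the frame, as a component -/
def iU (i : D.fr.I) : II U := Subtype.val (p := fun E => E ∈ D.I0) i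

theorem iU_mem (i : D.fr.I) : iU i ∈ D.I0 := Subtype.property (p := fun E => E ∈ D.I0) i

/-- the group -/
def GG : Subgroup (Equiv.Perm D.fr.I) := stab (piH (U := U) hG) D.I0

theorem rot_fr : Ex_121.Rot D.fr (GG D hG) where
  M_inv := by
    rintro σ ⟨γ, hγ⟩ i j
    show Mx L (iU (σ i)) (iU (σ j)) = Mx L (iU i) (iU j)
    have h1 : piH hG γ (iU i) = iU (σ i) := hγ i
    have h2 : piH hG γ (iU j) = iU (σ j) := hγ j
    rw [← h1, ← h2]
    exact Mx_piH hG γ _ _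
  nu_inv := by
    rintro σ ⟨γ, hγ⟩ i
    show nu (iU (σ i)) = nu (iU i)
    have h1 : piH hG γ (iU i) = iU (σ i) := hγ i
    rw [← h1]
    exact nu_piH D hG γ _

theorem mem_orb_iff (i j : D.fr.I) :
    j ∈ Ex_121.orb (GG D hG) i ↔ ∃ γ, piH hG γ (iU i) = iU j := by
  constructor
  · rintro ⟨σ, ⟨γ, hγ⟩, rfl⟩
    exact ⟨γ, hγ i⟩
  · rintro ⟨γ, hγ⟩
    obtain ⟨σ, hσ, hσ'⟩ := exists_stab (blk D hG) (γ := γ) (a := iU i) (iU_mem D i)
      (by rw [hγ]; exact iU_mem D j)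
    exact ⟨σ, hσ, Subtype.ext ((hσ' i).symm.trans hγ)⟩

/-- extension from the graph component -/
def ex {α : Type} (y : D.fr.I → α) (z : II U → α) : II U → α := ext (piH (U := U) hG) (A := D.I0) y z

variable {D hG} {α : Type}

theorem ex_coe {y : D.fr.I → α} {z : II U → α} (hy : Ex_121.Inv (GG D hG) y) (i : D.fr.I) :
    ex D hG y z (iU i) = y i := ext_coe (blk D hG) hy i

theorem ex_inv {y : D.fr.I → α} {z : II U → α} (hy : Ex_121.Inv (GG D hG) y)
    (hz : ∀ γ E, z (piH hG γ E) = z E) (γ : Ru T) (E : II U) :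
    ex D hG y z (piH hG γ E) = ex D hG y z E := ext_inv (blk D hG) hy hz γ E

theorem ex_not {y : D.fr.I → α} {z : II U → α} {E : II U} (h : ¬ ∃ γ, piH hG γ E ∈ D.I0) :
    ex D hG y z E = z E := ext_not h

theorem dg_ex {y : D.fr.I → ℝ} {z : II U → ℝ} (hy : Ex_121.Inv (GG D hG) y)
    (hz : ∀ γ E, z (piH hG γ E) = z E) (E : II U) :
    dg (Mx L) (ex D hG y z) E = ex D hG (fun i => dg D.fr.M y i) (dg (Mx L) z) E := by
  let _ : Fintype D.I0 := Fintype.ofFinite _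
  exact dg_ext (blk D hG) (Mx_piH hG) Mx_symm (fun _ h1 _ h2 => cls_step h1 h2) hy hz E

/-- an invariant pointwise property -/
theorem ex_all {P : II U → Prop} (hP : ∀ γ E, P (piH hG γ E) → P E) (h1 : ∀ i : D.fr.I, P (iU i))
    (h2 : ∀ E, (¬ ∃ γ, piH hG γ E ∈ D.I0) → P E) (E : II U) : P E :=
  ext_ind (ρ := piH (U := U) hG) (A := D.I0) hP h1 h2 E

variable (D hG) in
/-- **the extension** -/
theorem exists_ext {d : ℕ} (hd : 0 < d) {m : D.fr.I → ℕ} {y : D.fr.I → ℝ} (hmd : ∀ i, d ∣ m i)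
    (hm : Ex_121.Inv (GG D hG) m) (hy : Ex_121.Inv (GG D hG) y) :
    ∃ (mt : II U → ℕ) (yt : II U → ℝ), (∀ E, d ∣ mt E) ∧
      (∀ γ E, mt (piH hG γ E) = mt E) ∧ (∀ γ E, yt (piH hG γ E) = yt E) ∧
      (∀ i : D.fr.I, mt (iU i) = m i) ∧ (∀ i : D.fr.I, yt (iU i) = y i) ∧
      (∀ E, (¬ ∃ γ, piH hG γ E ∈ D.I0) → yt E + nu E < mt E) ∧
      ∀ e : D.fr.I → ℝ, Ex_121.Inv (GG D hG) e → (∀ j, dg D.fr.M y j + e j < 0) →
        ∀ E, dg (Mx L) yt E + ex D hG e (fun _ => 0) E < 0 := by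
  obtain ⟨z, hz, hzI⟩ := exists_z (ρ := piH (U := U) hG) (LabI_387.iform L) (Mx_piH hG)
  obtain ⟨K, hK⟩ : ∃ K : ℕ, ∀ E, z E + nu E < (d * K : ℕ) := by
    obtain ⟨B, hB⟩ := Finite.exists_le (fun E => z E + nu E)
    obtain ⟨K, hK⟩ := exists_nat_gt B
    refine ⟨K, fun E => (hB E).trans_lt (hK.trans_le ?_)⟩
    exact_mod_cast Nat.le_mul_of_pos_left K hd
  refine ⟨ex D hG m (fun _ => d * K), ex D hG y z, ?_, fun γ E => ex_inv hm (fun _ _ => rfl) γ E,
    fun γ E => ex_inv hy hzI γ E, fun i => ex_coe hm i, fun i => ex_coe hy i, ?_, ?_⟩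
  · refine ex_all (D := D) (hG := hG) (fun γ E h => ?_) (fun i => ?_) (fun E h => ?_)
    · rwa [ex_inv hm (fun _ _ => rfl)] at h
    · have := ex_coe (z := fun _ => d * K) hm i
      rw [this]; exact hmd _
    · rw [ex_not h]; exact dvd_mul_right _ _
  · intro E h
    rw [ex_not h, ex_not h]
    exact hK E
  · intro e he hlt
    refine ex_all (D := D) (hG := hG) (fun γ E h => ?_) (fun i => ?_) (fun E h => ?_)
    · rw [ex_inv he (fun _ _ => rfl), dg_ex hy hzI,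
        ex_inv (y := fun i => dg D.fr.M y i) ?_ ?_] at h
      · rw [dg_ex hy hzI]; exact h
      · rintro σ hσ i
        have h1 := (rot_fr D hG).M_inv σ hσ
        show dg D.fr.M y (σ i) = dg D.fr.M y i
        rw [← Gr4_157.dg_comp h1]
        congr 1
        funext j
        exact hy σ hσ j
      · intro γ E
        rw [hz, hz]
    · have h1 := ex_coe (z := fun _ => (0 : ℝ)) he i
      rw [h1, dg_ex hy hzI, ex_coe (y := fun i => dg D.fr.M y i) ?_ i]
      · exact hlt i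
      · rintro σ hσ i
        have h1 := (rot_fr D hG).M_inv σ hσ
        show dg D.fr.M y (σ i) = dg D.fr.M y i
        rw [← Gr4_157.dg_comp h1]
        congr 1
        funext j
        exact hy σ hσ j
    · rw [ex_not h, dg_ex hy hzI, ex_not h, hz]
      norm_num

/-- the orbit functions -/
theorem exo_eq (hR : RetStmt U) (i : D.fr.I) (t : ℝ) (E : II U) :
    t * exo hG hR (some (iU i)) E =
      ex D hG (Ex_121.on (Ex_121.orb (GG D hG) i) t) (fun _ => 0) E := by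
  have hinvO : ∀ σ ∈ GG D hG, ∀ j : D.fr.I, σ j ∈ Ex_121.orb (GG D hG) i ↔
      j ∈ Ex_121.orb (GG D hG) i := by
    intro σ hσ j
    constructor
    · rintro ⟨τ, hτ, h⟩
      exact ⟨σ⁻¹ * τ, (GG D hG).mul_mem ((GG D hG).inv_mem hσ) hτ, by simp [h]⟩
    · rintro ⟨τ, hτ, rfl⟩
      exact ⟨σ * τ, (GG D hG).mul_mem hσ hτ, rfl⟩
  have hon : Ex_121.Inv (GG D hG) (Ex_121.on (Ex_121.orb (GG D hG) i) t) := by
    intro σ hσ j
    by_cases h : j ∈ Ex_121.orb (GG D hG) i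
    · rw [Ex_121.on_mem h, Ex_121.on_mem ((hinvO σ hσ j).2 h)]
    · rw [Ex_121.on_notMem h, Ex_121.on_notMem fun h' => h ((hinvO σ hσ j).1 h')]
  refine ex_all (D := D) (hG := hG) (P := fun E => t * exo hG hR (some (iU i)) E =
      ex D hG (Ex_121.on (Ex_121.orb (GG D hG) i) t) (fun _ => 0) E) (fun γ E h => ?_)
      (fun j => ?_) (fun E h => ?_) E
  · rw [ex_inv hon (fun _ _ => rfl)] at h
    rw [← h]
    congr 1
    by_cases h1 : ∃ γ' : Ru T, piH hG γ' (iU i) = E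
    · rw [exo_pos hG hR h1, exo_pos hG hR]
      obtain ⟨δ, rfl⟩ := h1
      exact ⟨γ * δ, by rw [map_mul]; rfl⟩
    · rw [exo_neg hG hR h1, exo_neg hG hR]
      rintro ⟨δ, hδ⟩
      exact h1 ⟨γ⁻¹ * δ, by rw [map_mul, Equiv.Perm.mul_apply, hδ, inv_self]⟩
  · have h1 := ex_coe (z := fun _ => (0 : ℝ)) hon j
    rw [h1]
    by_cases h2 : ∃ γ' : Ru T, piH hG γ' (iU i) = iU j
    · rw [exo_pos hG hR h2, Ex_121.on_mem ((mem_orb_iff D hG i j).2 h2), mul_one]
    · rw [exo_neg hG hR h2, Ex_121.on_notMem fun h3 => h2 ((mem_orb_iff D hG i j).1 h3), mul_zero]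
  · rw [ex_not h, exo_neg hG hR, mul_zero]
    rintro ⟨γ, rfl⟩
    exact h ⟨γ⁻¹, by rw [inv_self]; exact iU_mem D i⟩

end frame

end Crest.Agent.R257.ExF_121
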