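import Mathlib
import Crest.Agent.R257.CLogDefs_68
import Crest.Agent.R257.OrdL_578
import Crest.Agent.R257.T1_387

/-!
R257 / NV_980 (helper980): `NVStmt` of CLogDefs_68 (nearest branch vectors).

* `euler`  : `t h'(t) = (e + o(1)) h(t)`;
* `split`  : a monic polynomial with analytic coefficients whose roots are among the analytic
             functions `φ i` is a product of factors `X - φ i`;
* `LB φ F` : `|dF(v)| ≤ C |F|` for the velocity `v` of the nearest branch; closed under products;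
* `nvStmt` : the statement.
-/

set_option autoImplicit false
set_option linter.unusedSectionVars false

open Polynomial Set Filter Topology Metric
open Crest.Agent.R257.OrdL_578 Crest.Agent.R257.T387 Crest.Agent.R257.Sh_297

noncomputable section

namespace Crest.Agent.R257.NV_980

/-- the Euler derivative of an analytic function -/
theorem euler {h : ℂ → ℂ} (hh : AnalyticAt ℂ h 0) : ∃ e : ℕ, ∀ ε : ℝ, 0 < ε →
    ∀ᶠ t in 𝓝 (0 : ℂ), ‖t * deriv h t - e * h t‖ ≤ ε * ‖h t‖ := by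
  by_cases ho : analyticOrderAt h 0 = ⊤
  · rw [analyticOrderAt_eq_top] at ho
    refine ⟨0, fun ε _ => ?_⟩
    filter_upwards [ho.eventually_nhds] with t ht
    have h1 : h =ᶠ[𝓝 t] fun _ => (0 : ℂ) := ht
    rw [h1.deriv_eq, deriv_const, h1.self_of_nhds]
    simp
  · obtain ⟨e, he⟩ := ENat.ne_top_iff_exists.1 ho
    obtain ⟨u, hu, hu0, hue⟩ := (hh.analyticOrderAt_eq_natCast).1 he.symm
    refine ⟨e, fun ε hε => ?_⟩
    have hc : Tendsto (fun t : ℂ => ‖t * deriv u t‖ - ε * ‖u t‖) (𝓝 0) (𝓝 (‖(0 : ℂ) * deriv u 0‖ -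
        ε * ‖u 0‖)) := by
      have h1 : ContinuousAt (fun t : ℂ => ‖t * deriv u t‖ - ε * ‖u t‖) 0 := by
        have h2 := hu.deriv.continuousAt
        have h3 := hu.continuousAt
        fun_prop
      exact h1
    have hneg : ‖(0 : ℂ) * deriv u 0‖ - ε * ‖u 0‖ < 0 := by
      rw [zero_mul, norm_zero, zero_sub, neg_lt_zero]
      exact mul_pos hε (norm_pos_iff.2 hu0)
    have hev := hc.eventually (gt_mem_nhds hneg)
    filter_upwards [hev, hue.eventually_nhds, hu.eventually_analyticAt] with t h1 h2 h3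
    have h4 : h =ᶠ[𝓝 t] fun z => z ^ e * u z := by
      filter_upwards [h2] with z hz
      rw [hz, sub_zero, smul_eq_mul]
    have h5 : HasDerivAt (fun z : ℂ => z ^ e * u z) ((e : ℂ) * t ^ (e - 1) * u t + t ^ e * deriv u t) t :=
      (hasDerivAt_pow e t).mul h3.differentiableAt.hasDerivAt
    rw [h4.deriv_eq, h5.deriv, h4.self_of_nhds]
    have h6 : t * ((e : ℂ) * t ^ (e - 1) * u t + t ^ e * deriv u t) - e * (t ^ e * u t) =
        t ^ e * (t * deriv u t) := by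
      rcases Nat.eq_zero_or_pos e with h | h
      · subst h
        simp
      · obtain ⟨k, rfl⟩ : ∃ k, e = k + 1 := ⟨e - 1, by omega⟩
        simp only [Nat.add_sub_cancel]
        ring
    have h7 : ‖t * deriv u t‖ ≤ ε * ‖u t‖ := by linarith
    calc ‖t * ((e : ℂ) * t ^ (e - 1) * u t + t ^ e * deriv u t) - e * (t ^ e * u t)‖
        = ‖t ^ e‖ * ‖t * deriv u t‖ := by rw [h6, norm_mul]
      _ ≤ ‖t ^ e‖ * (ε * ‖u t‖) := mul_le_mul_of_nonneg_left h7 (norm_nonneg _)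
      _ = ε * ‖t ^ e * u t‖ := by rw [norm_mul]; ring

/-- the Euler derivative is bounded by the function -/
theorem euler' {h : ℂ → ℂ} (hh : AnalyticAt ℂ h 0) : ∃ C : ℝ,
    ∀ᶠ t in 𝓝 (0 : ℂ), ‖t * deriv h t‖ ≤ C * ‖h t‖ := by
  obtain ⟨e, he⟩ := euler hh
  refine ⟨e + 1, ?_⟩
  filter_upwards [he 1 one_pos] with t ht
  calc ‖t * deriv h t‖ = ‖(t * deriv h t - e * h t) + e * h t‖ := by ring_nf
    _ ≤ ‖t * deriv h t - e * h t‖ + ‖(e : ℂ) * h t‖ := norm_add_le _ _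
    _ ≤ 1 * ‖h t‖ + e * ‖h t‖ := by
        refine add_le_add ht ?_
        rw [norm_mul, Complex.norm_natCast]
    _ = (e + 1) * ‖h t‖ := by ring

/-- analytic coefficients of the quotient -/
theorem quot_an {e : ℕ} {Q : ℂ → ℂ[X]} {φ : ℂ → ℂ} (hφ : AnalyticAt ℂ φ 0)
    (hQ : ∀ᶠ t in 𝓝 (0 : ℂ), (Q t).natDegree = e)
    (hc : ∀ j, AnalyticAt ℂ (fun t => (Q t).coeff j) 0) (j : ℕ) :
    AnalyticAt ℂ (fun t => (Q t /ₘ (X - C (φ t))).coeff j) 0 := by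
  have h1 : AnalyticAt ℂ (fun t => ∑ i ∈ Finset.Icc (j + 1) e, φ t ^ (i - (j + 1)) * (Q t).coeff i) 0 :=
    Finset.analyticAt_fun_sum _ fun i _ => (hφ.pow _).mul (hc i)
  refine h1.congr ?_
  filter_upwards [hQ] with t ht
  rw [coeff_divByMonic_X_sub_C, ht]

theorem eval_an {e : ℕ} {Q : ℂ → ℂ[X]} {φ : ℂ → ℂ} (hφ : AnalyticAt ℂ φ 0)
    (hQ : ∀ᶠ t in 𝓝 (0 : ℂ), (Q t).natDegree = e)
    (hc : ∀ j, AnalyticAt ℂ (fun t => (Q t).coeff j) 0) :
    AnalyticAt ℂ (fun t => (Q t).eval (φ t)) 0 := by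
  have h1 : AnalyticAt ℂ (fun t => ∑ i ∈ Finset.range (e + 1), (Q t).coeff i * φ t ^ i) 0 :=
    Finset.analyticAt_fun_sum _ fun i _ => (hc i).mul (hφ.pow _)
  refine h1.congr ?_
  filter_upwards [hQ] with t ht
  rw [eval_eq_sum_range, ht]

/-- a polynomial whose roots are among the `φ i` splits -/
theorem split {m : ℕ} {φ : Fin m → ℂ → ℂ} (hφ : ∀ i, AnalyticAt ℂ (φ i) 0) : ∀ (e : ℕ)
    (Q : ℂ → ℂ[X]), (∀ᶠ t in 𝓝 (0 : ℂ), (Q t).Monic ∧ (Q t).natDegree = e) →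
    (∀ j, AnalyticAt ℂ (fun t => (Q t).coeff j) 0) →
    (∀ᶠ t in 𝓝 (0 : ℂ), ∀ y, (Q t).eval y = 0 → ∃ i, y = φ i t) →
    ∃ κ : Fin e → Fin m, ∀ᶠ t in 𝓝 (0 : ℂ), Q t = ∏ k, (X - C (φ (κ k) t)) := by
  intro e
  induction e with
  | zero =>
    intro Q hQ _ _
    refine ⟨Fin.elim0, ?_⟩
    filter_upwards [hQ] with t ht
    rw [Fin.prod_univ_zero]
    exact ht.1.natDegree_eq_zero.1 ht.2
  | succ e ih =>
    intro Q hQ hc hr
    have h1 : ∀ᶠ t in 𝓝 (0 : ℂ), ∃ i, (Q t).eval (φ i t) = 0 := by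
      filter_upwards [hQ, hr] with t h2 h3
      obtain ⟨y, hy⟩ := IsAlgClosed.exists_root (Q t) (by
        intro h4
        have h5 : (Q t).natDegree = 0 := natDegree_eq_of_degree_eq_some h4
        have h6 := h2.2
        omega)
      obtain ⟨i, hi⟩ := h3 y hy
      exact ⟨i, by rw [← hi]; exact hy⟩
    have h2 : ∃ i, ∃ᶠ t in 𝓝[≠] (0 : ℂ), (Q t).eval (φ i t) = 0 := by
      by_contra hcon
      push Not at hcon
      have h3 : ∀ᶠ t in 𝓝[≠] (0 : ℂ), ∀ i, ¬ (Q t).eval (φ i t) = 0 :=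
        eventually_all.2 fun i => hcon i
      obtain ⟨t, h4, ⟨i, h5⟩⟩ := (h3.and (h1.filter_mono nhdsWithin_le_nhds)).exists
      exact h4 i h5
    obtain ⟨i, hi⟩ := h2
    have hdeg : ∀ᶠ t in 𝓝 (0 : ℂ), (Q t).natDegree = e + 1 := hQ.mono fun t ht => ht.2
    have hz : ∀ᶠ t in 𝓝 (0 : ℂ), (Q t).eval (φ i t) = 0 :=
      ((eval_an (hφ i) hdeg hc).frequently_zero_iff_eventually_zero).1 hi
    set Q' : ℂ → ℂ[X] := fun t => Q t /ₘ (X - C (φ i t)) with hQ'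
    have hmul : ∀ᶠ t in 𝓝 (0 : ℂ), Q t = (X - C (φ i t)) * Q' t := by
      filter_upwards [hz] with t ht
      exact (mul_divByMonic_eq_iff_isRoot.2 ht).symm
    have hQ'1 : ∀ᶠ t in 𝓝 (0 : ℂ), (Q' t).Monic ∧ (Q' t).natDegree = e := by
      filter_upwards [hmul, hQ] with t h3 h4
      have h5 : (Q' t).Monic := by
        have h6 := h4.1
        rw [h3] at h6
        exact (monic_X_sub_C _).of_mul_monic_left h6
      refine ⟨h5, ?_⟩
      have h7 := h4.2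
      rw [h3, (monic_X_sub_C _).natDegree_mul h5, natDegree_X_sub_C] at h7
      omega
    obtain ⟨κ, hκ⟩ := ih Q' hQ'1 (fun j => quot_an (hφ i) hdeg hc j) (by
      filter_upwards [hmul, hr] with t h3 h4 y hy
      refine h4 y ?_
      rw [h3, eval_mul, hy, mul_zero])
    refine ⟨Fin.cons i κ, ?_⟩
    filter_upwards [hmul, hκ] with t h3 h4
    rw [Fin.prod_univ_succ, h3, h4]
    simp

/-- log-bounded in the direction of the nearest branch -/
def LB {m : ℕ} (φ : Fin m → ℂ → ℂ) (F : ℂ × ℂ → ℂ) : Prop :=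
  ∃ C : ℝ, ∀ᶠ q in 𝓝 (0 : ℂ × ℂ), DifferentiableAt ℂ F q ∧
    ∀ i, (∀ l, ‖q.2 - φ i q.1‖ ≤ ‖q.2 - φ l q.1‖) →
      ‖fderiv ℂ F q (q.1, q.1 * deriv (φ i) q.1)‖ ≤ C * ‖F q‖

section LB

variable {m : ℕ} {φ : Fin m → ℂ → ℂ}

theorem LB.congr {F G : ℂ × ℂ → ℂ} (h : LB φ F) (he : F =ᶠ[𝓝 0] G) : LB φ G := by
  obtain ⟨C, hC⟩ := h
  refine ⟨C, ?_⟩
  filter_upwards [hC, he.eventually_nhds] with q h1 h2
  have h3 : F =ᶠ[𝓝 q] G := h2
  refine ⟨h1.1.congr_of_eventuallyEq h3.symm, fun i hi => ?_⟩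
  rw [← h3.fderiv_eq, ← h3.self_of_nhds]
  exact h1.2 i hi

theorem LB.mul {F G : ℂ × ℂ → ℂ} (hF : LB φ F) (hG : LB φ G) : LB φ (fun q => F q * G q) := by
  obtain ⟨C, hC⟩ := hF
  obtain ⟨D, hD⟩ := hG
  refine ⟨C + D, ?_⟩
  filter_upwards [hC, hD] with q h1 h2
  refine ⟨h1.1.mul h2.1, fun i hi => ?_⟩
  rw [fderiv_fun_mul h1.1 h2.1]
  simp only [add_apply, smul_apply, smul_eq_mul]
  have h3 := h1.2 i hi
  have h4 := h2.2 i hi
  calc _ ≤ ‖F q * (fderiv ℂ G q) (q.1, q.1 * deriv (φ i) q.1)‖ +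
        ‖G q * (fderiv ℂ F q) (q.1, q.1 * deriv (φ i) q.1)‖ := norm_add_le _ _
    _ ≤ ‖F q‖ * (D * ‖G q‖) + ‖G q‖ * (C * ‖F q‖) := by
        rw [norm_mul, norm_mul]
        exact add_le_add (mul_le_mul_of_nonneg_left h4 (norm_nonneg _))
          (mul_le_mul_of_nonneg_left h3 (norm_nonneg _))
    _ = (C + D) * ‖F q * G q‖ := by rw [norm_mul]; ring

theorem LB.const (c : ℂ) : LB φ (fun _ => c) :=
  ⟨0, Eventually.of_forall fun q => ⟨differentiableAt_const _, fun i _ => by simp⟩⟩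

theorem LB.prod {ι : Type*} (s : Finset ι) {F : ι → ℂ × ℂ → ℂ} (h : ∀ i ∈ s, LB φ (F i)) :
    LB φ (fun q => ∏ i ∈ s, F i q) := by
  classical
  induction s using Finset.induction_on with
  | empty =>
    simp only [Finset.prod_empty]
    exact LB.const 1
  | insert a s ha ih =>
    have h1 : (fun q => ∏ i ∈ insert a s, F i q) = fun q => F a q * ∏ i ∈ s, F i q := by
      funext q
      rw [Finset.prod_insert ha]
    rw [h1]
    exact (h a (Finset.mem_insert_self _ _)).mul (ih fun i hi => h i (Finset.mem_insert_of_mem hi))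

theorem LB.pow {F : ℂ × ℂ → ℂ} (h : LB φ F) (n : ℕ) : LB φ (fun q => F q ^ n) := by
  have := LB.prod (Finset.range n) (F := fun _ => F) (fun _ _ => h)
  simpa using this

theorem LB.fst : LB φ Prod.fst :=
  ⟨1, Eventually.of_forall fun q => ⟨differentiableAt_fst, fun i _ => by
    rw [fderiv_fst]; simp⟩⟩

theorem vec_tendsto (hφ : ∀ i, AnalyticAt ℂ (φ i) 0) (i : Fin m) :
    Tendsto (fun q : ℂ × ℂ => ((q.1, q.1 * deriv (φ i) q.1) : ℂ × ℂ)) (𝓝 0) (𝓝 0) := by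
  have h1 : Tendsto (fun q : ℂ × ℂ => q.1) (𝓝 0) (𝓝 0) := continuous_fst.tendsto' _ _ rfl
  have h2 : Tendsto (fun q : ℂ × ℂ => deriv (φ i) q.1) (𝓝 0) (𝓝 (deriv (φ i) 0)) :=
    ((hφ i).deriv.continuousAt.tendsto).comp h1
  have h3 := h1.prodMk_nhds (h1.mul h2)
  rw [zero_mul] at h3
  exact h3

theorem LB.unit (hφ : ∀ i, AnalyticAt ℂ (φ i) 0) {U : ℂ × ℂ → ℂ} (hU : AnalyticAt ℂ U 0)
    (h0 : U 0 ≠ 0) : LB φ U := by
  have h1 : ∀ᶠ q in 𝓝 (0 : ℂ × ℂ), ‖fderiv ℂ U q‖ < ‖fderiv ℂ U 0‖ + 1 :=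
    hU.fderiv.continuousAt.norm.eventually (gt_mem_nhds (lt_add_one _))
  have h2 : ∀ᶠ q in 𝓝 (0 : ℂ × ℂ), ‖U 0‖ / 2 < ‖U q‖ :=
    hU.continuousAt.norm.eventually (lt_mem_nhds (half_lt_self (norm_pos_iff.2 h0)))
  have h3 : ∀ᶠ q in 𝓝 (0 : ℂ × ℂ), ∀ i, ‖((q.1, q.1 * deriv (φ i) q.1) : ℂ × ℂ)‖ < 1 := by
    refine eventually_all.2 fun i => ?_
    have := (vec_tendsto hφ i).norm
    rw [norm_zero] at this
    exact this.eventually (gt_mem_nhds one_pos)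
  refine ⟨(‖fderiv ℂ U 0‖ + 1) * (2 / ‖U 0‖), ?_⟩
  filter_upwards [h1, h2, h3, hU.eventually_analyticAt] with q a1 a2 a3 a4
  refine ⟨a4.differentiableAt, fun i _ => ?_⟩
  have hp : 0 < ‖U 0‖ := norm_pos_iff.2 h0
  calc _ ≤ ‖fderiv ℂ U q‖ * ‖((q.1, q.1 * deriv (φ i) q.1) : ℂ × ℂ)‖ :=
        ContinuousLinearMap.le_opNorm _ _
    _ ≤ (‖fderiv ℂ U 0‖ + 1) * 1 :=
        mul_le_mul a1.le (a3 i).le (norm_nonneg _) (by positivity)
    _ = (‖fderiv ℂ U 0‖ + 1) * (2 / ‖U 0‖) * (‖U 0‖ / 2) := by field_simp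
    _ ≤ (‖fderiv ℂ U 0‖ + 1) * (2 / ‖U 0‖) * ‖U q‖ :=
        mul_le_mul_of_nonneg_left a2.le (by positivity)

theorem LB.lin (hφ : ∀ i, AnalyticAt ℂ (φ i) 0) (l : Fin m) :
    LB φ (fun q => q.2 - φ l q.1) := by
  choose C hC using fun i => euler' ((hφ i).sub (hφ l))
  refine ⟨∑ i, |C i| * 2, ?_⟩
  have h1 : Tendsto (fun q : ℂ × ℂ => q.1) (𝓝 0) (𝓝 0) := continuous_fst.tendsto' _ _ rfl
  have h2 : ∀ᶠ q in 𝓝 (0 : ℂ × ℂ), ∀ i, ‖q.1 * deriv (φ i - φ l) q.1‖ ≤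
      C i * ‖(φ i - φ l) q.1‖ := eventually_all.2 fun i => h1.eventually (hC i)
  have h3 : ∀ᶠ q in 𝓝 (0 : ℂ × ℂ), ∀ i, DifferentiableAt ℂ (φ i) q.1 :=
    eventually_all.2 fun i => h1.eventually
      ((hφ i).eventually_analyticAt.mono fun t ht => ht.differentiableAt)
  filter_upwards [h2, h3] with q a1 a2
  have hd : HasFDerivAt (fun q : ℂ × ℂ => q.2 - φ l q.1)
      (ContinuousLinearMap.snd ℂ ℂ ℂ - (deriv (φ l) q.1) • ContinuousLinearMap.fst ℂ ℂ ℂ) q := by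
    refine hasFDerivAt_snd.sub ?_
    exact (a2 l).hasDerivAt.comp_hasFDerivAt q hasFDerivAt_fst
  refine ⟨hd.differentiableAt, fun i hi => ?_⟩
  rw [hd.fderiv]
  simp only [sub_apply, ContinuousLinearMap.coe_snd',
    smul_apply, ContinuousLinearMap.coe_fst', smul_eq_mul]
  have h4 : q.1 * deriv (φ i) q.1 - deriv (φ l) q.1 * q.1 = q.1 * deriv (φ i - φ l) q.1 := by
    rw [deriv_sub (a2 i) (a2 l)]
    ring
  rw [h4]
  have h5 : ‖(φ i - φ l) q.1‖ ≤ 2 * ‖q.2 - φ l q.1‖ := by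
    have h6 : (φ i - φ l) q.1 = (q.2 - φ l q.1) - (q.2 - φ i q.1) := by
      simp only [Pi.sub_apply]
      ring
    rw [h6]
    calc _ ≤ ‖q.2 - φ l q.1‖ + ‖q.2 - φ i q.1‖ := norm_sub_le _ _
      _ ≤ _ := by
        have := hi l
        linarith
  calc _ ≤ C i * ‖(φ i - φ l) q.1‖ := a1 i
    _ ≤ |C i| * (2 * ‖q.2 - φ l q.1‖) :=
        mul_le_mul (le_abs_self _) h5 (norm_nonneg _) (abs_nonneg _)
    _ = |C i| * 2 * ‖q.2 - φ l q.1‖ := by ring
    _ ≤ (∑ i, |C i| * 2) * ‖q.2 - φ l q.1‖ := by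
        refine mul_le_mul_of_nonneg_right ?_ (norm_nonneg _)
        exact Finset.single_le_sum (f := fun i => |C i| * 2) (fun i _ => by positivity)
          (Finset.mem_univ i)

end LB

/-! ### Weierstrass data -/

theorem weier {q : ℂ × ℂ → ℂ} {b : ℂ} (hq : AnalyticAt ℂ q (0, b))
    (hne : ¬ ∀ᶠ p in 𝓝 ((0 : ℂ), b), q p = 0) :
    ∃ (a e : ℕ) (W : ℂ → ℂ[X]) (v : ℂ × ℂ → ℂ), (∀ x, (W x).Monic ∧ (W x).natDegree = e) ∧
      (∀ j, AnalyticAt ℂ (fun x => (W x).coeff j) 0) ∧ AnalyticAt ℂ v 0 ∧ v 0 ≠ 0 ∧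
      ∀ᶠ p in 𝓝 (0 : ℂ × ℂ), q (p.1, b + p.2) = p.1 ^ a * (v p * (W p.1).eval p.2) := by
  classical
  obtain ⟨a, G, ⟨hG, hqG⟩, hfr⟩ := exists_ord hq hne
  have hF : AnalyticAt ℂ (fun p : ℂ × ℂ => G (p.1, b + p.2)) ((0 : ℂ), (0 : ℂ)) := by
    refine AnalyticAt.comp (g := G) (f := fun p : ℂ × ℂ => (p.1, b + p.2)) ?_
      (analyticAt_fst.prod (analyticAt_const.add analyticAt_snd))
    simpa using hG
  have hfin : analyticOrderAt (fun z : ℂ => (fun p : ℂ × ℂ => G (p.1, b + p.2)) ((0 : ℂ), z)) 0 ≠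
      ⊤ := by
    rw [Ne, analyticOrderAt_eq_top]
    intro h
    have ht : Tendsto (fun z : ℂ => z - b) (𝓝 b) (𝓝 0) :=
      (by fun_prop : Continuous fun z : ℂ => z - b).tendsto' _ _ (sub_self b)
    refine hfr ?_
    filter_upwards [ht.eventually h] with z hz hz'
    apply hz'
    simpa using hz
  obtain ⟨e, he⟩ := ENat.ne_top_iff_exists.1 hfin
  obtain ⟨w, v, hwa, hw1, hw0, hwz, hv, hv0, hFe⟩ := exists_wpoly (y₀ := (0 : ℂ)) hF he.symm
  refine ⟨a, e, fun x => Wp w e x, v, fun x => ?_, fun j => ?_, hv, hv0, ?_⟩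
  · have h1 : (Wp w e x).coeff e = 1 := by
      rw [coeff_Wp, if_pos (Nat.lt_succ_self e), hw1]
    refine ⟨monic_of_natDegree_le_of_coeff_eq_one e (degree_Wp_le w e x) h1, ?_⟩
    refine le_antisymm (degree_Wp_le w e x) (le_natDegree_of_ne_zero ?_)
    rw [h1]
    exact one_ne_zero
  · simp only [coeff_Wp]
    split_ifs
    · exact hwa j
    · exact analyticAt_const
  · have ht : Tendsto (fun p : ℂ × ℂ => (p.1, b + p.2)) (𝓝 0) (𝓝 ((0 : ℂ), b)) :=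
      (by fun_prop : Continuous fun p : ℂ × ℂ => (p.1, b + p.2)).tendsto' _ _ (by simp)
    have hFe' : ∀ᶠ p in 𝓝 (0 : ℂ × ℂ), G (p.1, b + p.2) = v p * Wf w e p.1 p.2 := hFe
    filter_upwards [ht.eventually hqG, hFe'] with p h1 h2
    rw [h1, h2, eval_Wp]

theorem coef_mul {A B : ℂ → ℂ[X]} (hA : ∀ j, AnalyticAt ℂ (fun x => (A x).coeff j) 0)
    (hB : ∀ j, AnalyticAt ℂ (fun x => (B x).coeff j) 0) (j : ℕ) :
    AnalyticAt ℂ (fun x => (A x * B x).coeff j) 0 := by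
  simp only [coeff_mul]
  exact Finset.analyticAt_fun_sum _ fun i _ => (hA _).mul (hB _)

theorem coef_prod {J : Type} (s : Finset J) {A : J → ℂ → ℂ[X]}
    (hA : ∀ i j, AnalyticAt ℂ (fun x => (A i x).coeff j) 0) (j : ℕ) :
    AnalyticAt ℂ (fun x => (∏ i ∈ s, A i x).coeff j) 0 := by
  classical
  induction s using Finset.induction_on generalizing j with
  | empty =>
    simp only [Finset.prod_empty]
    exact analyticAt_const
  | insert a s ha ih =>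
    have h1 : (fun x => (∏ i ∈ insert a s, A i x).coeff j) =
        fun x => (A a x * ∏ i ∈ s, A i x).coeff j := by
      funext x
      rw [Finset.prod_insert ha]
    rw [h1]
    exact coef_mul (hA a) ih j

theorem phi_tendsto {N : ℕ} (hN : 0 < N) (b : ℂ) :
    Tendsto (fun p : ℂ × ℂ => ((p.1 ^ N, b + p.2) : ℂ × ℂ)) (𝓝 0) (𝓝 ((0 : ℂ), b)) := by
  refine (by fun_prop : Continuous fun p : ℂ × ℂ => ((p.1 ^ N, b + p.2) : ℂ × ℂ)).tendsto' _ _ ?_
  simp [hN.ne']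

/-- **branches of a finite family** -/
theorem family {J : Type} [Fintype J] (q : J → ℂ × ℂ → ℂ) (b : ℂ)
    (hq : ∀ j, AnalyticAt ℂ (q j) (0, b)) :
    ∃ (m N : ℕ) (φ : Fin m → ℂ → ℂ), 0 < N ∧ (∀ i, AnalyticAt ℂ (φ i) 0) ∧
      (∀ᶠ t in 𝓝 (0 : ℂ), ∃ i, φ i t = 0) ∧ ∀ j, LB φ (fun p => q j (p.1 ^ N, b + p.2)) := by
  classical
  have hex : ∀ j, ∃ (e : ℕ) (W : ℂ → ℂ[X]), (∀ x, (W x).Monic ∧ (W x).natDegree = e) ∧
      (∀ i, AnalyticAt ℂ (fun x => (W x).coeff i) 0) ∧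
      ((∀ᶠ p in 𝓝 ((0 : ℂ), b), q j p = 0) ∨ ∃ (a : ℕ) (v : ℂ × ℂ → ℂ), AnalyticAt ℂ v 0 ∧
        v 0 ≠ 0 ∧ ∀ᶠ p in 𝓝 (0 : ℂ × ℂ), q j (p.1, b + p.2) =
          p.1 ^ a * (v p * (W p.1).eval p.2)) := by
    intro j
    by_cases h : ∀ᶠ p in 𝓝 ((0 : ℂ), b), q j p = 0
    · exact ⟨0, fun _ => 1, fun x => ⟨monic_one, natDegree_one⟩, fun i => analyticAt_const,
        Or.inl h⟩
    · obtain ⟨a, e, W, v, h1, h2, h3, h4, h5⟩ := weier (hq j) h
      exact ⟨e, W, h1, h2, Or.inr ⟨a, v, h3, h4, h5⟩⟩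
  choose e W hW hWc hor using hex
  let Q : ℂ → ℂ[X] := fun x => X * ∏ j, W j x
  have hPm : ∀ x, (∏ j, W j x).Monic := fun x => monic_prod_of_monic _ _ fun j _ => (hW j x).1
  have hPd : ∀ x, (∏ j, W j x).natDegree = ∑ j, e j := fun x => by
    rw [natDegree_prod_of_monic _ _ fun j _ => (hW j x).1]
    exact Finset.sum_congr rfl fun j _ => (hW j x).2
  have hQ : ∀ x, (Q x).Monic ∧ (Q x).natDegree = 1 + ∑ j, e j := fun x => by
    refine ⟨monic_X.mul (hPm x), ?_⟩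
    rw [Monic.natDegree_mul monic_X (hPm x), natDegree_X, hPd]
  have hQc : ∀ j, AnalyticAt ℂ (fun x => (Q x).coeff j) 0 :=
    coef_mul (A := fun _ => X) (fun j => analyticAt_const) (coef_prod Finset.univ hWc)
  obtain ⟨m, N, r, φ, hN, hr, hφ, hroot, -⟩ := puiseux (Eventually.of_forall hQ) hQc
  have hφ0 : ∀ i, AnalyticAt ℂ (φ i) 0 := fun i => hφ i 0 (mem_ball_self hr)
  have hball : ∀ᶠ t in 𝓝 (0 : ℂ), t ∈ ball (0 : ℂ) r := ball_mem_nhds _ hr
  refine ⟨m, N, φ, hN, hφ0, ?_, fun j => ?_⟩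
  · filter_upwards [hball] with t ht
    obtain ⟨i, hi⟩ := (hroot t ht 0).1 (by simp [Q])
    exact ⟨i, hi.symm⟩
  · rcases hor j with h | ⟨a, v, hv, hv0, hve⟩
    · refine (LB.const 0).congr ?_
      filter_upwards [(phi_tendsto hN b).eventually h] with p hp
      exact hp.symm
    · have hcN : Tendsto (fun t : ℂ => t ^ N) (𝓝 0) (𝓝 0) :=
        (continuous_pow N).tendsto' _ _ (zero_pow hN.ne')
      obtain ⟨κ, hκ⟩ := split hφ0 (e j) (fun t => W j (t ^ N))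
        (Eventually.of_forall fun t => hW j _) (fun i => by
          refine AnalyticAt.comp (g := fun x => (W j x).coeff i) (f := fun t : ℂ => t ^ N) ?_
            (analyticAt_id.pow N)
          rw [zero_pow hN.ne']
          exact hWc j i) (by
          filter_upwards [hball] with t ht y hy
          refine (hroot t ht y).1 ?_
          simp only [Q, eval_mul, eval_X, eval_prod]
          rw [Finset.prod_eq_zero (Finset.mem_univ j) hy, mul_zero])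
      have hvN : AnalyticAt ℂ (fun p : ℂ × ℂ => v (p.1 ^ N, p.2)) 0 := by
        refine AnalyticAt.comp (g := v) (f := fun p : ℂ × ℂ => ((p.1 ^ N, p.2) : ℂ × ℂ)) ?_
          ((analyticAt_fst.pow N).prod analyticAt_snd)
        have h1 : (((0 : ℂ × ℂ).1 ^ N, (0 : ℂ × ℂ).2) : ℂ × ℂ) = 0 := by simp [hN.ne']
        rw [h1]
        exact hv
      have hvN0 : (fun p : ℂ × ℂ => v (p.1 ^ N, p.2)) 0 ≠ 0 := by
        have h1 : (((0 : ℂ × ℂ).1 ^ N, (0 : ℂ × ℂ).2) : ℂ × ℂ) = 0 := by simp [hN.ne']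
        simp only [h1]
        exact hv0
      have hL : LB φ (fun p => p.1 ^ (N * a) * (v (p.1 ^ N, p.2) *
          ∏ k, (p.2 - φ (κ k) p.1))) :=
        (LB.fst.pow _).mul ((LB.unit hφ0 hvN hvN0).mul
          (LB.prod Finset.univ fun k _ => LB.lin hφ0 (κ k)))
      refine hL.congr ?_
      have ht : Tendsto (fun p : ℂ × ℂ => ((p.1 ^ N, p.2) : ℂ × ℂ)) (𝓝 0) (𝓝 0) := by
        refine (by fun_prop : Continuous fun p : ℂ × ℂ =>
          ((p.1 ^ N, p.2) : ℂ × ℂ)).tendsto' _ _ ?_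
        simp [hN.ne']
      have hfst : Tendsto (fun p : ℂ × ℂ => p.1) (𝓝 0) (𝓝 0) := continuous_fst.tendsto' _ _ rfl
      filter_upwards [ht.eventually hve, hfst.eventually hκ] with p h1 h2
      rw [h1, h2, eval_prod]
      simp only [eval_sub, eval_X, eval_C]
      rw [pow_mul]

/-! ### the statement -/

theorem re_nonneg {z : ℂ} (h : ‖1 - z‖ ≤ 1) : 0 ≤ z.re := by
  have h1 : ‖1 - z‖ ^ 2 ≤ 1 := by
    have := norm_nonneg (1 - z)
    nlinarith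
  rw [← Complex.normSq_eq_norm_sq, Complex.normSq_apply] at h1
  simp only [Complex.sub_re, Complex.one_re, Complex.sub_im, Complex.one_im] at h1
  nlinarith [sq_nonneg z.re, sq_nonneg z.im]

theorem nvStmt : Crest.Agent.R257.CLog_68.NVStmt := by
  intro J hJ q g b m₁ m₂ hq hm hm1 hgU
  obtain ⟨U, hU, hU0, hg⟩ := hgU
  obtain ⟨m, N, φ, hN, hφ, hz, hLB⟩ := family q b hq
  choose C hC using hLB
  choose e he using fun i => euler (hφ i)
  set D : ℝ := ‖fderiv ℂ U (0, b)‖ + 1 with hD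
  have hD0 : 0 < D := by positivity
  have hUp : 0 < ‖U (0, b)‖ := norm_pos_iff.2 hU0
  have hNR : (0 : ℝ) < N := by exact_mod_cast hN
  have hN1 : (1 : ℝ) ≤ N := by exact_mod_cast hN
  have hNC : (N : ℂ) ≠ 0 := by exact_mod_cast hN.ne'
  set ε : ℝ := 1 / (8 * (m₂ + 1)) with hε
  have hε0 : 0 < ε := by positivity
  set δ : ℝ := ‖U (0, b)‖ / (8 * D) with hδ
  have hδ0 : 0 < δ := by positivity
  have hΦ := phi_tendsto hN b
  have hfst : Tendsto (fun p : ℂ × ℂ => p.1) (𝓝 0) (𝓝 0) := continuous_fst.tendsto' _ _ rfl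
  -- the good set in the `(t, β)`-plane
  have e1 : ∀ᶠ p in 𝓝 (0 : ℂ × ℂ), ∀ j, DifferentiableAt ℂ
      (fun p : ℂ × ℂ => q j (p.1 ^ N, b + p.2)) p ∧
      ∀ i, (∀ l, ‖p.2 - φ i p.1‖ ≤ ‖p.2 - φ l p.1‖) →
      ‖fderiv ℂ (fun p : ℂ × ℂ => q j (p.1 ^ N, b + p.2)) p (p.1, p.1 * deriv (φ i) p.1)‖ ≤
        C j * ‖q j (p.1 ^ N, b + p.2)‖ := eventually_all.2 hC
  have e2 : ∀ᶠ p in 𝓝 (0 : ℂ × ℂ), ∀ i, ‖p.1 * deriv (φ i) p.1 - e i * φ i p.1‖ ≤
      ε * ‖φ i p.1‖ := eventually_all.2 fun i => hfst.eventually (he i ε hε0)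
  have e3 : ∀ᶠ p in 𝓝 (0 : ℂ × ℂ), ∃ i, φ i p.1 = 0 := hfst.eventually hz
  have e4 : ∀ᶠ p in 𝓝 (0 : ℂ × ℂ), ∀ j, DifferentiableAt ℂ (q j) (p.1 ^ N, b + p.2) :=
    eventually_all.2 fun j => hΦ.eventually
      ((hq j).eventually_analyticAt.mono fun x hx => hx.differentiableAt)
  have e5 : ∀ᶠ p in 𝓝 (0 : ℂ × ℂ), ∀ᶠ x in 𝓝 ((p.1 ^ N, b + p.2) : ℂ × ℂ),
      g x = x.1 ^ m₁ * x.2 ^ m₂ * U x := hΦ.eventually hg.eventually_nhds
  have e6 : ∀ᶠ p in 𝓝 (0 : ℂ × ℂ), DifferentiableAt ℂ U (p.1 ^ N, b + p.2) :=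
    hΦ.eventually (hU.eventually_analyticAt.mono fun x hx => hx.differentiableAt)
  have e7 : ∀ᶠ p in 𝓝 (0 : ℂ × ℂ), ‖fderiv ℂ U (p.1 ^ N, b + p.2)‖ < D :=
    hΦ.eventually (hU.fderiv.continuousAt.norm.eventually (gt_mem_nhds (lt_add_one _)))
  have e8 : ∀ᶠ p in 𝓝 (0 : ℂ × ℂ), ‖U (0, b)‖ / 2 < ‖U (p.1 ^ N, b + p.2)‖ :=
    hΦ.eventually (hU.continuousAt.norm.eventually (lt_mem_nhds (half_lt_self hUp)))
  have e9 : ∀ᶠ p in 𝓝 (0 : ℂ × ℂ), ∀ i,
      ‖((p.1 ^ N, p.1 * deriv (φ i) p.1 / N) : ℂ × ℂ)‖ < δ := by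
    refine eventually_all.2 fun i => ?_
    have h1 : Tendsto (fun p : ℂ × ℂ => p.1 ^ N) (𝓝 0) (𝓝 0) := by
      have := hfst.pow N
      rwa [zero_pow hN.ne'] at this
    have h2 : Tendsto (fun p : ℂ × ℂ => deriv (φ i) p.1) (𝓝 0) (𝓝 (deriv (φ i) 0)) :=
      ((hφ i).deriv.continuousAt.tendsto).comp hfst
    have h3 := (h1.prodMk_nhds ((hfst.mul h2).div_const (N : ℂ))).norm
    rw [zero_mul, zero_div] at h3
    have h4 : ‖((0 : ℂ), (0 : ℂ))‖ = 0 := norm_zero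
    rw [h4] at h3
    exact h3.eventually (gt_mem_nhds hδ0)
  obtain ⟨r, hr, hb⟩ := Metric.eventually_nhds_iff_ball.1
    (e1.and (e2.and (e3.and (e4.and (e5.and (e6.and (e7.and (e8.and e9))))))))
  refine ⟨1 / 2, ∑ j, |C j|, by norm_num, ?_⟩
  have f1 : ∀ᶠ p in 𝓝 ((0 : ℂ), b), ‖p.1‖ < r ^ N := by
    have h1 : ContinuousAt (fun p : ℂ × ℂ => ‖p.1‖) ((0 : ℂ), b) := by fun_prop
    refine h1.eventually (gt_mem_nhds ?_)
    simp only [norm_zero]
    positivity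
  have f2 : ∀ᶠ p in 𝓝 ((0 : ℂ), b), ‖p.2 - b‖ < r := by
    have h1 : ContinuousAt (fun p : ℂ × ℂ => ‖p.2 - b‖) ((0 : ℂ), b) := by fun_prop
    refine h1.eventually (gt_mem_nhds ?_)
    simp only [sub_self, norm_zero]
    exact hr
  filter_upwards [f1, f2] with p h1 h2 hp1
  obtain ⟨t, ht⟩ := IsAlgClosed.exists_pow_nat_eq p.1 hN
  have htr : ‖t‖ < r := by
    refine lt_of_pow_lt_pow_left₀ N hr.le ?_
    rw [← norm_pow, ht]
    exact h1
  have hmem : ((t, p.2 - b) : ℂ × ℂ) ∈ ball (0 : ℂ × ℂ) r := by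
    rw [mem_ball, dist_zero_right, Prod.norm_def, max_lt_iff]
    exact ⟨htr, h2⟩
  obtain ⟨a1, a2, ⟨i₀, a3⟩, a4, a5, a6, a7, a8, a9⟩ := hb _ hmem
  simp only at a1 a2 a3 a4 a5 a6 a7 a8 a9
  have hpp : ((t ^ N, b + (p.2 - b)) : ℂ × ℂ) = p := by
    refine Prod.ext ht ?_
    show b + (p.2 - b) = p.2
    ring
  rw [hpp] at a4 a5 a6 a7 a8
  have : Nonempty (Fin m) := ⟨i₀⟩
  obtain ⟨i, hi⟩ := Finite.exists_min (fun l => ‖(p.2 - b) - φ l t‖)
  have hi0 : ‖(p.2 - b) - φ i t‖ ≤ ‖p.2 - b‖ := by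
    have := hi i₀
    rwa [a3, sub_zero] at this
  refine ⟨(p.1, t * deriv (φ i) t / N), fun j => ?_, ?_⟩
  · -- the functions `q j`
    have hL : HasFDerivAt (fun x : ℂ × ℂ => ((x.1 ^ N, b + x.2) : ℂ × ℂ))
        (((N : ℂ) * t ^ (N - 1)) • (ContinuousLinearMap.fst ℂ ℂ ℂ) |>.prod
          (ContinuousLinearMap.snd ℂ ℂ ℂ)) (t, p.2 - b) := by
      refine HasFDerivAt.prodMk ?_ ?_
      · exact (hasDerivAt_pow N t).comp_hasFDerivAt (t, p.2 - b) hasFDerivAt_fst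
      · exact hasFDerivAt_snd.const_add b
    have hq' : HasFDerivAt (q j) (fderiv ℂ (q j) p) ((fun x : ℂ × ℂ =>
        ((x.1 ^ N, b + x.2) : ℂ × ℂ)) (t, p.2 - b)) := by
      show HasFDerivAt (q j) (fderiv ℂ (q j) p) ((t ^ N, b + (p.2 - b)) : ℂ × ℂ)
      rw [hpp]
      exact (a4 j).hasFDerivAt
    have hcomp := hq'.comp (t, p.2 - b) hL
    have h3 := (a1 j).2 i hi
    have h4 : fderiv ℂ (fun p : ℂ × ℂ => q j (p.1 ^ N, b + p.2)) (t, p.2 - b)
        (t, t * deriv (φ i) t) = (N : ℂ) * fderiv ℂ (q j) p (p.1, t * deriv (φ i) t / N) := by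
      have h5 : fderiv ℂ (fun p : ℂ × ℂ => q j (p.1 ^ N, b + p.2)) (t, p.2 - b) = _ :=
        hcomp.fderiv
      rw [h5]
      have h6 : (((N : ℂ) * t ^ (N - 1)) • (ContinuousLinearMap.fst ℂ ℂ ℂ) |>.prod
          (ContinuousLinearMap.snd ℂ ℂ ℂ)) (t, t * deriv (φ i) t) =
          (N : ℂ) • ((p.1, t * deriv (φ i) t / N) : ℂ × ℂ) := by
        refine Prod.ext ?_ ?_
        · show ((N : ℂ) * t ^ (N - 1)) * t = (N : ℂ) * p.1
          rw [← ht, mul_assoc, ← pow_succ]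
          congr 2
          omega
        · show t * deriv (φ i) t = (N : ℂ) * (t * deriv (φ i) t / N)
          field_simp
      rw [ContinuousLinearMap.comp_apply, h6, map_smul, smul_eq_mul]
    rw [h4, norm_mul, Complex.norm_natCast] at h3
    have h7 : q j (t ^ N, b + (p.2 - b)) = q j p := by rw [hpp]
    rw [h7] at h3
    calc ‖fderiv ℂ (q j) p (p.1, t * deriv (φ i) t / N)‖
        ≤ N * ‖fderiv ℂ (q j) p (p.1, t * deriv (φ i) t / N)‖ :=
          le_mul_of_one_le_left (norm_nonneg _) hN1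
      _ ≤ C j * ‖q j p‖ := h3
      _ ≤ (∑ j, |C j|) * ‖q j p‖ := by
          refine mul_le_mul_of_nonneg_right ?_ (norm_nonneg _)
          exact (le_abs_self _).trans (Finset.single_le_sum (f := fun j => |C j|)
            (fun j _ => abs_nonneg _) (Finset.mem_univ j))
  · -- the function `g`
    have hgp : g p = p.1 ^ m₁ * p.2 ^ m₂ * U p := a5.self_of_nhds
    by_cases hcase : m₂ ≠ 0 ∧ p.2 = 0
    · rw [hgp, hcase.2, zero_pow hcase.1]
      simp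
    have hcase' : m₂ = 0 ∨ p.2 ≠ 0 := by tauto
    set v2 : ℂ := t * deriv (φ i) t / N with hv2
    have hge : g =ᶠ[𝓝 p] fun x => x.1 ^ m₁ * x.2 ^ m₂ * U x := a5
    have hd1 : HasFDerivAt (fun x : ℂ × ℂ => x.1 ^ m₁)
        (((m₁ : ℂ) * p.1 ^ (m₁ - 1)) • (ContinuousLinearMap.fst ℂ ℂ ℂ)) p :=
      (hasDerivAt_pow m₁ p.1).comp_hasFDerivAt p hasFDerivAt_fst
    have hd2 : HasFDerivAt (fun x : ℂ × ℂ => x.2 ^ m₂)
        (((m₂ : ℂ) * p.2 ^ (m₂ - 1)) • (ContinuousLinearMap.snd ℂ ℂ ℂ)) p :=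
      (hasDerivAt_pow m₂ p.2).comp_hasFDerivAt p hasFDerivAt_snd
    have hd : HasFDerivAt (fun x : ℂ × ℂ => x.1 ^ m₁ * x.2 ^ m₂ * U x) _ p :=
      (hd1.mul hd2).mul a6.hasFDerivAt
    rw [hge.fderiv_eq]
    rw [hd.fderiv]
    have hUne : U p ≠ 0 := by
      intro h
      rw [h, norm_zero] at a8
      linarith
    have hval : (fun x : ℂ × ℂ => x.1 ^ m₁ * x.2 ^ m₂) p • (fderiv ℂ U p) (p.1, v2) +
        U p • (p.1 ^ m₁ • (((m₂ : ℂ) * p.2 ^ (m₂ - 1)) • v2) +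
          p.2 ^ m₂ • (((m₁ : ℂ) * p.1 ^ (m₁ - 1)) • p.1)) =
        g p * (m₁ + m₂ * v2 / p.2 + fderiv ℂ U p (p.1, v2) / U p) := by
      simp only [smul_eq_mul]
      rw [hgp]
      have g1 : (m₁ : ℂ) * p.1 ^ (m₁ - 1) * p.1 = m₁ * p.1 ^ m₁ := by
        rw [mul_assoc, ← pow_succ]
        congr 2
        omega
      have g2 : (m₂ : ℂ) * p.2 ^ (m₂ - 1) * v2 = p.2 ^ m₂ * (m₂ * v2 / p.2) := by
        rcases hcase' with h | h
        · rw [h]; simp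
        · rcases Nat.eq_zero_or_pos m₂ with h' | h'
          · rw [h']; simp
          · obtain ⟨k, rfl⟩ : ∃ k, m₂ = k + 1 := ⟨m₂ - 1, by omega⟩
            rw [Nat.add_sub_cancel, pow_succ]
            field_simp
      rw [g1, g2]
      field_simp
      ring
    have hval' : ‖g p * (m₁ + m₂ * v2 / p.2 + fderiv ℂ U p (p.1, v2) / U p)‖ ≥
        1 / 2 * ‖g p‖ := by
      rw [norm_mul, ge_iff_le, mul_comm]
      refine mul_le_mul_of_nonneg_left ?_ (norm_nonneg _)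
      -- the `U`-term
      have hY : ‖fderiv ℂ U p (p.1, v2) / U p‖ ≤ 1 / 4 := by
        have h9 := a9 i
        rw [ht] at h9
        rw [norm_div, div_le_iff₀ (norm_pos_iff.2 hUne)]
        calc ‖fderiv ℂ U p (p.1, v2)‖ ≤ ‖fderiv ℂ U p‖ * ‖((p.1, v2) : ℂ × ℂ)‖ :=
              ContinuousLinearMap.le_opNorm _ _
          _ ≤ D * δ := mul_le_mul a7.le h9.le (norm_nonneg _) hD0.le
          _ = 1 / 4 * (‖U (0, b)‖ / 2) := by rw [hδ]; field_simp; ring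
          _ ≤ 1 / 4 * ‖U p‖ := by linarith
      -- the `β`-term
      have hX : -(1 / 4) ≤ (m₂ * v2 / p.2 : ℂ).re := by
        rcases Nat.eq_zero_or_pos m₂ with h' | h'
        · rw [h']; simp
        have hb0 : b = 0 := by
          rcases hm with h | h
          · omega
          · exact h
        have hp2 : p.2 ≠ 0 := by
          rcases hcase' with h | h
          · omega
          · exact h
        rw [hb0, sub_zero] at hi0
        have hpp2 : 0 < ‖p.2‖ := norm_pos_iff.2 hp2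
        set err : ℂ := t * deriv (φ i) t - e i * φ i t with herr
        have herr' : ‖err‖ ≤ ε * (2 * ‖p.2‖) := by
          refine (a2 i).trans (mul_le_mul_of_nonneg_left ?_ hε0.le)
          calc ‖φ i t‖ = ‖p.2 - (p.2 - φ i t)‖ := by ring_nf
            _ ≤ ‖p.2‖ + ‖p.2 - φ i t‖ := norm_sub_le _ _
            _ ≤ 2 * ‖p.2‖ := by linarith
        have hre : 0 ≤ (φ i t / p.2).re := by
          refine re_nonneg ?_
          have : 1 - φ i t / p.2 = (p.2 - φ i t) / p.2 := by field_simp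
          rw [this, norm_div, div_le_one hpp2]
          exact hi0
        have hX1 : (m₂ * v2 / p.2 : ℂ) = ((m₂ * e i / N : ℝ) : ℂ) * (φ i t / p.2) +
            m₂ * err / (N * p.2) := by
          rw [hv2, herr]
          push_cast
          field_simp
          ring
        have hX2 : ‖(m₂ * err / (N * p.2) : ℂ)‖ ≤ 1 / 4 := by
          rw [norm_div, norm_mul, norm_mul, Complex.norm_natCast, Complex.norm_natCast,
            div_le_iff₀ (by positivity)]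
          calc (m₂ : ℝ) * ‖err‖ ≤ m₂ * (ε * (2 * ‖p.2‖)) :=
                mul_le_mul_of_nonneg_left herr' (Nat.cast_nonneg _)
            _ = (m₂ / (m₂ + 1)) * (1 / 4 * ‖p.2‖) := by rw [hε]; field_simp; ring
            _ ≤ 1 * (1 / 4 * ‖p.2‖) := by
                refine mul_le_mul_of_nonneg_right ?_ (by positivity)
                rw [div_le_one (by positivity)]
                linarith
            _ ≤ 1 / 4 * (N * ‖p.2‖) := by nlinarith
        rw [hX1, Complex.add_re, Complex.re_ofReal_mul]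
        have h10 := (Complex.abs_re_le_norm (m₂ * err / (N * p.2) : ℂ)).trans hX2
        have h11 := (abs_le.1 h10).1
        have h12 : 0 ≤ (m₂ * e i / N : ℝ) * (φ i t / p.2).re := by positivity
        linarith
      have h13 := Complex.re_le_norm (m₁ + m₂ * v2 / p.2 + fderiv ℂ U p (p.1, v2) / U p : ℂ)
      rw [Complex.add_re, Complex.add_re, Complex.natCast_re] at h13
      have h14 := (abs_le.1 ((Complex.abs_re_le_norm _).trans hY)).1
      have h15 : (1 : ℝ) ≤ m₁ := by exact_mod_cast hm1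
      linarith
    have hfin : ((fun x : ℂ × ℂ => x.1 ^ m₁ * x.2 ^ m₂) p • (fderiv ℂ U p) +
        U p • (p.1 ^ m₁ • (((m₂ : ℂ) * p.2 ^ (m₂ - 1)) • (ContinuousLinearMap.snd ℂ ℂ ℂ)) +
          p.2 ^ m₂ • (((m₁ : ℂ) * p.1 ^ (m₁ - 1)) • (ContinuousLinearMap.fst ℂ ℂ ℂ))))
            (p.1, v2) = g p * (m₁ + m₂ * v2 / p.2 + fderiv ℂ U p (p.1, v2) / U p) := by
      rw [← hval]
      rfl
    refine hval'.trans (le_of_eq ?_)
    exact congrArg norm hfin.symm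

end Crest.Agent.R257.NV_980
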