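import Crest.Agent.R257.FrBP7_808
import Crest.Agent.R257.ExC_121
import Crest.Agent.R257.ExF_121
import Crest.Agent.R257.Fr13_808
import Crest.Agent.R257.NV_980

/-!
R257 / FrBP8_808: base point freeness of the frame `D.fr`, and the existence of an exact pair.
-/

set_option autoImplicit false
set_option linter.unusedSectionVars false

open Polynomial Set Filter Topology Metric
open Crest.AlgGeometry.Germ

noncomputable section

namespace Crest.Agent.R257.FrBP_808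

open Crest.Agent.R257.Defs_219 Crest.Agent.R257.AJ387 Crest.Agent.R257.T387
open Crest.Agent.R257.BP_258 Crest.Agent.R257.FrmF_547
open Crest.Agent.R257.Gr1_157 Crest.Agent.R257.GrH_547
open Crest.Agent.R257.Fr_808 Crest.Agent.R257.Rot1_558

variable {f : (Fin 3 → ℂ) → ℂ} {T : TB f} {hC : Clo T} {S : Sh T} {L : Lab (Tb_941.tub T hC) S}
  {nu : II (Tb_941.tub T hC) → ℤ} {n1 n2 : Ch T.m → Fin T.d → ℤ}

/-- the output of one Hoermander step, for the frame `D.fr` (files `ExG_121`, `ExH_82`) -/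
structure ExAll (D : FrIn L nu n1 n2) (hG : GalPt T) : Prop where
  pe : ∃ B : ℝ, Ex_121.ExP D.fr (ExF_121.GG D hG) B (KiD_121.Dv T) ∧
    Ex_121.ExE D.fr (ExF_121.GG D hG) B (KiD_121.Dv T)
  nt : ∃ Th : D.fr.I → Prop, Ex_121.ExN D.fr (ExF_121.GG D hG) (KiD_121.Dv T) Th ∧
    Ex_121.ExT D.fr (ExF_121.GG D hG) Th

theorem Dv_pos (T : TB f) : 0 < KiD_121.Dv T :=
  Nat.mul_pos T.N_pos (Nat.mul_pos T.M_pos (Nat.factorial_pos _))

/-- **base point freeness** -/
theorem bpf_fr (D : FrIn L nu n1 n2) {hG : GalPt T} (h : ExAll D hG) : D.fr.BPF := by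
  obtain ⟨B, hP, hE⟩ := h.pe
  obtain ⟨Th, hN, hT⟩ := h.nt
  exact Ex_121.bpf_of f D.hf.an D.fr (ExF_121.GG D hG) B (KiD_121.Dv T) Th D.adj
    (ExF_121.rot_fr D hG) (Dv_pos T) hP hE hN hT

/-- the exact pair, with the inequalities (JU), (i) -/
theorem ci_fr (hm : 0 < mstar f) (D : FrIn L nu n1 n2) {hG : GalPt T} (h : ExAll D hG)
    {l : ℕ} (q : Fin l → E3 → ℂ) (s : Fin l → ℕ) (hS : CLog_68.Sys f q s) :
    ∃ (k : ℕ) (g h : E3 → ℂ), XF_157.Exact f k g h ∧ JU f k g h ∧ CLog_68.CI f g h q s :=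
  Fr_808.ci_of NV_980.nvStmt D.hf hm D.fr (bpf_fr D h) q s hS

end Crest.Agent.R257.FrBP_808
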