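import Mathlib
import Crest.Agent.R257.T7_387

/-!
Row 257 (S0395), part C, T-frame, file 9 (helper387): the charts scaled to the unit bidisc
(top edges with exchanged coordinates): the single chart fields of `Fr_808.Frame`.
-/

set_option autoImplicit false
set_option linter.unusedSectionVars false

open Polynomial Set Filter Topology Metric
open Crest.AlgGeometry.Germ Crest.Agent.R257.AJ387 Crest.Agent.R257.Defs_219
open Crest.Agent.R257.T0_387 (ptL ptL_apply an_coordDeriv isolated)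
open Crest.Agent.R257.Fr_808 (jac2)

noncomputable section

namespace Crest.Agent.R257.T387

namespace TB

variable {f : (Fin 3 → ℂ) → ℂ} (T : TB f)

/-- top edge -/
def IsTop : Ch T.m → Prop
  | .edge _ k _ => k = 0
  | _ => False

instance (c : Ch T.m) : Decidable (T.IsTop c) := by
  cases c <;> simp only [IsTop] <;> infer_instance

/-- the second axis (after the exchange for top edges) is not exceptional -/
def NE : Ch T.m → Prop
  | .edge _ k _ => k = 0
  | .leg _ => True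
  | .vert _ _ _ => True

/-- scaling, with exchange of the coordinates for top edges -/
def sg (c : Ch T.m) (R : ℝ) (p : ℂ × ℂ) : ℂ × ℂ :=
  if T.IsTop c then (R * p.2, R * p.1) else (R * p.1, R * p.2)

/-- the scaled chart -/
def thS (c : Ch T.m) (R : ℝ) (z : ℂ × ℂ → ℂ) (p : ℂ × ℂ) : Fin 3 → ℂ := T.th c z (T.sg c R p)

lemma sg_mem (c : Ch T.m) {R r : ℝ} (hR : 0 < R) {p : ℂ × ℂ} (hp : p ∈ BD r r) :
    T.sg c R p ∈ BD (R * r) (R * r) := by
  have h1 : ‖(R : ℂ) * p.1‖ < R * r := by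
    rw [norm_mul, Complex.norm_real, Real.norm_of_nonneg hR.le]
    exact mul_lt_mul_of_pos_left hp.1 hR
  have h2 : ‖(R : ℂ) * p.2‖ < R * r := by
    rw [norm_mul, Complex.norm_real, Real.norm_of_nonneg hR.le]
    exact mul_lt_mul_of_pos_left hp.2 hR
  unfold sg
  split_ifs
  · exact ⟨h2, h1⟩
  · exact ⟨h1, h2⟩

/-- the linear map `sg` -/
def sgL (c : Ch T.m) (R : ℝ) : ℂ × ℂ →L[ℂ] ℂ × ℂ :=
  if T.IsTop c then ((R : ℂ) • ContinuousLinearMap.snd ℂ ℂ ℂ).prod ((R : ℂ) • ContinuousLinearMap.fst ℂ ℂ ℂ)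
  else ((R : ℂ) • ContinuousLinearMap.fst ℂ ℂ ℂ).prod ((R : ℂ) • ContinuousLinearMap.snd ℂ ℂ ℂ)

lemma sgL_apply (c : Ch T.m) (R : ℝ) (p : ℂ × ℂ) : T.sgL c R p = T.sg c R p := by
  unfold sgL sg
  split_ifs <;> rfl

lemma sg_surj (c : Ch T.m) {R : ℝ} (hR : 0 < R) (q : ℂ × ℂ) (h1 : ‖q.1‖ ≤ R) (h2 : ‖q.2‖ ≤ R) :
    ∃ p : ℂ × ℂ, ‖p.1‖ ≤ 1 ∧ ‖p.2‖ ≤ 1 ∧ T.sg c R p = q := by
  have hR' : (R : ℂ) ≠ 0 := by exact_mod_cast hR.ne'
  have e1 : ‖q.1 / R‖ ≤ 1 := by
    rw [norm_div, Complex.norm_real, Real.norm_of_nonneg hR.le, div_le_one hR]; exact h1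
  have e2 : ‖q.2 / R‖ ≤ 1 := by
    rw [norm_div, Complex.norm_real, Real.norm_of_nonneg hR.le, div_le_one hR]; exact h2
  by_cases h : T.IsTop c
  · refine ⟨(q.2 / R, q.1 / R), e2, e1, ?_⟩
    simp only [sg, if_pos h]
    rw [mul_div_cancel₀, mul_div_cancel₀] <;> exact hR'
  · refine ⟨(q.1 / R, q.2 / R), e1, e2, ?_⟩
    simp only [sg, if_neg h]
    rw [mul_div_cancel₀, mul_div_cancel₀] <;> exact hR'

lemma sg_inj (c : Ch T.m) {R : ℝ} (hR : 0 < R) : Function.Injective (T.sg c R) := by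
  have hR' : (R : ℂ) ≠ 0 := by exact_mod_cast hR.ne'
  intro p q h
  unfold sg at h
  split_ifs at h
  · simp only [Prod.mk.injEq, mul_right_inj' hR'] at h
    exact Prod.ext h.2 h.1
  · simp only [Prod.mk.injEq, mul_right_inj' hR'] at h
    exact Prod.ext h.1 h.2

/-- the Jacobian of the scaled chart -/
lemma jac2_sg (c : Ch T.m) (R : ℝ) {F : ℂ × ℂ → E3} {p : ℂ × ℂ}
    (hF : DifferentiableAt ℂ F (T.sg c R p)) :
    jac2 (fun p => F (T.sg c R p)) p =
      (if T.IsTop c then -(R : ℂ) ^ 2 else (R : ℂ) ^ 2) * jac2 F (T.sg c R p) := by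
  have h1 : ∀ v, fderiv ℂ (fun p => F (T.sg c R p)) p v = fderiv ℂ F (T.sg c R p) (T.sgL c R v) := by
    intro v
    have h2 : (fun p => F (T.sg c R p)) = F ∘ (T.sgL c R) := by
      funext q
      simp [sgL_apply]
    rw [h2, fderiv_comp p (by rw [sgL_apply]; exact hF) (T.sgL c R).differentiableAt,
      ContinuousLinearMap.fderiv, sgL_apply]
    rfl
  have e1 : T.sgL c R (1, 0) = if T.IsTop c then (R : ℂ) • ((0 : ℂ), (1 : ℂ)) else (R : ℂ) • (1, 0) := by
    rw [sgL_apply]; unfold sg; split_ifs <;> simp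
  have e2 : T.sgL c R (0, 1) = if T.IsTop c then (R : ℂ) • ((1 : ℂ), (0 : ℂ)) else (R : ℂ) • (0, 1) := by
    rw [sgL_apply]; unfold sg; split_ifs <;> simp
  unfold jac2
  rw [h1, h1, e1, e2]
  split_ifs
  · simp only [map_smul, Pi.smul_apply, smul_eq_mul]
    ring
  · simp only [map_smul, Pi.smul_apply, smul_eq_mul]
    ring

section sheets

variable {T} {c : Ch T.m} {R : ℝ} {ζ : Fin T.d → ℂ × ℂ → ℂ} (hR : 0 < R)
  (hS : T.Sheets c (2 * R) ζ)
include hR hS

omit hS in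
lemma sg_mem2 {p : ℂ × ℂ} (hp : p ∈ BD 2 2) : T.sg c R p ∈ BD (2 * R) (2 * R) := by
  have := T.sg_mem c hR hp
  rwa [mul_comm R 2] at this

theorem thS_an (j : Fin T.d) {p : ℂ × ℂ} (hp : p ∈ BD 2 2) : AnalyticAt ℂ (T.thS c R (ζ j)) p := by
  have h1 : T.thS c R (ζ j) = fun p => T.th c (ζ j) (T.sgL c R p) := by
    funext p
    rw [sgL_apply]
    rfl
  rw [h1]
  refine AnalyticAt.comp (g := T.th c (ζ j)) (f := fun p => T.sgL c R p) ?_ ((T.sgL c R).analyticAt p)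
  rw [sgL_apply]
  exact hS.th_an j (sg_mem2 hR hp)

theorem thS_V (j : Fin T.d) {p : ℂ × ℂ} (hp : p ∈ BD 2 2) : f (T.thS c R (ζ j) p) = 0 :=
  hS.th_V j (sg_mem2 hR hp)

theorem thS_zero (hc : T.Valid c) (j : Fin T.d) {p : ℂ × ℂ} (hp : p ∈ BD 2 2) :
    T.thS c R (ζ j) p = 0 ↔ p.1 = 0 ∨ (¬ T.NE c ∧ p.2 = 0) := by
  have hR' : (R : ℂ) ≠ 0 := by exact_mod_cast hR.ne'
  rw [thS, hS.th_zero hc j (sg_mem2 hR hp)]
  cases c with
  | edge i k k' =>
    by_cases h : k = 0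
    · simp [sg, IsTop, Zc, NE, h, hR.ne']
    · simp [sg, IsTop, Zc, NE, h, hR.ne']
  | leg i => simp [sg, IsTop, Zc, NE, hR.ne']
  | vert i k w₀ => simp [sg, IsTop, Zc, NE, hR.ne']

/-- **the residue form in the scaled charts** -/
theorem thS_jac (hf : Iso f) (hc : T.Valid c) (j : Fin T.d) : ∃ (n1 n2 : ℤ) (U : ℂ × ℂ → ℂ),
    (T.NE c → 0 ≤ n2) ∧ AnalyticOnNhd ℂ U (BD 2 2) ∧ (∀ p ∈ BD 2 2, U p ≠ 0) ∧
    ∀ p ∈ BD 2 2, p.1 ≠ 0 → p.2 ≠ 0 → coordDeriv f 0 (T.thS c R (ζ j) p) ≠ 0 ∧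
      jac2 (T.thS c R (ζ j)) p = coordDeriv f 0 (T.thS c R (ζ j) p) * p.1 ^ n1 * p.2 ^ n2 * U p := by
  have hR' : (R : ℂ) ≠ 0 := by exact_mod_cast hR.ne'
  obtain ⟨a, b, w, hw, hw0, hcd, hj, hv, hl, ht⟩ := T.frame_chart hf hc hS j
  have hk := T.jk_ne hc
  have hwsg : AnalyticOnNhd ℂ (fun p => w (T.sg c R p)) (BD 2 2) := fun p hp => by
    have h1 : (fun p => w (T.sg c R p)) = fun p => w (T.sgL c R p) := by
      funext q; rw [sgL_apply]
    rw [h1]
    refine AnalyticAt.comp (g := w) (f := fun p => T.sgL c R p) ?_ ((T.sgL c R).analyticAt p)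
    rw [sgL_apply]
    exact hw _ (sg_mem2 hR hp)
  have hjs : ∀ p ∈ BD 2 2, jac2 (T.thS c R (ζ j)) p =
      (if T.IsTop c then -(R : ℂ) ^ 2 else (R : ℂ) ^ 2) * (T.jk c * (T.sg c R p).1 ^ (T.jx c).1 *
        (T.sg c R p).2 ^ (T.jx c).2) := fun p hp => by
    rw [← hj _ (sg_mem2 hR hp)]
    exact T.jac2_sg c R (hS.th_an j (sg_mem2 hR hp)).differentiableAt
  have hcs : ∀ p ∈ BD 2 2, coordDeriv f 0 (T.thS c R (ζ j) p) =
      (T.sg c R p).1 ^ a * (T.sg c R p).2 ^ b * w (T.sg c R p) := fun p hp =>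
    hcd _ (sg_mem2 hR hp)
  have key : ∀ (A B a b : ℕ) (x y K W : ℂ), x ≠ 0 → y ≠ 0 → W ≠ 0 →
      K * ((R * x) ^ A * (R * y) ^ B) = (R * x) ^ a * (R * y) ^ b * W * x ^ ((A : ℤ) - a) *
        y ^ ((B : ℤ) - b) * (K * (R ^ A * R ^ B) / (R ^ a * R ^ b * W)) := by
    intro A B a b x y K W hx hy hW
    rw [zpow_sub₀ hx, zpow_sub₀ hy]
    simp only [zpow_natCast, mul_pow]
    field_simp
  by_cases hT : T.IsTop c
  · -- top edge
    refine ⟨((T.jx c).2 : ℤ) - b, ((T.jx c).1 : ℤ) - a, fun p =>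
      -(R : ℂ) ^ 2 * T.jk c * (R ^ (T.jx c).2 * R ^ (T.jx c).1) /
        (R ^ b * R ^ a * w (T.sg c R p)), ?_, ?_, ?_, ?_⟩
    · intro _
      cases c with
      | edge i k k' =>
        have hk0 : k = 0 := hT
        subst hk0
        have h1 := ht i k' rfl
        simp only [jx, mul_zero, add_zero]
        omega
      | leg i => exact absurd hT (by simp [IsTop])
      | vert i k w₀ => exact absurd hT (by simp [IsTop])
    · intro p hp
      refine AnalyticAt.div analyticAt_const (analyticAt_const.mul (hwsg p hp)) ?_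
      exact mul_ne_zero (mul_ne_zero (pow_ne_zero _ hR') (pow_ne_zero _ hR')) (hw0 _ (sg_mem2 hR hp))
    · intro p hp
      refine div_ne_zero ?_ ?_
      · exact mul_ne_zero (mul_ne_zero (neg_ne_zero.2 (pow_ne_zero _ hR')) hk)
          (mul_ne_zero (pow_ne_zero _ hR') (pow_ne_zero _ hR'))
      · exact mul_ne_zero (mul_ne_zero (pow_ne_zero _ hR') (pow_ne_zero _ hR')) (hw0 _ (sg_mem2 hR hp))
    · intro p hp h1 h2
      have hW : w (T.sg c R p) ≠ 0 := hw0 _ (sg_mem2 hR hp)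
      have hs : T.sg c R p = (R * p.2, R * p.1) := by rw [sg, if_pos hT]
      refine ⟨?_, ?_⟩
      · rw [hcs p hp, hs]
        refine mul_ne_zero (mul_ne_zero (pow_ne_zero _ (mul_ne_zero hR' h2))
          (pow_ne_zero _ (mul_ne_zero hR' h1))) ?_
        rw [← hs]; exact hW
      · rw [hjs p hp, hcs p hp, if_pos hT]
        have := key (T.jx c).2 (T.jx c).1 b a p.1 p.2 (-(R : ℂ) ^ 2 * T.jk c) (w (T.sg c R p)) h1 h2 hW
        beta_reduce
        rw [hs] at this ⊢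
        simp only at this ⊢
        linear_combination this
  · refine ⟨((T.jx c).1 : ℤ) - a, ((T.jx c).2 : ℤ) - b, fun p =>
      (R : ℂ) ^ 2 * T.jk c * (R ^ (T.jx c).1 * R ^ (T.jx c).2) /
        (R ^ a * R ^ b * w (T.sg c R p)), ?_, ?_, ?_, ?_⟩
    · intro hNE
      cases c with
      | edge i k k' => exact absurd hNE hT
      | leg i =>
        have h1 := hl i rfl
        simp only [jx]
        have := T.M_pos
        omega
      | vert i k w₀ =>
        have h1 := hv i k w₀ rfl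
        simp only [jx]
        omega
    · intro p hp
      refine AnalyticAt.div analyticAt_const (analyticAt_const.mul (hwsg p hp)) ?_
      exact mul_ne_zero (mul_ne_zero (pow_ne_zero _ hR') (pow_ne_zero _ hR')) (hw0 _ (sg_mem2 hR hp))
    · intro p hp
      refine div_ne_zero ?_ ?_
      · exact mul_ne_zero (mul_ne_zero (pow_ne_zero _ hR') hk)
          (mul_ne_zero (pow_ne_zero _ hR') (pow_ne_zero _ hR'))
      · exact mul_ne_zero (mul_ne_zero (pow_ne_zero _ hR') (pow_ne_zero _ hR')) (hw0 _ (sg_mem2 hR hp))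
    · intro p hp h1 h2
      have hW : w (T.sg c R p) ≠ 0 := hw0 _ (sg_mem2 hR hp)
      have hs : T.sg c R p = (R * p.1, R * p.2) := by rw [sg, if_neg hT]
      refine ⟨?_, ?_⟩
      · rw [hcs p hp, hs]
        refine mul_ne_zero (mul_ne_zero (pow_ne_zero _ (mul_ne_zero hR' h1))
          (pow_ne_zero _ (mul_ne_zero hR' h2))) ?_
        rw [← hs]; exact hW
      · rw [hjs p hp, hcs p hp, if_neg hT]
        have := key (T.jx c).1 (T.jx c).2 a b p.1 p.2 ((R : ℂ) ^ 2 * T.jk c) (w (T.sg c R p)) h1 h2 hW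
        beta_reduce
        rw [hs] at this ⊢
        simp only at this ⊢
        linear_combination this

end sheets

end TB

end Crest.Agent.R257.T387
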