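import Mathlib
import Crest.Agent.R257.T9_387

/-!
Row 257 (S0395), part C, T-frame, file 11 (helper387): on the branch `{s = 0}` of a top edge the sheets
are distinct, so `∂f/∂z` does not vanish there and the exponent of the residue form is `N - 1`.
-/

set_option autoImplicit false
set_option linter.unusedSectionVars false

open Polynomial Set Filter Topology Metric
open Crest.AlgGeometry.Germ Crest.Agent.R257.AJ387 Crest.Agent.R257.Defs_219
open Crest.Agent.R257.T0_387 (ptL ptL_apply an_coordDeriv isolated)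
open Crest.Agent.R257.Fr_808 (jac2)

noncomputable section

namespace Crest.Agent.R257.T387

namespace TB

variable {f : (Fin 3 → ℂ) → ℂ} (T : TB f)

/-- the sheets of a top edge are distinct also over `s = 0`, `y' ≠ 0` -/
theorem top_inj {i : Fin T.m} {k' : ℕ} {r : ℝ} {ζ : Fin T.d → ℂ × ℂ → ℂ}
    (hS : T.Sheets (.edge i 0 k') r ζ) (hv : T.Valid (.edge i 0 k')) {p : ℂ × ℂ} (hp : p ∈ BD r r)
    (h2 : p.2 ≠ 0) : Function.Injective fun j => ζ j p := by
  by_cases h1 : p.1 = 0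
  · have hM := T.M_pos.ne'
    have hk' : T.M * k' ≠ 0 := (Nat.mul_pos T.M_pos (by have := hv.2.2.1; omega)).ne'
    refine inj_of_nodup ?_
    rw [← hS.split p hp]
    have hy : (T.map (.edge i 0 k') p).2 = p.2 ^ (T.M * k') := by
      simp [map, h1, zero_pow hM, T.φ_zero]
    have hs : (T.map (.edge i 0 k') p).1 = 0 := by simp [map, h1]
    have hq : T.Q (T.map (.edge i 0 k') p) = T.P ((0 : ℂ) ^ T.N₀, (T.map (.edge i 0 k') p).2) := by
      rw [Q, hs, zero_pow T.N_pos.ne', zero_pow T.N₀_pos.ne']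
    rw [hq]
    refine T.nodup 0 (mem_ball_self T.ρ_pos) _ ?_ fun j => ?_
    · simpa using (hS.mem p hp).1.2
    · rw [hy, T.φ_zero]
      exact pow_ne_zero _ h2
  · exact hS.inj p hp ⟨h1, h2⟩

/-- `∂f/∂z` does not vanish on the branch `{s = 0}` of a top edge -/
theorem top_a {i : Fin T.m} {k' : ℕ} {r : ℝ} {ζ : Fin T.d → ℂ × ℂ → ℂ}
    (hS : T.Sheets (.edge i 0 k') r ζ) (hv : T.Valid (.edge i 0 k')) (j : Fin T.d) {a b : ℕ}
    {w : ℂ × ℂ → ℂ}
    (h : ∀ p ∈ BD r r, coordDeriv f 0 (T.th (.edge i 0 k') (ζ j) p) = p.1 ^ a * p.2 ^ b * w p) :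
    a = 0 := by
  by_contra ha
  have hr := hS.r_pos
  have hn : ‖((r / 2 : ℝ) : ℂ)‖ < r := by
    rw [Complex.norm_real, Real.norm_of_nonneg (by positivity)]; linarith
  have hp : ((0 : ℂ), ((r / 2 : ℝ) : ℂ)) ∈ BD r r := ⟨by simpa using hr, hn⟩
  have h2 : ((r / 2 : ℝ) : ℂ) ≠ 0 := by exact_mod_cast (by positivity : (r / 2 : ℝ) ≠ 0)
  have h3 := h _ hp
  rw [zero_pow ha, zero_mul, zero_mul, hS.cd0 j hp] at h3
  rcases mul_eq_zero.1 h3 with h4 | h4
  · exact T.v_ne _ (hS.mem_R hp) _ (hS.norm_lt j hp).le h4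
  · obtain ⟨l, hl, h5⟩ := Finset.prod_eq_zero_iff.1 h4
    have h6 := T.top_inj hS hv hp h2 (sub_eq_zero.1 h5)
    exact (Finset.ne_of_mem_erase hl) h6.symm

section sheets

variable {T} {c : Ch T.m} {R : ℝ} {ζ : Fin T.d → ℂ × ℂ → ℂ} (hR : 0 < R)
  (hS : T.Sheets c (2 * R) ζ)
include hR hS

/-- for top edges the exponent on the non exceptional axis is exactly `N - 1` -/
theorem thS_top (hc : T.Valid c) (j : Fin T.d) (hT : T.IsTop c) {n1 n2 : ℤ} {U : ℂ × ℂ → ℂ}
    (hU : AnalyticOnNhd ℂ U (BD 2 2)) (hU0 : ∀ p ∈ BD 2 2, U p ≠ 0)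
    (h : ∀ p ∈ BD 2 2, p.1 ≠ 0 → p.2 ≠ 0 →
      jac2 (T.thS c R (ζ j)) p = coordDeriv f 0 (T.thS c R (ζ j) p) * p.1 ^ n1 * p.2 ^ n2 * U p) :
    n2 = (T.N : ℤ) - 1 := by
  have hR' : (R : ℂ) ≠ 0 := by exact_mod_cast hR.ne'
  cases c with
  | leg i => exact absurd hT (by simp [IsTop])
  | vert i k w₀ => exact absurd hT (by simp [IsTop])
  | edge i k k' =>
    have hk0 : k = 0 := hT
    subst hk0
    obtain ⟨a, b, w, hw, hw0, hcd, -⟩ := hS.cd0_mono j
    have ha := T.top_a hS hc j hcd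
    subst ha
    have hN := T.N_pos
    -- the Jacobian and `∂f/∂z` at the point `(1, t)`
    have key : ∀ t : ℂ, ‖t‖ < 2 → t ≠ 0 → (-(R : ℂ) ^ 2 * T.jk (.edge i 0 k') * (R * t) ^ (T.N - 1) *
        R ^ (T.N - 1 + T.M * k')) =
        (R ^ b * w (R * t, R)) * t ^ n2 * U (1, t) := by
      intro t ht ht0
      have hp : ((1 : ℂ), t) ∈ BD 2 2 := ⟨by simp, ht⟩
      have hsg : T.sg (.edge i 0 k') R (1, t) = ((R : ℂ) * t, (R : ℂ)) := by
        unfold sg; rw [if_pos hT]; simp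
      have hm := sg_mem2 (T := T) (c := .edge i 0 k') hR hp
      have h1 := h (1, t) hp one_ne_zero ht0
      have h2 : jac2 (T.thS (.edge i 0 k') R (ζ j)) (1, t) = _ :=
        T.jac2_sg (.edge i 0 k') R (hS.th_an j hm).differentiableAt
      rw [h2, hS.jac hc j hm, if_pos hT] at h1
      have h3 : coordDeriv f 0 (T.thS (.edge i 0 k') R (ζ j) (1, t)) = _ := hcd _ hm
      rw [h3, hsg] at h1
      simp only [jx, mul_zero, add_zero, pow_zero, one_mul, one_zpow, mul_one] at h1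
      linear_combination h1
    have hcw : ContinuousAt (fun t : ℂ => w (R * t, R)) 0 := by
      have hm : (((R : ℂ) * 0, (R : ℂ)) : ℂ × ℂ) ∈ BD (2 * R) (2 * R) := by
        refine ⟨by simpa using hR, ?_⟩
        rw [Complex.norm_real, Real.norm_of_nonneg hR.le]; linarith
      exact ContinuousAt.comp (g := w) (f := fun t : ℂ => (((R : ℂ) * t, (R : ℂ)) : ℂ × ℂ)) (x := 0)
        (hw _ hm).continuousAt (by fun_prop)
    have hcw0 : w ((R : ℂ) * 0, (R : ℂ)) ≠ 0 := by
      refine hw0 _ ⟨by simpa using hR, ?_⟩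
      rw [Complex.norm_real, Real.norm_of_nonneg hR.le]; linarith
    have hcU : ContinuousAt (fun t : ℂ => U (1, t)) 0 :=
      ContinuousAt.comp (g := U) (f := fun t : ℂ => ((1, t) : ℂ × ℂ)) (x := 0)
        (hU _ ⟨by simp, by simp⟩).continuousAt (by fun_prop)
    have hcU0 : U (1, 0) ≠ 0 := hU0 _ ⟨by simp, by simp⟩
    have hev : ∀ᶠ t in 𝓝[≠] (0 : ℂ), ‖t‖ < 2 ∧ t ≠ 0 := by
      refine (((continuous_norm.tendsto (0 : ℂ)).eventually (gt_mem_nhds (by simp))).filter_mono
        nhdsWithin_le_nhds).and self_mem_nhdsWithin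
    set K : ℂ := -(R : ℂ) ^ 2 * T.jk (.edge i 0 k') * R ^ (T.N - 1) * R ^ (T.N - 1 + T.M * k') with hK
    have hK0 : K ≠ 0 := mul_ne_zero (mul_ne_zero (mul_ne_zero (neg_ne_zero.2 (pow_ne_zero _ hR'))
      (T.jk_ne hc)) (pow_ne_zero _ hR')) (pow_ne_zero _ hR')
    set W : ℂ → ℂ := fun t => R ^ b * w (R * t, R) * U (1, t) with hW
    have hWc : ContinuousAt W 0 := (continuousAt_const.mul hcw).mul hcU
    have hW0 : W 0 ≠ 0 := mul_ne_zero (mul_ne_zero (pow_ne_zero _ hR') hcw0) hcU0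
    have key2 : ∀ t : ℂ, ‖t‖ < 2 → t ≠ 0 → t ^ (T.N - 1) * K = t ^ n2 * W t := by
      intro t ht ht0
      have := key t ht ht0
      rw [hK, hW]
      simp only
      rw [mul_pow] at this
      linear_combination this
    rcases le_total 0 n2 with hn | hn
    · obtain ⟨n, rfl⟩ := Int.eq_ofNat_of_zero_le hn
      have e1 : n ≤ T.N - 1 := exp_le (u := fun _ => K) (v := W) continuousAt_const hK0 hWc (by
        filter_upwards [hev] with t ht
        have := key2 t ht.1 ht.2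
        rwa [zpow_natCast] at this)
      have e2 : T.N - 1 ≤ n := exp_le (u := W) (v := fun _ => K) hWc hW0 continuousAt_const (by
        filter_upwards [hev] with t ht
        have := key2 t ht.1 ht.2
        rw [zpow_natCast] at this
        exact this.symm)
      omega
    · obtain ⟨n, hn'⟩ := Int.eq_ofNat_of_zero_le (Int.neg_nonneg_of_nonpos hn)
      have e2 : T.N - 1 + n ≤ 0 := exp_le (u := W) (v := fun _ => K) hWc hW0 continuousAt_const (by
        filter_upwards [hev] with t ht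
        have h3 := key2 t ht.1 ht.2
        have h4 : n2 = -(n : ℤ) := by omega
        rw [h4, zpow_neg, zpow_natCast] at h3
        have h5 : t ^ n ≠ 0 := pow_ne_zero _ ht.2
        rw [pow_zero, one_mul, pow_add]
        field_simp at h3
        linear_combination -h3)
      omega

end sheets

end TB

end Crest.Agent.R257.T387
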