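import Crest.Agent.R257.CLog_68
import Crest.Agent.R257.FrBP8_808
import Crest.Agent.R257.T11_387
import Crest.Agent.R257.Vt1_558

/-!
R257 / CLogFr_68 (C-LOG, helper68): the charts of the frame `D.fr` are scaled charts of `T`;
**CLogStmt from one Hoermander step** (`ExAll` of FrBP8_808).
-/

set_option autoImplicit false
set_option linter.unusedSectionVars false

open Polynomial Set Filter Topology Metric
open Crest.AlgGeometry.Germ

noncomputable section

namespace Crest.Agent.R257.CLog_68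

open Crest.Agent.R257.Defs_219 Crest.Agent.R257.AJ387 Crest.Agent.R257.T387
open Crest.Agent.R257.BP_258 Crest.Agent.R257.FrmF_547
open Crest.Agent.R257.Gr1_157
open Crest.Agent.R257.FrBP_808

variable {f : (Fin 3 → ℂ) → ℂ} {T : TB f}

/-- the charts of `D.fr` are scaled charts of `T` -/
theorem cr_fr {U : Tub T} {S : Sh T} {L : Lab U S} {nu : II U → ℤ} {n1 n2 : Ch T.m → Fin T.d → ℤ}
    [Fintype (II U)] (D : FrIn L nu n1 n2) : CR T D.fr := by
  intro a
  have hR := S.pos (D.ch a)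
  refine ⟨D.ch a, 2 * S.r (D.ch a), S.r (D.ch a), S.ζ (D.ch a), D.sh a, (D.okK a).1, D.sheetsK a,
    hR, by linarith, fun p => rfl, ?_, fun ht => ?_⟩
  · have h1 := D.e2_ne_iff a
    exact not_iff_not.1 h1
  · obtain ⟨V, hV, hV0, h⟩ := jac_thS D.hf D.jac (D.okK a) (D.sh a)
    have h1 := TB.thS_top hR (D.sheetsK a) (D.okK a).1 (D.sh a) ht hV hV0
      (fun p hp h1 h2 => (h p hp h1 h2).2)
    have h2 : D.fr.nu2 a = m2 n1 n2 (D.ch a) (D.sh a) := rfl
    rw [h2]
    omega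

/-- one Hoermander step, for all data -/
def ExHyp : Prop := ∀ (f : E3 → ℂ) (T : TB f) (hC : Clo T) (S : Sh T)
  (L : Lab (Tb_941.tub T hC) S) (nu : II (Tb_941.tub T hC) → ℤ) (n1 n2 : Ch T.m → Fin T.d → ℤ),
  Iso f → (∀ c, T.Valid c → T.MonoC c (S.r c)) → CovP S →
  ∀ (D : FrIn L nu n1 n2) (hG : Rot1_558.GalPt T), ExAll D hG

theorem frEx_of (h : ExHyp) : FrEx := by
  intro f hf _
  obtain ⟨T, hC⟩ := exists_clo hf
  obtain ⟨S, L, nu, n1, n2, -, hmono, hcov, ⟨D⟩⟩ := exists_E hf hC (fun _ => 1) (fun _ => one_pos)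
  have hG : Rot1_558.GalPt T := Vt1_558.galPt hC
  exact ⟨T, D.fr, hG, bpf_fr D (h f T hC S L nu n1 n2 hf hmono hcov D hG), cr_fr D⟩

/-- **CLogStmt from one Hoermander step** -/
theorem clogStmt_of (h : ExHyp) : CLogStmt := clog_of (frEx_of h)

end Crest.Agent.R257.CLog_68
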