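import Crest.Agent.R257.CLogF_68

/-!
R257 / CLogG_68 (C-LOG, helper68): the germ `q` of a sheet over a leg, and the region near the branch.
-/

set_option autoImplicit false
set_option linter.unusedSectionVars false

open Polynomial Set Filter Topology Metric
open Crest.AlgGeometry.Germ Crest.Agent.R257.AJ387 Crest.Agent.R257.T387
open Crest.Agent.R257.T0_939 (GalPt)
open Crest.Agent.R257.T0_387 (isolated)

noncomputable section

namespace Crest.Agent.R257.CLog_68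

open Crest.Agent.R257.Defs_219
open Crest.Agent.R257.Fr_808 (jc jc_eq jac2 dt0_an)
open Crest.Agent.R257.Det_219 (fderiv_sum)

variable {f : (Fin 3 → ℂ) → ℂ} {T : TB f}

theorem SL_th (c : Ch T.m) (z : ℂ × ℂ → ℂ) (p : ℂ × ℂ) : SL T (T.th c z p) = pm T c p := SL_pt _ _

theorem e0_eq : (pt 1 0 : E3) = Pi.single 0 1 := by
  funext i
  fin_cases i <;> rfl

theorem fderiv_e0 (F : E3 → ℂ) (x : E3) : fderiv ℂ F x (pt 1 0) = coordDeriv F 0 x := by
  rw [e0_eq]; rfl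

/-- `∂f/∂z = v * P'` on a sheet -/
theorem cd_PT {c : Ch T.m} {r : ℝ} {ζ : Fin T.d → ℂ × ℂ → ℂ} (hS : T.Sheets c r ζ) (j : Fin T.d)
    {p : ℂ × ℂ} (hp : p ∈ BD r r) :
    coordDeriv f 0 (T.th c (ζ j) p) =
      T.v ((((T.map c p).1 ^ T.N, (T.map c p).2) : ℂ × ℂ), ζ j p) *
        PT T 1 (T.th c (ζ j) p) := by
  rw [hS.cd0 j hp]
  congr 1
  unfold PT
  rw [SL_th]
  have h1 : T.P (pm T c p) = ∏ j, (X - C (ζ j p)) := hS.split p hp
  rw [h1, Function.iterate_one]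
  exact (eval_deriv_prod (fun j => ζ j p) j).symm

theorem v_ne' {c : Ch T.m} {r : ℝ} {ζ : Fin T.d → ℂ × ℂ → ℂ} (hS : T.Sheets c r ζ) (j : Fin T.d)
    {p : ℂ × ℂ} (hp : p ∈ BD r r) :
    T.v ((((T.map c p).1 ^ T.N, (T.map c p).2) : ℂ × ℂ), ζ j p) ≠ 0 :=
  T.v_ne _ (hS.mem_R hp) _ (hS.norm_lt j hp).le

/-- the derivative along a curve -/
theorem fderiv_curve {γ : ℂ → E3} {s : ℂ} (hγ : DifferentiableAt ℂ γ s) {F : E3 → ℂ}
    (hF : DifferentiableAt ℂ F (γ s)) {G : ℂ → ℂ} {a : ℂ} (hG : HasDerivAt G a s)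
    (h : ∀ᶠ s' in 𝓝 s, F (γ s') = G s') : fderiv ℂ F (γ s) (deriv γ s) = a := by
  have h1 : HasDerivAt (fun s => F (γ s)) (fderiv ℂ F (γ s) (deriv γ s)) s :=
    HasFDerivAt.comp_hasDerivAt (x := s) (f := γ) (l := F) hF.hasFDerivAt hγ.hasDerivAt
  exact h1.unique (hG.congr_of_eventuallyEq h)

/-- `D_red` in the direction `y'` -/
theorem QD_e2 {Dp : ℂ → ℂ[X]} (hD : DpD T Dp) {x : E3}
    (hx : (SL T x).1 ∈ ball (0 : ℂ) (T.ρ ^ T.N₀)) :
    fderiv ℂ (QD T Dp) x (pt 0 (T.A (0, 1))) =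
      (derivative (Dp (SL T x).1)).eval (SL T x).2 := by
  have h1 : DifferentiableAt ℂ (Dl Dp 0) (SL T x) := (Dl_an hD 0 hx).differentiableAt
  rw [QD, pl_fderiv h1, SL_pt]
  refine fderiv_line h1 ?_
  have h2 : (fun t : ℂ => Dl Dp 0 (SL T x + t • ((0 : ℂ), (1 : ℂ)))) =
      fun t : ℂ => (Dp (SL T x).1).eval ((SL T x).2 + t) := by
    funext t
    unfold Dl
    simp
  rw [h2]
  have h3 := (Dp (SL T x).1).hasDerivAt ((SL T x).2 + 0)
  have h4 : HasDerivAt (fun t : ℂ => (SL T x).2 + t) 1 0 :=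
    (hasDerivAt_id (0 : ℂ)).const_add (SL T x).2
  have h5 := HasDerivAt.comp (0 : ℂ) h3 h4
  rw [mul_one, add_zero] at h5
  exact h5

theorem QD_e0 {Dp : ℂ → ℂ[X]} (hD : DpD T Dp) {x : E3}
    (hx : (SL T x).1 ∈ ball (0 : ℂ) (T.ρ ^ T.N₀)) :
    fderiv ℂ (QD T Dp) x (pt 1 0) = 0 := by
  have h1 : DifferentiableAt ℂ (Dl Dp 0) (SL T x) := (Dl_an hD 0 hx).differentiableAt
  rw [QD, pl_fderiv h1, SL_e0, map_zero]

theorem X1_dir (x v : E3) : fderiv ℂ (X1 T) x v = (SL T v).1 := by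
  have h1 : DifferentiableAt ℂ (Prod.fst : ℂ × ℂ → ℂ) (SL T x) := differentiableAt_fst
  rw [X1, pl_fderiv h1, fderiv_fst]
  rfl

/-- the gradient of `f` in the direction `y'` -/
theorem f_e2_ne {x w : E3} (hw : (SL T w).1 ≠ 0) (h0 : fderiv ℂ f x (pt 1 0) = 0)
    (h1 : fderiv ℂ f x w = 0) (hne : ∃ j, coordDeriv f j x ≠ 0) :
    fderiv ℂ f x (pt 0 (T.A (0, 1))) ≠ 0 := by
  intro h2
  obtain ⟨j, hj⟩ := hne
  apply hj
  have key : ∀ v : E3, fderiv ℂ f x v = 0 := by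
    intro v
    set b : ℂ := (SL T v).1 / (SL T w).1 with hb
    set e : ℂ := (SL T v).2 - b * (SL T w).2 with he
    set a : ℂ := v 0 - b * w 0 with ha
    have h3 : v - (a • (pt 1 0 : E3) + b • w + e • (pt 0 (T.A (0, 1)) : E3)) = 0 := by
      refine SL_ker (T := T) ?_ ?_
      · rw [map_sub, map_add, map_add, map_smul, map_smul, map_smul, SL_e0, SL_pt]
        refine Prod.ext ?_ ?_
        · simp only [Prod.fst_sub, Prod.fst_add, Prod.smul_fst, smul_eq_mul, Prod.fst_zero,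
            mul_zero, zero_add, add_zero]
          rw [hb, div_mul_cancel₀ _ hw, sub_self]
        · simp only [Prod.snd_sub, Prod.snd_add, Prod.smul_snd, smul_eq_mul, Prod.snd_zero,
            mul_zero, zero_add, mul_one]
          rw [he]; ring
      · show v 0 - (a * 1 + b * w 0 + e * 0) = 0
        rw [ha]; ring
    rw [sub_eq_zero.1 h3, map_add, map_add, map_smul, map_smul, map_smul, h0, h1, h2]
    simp
  exact key _

/-- **the germ of a sheet over a leg** -/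
theorem legQ (hf : Iso f) {Dp : ℂ → ℂ[X]} (hD : DpD T Dp) {i : Fin T.m} {r : ℝ}
    {ζ : Fin T.d → ℂ × ℂ → ℂ} (hS : T.Sheets (.leg i) r ζ) (j : Fin T.d) :
    ∃ q : E3 → ℂ, AnalyticAt ℂ q 0 ∧ q 0 = 0 ∧
      (∀ᶠ s in 𝓝 (0 : ℂ), q (T.th (.leg i) (ζ j) (s, 0)) = 0) ∧
      ∀ᶠ s in 𝓝[≠] (0 : ℂ), Dt f (X1 T) q (T.th (.leg i) (ζ j) (s, 0)) ≠ 0 := by
  classical
  set c : Ch T.m := .leg i with hcdef
  have hc : T.Valid c := trivial
  have hM := T.M_pos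
  have hN := T.N_pos
  have hr := hS.r_pos
  set γ : ℂ → E3 := fun s => T.th c (ζ j) (s, 0) with hγ
  have hbd : ∀ {s : ℂ}, s ∈ ball (0 : ℂ) r → ((s, (0 : ℂ)) : ℂ × ℂ) ∈ BD r r := by
    intro s hs
    exact ⟨by simpa using hs, by simpa using hr⟩
  have hball : ∀ᶠ s in 𝓝 (0 : ℂ), s ∈ ball (0 : ℂ) r := ball_mem_nhds _ hr
  have hmap : ∀ s : ℂ, T.map c (s, 0) = (s, T.φ i (s ^ T.M)) := by
    intro s
    show ((s, T.φ i (s ^ T.M) + s ^ (T.M * T.top i) * (0 : ℂ) ^ T.M) : ℂ × ℂ) = _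
    rw [zero_pow hM.ne', mul_zero, add_zero]
  have hpm : ∀ s : ℂ, pm T c (s, 0) = (s ^ T.N, T.φ i (s ^ T.M)) := by
    intro s
    rw [pm, hmap]
  have hSLγ : ∀ s : ℂ, SL T (γ s) = (s ^ T.N, T.φ i (s ^ T.M)) := fun s => by
    rw [hγ]; simp only; rw [SL_th, hpm]
  have hγ0 : γ 0 = 0 := (hS.th_zero hc j (hbd (mem_ball_self hr))).2 rfl
  have hγan : ∀ s ∈ ball (0 : ℂ) r, AnalyticAt ℂ γ s := by
    intro s hs
    exact AnalyticAt.comp (g := T.th c (ζ j)) (f := fun s : ℂ => ((s, 0) : ℂ × ℂ))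
      (hS.th_an j (hbd hs)) (analyticAt_id.prod analyticAt_const)
  have hγt : Tendsto γ (𝓝 0) (𝓝 0) := by
    have := (hγan 0 (mem_ball_self hr)).continuousAt.tendsto
    rwa [hγ0] at this
  have hBR : ∀ {s : ℂ}, s ∈ ball (0 : ℂ) r → SL T (γ s) ∈ BD T.R T.R := by
    intro s hs
    have := hS.mem_R (hbd hs)
    rw [hSLγ]
    rw [hmap] at this
    exact this
  have hMρ : ∀ {s : ℂ}, s ∈ ball (0 : ℂ) r → s ^ T.M ∈ ball (0 : ℂ) T.ρ := by
    intro s hs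
    have := (hS.mem _ (hbd hs)).2
    rw [hmap] at this
    rwa [mem_ball_zero_iff, norm_pow]
  have hNρ : ∀ {s : ℂ}, s ∈ ball (0 : ℂ) r → s ^ T.N ∈ ball (0 : ℂ) (T.ρ ^ T.N₀) := by
    intro s hs
    have h1 := hMρ hs
    rw [mem_ball_zero_iff] at h1 ⊢
    rw [TB.N, mul_comm, pow_mul, norm_pow]
    exact pow_lt_pow_left₀ h1 (norm_nonneg _) T.N₀_pos.ne'
  -- the coefficients
  set cc : ℕ → ℂ → ℂ := fun l s => PT T l (γ s) with hcc
  have hcan : ∀ l, AnalyticAt ℂ (cc l) 0 := by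
    intro l
    refine AnalyticAt.comp (g := PT T l) (f := γ) ?_ (hγan 0 (mem_ball_self hr))
    exact PT_an (hBR (mem_ball_self hr))
  have hc0 : ∀ᶠ s in 𝓝 (0 : ℂ), cc 0 s = 0 := by
    filter_upwards [hball] with s hs
    have h1 := hS.root j (hbd hs)
    show (T.P (SL T (γ s))).eval (ζ j (s, 0)) = 0
    rw [hSLγ]
    rw [hmap] at h1
    exact h1
  have hcd : ∀ᶠ s in 𝓝 (0 : ℂ), cc T.d s ≠ 0 := by
    filter_upwards [hball] with s hs
    have h1 := hBR hs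
    show (derivative^[T.d] (T.P (SL T (γ s)))).eval (γ s 0) ≠ 0
    have h2 : derivative^[T.d] (T.P (SL T (γ s))) = C ((T.d.factorial : ℕ) : ℂ) := by
      rw [eq_C_of_natDegree_eq_zero (p := derivative^[T.d] (T.P (SL T (γ s)))) (by
        have := natDegree_iterate_derivative (T.P (SL T (γ s))) T.d
        rw [T.deg _ h1] at this
        omega), coeff_iterate_derivative, zero_add, Nat.descFactorial_self]
      have h3 : (T.P (SL T (γ s))).coeff T.d = 1 := by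
        have := T.monic _ h1
        rw [Monic, leadingCoeff, T.deg _ h1] at this
        exact this
      rw [h3, nsmul_eq_mul, mul_one]
    rw [h2, eval_C]
    exact_mod_cast T.d.factorial_ne_zero
  have hex : ∃ l, ¬ ∀ᶠ s in 𝓝 (0 : ℂ), cc l s = 0 := by
    refine ⟨T.d, fun h => ?_⟩
    obtain ⟨s, h1, h2⟩ := (h.and hcd).exists
    exact h2 h1
  set n := Nat.find hex with hn
  have hn1 : ¬ ∀ᶠ s in 𝓝 (0 : ℂ), cc n s = 0 := Nat.find_spec hex
  have hn2 : ∀ l, l < n → ∀ᶠ s in 𝓝 (0 : ℂ), cc l s = 0 := fun l hl =>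
    not_not.1 (Nat.find_min hex hl)
  have hn0 : n ≠ 0 := fun h => hn1 (by rw [h]; exact hc0)
  have hnd : n ≤ T.d := Nat.find_min' hex fun h => by
    obtain ⟨s, h1, h2⟩ := (h.and hcd).exists
    exact h2 h1
  have hn3 : ∀ᶠ s in 𝓝[≠] (0 : ℂ), cc n s ≠ 0 :=
    (hcan n).eventually_eq_zero_or_eventually_ne_zero.resolve_left hn1
  -- facts near `0`
  have hV : ∀ᶠ s in 𝓝 (0 : ℂ), f (γ s) = 0 := by
    filter_upwards [hball] with s hs using hS.th_V j (hbd hs)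
  have hiso : ∀ᶠ s in 𝓝 (0 : ℂ), (∀ l, coordDeriv f l (γ s) = 0) → γ s = 0 :=
    hγt.eventually (isolated hf.an hf.fin)
  have hfan : ∀ {s : ℂ}, s ∈ ball (0 : ℂ) r → DifferentiableAt ℂ f (γ s) := fun hs =>
    (hS.f_an j (hbd hs)).differentiableAt
  have hX : ∀ s : ℂ, X1 T (γ s) = s ^ T.N := by
    intro s
    show (SL T (γ s)).1 = _
    rw [hSLγ]
  have hdX : ∀ {s : ℂ}, s ∈ ball (0 : ℂ) r → fderiv ℂ (X1 T) (γ s) (deriv γ s) =
      T.N * s ^ (T.N - 1) := by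
    intro s hs
    exact fderiv_curve (hγan s hs).differentiableAt (X1_an T _).differentiableAt
      (hasDerivAt_pow T.N s) (Eventually.of_forall hX)
  have hSLd : ∀ {s : ℂ}, s ∈ ball (0 : ℂ) r → s ≠ 0 → (SL T (deriv γ s)).1 ≠ 0 := by
    intro s hs h0
    rw [← X1_dir (γ s), hdX hs]
    exact mul_ne_zero (by exact_mod_cast hN.ne') (pow_ne_zero _ h0)
  have hdf : ∀ᶠ s in 𝓝 (0 : ℂ), fderiv ℂ f (γ s) (deriv γ s) = 0 := by
    filter_upwards [hV.eventually_nhds, hball] with s h1 h2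
    exact fderiv_curve (G := fun _ => (0 : ℂ)) (hγan s h2).differentiableAt (hfan h2)
      (hasDerivAt_const s (0 : ℂ)) h1
  have hXe0 : ∀ s, fderiv ℂ (X1 T) (γ s) (pt 1 0) = 0 := by
    intro s
    rw [X1_dir, SL_e0]; rfl
  have hXe2 : ∀ s, fderiv ℂ (X1 T) (γ s) (pt 0 (T.A (0, 1))) = 0 := by
    intro s
    rw [X1_dir, SL_pt]
  rcases Nat.lt_or_ge 1 n with h2n | h2n
  · -- `n ≥ 2`
    refine ⟨PT T (n - 1), ?_, PT_zero (by omega), hn2 _ (by omega), ?_⟩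
    · have h1 := PT_an (T := T) (l := n - 1) (hBR (mem_ball_self hr))
      rwa [hγ0] at h1
    · filter_upwards [hn3, self_mem_nhdsWithin, eventually_nhdsWithin_of_eventually_nhds hball,
        eventually_nhdsWithin_of_eventually_nhds hiso, eventually_nhdsWithin_of_eventually_nhds hdf,
        eventually_nhdsWithin_of_eventually_nhds (hn2 1 h2n),
        eventually_nhdsWithin_of_eventually_nhds (hn2 (n - 1) (by omega)).eventually_nhds]
        with s h1 h2 h3 h4 h5 h6 h7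
      have h2' : s ≠ 0 := h2
      have hγne : γ s ≠ 0 := by
        intro h
        have h8 := hX s
        rw [h, X1_zero] at h8
        exact pow_ne_zero _ h2' h8.symm
      have hj : ∃ l, coordDeriv f l (γ s) ≠ 0 := by
        by_contra hcon
        push Not at hcon
        exact hγne (h4 hcon)
      have hfe0 : fderiv ℂ f (γ s) (pt 1 0) = 0 := by
        rw [fderiv_e0]
        have := cd_PT hS j (hbd h3)
        have h8 : PT T 1 (T.th c (ζ j) (s, 0)) = 0 := h6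
        rw [h8, mul_zero] at this
        exact this
      refine Dt_ne (u := pt 1 0) (v := deriv γ s) (w := pt 0 (T.A (0, 1))) h5 (hXe0 s) (hXe2 s)
        ?_ ?_
      · exact fderiv_curve (G := fun _ => (0 : ℂ)) (hγan s h3).differentiableAt
          (PT_an (hBR h3)).differentiableAt (hasDerivAt_const s (0 : ℂ)) h7
      · have h8 : fderiv ℂ (PT T (n - 1)) (γ s) (pt 1 0) = cc n s := by
          have := PT_e0 (T := T) (l := n - 1) (hBR h3)
          rw [Nat.sub_add_cancel (by omega)] at this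
          exact this
        have h9 := f_e2_ne (T := T) (hSLd h3 h2') hfe0 h5 hj
        have h10 : fderiv ℂ f (T.th c (ζ j) (s, 0)) (pt 1 0) = 0 := hfe0
        have h11 : fderiv ℂ (PT T (n - 1)) (T.th c (ζ j) (s, 0)) (pt 1 0) = cc n s := h8
        have h12 : fderiv ℂ (X1 T) (T.th c (ζ j) (s, 0)) (deriv γ s) = T.N * s ^ (T.N - 1) := hdX h3
        rw [h10, h11, h12, zero_mul, zero_sub]
        exact mul_ne_zero (mul_ne_zero (by exact_mod_cast hN.ne') (pow_ne_zero _ h2'))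
          (neg_ne_zero.2 (mul_ne_zero h9 h1))
  · -- `n = 1`
    have hn1' : n = 1 := by omega
    have hQ0 : ∀ s ∈ ball (0 : ℂ) r, QD T Dp (γ s) = 0 := by
      intro s hs
      have h1 := QD_th hD c (ζ j) (p := (s, 0)) (by rw [hmap]; exact hMρ hs)
      rw [hmap] at h1
      show QD T Dp (T.th c (ζ j) (s, 0)) = 0
      rw [h1, RP, eval_prod]
      exact Finset.prod_eq_zero (Finset.mem_univ i) (by simp)
    refine ⟨QD T Dp, pl_an0 T (Dl_an0 hD 0), ?_, ?_, ?_⟩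
    · rw [QD, pl_zero]
      exact Dl_zero hD T.m_pos
    · filter_upwards [hball] with s hs using hQ0 s hs
    · filter_upwards [hn3, self_mem_nhdsWithin, eventually_nhdsWithin_of_eventually_nhds hball,
        eventually_nhdsWithin_of_eventually_nhds hdf,
        eventually_nhdsWithin_of_eventually_nhds hball.eventually_nhds]
        with s h1 h2 h3 h5 h7
      have h2' : s ≠ 0 := h2
      have hNs : (SL T (γ s)).1 ∈ ball (0 : ℂ) (T.ρ ^ T.N₀) := by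
        rw [hSLγ]; exact hNρ h3
      have hQan : DifferentiableAt ℂ (QD T Dp) (γ s) :=
        (pl_an T (Dl_an hD 0 (by exact hNs))).differentiableAt
      refine Dt_ne (u := pt 1 0) (v := deriv γ s) (w := pt 0 (T.A (0, 1))) h5 (hXe0 s) (hXe2 s)
        ?_ ?_
      · refine fderiv_curve (G := fun _ => (0 : ℂ)) (hγan s h3).differentiableAt
          hQan (hasDerivAt_const s (0 : ℂ)) ?_
        filter_upwards [h7] with s' hs' using hQ0 s' hs'
      · have e1 : fderiv ℂ (X1 T) (T.th c (ζ j) (s, 0)) (deriv γ s) = T.N * s ^ (T.N - 1) := hdX h3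
        have e2 : fderiv ℂ (QD T Dp) (T.th c (ζ j) (s, 0)) (pt 1 0) = 0 := QD_e0 hD hNs
        have e3 : fderiv ℂ (QD T Dp) (T.th c (ζ j) (s, 0)) (pt 0 (T.A (0, 1))) =
            ∏ l ∈ Finset.univ.erase i, (T.φ i (s ^ T.M) - T.φ l (s ^ T.M)) := by
          have h8 := QD_e2 hD hNs
          rw [hSLγ] at h8
          have h9 : s ^ T.N = (s ^ T.M) ^ T.N₀ := by rw [← pow_mul, TB.N, mul_comm]
          have h10 : (((s ^ T.N, T.φ i (s ^ T.M)) : ℂ × ℂ)).1 = (s ^ T.M) ^ T.N₀ := h9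
          rw [h10, hD.eq _ (hMρ h3), RP] at h8
          exact h8.trans (eval_deriv_prod (fun l => T.φ l (s ^ T.M)) i)
        have e4 : fderiv ℂ f (T.th c (ζ j) (s, 0)) (pt 1 0) ≠ 0 := by
          rw [fderiv_e0, cd_PT hS j (hbd h3)]
          refine mul_ne_zero (v_ne' hS j (hbd h3)) ?_
          rw [hn1'] at h1
          exact h1
        have e5 : ∏ l ∈ Finset.univ.erase i, (T.φ i (s ^ T.M) - T.φ l (s ^ T.M)) ≠ 0 := by
          refine Finset.prod_ne_zero_iff.2 fun l hl => ?_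
          have hne : i ≠ l := (Finset.ne_of_mem_erase hl).symm
          rw [T.φ_sub i l hne _ (hMρ h3)]
          exact mul_ne_zero (pow_ne_zero _ (pow_ne_zero _ h2')) (T.u_ne i l hne _ (hMρ h3))
        rw [e1, e2, e3, mul_zero, sub_zero]
        exact mul_ne_zero (mul_ne_zero (by exact_mod_cast hN.ne') (pow_ne_zero _ h2'))
          (mul_ne_zero e4 e5)

/-- Lipschitz bound in the second variable -/
theorem lipS {G : ℂ × ℂ → ℂ} (hG : AnalyticAt ℂ G 0) : ∃ C : ℝ, 0 ≤ C ∧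
    ∀ᶠ p in 𝓝 (0 : ℂ × ℂ), ‖G p - G (p.1, 0)‖ ≤ C * ‖p.2‖ := by
  obtain ⟨K, t, ht, hK⟩ := (hG.contDiffAt (n := 1)).exists_lipschitzOnWith
  refine ⟨K, K.2, ?_⟩
  have h1 : Tendsto (fun p : ℂ × ℂ => ((p.1, 0) : ℂ × ℂ)) (𝓝 0) (𝓝 0) := by
    have h2 : Continuous fun p : ℂ × ℂ => ((p.1, 0) : ℂ × ℂ) := by fun_prop
    exact h2.tendsto 0
  filter_upwards [ht, h1.eventually ht] with p h2 h3
  have h4 := hK.dist_le_mul p h2 (p.1, 0) h3
  rw [dist_eq_norm] at h4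
  refine h4.trans (le_of_eq ?_)
  rw [dist_eq_norm]
  congr 1
  rw [Prod.norm_def]
  simp

/-- **legs**, `‖ω‖ ≤ ‖s‖ ^ L` -/
theorem legI (hf : Iso f) {i : Fin T.m} {r : ℝ}
    {ζ : Fin T.d → ℂ × ℂ → ℂ} (hS : T.Sheets (.leg i) r ζ) (j : Fin T.d) {q : E3 → ℂ}
    (hq : AnalyticAt ℂ q 0)
    (hq1 : ∀ᶠ s in 𝓝 (0 : ℂ), q (T.th (.leg i) (ζ j) (s, 0)) = 0)
    (hq2 : ∀ᶠ s in 𝓝[≠] (0 : ℂ), Dt f (X1 T) q (T.th (.leg i) (ζ j) (s, 0)) ≠ 0) (E : ℕ) :
    ∃ (M₁ Lx : ℕ) (κ : ℝ), 0 < M₁ ∧ 0 < κ ∧ ∀ᶠ p in 𝓝 (0 : ℂ × ℂ), p.1 ≠ 0 →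
      ‖p.2‖ ≤ ‖p.1‖ ^ Lx →
      κ ≤ (‖Dt f (X1 T) q (T.th (.leg i) (ζ j) p)‖ * ‖p.1‖ ^ E) ^ 2 /
        (WT T T.N₀ (X1 T) (T.th (.leg i) (ζ j) p) * WT T M₁ q (T.th (.leg i) (ζ j) p)) := by
  set c : Ch T.m := .leg i with hcdef
  have hc : T.Valid c := trivial
  have hM := T.M_pos
  have hN := T.N_pos
  have hN₀ := T.N₀_pos
  have hr := hS.r_pos
  have h00 : (0 : ℂ × ℂ) ∈ BD r r := hS.zero_mem
  have hth := hS.th_an j h00
  have hth0 : T.th c (ζ j) 0 = 0 := (hS.th_zero hc j h00).2 rfl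
  -- the two functions
  have hF : AnalyticAt ℂ (fun p => Dt f (X1 T) q (T.th c (ζ j) p)) 0 := by
    refine AnalyticAt.comp (g := Dt f (X1 T) q) (f := T.th c (ζ j)) ?_ hth
    rw [hth0]
    exact dt0_an hf.an (X1_an T 0) hq
  have hG : AnalyticAt ℂ (fun p => q (T.th c (ζ j) p)) 0 := by
    refine AnalyticAt.comp (g := q) (f := T.th c (ζ j)) ?_ hth
    rwa [hth0]
  obtain ⟨CF, hCF, hFl⟩ := lipS hF
  obtain ⟨CG, hCG, hGl⟩ := lipS hG
  -- the order on the branch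
  have hF1 : AnalyticAt ℂ (fun s : ℂ => Dt f (X1 T) q (T.th c (ζ j) (s, 0))) 0 :=
    AnalyticAt.comp (g := fun p => Dt f (X1 T) q (T.th c (ζ j) p))
      (f := fun s : ℂ => ((s, 0) : ℂ × ℂ)) hF (analyticAt_id.prod analyticAt_const)
  obtain ⟨n, g, hg, hg0, hgn⟩ := hF1.exists_eventuallyEq_pow_smul_nonzero_iff.2 (by
    intro h
    obtain ⟨s, h1, h2⟩ := ((eventually_nhdsWithin_of_eventually_nhds h).and hq2).exists
    exact h2 h1)
  have hgl : ∀ᶠ s in 𝓝 (0 : ℂ), ‖g 0‖ / 2 ≤ ‖g s‖ := by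
    have h1 := norm_pos_iff.2 hg0
    exact (continuousAt_const.eventually_lt hg.continuousAt.norm (by linarith)).mono
      fun p hp => hp.le
  have hfst : Tendsto (fun p : ℂ × ℂ => p.1) (𝓝 0) (𝓝 0) := continuous_fst.tendsto 0
  obtain ⟨hX, C, hC, hY⟩ := leg_vals (T := T) (i := i) (ζ j)
  set κ₀ : ℝ := ‖g 0‖ / 2 with hκ₀
  have hκ₀p : 0 < κ₀ := by positivity
  set M₁ := n + E + 1 with hM₁
  set Lx := n + 1 + T.M * M₁ with hLx
  have hsm : ∀ᶠ p in 𝓝 (0 : ℂ × ℂ), CF * ‖p.1‖ ≤ κ₀ / 2 := by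
    have h1 : ContinuousAt (fun p : ℂ × ℂ => CF * ‖p.1‖) 0 := by fun_prop
    exact (h1.eventually_lt continuousAt_const (by simpa using by positivity)).mono
      fun p hp => hp.le
  refine ⟨M₁, Lx, (κ₀ / 2) ^ 2 / ((1 ^ 2 + 1 ^ 2 + (C ^ T.N₀) ^ 2) * (CG ^ 2 + 1 ^ 2 + (C ^ M₁) ^ 2)),
    by omega, by positivity, ?_⟩
  filter_upwards [hFl, hGl, hfst.eventually hgn, hfst.eventually hgl, hY, hsm, small1,
    hfst.eventually hq1] with p h1 h2 h3 h4 h5 h6 h7 h8 hp1 hreg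
  have hn1 : 0 < ‖p.1‖ := norm_pos_iff.2 hp1
  have hXne : X1 T (T.th c (ζ j) p) ≠ 0 := by
    rw [hX]; exact pow_ne_zero _ hp1
  have hFlow : κ₀ / 2 * ‖p.1‖ ^ n ≤ ‖Dt f (X1 T) q (T.th c (ζ j) p)‖ := by
    have e1 : κ₀ * ‖p.1‖ ^ n ≤ ‖Dt f (X1 T) q (T.th c (ζ j) (p.1, 0))‖ := by
      rw [h3, sub_zero, smul_eq_mul, norm_mul, norm_pow, mul_comm]
      exact mul_le_mul_of_nonneg_left h4 (by positivity)
    have e2 : CF * ‖p.2‖ ≤ κ₀ / 2 * ‖p.1‖ ^ n := by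
      calc CF * ‖p.2‖ ≤ CF * ‖p.1‖ ^ Lx := mul_le_mul_of_nonneg_left hreg hCF
        _ ≤ CF * ‖p.1‖ ^ (n + 1) := mul_le_mul_of_nonneg_left
            (pow_le_pow_of_le_one hn1.le h7.1 (by omega)) hCF
        _ = (CF * ‖p.1‖) * ‖p.1‖ ^ n := by ring
        _ ≤ _ := mul_le_mul_of_nonneg_right h6 (by positivity)
    have e3 : ‖Dt f (X1 T) q (T.th c (ζ j) (p.1, 0))‖ ≤
        ‖Dt f (X1 T) q (T.th c (ζ j) p)‖ + CF * ‖p.2‖ := by
      have e4 : Dt f (X1 T) q (T.th c (ζ j) (p.1, 0)) = Dt f (X1 T) q (T.th c (ζ j) p) -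
          (Dt f (X1 T) q (T.th c (ζ j) p) - Dt f (X1 T) q (T.th c (ζ j) (p.1, 0))) := by ring
      calc _ = ‖Dt f (X1 T) q (T.th c (ζ j) p) -
          (Dt f (X1 T) q (T.th c (ζ j) p) - Dt f (X1 T) q (T.th c (ζ j) (p.1, 0)))‖ := by
            rw [← e4]
        _ ≤ _ := (norm_sub_le _ _).trans (add_le_add le_rfl h1)
    nlinarith [e1, e2, e3]
  refine quot_ge (t := ‖p.1‖ ^ T.N) (t' := ‖p.1‖ ^ (T.M * M₁)) (by positivity)
    (by positivity) (by positivity) ?_ (WT_pos (Or.inl hXne)) (WT_pos (Or.inl hXne))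
    (by positivity) (by positivity) (WT_le ?_ ?_ ?_) (WT_le ?_ ?_ ?_)
  · calc κ₀ / 2 * (‖p.1‖ ^ T.N * ‖p.1‖ ^ (T.M * M₁)) = κ₀ / 2 * ‖p.1‖ ^ (T.N + T.M * M₁) := by
          rw [pow_add]
      _ ≤ κ₀ / 2 * ‖p.1‖ ^ (n + E) := by
          refine mul_le_mul_of_nonneg_left (pow_le_pow_of_le_one hn1.le h7.1 ?_) (by positivity)
          have : M₁ ≤ T.M * M₁ := Nat.le_mul_of_pos_left _ hM
          omega
      _ = κ₀ / 2 * ‖p.1‖ ^ n * ‖p.1‖ ^ E := by rw [pow_add]; ring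
      _ ≤ _ := mul_le_mul_of_nonneg_right hFlow (by positivity)
  · rw [hX, norm_pow, one_mul]
  · rw [hX, norm_pow, one_mul]
    calc (‖p.1‖ ^ T.N) ^ T.N₀ ≤ (‖p.1‖ ^ T.N) ^ 1 :=
          pow_le_pow_of_le_one (by positivity) (pow_le_one₀ (by positivity) h7.1) hN₀
      _ = _ := pow_one _
  · calc ‖Y1 T (T.th c (ζ j) p)‖ ^ T.N₀ ≤ (C * ‖p.1‖ ^ T.M) ^ T.N₀ :=
          pow_le_pow_left₀ (norm_nonneg _) h5 _
      _ = C ^ T.N₀ * ‖p.1‖ ^ T.N := by rw [mul_pow, ← pow_mul, TB.N, mul_comm T.M]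
  · rw [h8, sub_zero] at h2
    refine h2.trans (mul_le_mul_of_nonneg_left (hreg.trans ?_) hCG)
    exact pow_le_pow_of_le_one hn1.le h7.1 (by omega)
  · rw [hX, norm_pow, one_mul, ← pow_mul]
    have e1 : T.M * M₁ ≤ T.N * M₁ := by
      rw [TB.N]
      exact Nat.mul_le_mul_right _ (Nat.le_mul_of_pos_left _ hN₀)
    exact pow_le_pow_of_le_one hn1.le h7.1 e1
  · calc ‖Y1 T (T.th c (ζ j) p)‖ ^ M₁ ≤ (C * ‖p.1‖ ^ T.M) ^ M₁ :=
          pow_le_pow_left₀ (norm_nonneg _) h5 _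
      _ = _ := by rw [mul_pow, ← pow_mul]

end Crest.Agent.R257.CLog_68
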