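import Crest.Agent.R257.CLogG_68
import Crest.Agent.R257.Fr10_808
import Crest.Agent.R257.T9_387

/-!
R257 / CLogH_68 (C-LOG, helper68): from the charts of `T` to the charts of a frame.

* `CR T F`  : the charts of `F` are scaled charts of `T`;
* `Bm F c`  : `‖p.1‖ ^ (2 nu) * ‖p.2‖ ^ (2 nu')`;
* `bridge`  : Jacobians in the charts of `T` against `Dt` in the charts of `F`;
* `concl`   : from a bound for the Jacobian to a bound for `Tm`.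
-/

set_option autoImplicit false
set_option linter.unusedSectionVars false

open Polynomial Set Filter Topology Metric
open Crest.AlgGeometry.Germ Crest.Agent.R257.AJ387 Crest.Agent.R257.T387

noncomputable section

namespace Crest.Agent.R257.CLog_68

open Crest.Agent.R257.Defs_219
open Crest.Agent.R257.Fr_808 (jc jc_eq jac2 dt0_an Frame)

variable {f : (Fin 3 → ℂ) → ℂ} {T : TB f}

/-- the charts of the frame are scaled charts of `T` -/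
def CR (T : TB f) (F : Frame f) : Prop := ∀ c : F.K, ∃ (c' : Ch T.m) (r R : ℝ)
  (ζ : Fin T.d → ℂ × ℂ → ℂ) (j : Fin T.d), T.Valid c' ∧ T.Sheets c' r ζ ∧ 0 < R ∧ R < r ∧
    (∀ p, F.th c p = T.thS c' R (ζ j) p) ∧ (F.e2 c = none ↔ T.NE c') ∧
    (T.IsTop c' → F.nu2 c ≤ -(T.N : ℤ))

theorem CR.of_com {ρ : Ch T.m → ℝ} {F : Frame f} (h : Com T ρ F) : CR T F := by
  intro c
  obtain ⟨c', r, r', ζ, j, hc, hS, h1, h2, -, h4⟩ := h c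
  refine ⟨c', r, r', ζ, j, hc, hS, h1, h2, ?_⟩
  cases c' with
  | edge i k k' =>
    cases k with
    | zero =>
      obtain ⟨h5, h6, h7⟩ := h4
      refine ⟨fun p => ?_, ⟨fun _ => rfl, fun _ => h5⟩, fun _ => h6⟩
      rw [h7, TB.thS, TB.sg, if_pos (show T.IsTop (.edge i 0 k') from rfl)]
    | succ k =>
      obtain ⟨h5, h6⟩ := h4
      refine ⟨fun p => ?_, ⟨fun h => absurd h h5, fun h => absurd h (Nat.succ_ne_zero k)⟩,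
        fun h => absurd h (Nat.succ_ne_zero k)⟩
      rw [h6, TB.thS, TB.sg, if_neg (show ¬ T.IsTop (.edge i (k + 1) k') from Nat.succ_ne_zero k)]
  | leg i =>
    obtain ⟨h5, h6⟩ := h4
    refine ⟨fun p => ?_, ⟨fun _ => trivial, fun _ => h5⟩, fun h => absurd h (by simp [TB.IsTop])⟩
    rw [h6, TB.thS, TB.sg, if_neg (by simp [TB.IsTop])]
  | vert i k w₀ =>
    obtain ⟨h5, h6⟩ := h4
    refine ⟨fun p => ?_, ⟨fun _ => trivial, fun _ => h5⟩, fun h => absurd h (by simp [TB.IsTop])⟩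
    rw [h6, TB.thS, TB.sg, if_neg (by simp [TB.IsTop])]

/-- `‖p.1‖ ^ (2 nu) * ‖p.2‖ ^ (2 nu')` -/
def Bm (F : Frame f) (c : F.K) (p : ℂ × ℂ) : ℝ :=
  ‖p.1‖ ^ (2 * F.nu (F.e1 c)) * (if F.e2 c = none then 1 else ‖p.2‖ ^ (2 * F.nu2 c))

theorem Bm_pos (F : Frame f) (c : F.K) {p : ℂ × ℂ} (h1 : p.1 ≠ 0) (h2 : p.2 ≠ 0) :
    0 < Bm F c p := by
  have e1 := norm_pos_iff.2 h1
  have e2 := norm_pos_iff.2 h2
  unfold Bm
  split_ifs <;> positivity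

/-- good members of a list -/
def Good (a : ℕ × (E3 → ℂ)) : Prop := 0 < a.1 ∧ AnalyticAt ℂ a.2 0 ∧ a.2 0 = 0

/-- the local statement -/
def LocB (T : TB f) (F : Frame f) (c : F.K) (p₀ : ℂ × ℂ) : Prop :=
  ∃ S : Set (ℕ × (E3 → ℂ)), S.Finite ∧ (∀ a ∈ S, Good a) ∧ ∃ κ : ℝ, 0 < κ ∧
    ∀ᶠ p in 𝓝 p₀, p.1 ≠ 0 → p.2 ≠ 0 → ∃ a ∈ S, ∃ b ∈ S,
      κ * Bm F c p ≤ Tm T a.1 a.2 b.1 b.2 (F.th c p)

/-- Jacobians in the charts of `T` against `Dt` in the charts of `F` -/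
theorem bridge (hf : Iso f) (F : Frame f) {c : F.K} {p₀ : ℂ × ℂ} (hp₀ : p₀ ∈ F.SF c)
    {c' : Ch T.m} {r R : ℝ} {ζ : Fin T.d → ℂ × ℂ → ℂ} (hS : T.Sheets c' r ζ) (hR : 0 < R)
    (hRr : R < r) (j : Fin T.d) (hth : ∀ p, F.th c p = T.thS c' R (ζ j) p) {Q Q' : E3 → ℂ}
    (hQ : AnalyticAt ℂ Q 0) (hQ' : AnalyticAt ℂ Q' 0) :
    ∃ C : ℝ, 0 < C ∧ ∀ᶠ p in 𝓝 p₀, p.1 ≠ 0 → p.2 ≠ 0 →
      ‖jc (fun p => Q (T.th c' (ζ j) p)) (fun p => Q' (T.th c' (ζ j) p)) (T.sg c' R p)‖ ≤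
        C * (‖Dt f Q Q' (F.th c p)‖ *
          (‖p.1‖ ^ (-F.nu (F.e1 c) - 1) * ‖p.2‖ ^ (-F.nu2 c - 1))) := by
  obtain ⟨U, hU, -, hjac⟩ := F.jac c p₀ hp₀
  obtain ⟨C, hC, hUb⟩ := bd_near hU.continuousAt
  have hR' : (R : ℂ) ≠ 0 := by exact_mod_cast hR.ne'
  have hsgc : Continuous (T.sg c' R) := by
    have : T.sg c' R = fun p => T.sgL c' R p := by
      funext p; rw [TB.sgL_apply]
    rw [this]
    exact (T.sgL c' R).continuous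
  -- a slightly larger bidisc
  have hbd : ∀ᶠ p in 𝓝 p₀, T.sg c' R p ∈ BD r r := by
    have h1 : ∀ᶠ p in 𝓝 p₀, p ∈ BD (r / R) (r / R) := by
      refine (isOpen_BD _ _).mem_nhds ?_
      have h2 : 1 < r / R := by rw [one_lt_div hR]; exact hRr
      exact ⟨lt_of_le_of_lt hp₀.1.1 h2, lt_of_le_of_lt hp₀.1.2 h2⟩
    filter_upwards [h1] with p hp
    have h3 := T.sg_mem c' hR hp
    rwa [mul_div_cancel₀ r hR.ne'] at h3
  refine ⟨(R ^ 2)⁻¹ * (C + 1), by positivity, ?_⟩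
  filter_upwards [hjac, hUb, hbd, F.an_near hf.an hQ hp₀, F.an_near hf.an hQ' hp₀]
    with p h1 h2 h3 h4 h5 hp1 hp2
  obtain ⟨h6, h7⟩ := h1 hp1 hp2
  set q := T.sg c' R p with hq
  have hθ := hS.th_an j h3
  have e1 : F.th c p = T.th c' (ζ j) q := hth p
  have e2 : jac2 (F.th c) p = (if T.IsTop c' then -(R : ℂ) ^ 2 else (R : ℂ) ^ 2) *
      jac2 (T.th c' (ζ j)) q := by
    have h8 : F.th c = fun p => T.th c' (ζ j) (T.sg c' R p) := funext hth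
    rw [h8]
    exact T.jac2_sg c' R hθ.differentiableAt
  have e3 := jc_eq (f := f) (g := Q) (h := Q') (θ := T.th c' (ζ j)) (p := q) hθ.differentiableAt
    (hS.f_an j h3).differentiableAt (by rw [← e1]; exact h4.2.2.differentiableAt)
    (by rw [← e1]; exact h5.2.2.differentiableAt) (by
      filter_upwards [(isOpen_BD r r).mem_nhds h3] with p' hp' using hS.th_V j hp')
  rw [← e1] at e3
  set J := jc (fun p => Q (T.th c' (ζ j) p)) (fun p => Q' (T.th c' (ζ j) p)) q with hJ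
  set ε : ℂ := if T.IsTop c' then -(R : ℂ) ^ 2 else (R : ℂ) ^ 2 with hε
  have hεn : ‖ε‖ = R ^ 2 := by
    rw [hε]
    split_ifs
    · rw [norm_neg, norm_pow, Complex.norm_real, Real.norm_of_nonneg hR.le]
    · rw [norm_pow, Complex.norm_real, Real.norm_of_nonneg hR.le]
  have e4 : ε * J = Dt f Q Q' (F.th c p) *
      (p.1 ^ (-F.nu (F.e1 c) - 1) * p.2 ^ (-F.nu2 c - 1) * U p) := by
    apply mul_left_cancel₀ h6
    have e5 : coordDeriv f 0 (F.th c p) * (ε * J) = Dt f Q Q' (F.th c p) * jac2 (F.th c) p := by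
      rw [e2]
      linear_combination ε * e3
    rw [e5, h7]
    ring
  have e6 : R ^ 2 * ‖J‖ = ‖Dt f Q Q' (F.th c p)‖ *
      (‖p.1‖ ^ (-F.nu (F.e1 c) - 1) * ‖p.2‖ ^ (-F.nu2 c - 1) * ‖U p‖) := by
    rw [← hεn, ← norm_mul, e4, norm_mul, norm_mul, norm_mul, norm_zpow, norm_zpow]
  have hR2 : 0 < R ^ 2 := by positivity
  have e7 : ‖J‖ = (R ^ 2)⁻¹ * (‖Dt f Q Q' (F.th c p)‖ *
      (‖p.1‖ ^ (-F.nu (F.e1 c) - 1) * ‖p.2‖ ^ (-F.nu2 c - 1) * ‖U p‖)) := by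
    rw [← e6, ← mul_assoc, inv_mul_cancel₀ hR2.ne', one_mul]
  have hX : 0 ≤ ‖Dt f Q Q' (F.th c p)‖ *
      (‖p.1‖ ^ (-F.nu (F.e1 c) - 1) * ‖p.2‖ ^ (-F.nu2 c - 1)) := by positivity
  have e8 : ‖Dt f Q Q' (F.th c p)‖ *
        (‖p.1‖ ^ (-F.nu (F.e1 c) - 1) * ‖p.2‖ ^ (-F.nu2 c - 1) * ‖U p‖) ≤
      (C + 1) * (‖Dt f Q Q' (F.th c p)‖ *
        (‖p.1‖ ^ (-F.nu (F.e1 c) - 1) * ‖p.2‖ ^ (-F.nu2 c - 1))) := by
    calc _ = ‖U p‖ * (‖Dt f Q Q' (F.th c p)‖ *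
          (‖p.1‖ ^ (-F.nu (F.e1 c) - 1) * ‖p.2‖ ^ (-F.nu2 c - 1))) := by ring
      _ ≤ _ := mul_le_mul_of_nonneg_right (by linarith) hX
  calc ‖J‖ = _ := e7
    _ ≤ (R ^ 2)⁻¹ * ((C + 1) * (‖Dt f Q Q' (F.th c p)‖ *
          (‖p.1‖ ^ (-F.nu (F.e1 c) - 1) * ‖p.2‖ ^ (-F.nu2 c - 1)))) :=
        mul_le_mul_of_nonneg_left e8 (inv_nonneg.2 hR2.le)
    _ = _ := by ring

/-- from a bound for the Jacobian to a bound for `Tm` -/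
theorem concl (hf : Iso f) (F : Frame f) {c : F.K} {p₀ : ℂ × ℂ} (hp₀ : p₀ ∈ F.SF c)
    {c' : Ch T.m} {r R : ℝ} {ζ : Fin T.d → ℂ × ℂ → ℂ} (hS : T.Sheets c' r ζ) (hR : 0 < R)
    (hRr : R < r) (j : Fin T.d) (hth : ∀ p, F.th c p = T.thS c' R (ζ j) p) {Q Q' : E3 → ℂ}
    (hQ : AnalyticAt ℂ Q 0) (hQ' : AnalyticAt ℂ Q' 0) {M₁ M₂ : ℕ} {κ C' : ℝ} (hκ : 0 < κ)
    {Rg : ℂ × ℂ → Prop} {V S : ℂ × ℂ → ℝ} (hV : ∀ p : ℂ × ℂ, p.1 ≠ 0 → p.2 ≠ 0 → 0 < V p)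
    (hS0 : ∀ p, 0 ≤ S p)
    (h1 : ∀ᶠ p in 𝓝 p₀, p.1 ≠ 0 → p.2 ≠ 0 → Rg p → κ * V p ≤
      (‖jc (fun p => Q (T.th c' (ζ j) p)) (fun p => Q' (T.th c' (ζ j) p)) (T.sg c' R p)‖ * S p) ^ 2 /
        (WT T M₁ Q (F.th c p) * WT T M₂ Q' (F.th c p)))
    (h2 : ∀ᶠ p in 𝓝 p₀, p.1 ≠ 0 → p.2 ≠ 0 →
      (‖p.1‖ ^ (-F.nu (F.e1 c) - 1) * ‖p.2‖ ^ (-F.nu2 c - 1) * S p) ^ 2 * Bm F c p ≤ C' * V p) :
    ∃ κ' : ℝ, 0 < κ' ∧ ∀ᶠ p in 𝓝 p₀, p.1 ≠ 0 → p.2 ≠ 0 → Rg p →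
      κ' * Bm F c p ≤ Tm T M₁ Q M₂ Q' (F.th c p) := by
  obtain ⟨C, hC, hb⟩ := bridge hf F hp₀ hS hR hRr j hth hQ hQ'
  set D : ℝ := max C' 1 with hD
  have hD0 : 0 < D := lt_of_lt_of_le one_pos (le_max_right _ _)
  refine ⟨κ / (C ^ 2 * D), by positivity, ?_⟩
  filter_upwards [h1, h2, hb] with p g1 g2 g3 hp1 hp2 hRg
  have k1 := g1 hp1 hp2 hRg
  have k2 := g2 hp1 hp2
  have k3 := g3 hp1 hp2
  have hVp := hV p hp1 hp2
  have hBp := Bm_pos F c hp1 hp2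
  have hSp := hS0 p
  set J := ‖jc (fun p => Q (T.th c' (ζ j) p)) (fun p => Q' (T.th c' (ζ j) p)) (T.sg c' R p)‖ with hJ
  set dt := ‖Dt f Q Q' (F.th c p)‖ with hdt
  set X := ‖p.1‖ ^ (-F.nu (F.e1 c) - 1) * ‖p.2‖ ^ (-F.nu2 c - 1) with hX
  set W := WT T M₁ Q (F.th c p) * WT T M₂ Q' (F.th c p) with hW
  have hW0 : 0 ≤ W := mul_nonneg (WT_nonneg _ _ _) (WT_nonneg _ _ _)
  have hX0 : 0 ≤ X := by positivity
  have k4 : (J * S p) ^ 2 ≤ (C * (dt * X) * S p) ^ 2 :=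
    pow_le_pow_left₀ (by positivity) (mul_le_mul_of_nonneg_right k3 hSp) 2
  have k5 : κ * V p ≤ C ^ 2 * (X * S p) ^ 2 * (dt ^ 2 / W) := by
    refine k1.trans ((div_le_div_of_nonneg_right k4 hW0).trans (le_of_eq ?_))
    ring
  have k6 : κ * V p * Bm F c p ≤ C ^ 2 * D * (dt ^ 2 / W) * V p := by
    have hT : 0 ≤ dt ^ 2 / W := by positivity
    calc κ * V p * Bm F c p ≤ C ^ 2 * (X * S p) ^ 2 * (dt ^ 2 / W) * Bm F c p :=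
          mul_le_mul_of_nonneg_right k5 hBp.le
      _ = C ^ 2 * (dt ^ 2 / W) * ((X * S p) ^ 2 * Bm F c p) := by ring
      _ ≤ C ^ 2 * (dt ^ 2 / W) * (C' * V p) := mul_le_mul_of_nonneg_left k2 (by positivity)
      _ ≤ C ^ 2 * (dt ^ 2 / W) * (D * V p) := by
          refine mul_le_mul_of_nonneg_left (mul_le_mul_of_nonneg_right (le_max_left _ _) hVp.le)
            (by positivity)
      _ = _ := by ring
  have k7 : κ * Bm F c p ≤ C ^ 2 * D * (dt ^ 2 / W) := by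
    refine le_of_mul_le_mul_right (a := V p) ?_ hVp
    calc κ * Bm F c p * V p = κ * V p * Bm F c p := by ring
      _ ≤ _ := k6
  have k8 : Tm T M₁ Q M₂ Q' (F.th c p) = dt ^ 2 / W := rfl
  rw [k8, div_mul_eq_mul_div, div_le_iff₀ (by positivity)]
  calc κ * Bm F c p ≤ C ^ 2 * D * (dt ^ 2 / W) := k7
    _ = _ := by ring

end Crest.Agent.R257.CLog_68
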