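import Crest.Agent.R257.CLogH_68

/-!
R257 / CLogI_68 (C-LOG, helper68): the local statement at every point of the special fibre of a
frame whose charts are scaled charts of `T`.
-/

set_option autoImplicit false
set_option linter.unusedSectionVars false

open Polynomial Set Filter Topology Metric
open Crest.AlgGeometry.Germ Crest.Agent.R257.AJ387 Crest.Agent.R257.T387

noncomputable section

namespace Crest.Agent.R257.CLog_68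

open Crest.Agent.R257.Defs_219
open Crest.Agent.R257.Fr_808 (jc jc_eq jac2 dt0_an Frame)

variable {f : (Fin 3 → ℂ) → ℂ} {T : TB f}

/-! ### exponents -/

theorem z0 {a : ℝ} (ha : 0 < a) (n : ℤ) : a ^ (-n - 1) * a = a ^ (-n) := by
  have h1 : -n = -n - 1 + 1 := by ring
  conv_rhs => rw [h1, zpow_add_one₀ ha.ne']

theorem z1 {a : ℝ} (ha : 0 < a) (n : ℤ) : (a ^ (-n - 1) * a) ^ 2 * a ^ (2 * n) = 1 := by
  rw [z0 ha, ← zpow_natCast, ← zpow_mul, ← zpow_add₀ ha.ne']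
  have : -n * ((2 : ℕ) : ℤ) + 2 * n = 0 := by push_cast; ring
  rw [this, zpow_zero]

theorem zb {b C : ℝ} (hb : 0 ≤ b) (hbC : b ≤ C) {n : ℤ} (hn : 0 ≤ n) : b ^ n ≤ C ^ n := by
  obtain ⟨m, rfl⟩ := Int.eq_ofNat_of_zero_le hn
  rw [zpow_natCast, zpow_natCast]
  exact pow_le_pow_left₀ hb hbC m

/-! ### members -/

theorem good_X1 (T : TB f) : Good (T.N₀, X1 T) := ⟨T.N₀_pos, X1_an T 0, X1_zero T⟩

theorem card_Ai_le (i : Fin T.m) (k : ℕ) : (Ai T i k).card ≤ T.m := by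
  have := Finset.card_le_univ (Ai T i k)
  rwa [Fintype.card_fin] at this

theorem QA_good {Dp : ℂ → ℂ[X]} (hD : DpD T Dp) {i : Fin T.m} {k : ℕ} (hk : 0 < k) :
    Good (eA T i k, QA T Dp i k) := by
  refine ⟨hk.trans_le (le_eA i k), pl_an0 T (Dl_an0 hD _), ?_⟩
  have h1 := card_Ai_le i k
  have h2 := card_Ai_pos T i k
  show pl T (Dl Dp _) 0 = 0
  rw [pl_zero]
  exact Dl_zero hD (by omega)

theorem QD_good {Dp : ℂ → ℂ[X]} (hD : DpD T Dp) {M' : ℕ} (hM : 0 < M') :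
    Good (M', QD T Dp) := by
  refine ⟨hM, pl_an0 T (Dl_an0 hD _), ?_⟩
  show pl T (Dl Dp _) 0 = 0
  rw [pl_zero]
  exact Dl_zero hD T.m_pos

/-- two members suffice -/
theorem LocB.of_pair {F : Frame f} {c : F.K} {p₀ : ℂ × ℂ} {M₁ M₂ : ℕ} {Q Q' : E3 → ℂ}
    (h1 : Good (M₁, Q)) (h2 : Good (M₂, Q')) {κ : ℝ} (hκ : 0 < κ)
    (h : ∀ᶠ p in 𝓝 p₀, p.1 ≠ 0 → p.2 ≠ 0 → κ * Bm F c p ≤ Tm T M₁ Q M₂ Q' (F.th c p)) :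
    LocB T F c p₀ := by
  refine ⟨{(M₁, Q), (M₂, Q')}, (Set.finite_singleton _).insert _, ?_, κ, hκ, ?_⟩
  · rintro a (rfl | ha)
    · exact h1
    · rw [mem_singleton_iff.1 ha]; exact h2
  · filter_upwards [h] with p hp h3 h4
    exact ⟨_, Or.inl rfl, _, Or.inr rfl, hp h3 h4⟩

section charts

variable {F : Frame f} {c : F.K} {p₀ : ℂ × ℂ} {c' : Ch T.m} {r R : ℝ}
  {ζ : Fin T.d → ℂ × ℂ → ℂ} {j : Fin T.d}

theorem sg_cont (c' : Ch T.m) (R : ℝ) : Continuous (T.sg c' R) := by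
  have : T.sg c' R = fun p => T.sgL c' R p := by
    funext p; rw [TB.sgL_apply]
  rw [this]
  exact (T.sgL c' R).continuous

/-- the local statement from `locA` -/
theorem LocB.of_A (hf : Iso f) (hp₀ : p₀ ∈ F.SF c) (hS : T.Sheets c' r ζ) (hR : 0 < R)
    (hRr : R < r) (hth : ∀ p, F.th c p = T.thS c' R (ζ j) p) {Dp : ℂ → ℂ[X]} (hD : DpD T Dp)
    {i : Fin T.m} {k : ℕ} (hk : 0 < k) {σ W : ℂ × ℂ → ℂ} (hσ : AnalyticAt ℂ σ (T.sg c' R p₀))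
    (hW : AnalyticAt ℂ W (T.sg c' R p₀)) (hσ0 : σ (T.sg c' R p₀) = 0)
    (hmap : ∀ᶠ p in 𝓝 (T.sg c' R p₀),
      T.map c' p = (σ p, T.φ i (σ p ^ T.M) + σ p ^ (T.M * k) * W p))
    (hjc : jc σ W (T.sg c' R p₀) ≠ 0) {C' : ℝ}
    (hσne : ∀ᶠ p in 𝓝 p₀, p.1 ≠ 0 → p.2 ≠ 0 → σ (T.sg c' R p) ≠ 0)
    (h2 : ∀ᶠ p in 𝓝 p₀, p.1 ≠ 0 → p.2 ≠ 0 →
      (‖p.1‖ ^ (-F.nu (F.e1 c) - 1) * ‖p.2‖ ^ (-F.nu2 c - 1) * ‖σ (T.sg c' R p)‖) ^ 2 *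
        Bm F c p ≤ C') : LocB T F c p₀ := by
  obtain ⟨κ, hκ, h1⟩ := locA (z := ζ j) hD hk hσ hW hσ0 hmap hjc
  have hsg : Tendsto (T.sg c' R) (𝓝 p₀) (𝓝 (T.sg c' R p₀)) := (sg_cont c' R).tendsto p₀
  obtain ⟨κ', hκ', h3⟩ := concl hf F hp₀ hS hR hRr j hth (Q := X1 T) (Q' := QA T Dp i k)
    (X1_an T 0) (QA_good hD (i := i) hk).2.1 (M₁ := T.N₀) (M₂ := eA T i k) hκ
    (Rg := fun _ => True) (V := fun _ => 1) (S := fun p => ‖σ (T.sg c' R p)‖) (C' := C')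
    (fun _ _ _ => one_pos) (fun _ => norm_nonneg _)
    (by
      filter_upwards [hsg.eventually h1, hσne] with p h4 h5 hp1 hp2 _
      have h6 := h4 (h5 hp1 hp2)
      rw [mul_one, hth p]
      exact h6)
    (by
      filter_upwards [h2] with p h4 hp1 hp2
      rw [mul_one]
      exact h4 hp1 hp2)
  refine LocB.of_pair (good_X1 T) (QA_good hD (i := i) hk) hκ' ?_
  filter_upwards [h3] with p h4 hp1 hp2 using h4 hp1 hp2 trivial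

theorem sg_nt (h : ¬ T.IsTop c') (p : ℂ × ℂ) : T.sg c' R p = ((R : ℂ) * p.1, (R : ℂ) * p.2) := by
  rw [TB.sg, if_neg h]

theorem sg_top (h : T.IsTop c') (p : ℂ × ℂ) : T.sg c' R p = ((R : ℂ) * p.2, (R : ℂ) * p.1) := by
  rw [TB.sg, if_pos h]

theorem norm_R (hR : 0 < R) (z : ℂ) : ‖(R : ℂ) * z‖ = R * ‖z‖ := by
  rw [norm_mul, Complex.norm_real, Real.norm_of_nonneg hR.le]

theorem near2 (hp₀ : p₀ ∈ F.SF c) : ∀ᶠ p in 𝓝 p₀, ‖p.1‖ ≤ 2 ∧ ‖p.2‖ ≤ 2 := by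
  have h1 : ∀ᶠ p in 𝓝 p₀, ‖p.1‖ < 2 := by
    have : ContinuousAt (fun p : ℂ × ℂ => ‖p.1‖) p₀ := by fun_prop
    exact this.eventually_lt continuousAt_const (by have := hp₀.1.1; linarith)
  have h2 : ∀ᶠ p in 𝓝 p₀, ‖p.2‖ < 2 := by
    have : ContinuousAt (fun p : ℂ × ℂ => ‖p.2‖) p₀ := by fun_prop
    exact this.eventually_lt continuousAt_const (by have := hp₀.1.2; linarith)
  filter_upwards [h1, h2] with p a b using ⟨a.le, b.le⟩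

/-- exponents of the non exceptional second axis, `σ = s` -/
theorem bd_a (hp₀ : p₀ ∈ F.SF c) (hR : 0 < R) (he : F.e2 c = none) :
    ∀ᶠ p in 𝓝 p₀, p.1 ≠ 0 → p.2 ≠ 0 →
      (‖p.1‖ ^ (-F.nu (F.e1 c) - 1) * ‖p.2‖ ^ (-F.nu2 c - 1) * (R * ‖p.1‖)) ^ 2 *
        Bm F c p ≤ R ^ 2 * ((2 : ℝ) ^ (-F.nu2 c - 1)) ^ 2 := by
  have hn := F.nu2_none c he
  filter_upwards [near2 hp₀] with p h1 hp1 hp2
  have e1 := norm_pos_iff.2 hp1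
  have e2 := norm_pos_iff.2 hp2
  rw [Bm, if_pos he, mul_one]
  have h3 : (‖p.1‖ ^ (-F.nu (F.e1 c) - 1) * ‖p.2‖ ^ (-F.nu2 c - 1) * (R * ‖p.1‖)) ^ 2 *
      ‖p.1‖ ^ (2 * F.nu (F.e1 c)) = R ^ 2 * (‖p.2‖ ^ (-F.nu2 c - 1)) ^ 2 *
        ((‖p.1‖ ^ (-F.nu (F.e1 c) - 1) * ‖p.1‖) ^ 2 * ‖p.1‖ ^ (2 * F.nu (F.e1 c))) := by ring
  rw [h3, z1 e1, mul_one]
  exact mul_le_mul_of_nonneg_left (pow_le_pow_left₀ (by positivity)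
    (zb e2.le h1.2 (by omega)) 2) (by positivity)

/-- exponents of interior edges, `σ = αβ` -/
theorem bd_b (he : F.e2 c ≠ none) :
    ∀ᶠ p in 𝓝 p₀, p.1 ≠ 0 → p.2 ≠ 0 →
      (‖p.1‖ ^ (-F.nu (F.e1 c) - 1) * ‖p.2‖ ^ (-F.nu2 c - 1) * ((R * ‖p.1‖) * (R * ‖p.2‖))) ^ 2 *
        Bm F c p ≤ R ^ 4 := by
  refine Eventually.of_forall fun p hp1 hp2 => le_of_eq ?_
  have e1 := norm_pos_iff.2 hp1
  have e2 := norm_pos_iff.2 hp2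
  rw [Bm, if_neg he]
  have h3 : (‖p.1‖ ^ (-F.nu (F.e1 c) - 1) * ‖p.2‖ ^ (-F.nu2 c - 1) *
      ((R * ‖p.1‖) * (R * ‖p.2‖))) ^ 2 * (‖p.1‖ ^ (2 * F.nu (F.e1 c)) * ‖p.2‖ ^ (2 * F.nu2 c)) =
      R ^ 4 * ((‖p.1‖ ^ (-F.nu (F.e1 c) - 1) * ‖p.1‖) ^ 2 * ‖p.1‖ ^ (2 * F.nu (F.e1 c))) *
        ((‖p.2‖ ^ (-F.nu2 c - 1) * ‖p.2‖) ^ 2 * ‖p.2‖ ^ (2 * F.nu2 c)) := by ring
  rw [h3, z1 e1, z1 e2, mul_one, mul_one]

/-- exponents of top edges, `σ = αβ` -/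
theorem bd_c (hp₀ : p₀ ∈ F.SF c) (hR : 0 < R) (he : F.e2 c = none) :
    ∀ᶠ p in 𝓝 p₀, p.1 ≠ 0 → p.2 ≠ 0 →
      (‖p.1‖ ^ (-F.nu (F.e1 c) - 1) * ‖p.2‖ ^ (-F.nu2 c - 1) * ((R * ‖p.2‖) * (R * ‖p.1‖))) ^ 2 *
        Bm F c p ≤ R ^ 4 * ((2 : ℝ) ^ (-F.nu2 c)) ^ 2 := by
  have hn := F.nu2_none c he
  filter_upwards [near2 hp₀] with p h1 hp1 hp2
  have e1 := norm_pos_iff.2 hp1
  have e2 := norm_pos_iff.2 hp2
  rw [Bm, if_pos he, mul_one]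
  have h3 : (‖p.1‖ ^ (-F.nu (F.e1 c) - 1) * ‖p.2‖ ^ (-F.nu2 c - 1) *
      ((R * ‖p.2‖) * (R * ‖p.1‖))) ^ 2 * ‖p.1‖ ^ (2 * F.nu (F.e1 c)) =
      R ^ 4 * (‖p.2‖ ^ (-F.nu2 c - 1) * ‖p.2‖) ^ 2 *
        ((‖p.1‖ ^ (-F.nu (F.e1 c) - 1) * ‖p.1‖) ^ 2 * ‖p.1‖ ^ (2 * F.nu (F.e1 c))) := by ring
  rw [h3, z1 e1, z0 e2, mul_one]
  exact mul_le_mul_of_nonneg_left (pow_le_pow_left₀ (by positivity)
    (zb e2.le h1.2 (by omega)) 2) (by positivity)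

end charts

/-! ### the functions `σ`, `W` -/

theorem jc_ab (q : ℂ × ℂ) (n : ℕ) :
    jc (fun q : ℂ × ℂ => q.1 * q.2) (fun q : ℂ × ℂ => q.2 ^ n) q = n * q.2 ^ n := by
  rw [jc_mul]
  have h2 : HasFDerivAt (fun p : ℂ × ℂ => p.2 ^ n)
      ((n • q.2 ^ (n - 1)) • (ContinuousLinearMap.snd ℂ ℂ ℂ)) q :=
    (hasFDerivAt_snd (𝕜 := ℂ) (p := q)).pow n
  rw [h2.fderiv]
  simp only [smul_apply, smul_eq_mul, nsmul_eq_mul, ContinuousLinearMap.coe_snd']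
  rcases Nat.eq_zero_or_pos n with h | h
  · subst h; simp
  · have : q.2 ^ n = q.2 ^ (n - 1) * q.2 := by rw [← pow_succ]; congr 1; omega
    rw [this]; ring

theorem jc_ab' {q : ℂ × ℂ} (hq : q.1 ≠ 0) (n : ℕ) :
    jc (fun q : ℂ × ℂ => q.1 * q.2) (fun q : ℂ × ℂ => (q.1⁻¹) ^ n) q = n * (q.1⁻¹) ^ n := by
  rw [jc_mul]
  have h1 : HasDerivAt (fun z : ℂ => (z⁻¹) ^ n) (n * (q.1⁻¹) ^ (n - 1) * (-(q.1 ^ 2)⁻¹)) q.1 :=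
    (hasDerivAt_inv hq).pow n
  have h2 : HasFDerivAt (fun p : ℂ × ℂ => (p.1⁻¹) ^ n)
      ((n * (q.1⁻¹) ^ (n - 1) * (-(q.1 ^ 2)⁻¹)) • (ContinuousLinearMap.fst ℂ ℂ ℂ)) q :=
    HasDerivAt.comp_hasFDerivAt (f := fun p : ℂ × ℂ => p.1) q h1 hasFDerivAt_fst
  rw [h2.fderiv]
  simp only [smul_apply, smul_eq_mul, ContinuousLinearMap.coe_fst', mul_zero, mul_one]
  rcases Nat.eq_zero_or_pos n with h | h
  · subst h; simp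
  · have e1 : (q.1⁻¹) ^ n = (q.1⁻¹) ^ (n - 1) * q.1⁻¹ := by rw [← pow_succ]; congr 1; omega
    rw [e1]
    field_simp
    ring

theorem jc_leg (q : ℂ × ℂ) (n : ℕ) :
    jc (fun q : ℂ × ℂ => q.1) (fun q : ℂ × ℂ => q.2 ^ n) q = n * q.2 ^ (n - 1) := by
  rw [jc_fst]
  have h2 : HasFDerivAt (fun p : ℂ × ℂ => p.2 ^ n)
      ((n • q.2 ^ (n - 1)) • (ContinuousLinearMap.snd ℂ ℂ ℂ)) q :=
    (hasFDerivAt_snd (𝕜 := ℂ) (p := q)).pow n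
  rw [h2.fderiv]
  simp only [smul_apply, smul_eq_mul, nsmul_eq_mul, ContinuousLinearMap.coe_snd', mul_one]

theorem jc_vert (q : ℂ × ℂ) (w₀ : ℂ) :
    jc (fun q : ℂ × ℂ => q.1) (fun q : ℂ × ℂ => w₀ + q.2) q = 1 := by
  rw [jc_fst]
  have h2 : HasFDerivAt (fun p : ℂ × ℂ => w₀ + p.2) (ContinuousLinearMap.snd ℂ ℂ ℂ) q :=
    (hasFDerivAt_snd (𝕜 := ℂ) (p := q)).const_add w₀
  rw [h2.fderiv]
  rfl

end Crest.Agent.R257.CLog_68
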