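import Crest.Agent.R257.CLogI_68

/-!
R257 / CLogJ_68 (C-LOG, helper68): the local statement at every point of the special fibre.
-/

set_option autoImplicit false
set_option linter.unusedSectionVars false

open Polynomial Set Filter Topology Metric
open Crest.AlgGeometry.Germ Crest.Agent.R257.AJ387 Crest.Agent.R257.T387

noncomputable section

namespace Crest.Agent.R257.CLog_68

open Crest.Agent.R257.Defs_219
open Crest.Agent.R257.Fr_808 (jc jc_eq jac2 dt0_an Frame)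

variable {f : (Fin 3 → ℂ) → ℂ} {T : TB f}

variable {F : Frame f} {c : F.K} {p₀ : ℂ × ℂ} {r R : ℝ}
  {ζ : Fin T.d → ℂ × ℂ → ℂ} {j : Fin T.d}

theorem SF_none (hp₀ : p₀ ∈ F.SF c) (he : F.e2 c = none) : p₀.1 = 0 := by
  rcases hp₀.2 with h | h
  · exact h
  · exact absurd he h.1

theorem fst_an (q : ℂ × ℂ) : AnalyticAt ℂ (fun q : ℂ × ℂ => q.1) q := analyticAt_fst

theorem snd_an (q : ℂ × ℂ) : AnalyticAt ℂ (fun q : ℂ × ℂ => q.2) q := analyticAt_snd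

/-- vertex charts -/
theorem LocB.vert (hf : Iso f) (hp₀ : p₀ ∈ F.SF c) {i : Fin T.m} {k : ℕ} {w₀ : ℂ}
    (hc : T.Valid (.vert i k w₀)) (hS : T.Sheets (.vert i k w₀) r ζ) (hR : 0 < R) (hRr : R < r)
    (hth : ∀ p, F.th c p = T.thS (.vert i k w₀) R (ζ j) p) (he : F.e2 c = none)
    {Dp : ℂ → ℂ[X]} (hD : DpD T Dp) : LocB T F c p₀ := by
  have hk : 0 < k := T.lev_pos hc.1
  have hnt : ¬ T.IsTop (.vert i k w₀) := by simp [TB.IsTop]
  have hsg := sg_nt (T := T) (R := R) hnt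
  have h10 := SF_none hp₀ he
  refine LocB.of_A hf hp₀ hS hR hRr hth hD (i := i) hk (σ := fun q => q.1)
    (W := fun q => w₀ + q.2) (C' := R ^ 2 * ((2 : ℝ) ^ (-F.nu2 c - 1)) ^ 2) (fst_an _)
    (analyticAt_const.add (snd_an _)) ?_ ?_ ?_ ?_ ?_
  · rw [hsg, h10]; simp
  · exact Eventually.of_forall fun p => rfl
  · rw [jc_vert]; exact one_ne_zero
  · refine Eventually.of_forall fun p hp1 _ => ?_
    rw [hsg]
    exact mul_ne_zero (by exact_mod_cast hR.ne') hp1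
  · filter_upwards [bd_a hp₀ hR he] with p h hp1 hp2
    rw [hsg]
    simp only
    rw [norm_R hR]
    exact h hp1 hp2

/-- smooth points of legs -/
theorem LocB.leg_sm (hf : Iso f) (hp₀ : p₀ ∈ F.SF c) {i : Fin T.m}
    (hS : T.Sheets (.leg i) r ζ) (hR : 0 < R) (hRr : R < r)
    (hth : ∀ p, F.th c p = T.thS (.leg i) R (ζ j) p) (he : F.e2 c = none) (h20 : p₀.2 ≠ 0)
    {Dp : ℂ → ℂ[X]} (hD : DpD T Dp) : LocB T F c p₀ := by
  have hk : 0 < T.top i := T.lev_pos (Finset.max'_mem _ _)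
  have hnt : ¬ T.IsTop (.leg i) := by simp [TB.IsTop]
  have hsg := sg_nt (T := T) (R := R) hnt
  have hRc : (R : ℂ) ≠ 0 := by exact_mod_cast hR.ne'
  have h10 := SF_none hp₀ he
  refine LocB.of_A hf hp₀ hS hR hRr hth hD (i := i) hk (σ := fun q => q.1)
    (W := fun q => q.2 ^ T.M) (C' := R ^ 2 * ((2 : ℝ) ^ (-F.nu2 c - 1)) ^ 2) (fst_an _)
    ((snd_an _).pow _) ?_ ?_ ?_ ?_ ?_
  · rw [hsg, h10]; simp
  · exact Eventually.of_forall fun p => rfl
  · rw [jc_leg, hsg]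
    exact mul_ne_zero (by exact_mod_cast T.M_pos.ne') (pow_ne_zero _ (mul_ne_zero hRc h20))
  · refine Eventually.of_forall fun p hp1 _ => ?_
    rw [hsg]
    exact mul_ne_zero hRc hp1
  · filter_upwards [bd_a hp₀ hR he] with p h hp1 hp2
    rw [hsg]
    simp only
    rw [norm_R hR]
    exact h hp1 hp2

/-- smooth points of `{α = 0}` on edges, vertex `(i, k)` -/
theorem LocB.edge_a (hf : Iso f) (hp₀ : p₀ ∈ F.SF c) {i : Fin T.m} {k k' : ℕ}
    (hc : T.Valid (.edge i k k')) (hk : 0 < k) (hS : T.Sheets (.edge i k k') r ζ) (hR : 0 < R)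
    (hRr : R < r) (hth : ∀ p, F.th c p = T.thS (.edge i k k') R (ζ j) p) (he : F.e2 c ≠ none)
    (h10 : p₀.1 = 0) (h20 : p₀.2 ≠ 0) {Dp : ℂ → ℂ[X]} (hD : DpD T Dp) : LocB T F c p₀ := by
  have hkk : k < k' := hc.2.2.1
  have hnt : ¬ T.IsTop (.edge i k k') := hk.ne'
  have hsg := sg_nt (T := T) (R := R) hnt
  have hRc : (R : ℂ) ≠ 0 := by exact_mod_cast hR.ne'
  refine LocB.of_A hf hp₀ hS hR hRr hth hD (i := i) hk (σ := fun q => q.1 * q.2)
    (W := fun q => q.2 ^ (T.M * (k' - k))) (C' := R ^ 4) ((fst_an _).mul (snd_an _))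
    ((snd_an _).pow _) ?_ ?_ ?_ ?_ ?_
  · rw [hsg, h10]; simp
  · refine Eventually.of_forall fun p => ?_
    show ((p.1 * p.2, T.φ i ((p.1 * p.2) ^ T.M) + p.1 ^ (T.M * k) * p.2 ^ (T.M * k')) : ℂ × ℂ) = _
    have h1 : p.2 ^ (T.M * k') = p.2 ^ (T.M * k) * p.2 ^ (T.M * (k' - k)) := by
      rw [← pow_add, ← Nat.mul_add, Nat.add_sub_cancel' hkk.le]
    simp only [Prod.mk.injEq, true_and]
    rw [h1, mul_pow]
    ring
  · rw [jc_ab, hsg]
    refine mul_ne_zero ?_ (pow_ne_zero _ (mul_ne_zero hRc h20))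
    have : T.M * (k' - k) ≠ 0 := (Nat.mul_pos T.M_pos (by omega)).ne'
    exact_mod_cast this
  · refine Eventually.of_forall fun p hp1 hp2 => ?_
    rw [hsg]
    exact mul_ne_zero (mul_ne_zero hRc hp1) (mul_ne_zero hRc hp2)
  · filter_upwards [bd_b (p₀ := p₀) (R := R) he] with p h hp1 hp2
    rw [hsg]
    simp only
    rw [norm_mul, norm_R hR, norm_R hR]
    exact h hp1 hp2

/-- smooth points of `{β = 0}` on interior edges, vertex `(i, k')` -/
theorem LocB.edge_b (hf : Iso f) (hp₀ : p₀ ∈ F.SF c) {i : Fin T.m} {k k' : ℕ}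
    (hc : T.Valid (.edge i k k')) (hk : 0 < k) (hS : T.Sheets (.edge i k k') r ζ) (hR : 0 < R)
    (hRr : R < r) (hth : ∀ p, F.th c p = T.thS (.edge i k k') R (ζ j) p) (he : F.e2 c ≠ none)
    (h10 : p₀.1 ≠ 0) (h20 : p₀.2 = 0) {Dp : ℂ → ℂ[X]} (hD : DpD T Dp) : LocB T F c p₀ := by
  have hkk : k < k' := hc.2.2.1
  have hnt : ¬ T.IsTop (.edge i k k') := hk.ne'
  have hsg := sg_nt (T := T) (R := R) hnt
  have hRc : (R : ℂ) ≠ 0 := by exact_mod_cast hR.ne'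
  have hq1 : (T.sg (.edge i k k') R p₀).1 ≠ 0 := by rw [hsg]; exact mul_ne_zero hRc h10
  refine LocB.of_A hf hp₀ hS hR hRr hth hD (i := i) (k := k') (by omega)
    (σ := fun q => q.1 * q.2) (W := fun q => (q.1⁻¹) ^ (T.M * (k' - k))) (C' := R ^ 4)
    ((fst_an _).mul (snd_an _)) (((fst_an _).inv hq1).pow _) ?_ ?_ ?_ ?_ ?_
  · rw [hsg, h20]; simp
  · filter_upwards [(fst_an _).continuousAt.eventually_ne hq1] with p hp
    show ((p.1 * p.2, T.φ i ((p.1 * p.2) ^ T.M) + p.1 ^ (T.M * k) * p.2 ^ (T.M * k')) : ℂ × ℂ) = _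
    have h1 : p.1 ^ (T.M * k') = p.1 ^ (T.M * k) * p.1 ^ (T.M * (k' - k)) := by
      rw [← pow_add, ← Nat.mul_add, Nat.add_sub_cancel' hkk.le]
    have h2 : p.1 ^ (T.M * (k' - k)) * (p.1⁻¹) ^ (T.M * (k' - k)) = 1 := by
      rw [← mul_pow, mul_inv_cancel₀ hp, one_pow]
    simp only [Prod.mk.injEq, true_and]
    rw [mul_pow _ _ (T.M * k'), h1]
    linear_combination (-(p.1 ^ (T.M * k) * p.2 ^ (T.M * k'))) * h2
  · rw [jc_ab' hq1]
    refine mul_ne_zero ?_ (pow_ne_zero _ (inv_ne_zero hq1))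
    have : T.M * (k' - k) ≠ 0 := (Nat.mul_pos T.M_pos (by omega)).ne'
    exact_mod_cast this
  · refine Eventually.of_forall fun p hp1 hp2 => ?_
    rw [hsg]
    exact mul_ne_zero (mul_ne_zero hRc hp1) (mul_ne_zero hRc hp2)
  · filter_upwards [bd_b (p₀ := p₀) (R := R) he] with p h hp1 hp2
    rw [hsg]
    simp only
    rw [norm_mul, norm_R hR, norm_R hR]
    exact h hp1 hp2

/-- smooth points of top edges, vertex `(i, k')` -/
theorem LocB.top_sm (hf : Iso f) (hp₀ : p₀ ∈ F.SF c) {i : Fin T.m} {k' : ℕ}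
    (hc : T.Valid (.edge i 0 k')) (hS : T.Sheets (.edge i 0 k') r ζ) (hR : 0 < R)
    (hRr : R < r) (hth : ∀ p, F.th c p = T.thS (.edge i 0 k') R (ζ j) p) (he : F.e2 c = none)
    (h20 : p₀.2 ≠ 0) {Dp : ℂ → ℂ[X]} (hD : DpD T Dp) : LocB T F c p₀ := by
  have hkk : 0 < k' := hc.2.2.1
  have ht : T.IsTop (.edge i 0 k') := rfl
  have hsg := sg_top (T := T) (R := R) ht
  have hRc : (R : ℂ) ≠ 0 := by exact_mod_cast hR.ne'
  have h10 := SF_none hp₀ he
  have hq1 : (T.sg (.edge i 0 k') R p₀).1 ≠ 0 := by rw [hsg]; exact mul_ne_zero hRc h20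
  refine LocB.of_A hf hp₀ hS hR hRr hth hD (i := i) (k := k') hkk
    (σ := fun q => q.1 * q.2) (W := fun q => (q.1⁻¹) ^ (T.M * k'))
    (C' := R ^ 4 * ((2 : ℝ) ^ (-F.nu2 c)) ^ 2)
    ((fst_an _).mul (snd_an _)) (((fst_an _).inv hq1).pow _) ?_ ?_ ?_ ?_ ?_
  · rw [hsg, h10]; simp
  · filter_upwards [(fst_an _).continuousAt.eventually_ne hq1] with p hp
    show ((p.1 * p.2, T.φ i ((p.1 * p.2) ^ T.M) + p.1 ^ (T.M * 0) * p.2 ^ (T.M * k')) : ℂ × ℂ) = _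
    have h2 : p.1 ^ (T.M * k') * (p.1⁻¹) ^ (T.M * k') = 1 := by
      rw [← mul_pow, mul_inv_cancel₀ hp, one_pow]
    simp only [Prod.mk.injEq, true_and, mul_zero, pow_zero, one_mul]
    rw [mul_pow _ _ (T.M * k')]
    linear_combination (-(p.2 ^ (T.M * k'))) * h2
  · rw [jc_ab' hq1]
    refine mul_ne_zero ?_ (pow_ne_zero _ (inv_ne_zero hq1))
    have : T.M * k' ≠ 0 := (Nat.mul_pos T.M_pos hkk).ne'
    exact_mod_cast this
  · refine Eventually.of_forall fun p hp1 hp2 => ?_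
    rw [hsg]
    exact mul_ne_zero (mul_ne_zero hRc hp2) (mul_ne_zero hRc hp1)
  · filter_upwards [bd_c hp₀ hR he] with p h hp1 hp2
    rw [hsg]
    simp only
    rw [norm_mul, norm_R hR, norm_R hR]
    exact h hp1 hp2

/-- nodes of interior edges -/
theorem LocB.node (hf : Iso f) (hp₀ : p₀ ∈ F.SF c) {i : Fin T.m} {k k' : ℕ}
    (hc : T.Valid (.edge i k k')) (hk : 0 < k) (hS : T.Sheets (.edge i k k') r ζ) (hR : 0 < R)
    (hRr : R < r) (hth : ∀ p, F.th c p = T.thS (.edge i k k') R (ζ j) p) (he : F.e2 c ≠ none)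
    (h10 : p₀.1 = 0) (h20 : p₀.2 = 0) {Dp : ℂ → ℂ[X]} (hD : DpD T Dp) : LocB T F c p₀ := by
  have hnt : ¬ T.IsTop (.edge i k k') := hk.ne'
  have hsg := sg_nt (T := T) (R := R) hnt
  have hRc : (R : ℂ) ≠ 0 := by exact_mod_cast hR.ne'
  obtain ⟨M', κ, hM', hκ, h1⟩ := locB hD hc hk (ζ j)
  have hsg0 : T.sg (.edge i k k') R p₀ = 0 := by
    rw [hsg, h10, h20, mul_zero]; rfl
  have hsgt : Tendsto (T.sg (.edge i k k') R) (𝓝 p₀) (𝓝 0) := by
    have := (sg_cont (T := T) (.edge i k k') R).tendsto p₀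
    rwa [hsg0] at this
  obtain ⟨κ', hκ', h3⟩ := concl hf F hp₀ hS hR hRr j hth (Q := X1 T) (Q' := QD T Dp)
    (X1_an T 0) (QD_good hD hM').2.1 (M₁ := T.N₀) (M₂ := M') hκ
    (Rg := fun _ => True) (V := fun _ => 1) (S := fun p => (R * ‖p.1‖) * (R * ‖p.2‖))
    (C' := R ^ 4) (fun _ _ _ => one_pos) (fun _ => by positivity)
    (by
      filter_upwards [hsgt.eventually h1] with p h4 hp1 hp2 _
      have h6 := h4 (by rw [hsg]; exact mul_ne_zero hRc hp1) (by rw [hsg]; exact mul_ne_zero hRc hp2)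
      have h7 : ‖(T.sg (.edge i k k') R p).1‖ * ‖(T.sg (.edge i k k') R p).2‖ =
          (R * ‖p.1‖) * (R * ‖p.2‖) := by
        rw [hsg]; simp only; rw [norm_R hR, norm_R hR]
      rw [h7] at h6
      rw [mul_one, hth p]
      exact h6)
    (by
      filter_upwards [bd_b (p₀ := p₀) (R := R) he] with p h4 hp1 hp2
      rw [mul_one]
      exact h4 hp1 hp2)
  refine LocB.of_pair (good_X1 T) (QD_good hD hM') hκ' ?_
  filter_upwards [h3] with p h4 hp1 hp2 using h4 hp1 hp2 trivial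

/-- nodes of top edges -/
theorem LocB.top (hf : Iso f) (hp₀ : p₀ ∈ F.SF c) {i : Fin T.m} {k' : ℕ}
    (hc : T.Valid (.edge i 0 k')) (hS : T.Sheets (.edge i 0 k') r ζ) (hR : 0 < R)
    (hRr : R < r) (hth : ∀ p, F.th c p = T.thS (.edge i 0 k') R (ζ j) p) (he : F.e2 c = none)
    (hnu : F.nu2 c ≤ -(T.N : ℤ)) (h20 : p₀.2 = 0) {Dp : ℂ → ℂ[X]} (hD : DpD T Dp) :
    LocB T F c p₀ := by
  have ht : T.IsTop (.edge i 0 k') := rfl
  have hsg := sg_top (T := T) (R := R) ht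
  have hRc : (R : ℂ) ≠ 0 := by exact_mod_cast hR.ne'
  have h10 := SF_none hp₀ he
  have hN := T.N_pos
  obtain ⟨M', κ, hM', hκ, h1⟩ := locTop hD hc (ζ j)
  have hsg0 : T.sg (.edge i 0 k') R p₀ = 0 := by
    rw [hsg, h10, h20, mul_zero]; rfl
  have hsgt : Tendsto (T.sg (.edge i 0 k') R) (𝓝 p₀) (𝓝 0) := by
    have := (sg_cont (T := T) (.edge i 0 k') R).tendsto p₀
    rwa [hsg0] at this
  have h2 : ∀ᶠ p in 𝓝 p₀, ‖p.2‖ ≤ 1 := by
    have h1 : p₀ = 0 := Prod.ext h10 h20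
    rw [h1]
    filter_upwards [small1] with p hp using hp.2
  obtain ⟨κ', hκ', h3⟩ := concl hf F hp₀ hS hR hRr j hth (Q := X1 T) (Q' := QD T Dp)
    (X1_an T 0) (QD_good hD hM').2.1 (M₁ := T.N₀) (M₂ := M') hκ
    (Rg := fun _ => True) (V := fun p => ((R * ‖p.2‖) ^ (T.N - 1)) ^ 2) (S := fun p => R * ‖p.1‖)
    (C' := R ^ 2 / (R ^ (T.N - 1)) ^ 2)
    (fun p _ hp2 => by have := norm_pos_iff.2 hp2; positivity) (fun _ => by positivity)
    (by
      filter_upwards [hsgt.eventually h1] with p h4 hp1 hp2 _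
      have h6 := h4 (by rw [hsg]; exact mul_ne_zero hRc hp2) (by rw [hsg]; exact mul_ne_zero hRc hp1)
      have h7 : ‖(T.sg (.edge i 0 k') R p).1‖ = R * ‖p.2‖ := by
        rw [hsg]; simp only; rw [norm_R hR]
      have h8 : ‖(T.sg (.edge i 0 k') R p).2‖ = R * ‖p.1‖ := by
        rw [hsg]; simp only; rw [norm_R hR]
      rw [h7, h8] at h6
      rw [hth p]
      exact h6)
    (by
      filter_upwards [h2] with p h4 hp1 hp2
      have e1 := norm_pos_iff.2 hp1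
      have e2 := norm_pos_iff.2 hp2
      rw [Bm, if_pos he, mul_one]
      have h3 : (‖p.1‖ ^ (-F.nu (F.e1 c) - 1) * ‖p.2‖ ^ (-F.nu2 c - 1) * (R * ‖p.1‖)) ^ 2 *
          ‖p.1‖ ^ (2 * F.nu (F.e1 c)) = R ^ 2 * (‖p.2‖ ^ (-F.nu2 c - 1)) ^ 2 *
            ((‖p.1‖ ^ (-F.nu (F.e1 c) - 1) * ‖p.1‖) ^ 2 * ‖p.1‖ ^ (2 * F.nu (F.e1 c))) := by ring
      rw [h3, z1 e1, mul_one]
      have h5 : ‖p.2‖ ^ (-F.nu2 c - 1) ≤ ‖p.2‖ ^ (T.N - 1) := by
        rw [← zpow_natCast]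
        refine zpow_le_zpow_right_of_le_one₀ e2 h4 ?_
        have : ((T.N - 1 : ℕ) : ℤ) = (T.N : ℤ) - 1 := by
          rw [Nat.cast_sub hN]; simp
        rw [this]; omega
      have h6 : R ^ 2 / (R ^ (T.N - 1)) ^ 2 * ((R * ‖p.2‖) ^ (T.N - 1)) ^ 2 =
          R ^ 2 * (‖p.2‖ ^ (T.N - 1)) ^ 2 := by
        have hRp : (R ^ (T.N - 1)) ^ 2 ≠ 0 := by positivity
        rw [mul_pow R, mul_pow, ← mul_assoc, div_mul_cancel₀ _ hRp]
      rw [h6]
      exact mul_le_mul_of_nonneg_left (pow_le_pow_left₀ (by positivity) h5 2) (by positivity))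
  refine LocB.of_pair (good_X1 T) (QD_good hD hM') hκ' ?_
  filter_upwards [h3] with p h4 hp1 hp2 using h4 hp1 hp2 trivial

/-- the origin of a leg -/
theorem LocB.leg (hf : Iso f) (hp₀ : p₀ ∈ F.SF c) {i : Fin T.m}
    (hS : T.Sheets (.leg i) r ζ) (hR : 0 < R) (hRr : R < r)
    (hth : ∀ p, F.th c p = T.thS (.leg i) R (ζ j) p) (he : F.e2 c = none) (h20 : p₀.2 = 0)
    {Dp : ℂ → ℂ[X]} (hD : DpD T Dp) : LocB T F c p₀ := by
  have hnt : ¬ T.IsTop (.leg i) := by simp [TB.IsTop]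
  have hsg := sg_nt (T := T) (R := R) hnt
  have hRc : (R : ℂ) ≠ 0 := by exact_mod_cast hR.ne'
  have h10 := SF_none hp₀ he
  have hsg0 : T.sg (.leg i) R p₀ = 0 := by
    rw [hsg, h10, h20, mul_zero]; rfl
  have hsgt : Tendsto (T.sg (.leg i) R) (𝓝 p₀) (𝓝 0) := by
    have := (sg_cont (T := T) (.leg i) R).tendsto p₀
    rwa [hsg0] at this
  have h2 : ∀ᶠ p in 𝓝 p₀, ‖p.1‖ ≤ 1 := by
    have h1 : p₀ = 0 := Prod.ext h10 h20
    rw [h1]
    filter_upwards [small1] with p hp using hp.1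
  have hs1 : ∀ p : ℂ × ℂ, ‖(T.sg (.leg i) R p).1‖ = R * ‖p.1‖ := by
    intro p; rw [hsg]; simp only; rw [norm_R hR]
  -- region I
  obtain ⟨q, hq, hq0, hq1, hq2⟩ := legQ hf hD hS j
  set E : ℕ := (-F.nu (F.e1 c)).toNat with hE
  obtain ⟨M₁, Lx, κ₁, hM₁, hκ₁, hI⟩ := legI hf hS j hq hq1 hq2 E
  -- region II
  obtain ⟨M', κ₂, hM', hκ₂, hII⟩ := locLeg hD i (ζ j) Lx
  obtain ⟨κ', hκ', h3⟩ := concl hf F hp₀ hS hR hRr j hth (Q := X1 T) (Q' := QD T Dp)
    (X1_an T 0) (QD_good hD hM').2.1 (M₁ := T.N₀) (M₂ := M') hκ₂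
    (Rg := fun p => ‖(T.sg (.leg i) R p).1‖ ^ Lx ≤ ‖(T.sg (.leg i) R p).2‖) (V := fun _ => 1)
    (S := fun p => R * ‖p.1‖) (C' := R ^ 2 * ((2 : ℝ) ^ (-F.nu2 c - 1)) ^ 2)
    (fun _ _ _ => one_pos) (fun _ => by positivity)
    (by
      filter_upwards [hsgt.eventually hII] with p h4 hp1 hp2 hRg
      have h6 := h4 (by rw [hsg]; exact mul_ne_zero hRc hp1) (by rw [hsg]; exact mul_ne_zero hRc hp2)
        hRg
      rw [hs1] at h6
      rw [mul_one, hth p]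
      exact h6)
    (by
      filter_upwards [bd_a hp₀ hR he] with p h4 hp1 hp2
      rw [mul_one]
      exact h4 hp1 hp2)
  have hg1 := good_X1 T
  have hg2 : Good (M₁, q) := ⟨hM₁, hq, hq0⟩
  have hg3 := QD_good hD hM'
  refine ⟨{(T.N₀, X1 T), (M₁, q), (M', QD T Dp)}, ((Set.finite_singleton _).insert _).insert _,
    ?_, min κ' (κ₁ / R ^ (2 * E)), lt_min hκ' (by positivity), ?_⟩
  · rintro a (rfl | rfl | ha)
    · exact hg1
    · exact hg2
    · rw [mem_singleton_iff.1 ha]; exact hg3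
  · filter_upwards [h3, hsgt.eventually hI, h2] with p h4 h5 h6 hp1 hp2
    have e1 := norm_pos_iff.2 hp1
    have hB := Bm_pos F c hp1 hp2
    rcases le_total (‖(T.sg (.leg i) R p).1‖ ^ Lx) ‖(T.sg (.leg i) R p).2‖ with h7 | h7
    · refine ⟨_, Or.inl rfl, _, Or.inr (Or.inr rfl), ?_⟩
      exact (mul_le_mul_of_nonneg_right (min_le_left _ _) hB.le).trans (h4 hp1 hp2 h7)
    · refine ⟨_, Or.inl rfl, _, Or.inr (Or.inl rfl), ?_⟩
      have h8 := h5 (by rw [hsg]; exact mul_ne_zero hRc hp1) h7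
      rw [hs1] at h8
      have e2 : T.th (.leg i) (ζ j) (T.sg (.leg i) R p) = F.th c p := (hth p).symm
      rw [e2] at h8
      simp only
      have h9 : κ₁ ≤ Tm T T.N₀ (X1 T) M₁ q (F.th c p) * (R ^ (2 * E) * ‖p.1‖ ^ (2 * E)) := by
        refine h8.trans (le_of_eq ?_)
        unfold Tm
        rw [mul_pow, div_mul_eq_mul_div]
        congr 2
        rw [mul_pow, mul_pow, ← pow_mul, ← pow_mul, mul_comm E 2]
      have hTm : 0 ≤ Tm T T.N₀ (X1 T) M₁ q (F.th c p) :=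
        div_nonneg (by positivity) (mul_nonneg (WT_nonneg _ _ _) (WT_nonneg _ _ _))
      have h11 : ‖p.1‖ ^ (2 * E) * ‖p.1‖ ^ (2 * F.nu (F.e1 c)) ≤ 1 := by
        rw [← zpow_natCast, ← zpow_add₀ e1.ne', ← zpow_zero ‖p.1‖]
        refine zpow_le_zpow_right_of_le_one₀ e1 h6 ?_
        push_cast
        have := Int.self_le_toNat (-F.nu (F.e1 c))
        omega
      rw [Bm, if_pos he, mul_one]
      have hRE : 0 < R ^ (2 * E) := by positivity
      calc min κ' (κ₁ / R ^ (2 * E)) * ‖p.1‖ ^ (2 * F.nu (F.e1 c))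
          ≤ κ₁ / R ^ (2 * E) * ‖p.1‖ ^ (2 * F.nu (F.e1 c)) :=
            mul_le_mul_of_nonneg_right (min_le_right _ _) (by positivity)
        _ ≤ Tm T T.N₀ (X1 T) M₁ q (F.th c p) * (R ^ (2 * E) * ‖p.1‖ ^ (2 * E)) / R ^ (2 * E) *
            ‖p.1‖ ^ (2 * F.nu (F.e1 c)) := by
            refine mul_le_mul_of_nonneg_right (div_le_div_of_nonneg_right h9 hRE.le) (by positivity)
        _ = Tm T T.N₀ (X1 T) M₁ q (F.th c p) *
            (‖p.1‖ ^ (2 * E) * ‖p.1‖ ^ (2 * F.nu (F.e1 c))) := by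
            field_simp
        _ ≤ Tm T T.N₀ (X1 T) M₁ q (F.th c p) * 1 := mul_le_mul_of_nonneg_left h11 hTm
        _ = _ := mul_one _

/-- **the local statement at every point of the special fibre** -/
theorem locB_all (hf : Iso f) {Dp : ℂ → ℂ[X]} (hD : DpD T Dp) (hCR : CR T F) (c : F.K)
    (hp₀ : p₀ ∈ F.SF c) : LocB T F c p₀ := by
  obtain ⟨c', r, R, ζ, j, hc, hS, hR, hRr, hth, hNE, htop⟩ := hCR c
  cases c' with
  | vert i k w₀ => exact LocB.vert hf hp₀ hc hS hR hRr hth (hNE.2 trivial) hD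
  | leg i =>
    by_cases h2 : p₀.2 = 0
    · exact LocB.leg hf hp₀ hS hR hRr hth (hNE.2 trivial) h2 hD
    · exact LocB.leg_sm hf hp₀ hS hR hRr hth (hNE.2 trivial) h2 hD
  | edge i k k' =>
    rcases Nat.eq_zero_or_pos k with hk | hk
    · subst hk
      have he : F.e2 c = none := hNE.2 rfl
      by_cases h2 : p₀.2 = 0
      · exact LocB.top hf hp₀ hc hS hR hRr hth he (htop rfl) h2 hD
      · exact LocB.top_sm hf hp₀ hc hS hR hRr hth he h2 hD
    · have he : F.e2 c ≠ none := fun h => hk.ne' (hNE.1 h)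
      by_cases h1 : p₀.1 = 0
      · by_cases h2 : p₀.2 = 0
        · exact LocB.node hf hp₀ hc hk hS hR hRr hth he h1 h2 hD
        · exact LocB.edge_a hf hp₀ hc hk hS hR hRr hth he h1 h2 hD
      · rcases hp₀.2 with h3 | h3
        · exact absurd h3 h1
        · exact LocB.edge_b hf hp₀ hc hk hS hR hRr hth he h1 h3.2 hD

end Crest.Agent.R257.CLog_68
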