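import Crest.Agent.R257.NV3_790

/-!
# Row 257, C-LOG-NV (helper790): proof of `CLog_68.NVStmt`
-/

set_option autoImplicit false
set_option linter.unusedSectionVars false

open Set Filter Topology Complex Metric Polynomial

noncomputable section

namespace Crest.Agent.R257.NV_790

open Crest.Agent.R257.Sh_297 Crest.Agent.R257.OrdL_578

/-- the power map -/
def pm (N : ℕ) (b : ℂ) (p : ℂ × ℂ) : ℂ × ℂ := (p.1 ^ N, b + p.2)

theorem an_pm (N : ℕ) (b : ℂ) (p : ℂ × ℂ) : AnalyticAt ℂ (pm N b) p :=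
  (analyticAt_fst.pow N).prod (analyticAt_const.add analyticAt_snd)

theorem pm_zero {N : ℕ} (hN : 0 < N) (b : ℂ) : pm N b 0 = (0, b) := by
  simp [pm, hN.ne']

theorem tendsto_pm {N : ℕ} (hN : 0 < N) (b : ℂ) : Tendsto (pm N b) (𝓝 0) (𝓝 ((0 : ℂ), b)) := by
  have := (an_pm N b 0).continuousAt.tendsto
  rwa [pm_zero hN] at this

theorem an_comp {N : ℕ} (hN : 0 < N) {b : ℂ} {F : ℂ × ℂ → ℂ} (hF : AnalyticAt ℂ F (0, b)) :
    AnalyticAt ℂ (fun p => F (pm N b p)) 0 := by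
  refine AnalyticAt.comp (g := F) (f := pm N b) (x := (0 : ℂ × ℂ)) ?_ (an_pm N b 0)
  rw [pm_zero hN]
  exact hF

theorem open_pm {N : ℕ} (hN : 0 < N) {b : ℂ} {P : ℂ × ℂ → Prop}
    (h : ∀ᶠ p in 𝓝 (0 : ℂ × ℂ), P p) : ∀ᶠ q in 𝓝 ((0 : ℂ), b), ∃ p, pm N b p = q ∧ P p := by
  obtain ⟨ε, hε, hb⟩ := Metric.eventually_nhds_iff_ball.1 h
  have h1 : ∀ᶠ q in 𝓝 ((0 : ℂ), b), ‖q.1‖ < ε ^ N := by
    have h2 : Tendsto (fun q : ℂ × ℂ => ‖q.1‖) (𝓝 ((0 : ℂ), b)) (𝓝 ‖(0 : ℂ)‖) :=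
      (continuous_fst.norm : Continuous fun q : ℂ × ℂ => ‖q.1‖).tendsto _
    refine h2.eventually (gt_mem_nhds ?_)
    rw [norm_zero]
    positivity
  have h2 : ∀ᶠ q in 𝓝 ((0 : ℂ), b), ‖q.2 - b‖ < ε := by
    have h3 : Tendsto (fun q : ℂ × ℂ => ‖q.2 - b‖) (𝓝 ((0 : ℂ), b)) (𝓝 ‖b - b‖) :=
      (by fun_prop : Continuous fun q : ℂ × ℂ => ‖q.2 - b‖).tendsto _
    refine h3.eventually (gt_mem_nhds ?_)
    rw [sub_self, norm_zero]
    exact hε
  filter_upwards [h1, h2] with q hq1 hq2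
  obtain ⟨t, ht⟩ := IsAlgClosed.exists_pow_nat_eq q.1 hN
  refine ⟨(t, q.2 - b), ?_, hb _ ?_⟩
  · simp only [pm, ht]
    ext <;> simp
  · rw [mem_ball, Prod.dist_eq, max_lt_iff]
    refine ⟨?_, ?_⟩
    · show dist t 0 < ε
      rw [dist_zero_right]
      rw [← ht, norm_pow] at hq1
      exact lt_of_pow_lt_pow_left₀ N hε.le hq1
    · show dist (q.2 - b) 0 < ε
      rw [dist_zero_right]
      exact hq2

/-- **branches of a finite family** -/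
theorem exists_phi {J : Type} [Fintype J] {q : J → ℂ × ℂ → ℂ} {b : ℂ}
    (hq : ∀ j, AnalyticAt ℂ (q j) (0, b)) :
    ∃ (N m : ℕ) (ψ : Option (Fin m) → ℂ → ℂ), 0 < N ∧ (∀ i, AnalyticAt ℂ (ψ i) 0) ∧
      (∀ t, ψ none t = 0) ∧ ∀ j, Adm ψ fun p => q j (pm N b p) := by
  classical
  let S : Finset J := Finset.univ.filter fun j => ¬ ∀ᶠ p in 𝓝 ((0 : ℂ), b), q j p = 0
  have h1 : ∀ j, ∃ (n : ℕ) (G : ℂ × ℂ → ℂ), j ∈ S → Quo (q j) b n G ∧ ∃ᶠ z in 𝓝 b, G (0, z) ≠ 0 := by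
    intro j
    by_cases hj : ∀ᶠ p in 𝓝 ((0 : ℂ), b), q j p = 0
    · exact ⟨0, 0, fun h => absurd hj (Finset.mem_filter.1 h).2⟩
    · obtain ⟨n, G, h⟩ := exists_ord (hq j) hj
      exact ⟨n, G, fun _ => h⟩
  choose n G hG using h1
  have htr : Tendsto (fun p : ℂ × ℂ => (p.1, b + p.2)) (𝓝 0) (𝓝 ((0 : ℂ), b)) :=
    (by fun_prop : Continuous fun p : ℂ × ℂ => (p.1, b + p.2)).tendsto' _ _ (by simp)
  have hGa : ∀ j ∈ S, AnalyticAt ℂ (fun p : ℂ × ℂ => G j (p.1, b + p.2)) 0 := by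
    intro j hj
    refine AnalyticAt.comp (g := G j) (f := fun p : ℂ × ℂ => (p.1, b + p.2)) (x := (0 : ℂ × ℂ)) ?_
      (analyticAt_fst.prod (analyticAt_const.add analyticAt_snd))
    have : ((0 : ℂ × ℂ).1, b + (0 : ℂ × ℂ).2) = ((0 : ℂ), b) := by simp
    rw [this]
    exact (hG j hj).1.1
  have hGax : ∀ j ∈ S, AnalyticAt ℂ (fun y : ℂ => G j (0, b + y)) 0 := by
    intro j hj
    exact AnalyticAt.comp (g := fun p : ℂ × ℂ => G j (p.1, b + p.2)) (f := fun y : ℂ => ((0 : ℂ), y))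
      (x := (0 : ℂ)) (hGa j hj) (analyticAt_const.prod analyticAt_id)
  have hadd : Tendsto (fun y : ℂ => b + y) (𝓝 0) (𝓝 b) :=
    (by fun_prop : Continuous fun y : ℂ => b + y).tendsto' _ _ (by simp)
  have hsub : Tendsto (fun z : ℂ => z - b) (𝓝 b) (𝓝 0) :=
    (by fun_prop : Continuous fun z : ℂ => z - b).tendsto' _ _ (by simp)
  have hGne : ∀ j ∈ S, ¬ ∀ᶠ y in 𝓝 (0 : ℂ), G j (0, b + y) = 0 := by
    intro j hj h
    refine (hG j hj).2 ?_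
    filter_upwards [hsub.eventually h] with z hz hne
    refine hne ?_
    rwa [add_sub_cancel] at hz
  let D : ℂ × ℂ → ℂ := fun p => ∏ j ∈ S, G j (p.1, b + p.2)
  have hD : AnalyticAt ℂ D 0 := Finset.analyticAt_fun_prod _ hGa
  have hreg : ∃ᶠ y in 𝓝 (0 : ℂ), D (0, y) ≠ 0 := by
    by_contra hcon
    rw [not_frequently] at hcon
    obtain ⟨j, hj, h⟩ := Crest.Agent.R257.Frm_547.prod_ev S (g := fun j (y : ℂ) => G j (0, b + y))
      hGax (by filter_upwards [hcon] with y hy using not_not.1 hy)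
    exact hGne j hj h
  obtain ⟨N, m, R₀, hN, hm, hR₀, hbr⟩ := T0_939.exists_branches hD hreg
  obtain ⟨ρ, φ, hρ0, hρ1, hρR, hφ, hφ0, hφR, hinj, hDφ, -⟩ := hbr R₀ hR₀ le_rfl
  let ψ : Option (Fin m) → ℂ → ℂ := fun o => match o with
    | none => fun _ => 0
    | some i => φ i
  have hψ : ∀ i, AnalyticAt ℂ (ψ i) 0 := by
    intro i
    cases i with
    | none => exact analyticAt_const
    | some i => exact hφ i 0 (mem_ball_self hρ0)
  have hψ0 : ∀ i, ψ i 0 = 0 := by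
    intro i
    cases i with
    | none => rfl
    | some i => exact hφ0 i
  refine ⟨N, m, ψ, hN, hψ, fun t => rfl, fun j => ?_⟩
  by_cases hj : ∀ᶠ p in 𝓝 ((0 : ℂ), b), q j p = 0
  · exact Adm.zero ((tendsto_pm hN b).eventually hj)
  have hjS : j ∈ S := Finset.mem_filter.2 ⟨Finset.mem_univ _, hj⟩
  obtain ⟨⟨hGan, hQe⟩, hGf⟩ := hG j hjS
  have hF : AnalyticAt ℂ (fun p => G j (pm N b p)) 0 := an_comp hN hGan
  have hord : analyticOrderAt (fun y : ℂ => G j (pm N b (0, y))) 0 ≠ ⊤ := by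
    rw [Ne, analyticOrderAt_eq_top]
    intro h
    refine hGne j hjS ?_
    filter_upwards [h] with y hy
    simpa [pm, hN.ne'] using hy
  obtain ⟨d, hd⟩ := ENat.ne_top_iff_exists.1 hord
  have h2 : Adm ψ fun p => G j (pm N b p) := by
    refine adm_of_zeros hψ hψ0 d _ hF hd.symm ?_
    have h3 : ∀ᶠ p in 𝓝 (0 : ℂ × ℂ), p.1 ∈ ball (0 : ℂ) ρ ∧ p.2 ∈ ball (0 : ℂ) R₀ := by
      have h4 : Tendsto (Prod.fst : ℂ × ℂ → ℂ) (𝓝 0) (𝓝 0) := continuous_fst.tendsto' _ _ rfl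
      have h5 : Tendsto (Prod.snd : ℂ × ℂ → ℂ) (𝓝 0) (𝓝 0) := continuous_snd.tendsto' _ _ rfl
      exact (h4.eventually (ball_mem_nhds _ hρ0)).and (h5.eventually (ball_mem_nhds _ hR₀))
    filter_upwards [h3] with p hp hz
    by_contra hcon
    push Not at hcon
    refine hDφ p.1 hp.1 p.2 hp.2 (fun i => hcon (some i)) ?_
    exact Finset.prod_eq_zero hjS hz
  refine (((Adm.fst (φ := ψ)).pow hψ (N * n j)).mul h2).congr ?_
  filter_upwards [(tendsto_pm hN b).eventually hQe] with p hp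
  rw [hp]
  simp only [pm, pow_mul]

/-- chain rule -/
theorem fd_comp {N : ℕ} {b : ℂ} {F : ℂ × ℂ → ℂ} {p : ℂ × ℂ} (hF : DifferentiableAt ℂ F (pm N b p))
    (v : ℂ × ℂ) :
    fderiv ℂ (fun p => F (pm N b p)) p v = fderiv ℂ F (pm N b p) (fderiv ℂ (pm N b) p v) := by
  have h1 : HasFDerivAt (fun p => F (pm N b p)) ((fderiv ℂ F (pm N b p)).comp (fderiv ℂ (pm N b) p)) p :=
    hF.hasFDerivAt.comp p (an_pm N b p).differentiableAt.hasFDerivAt
  rw [h1.fderiv]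
  rfl

/-- **C-LOG-NV** -/
theorem nv : CLog_68.NVStmt := by
  intro J _ q g b m₁ m₂ hq hb hm ⟨U, hU, hU0, hg⟩
  classical
  obtain ⟨N, m, ψ, hN, hψ, hψ0, hadm⟩ := exists_phi hq
  choose hqa C hC0 hC using hadm
  have hUc : AnalyticAt ℂ (fun p => U (pm N b p)) 0 := an_comp hN hU
  have hUc0 : (fun p => U (pm N b p)) 0 ≠ 0 := by
    show U (pm N b 0) ≠ 0
    rw [pm_zero hN]
    exact hU0
  have hlow := lower hψ (o := none) hψ0 hUc hUc0 (M := N * m₁) (n := m₂) (b := b)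
    (Nat.mul_pos hN hm) hb
  have hge : ∀ᶠ p in 𝓝 (0 : ℂ × ℂ), g (pm N b p) =
      p.1 ^ (N * m₁) * (b + p.2) ^ m₂ * U (pm N b p) := by
    filter_upwards [(tendsto_pm hN b).eventually hg] with p hp
    rw [hp]
    simp only [pm, pow_mul]
  have hgan : ∀ᶠ p in 𝓝 ((0 : ℂ), b), AnalyticAt ℂ g p := by
    have h1 : AnalyticAt ℂ (fun p : ℂ × ℂ => p.1 ^ m₁ * p.2 ^ m₂ * U p) (0, b) :=
      ((analyticAt_fst.pow m₁).mul (analyticAt_snd.pow m₂)).mul hU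
    have h2 : AnalyticAt ℂ g (0, b) := h1.congr (by filter_upwards [hg] with p hp using hp.symm)
    exact h2.eventually_analyticAt
  refine ⟨1 / 2, ∑ j, C j, by norm_num, ?_⟩
  have hall : ∀ᶠ p in 𝓝 (0 : ℂ × ℂ), ∃ v : ℂ × ℂ,
      (∀ j, ‖fderiv ℂ (q j) (pm N b p) v‖ ≤ (∑ j, C j) * ‖q j (pm N b p)‖) ∧
      1 / 2 * ‖g (pm N b p)‖ ≤ ‖fderiv ℂ g (pm N b p) v‖ := by
    filter_upwards [eventually_all.2 hC, hlow, hge, hge.eventually_nhds,
      (tendsto_pm hN b).eventually hgan,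
      (tendsto_pm hN b).eventually (eventually_all.2 fun j => (hq j).eventually_analyticAt)]
      with p h1 h2 h3 h4 h5 h6
    obtain ⟨i, hi⟩ := Finite.exists_min fun i => ‖p.2 - ψ i p.1‖
    refine ⟨fderiv ℂ (pm N b) p (V ψ i p), fun j => ?_, ?_⟩
    · rw [← fd_comp (h6 j).differentiableAt]
      refine (h1 j i hi).trans ?_
      exact mul_le_mul_of_nonneg_right
        (Finset.single_le_sum (fun j _ => hC0 j) (Finset.mem_univ j)) (norm_nonneg _)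
    · rw [← fd_comp h5.differentiableAt, h3]
      have h7 : (fun p => g (pm N b p)) =ᶠ[𝓝 p]
          fun p : ℂ × ℂ => p.1 ^ (N * m₁) * (b + p.2) ^ m₂ * U (pm N b p) := h4
      rw [h7.fderiv_eq]
      exact h2 i hi
  filter_upwards [open_pm hN (b := b) hall] with q' hq' _
  obtain ⟨p, hp, h⟩ := hq'
  rw [← hp]
  exact h

end Crest.Agent.R257.NV_790
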