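import Crest.Agent.R257.CLogJ_68
import Crest.Agent.R257.Fr13_808
import Crest.Agent.R257.NV_790

/-!
R257 / CLogK_68 (C-LOG, helper68): from the local statements to the list; inequality (ii);
**C-LOG from a frame**.
-/

set_option autoImplicit false
set_option linter.unusedSectionVars false

open Polynomial Set Filter Topology Metric
open Crest.AlgGeometry.Germ Crest.Agent.R257.AJ387 Crest.Agent.R257.T387
open Crest.Agent.R257.T0_939 (GalPt)

noncomputable section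

namespace Crest.Agent.R257.CLog_68

open Crest.Agent.R257.Defs_219
open Crest.Agent.R257.Fr_808 (jc jc_eq jac2 dt0_an Frame exp_phq2 J2_nonneg sys_pos J2_cont)

variable {f : (Fin 3 → ℂ) → ℂ} {T : TB f}

/-! ### a finite set of members for all points -/

/-- a finite set which works near every point of `t` -/
def Works (T : TB f) (F : Frame f) (c : F.K) (S : Set (ℕ × (E3 → ℂ))) (t : Set (ℂ × ℂ)) : Prop :=
  ∀ p₁ ∈ t, ∃ κ : ℝ, 0 < κ ∧ ∀ᶠ p in 𝓝 p₁, p.1 ≠ 0 → p.2 ≠ 0 → ∃ a ∈ S, ∃ b ∈ S,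
      κ * Bm F c p ≤ Tm T a.1 a.2 b.1 b.2 (F.th c p)

theorem Works.mono {F : Frame f} {c : F.K} {S S' : Set (ℕ × (E3 → ℂ))} {t : Set (ℂ × ℂ)}
    (h : Works T F c S t) (hS : S ⊆ S') : Works T F c S' t := by
  intro p₁ hp
  obtain ⟨κ, hκ, h1⟩ := h p₁ hp
  refine ⟨κ, hκ, ?_⟩
  filter_upwards [h1] with p h2 h3 h4
  obtain ⟨a, ha, b, hb, h5⟩ := h2 h3 h4
  exact ⟨a, hS ha, b, hS hb, h5⟩

theorem exists_S (hf : Iso f) {Dp : ℂ → ℂ[X]} (hD : DpD T Dp) {F : Frame f} (hCR : CR T F) :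
    ∃ S : Set (ℕ × (E3 → ℂ)), S.Finite ∧ (∀ a ∈ S, Good a) ∧ ∀ c, Works T F c S (F.SF c) := by
  have key : ∀ c, ∃ S : Set (ℕ × (E3 → ℂ)), S.Finite ∧ (∀ a ∈ S, Good a) ∧
      Works T F c S (F.SF c) := by
    intro c
    refine (F.isCompact_SF c).induction_on (p := fun t => ∃ S : Set (ℕ × (E3 → ℂ)), S.Finite ∧
      (∀ a ∈ S, Good a) ∧ Works T F c S t) ?_ ?_ ?_ ?_
    · exact ⟨∅, finite_empty, fun a ha => absurd ha (notMem_empty a), fun p hp =>
        absurd hp (notMem_empty p)⟩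
    · rintro s t hst ⟨S, h1, h2, h3⟩
      exact ⟨S, h1, h2, fun p hp => h3 p (hst hp)⟩
    · rintro s t ⟨S, h1, h2, h3⟩ ⟨S', h1', h2', h3'⟩
      refine ⟨S ∪ S', h1.union h1', ?_, ?_⟩
      · rintro a (ha | ha)
        · exact h2 a ha
        · exact h2' a ha
      · rintro p (hp | hp)
        · exact (h3.mono subset_union_left) p hp
        · exact (h3'.mono subset_union_right) p hp
    · intro p₀ hp₀
      obtain ⟨S, h1, h2, κ, hκ, h3⟩ := locB_all hf hD hCR c hp₀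
      refine ⟨{p₁ : ℂ × ℂ | ∀ᶠ p : ℂ × ℂ in 𝓝 p₁, p.1 ≠ 0 → p.2 ≠ 0 → ∃ a ∈ S, ∃ b ∈ S,
        κ * Bm F c p ≤ Tm T a.1 a.2 b.1 b.2 (F.th c p)},
        mem_nhdsWithin_of_mem_nhds h3.eventually_nhds, S, h1, h2, fun p₁ hp₁ => ⟨κ, hκ, hp₁⟩⟩
  choose S h1 h2 h3 using key
  refine ⟨⋃ c, S c, finite_iUnion h1, ?_, fun c => (h3 c).mono (subset_iUnion S c)⟩
  intro a ha
  obtain ⟨c, hc⟩ := mem_iUnion.1 ha
  exact h2 c a hc

/-! ### the list -/

/-- the list of a family of members -/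
def ql (T : TB f) {n : ℕ} (e : Fin n → ℕ × (E3 → ℂ)) (l : Fin (n * 3)) : E3 → ℂ :=
  ![(e (finProdFinEquiv.symm l).1).2, fun x => X1 T x ^ (e (finProdFinEquiv.symm l).1).1,
    fun x => Y1 T x ^ (e (finProdFinEquiv.symm l).1).1] (finProdFinEquiv.symm l).2

/-- the systems -/
def sl {n : ℕ} (l : Fin (n * 3)) : ℕ := ((finProdFinEquiv.symm l).1 : ℕ)

theorem sq_ql {n : ℕ} (e : Fin n → ℕ × (E3 → ℂ)) (l : Fin (n * 3)) (x : E3) :
    sq (ql T e) sl l x =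
      WT T (e (finProdFinEquiv.symm l).1).1 (e (finProdFinEquiv.symm l).1).2 x := by
  unfold sq fib
  rw [Finset.sum_filter, ← finProdFinEquiv.sum_comp, Fintype.sum_prod_type]
  simp only [sl, ql, Equiv.symm_apply_apply]
  rw [Finset.sum_eq_single (finProdFinEquiv.symm l).1]
  · simp only [if_true, Fin.sum_univ_three, Matrix.cons_val_zero, Matrix.cons_val_one,
      Matrix.cons_val, WT]
  · intro i _ hi
    refine Finset.sum_eq_zero fun j _ => ?_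
    rw [if_neg]
    exact fun h => hi (Fin.ext h)
  · intro h
    exact absurd (Finset.mem_univ _) h

theorem ql_zero {n : ℕ} (e : Fin n → ℕ × (E3 → ℂ)) (i : Fin n) :
    ql T e (finProdFinEquiv (i, 0)) = (e i).2 := by
  unfold ql
  rw [Equiv.symm_apply_apply]
  rfl

/-- `J2` against `Tm` -/
theorem J2_ge_Tm {n : ℕ} (e : Fin n → ℕ × (E3 → ℂ)) {x : E3}
    (hs : ∀ l, 0 < sq (ql T e) sl l x) (i i' : Fin n) :
    Tm T (e i).1 (e i).2 (e i').1 (e i').2 x / 2 ≤ J2 f (ql T e) sl x := by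
  unfold J2
  refine div_le_div_of_nonneg_right ?_ (by norm_num)
  set l : Fin (n * 3) := finProdFinEquiv (i, 0) with hl
  set l' : Fin (n * 3) := finProdFinEquiv (i', 0) with hl'
  have h1 : Tm T (e i).1 (e i).2 (e i').1 (e i').2 x =
      Real.exp (-(phq (ql T e) sl l x + phq (ql T e) sl l' x)) *
        ‖Dt f (ql T e l) (ql T e l') x‖ ^ 2 := by
    rw [exp_phq2 (hs l) (hs l'), sq_ql, sq_ql, hl, hl', ql_zero, ql_zero,
      Equiv.symm_apply_apply, Equiv.symm_apply_apply, Tm, div_eq_inv_mul, mul_inv]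
  rw [h1]
  refine le_trans ?_ (Finset.single_le_sum (f := fun l => ∑ m,
    Real.exp (-(phq (ql T e) sl l x + phq (ql T e) sl m x)) *
      ‖Dt f (ql T e l) (ql T e m) x‖ ^ 2)
    (fun _ _ => Finset.sum_nonneg fun _ _ => by positivity) (Finset.mem_univ l))
  exact Finset.single_le_sum (f := fun m =>
    Real.exp (-(phq (ql T e) sl l x + phq (ql T e) sl m x)) *
      ‖Dt f (ql T e l) (ql T e m) x‖ ^ 2) (fun _ _ => by positivity) (Finset.mem_univ l')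

/-! ### no common zeros -/

theorem pt_SL (x : E3) : x = pt (x 0) (T.A (SL T x)) := by
  rw [SL_apply, ContinuousLinearEquiv.apply_symm_apply]
  funext i
  fin_cases i <;> rfl

/-- on `{f = 0}` the coordinate `z` is integral over `(x', y')` -/
theorem V_lo (T : TB f) : ∃ (C r : ℝ), 1 ≤ C ∧ 0 < r ∧ r ≤ 1 ∧ ∀ x : E3, ‖x‖ < r → f x = 0 →
    ‖x‖ ^ T.d ≤ C * ‖SL T x‖ := by
  -- coefficients
  have hcoef : ∀ i, i < T.d → ∃ C : ℝ, 0 ≤ C ∧ ∀ᶠ q in 𝓝 (0 : ℂ × ℂ),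
      ‖(T.P q).coeff i‖ ≤ C * ‖q‖ := by
    intro i hi
    have h0 : (0 : ℂ × ℂ) ∈ BD T.R T.R := ⟨by simpa using T.R_pos, by simpa using T.R_pos⟩
    have h1 : DifferentiableAt ℂ (fun q => (T.P q).coeff i) 0 :=
      (T.coeff_an i 0 h0).differentiableAt
    obtain ⟨C, hC⟩ := h1.isBigO_sub.bound
    refine ⟨max C 0, le_max_right _ _, ?_⟩
    filter_upwards [hC] with q hq
    rw [T.P_zero, coeff_X_pow, if_neg hi.ne, sub_zero, sub_zero] at hq
    exact hq.trans (mul_le_mul_of_nonneg_right (le_max_left _ _) (norm_nonneg _))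
  choose! Cf hCf hcf using hcoef
  set C₁ : ℝ := ∑ i ∈ Finset.range T.d, Cf i with hC₁
  have hC₁0 : 0 ≤ C₁ := Finset.sum_nonneg fun i hi => hCf i (Finset.mem_range.1 hi)
  have hall : ∀ᶠ q in 𝓝 (0 : ℂ × ℂ), ∀ i ∈ Finset.range T.d, ‖(T.P q).coeff i‖ ≤ Cf i * ‖q‖ := by
    rw [Filter.eventually_all_finset]
    intro i hi
    exact hcf i (Finset.mem_range.1 hi)
  have hBD : ∀ᶠ q in 𝓝 (0 : ℂ × ℂ), q ∈ BD T.R T.R :=
    (isOpen_BD _ _).mem_nhds ⟨by simpa using T.R_pos, by simpa using T.R_pos⟩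
  have hSL : Tendsto (SL T) (𝓝 0) (𝓝 0) := by
    have := (SL T).continuous.tendsto 0
    rwa [map_zero] at this
  have hq1 : ∀ᶠ q in 𝓝 (0 : ℂ × ℂ), ‖q‖ ≤ 1 := by
    filter_upwards [Metric.ball_mem_nhds (0 : ℂ × ℂ) one_pos] with q hq
    exact (mem_ball_zero_iff.1 hq).le
  have hx0 : ∀ᶠ x in 𝓝 (0 : E3), ‖x‖ < min 1 T.rz := by
    filter_upwards [Metric.ball_mem_nhds (0 : E3) (lt_min one_pos T.rz_pos)] with x hx
    exact mem_ball_zero_iff.1 hx
  obtain ⟨r, hr, hball⟩ := Metric.eventually_nhds_iff_ball.1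
    ((hSL.eventually (hall.and (hBD.and hq1))).and hx0)
  set A := ‖(T.A : ℂ × ℂ →L[ℂ] ℂ × ℂ)‖ with hA
  refine ⟨max (C₁ + (A + 1) ^ T.d) 1, min r 1, le_max_right _ _, lt_min hr one_pos, min_le_right _ _, ?_⟩
  intro x hx hfx
  have hxr : x ∈ ball (0 : E3) r := mem_ball_zero_iff.2 (hx.trans_le (min_le_left _ _))
  obtain ⟨⟨h1, h2, h3⟩, h4⟩ := hball x hxr
  set q := SL T x with hq
  have hx1 : ‖x‖ ≤ 1 := (h4.trans_le (min_le_left _ _)).le
  have hz : ‖x 0‖ ≤ ‖x‖ := norm_le_pi_norm x 0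
  have hzr : ‖x 0‖ ≤ T.rz := hz.trans (h4.trans_le (min_le_right _ _)).le
  have hroot : (T.P q).eval (x 0) = 0 := by
    have h5 := T.f_eq q h2 (x 0) hzr
    rw [← pt_SL x, hfx] at h5
    exact (mul_eq_zero.1 h5.symm).resolve_left (T.v_ne q h2 _ hzr)
  -- the bound of the root
  have hzd : ‖x 0‖ ^ T.d ≤ C₁ * ‖q‖ := by
    have h5 : (T.P q).eval (x 0) = ∑ i ∈ Finset.range T.d, (T.P q).coeff i * x 0 ^ i + x 0 ^ T.d := by
      rw [eval_eq_sum_range, T.deg _ h2, Finset.sum_range_succ]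
      congr 1
      have h6 : (T.P q).coeff T.d = 1 := by
        have := T.monic _ h2
        rw [Monic, leadingCoeff, T.deg _ h2] at this
        exact this
      rw [h6, one_mul]
    rw [hroot] at h5
    have h6 : x 0 ^ T.d = -∑ i ∈ Finset.range T.d, (T.P q).coeff i * x 0 ^ i := by
      linear_combination -h5
    rw [← norm_pow, h6, norm_neg, hC₁, Finset.sum_mul]
    refine (norm_sum_le _ _).trans (Finset.sum_le_sum fun i hi => ?_)
    rw [norm_mul, norm_pow]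
    calc ‖(T.P q).coeff i‖ * ‖x 0‖ ^ i ≤ Cf i * ‖q‖ * 1 :=
          mul_le_mul (h1 i hi) (pow_le_one₀ (norm_nonneg _) (hz.trans hx1)) (by positivity)
            (mul_nonneg (hCf i (Finset.mem_range.1 hi)) (norm_nonneg _))
      _ = _ := mul_one _
  -- the other coordinates
  have hA1 : ‖T.A q‖ ≤ (A + 1) * ‖q‖ := by
    have := (T.A : ℂ × ℂ →L[ℂ] ℂ × ℂ).le_opNorm q
    have h5 : ‖T.A q‖ ≤ A * ‖q‖ := this
    nlinarith [norm_nonneg q]
  have hAq : T.A q = (x 1, x 2) := by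
    rw [hq, SL_apply, ContinuousLinearEquiv.apply_symm_apply]
  have hx12 : ‖x 1‖ ≤ (A + 1) * ‖q‖ ∧ ‖x 2‖ ≤ (A + 1) * ‖q‖ := by
    rw [hAq] at hA1
    exact ⟨(norm_fst_le (x 1, x 2)).trans hA1, (norm_snd_le (x 1, x 2)).trans hA1⟩
  have hA0 : 0 ≤ A := norm_nonneg _
  have hd := T.d_pos
  have hmain : ∀ i, ‖x i‖ ^ T.d ≤ (C₁ + (A + 1) ^ T.d) * ‖q‖ := by
    have hB : ((A + 1) * ‖q‖) ^ T.d ≤ (A + 1) ^ T.d * ‖q‖ := by
      rw [mul_pow]
      refine mul_le_mul_of_nonneg_left ?_ (by positivity)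
      calc ‖q‖ ^ T.d ≤ ‖q‖ ^ 1 := pow_le_pow_of_le_one (norm_nonneg _) h3 hd
        _ = _ := pow_one _
    have hq0 := norm_nonneg q
    have hAd : 0 ≤ (A + 1) ^ T.d := by positivity
    intro i
    fin_cases i
    · refine hzd.trans ?_
      nlinarith [mul_nonneg hAd hq0]
    · refine ((pow_le_pow_left₀ (norm_nonneg _) hx12.1 _).trans hB).trans ?_
      nlinarith [mul_nonneg hC₁0 hq0]
    · refine ((pow_le_pow_left₀ (norm_nonneg _) hx12.2 _).trans hB).trans ?_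
      nlinarith [mul_nonneg hC₁0 hq0]
  obtain ⟨i, hi⟩ : ∃ i, ‖x‖ = ‖x i‖ := by
    obtain ⟨i, -, hi⟩ := Finset.exists_mem_eq_sup' (s := Finset.univ) ⟨0, Finset.mem_univ _⟩
      (fun i => ‖x i‖)
    refine ⟨i, le_antisymm ?_ (norm_le_pi_norm x i)⟩
    rw [pi_norm_le_iff_of_nonneg (norm_nonneg _)]
    intro l
    rw [← hi]
    exact Finset.le_sup' (fun i => ‖x i‖) (Finset.mem_univ l)
  rw [hi]
  exact (hmain i).trans (mul_le_mul_of_nonneg_right (le_max_left _ _) (norm_nonneg _))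

theorem WT_ge_SL (M : ℕ) (Q : E3 → ℂ) (x : E3) : (‖SL T x‖ ^ M) ^ 2 ≤ WT T M Q x := by
  have h1 : ‖SL T x‖ = max ‖X1 T x‖ ‖Y1 T x‖ := rfl
  unfold WT
  rcases le_total ‖X1 T x‖ ‖Y1 T x‖ with h | h
  · rw [h1, max_eq_right h, norm_pow (Y1 T x)]
    have : 0 ≤ ‖Q x‖ ^ 2 + ‖X1 T x ^ M‖ ^ 2 := by positivity
    linarith
  · rw [h1, max_eq_left h, norm_pow (X1 T x)]
    have : 0 ≤ ‖Q x‖ ^ 2 + ‖Y1 T x ^ M‖ ^ 2 := by positivity
    linarith

/-- **the list is admissible** -/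
theorem sys_ql {n : ℕ} {e : Fin n → ℕ × (E3 → ℂ)} (he : ∀ i, Good (e i)) :
    Sys f (ql T e) sl := by
  have hcase : ∀ (P : (E3 → ℂ) → Prop), (∀ i, P (e i).2) → (∀ i, P fun x => X1 T x ^ (e i).1) →
      (∀ i, P fun x => Y1 T x ^ (e i).1) → ∀ l, P (ql T e l) := by
    intro P h1 h2 h3 l
    unfold ql
    generalize (finProdFinEquiv.symm l).1 = i
    generalize (finProdFinEquiv.symm l).2 = j
    fin_cases j
    · exact h1 i
    · exact h2 i
    · exact h3 i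
  refine ⟨?_, ?_, ?_⟩
  · exact hcase (fun q => AnalyticAt ℂ q 0) (fun i => (he i).2.1) (fun i => (X1_an T 0).pow _)
      (fun i => (Y1_an T 0).pow _)
  · refine hcase (fun q => q 0 = 0) (fun i => (he i).2.2) (fun i => ?_) (fun i => ?_)
    · simp only
      rw [X1_zero, zero_pow (he i).1.ne']
    · simp only
      rw [Y1_zero, zero_pow (he i).1.ne']
  · obtain ⟨C, r, hC, hr, hr1, h⟩ := V_lo T
    set Mx : ℕ := ∑ i, (e i).1 with hMx
    have hle : ∀ i, (e i).1 ≤ Mx := fun i =>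
      Finset.single_le_sum (f := fun i => (e i).1) (fun _ _ => Nat.zero_le _) (Finset.mem_univ i)
    refine ⟨T.d * (Mx * 2), ((C ^ Mx) ^ 2)⁻¹, r, by positivity, hr, fun x hx hfx l => ?_⟩
    have h1 := h x hx hfx
    rw [sq_ql]
    set i := (finProdFinEquiv.symm l).1 with hi
    refine le_trans ?_ (WT_ge_SL _ _ _)
    rw [inv_mul_le_iff₀ (by positivity)]
    have hC0 : 0 ≤ C := by linarith
    calc ‖x‖ ^ (T.d * (Mx * 2)) ≤ ‖x‖ ^ (T.d * ((e i).1 * 2)) :=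
          pow_le_pow_of_le_one (norm_nonneg _) (hx.trans_le hr1).le
            (Nat.mul_le_mul_left _ (Nat.mul_le_mul_right _ (hle i)))
      _ = ((‖x‖ ^ T.d) ^ (e i).1) ^ 2 := by rw [← pow_mul, ← pow_mul]
      _ ≤ ((C * ‖SL T x‖) ^ (e i).1) ^ 2 :=
          pow_le_pow_left₀ (by positivity) (pow_le_pow_left₀ (by positivity) h1 _) _
      _ = (C ^ (e i).1) ^ 2 * (‖SL T x‖ ^ (e i).1) ^ 2 := by rw [mul_pow, mul_pow]
      _ ≤ (C ^ Mx) ^ 2 * (‖SL T x‖ ^ (e i).1) ^ 2 := by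
          refine mul_le_mul_of_nonneg_right (pow_le_pow_left₀ (by positivity) ?_ _) (by positivity)
          exact pow_le_pow_right₀ hC (hle i)

end Crest.Agent.R257.CLog_68
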