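import Crest.Agent.R257.CLogK_68

/-!
R257 / CLog_68 (C-LOG, helper68): inequality (ii) and **C-LOG from a frame**.

* `FrEx`    : frames with base point freeness, whose charts are scaled charts of `T`, exist;
* `clog_of` : `FrEx → CLogStmt`.
-/

set_option autoImplicit false
set_option linter.unusedSectionVars false

open Polynomial Set Filter Topology Metric
open Crest.AlgGeometry.Germ Crest.Agent.R257.AJ387 Crest.Agent.R257.T387
open Crest.Agent.R257.T0_939 (GalPt)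

noncomputable section

namespace Crest.Agent.R257.CLog_68

open Crest.Agent.R257.Defs_219
open Crest.Agent.R257.Fr_808 (jc jc_eq jac2 dt0_an Frame exp_phq2 J2_nonneg sys_pos J2_cont JU)

variable {f : (Fin 3 → ℂ) → ℂ} {T : TB f}

/-- the order of a member of `⋂ p < k, J_p` -/
theorem ord_bd (hf : Iso f) {F : Frame f} {y : F.I → ℝ} (hy : F.IsP y) {k : ℕ} (hk : 2 ≤ k)
    {g : E3 → ℂ} (hg : AnalyticAt ℂ g 0) (hJ : ∀ p : ℝ, 1 ≤ p → p < k → InJ p f g) {c : F.K}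
    {p₀ : ℂ × ℂ} (hp₀ : p₀ ∈ F.SF c) : ∃ C : ℝ, 0 ≤ C ∧ ∀ᶠ p in 𝓝 p₀, p ∈ Fr_808.BD →
      p.1 ≠ 0 → p.2 ≠ 0 → ‖g (F.th c p)‖ ^ 2 ≤ C * Bm F c p ^ k := by
  by_cases hne : ∃ᶠ x in 𝓝 (0 : E3), f x = 0 ∧ g x ≠ 0
  · obtain ⟨v, hv⟩ := F.exists_Ord hg hne
    have hge := fun i => hv.ge_of_InJ hf.an hy hg (a := (k : ℝ))
      (by have : (2 : ℝ) ≤ k := by exact_mod_cast hk
          linarith)
      (fun h => by
        exfalso
        have : (2 : ℝ) ≤ k := by exact_mod_cast hk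
        linarith) hJ i
    have hvn : ∀ i, (k : ℤ) * F.nu i ≤ v i := by
      intro i
      have h1 := hge i
      have h2 := hy.ge i
      have h3 : (k : ℝ) * F.nu i ≤ k * y i := mul_le_mul_of_nonneg_left h2 (by positivity)
      have h4 : (k : ℝ) * F.nu i ≤ v i := h3.trans h1
      exact_mod_cast h4
    obtain ⟨G, hG, -⟩ := hv.2 c p₀ hp₀
    obtain ⟨C, hC, hCb⟩ := bd_near hG.1.continuousAt
    refine ⟨C ^ 2, by positivity, ?_⟩
    filter_upwards [hG.2, hCb] with p h1 h2 hB hp1 hp2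
    have e1 := norm_pos_iff.2 hp1
    have e2 := norm_pos_iff.2 hp2
    rw [h1, norm_mul, mul_pow, mul_comm]
    refine mul_le_mul (pow_le_pow_left₀ (norm_nonneg _) h2 2) ?_ (by positivity) (by positivity)
    -- the monomial
    have hz : ∀ {a : ℝ} (_ : 0 < a) (_ : a ≤ 1) {m : ℕ} {n : ℤ}, (k : ℤ) * n ≤ m →
        (a ^ m) ^ 2 ≤ (a ^ (2 * n)) ^ k := by
      intro a ha ha1 m n hmn
      rw [← pow_mul, ← zpow_natCast (a ^ (2 * n)) k, ← zpow_mul, ← zpow_natCast]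
      refine zpow_le_zpow_right_of_le_one₀ ha ha1 ?_
      push_cast
      linarith
    unfold Frame.mo Bm
    rw [norm_mul, norm_pow, norm_pow, mul_pow, mul_pow]
    refine mul_le_mul (hz e1 hB.1 (hvn _)) ?_ (by positivity) (by positivity)
    rcases h3 : F.e2 c with _ | i
    · simp [Fr_808.ex2]
    · have h4 : F.nu2 c = F.nu i := F.nu2_some c i h3
      rw [if_neg (by simp), h4]
      exact hz e2 hB.2 (hvn i)
  · refine ⟨0, le_rfl, ?_⟩
    rw [not_frequently] at hne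
    have hcont : Tendsto (F.th c) (𝓝 p₀) (𝓝 0) := by
      have := (F.an c _ hp₀.1).continuousAt.tendsto
      rwa [F.th_SF hp₀] at this
    filter_upwards [hcont.eventually hne, F.onV' hf.an hp₀] with p h1 h2 _ _ _
    have h3 : g (F.th c p) = 0 := by
      by_contra h
      exact h1 ⟨h2, h⟩
    rw [h3, norm_zero, zero_mul]
    norm_num

/-- **inequality (ii) near a point of the special fibre** -/
theorem cii_near (hf : Iso f) {F : Frame f} {n : ℕ} {e : Fin n → ℕ × (E3 → ℂ)}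
    (he : ∀ i, Good (e i)) (hW : ∀ c, Works T F c (range e) (F.SF c)) {k : ℕ} (hk : 2 ≤ k)
    {g h : E3 → ℂ} (hg : AnalyticAt ℂ g 0) (hh : AnalyticAt ℂ h 0)
    (hJ : ∀ p : ℝ, 1 ≤ p → p < k → InJ p f g ∧ InJ p f h) {c : F.K} {p₀ : ℂ × ℂ}
    (hp₀ : p₀ ∈ F.SF c) : ∃ C : ℝ, ∀ᶠ p in 𝓝 p₀, p ∈ Fr_808.BD → p ∉ F.SF c →
      (‖g (F.th c p)‖ ^ 2 + ‖h (F.th c p)‖ ^ 2) ^ (1 / (k : ℝ)) ≤
        C * J2 f (ql T e) sl (F.th c p) := by
  obtain ⟨y, hy⟩ := F.exists_P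
  obtain ⟨C₁, hC₁, h1⟩ := ord_bd hf hy hk hg (fun p a b => (hJ p a b).1) hp₀
  obtain ⟨C₂, hC₂, h2⟩ := ord_bd hf hy hk hh (fun p a b => (hJ p a b).2) hp₀
  obtain ⟨κ, hκ, h3⟩ := hW c p₀ hp₀
  have hS : Sys f (ql T e) sl := sys_ql he
  have hcont : ContinuousAt (F.th c) p₀ := (F.an c _ hp₀.1).continuousAt
  have hth0 := F.th_SF hp₀
  have hto : ∀ {P : E3 → Prop}, (∀ᶠ x in 𝓝 (0 : E3), P x) → ∀ᶠ p in 𝓝 p₀, P (F.th c p) := by
    intro P hP
    rw [← hth0] at hP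
    exact hcont.eventually hP
  have hkpos : 0 < k := by omega
  have hk0 : (0 : ℝ) ≤ 1 / (k : ℝ) := by positivity
  set D : ℝ := (C₁ + C₂) ^ (1 / (k : ℝ)) * (2 / κ) with hD
  refine ⟨D, ?_⟩
  have hmain : ∀ᶠ p in 𝓝 p₀, p.1 ≠ 0 → p.2 ≠ 0 → p ∈ Fr_808.BD →
      (‖g (F.th c p)‖ ^ 2 + ‖h (F.th c p)‖ ^ 2) ^ (1 / (k : ℝ)) ≤
        D * J2 f (ql T e) sl (F.th c p) := by
    filter_upwards [h1, h2, h3, hto (sys_pos hS)] with p a1 a2 a3 a4 hp1 hp2 hB
    have b1 := a1 hB hp1 hp2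
    have b2 := a2 hB hp1 hp2
    obtain ⟨a, ⟨i, rfl⟩, b, ⟨i', rfl⟩, b3⟩ := a3 hp1 hp2
    have hne : F.th c p ≠ 0 := by
      refine F.th_ne hB fun hS' => ?_
      rcases hS'.2 with h | h
      · exact hp1 h
      · exact hp2 h.2
    have hs := a4 hne (F.onV c p hB)
    have b4 := J2_ge_Tm (f := f) e hs i i'
    have hBm := Bm_pos F c hp1 hp2
    have b5 : (‖g (F.th c p)‖ ^ 2 + ‖h (F.th c p)‖ ^ 2) ^ (1 / (k : ℝ)) ≤
        (C₁ + C₂) ^ (1 / (k : ℝ)) * Bm F c p := by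
      calc (‖g (F.th c p)‖ ^ 2 + ‖h (F.th c p)‖ ^ 2) ^ (1 / (k : ℝ))
          ≤ ((C₁ + C₂) * Bm F c p ^ k) ^ (1 / (k : ℝ)) := by
            refine Real.rpow_le_rpow (by positivity) ?_ hk0
            rw [add_mul]
            exact add_le_add b1 b2
        _ = _ := by
            rw [Real.mul_rpow (by positivity) (by positivity)]
            congr 1
            rw [one_div]
            exact Real.pow_rpow_inv_natCast hBm.le hkpos.ne'
    have b6 : Bm F c p ≤ 2 / κ * J2 f (ql T e) sl (F.th c p) := by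
      have : κ * Bm F c p ≤ 2 * J2 f (ql T e) sl (F.th c p) := by linarith
      rw [div_mul_eq_mul_div, le_div_iff₀ hκ]
      linarith
    have hC0 : 0 ≤ (C₁ + C₂) ^ (1 / (k : ℝ)) := Real.rpow_nonneg (by positivity) _
    calc _ ≤ (C₁ + C₂) ^ (1 / (k : ℝ)) * Bm F c p := b5
      _ ≤ (C₁ + C₂) ^ (1 / (k : ℝ)) * (2 / κ * J2 f (ql T e) sl (F.th c p)) :=
          mul_le_mul_of_nonneg_left b6 hC0
      _ = _ := by rw [hD]; ring
  filter_upwards [hmain, hmain.eventually_nhds, (F.an c _ hp₀.1).eventually_analyticAt,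
    hto hf.an.eventually_analyticAt, hto hg.eventually_analyticAt, hto hh.eventually_analyticAt,
    hto (Filter.eventually_all.2 fun l => (hS.an l).eventually_analyticAt),
    hto (sys_pos hS)] with p h1 h1' h2 h3 h4 h5 h6 h7 hB hSF
  obtain ⟨hp1, -⟩ := F.off hB hSF
  by_cases hp2 : p.2 ≠ 0
  · exact h1 hp1 hp2 hB
  · -- by continuity
    have hp2' : p.2 = 0 := not_not.1 hp2
    have hs := h7 (F.th_ne hB hSF) (F.onV c p hB)
    have hc1 : ContinuousAt (fun p => (‖g (F.th c p)‖ ^ 2 + ‖h (F.th c p)‖ ^ 2) ^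
        (1 / (k : ℝ))) p := by
      refine ContinuousAt.rpow_const (ContinuousAt.add ?_ ?_) (Or.inr hk0)
      · exact (ContinuousAt.comp (g := g) (f := F.th c) h4.continuousAt h2.continuousAt).norm.pow 2
      · exact (ContinuousAt.comp (g := h) (f := F.th c) h5.continuousAt h2.continuousAt).norm.pow 2
    have hc2 : ContinuousAt (fun p => D * J2 f (ql T e) sl (F.th c p)) p :=
      continuousAt_const.mul (ContinuousAt.comp (g := J2 f (ql T e) sl) (f := F.th c)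
        (J2_cont h3 h6 hs) h2.continuousAt)
    have hto' : Tendsto (fun t : ℝ => (p.1, (t : ℂ))) (𝓝[>] 0) (𝓝 p) := by
      have h8 : ContinuousAt (fun t : ℝ => (p.1, (t : ℂ))) 0 := by fun_prop
      have h9 : (p.1, ((0 : ℝ) : ℂ)) = p := Prod.ext rfl (by simp [hp2'])
      have h10 := h8.tendsto
      simp only [h9] at h10
      exact h10.mono_left nhdsWithin_le_nhds
    refine le_of_tendsto_of_tendsto (hc1.tendsto.comp hto') (hc2.tendsto.comp hto') ?_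
    have h8 : ∀ᶠ t : ℝ in 𝓝[>] 0, t < 1 :=
      Filter.Eventually.filter_mono nhdsWithin_le_nhds (eventually_lt_nhds one_pos)
    filter_upwards [hto'.eventually h1', h8, self_mem_nhdsWithin] with t h9 h10 h11
    have h11' : (0 : ℝ) < t := h11
    refine h9 hp1 (by simpa using h11'.ne') ⟨hB.1, ?_⟩
    simp only [Complex.norm_real, Real.norm_eq_abs, abs_of_pos h11']
    exact h10.le

/-- **inequality (ii)** -/
theorem cii_of (hf : Iso f) {F : Frame f} {n : ℕ} {e : Fin n → ℕ × (E3 → ℂ)}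
    (he : ∀ i, Good (e i)) (hW : ∀ c, Works T F c (range e) (F.SF c)) {k : ℕ} (hk : 2 ≤ k)
    {g h : E3 → ℂ} (hg : AnalyticAt ℂ g 0) (hh : AnalyticAt ℂ h 0)
    (hJ : ∀ p : ℝ, 1 ≤ p → p < k → InJ p f g ∧ InJ p f h) : CII f g h k (ql T e) sl := by
  obtain ⟨C, hC⟩ := F.glob
    (fun C x => (‖g x‖ ^ 2 + ‖h x‖ ^ 2) ^ (1 / (k : ℝ)) ≤ C * J2 f (ql T e) sl x)
    (fun C C' x hCC h => h.trans (mul_le_mul_of_nonneg_right hCC (J2_nonneg _ _ _ _)))
    (fun c p₀ hp => cii_near hf he hW hk hg hh hJ hp)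
  obtain ⟨r, hr, hball⟩ := Metric.eventually_nhds_iff_ball.1 hC
  have hD : 0 < max C 1 := lt_of_lt_of_le one_pos (le_max_right _ _)
  refine ⟨(max C 1)⁻¹, r, inv_pos.2 hD, hr, fun x hx hfx hx0 => ?_⟩
  have h1 := hball x (by simpa using hx) hx0 hfx
  rw [inv_mul_le_iff₀ hD]
  exact h1.trans (mul_le_mul_of_nonneg_right (le_max_left _ _) (J2_nonneg _ _ _ _))

/-- **C-LOG from a frame** -/
theorem clog_frame (hf : Iso f) (hm : 0 < mstar f) (hG : GalPt T) (F : Frame f) (hb : F.BPF)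
    (hCR : CR T F) : ∃ (L : ℕ) (q : Fin L → E3 → ℂ) (s : Fin L → ℕ), Sys f q s ∧
    (∀ (k : ℕ) (g h : E3 → ℂ), 2 ≤ k → AnalyticAt ℂ g 0 → AnalyticAt ℂ h 0 →
      (∀ p : ℝ, 1 ≤ p → p < k → InJ p f g ∧ InJ p f h) → CII f g h k q s) ∧
    ∃ (k : ℕ) (g h : E3 → ℂ), XF_157.Exact f k g h ∧ JU f k g h ∧ CI f g h q s := by
  obtain ⟨Dp, hD⟩ := exists_DpD T hG
  obtain ⟨S, hSf, hSg, hSW⟩ := exists_S hf hD hCR
  obtain ⟨n, e, -, rfl⟩ := hSf.fin_param
  have he : ∀ i, Good (e i) := fun i => hSg _ ⟨i, rfl⟩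
  exact ⟨n * 3, ql T e, sl, sys_ql he,
    fun k g h hk hg hh hJ => cii_of hf he hSW hk hg hh hJ,
    Fr_808.ci_of NV_790.nv hf hm F hb _ _ (sys_ql he)⟩

/-- frames with base point freeness, whose charts are scaled charts of `T`, exist -/
def FrEx : Prop := ∀ f : E3 → ℂ, Iso f → 0 < mstar f →
  ∃ (T : TB f) (F : Frame f), GalPt T ∧ F.BPF ∧ CR T F

/-- **C-LOG** -/
theorem clog_of (h : FrEx) : CLogStmt := by
  intro f hf hm
  obtain ⟨T, F, hG, hb, hCR⟩ := h f hf hm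
  exact clog_frame hf hm hG F hb hCR

end Crest.Agent.R257.CLog_68
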