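import Crest.Agent.R257.KlD_540
import Crest.Agent.R257.CNS_939
import Crest.Agent.R257.Sh10_297

/-!
R257 / KlE_540: for an isolated germ `f`, regular in `x_0`, the points of `{f = 0, ∂_0 f ≠ 0}`
accumulate at `0`.
-/

set_option autoImplicit false

open Topology Filter MeasureTheory Set
open scoped ENNReal ContDiff Real
open Crest.AlgGeometry.Germ

noncomputable section

namespace Crest.Agent.R257.KlE_540

open Crest.Agent.R257.Defs_219 Crest.Agent.R257.KlC_540

theorem an_coordDeriv {n : ℕ} {f : (Fin n → ℂ) → ℂ} {x : Fin n → ℂ} (hf : AnalyticAt ℂ f x)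
    (j : Fin n) : AnalyticAt ℂ (coordDeriv f j) x :=
  ((ContinuousLinearMap.apply ℂ ℂ (Pi.single j 1 : Fin n → ℂ)).analyticAt _).comp hf.fderiv

/-- the critical point of an isolated germ is isolated -/
theorem isolated {f : E3 → ℂ} (hf : AnalyticAt ℂ f 0) (hfin : ColFin (par f)) :
    ∀ᶠ x in 𝓝 (0 : E3), (∀ j, coordDeriv f j x = 0) → x = 0 := by
  have h := UI939.cnStmt 3 (fun j (q : E3 × ℂ) => coordDeriv f j q.1) (fun j => by
      have h1 := an_coordDeriv hf j
      exact AnalyticAt.comp (g := coordDeriv f j) (f := fun q : E3 × ℂ => q.1)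
        (x := ((0, 0) : E3 × ℂ)) h1 ((ContinuousLinearMap.fst ℂ E3 ℂ).analyticAt _))
    hfin (Frequently.of_forall fun t => le_rfl)
  have h2 : Tendsto (fun x : E3 => (x, (0 : ℂ))) (𝓝 0) (𝓝 ((0 : E3), (0 : ℂ))) := by
    have : Continuous (fun x : E3 => (x, (0 : ℂ))) := by fun_prop
    exact this.tendsto' _ _ rfl
  exact h2.eventually h

theorem isolated' {f : E3 → ℂ} (hf : AnalyticAt ℂ f 0) (hfin : ColFin (par f)) :
    ∀ᶠ x in 𝓝[≠] (0 : E3), ∃ j, coordDeriv f j x ≠ 0 := by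
  rw [eventually_nhdsWithin_iff]
  filter_upwards [isolated hf hfin] with x hx h0
  by_contra h
  push Not at h
  exact h0 (hx h)

/-- persistence of zeros (minimum modulus) -/
theorem exists_zero {f : E3 → ℂ} (hf : Iso f) {δ : ℝ} (hδ : 0 < δ) :
    ∀ᶠ y : Fin 2 → ℂ in 𝓝 0, ∃ z : ℂ, ‖z‖ < δ ∧ f (Fin.cons z y) = 0 := by
  obtain ⟨r, hr, hfr⟩ := hf.an.exists_ball_analyticOnNhd
  have hc0 : (Fin.cons 0 0 : E3) = 0 := by
    funext i; refine Fin.cases ?_ (fun j => ?_) i <;> simp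
  -- the slice
  have han : AnalyticAt ℂ (fun z : ℂ => f (Fin.cons z 0)) 0 := by
    have h1 : AnalyticAt ℂ (fun z : ℂ => (Fin.cons z 0 : E3)) 0 := by
      rw [analyticAt_pi_iff]
      intro i
      refine Fin.cases ?_ (fun j => ?_) i
      · exact analyticAt_id
      · exact analyticAt_const
    refine AnalyticAt.fun_comp (g := f) ?_ h1
    rw [hc0]; exact hf.an
  have hne : ∀ᶠ z in 𝓝[≠] (0 : ℂ), f (Fin.cons z 0) ≠ 0 := by
    rcases han.eventually_eq_zero_or_eventually_ne_zero with h | h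
    · exact absurd (h.filter_mono nhdsWithin_le_nhds) (by
        intro h'
        exact hf.reg (h'.mono fun z hz => by simpa using hz))
    · exact h
  obtain ⟨ρ₀, hρ₀, hball⟩ := Metric.eventually_nhds_iff_ball.1 (eventually_nhdsWithin_iff.1 hne)
  set ρ : ℝ := min (min (δ / 2) (r / 2)) (ρ₀ / 2) with hρ
  have hρ0 : 0 < ρ := by positivity
  have hρδ : ρ < δ := (min_le_left _ _).trans_lt ((min_le_left _ _).trans_lt (by linarith))
  have hρr : ρ < r := (min_le_left _ _).trans_lt ((min_le_right _ _).trans_lt (by linarith))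
  have hρρ : ρ < ρ₀ := (min_le_right _ _).trans_lt (by linarith)
  -- continuity on the compact sphere
  have hcons : Continuous (fun p : (Fin 2 → ℂ) × ℂ => (Fin.cons p.2 p.1 : E3)) := by
    refine continuous_pi fun i => ?_
    refine Fin.cases ?_ (fun j => ?_) i
    · exact continuous_snd
    · exact (continuous_apply j).comp continuous_fst
  have hfc : ∀ z : ℂ, ‖z‖ < r → ContinuousAt (fun p : (Fin 2 → ℂ) × ℂ => f (Fin.cons p.2 p.1))
      (0, z) := by
    intro z hz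
    refine ContinuousAt.comp (g := f) ?_ hcons.continuousAt
    refine (hfr _ ?_).continuousAt
    exact (ball_eq hr z 0).2 ⟨hz, fun i => by simpa using hr⟩
  -- lower bound on the sphere at `y = 0`
  have hsph : IsCompact (Metric.sphere (0 : ℂ) ρ) := isCompact_sphere _ _
  obtain ⟨m, hm, hmle⟩ : ∃ m : ℝ, 0 < m ∧ ∀ᶠ y : Fin 2 → ℂ in 𝓝 0,
      ∀ z ∈ Metric.sphere (0 : ℂ) ρ, m ≤ ‖f (Fin.cons z y)‖ := by
    have hne' : ∀ z ∈ Metric.sphere (0 : ℂ) ρ, f (Fin.cons z 0) ≠ 0 := by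
      intro z hz
      have hz' : ‖z‖ = ρ := by simpa using hz
      refine hball z (by simpa using hz' ▸ hρρ) ?_
      rintro rfl
      simp at hz'; linarith
    have hcts : ContinuousOn (fun z : ℂ => ‖f (Fin.cons z 0)‖) (Metric.sphere (0 : ℂ) ρ) := by
      intro z hz
      have hz' : ‖z‖ = ρ := by simpa using hz
      have h1 : ContinuousAt (fun z : ℂ => f (Fin.cons z 0)) z :=
        ContinuousAt.comp (g := fun p : (Fin 2 → ℂ) × ℂ => f (Fin.cons p.2 p.1))
          (f := fun z : ℂ => ((0 : Fin 2 → ℂ), z)) (hfc z (by linarith))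
          (Continuous.prodMk_right 0).continuousAt
      exact h1.norm.continuousWithinAt
    obtain ⟨z₀, hz₀, hmin⟩ := hsph.exists_isMinOn
      (by exact ⟨(ρ : ℂ), by simp [abs_of_pos hρ0]⟩) hcts
    have hm0 : 0 < ‖f (Fin.cons z₀ 0)‖ := norm_pos_iff.2 (hne' z₀ hz₀)
    refine ⟨‖f (Fin.cons z₀ 0)‖ / 2, by linarith, ?_⟩
    refine hsph.eventually_forall_of_forall_eventually fun z hz => ?_
    have hz' : ‖z‖ = ρ := by simpa using hz
    have h1 := (hfc z (by linarith)).norm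
    have h2 : ‖f (Fin.cons z₀ 0)‖ / 2 < ‖f (Fin.cons z 0)‖ := by
      have := hmin hz
      simp only [mem_ofPred_eq] at this
      linarith
    have h3 := h1.eventually (lt_mem_nhds h2)
    exact h3.mono fun p hp => hp.le
  have hsmall : ∀ᶠ y : Fin 2 → ℂ in 𝓝 0, ‖f (Fin.cons 0 y)‖ < m := by
    have h1 : ContinuousAt (fun y : Fin 2 → ℂ => f (Fin.cons 0 y)) 0 :=
      ContinuousAt.comp (g := fun p : (Fin 2 → ℂ) × ℂ => f (Fin.cons p.2 p.1))
        (f := fun y : Fin 2 → ℂ => (y, (0 : ℂ))) (hfc 0 (by simpa using hr))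
        (Continuous.prodMk_left 0).continuousAt
    have h2 : ‖f (Fin.cons 0 (0 : Fin 2 → ℂ))‖ < m := by
      rw [hc0, hf.zero]; simpa using hm
    exact h1.norm.eventually (gt_mem_nhds h2)
  have hyr : ∀ᶠ y : Fin 2 → ℂ in 𝓝 0, ‖y‖ < r :=
    (continuous_norm.tendsto' _ _ norm_zero).eventually (gt_mem_nhds hr)
  filter_upwards [hmle, hsmall, hyr] with y h1 h2 h3
  by_contra hno
  push Not at hno
  have hyi : ∀ i, ‖y i‖ < r := fun i => (norm_le_pi_norm y i).trans_lt h3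
  have hd : ∀ z : ℂ, ‖z‖ < r → DifferentiableAt ℂ (fun z : ℂ => f (Fin.cons z y)) z := by
    intro z hz
    have h4 := (hfr _ ((ball_eq hr z y).2 ⟨hz, hyi⟩)).differentiableAt
    exact h4.comp z (hasDerivAt_cons z y).differentiableAt
  have hnz : ∀ z ∈ Metric.closedBall (0 : ℂ) ρ, f (Fin.cons z y) ≠ 0 := fun z hz =>
    hno z (by have : ‖z‖ ≤ ρ := by simpa using hz
              linarith)
  have hdc : DiffContOnCl ℂ (fun z : ℂ => (f (Fin.cons z y))⁻¹) (Metric.ball 0 ρ) := by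
    refine DifferentiableOn.diffContOnCl fun z hz => ?_
    rw [closure_ball _ hρ0.ne'] at hz
    have hz' : ‖z‖ ≤ ρ := by simpa using hz
    exact ((hd z (by linarith)).inv (hnz z hz)).differentiableWithinAt
  have h5 := Complex.norm_le_of_forall_mem_frontier_norm_le Metric.isBounded_ball hdc
    (C := m⁻¹) (fun z hz => by
      rw [frontier_ball _ hρ0.ne'] at hz
      rw [norm_inv]
      exact inv_anti₀ hm (h1 z hz)) (z := 0)
    (subset_closure (Metric.mem_ball_self hρ0))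
  rw [norm_inv] at h5
  have h6 : 0 < ‖f (Fin.cons 0 y)‖ := norm_pos_iff.2 (hnz 0 (Metric.mem_closedBall_self hρ0.le))
  have h7 : m ≤ ‖f (Fin.cons 0 y)‖ := by
    by_contra h8
    push Not at h8
    have := inv_strictAnti₀ h6 h8
    linarith
  linarith

/-- points of `{f = 0, ∂_0 f ≠ 0}` accumulate at `0` -/
theorem frequently_reg {f : E3 → ℂ} (hf : Iso f) :
    ∃ᶠ x in 𝓝 (0 : E3), f x = 0 ∧ coordDeriv f 0 x ≠ 0 := by
  rw [Filter.frequently_iff]
  intro W hW
  obtain ⟨r, hr, hball⟩ := Metric.eventually_nhds_iff_ball.1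
    ((hf.an.eventually_analyticAt.and (isolated hf.an hf.fin)).and hW)
  set V : Set ((Fin 2 → ℂ) × ℂ) := {p | ‖p.2‖ < r ∧ ∀ i, ‖p.1 i‖ < r} with hV
  have hVo : IsOpen V := by
    refine IsOpen.inter (isOpen_lt continuous_snd.norm continuous_const) ?_
    have : {p : (Fin 2 → ℂ) × ℂ | ∀ i, ‖p.1 i‖ < r} = ⋂ i, {p | ‖p.1 i‖ < r} := by
      ext p; simp
    change IsOpen {p : (Fin 2 → ℂ) × ℂ | ∀ i, ‖p.1 i‖ < r}
    rw [this]
    exact isOpen_iInter_of_finite fun i =>
      isOpen_lt ((continuous_apply i).comp continuous_fst).norm continuous_const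
  -- the linear isomorphism
  set ι : ((Fin 2 → ℂ) × ℂ) →L[ℂ] E3 := ContinuousLinearMap.pi (fun i : Fin 3 =>
    Fin.cases (motive := fun _ => ((Fin 2 → ℂ) × ℂ) →L[ℂ] ℂ) (ContinuousLinearMap.snd ℂ _ _)
      (fun j => (ContinuousLinearMap.proj j).comp (ContinuousLinearMap.fst ℂ _ _)) i) with hι
  have hιe : ∀ p : (Fin 2 → ℂ) × ℂ, ι p = (Fin.cons p.2 p.1 : E3) := by
    intro p
    funext i
    refine Fin.cases ?_ (fun j => ?_) i <;> simp [hι]
  set F : (Fin 2 → ℂ) × ℂ → ℂ := fun p => f (Fin.cons p.2 p.1) with hF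
  have hFι : F = fun p => f (ι p) := by
    funext p; rw [hιe]
  have hmem : ∀ p ∈ V, ι p ∈ Metric.ball (0 : E3) r := by
    intro p hp
    rw [hιe]
    exact (ball_eq hr p.2 p.1).2 hp
  have hFan : AnalyticOnNhd ℂ F V := by
    intro p hp
    rw [hFι]
    exact AnalyticAt.fun_comp (g := f) (f := ι) (hball _ (hmem p hp)).1.1 (ι.analyticAt p)
  have hiso : ∀ p ∈ V, p ≠ 0 → F p = 0 → fderiv ℂ F p ≠ 0 := by
    intro p hp hp0 _ hd
    have hd1 : fderiv ℂ F p = (fderiv ℂ f (ι p)).comp ι := by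
      rw [hFι]
      have h1 : HasFDerivAt f (fderiv ℂ f (ι p)) (ι p) :=
        (hball _ (hmem p hp)).1.1.differentiableAt.hasFDerivAt
      exact (h1.comp p ι.hasFDerivAt).fderiv
    have h2 : ι p = 0 := by
      refine (hball _ (hmem p hp)).1.2 fun j => ?_
      have hsurj : ∃ q : (Fin 2 → ℂ) × ℂ, ι q = Pi.single j 1 := by
        refine ⟨(Fin.tail (Pi.single j 1 : E3), (Pi.single j 1 : E3) 0), ?_⟩
        rw [hιe]
        exact Fin.cons_self_tail (α := fun _ => ℂ) (Pi.single j 1 : E3)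
      obtain ⟨q, hq⟩ := hsurj
      have h3 : fderiv ℂ F p q = 0 := by rw [hd]; rfl
      rw [hd1] at h3
      simp only [ContinuousLinearMap.comp_apply, hq] at h3
      exact h3
    apply hp0
    rw [hιe] at h2
    have h3 : p.2 = 0 := by simpa using congrFun h2 0
    have h4 : p.1 = 0 := by
      funext i
      simpa using congrFun h2 i.succ
    exact Prod.ext h4 h3
  have hae := Sh_297.ae_simple (volume : Measure (Fin 2 → ℂ)) hVo hFan hiso
  have hz := exists_zero hf (δ := r) hr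
  have hyr : ∀ᶠ y : Fin 2 → ℂ in 𝓝 0, ‖y‖ < r :=
    (continuous_norm.tendsto' _ _ norm_zero).eventually (gt_mem_nhds hr)
  have hnull : (volume : Measure (Fin 2 → ℂ)) {y | ¬ (∀ z, (y, z) ∈ V → F (y, z) = 0 →
      Sh_297.vd F (y, z) ≠ 0)} = 0 := hae
  obtain ⟨s, hs, hball2⟩ := Metric.eventually_nhds_iff_ball.1 (hz.and hyr)
  obtain ⟨y, hys, hy⟩ : ∃ y ∈ Metric.ball (0 : Fin 2 → ℂ) s, ∀ z, (y, z) ∈ V → F (y, z) = 0 →
      Sh_297.vd F (y, z) ≠ 0 := by
    by_contra h
    push Not at h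
    have h1 : Metric.ball (0 : Fin 2 → ℂ) s ⊆ {y | ¬ (∀ z, (y, z) ∈ V → F (y, z) = 0 →
      Sh_297.vd F (y, z) ≠ 0)} := by
      intro y hy h2
      obtain ⟨z, h3, h4, h5⟩ := h y hy
      exact h2 z h3 h4 h5
    have h2 := measure_mono_null h1 hnull
    exact (Metric.measure_ball_pos volume (0 : Fin 2 → ℂ) hs).ne' h2
  obtain ⟨⟨z, hzr, hfz⟩, hyr'⟩ := hball2 y hys
  have hyi : ∀ i, ‖y i‖ < r := fun i => (norm_le_pi_norm y i).trans_lt hyr'
  have hx : (Fin.cons z y : E3) ∈ Metric.ball (0 : E3) r := (ball_eq hr z y).2 ⟨hzr, hyi⟩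
  refine ⟨Fin.cons z y, (hball _ hx).2, hfz, ?_⟩
  have h1 := hy z ⟨hzr, hyi⟩ hfz
  have h2 : HasDerivAt (fun z => f (Fin.cons z y)) (coordDeriv f 0 (Fin.cons z y)) z := by
    have h3 : HasFDerivAt f (fderiv ℂ f (Fin.cons z y)) (Fin.cons z y) :=
      (hball _ hx).1.1.differentiableAt.hasFDerivAt
    exact h3.comp_hasDerivAt z (hasDerivAt_cons z y)
  rw [← h2.deriv]
  exact h1

end Crest.Agent.R257.KlE_540
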