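import Crest.Agent.R257.Cl2A_475
import Crest.Agent.R257.Kp6_405
import Crest.Agent.R257.KlE_540
import Crest.Agent.R257.LCc_472

/-!
R257 / Cl2B_475: germs `f` in three variables with `f ∘ Ψ = φ(z,y) + x² U`, `U 0 ≠ 0`:
smoothness of `{φ = 0}` off the origin, and `Klt f` when `φ` has an Euler field of trace
`1/2 + 1/h`.
-/

set_option autoImplicit false
set_option linter.unusedSectionVars false
set_option linter.deprecated false

open Set Filter Topology Metric MeasureTheory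
open scoped ENNReal
open Crest.AlgGeometry.Germ

noncomputable section

namespace Crest.Agent.R257.Cl2_475

open Crest.Agent.R257.Kp_405 Crest.Agent.R257.Defs_219

/-- `φ` is a reduced plane germ of `f`: in suitable analytic coordinates `f = φ(z,y) + x² U` -/
def Red (f : E3 → ℂ) (φ : ℂ × ℂ → ℂ) : Prop :=
  AnalyticAt ℂ φ 0 ∧ ∃ (Ψ : (ℂ × ℂ) × ℂ → E3) (Ψ' : E3 → (ℂ × ℂ) × ℂ) (U : (ℂ × ℂ) × ℂ → ℂ),
    LB Ψ Ψ' ∧ AnalyticAt ℂ U 0 ∧ U 0 ≠ 0 ∧
      ∀ᶠ q in 𝓝 (0 : (ℂ × ℂ) × ℂ), f (Ψ q) = φ q.1 + q.2 ^ 2 * U q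

lemma an_comp_LB {E F : Type*} [NormedAddCommGroup E] [NormedSpace ℂ E] [FiniteDimensional ℂ E]
    [NormedAddCommGroup F] [NormedSpace ℂ F] [FiniteDimensional ℂ F] {f : F → ℂ}
    (hf : AnalyticAt ℂ f 0) {Φ : E → F} {Ψ : F → E} (h : LB Φ Ψ) :
    AnalyticAt ℂ (fun w => f (Φ w)) 0 :=
  AnalyticAt.comp (g := f) (f := Φ) (by rw [h.map0]; exact hf) h.an

lemma tendsto_emb : Tendsto (fun w : ℂ × ℂ => (w, (0 : ℂ))) (𝓝 0) (𝓝 (0 : (ℂ × ℂ) × ℂ)) :=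
  (by fun_prop : Continuous (fun w : ℂ × ℂ => (w, (0 : ℂ)))).tendsto' _ _ rfl

/-- the zero set of the reduced germ is smooth off the origin -/
theorem Red.ns {f : E3 → ℂ} {φ : ℂ × ℂ → ℂ} (hf : Iso f) (h : Red f φ) : NS φ := by
  obtain ⟨hφ, Ψ, Ψ', U, hL, hU, hU0, he⟩ := h
  have hiso : ∀ᶠ x in 𝓝 (0 : E3), x ≠ 0 → ∃ j, coordDeriv f j x ≠ 0 :=
    eventually_nhdsWithin_iff.1 (KlE_540.isolated' hf.an hf.fin)
  have t2 := hL.tendsto.comp tendsto_emb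
  unfold NS
  filter_upwards [t2.eventually hiso, tendsto_emb.eventually he.eventually_nhds,
    tendsto_emb.eventually hL.left, tendsto_emb.eventually hL.fderiv_comp,
    tendsto_emb.eventually hL.an.eventually_analyticAt, hφ.eventually_analyticAt,
    tendsto_emb.eventually hU.eventually_analyticAt,
    t2.eventually hf.an.eventually_analyticAt] with w a b c d e g k l h0 h1 h2
  have hne : Ψ (w, 0) ≠ 0 := by
    intro h3
    rw [h3, hL.map0'] at c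
    exact h0 (congrArg Prod.fst c).symm
  obtain ⟨j, hj⟩ := a hne
  apply hj
  -- the derivative of the model
  have e1 : HasFDerivAt (fun q : (ℂ × ℂ) × ℂ => φ q.1)
      ((fderiv ℂ φ w).comp (ContinuousLinearMap.fst ℂ (ℂ × ℂ) ℂ)) (w, 0) := by
    have : HasFDerivAt φ (fderiv ℂ φ w) (((w, (0 : ℂ)) : (ℂ × ℂ) × ℂ)).1 :=
      g.differentiableAt.hasFDerivAt
    exact this.comp (w, (0 : ℂ)) hasFDerivAt_fst
  have e2 : HasFDerivAt (fun q : (ℂ × ℂ) × ℂ => q.2 ^ 2)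
      ((2 * (0 : ℂ)) • (ContinuousLinearMap.snd ℂ (ℂ × ℂ) ℂ)) (w, 0) := by
    have := (hasFDerivAt_snd (𝕜 := ℂ) (E := ℂ × ℂ) (F := ℂ) (p := (w, (0 : ℂ)))).pow 2
    refine this.congr_fderiv ?_
    ext v <;> simp
  have e3 := e1.add (e2.mul k.differentiableAt.hasFDerivAt)
  have e4 : HasFDerivAt (fun q => f (Ψ q)) (0 : (ℂ × ℂ) × ℂ →L[ℂ] ℂ) (w, 0) := by
    have e5 := e3.congr_of_eventuallyEq (f₁ := fun q => f (Ψ q)) b
    refine e5.congr_fderiv ?_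
    rw [h2]
    ext v <;> simp
  have e6 : HasFDerivAt (fun q => f (Ψ q)) ((fderiv ℂ f (Ψ (w, 0))).comp (fderiv ℂ Ψ (w, 0)))
      (w, 0) := by
    have : HasFDerivAt f (fderiv ℂ f (Ψ (w, 0))) (Ψ (w, 0)) := l.differentiableAt.hasFDerivAt
    exact this.comp (w, (0 : ℂ)) e.differentiableAt.hasFDerivAt
  have e7 := e6.unique e4
  have e8 : fderiv ℂ f (Ψ (w, 0)) = 0 := by
    have e9 := congrArg (fun T : (ℂ × ℂ) × ℂ →L[ℂ] ℂ => T.comp (fderiv ℂ Ψ' (Ψ (w, 0)))) e7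
    simp only [ContinuousLinearMap.zero_comp, ContinuousLinearMap.comp_assoc, d] at e9
    exact e9
  change fderiv ℂ f (Ψ (w, 0)) (Pi.single j 1) = 0
  rw [e8]
  rfl

/-- Euler fields of the reduced germ -/
theorem Red.eul {f : E3 → ℂ} {φ : ℂ × ℂ → ℂ} (hf : AnalyticAt ℂ f 0) (h : Red f φ) {τ : ℂ}
    (hE : Eul φ τ) : Eul f (τ + 1 / 2) := by
  obtain ⟨hφ, Ψ, Ψ', U, hL, hU, hU0, he⟩ := h
  obtain ⟨r, hr, hr0, hre⟩ := LCc_472.exists_sqrt hU hU0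
  set S : (ℂ × ℂ) × ℂ → (ℂ × ℂ) × ℂ := fun q => (q.1, q.2 * r q) with hS
  have hSa : AnalyticAt ℂ S 0 := analyticAt_fst.prod (analyticAt_snd.mul hr)
  have hS0 : S 0 = 0 := by simp [hS]
  have hSd : HasFDerivAt S ((ContinuousLinearMap.fst ℂ (ℂ × ℂ) ℂ).prod
      (r 0 • ContinuousLinearMap.snd ℂ (ℂ × ℂ) ℂ)) 0 := by
    have e1 := (hasFDerivAt_snd (𝕜 := ℂ) (E := ℂ × ℂ) (F := ℂ) (p := (0 : (ℂ × ℂ) × ℂ))).mul
      hr.differentiableAt.hasFDerivAt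
    have e2 := (hasFDerivAt_fst (𝕜 := ℂ) (E := ℂ × ℂ) (F := ℂ)
      (p := (0 : (ℂ × ℂ) × ℂ))).prodMk e1
    refine e2.congr_fderiv ?_
    ext v <;> simp
  have hSi : Function.Injective (fderiv ℂ S 0) := by
    rw [hSd.fderiv, injective_iff_map_eq_zero]
    rintro ⟨v, s⟩ hv
    have h1 : v = 0 := congrArg Prod.fst hv
    have h2 : r 0 * s = 0 := congrArg Prod.snd hv
    rw [h1, (mul_eq_zero.1 h2).resolve_left hr0]
    rfl
  obtain ⟨T, hT, hT0, hST, hTS⟩ := LCa_472.exists_inv hSa hS0 hSi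
  have hSL : LB S T := ⟨hSa, hT, hS0, hT0, hTS, hST⟩
  set H : (ℂ × ℂ) × ℂ → ℂ := fun w => φ w.1 + w.2 ^ 2 with hH
  have hHa : AnalyticAt ℂ H 0 :=
    (AnalyticAt.comp (g := φ) (f := Prod.fst) hφ analyticAt_fst).add (analyticAt_snd.pow 2)
  have h1 : Eul H (τ + 1 / 2) := hE.add_sq hφ
  have h2 : Eul (fun q => f (Ψ q)) (τ + 1 / 2) := (h1.comp hHa hSL).congr (by
    filter_upwards [he, hre] with q a b
    rw [a, ← b]
    simp only [hH, hS]
    ring)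
  have h3 := h2.comp (an_comp_LB hf hL) hL.symm
  exact h3.congr (by
    filter_upwards [hL.right] with x hx
    simp only [hx])

theorem Red.klt {f : E3 → ℂ} {φ : ℂ × ℂ → ℂ} (hf : Iso f) (h : Red f φ) (hφ : PRes φ) :
    InJ 1 f (fun _ => 1) := by
  obtain ⟨n, k, h1, -, hE, -⟩ := hφ
  obtain ⟨a, ha, -, hae, hat⟩ := eul_coord (h.eul hf.an hE)
  refine KlD_540.klt_of_field hf.an (KlE_540.isolated' hf.an hf.fin) ha hae ?_
  rw [hat]
  have h3 : ((1 : ℂ) / 2 + 1 / (n : ℂ) + 1 / 2).re = 1 + 1 / (n : ℝ) := by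
    have : (1 : ℂ) / 2 + 1 / (n : ℂ) + 1 / 2 = ((1 + 1 / (n : ℝ) : ℝ) : ℂ) := by push_cast; ring
    rw [this, Complex.ofReal_re]
  rw [h3]
  have h4 : (0 : ℝ) < n := by exact_mod_cast h1
  have : 0 < 1 / (n : ℝ) := by positivity
  linarith

/-- reduction at the critical point of the last coordinate -/
theorem red_of_crit {f : E3 → ℂ} (hf : AnalyticAt ℂ f 0) {Λ : (ℂ × ℂ) × ℂ → E3}
    {Λ' : E3 → (ℂ × ℂ) × ℂ} (hΛ : LB Λ Λ') {X : ℂ × ℂ → ℂ} (hX : AnalyticAt ℂ X 0) (hX0 : X 0 = 0)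
    (hcrit : ∀ᶠ w in 𝓝 (0 : ℂ × ℂ),
      fderiv ℂ (fun q : (ℂ × ℂ) × ℂ => f (Λ q)) (w, X w) (0, 1) = 0)
    (hf0 : f 0 = 0) (hord : analyticOrderAt (fun z : ℂ => f (Λ (0, z))) 0 = 2) :
    Red f (fun w => f (Λ (w, X w))) := by
  set g : (ℂ × ℂ) × ℂ → ℂ := fun q => f (Λ q) with hg
  have hga : AnalyticAt ℂ g 0 := an_comp_LB hf hΛ
  -- the shear
  set S : (ℂ × ℂ) × ℂ → (ℂ × ℂ) × ℂ := shear X with hS
  have hSL := LB_shear hX hX0
  set G : (ℂ × ℂ) × ℂ → ℂ := fun q => g (q.1, q.2 + X q.1) with hG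
  have hGa : AnalyticAt ℂ G 0 := an_comp_LB (f := f) hf (hΛ.comp hSL)
  have tX : Tendsto (fun w : ℂ × ℂ => (w, X w)) (𝓝 0) (𝓝 (0 : (ℂ × ℂ) × ℂ)) := by
    have h1 : ContinuousAt (fun w : ℂ × ℂ => (w, X w)) 0 := continuousAt_id.prodMk hX.continuousAt
    have h2 := h1.tendsto
    rw [hX0] at h2
    exact h2
  have hc : ∀ᶠ w in 𝓝 (0 : ℂ × ℂ), fderiv ℂ G (w, 0) (0, 1) = 0 := by
    filter_upwards [hcrit, tX.eventually hga.eventually_analyticAt, hX.eventually_analyticAt]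
      with w h1 h2 h3
    have a1 : HasDerivAt (fun s : ℂ => ((w, s + X w) : (ℂ × ℂ) × ℂ)) (0, 1) 0 :=
      (hasDerivAt_const (0 : ℂ) w).prodMk ((hasDerivAt_id (0 : ℂ)).add_const (X w))
    have a2 : HasDerivAt (fun s : ℂ => g (w, s + X w)) (fderiv ℂ g (w, X w) (0, 1)) 0 := by
      have : HasFDerivAt g (fderiv ℂ g (w, X w)) ((fun s : ℂ => ((w, s + X w) : (ℂ × ℂ) × ℂ)) 0) := by
        simp only [zero_add]
        exact h2.differentiableAt.hasFDerivAt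
      exact this.comp_hasDerivAt 0 a1
    have a3 : DifferentiableAt ℂ G (w, 0) := by
      have b1 : DifferentiableAt ℂ (fun q : (ℂ × ℂ) × ℂ => (q.1, q.2 + X q.1)) (w, (0 : ℂ)) := by
        have : DifferentiableAt ℂ (fun q : (ℂ × ℂ) × ℂ => X q.1) (w, (0 : ℂ)) :=
          DifferentiableAt.comp (g := X) (w, (0 : ℂ)) h3.differentiableAt differentiableAt_fst
        exact differentiableAt_fst.prodMk (differentiableAt_snd.add this)
      have b2 : DifferentiableAt ℂ g ((fun q : (ℂ × ℂ) × ℂ => (q.1, q.2 + X q.1)) (w, (0 : ℂ))) := by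
        simp only [zero_add]
        exact h2.differentiableAt
      exact DifferentiableAt.comp (g := g)
        (f := fun q : (ℂ × ℂ) × ℂ => (q.1, q.2 + X q.1)) (w, (0 : ℂ)) b2 b1
    have a4 : HasDerivAt (fun s : ℂ => G (w, s)) (fderiv ℂ G (w, 0) (0, 1)) 0 := by
      have b1 : HasDerivAt (fun s : ℂ => ((w, s) : (ℂ × ℂ) × ℂ)) (0, 1) 0 :=
        (hasDerivAt_const (0 : ℂ) w).prodMk (hasDerivAt_id (0 : ℂ))
      exact (show HasFDerivAt G (fderiv ℂ G (w, 0)) ((fun s : ℂ => ((w, s) : (ℂ × ℂ) × ℂ)) 0) from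
        a3.hasFDerivAt).comp_hasDerivAt 0 b1
    rw [← a2.unique a4] at *
    exact h1
  obtain ⟨U, hU, hUe⟩ := LCc_472.taylor_two (E := ℂ × ℂ) hGa hc
  have hφ : AnalyticAt ℂ (fun w => g (w, X w)) 0 := by
    have : AnalyticAt ℂ (fun w : ℂ × ℂ => G (w, 0)) 0 :=
      AnalyticAt.comp (g := G) (f := fun w : ℂ × ℂ => (w, (0 : ℂ))) hGa
        (analyticAt_id.prod analyticAt_const)
    simpa [hG] using this
  refine ⟨hφ, fun q => Λ (S q), fun x => shear (fun z => - X z) (Λ' x), U, hΛ.comp hSL, hU, ?_, ?_⟩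
  · intro hU0
    have t1 : Tendsto (fun z : ℂ => ((0 : ℂ × ℂ), z)) (𝓝 0) (𝓝 (0 : (ℂ × ℂ) × ℂ)) :=
      (by fun_prop : Continuous (fun z : ℂ => ((0 : ℂ × ℂ), z))).tendsto' _ _ rfl
    have h1 : ∀ᶠ z in 𝓝 (0 : ℂ), f (Λ (0, z)) = z ^ 2 * U (0, z) := by
      filter_upwards [t1.eventually hUe] with z hz
      have h2 : G (0, 0) = 0 := by
        simp only [hG, hg, hX0, add_zero]
        change f (Λ 0) = 0
        rw [hΛ.map0, hf0]
      have h3 : G ((0 : ℂ × ℂ), z) = f (Λ (0, z)) := by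
        simp only [hG, hg, hX0, add_zero]
      rw [← h3, hz]
      change G ((0 : ℂ × ℂ), (0 : ℂ)) + z ^ 2 * U (0, z) = _
      rw [h2, zero_add]
    have hUz : AnalyticAt ℂ (fun z : ℂ => U ((0 : ℂ × ℂ), z)) 0 :=
      AnalyticAt.comp (g := U) (f := fun z : ℂ => ((0 : ℂ × ℂ), z)) hU
        (analyticAt_const.prod analyticAt_id)
    have hfz : AnalyticAt ℂ (fun z : ℂ => f (Λ (0, z))) 0 :=
      AnalyticAt.comp (g := g) (f := fun z : ℂ => ((0 : ℂ × ℂ), z)) hga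
        (analyticAt_const.prod analyticAt_id)
    obtain ⟨g', hg', he'⟩ := pow_step hUz hU0 h1
    have h4 : ((3 : ℕ) : ℕ∞) ≤ analyticOrderAt (fun z : ℂ => f (Λ (0, z))) 0 := by
      rw [natCast_le_analyticOrderAt hfz]
      refine ⟨g', hg', ?_⟩
      filter_upwards [he'] with z hz
      rw [hz, sub_zero, smul_eq_mul]
    rw [hord] at h4
    exact absurd h4 (by norm_num)
  · filter_upwards [hUe] with q hq
    have h1 : f (Λ (S q)) = G q := by simp only [hG, hg, hS, shear]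
    rw [h1, hq]
    simp only [hG, hg, zero_add]

end Crest.Agent.R257.Cl2_475
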