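import Crest.Agent.R257.KlH_540
import Crest.Agent.R257.Kp8_405

/-!
R257 / KlI_540: **`KltStmt`** and `KltMStmt` of `KED_952`, unconditionally.
-/

set_option autoImplicit false

open Topology Filter MeasureTheory Set
open Crest.AlgGeometry.Germ

noncomputable section

namespace Crest.Agent.R257.KlI_540

open Crest.Agent.R257.Defs_219

theorem k2n : KlH_540.K2NStmt := by
  intro f hf hN
  obtain ⟨a, h1, -, h2, -, h3⟩ := Kp_405.k2w hf hN
  exact ⟨a, h1, h2, h3⟩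

/-- **the klt property passes to the limit in a `μ`-constant family** -/
theorem kltStmt : KED_952.KltStmt := KlH_540.kltStmt_of k2n

theorem kltMStmt : KED_952.KltMStmt := fun _ _ hk => KlD_540.mstar_eq_zero_of_klt hk

/-- klt germs have an Euler field with divergence `≥ 1 + 1/(30 + 2 μ)` -/
theorem field_of_klt {f : E3 → ℂ} (hf : Iso f) (hk : InJ 1 f fun _ => 1) :
    ∃ a : Fin 3 → E3 → ℂ, (∀ j, AnalyticAt ℂ (a j) 0) ∧ (∀ j, a j 0 = 0) ∧
      (∀ᶠ x in 𝓝 0, f x = ∑ j, a j x * coordDeriv f j x) ∧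
      (∃ h : ℕ, 1 ≤ h ∧ h ≤ 30 + 2 * col (par f) ∧ ∑ j, coordDeriv (a j) j 0 = 1 + 1 / (h : ℂ)) ∧
      1 + 1 / (30 + 2 * (col (par f) : ℝ)) ≤ (∑ j, coordDeriv (a j) j 0).re :=
  Kp_405.k2w hf (KlF_540.nk hf hk)

/-- klt iff there is an Euler field with divergence `> 1` -/
theorem klt_iff {f : E3 → ℂ} (hf : Iso f) : (InJ 1 f fun _ => 1) ↔
    ∃ a : Fin 3 → E3 → ℂ, (∀ j, AnalyticAt ℂ (a j) 0) ∧
      (∀ᶠ x in 𝓝 0, f x = ∑ j, a j x * coordDeriv f j x) ∧
      1 < (∑ j, coordDeriv (a j) j 0).re := by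
  constructor
  · intro hk
    obtain ⟨a, h1, -, h2, -, h3⟩ := field_of_klt hf hk
    refine ⟨a, h1, h2, lt_of_lt_of_le ?_ h3⟩
    have : (0 : ℝ) < 1 / (30 + 2 * (col (par f) : ℝ)) := by positivity
    linarith
  · rintro ⟨a, h1, h2, h3⟩
    exact KlD_540.klt_of_field hf.an (KlE_540.isolated' hf.an hf.fin) h1 h2 h3

end Crest.Agent.R257.KlI_540
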