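import Crest.Agent.R257.LcN_980
import Crest.Agent.R257.MsNe_980

/-!
Row 257 (S0395), leaf LC-POS (helper980): `pos : POSStmt` (LCDefs_472) and
`mstar_mem_pos`: positivity of `mstar` for germs of small weighted order.
-/

set_option autoImplicit false

open Crest.Agent.R257.Defs_219 Crest.Agent.R257.LCDefs_472

namespace Crest.Agent.R257.LcTop_980

/-- `mstar f > 0` for a germ of weighted order `≥ 1`, sum of the weights `< 1` -/
theorem mstar_pos_of_wbox {f : E3 → ℂ} (hf : Iso f) (hw : LcM_980.WBox f) : 0 < mstar f :=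
  LcM_980.mstar_pos hf hw (MsNe_980.mset_nonempty hf)

/-- **LC-POS** -/
theorem pos : POSStmt := fun _ hf h2 hN =>
  mstar_pos_of_wbox hf (LcN_980.wbox_of_not_nodal hf.an hf.zero hf.crit h2 hN)

end Crest.Agent.R257.LcTop_980
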