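import Crest.Agent.R257.LcQ1_980
import Crest.Agent.R257.LcTop_980
import Crest.Agent.R257.LCa_472
import Crest.Agent.R271.Bd_741

/-!
Row 257 (S0395), leaf LC-POS (helper980), nonlinear coordinates, part 2: `0 < mstar f` if `f` has
weighted order `≥ 1`, sum of the weights `< 1`, in some analytic coordinates.
-/

set_option autoImplicit false

open Topology Filter Set Metric MeasureTheory
open scoped ENNReal
open Crest.AlgGeometry Crest.AlgGeometry.Germ Crest.Agent.R257.Defs_219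

noncomputable section

namespace Crest.Agent.R257.LcQ_980

open Crest.Agent.R257.LcL_980 Crest.Agent.R257.OtK_331 Crest.Agent.R257.LcM_980

/-- weighted order `≥ 1` in some analytic coordinates, sum of the weights `< 1` -/
def WBoxB (f : E3 → ℂ) : Prop :=
  ∃ (Φ : E3 → E3) (w : Fin 3 → ℝ) (κ K s₀ : ℝ), AnalyticAt ℂ Φ 0 ∧ Φ 0 = 0 ∧
    Function.Injective (fderiv ℂ Φ 0) ∧ (∀ i, 0 < w i) ∧ ∑ i, w i < 1 ∧ 0 < κ ∧ 0 < s₀ ∧
    ∀ s : ℝ, 0 < s → s ≤ s₀ → ∀ X : E3, (∀ i, ‖X i‖ ≤ κ * s ^ w i) → ‖f (Φ X)‖ ≤ K * s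

/-- a neighbourhood on which a local biholomorphism is injective, with bounds -/
theorem exists_nhd {Φ : E3 → E3} (hΦ : AnalyticAt ℂ Φ 0) (h0 : Φ 0 = 0)
    (hi : Function.Injective (fderiv ℂ Φ 0)) :
    ∃ (N : Set E3) (c0 c : ℝ), IsOpen N ∧ (0 : E3) ∈ N ∧ DifferentiableOn ℂ Φ N ∧ InjOn Φ N ∧
      0 < c0 ∧ (∀ X ∈ N, c0 ≤ |((fderiv ℂ Φ X).restrictScalars ℝ).det|) ∧ 0 < c ∧
      ∀ᶠ x in 𝓝 (0 : E3), ∃ X, Φ X = x ∧ ‖X‖ ≤ c * ‖x‖ := by
  obtain ⟨η, hη, hη0, h1, h2⟩ := LCa_472.exists_inv hΦ h0 hi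
  -- determinant
  have hdet0 : (fderiv ℂ Φ 0).det ≠ 0 := by
    have h3 : IsUnit ((fderiv ℂ Φ 0 : E3 →L[ℂ] E3) : E3 →ₗ[ℂ] E3) :=
      (LinearMap.isUnit_iff_ker_eq_bot _).2 (LinearMap.ker_eq_bot.2 hi)
    exact (h3.map LinearMap.det).ne_zero
  set c0 : ℝ := ‖(fderiv ℂ Φ 0).det‖ ^ 2 / 2 with hc0
  have hc0p : 0 < c0 := by
    have : 0 < ‖(fderiv ℂ Φ 0).det‖ := norm_pos_iff.2 hdet0
    positivity
  have hcont : ContinuousAt (fun X => ‖(fderiv ℂ Φ X).det‖ ^ 2) 0 := by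
    have h3 : ContinuousAt (fun X => fderiv ℂ Φ X) 0 := hΦ.fderiv.continuousAt
    have h4 : ContinuousAt (fun X => (fderiv ℂ Φ X).det) 0 :=
      (ContinuousLinearMap.continuous_det (𝕜 := ℂ) (E := E3)).continuousAt.comp h3
    exact (h4.norm).pow 2
  have hev : ∀ᶠ X in 𝓝 (0 : E3), c0 < ‖(fderiv ℂ Φ X).det‖ ^ 2 := by
    refine hcont.eventually_const_lt ?_
    rw [hc0]
    have : 0 < ‖(fderiv ℂ Φ 0).det‖ ^ 2 := by linarith
    linarith
  obtain ⟨ε, hε, hb⟩ := Metric.eventually_nhds_iff_ball.1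
    ((hΦ.eventually_analyticAt.and h2).and hev)
  -- the Lipschitz bound of the inverse
  obtain ⟨L, S, hS, hLip⟩ := (hη.hasStrictFDerivAt).exists_lipschitzOnWith
  refine ⟨ball 0 ε, c0, L + 1, isOpen_ball, mem_ball_self hε, ?_, ?_, hc0p, ?_, by positivity, ?_⟩
  · intro X hX
    exact (hb X hX).1.1.differentiableAt.differentiableWithinAt
  · intro X hX Y hY hXY
    rw [← (hb X hX).1.2, ← (hb Y hY).1.2, hXY]
  · intro X hX
    have h5 := Crest.Agent.R271.Bd741.abs_det_real (fderiv ℂ Φ X)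
    rw [h5]
    exact (hb X hX).2.le
  · filter_upwards [h1, hS] with x hx hxS
    refine ⟨η x, hx, ?_⟩
    have h6 := hLip.norm_sub_le hxS (mem_of_mem_nhds hS)
    rw [hη0, sub_zero, sub_zero] at h6
    calc ‖η x‖ ≤ L * ‖x‖ := h6
      _ ≤ (L + 1) * ‖x‖ := by gcongr; linarith

theorem grow_of_inJB {f : E3 → ℂ} (hf : AnalyticAt ℂ f 0) (hw : WBoxB f) :
    ∃ c : ℝ, 0 < c ∧ ∀ (a : ℝ) (g : E3 → ℂ), 1 ≤ a → AnalyticAt ℂ g 0 → InJ a f g →
      Grow f g (c * a) := by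
  obtain ⟨Φ, w, κ, K, s₀, hΦ, hΦ0, hΦi, hw0, hws, hκ, hs₀, hbox⟩ := hw
  obtain ⟨N, c0, c', hN, h0N, hΦd, hinj, hc0, hdet, hc', hinv⟩ := exists_nhd hΦ hΦ0 hΦi
  set W : ℝ := ∑ i, w i with hW
  have hW0 : 0 < W := by
    rw [hW]; exact Finset.sum_pos (fun i _ => hw0 i) Finset.univ_nonempty
  have hwW : ∀ i, w i ≤ W := by
    intro i
    rw [hW]
    exact Finset.single_le_sum (fun j _ => (hw0 j).le) (Finset.mem_univ i)
  refine ⟨(1 - ∑ i, w i) / W, by rw [← hW]; exact div_pos (by linarith) hW0, ?_⟩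
  intro a g ha hg hJ
  obtain ⟨r, hr, hJ⟩ := hJ
  have ha0 : 0 < a := by linarith
  -- a small polydisc on which everything is holomorphic and bounded
  have hgb : ∀ᶠ x in 𝓝 (0 : E3), AnalyticAt ℂ f x ∧ AnalyticAt ℂ g x ∧ ‖g x‖ < ‖g 0‖ + 1 := by
    filter_upwards [hf.eventually_analyticAt, hg.eventually_analyticAt,
      hg.continuousAt.norm.eventually_lt_const (show ‖g 0‖ < ‖g 0‖ + 1 by linarith)] with x h1 h2 h3
    exact ⟨h1, h2, h3⟩
  obtain ⟨ε, hε, hball⟩ := Metric.eventually_nhds_iff_ball.1 hgb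
  set r' : ℝ := min r ε with hr'
  have hr'0 : 0 < r' := lt_min hr hε
  have hPd : ∀ x ∈ Pd (fun _ : Fin 3 => r'), x ∈ ball (0 : E3) ε := by
    intro x hx
    rw [mem_ball_zero_iff, pi_norm_lt_iff hε]
    intro i
    exact (hx i).trans_le (min_le_right _ _)
  have hol : DifferentiableOn ℂ f (Pd (fun _ : Fin 3 => r')) := fun x hx =>
    (hball x (hPd x hx)).1.differentiableAt.differentiableWithinAt
  have holg : DifferentiableOn ℂ g (Pd (fun _ : Fin 3 => r')) := fun x hx =>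
    (hball x (hPd x hx)).2.1.differentiableAt.differentiableWithinAt
  set d : Dat 2 := ⟨fun _ => r', f, hol⟩ with hd
  have hS : Sh d (fun x => ENNReal.ofReal (‖g x‖ ^ (2 * (1 / a)) * (‖d0 d.h x‖ ^ 2)⁻¹)) ≠ ∞ :=
    ((sh_le (p := a) (g := g) (min_le_left _ _) hol).trans_lt hJ).ne
  -- the box is inside the polydisc
  obtain ⟨η, hη, hηA⟩ : ∃ η > 0, ∀ X : Fin 3 → ℂ, ‖X‖ < η →
      X ∈ N ∧ Φ X ∈ Pd (fun _ : Fin 3 => r') := by
    have h1 : N ∩ Φ ⁻¹' (Pd (fun _ : Fin 3 => r')) ∈ 𝓝 (0 : Fin 3 → ℂ) := by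
      refine inter_mem (hN.mem_nhds h0N) ?_
      apply hΦ.continuousAt.preimage_mem_nhds
      rw [hΦ0]
      apply (isOpen_Pd _).mem_nhds
      intro i; simpa using hr'0
    obtain ⟨η, hη, h2⟩ := Metric.mem_nhds_iff.1 h1
    exact ⟨η, hη, fun X hX => h2 (by simpa using hX)⟩
  have hsm : ∀ᶠ s in 𝓝[>] (0 : ℝ), ∀ i, κ * s ^ w i < η := by
    rw [Filter.eventually_all]
    intro i
    have hc : ContinuousAt (fun s : ℝ => κ * s ^ w i) 0 :=
      continuousAt_const.mul (Real.continuousAt_rpow_const _ _ (Or.inr (hw0 i).le))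
    have ht := hc.tendsto
    rw [Real.zero_rpow (hw0 i).ne', mul_zero] at ht
    exact (ht.eventually (gt_mem_nhds hη)).filter_mono nhdsWithin_le_nhds
  obtain ⟨s₁, hs₁, hs₁'⟩ := (mem_nhdsGT_iff_exists_Ioo_subset).1 hsm
  have hs₁0 : (0 : ℝ) < s₁ := hs₁
  have hbox' : ∀ s : ℝ, 0 < s → s ≤ min s₀ (s₁ / 2) → ∀ X : Fin (2 + 1) → ℂ,
      (∀ i, ‖X i‖ ≤ κ * s ^ w i) → X ∈ N ∧ Φ X ∈ Pd d.R ∧ ‖d.h (Φ X)‖ ≤ K * s := by
    intro s hs hs' X hX
    have h3 : ‖X‖ < η := by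
      rw [pi_norm_lt_iff hη]
      intro i
      refine (hX i).trans_lt (hs₁' ⟨hs, ?_⟩ i)
      have := hs'.trans (min_le_right _ _)
      linarith
    exact ⟨(hηA X h3).1, (hηA X h3).2, hbox s hs (hs'.trans (min_le_left _ _)) X hX⟩
  obtain ⟨C, hC, hev⟩ := growthC_norm d Φ hN hΦd hinj hc0 hdet hc' hinv w hκ
    (lt_min hs₀ (by positivity)) hW0 hwW hbox'
    (q := 1 / a) (by positivity) (by rw [div_le_one ha0]; exact ha) holg
    ⟨‖g 0‖ + 1, fun x hx => (hball x (hPd x hx)).2.2.le⟩ hS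
  refine ⟨C, hC, ?_⟩
  filter_upwards [hev] with x hx h0 h1 h2
  have h3 := hx h0 h1 h2
  have e : (1 - ∑ i, w i) / (1 / a * W) = (1 - ∑ i, w i) / W * a := by
    field_simp
  rw [e] at h3
  exact h3

/-- positivity of `mstar`, nonlinear coordinates -/
theorem mstar_pos_of_wboxB {f : E3 → ℂ} (hf : Iso f) (hw : WBoxB f) : 0 < mstar f := by
  obtain ⟨κ, hκ, hκ'⟩ := col_lower hf
  obtain ⟨c, hc, hc'⟩ := grow_of_inJB hf.an hw
  have h1 : κ * c ^ 2 ≤ mstar f := by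
    refine le_csInf (MsNe_980.mset_nonempty hf) ?_
    rintro _ ⟨a, b, ha, hb, g, h, hg, hh, hgJ, hhJ, hfin, rfl⟩
    have ha0 : 0 < a := by linarith
    have hb0 : 0 < b := by linarith
    rw [le_div_iff₀ (by positivity)]
    have := hκ' g h (c * a) (c * b) hg hh (by positivity) (by positivity)
      (hc' a g ha hg hgJ) (hc' b h hb hh hhJ) hfin
    calc κ * c ^ 2 * (a * b) = κ * (c * a * (c * b)) := by ring
      _ ≤ _ := this
  have : 0 < κ * c ^ 2 := by positivity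
  linarith

end Crest.Agent.R257.LcQ_980
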