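import Crest.Agent.R257.Cl2B_475
import Crest.Agent.R257.LcQ_980
import Crest.Agent.R257.KlI_540

/-!
R257 / Cl2C_475: classification of the germs `f` with a reduced plane germ `φ = O(|w|³)` which are
neither klt nor of positive `mstar`.
-/

set_option autoImplicit false
set_option linter.unusedSectionVars false
set_option linter.deprecated false

open Set Filter Topology Metric MeasureTheory
open scoped ENNReal
open Crest.AlgGeometry.Germ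

noncomputable section

namespace Crest.Agent.R257.Cl2_475

open Crest.Agent.R257.Kp_405 Crest.Agent.R257.Defs_219 Crest.Agent.R257.LcQ_980

/-- boxes for a product with `x²` -/
theorem Red.wboxB {f : E3 → ℂ} {φ : ℂ × ℂ → ℂ} (h : Red f φ) {Λ Λ' : ℂ × ℂ → ℂ × ℂ}
    (hΛ : LB Λ Λ') {a b K : ℝ} (ha : 0 < a) (hb : 0 < b) (hab : a + b < 1 / 2)
    (hbd : ∀ᶠ w in 𝓝 (0 : ℂ × ℂ), ∀ s : ℝ, 0 < s → s ≤ 1 → ‖w.1‖ ≤ s ^ a → ‖w.2‖ ≤ s ^ b →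
      ‖φ (Λ w)‖ ≤ K * s) : WBoxB f := by
  obtain ⟨hφ, Ψ, Ψ', U, hL, hU, hU0, he⟩ := h
  -- the coordinates
  set T : (ℂ × ℂ) × ℂ → (ℂ × ℂ) × ℂ := fun q => (Λ q.1, q.2) with hT
  set T' : (ℂ × ℂ) × ℂ → (ℂ × ℂ) × ℂ := fun q => (Λ' q.1, q.2) with hT'
  have hTL : LB T T' := by
    refine ⟨?_, ?_, by simp [hT, hΛ.map0], by simp [hT', hΛ.map0'], ?_, ?_⟩
    · exact (AnalyticAt.comp (g := Λ) (f := Prod.fst) hΛ.an analyticAt_fst).prod analyticAt_snd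
    · exact (AnalyticAt.comp (g := Λ') (f := Prod.fst) hΛ.an' analyticAt_fst).prod analyticAt_snd
    · have t1 : Tendsto (Prod.fst : (ℂ × ℂ) × ℂ → ℂ × ℂ) (𝓝 0) (𝓝 0) :=
        continuous_fst.tendsto' _ _ rfl
      filter_upwards [t1.eventually hΛ.left] with q hq
      simp only [hT, hT', hq]
    · have t1 : Tendsto (Prod.fst : (ℂ × ℂ) × ℂ → ℂ × ℂ) (𝓝 0) (𝓝 0) :=
        continuous_fst.tendsto' _ _ rfl
      filter_upwards [t1.eventually hΛ.right] with q hq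
      simp only [hT, hT', hq]
  have hKL : LB (kap.symm : E3 → (ℂ × ℂ) × ℂ) (kap : (ℂ × ℂ) × ℂ → E3) := LB.of_equiv kap.symm
  have hAll : LB (fun X : E3 => Ψ (T (kap.symm X))) (fun x => kap (T' (Ψ' x))) :=
    hL.comp (hTL.comp hKL)
  have hinj : Function.Injective (fderiv ℂ (fun X : E3 => Ψ (T (kap.symm X))) 0) := by
    have h1 := hAll.symm.fderiv_comp_zero
    intro v v' hv
    have h2 := congrArg (fun S : E3 →L[ℂ] E3 => S v) h1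
    have h3 := congrArg (fun S : E3 →L[ℂ] E3 => S v') h1
    simp only [ContinuousLinearMap.comp_apply, ContinuousLinearMap.id_apply] at h2 h3
    rw [← h2, ← h3, hv]
  -- the estimate
  have t1 : Tendsto (fun q : (ℂ × ℂ) × ℂ => q.1) (𝓝 0) (𝓝 0) := continuous_fst.tendsto' _ _ rfl
  have hUb : ∀ᶠ q in 𝓝 (0 : (ℂ × ℂ) × ℂ), ‖U q‖ ≤ ‖U 0‖ + 1 := by
    have := hU.continuousAt.norm.eventually_lt (continuousAt_const (y := ‖U 0‖ + 1)) (by simp)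
    exact this.mono fun q hq => hq.le
  have hev : ∀ᶠ q in 𝓝 (0 : (ℂ × ℂ) × ℂ), ∀ s : ℝ, 0 < s → s ≤ 1 → ‖q.1.1‖ ≤ s ^ a →
      ‖q.1.2‖ ≤ s ^ b → ‖q.2‖ ≤ s ^ (1 / 2 : ℝ) → ‖f (Ψ (T q))‖ ≤ (K + (‖U 0‖ + 1)) * s := by
    filter_upwards [hTL.tendsto.eventually he, t1.eventually hbd, hTL.tendsto.eventually hUb]
      with q h1 h2 h3 s hs hs1 hq1 hq2 hq3
    rw [h1]
    have h4 : ‖q.2‖ ^ 2 ≤ s := by
      calc ‖q.2‖ ^ 2 ≤ (s ^ (1 / 2 : ℝ)) ^ 2 := by gcongr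
        _ = s := by
          rw [← Real.rpow_natCast, ← Real.rpow_mul hs.le]
          norm_num
    calc ‖φ (T q).1 + (T q).2 ^ 2 * U (T q)‖ ≤ ‖φ (T q).1‖ + ‖(T q).2 ^ 2 * U (T q)‖ :=
          norm_add_le _ _
      _ ≤ K * s + s * (‖U 0‖ + 1) := by
          refine add_le_add (h2 s hs hs1 hq1 hq2) ?_
          rw [norm_mul, norm_pow]
          exact mul_le_mul h4 h3 (norm_nonneg _) hs.le
      _ = _ := by ring
  obtain ⟨δ, hδ, hball⟩ := Metric.eventually_nhds_iff_ball.1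
    (hKL.tendsto.eventually hev)
  set κ : ℝ := min (δ / 2) 1 with hκ
  have hκ0 : 0 < κ := lt_min (by linarith) one_pos
  set wt : Fin 3 → ℝ := ![1 / 2, a, b] with hwt
  refine ⟨fun X => Ψ (T (kap.symm X)), wt, κ, K + (‖U 0‖ + 1), 1, hAll.an, hAll.map0, hinj, ?_, ?_,
    hκ0, one_pos, ?_⟩
  · intro i
    fin_cases i
    · norm_num [hwt]
    · exact ha
    · exact hb
  · simp only [Fin.sum_univ_three, hwt, Matrix.cons_val_zero, Matrix.cons_val_one,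
      Matrix.cons_val_two, Matrix.tail_cons, Matrix.head_cons]
    change (1 / 2 : ℝ) + a + b < 1
    linarith
  · intro s hs hs1 X hX
    have hpow : ∀ i, s ^ wt i ≤ 1 := fun i => by
      refine Real.rpow_le_one hs.le hs1 ?_
      fin_cases i
      · norm_num [hwt]
      · exact ha.le
      · exact hb.le
    have hle : ∀ i, ‖X i‖ ≤ s ^ wt i := fun i =>
      (hX i).trans (mul_le_of_le_one_left (Real.rpow_nonneg hs.le _) (min_le_right _ _))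
    have hXδ : X ∈ Metric.ball (0 : E3) δ := by
      rw [mem_ball_zero_iff, pi_norm_lt_iff hδ]
      intro i
      calc ‖X i‖ ≤ κ * s ^ wt i := hX i
        _ ≤ κ * 1 := by gcongr; exact hpow i
        _ ≤ δ / 2 := by rw [mul_one]; exact min_le_left _ _
        _ < δ := by linarith
    exact hball X hXδ s hs hs1 (hle 1) (hle 2) (hle 0)

/-- the unstable quartics -/
theorem Red.pos_quartic {f : E3 → ℂ} {φ : ℂ × ℂ → ℂ} (h : Red f φ) (e : (ℂ × ℂ) ≃L[ℂ] (ℂ × ℂ))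
    {C : ℝ} (hC : ∀ᶠ w in 𝓝 (0 : ℂ × ℂ), ‖φ (e w)‖ ≤ C * (‖w.2‖ ^ 3 * ‖w‖ + ‖w‖ ^ 5)) :
    WBoxB f := by
  refine h.wboxB (LB.of_equiv e) (a := 1 / 5) (b := 4 / 15) (K := max C 0 * 2) (by norm_num)
    (by norm_num) (by norm_num) ?_
  filter_upwards [hC] with w hw s hs hs1 h1 h2
  have h3 : s ^ (4 / 15 : ℝ) ≤ s ^ (1 / 5 : ℝ) :=
    Real.rpow_le_rpow_of_exponent_ge hs hs1 (by norm_num)
  have h4 : ‖w‖ ≤ s ^ (1 / 5 : ℝ) := by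
    rw [Prod.norm_def]
    exact max_le h1 (h2.trans h3)
  have h5 : ‖w.2‖ ^ 3 * ‖w‖ ≤ s := by
    calc ‖w.2‖ ^ 3 * ‖w‖ ≤ (s ^ (4 / 15 : ℝ)) ^ 3 * s ^ (1 / 5 : ℝ) := by gcongr
      _ = s := by
        rw [← Real.rpow_natCast, ← Real.rpow_mul hs.le, ← Real.rpow_add hs]
        norm_num
  have h6 : ‖w‖ ^ 5 ≤ s := by
    calc ‖w‖ ^ 5 ≤ (s ^ (1 / 5 : ℝ)) ^ 5 := by gcongr
      _ = s := by
        rw [← Real.rpow_natCast, ← Real.rpow_mul hs.le]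
        norm_num
  have h7 : 0 ≤ ‖w.2‖ ^ 3 * ‖w‖ + ‖w‖ ^ 5 := by positivity
  calc ‖φ (e w)‖ ≤ C * (‖w.2‖ ^ 3 * ‖w‖ + ‖w‖ ^ 5) := hw
    _ ≤ max C 0 * (‖w.2‖ ^ 3 * ‖w‖ + ‖w‖ ^ 5) := by gcongr; exact le_max_left _ _
    _ ≤ max C 0 * (s + s) := mul_le_mul_of_nonneg_left (add_le_add h5 h6) (le_max_right _ _)
    _ = max C 0 * 2 * s := by ring

/-- the unstable case `y³ + z⁵ b₅ y + z⁷ c₇` -/
theorem Red.pos_cubic {f : E3 → ℂ} {φ : ℂ × ℂ → ℂ} (h : Red f φ) (e : (ℂ × ℂ) ≃L[ℂ] (ℂ × ℂ))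
    {u : ℂ × ℂ → ℂ} {θ b₄ c₆ : ℂ → ℂ} (hu : AnalyticAt ℂ u 0) (hθ : AnalyticAt ℂ θ 0)
    (hθ0 : θ 0 = 0) (hb₄ : AnalyticAt ℂ b₄ 0) (hc₆ : AnalyticAt ℂ c₆ 0) (hb0 : b₄ 0 = 0)
    (hc0 : c₆ 0 = 0)
    (he : ∀ᶠ w in 𝓝 (0 : ℂ × ℂ), φ (e w) =
      u w * ((w.2 + θ w.1) ^ 3 + w.1 ^ 4 * b₄ w.1 * (w.2 + θ w.1) + w.1 ^ 6 * c₆ w.1)) :
    WBoxB f := by
  have hS := LB_shear hθ hθ0
  obtain ⟨b₅, hb₅, hb₅e⟩ := pow_step (a := b₄) (n := 0) hb₄ hb0 (Eventually.of_forall fun y => by simp)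
  obtain ⟨c₇, hc₇, hc₇e⟩ := pow_step (a := c₆) (n := 0) hc₆ hc0 (Eventually.of_forall fun y => by simp)
  have hbound : ∀ {g : ℂ → ℂ}, AnalyticAt ℂ g 0 → ∀ᶠ w in 𝓝 (0 : ℂ × ℂ), ‖g w.1‖ ≤ ‖g 0‖ + 1 := by
    intro g hg
    have h1 := hg.continuousAt.norm.eventually_lt (continuousAt_const (y := ‖g 0‖ + 1)) (by simp)
    exact ev_fst (h1.mono fun y hy => hy.le)
  have hub : ∀ᶠ w in 𝓝 (0 : ℂ × ℂ), ‖u w‖ ≤ ‖u 0‖ + 1 := by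
    have := hu.continuousAt.norm.eventually_lt (continuousAt_const (y := ‖u 0‖ + 1)) (by simp)
    exact this.mono fun q hq => hq.le
  have hL : LB (fun w => e (shear (fun z => - θ z) w)) (fun v => shear θ (e.symm v)) :=
    (LB.of_equiv e).comp hS.symm
  refine h.wboxB hL (a := 1 / 7) (b := 1 / 3)
    (K := (‖u 0‖ + 1) * (1 + (‖b₅ 0‖ + 1) + (‖c₇ 0‖ + 1))) (by norm_num) (by norm_num)
    (by norm_num) ?_
  filter_upwards [hS.symm.tendsto.eventually he, hS.symm.tendsto.eventually hub, ev_fst hb₅e,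
    ev_fst hc₇e, hbound hb₅, hbound hc₇] with w h1 h2 h3 h4 h5 h6 s hs hs1 hw1 hw2
  rw [h1]
  have e1 : (shear (fun z => - θ z) w).1 = w.1 := rfl
  have e2 : (shear (fun z => - θ z) w).2 + θ (shear (fun z => - θ z) w).1 = w.2 := by
    simp [shear]
  rw [e2, e1, h3, h4, norm_mul]
  have p3 : (s ^ (1 / 3 : ℝ)) ^ 3 = s := by
    rw [← Real.rpow_natCast, ← Real.rpow_mul hs.le]; norm_num
  have p7 : (s ^ (1 / 7 : ℝ)) ^ 7 = s := by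
    rw [← Real.rpow_natCast, ← Real.rpow_mul hs.le]; norm_num
  have p5 : (s ^ (1 / 7 : ℝ)) ^ 5 * s ^ (1 / 3 : ℝ) ≤ s := by
    have : (s ^ (1 / 7 : ℝ)) ^ 5 * s ^ (1 / 3 : ℝ) = s ^ (22 / 21 : ℝ) := by
      rw [← Real.rpow_natCast, ← Real.rpow_mul hs.le, ← Real.rpow_add hs]; norm_num
    rw [this]
    calc s ^ (22 / 21 : ℝ) ≤ s ^ (1 : ℝ) :=
          Real.rpow_le_rpow_of_exponent_ge hs hs1 (by norm_num)
      _ = s := Real.rpow_one s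
  have hin : ‖w.2 ^ 3 + w.1 ^ 4 * (w.1 ^ (0 + 1) * b₅ w.1) * w.2 +
      w.1 ^ 6 * (w.1 ^ (0 + 1) * c₇ w.1)‖ ≤ (1 + (‖b₅ 0‖ + 1) + (‖c₇ 0‖ + 1)) * s := by
    calc ‖w.2 ^ 3 + w.1 ^ 4 * (w.1 ^ (0 + 1) * b₅ w.1) * w.2 +
          w.1 ^ 6 * (w.1 ^ (0 + 1) * c₇ w.1)‖
        ≤ ‖w.2‖ ^ 3 + (‖w.1‖ ^ 5 * ‖w.2‖) * ‖b₅ w.1‖ + ‖w.1‖ ^ 7 * ‖c₇ w.1‖ := by
          refine (norm_add_le _ _).trans (add_le_add ((norm_add_le _ _).trans ?_) ?_)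
          · rw [norm_pow]
            refine add_le_add le_rfl (le_of_eq ?_)
            simp only [norm_mul, norm_pow]
            ring
          · refine le_of_eq ?_
            simp only [norm_mul, norm_pow]
            ring
      _ ≤ (s ^ (1 / 3 : ℝ)) ^ 3 + ((s ^ (1 / 7 : ℝ)) ^ 5 * s ^ (1 / 3 : ℝ)) * (‖b₅ 0‖ + 1) +
            (s ^ (1 / 7 : ℝ)) ^ 7 * (‖c₇ 0‖ + 1) := by gcongr
      _ ≤ s + s * (‖b₅ 0‖ + 1) + s * (‖c₇ 0‖ + 1) := by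
          rw [p3, p7]
          gcongr
      _ = _ := by ring
  calc ‖u (shear (fun z => - θ z) w)‖ * _ ≤ (‖u 0‖ + 1) *
        ((1 + (‖b₅ 0‖ + 1) + (‖c₇ 0‖ + 1)) * s) := by
        gcongr
    _ = _ := by ring

/-- **CL2**: a germ with a reduced plane germ `φ = O(|w|³)` which is neither klt nor of positive
`mstar` has either `φ = O(|w|⁴)` with semistable 4-jet, or, in every linear coordinates in which
`φ(0,·)` has order `3`, `φ = u ((y + θ(z))³ + z⁴ b₄ (y + θ(z)) + z⁶ c₆)` with `(b₄,c₆)(0) ≠ 0`. -/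
theorem cl2 {f : E3 → ℂ} {φ : ℂ × ℂ → ℂ} (hf : Iso f) (h : Red f φ)
    {C₃ : ℝ} (h3 : ∀ᶠ w in 𝓝 (0 : ℂ × ℂ), ‖φ w‖ ≤ C₃ * ‖w‖ ^ 3)
    (hk : ¬ InJ 1 f (fun _ => 1)) (hm : ¬ 0 < mstar f) :
    ((∃ C : ℝ, ∀ᶠ w in 𝓝 (0 : ℂ × ℂ), ‖φ w‖ ≤ C * ‖w‖ ^ 4) ∧
      ∀ e : (ℂ × ℂ) ≃L[ℂ] (ℂ × ℂ), ¬ ∃ C : ℝ, ∀ᶠ w in 𝓝 (0 : ℂ × ℂ),
        ‖φ (e w)‖ ≤ C * (‖w.2‖ ^ 3 * ‖w‖ + ‖w‖ ^ 5)) ∨
    ((∃ e : (ℂ × ℂ) ≃L[ℂ] (ℂ × ℂ), analyticOrderAt (fun y : ℂ => φ (e (0, y))) 0 = 3) ∧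
      ∀ e : (ℂ × ℂ) ≃L[ℂ] (ℂ × ℂ), analyticOrderAt (fun y : ℂ => φ (e (0, y))) 0 = 3 →
        ∃ (u : ℂ × ℂ → ℂ) (θ b₄ c₆ : ℂ → ℂ), AnalyticAt ℂ u 0 ∧ u 0 ≠ 0 ∧ AnalyticAt ℂ θ 0 ∧
          θ 0 = 0 ∧ AnalyticAt ℂ b₄ 0 ∧ AnalyticAt ℂ c₆ 0 ∧ (b₄ 0 ≠ 0 ∨ c₆ 0 ≠ 0) ∧
          ∀ᶠ w in 𝓝 (0 : ℂ × ℂ), φ (e w) =
            u w * ((w.2 + θ w.1) ^ 3 + w.1 ^ 4 * b₄ w.1 * (w.2 + θ w.1) + w.1 ^ 6 * c₆ w.1)) := by
  have hφ := h.1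
  have hns : NS φ := h.ns hf
  have hC₃ : ∃ C : ℝ, 0 < C ∧ ∀ᶠ w in 𝓝 (0 : ℂ × ℂ), ‖φ w‖ ≤ C * ‖w‖ ^ 3 :=
    ⟨max C₃ 1, lt_of_lt_of_le one_pos (le_max_right _ _), by
      filter_upwards [h3] with w hw
      exact hw.trans (by gcongr; exact le_max_left _ _)⟩
  obtain ⟨C, hC, h3'⟩ := hC₃
  -- orders along lines
  have hord3 : ∀ v : ℂ × ℂ, ((3 : ℕ) : ℕ∞) ≤ analyticOrderAt (fun t : ℂ => φ (t • v)) 0 := by
    intro v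
    have ha := an_line hφ v
    rw [natCast_le_analyticOrderAt ha]
    have hb : ∀ᶠ t in 𝓝 (0 : ℂ), ‖φ (t • v)‖ ≤ (C * ‖v‖ ^ 3) * ‖t‖ ^ 3 := by
      have t1 : Tendsto (fun t : ℂ => t • v) (𝓝 0) (𝓝 (0 : ℂ × ℂ)) :=
        (by fun_prop : Continuous (fun t : ℂ => t • v)).tendsto' _ _ (zero_smul _ _)
      filter_upwards [t1.eventually h3'] with t ht
      refine ht.trans (le_of_eq ?_)
      rw [norm_smul]
      ring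
    obtain ⟨g, hg, hge⟩ := exists_pow_mul_of_bound ha hb
    refine ⟨g, hg, ?_⟩
    filter_upwards [hge] with t ht
    rw [ht, sub_zero, smul_eq_mul]
  -- the form in the case of order three
  have key : ∀ e : (ℂ × ℂ) ≃L[ℂ] (ℂ × ℂ), analyticOrderAt (fun y : ℂ => φ (e (0, y))) 0 = 3 →
        ∃ (u : ℂ × ℂ → ℂ) (θ b₄ c₆ : ℂ → ℂ), AnalyticAt ℂ u 0 ∧ u 0 ≠ 0 ∧ AnalyticAt ℂ θ 0 ∧
          θ 0 = 0 ∧ AnalyticAt ℂ b₄ 0 ∧ AnalyticAt ℂ c₆ 0 ∧ (b₄ 0 ≠ 0 ∨ c₆ 0 ≠ 0) ∧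
          ∀ᶠ w in 𝓝 (0 : ℂ × ℂ), φ (e w) =
            u w * ((w.2 + θ w.1) ^ 3 + w.1 ^ 4 * b₄ w.1 * (w.2 + θ w.1) + w.1 ^ 6 * c₆ w.1) := by
    intro e he3
    have hLe := LB.of_equiv e
    have hqa : AnalyticAt ℂ (fun w => φ (e w)) 0 := an_comp_LB hφ hLe
    have hqn : NS (fun w => φ (e w)) := hns.comp hφ hLe
    have hO : (fun w => e w) =O[𝓝 0] (fun w : ℂ × ℂ => w) := by
      have := hLe.an.differentiableAt.hasFDerivAt.isBigO_sub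
      simpa using this
    obtain ⟨K, hK0, hK'⟩ := hO.exists_pos
    have hbd : ∀ᶠ w in 𝓝 (0 : ℂ × ℂ), ‖φ (e w)‖ ≤ (C * K ^ 3) * ‖w‖ ^ 3 := by
      filter_upwards [hK'.bound, hLe.tendsto.eventually h3'] with w a1 a2
      calc ‖φ (e w)‖ ≤ C * ‖e w‖ ^ 3 := a2
        _ ≤ C * (K * ‖w‖) ^ 3 := by gcongr
        _ = C * K ^ 3 * ‖w‖ ^ 3 := by ring
    rcases ns_ord3 hqa he3 (by positivity) hbd hqn with hP | ⟨u, θ, b₄, c₆, hu, hu0, hθ, hθ0, hb₄,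
      hc₆, he⟩
    · exfalso
      have hP' : PRes φ := (hP.comp hqa hLe.symm).congr (Eventually.of_forall fun w => by simp)
      exact hk (h.klt hf hP')
    · refine ⟨u, θ, b₄, c₆, hu, hu0, hθ, hθ0, hb₄, hc₆, ?_, he⟩
      by_contra hno
      push Not at hno
      exact hm (mstar_pos_of_wboxB hf (h.pos_cubic e hu hθ hθ0 hb₄ hc₆ hno.1 hno.2 he))
  by_cases hB : ∃ v : ℂ × ℂ, analyticOrderAt (fun t : ℂ => φ (t • v)) 0 = (3 : ℕ)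
  · right
    obtain ⟨v, hv⟩ := hB
    have hφ0 : φ 0 = 0 := by
      have := h3'.self_of_nhds
      simpa using this
    have hv0 : v ≠ 0 := by
      rintro rfl
      rw [order_line_zero hφ0] at hv
      exact absurd hv (by simp)
    obtain ⟨e, he⟩ := exists_equiv hv0
    refine ⟨⟨e, ?_⟩, key⟩
    have : (fun w : ℂ => φ (e (0, w))) = fun t : ℂ => φ (t • v) := by
      funext t
      rw [← he, ← map_smul]
      simp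
    rw [this, hv]
    rfl
  · left
    push Not at hB
    have h4 : ∀ v, ((4 : ℕ) : ℕ∞) ≤ analyticOrderAt (fun t : ℂ => φ (t • v)) 0 :=
      fun v => add_one_le_of_ne (hord3 v) (hB v)
    obtain ⟨C', -, hbd⟩ := bound_of_orders hφ 4 h4
    refine ⟨⟨C', hbd⟩, fun e => ?_⟩
    rintro ⟨C'', hC''⟩
    exact hm (mstar_pos_of_wboxB hf (h.pos_quartic e hC''))

end Crest.Agent.R257.Cl2_475
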