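import Crest.Agent.R257.KlE_540
import Crest.Agent.R257.CM2_812

/-!
R257 / KlG_540: K3' (uniqueness of the trace).  `f` isolated critical point at `0`, two analytic
vector fields `a`, `b` with `∑ a_j ∂_j f = ∑ b_j ∂_j f` near `0` have the same divergence at `0`.
-/

set_option autoImplicit false

open Topology Filter MeasureTheory Set
open scoped ENNReal Real
open Crest.AlgGeometry.Germ
open Crest.Agent.R275.Loc2879 hiding AA
open Crest.Agent.R257.UI939

noncomputable section

namespace Crest.Agent.R257.KlG_540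

open Crest.Agent.R257.Defs_219 Crest.Agent.R257.KlE_540

theorem hess_symm {n : ℕ} {f : (Fin n → ℂ) → ℂ} {x : Fin n → ℂ} (hf : AnalyticAt ℂ f x)
    (i j : Fin n) : coordDeriv (coordDeriv f j) i x = coordDeriv (coordDeriv f i) j x := by
  have h2 : ∀ k l : Fin n, coordDeriv (coordDeriv f k) l x =
      fderiv ℂ (fderiv ℂ f) x (Pi.single l 1) (Pi.single k 1) := by
    intro k l
    have h1 : HasFDerivAt (fun y => fderiv ℂ f y (Pi.single k 1))
        ((fderiv ℂ (fderiv ℂ f) x).flip (Pi.single k 1)) x := by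
      have h3 := hf.fderiv.differentiableAt.hasFDerivAt
      exact ((ContinuousLinearMap.apply ℂ ℂ (Pi.single k 1 : Fin n → ℂ)).hasFDerivAt.comp x h3)
    change fderiv ℂ (fun y => fderiv ℂ f y (Pi.single k 1)) x (Pi.single l 1) = _
    rw [h1.fderiv]
    rfl
  rw [h2, h2]
  have h3 : ContDiffAt ℂ 2 f x := hf.contDiffAt
  exact (h3.isSymmSndFDerivAt (by simp)).eq _ _

theorem trace_zero {n : ℕ} {f : (Fin n → ℂ) → ℂ} (hf : AnalyticAt ℂ f 0)
    (hcrit : ∀ i, coordDeriv f i 0 = 0)
    (hfin : ColFin (par f)) {c : Fin n → (Fin n → ℂ) → ℂ} (hc : ∀ j, AnalyticAt ℂ (c j) 0)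
    (h0 : ∀ᶠ x in 𝓝 0, ∑ j, c j x * coordDeriv f j x = 0) :
    ∑ j, coordDeriv (c j) j 0 = 0 := by
  classical
  have hpa : ∀ j, AnalyticAt ℂ (par f j) 0 := fun j => an_coordDeriv hf j
  set A : Fin n → BB n := fun j => gm (par f j) (hpa j) with hA
  have hspan : Ideal.span (Set.range A) = Idl (0 : Fin n → ℂ) (par f) := by
    unfold Idl
    congr 1
    congr 1
    funext j
    rw [hA, gz_eq (hpa j)]
  have hfinA : Module.Finite ℂ (BB n ⧸ Ideal.span (Set.range A)) := by
    rw [hspan]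
    exact (colFin_iff hpa).1 hfin
  have hmax : ∀ i, A i ∈ IsLocalRing.maximalIdeal (BB n) := by
    intro i
    rw [IsLocalRing.mem_maximalIdeal, mem_nonunits_iff, hA]
    simp only [isUnit_gm, not_not]
    exact hcrit i
  have hKS := CM_812.koszul_BB A hmax hfinA
  obtain ⟨S, -, hS2, hS3⟩ := hKS (fun j => gm (c j) (hc j)) (by
    obtain ⟨h, e⟩ := exists_sum_gm' Finset.univ c (par f) hc hpa
    rw [hA]
    rw [e, gm_eq_zero]
    exact h0)
  choose s hs hsS using fun i j => exists_gm (S i j)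
  have hanti : ∀ i j, ∀ᶠ x in 𝓝 (0 : Fin n → ℂ), s j i x = - s i j x := by
    intro i j
    have h1 := hS2 i j
    rw [← hsS, ← hsS, gm_neg, gm_eq_gm] at h1
    exact h1
  have hcs : ∀ i, ∀ᶠ x in 𝓝 (0 : Fin n → ℂ), c i x = ∑ j, s i j x * coordDeriv f j x := by
    intro i
    have h1 := hS3 i
    obtain ⟨h, e⟩ := exists_sum_gm' Finset.univ (s i) (par f) (hs i) hpa
    have h2 : ∑ j, S i j * A j = ∑ j, gm (s i j) (hs i j) * gm (par f j) (hpa j) :=
      Finset.sum_congr rfl fun j _ => by rw [hsS]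
    rw [h2, e, gm_eq_gm] at h1
    exact h1
  have hder : ∀ i, coordDeriv (c i) i 0 = ∑ j, s i j 0 * coordDeriv (coordDeriv f j) i 0 := by
    intro i
    have h1 : HasFDerivAt (fun x => ∑ j, s i j x * coordDeriv f j x)
        (∑ j, (s i j 0 • fderiv ℂ (coordDeriv f j) 0 + coordDeriv f j 0 • fderiv ℂ (s i j) 0)) 0 :=
      HasFDerivAt.fun_sum fun j _ =>
        (hs i j).differentiableAt.hasFDerivAt.mul
          (an_coordDeriv hf j).differentiableAt.hasFDerivAt
    have h2 := (h1.congr_of_eventuallyEq (hcs i)).fderiv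
    rw [coordDeriv, h2, sum_apply]
    refine Finset.sum_congr rfl fun j _ => ?_
    change s i j 0 * coordDeriv (coordDeriv f j) i 0 + coordDeriv f j 0 * _ = _
    rw [hcrit j, zero_mul, add_zero]
  have hanti0 : ∀ i j, s j i 0 = - s i j 0 := fun i j => (hanti i j).self_of_nhds
  set T : ℂ := ∑ i, ∑ j, s i j 0 * coordDeriv (coordDeriv f j) i 0 with hT
  have hT2 : T = - T := by
    calc T = ∑ j, ∑ i, s i j 0 * coordDeriv (coordDeriv f j) i 0 := by
          rw [hT, Finset.sum_comm]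
      _ = ∑ j, ∑ i, - (s j i 0 * coordDeriv (coordDeriv f i) j 0) := by
          refine Finset.sum_congr rfl fun j _ => Finset.sum_congr rfl fun i _ => ?_
          rw [hanti0 j i, hess_symm hf i j]
          ring
      _ = - T := by
          rw [hT, ← Finset.sum_neg_distrib]
          exact Finset.sum_congr rfl fun j _ => Finset.sum_neg_distrib _
  have hT0 : T = 0 := by
    have : 2 * T = 0 := by linear_combination hT2
    simpa using this
  rw [← hT0, hT]
  exact Finset.sum_congr rfl fun i _ => hder i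

/-- **K3'** -/
theorem trace_unique {n : ℕ} {f : (Fin n → ℂ) → ℂ} (hf : AnalyticAt ℂ f 0)
    (hcrit : ∀ i, coordDeriv f i 0 = 0)
    (hfin : ColFin (par f)) {a b : Fin n → (Fin n → ℂ) → ℂ} (ha : ∀ j, AnalyticAt ℂ (a j) 0)
    (hb : ∀ j, AnalyticAt ℂ (b j) 0)
    (hae : ∀ᶠ x in 𝓝 0, f x = ∑ j, a j x * coordDeriv f j x)
    (hbe : ∀ᶠ x in 𝓝 0, f x = ∑ j, b j x * coordDeriv f j x) :
    ∑ j, coordDeriv (a j) j 0 = ∑ j, coordDeriv (b j) j 0 := by
  have h1 := trace_zero hf hcrit hfin (c := fun j x => a j x - b j x)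
    (fun j => (ha j).sub (hb j)) (by
      filter_upwards [hae, hbe] with x h1 h2
      simp only [sub_mul, Finset.sum_sub_distrib]
      rw [← h1, ← h2, sub_self])
  have h2 : ∀ j, coordDeriv (fun x => a j x - b j x) j 0 =
      coordDeriv (a j) j 0 - coordDeriv (b j) j 0 := by
    intro j
    have h3 : HasFDerivAt (fun x => a j x - b j x) (fderiv ℂ (a j) 0 - fderiv ℂ (b j) 0) 0 :=
      (ha j).differentiableAt.hasFDerivAt.sub (hb j).differentiableAt.hasFDerivAt
    rw [coordDeriv, h3.fderiv]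
    rfl
  simp only [h2, Finset.sum_sub_distrib] at h1
  exact sub_eq_zero.1 h1

end Crest.Agent.R257.KlG_540
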