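import Crest.Agent.R257.LcxDefs_759
import Crest.Agent.R257.KlG_540
import Mathlib.Analysis.Calculus.MeanValue

/-!
R257 / Cl2D_475: Taylor expansion of plane germs in the coefficients `cf` of `LcxDefs_759`.

* `tay_cf` : `Tay n g (cf g)` for `g` analytic at `0`;
* `coeff_zero` : a polynomial in one variable which is `O(s^n)` has vanishing coefficients below `n`.
-/

set_option autoImplicit false

open Topology Filter Set Asymptotics
open Crest.AlgGeometry.Germ

noncomputable section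

namespace Crest.Agent.R257.Cl2D_475

open Crest.Agent.R257.Defs_219 Crest.Agent.R257.LcxDefs_759
open Crest.Agent.R257.EVa_929 (an_cd fd_sum)

abbrev E2 := Fin 2 → ℂ

/-- polynomial with coefficients `c` -/
def Pol (c : ℕ → ℕ → ℂ) (n : ℕ) (p : E2) : ℂ :=
  ∑ i ∈ Finset.range (n + 1), ∑ j ∈ Finset.range (n + 1 - i), c i j * p 0 ^ i * p 1 ^ j

lemma pol_diff (c : ℕ → ℕ → ℂ) (n : ℕ) : Differentiable ℂ (Pol c n) := by
  unfold Pol
  fun_prop

lemma an_pol (c : ℕ → ℕ → ℂ) (n : ℕ) (x : E2) : AnalyticAt ℂ (Pol c n) x := by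
  unfold Pol
  have h : ∀ k : Fin 2, AnalyticAt ℂ (fun p : E2 => p k) x := fun k =>
    (ContinuousLinearMap.proj (R := ℂ) (φ := fun _ : Fin 2 => ℂ) k).analyticAt x
  exact Finset.analyticAt_fun_sum _ fun i _ => Finset.analyticAt_fun_sum _ fun j _ =>
    (analyticAt_const.mul ((h 0).fun_pow i)).mul ((h 1).fun_pow j)

lemma cd_eq {n : ℕ} {F : (Fin n → ℂ) → ℂ} {p : Fin n → ℂ} (h : DifferentiableAt ℂ F p)
    (i : Fin n) {d : ℂ}
    (hd : HasDerivAt (fun s : ℂ => F (p + s • (Pi.single i 1 : Fin n → ℂ))) d 0) :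
    coordDeriv F i p = d := by
  have h1 : HasDerivAt (fun s : ℂ => p + s • (Pi.single i 1 : Fin n → ℂ))
      (Pi.single i 1 : Fin n → ℂ) 0 := by
    simpa using ((hasDerivAt_id (0 : ℂ)).smul_const (Pi.single i 1 : Fin n → ℂ)).const_add p
  have h2 : HasFDerivAt F (fderiv ℂ F p)
      ((fun s : ℂ => p + s • (Pi.single i 1 : Fin n → ℂ)) 0) := by
    simpa using h.hasFDerivAt
  exact (h2.comp_hasDerivAt 0 h1).unique hd

lemma cd_pol0 (c : ℕ → ℕ → ℂ) (n : ℕ) (p : E2) :
    coordDeriv (Pol c (n + 1)) 0 p = Pol (fun i j => (i + 1) * c (i + 1) j) n p := by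
  apply cd_eq (pol_diff c _ p)
  have h1 : (fun s : ℂ => Pol c (n + 1) (p + s • (Pi.single 0 1 : E2))) =
      fun s => ∑ i ∈ Finset.range (n + 1 + 1), ∑ j ∈ Finset.range (n + 1 + 1 - i),
        c i j * (p 0 + s) ^ i * p 1 ^ j := by
    funext s
    simp [Pol]
  rw [h1]
  have h2 : HasDerivAt (fun s : ℂ => ∑ i ∈ Finset.range (n + 1 + 1),
      ∑ j ∈ Finset.range (n + 1 + 1 - i), c i j * (p 0 + s) ^ i * p 1 ^ j)
      (∑ i ∈ Finset.range (n + 1 + 1), ∑ j ∈ Finset.range (n + 1 + 1 - i),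
        c i j * (i * p 0 ^ (i - 1)) * p 1 ^ j) 0 := by
    apply HasDerivAt.fun_sum
    intro i _
    apply HasDerivAt.fun_sum
    intro j _
    have h3 : HasDerivAt (fun s : ℂ => (p 0 + s) ^ i) (i * p 0 ^ (i - 1)) 0 := by
      have := ((hasDerivAt_id (0 : ℂ)).const_add (p 0)).fun_pow i
      simpa using this
    exact (h3.const_mul (c i j)).mul_const _
  convert h2 using 1
  rw [Finset.sum_range_succ']
  simp only [Pol, Nat.cast_zero, zero_mul, mul_zero, Finset.sum_const_zero, add_zero]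
  refine Finset.sum_congr rfl fun i _ => ?_
  have : n + 1 + 1 - (i + 1) = n + 1 - i := by omega
  rw [this]
  refine Finset.sum_congr rfl fun j _ => ?_
  push_cast
  ring

lemma cd_pol1 (c : ℕ → ℕ → ℂ) (n : ℕ) (p : E2) :
    coordDeriv (Pol c (n + 1)) 1 p = Pol (fun i j => (j + 1) * c i (j + 1)) n p := by
  apply cd_eq (pol_diff c _ p)
  have h1 : (fun s : ℂ => Pol c (n + 1) (p + s • (Pi.single 1 1 : E2))) =
      fun s => ∑ i ∈ Finset.range (n + 1 + 1), ∑ j ∈ Finset.range (n + 1 + 1 - i),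
        c i j * p 0 ^ i * (p 1 + s) ^ j := by
    funext s
    simp [Pol]
  rw [h1]
  have h2 : HasDerivAt (fun s : ℂ => ∑ i ∈ Finset.range (n + 1 + 1),
      ∑ j ∈ Finset.range (n + 1 + 1 - i), c i j * p 0 ^ i * (p 1 + s) ^ j)
      (∑ i ∈ Finset.range (n + 1 + 1), ∑ j ∈ Finset.range (n + 1 + 1 - i),
        c i j * p 0 ^ i * (j * p 1 ^ (j - 1))) 0 := by
    apply HasDerivAt.fun_sum
    intro i _
    apply HasDerivAt.fun_sum
    intro j _
    have h3 : HasDerivAt (fun s : ℂ => (p 1 + s) ^ j) (j * p 1 ^ (j - 1)) 0 := by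
      have := ((hasDerivAt_id (0 : ℂ)).const_add (p 1)).fun_pow j
      simpa using this
    exact h3.const_mul _
  convert h2 using 1
  rw [Finset.sum_range_succ]
  have h4 : n + 1 + 1 - (n + 1) = 1 := by omega
  rw [h4, Finset.sum_range_one]
  simp only [Pol, Nat.cast_zero, zero_mul, mul_zero, add_zero]
  refine Finset.sum_congr rfl fun i hi => ?_
  have hi' : i < n + 1 := Finset.mem_range.1 hi
  have : n + 1 + 1 - i = (n + 1 - i) + 1 := by omega
  rw [this, Finset.sum_range_succ']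
  simp only [Nat.cast_zero, zero_mul, mul_zero, add_zero]
  refine Finset.sum_congr rfl fun j _ => ?_
  push_cast
  ring

/-! ### coefficients of the derivatives -/

lemma an_nd {n : ℕ} {g : (Fin n → ℂ) → ℂ} {x : Fin n → ℂ} (hg : AnalyticAt ℂ g x) (i : Fin n)
    (k : ℕ) : AnalyticAt ℂ (nd i k g) x := by
  induction k with
  | zero => exact hg
  | succ k ih =>
    change AnalyticAt ℂ (fun y => coordDeriv (nd i k g) i y / (k + 1)) x
    exact (an_cd ih i).div_const

lemma cd_congr {n : ℕ} {g h : (Fin n → ℂ) → ℂ} {x : Fin n → ℂ} (e : g =ᶠ[𝓝 x] h) (i : Fin n) :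
    coordDeriv g i =ᶠ[𝓝 x] coordDeriv h i := by
  have := e.fderiv (𝕜 := ℂ)
  filter_upwards [this] with y hy
  simp only [coordDeriv, hy]

lemma nd_congr {n : ℕ} {g h : (Fin n → ℂ) → ℂ} {x : Fin n → ℂ} (e : g =ᶠ[𝓝 x] h) (i : Fin n)
    (k : ℕ) : nd i k g =ᶠ[𝓝 x] nd i k h := by
  induction k with
  | zero => exact e
  | succ k ih =>
    filter_upwards [cd_congr ih i] with y hy
    change coordDeriv (nd i k g) i y / (k + 1) = coordDeriv (nd i k h) i y / (k + 1)
    rw [hy]

lemma cf_congr {g h : E2 → ℂ} (e : g =ᶠ[𝓝 0] h) (i j : ℕ) : cf g i j = cf h i j :=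
  (nd_congr (nd_congr e 0 i) 1 j).self_of_nhds

lemma cd_const_mul {n : ℕ} {g : (Fin n → ℂ) → ℂ} {x : Fin n → ℂ} (hg : AnalyticAt ℂ g x) (c : ℂ)
    (i : Fin n) : coordDeriv (fun y => c * g y) i x = c * coordDeriv g i x := by
  unfold coordDeriv
  rw [fderiv_const_mul hg.differentiableAt]
  rfl

/-- `∂_i^k (∂_i g) / k! = (k+1) ∂_i^{k+1} g / (k+1)!` -/
lemma nd_cd {n : ℕ} {g : (Fin n → ℂ) → ℂ} {x : Fin n → ℂ} (hg : AnalyticAt ℂ g x) (i : Fin n)
    (k : ℕ) : nd i k (coordDeriv g i) =ᶠ[𝓝 x] fun y => (k + 1) * nd i (k + 1) g y := by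
  induction k with
  | zero =>
    filter_upwards with y
    change coordDeriv g i y = ((0 : ℕ) + 1) * (coordDeriv g i y / ((0 : ℕ) + 1))
    push_cast
    ring
  | succ k ih =>
    filter_upwards [cd_congr ih i, hg.eventually_analyticAt] with y hy hy'
    change coordDeriv (nd i k (coordDeriv g i)) i y / (k + 1) =
      ((k + 1 : ℕ) + 1) * (coordDeriv (nd i (k + 1) g) i y / ((k + 1 : ℕ) + 1))
    rw [hy, cd_const_mul (an_nd hy' i (k + 1))]
    have h1 : ((k + 1 : ℕ) + 1 : ℂ) ≠ 0 := by exact_mod_cast Nat.succ_ne_zero (k + 1)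
    have h2 : (k + 1 : ℂ) ≠ 0 := by exact_mod_cast Nat.succ_ne_zero k
    field_simp

lemma nd_comm {n : ℕ} {g : (Fin n → ℂ) → ℂ} {x : Fin n → ℂ} (hg : AnalyticAt ℂ g x) (i l : Fin n)
    (k : ℕ) : nd i k (coordDeriv g l) =ᶠ[𝓝 x] coordDeriv (nd i k g) l := by
  induction k with
  | zero => exact EventuallyEq.rfl
  | succ k ih =>
    filter_upwards [cd_congr ih i, hg.eventually_analyticAt] with y hy hy'
    change coordDeriv (nd i k (coordDeriv g l)) i y / (k + 1) =
      coordDeriv (fun z => coordDeriv (nd i k g) i z / (k + 1)) l y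
    rw [hy, KlG_540.hess_symm (an_nd hy' i k) i l]
    have h1 : (fun z => coordDeriv (nd i k g) i z / ((k : ℂ) + 1)) =
        fun z => ((k : ℂ) + 1)⁻¹ * coordDeriv (nd i k g) i z := by
      funext z
      rw [div_eq_inv_mul]
    rw [h1, cd_const_mul (an_cd (an_nd hy' i k) i), div_eq_inv_mul]

lemma cf_cd0 {g : E2 → ℂ} (hg : AnalyticAt ℂ g 0) (i j : ℕ) :
    cf (coordDeriv g 0) i j = (i + 1) * cf g (i + 1) j := by
  have h1 := nd_congr (nd_cd hg 0 i) 1 j
  have h2 : ∀ (G : E2 → ℂ) (c : ℂ) (k : ℕ), AnalyticAt ℂ G 0 →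
      nd 1 k (fun y => c * G y) =ᶠ[𝓝 0] fun y => c * nd 1 k G y := by
    intro G c k hG
    induction k with
    | zero => exact EventuallyEq.rfl
    | succ k ih =>
      filter_upwards [cd_congr ih 1, hG.eventually_analyticAt] with y hy hy'
      change coordDeriv (nd 1 k (fun y => c * G y)) 1 y / (k + 1) =
        c * (coordDeriv (nd 1 k G) 1 y / (k + 1))
      rw [hy, cd_const_mul (an_nd hy' 1 k)]
      ring
  exact (h1.trans (h2 (nd 0 (i + 1) g) (i + 1) j (an_nd hg 0 _))).self_of_nhds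

lemma cf_cd1 {g : E2 → ℂ} (hg : AnalyticAt ℂ g 0) (i j : ℕ) :
    cf (coordDeriv g 1) i j = (j + 1) * cf g i (j + 1) := by
  have h1 := nd_congr (nd_comm hg 0 1 i) 1 j
  exact (h1.trans (nd_cd (an_nd hg 0 i) 1 j)).self_of_nhds

lemma cf_zero (g : E2 → ℂ) : cf g 0 0 = g 0 := rfl

/-! ### the Taylor formula -/

/-- a function vanishing at `0` whose partial derivatives are `O(|x|^n)` is `O(|x|^{n+1})` -/
lemma isBigO_of_cd {n m : ℕ} {R : (Fin n → ℂ) → ℂ} (hR : AnalyticAt ℂ R 0) (h0 : R 0 = 0)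
    (h : ∀ i, (coordDeriv R i) =O[𝓝 0] fun x : Fin n → ℂ => ‖x‖ ^ m) :
    R =O[𝓝 0] fun x : Fin n → ℂ => ‖x‖ ^ (m + 1) := by
  have h1 : (fun x => fderiv ℂ R x) =O[𝓝 0] fun x : Fin n → ℂ => ‖x‖ ^ m := by
    have h2 : ∀ i, ∃ C : ℝ, 0 ≤ C ∧ ∀ᶠ x in 𝓝 (0 : Fin n → ℂ), ‖coordDeriv R i x‖ ≤ C * ‖x‖ ^ m := by
      intro i
      obtain ⟨C, hC⟩ := (h i).bound
      refine ⟨max C 0, le_max_right _ _, ?_⟩
      filter_upwards [hC] with x hx
      rw [norm_pow, norm_norm] at hx
      exact hx.trans (by gcongr; exact le_max_left _ _)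
    choose C hC0 hC using h2
    refine IsBigO.of_bound (∑ i, C i) ?_
    filter_upwards [eventually_all.2 hC] with x hx
    rw [norm_pow, norm_norm]
    refine ContinuousLinearMap.opNorm_le_bound _ (by have := Finset.sum_nonneg (fun i (_ : i ∈ Finset.univ) => hC0 i); positivity) fun v => ?_
    rw [fd_sum]
    calc ‖∑ j, v j * coordDeriv R j x‖ ≤ ∑ j, ‖v j * coordDeriv R j x‖ := norm_sum_le _ _
      _ ≤ ∑ j, ‖v‖ * (C j * ‖x‖ ^ m) := by
          refine Finset.sum_le_sum fun j _ => ?_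
          rw [norm_mul]
          exact mul_le_mul (norm_le_pi_norm v j) (hx j) (norm_nonneg _) (norm_nonneg _)
      _ = (∑ i, C i) * ‖x‖ ^ m * ‖v‖ := by rw [← Finset.mul_sum, ← Finset.sum_mul]; ring
  obtain ⟨C, hC⟩ := h1.bound
  obtain ⟨r, hr, hb⟩ := Metric.eventually_nhds_iff_ball.1 (hC.and hR.eventually_analyticAt)
  refine IsBigO.of_bound C ?_
  filter_upwards [Metric.ball_mem_nhds (0 : Fin n → ℂ) hr] with x hx
  have hxr : ‖x‖ < r := by simpa using hx
  have hC' : ∀ y ∈ Metric.closedBall (0 : Fin n → ℂ) ‖x‖, ‖fderiv ℂ R y‖ ≤ C * ‖x‖ ^ m := by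
    intro y hy
    have hy' : ‖y‖ ≤ ‖x‖ := by simpa using hy
    have h3 := (hb y (by simpa using lt_of_le_of_lt hy' hxr)).1
    rw [norm_pow, norm_norm] at h3
    by_cases hCn : 0 ≤ C
    · exact h3.trans (by gcongr)
    · have h4 := (hb x hx).1
      rw [norm_pow, norm_norm] at h4
      have h5 : 0 ≤ C * ‖x‖ ^ m := (norm_nonneg _).trans h4
      have h6 : 0 ≤ C * ‖y‖ ^ m := (norm_nonneg _).trans h3
      have h7 : ‖x‖ ^ m = 0 := by
        by_contra h8
        have : 0 < ‖x‖ ^ m := lt_of_le_of_ne (by positivity) (Ne.symm h8)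
        push Not at hCn
        nlinarith
      have h9 : ‖y‖ ^ m ≤ 0 := by rw [← h7]; gcongr
      have h10 : ‖y‖ ^ m = 0 := le_antisymm h9 (by positivity)
      rw [h10, mul_zero] at h3
      rw [h7, mul_zero]
      exact h3
  have h4 := (convex_closedBall (0 : Fin n → ℂ) ‖x‖).norm_image_sub_le_of_norm_fderiv_le
    (f := R) (𝕜 := ℂ) (C := C * ‖x‖ ^ m) (x := 0) (y := x)
    (fun y hy => (hb y (by
      have hy' : ‖y‖ ≤ ‖x‖ := by simpa using hy
      simpa using lt_of_le_of_lt hy' hxr)).2.differentiableAt) hC' (by simp) (by simp)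
  rw [h0, sub_zero, sub_zero] at h4
  rw [norm_pow, norm_norm, pow_succ]
  linarith

theorem pol_cf {g : E2 → ℂ} (hg : AnalyticAt ℂ g 0) (n : ℕ) :
    (fun p => g p - Pol (cf g) n p) =O[𝓝 0] fun p : E2 => ‖p‖ ^ (n + 1) := by
  induction n generalizing g with
  | zero =>
    have h1 := hg.differentiableAt.isBigO_sub
    refine (IsBigO.congr_left (f₁ := fun x => g x - g 0) h1 fun p => ?_).trans ?_
    · simp [Pol, cf_zero]
    · refine IsBigO.of_bound 1 (Eventually.of_forall fun p => ?_)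
      simp
  | succ n ih =>
    have hR : AnalyticAt ℂ (fun p => g p - Pol (cf g) (n + 1) p) 0 := hg.sub (an_pol _ _ _)
    have hcd : ∀ i : Fin 2, coordDeriv (fun p => g p - Pol (cf g) (n + 1) p) i =ᶠ[𝓝 0]
        fun p => coordDeriv g i p - coordDeriv (Pol (cf g) (n + 1)) i p := by
      intro i
      filter_upwards [hg.eventually_analyticAt] with p hp
      simp only [coordDeriv]
      rw [fderiv_fun_sub hp.differentiableAt (pol_diff _ _ p)]
      rfl
    apply isBigO_of_cd hR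
    · simp only [Pol]
      rw [Finset.sum_eq_single 0, Finset.sum_eq_single 0]
      · simp [cf_zero]
      · intro b _ hb; simp [hb]
      · intro h; simp at h
      · intro b _ hb
        apply Finset.sum_eq_zero
        intro j _
        simp [hb]
      · intro h; simp at h
    · intro i
      fin_cases i
      · refine ((ih (an_cd hg 0)).congr' ?_ EventuallyEq.rfl)
        refine EventuallyEq.trans ?_ (hcd 0).symm
        refine Eventually.of_forall fun p => ?_
        simp only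
        rw [cd_pol0]
        congr 2
        funext a b
        exact cf_cd0 hg a b
      · refine ((ih (an_cd hg 1)).congr' ?_ EventuallyEq.rfl)
        refine EventuallyEq.trans ?_ (hcd 1).symm
        refine Eventually.of_forall fun p => ?_
        simp only
        rw [cd_pol1]
        congr 2
        funext a b
        exact cf_cd1 hg a b

/-- **Taylor formula** -/
theorem tay_cf {g : E2 → ℂ} (hg : AnalyticAt ℂ g 0) (n : ℕ) : Tay n g (cf g) := pol_cf hg n

/-! ### polynomials in one variable -/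

/-- a polynomial which is `O(s^n)` has vanishing coefficients below `n` -/
theorem coeff_zero {N n : ℕ} {c : ℕ → ℂ}
    (h : (fun s : ℂ => ∑ k ∈ Finset.range N, c k * s ^ k) =O[𝓝 0] fun s : ℂ => s ^ n)
    {k : ℕ} (hk : k < n) (hkN : k < N) : c k = 0 := by
  induction k using Nat.strong_induction_on with
  | _ k ih =>
    by_contra hc
    have h1 : ∀ s : ℂ, ∑ l ∈ Finset.range N, c l * s ^ l =
        s ^ k * (c k + s * ∑ l ∈ Finset.range (N - k - 1), c (l + k + 1) * s ^ l) := by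
      intro s
      have e1 : N = (k + 1) + (N - k - 1) := by omega
      conv_lhs => rw [e1, Finset.sum_range_add, Finset.sum_range_succ]
      have e2 : ∑ x ∈ Finset.range k, c x * s ^ x = 0 := by
        apply Finset.sum_eq_zero
        intro l hl
        have hl' := Finset.mem_range.1 hl
        rw [ih l hl' (hl'.trans hk) (hl'.trans hkN), zero_mul]
      rw [e2, zero_add, mul_add, Finset.mul_sum, Finset.mul_sum]
      congr 1
      · ring
      · refine Finset.sum_congr rfl fun l _ => ?_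
        have : k + 1 + l = l + k + 1 := by ring
        rw [this, pow_add, pow_add]
        ring
    obtain ⟨C, hC⟩ := h.bound
    have h2 : ∀ᶠ s in 𝓝[≠] (0 : ℂ),
        ‖c k + s * ∑ l ∈ Finset.range (N - k - 1), c (l + k + 1) * s ^ l‖ ≤ C * ‖s‖ ^ (n - k) := by
      filter_upwards [nhdsWithin_le_nhds hC, self_mem_nhdsWithin] with s hs hs0
      rw [h1, norm_mul, norm_pow, norm_pow] at hs
      have h3 : 0 < ‖s‖ ^ k := by
        have : 0 < ‖s‖ := norm_pos_iff.2 hs0
        positivity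
      have h4 : ‖s‖ ^ n = ‖s‖ ^ k * ‖s‖ ^ (n - k) := by rw [← pow_add]; congr 1; omega
      rw [h4] at hs
      refine le_of_mul_le_mul_left (hs.trans (le_of_eq (by ring))) h3
    have h3 : Tendsto (fun s : ℂ =>
        ‖c k + s * ∑ l ∈ Finset.range (N - k - 1), c (l + k + 1) * s ^ l‖) (𝓝[≠] 0)
        (𝓝 ‖c k‖) := by
      apply tendsto_nhdsWithin_of_tendsto_nhds
      have : Continuous (fun s : ℂ =>
        ‖c k + s * ∑ l ∈ Finset.range (N - k - 1), c (l + k + 1) * s ^ l‖) := by fun_prop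
      exact this.tendsto' _ _ (by simp)
    have h4 : Tendsto (fun s : ℂ => C * ‖s‖ ^ (n - k)) (𝓝[≠] 0) (𝓝 0) := by
      apply tendsto_nhdsWithin_of_tendsto_nhds
      have : Continuous (fun s : ℂ => C * ‖s‖ ^ (n - k)) := by fun_prop
      exact this.tendsto' _ _ (by
        have : n - k ≠ 0 := by omega
        simp [this])
    have h5 := le_of_tendsto_of_tendsto h3 h4 h2
    exact hc (norm_le_zero_iff.1 h5)

end Crest.Agent.R257.Cl2D_475
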