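import Crest.Agent.R257.Cl2E_475

/-!
R257 / Cl2F_475: `CubeStmt` and the first half of `SextStmt` of `LcxDefs_759`.
-/

set_option autoImplicit false
set_option linter.deprecated false

open Topology Filter Set Asymptotics
open Crest.AlgGeometry.Germ

noncomputable section

namespace Crest.Agent.R257.Cl2F_475

open Crest.Agent.R257.Defs_219 Crest.Agent.R257.LcxDefs_759 Crest.Agent.R257.Kp_405
open Crest.Agent.R257.Cl2_475 Crest.Agent.R257.Cl2D_475 Crest.Agent.R257.Cl2E_475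

/-- a homogeneous function of degree `m` which is `O(|q|^{m+1})` vanishes -/
lemma hom_zero {E : Type*} [NormedAddCommGroup E] [NormedSpace ℂ E] {F : E → ℂ} {m : ℕ}
    (hh : ∀ (t : ℂ) q, F (t • q) = t ^ m * F q)
    (hO : F =O[𝓝 0] fun q => ‖q‖ ^ (m + 1)) (q : E) : F q = 0 := by
  obtain ⟨C, hC⟩ := hO.bound
  have t1 : Tendsto (fun t : ℂ => t • q) (𝓝 0) (𝓝 (0 : E)) :=
    (by fun_prop : Continuous (fun t : ℂ => t • q)).tendsto' _ _ (zero_smul _ _)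
  have h2 : ∀ᶠ t in 𝓝[≠] (0 : ℂ), ‖F q‖ ≤ C * ‖q‖ ^ (m + 1) * ‖t‖ := by
    filter_upwards [nhdsWithin_le_nhds (t1.eventually hC), self_mem_nhdsWithin] with t ht ht0
    rw [hh, norm_mul, norm_pow, norm_pow, norm_norm, norm_smul, mul_pow, pow_succ ‖t‖] at ht
    have h3 : 0 < ‖t‖ ^ m := by
      have : 0 < ‖t‖ := norm_pos_iff.2 ht0
      positivity
    exact le_of_mul_le_mul_left (ht.trans (le_of_eq (by ring))) h3
  have h4 : Tendsto (fun t : ℂ => C * ‖q‖ ^ (m + 1) * ‖t‖) (𝓝[≠] 0) (𝓝 0) := by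
    apply tendsto_nhdsWithin_of_tendsto_nhds
    have : Continuous (fun t : ℂ => C * ‖q‖ ^ (m + 1) * ‖t‖) := by fun_prop
    exact this.tendsto' _ _ (by simp)
  exact norm_le_zero_iff.1 (ge_of_tendsto h4 h2)

/-- binary cubic form -/
def kf (a b c d : ℂ) (q : ℂ × ℂ) : ℂ := a * q.1 ^ 3 + b * q.1 ^ 2 * q.2 + c * q.1 * q.2 ^ 2 + d * q.2 ^ 3

lemma kf_smul (a b c d t : ℂ) (q : ℂ × ℂ) : kf a b c d (t • q) = t ^ 3 * kf a b c d q := by
  simp only [kf, Prod.smul_fst, Prod.smul_snd, smul_eq_mul]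
  ring

lemma kf_eq_zero {a b c d : ℂ} (h : ∀ q, kf a b c d q = 0) : a = 0 ∧ b = 0 ∧ c = 0 ∧ d = 0 := by
  have h1 := h (1, 0)
  have h2 := h (0, 1)
  have h3 := h (1, 1)
  have h4 := h (1, -1)
  simp only [kf] at h1 h2 h3 h4
  have ha : a = 0 := by linear_combination h1
  have hd : d = 0 := by linear_combination h2
  subst ha hd
  have hb : b = 0 := by linear_combination (h3 - h4) / 2
  have hc : c = 0 := by linear_combination (h3 + h4) / 2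
  exact ⟨rfl, hb, hc, rfl⟩

lemma norm_fst_bigO : (fun w : ℂ × ℂ => w.1) =O[𝓝 0] fun w => ‖w‖ ^ 1 := by
  refine IsBigO.of_bound 1 (Eventually.of_forall fun w => ?_)
  simp only [pow_one, norm_norm, one_mul]
  exact norm_fst_le w

lemma norm_snd_bigO : (fun w : ℂ × ℂ => w.2) =O[𝓝 0] fun w => ‖w‖ ^ 1 := by
  refine IsBigO.of_bound 1 (Eventually.of_forall fun w => ?_)
  simp only [pow_one, norm_norm, one_mul]
  exact norm_snd_le w

lemma pow_bigO_pow {m n : ℕ} (h : n ≤ m) :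
    (fun q : ℂ × ℂ => ‖q‖ ^ m) =O[𝓝 0] fun q => ‖q‖ ^ n := by
  refine IsBigO.of_bound 1 ?_
  filter_upwards [Metric.ball_mem_nhds (0 : ℂ × ℂ) one_pos] with q hq
  have hq' : ‖q‖ ≤ 1 := by
    have : ‖q‖ < 1 := by simpa using hq
    exact this.le
  rw [one_mul, norm_pow, norm_pow, norm_norm]
  exact pow_le_pow_of_le_one (norm_nonneg _) hq' h

/-- one-variable analytic function minus its 1-jet -/
lemma sub_one_jet {θ : ℂ → ℂ} (hθ : AnalyticAt ℂ θ 0) (h0 : θ 0 = 0) :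
    (fun z : ℂ => θ z - deriv θ 0 * z) =O[𝓝 0] fun z : ℂ => z ^ 2 := by
  have h1 : AnalyticAt ℂ (fun z : ℂ => θ z - deriv θ 0 * z) 0 :=
    hθ.sub (analyticAt_const.mul analyticAt_id)
  have h2 : ((2 : ℕ) : ℕ∞) ≤ analyticOrderAt (fun z : ℂ => θ z - deriv θ 0 * z) 0 := by
    have h7 := two_le_order h1 (by simp [h0]) ?_ 1
    · simpa using h7
    · have h3 : HasDerivAt (fun z : ℂ => θ z - deriv θ 0 * z) (deriv θ 0 - deriv θ 0 * 1) 0 :=
        hθ.differentiableAt.hasDerivAt.sub ((hasDerivAt_id (0 : ℂ)).const_mul (deriv θ 0))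
      rw [mul_one, sub_self] at h3
      have := h3.hasFDerivAt.fderiv
      rw [this]
      ext
      simp
  obtain ⟨g, hg, he⟩ := (natCast_le_analyticOrderAt h1).1 h2
  refine IsBigO.congr' ?_ (he.mono fun z hz => hz.symm) EventuallyEq.rfl
  have h5 : g =O[𝓝 0] fun _ => (1 : ℝ) := hg.continuousAt.tendsto.isBigO_one ℝ
  have h6 : (fun z : ℂ => z ^ 2 * g z) =O[𝓝 0] fun z : ℂ => ‖z ^ 2‖ * 1 :=
    (isBigO_refl (fun z : ℂ => z ^ 2) (𝓝 0)).norm_right.mul h5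
  have h7 : (fun z : ℂ => ‖z ^ 2‖ * 1) =O[𝓝 0] fun z : ℂ => z ^ 2 := by
    simp only [mul_one]
    exact (isBigO_refl (fun z : ℂ => z ^ 2) (𝓝 0)).norm_left
  simpa using h6.trans h7

/-- the 3-jet of the second alternative of `cl2` -/
lemma jet_case2 {φ : ℂ × ℂ → ℂ} {u : ℂ × ℂ → ℂ} {θ b₄ c₆ : ℂ → ℂ} (hu : AnalyticAt ℂ u 0)
    (hθ : AnalyticAt ℂ θ 0) (hθ0 : θ 0 = 0) (hb : AnalyticAt ℂ b₄ 0) (hc : AnalyticAt ℂ c₆ 0)
    (h : ∀ᶠ w in 𝓝 (0 : ℂ × ℂ), φ w =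
      u w * ((w.2 + θ w.1) ^ 3 + w.1 ^ 4 * b₄ w.1 * (w.2 + θ w.1) + w.1 ^ 6 * c₆ w.1)) :
    (fun w : ℂ × ℂ => φ w - u 0 * (w.2 + deriv θ 0 * w.1) ^ 3) =O[𝓝 0] fun w => ‖w‖ ^ 4 := by
  have tf := tendsto_fst0
  have hθO : (fun w : ℂ × ℂ => θ w.1 - deriv θ 0 * w.1) =O[𝓝 0] fun w => ‖w‖ ^ 2 := by
    have h1 := (sub_one_jet hθ hθ0).comp_tendsto tf
    have h2 : (fun w : ℂ × ℂ => w.1 ^ 2) =O[𝓝 0] fun w => ‖w‖ ^ 2 := by
      have := norm_fst_bigO.pow 2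
      simpa using this
    exact h1.trans h2
  have hL1 : (fun w : ℂ × ℂ => w.2 + deriv θ 0 * w.1) =O[𝓝 0] fun w => ‖w‖ ^ 1 :=
    norm_snd_bigO.add (norm_fst_bigO.const_mul_left _)
  have hL : (fun w : ℂ × ℂ => w.2 + θ w.1) =O[𝓝 0] fun w => ‖w‖ ^ 1 := by
    have h1 := hL1.add (hθO.trans (pow_bigO_pow (show 1 ≤ 2 by norm_num)))
    refine h1.congr_left fun w => ?_
    ring
  have hu1 : u =O[𝓝 0] fun _ => (1 : ℝ) := hu.continuousAt.tendsto.isBigO_one ℝ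
  have hud : (fun w : ℂ × ℂ => u w - u 0) =O[𝓝 0] fun w => ‖w‖ ^ 1 := by
    have := hu.differentiableAt.isBigO_sub
    refine this.trans ?_
    refine IsBigO.of_bound 1 (Eventually.of_forall fun w => ?_)
    simp
  have hb1 : (fun w : ℂ × ℂ => b₄ w.1) =O[𝓝 0] fun _ => (1 : ℝ) :=
    (hb.continuousAt.tendsto.isBigO_one ℝ).comp_tendsto tf
  have hc1 : (fun w : ℂ × ℂ => c₆ w.1) =O[𝓝 0] fun _ => (1 : ℝ) :=
    (hc.continuousAt.tendsto.isBigO_one ℝ).comp_tendsto tf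
  have e1 : (fun w : ℂ × ℂ => φ w - u 0 * (w.2 + deriv θ 0 * w.1) ^ 3) =ᶠ[𝓝 0] fun w =>
      (u w - u 0) * (w.2 + θ w.1) ^ 3 +
      u 0 * ((θ w.1 - deriv θ 0 * w.1) * ((w.2 + θ w.1) ^ 2 +
        (w.2 + θ w.1) * (w.2 + deriv θ 0 * w.1) + (w.2 + deriv θ 0 * w.1) ^ 2)) +
      u w * (w.1 ^ 4 * b₄ w.1 * (w.2 + θ w.1) + w.1 ^ 6 * c₆ w.1) := by
    filter_upwards [h] with w hw
    rw [hw]
    ring
  refine IsBigO.congr' ?_ e1.symm EventuallyEq.rfl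
  have f1 : (fun w : ℂ × ℂ => w.1) =O[𝓝 0] fun w => ‖w‖ ^ 1 := norm_fst_bigO
  refine IsBigO.add (IsBigO.add ?_ ?_) ?_
  · refine (hud.mul (hL.pow 3)).congr_right fun w => ?_
    ring
  · apply IsBigO.const_mul_left
    have h1 : (fun w : ℂ × ℂ => (w.2 + θ w.1) ^ 2 +
        (w.2 + θ w.1) * (w.2 + deriv θ 0 * w.1) + (w.2 + deriv θ 0 * w.1) ^ 2) =O[𝓝 0]
        fun w => ‖w‖ ^ 2 := by
      refine IsBigO.add (IsBigO.add ?_ ?_) ?_
      · refine (hL.pow 2).congr_right fun w => ?_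
        ring
      · refine (hL.mul hL1).congr_right fun w => ?_
        ring
      · refine (hL1.pow 2).congr_right fun w => ?_
        ring
    refine (hθO.mul h1).congr_right fun w => ?_
    ring
  · have h1 : (fun w : ℂ × ℂ => w.1 ^ 4 * b₄ w.1 * (w.2 + θ w.1) + w.1 ^ 6 * c₆ w.1) =O[𝓝 0]
        fun w => ‖w‖ ^ 4 := by
      refine IsBigO.add ?_ ?_
      · refine (((f1.pow 4).mul hb1).mul hL).trans ?_
        refine (pow_bigO_pow (show 4 ≤ 5 by norm_num)).congr_left fun w => ?_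
        ring
      · refine ((f1.pow 6).mul hc1).trans ?_
        refine (pow_bigO_pow (show 4 ≤ 6 by norm_num)).congr_left fun w => ?_
        ring
    refine (hu1.mul h1).congr_right fun w => ?_
    ring

/-- for a germ of the shape `Dcp` which is log canonical and not klt, the cubic part is a cube -/
theorem cube_or {f : E3 → ℂ} (hf : LC0 f) {φ : ℂ × ℂ → ℂ} (hR : Red f φ) {a b c d : ℂ}
    (hk : (fun q : ℂ × ℂ => φ q - kf a b c d q) =O[𝓝 0] fun q => ‖q‖ ^ 4) :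
    (a = 0 ∧ b = 0 ∧ c = 0 ∧ d = 0 ∧
      ∀ e : (ℂ × ℂ) ≃L[ℂ] (ℂ × ℂ), ¬ ∃ C : ℝ, ∀ᶠ w in 𝓝 (0 : ℂ × ℂ),
        ‖φ (e w)‖ ≤ C * (‖w.2‖ ^ 3 * ‖w‖ + ‖w‖ ^ 5)) ∨
    ((∃ m α β : ℂ, m ≠ 0 ∧ (α ≠ 0 ∨ β ≠ 0) ∧ ∀ q : ℂ × ℂ, kf a b c d q = m * (α * q.1 + β * q.2) ^ 3) ∧
      ∀ e : (ℂ × ℂ) ≃L[ℂ] (ℂ × ℂ), kf a b c d (e (0, 1)) ≠ 0 →
        ∃ (u : ℂ × ℂ → ℂ) (θ b₄ c₆ : ℂ → ℂ), AnalyticAt ℂ u 0 ∧ u 0 ≠ 0 ∧ AnalyticAt ℂ θ 0 ∧
          θ 0 = 0 ∧ AnalyticAt ℂ b₄ 0 ∧ AnalyticAt ℂ c₆ 0 ∧ (b₄ 0 ≠ 0 ∨ c₆ 0 ≠ 0) ∧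
          (∀ᶠ w in 𝓝 (0 : ℂ × ℂ), φ (e w) =
            u w * ((w.2 + θ w.1) ^ 3 + w.1 ^ 4 * b₄ w.1 * (w.2 + θ w.1) + w.1 ^ 6 * c₆ w.1)) ∧
          ∀ w, kf a b c d (e w) = u 0 * (w.2 + deriv θ 0 * w.1) ^ 3) := by
  have hkO : (fun q : ℂ × ℂ => kf a b c d q) =O[𝓝 0] fun q => ‖q‖ ^ 3 := by
    have f1 := norm_fst_bigO
    have f2 := norm_snd_bigO
    refine IsBigO.add (IsBigO.add (IsBigO.add ?_ ?_) ?_) ?_
    · refine ((f1.pow 3).const_mul_left a).congr_right fun w => ?_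
      ring
    · refine (((f1.pow 2).const_mul_left b).mul f2).congr_right fun w => ?_
      ring
    · refine ((f1.const_mul_left c).mul (f2.pow 2)).congr_right fun w => ?_
      ring
    · refine ((f2.pow 3).const_mul_left d).congr_right fun w => ?_
      ring
  have h3 : (fun q : ℂ × ℂ => φ q) =O[𝓝 0] fun q => ‖q‖ ^ 3 := by
    have := (hk.trans (pow_bigO_pow (show 3 ≤ 4 by norm_num))).add hkO
    refine this.congr_left fun q => ?_
    ring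
  obtain ⟨C₃, hC₃⟩ := h3.bound
  have hC₃' : ∀ᶠ w in 𝓝 (0 : ℂ × ℂ), ‖φ w‖ ≤ C₃ * ‖w‖ ^ 3 := by
    filter_upwards [hC₃] with w hw
    rwa [norm_pow, norm_norm] at hw
  -- pull back of the comparison by a linear map
  have hke : ∀ e : (ℂ × ℂ) ≃L[ℂ] (ℂ × ℂ),
      (fun w : ℂ × ℂ => φ (e w) - kf a b c d (e w)) =O[𝓝 0] fun w => ‖w‖ ^ 4 := by
    intro e
    have te : Tendsto e (𝓝 0) (𝓝 0) := by
      have := e.continuous.tendsto 0
      rwa [map_zero] at this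
    refine (hk.comp_tendsto te).trans ?_
    refine IsBigO.of_bound (‖(e : (ℂ × ℂ) →L[ℂ] (ℂ × ℂ))‖ ^ 4) (Eventually.of_forall fun w => ?_)
    simp only [Function.comp, norm_pow, norm_norm]
    rw [← mul_pow]
    gcongr
    exact (e : (ℂ × ℂ) →L[ℂ] (ℂ × ℂ)).le_opNorm w
  rcases cl2 hf.iso hR hC₃' hf.nklt hf.lc with ⟨⟨C, hC⟩, h2⟩ | ⟨⟨e₀, he₀⟩, h2⟩
  · left
    have h4 : (fun q : ℂ × ℂ => φ q) =O[𝓝 0] fun q => ‖q‖ ^ 4 := by
      refine IsBigO.of_bound C ?_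
      filter_upwards [hC] with q hq
      rwa [norm_pow, norm_norm]
    have h5 : (fun q : ℂ × ℂ => kf a b c d q) =O[𝓝 0] fun q => ‖q‖ ^ (3 + 1) := by
      refine (h4.sub hk).congr_left fun q => ?_
      ring
    obtain ⟨ha, hb, hc, hd⟩ := kf_eq_zero (hom_zero (kf_smul a b c d) h5)
    exact ⟨ha, hb, hc, hd, h2⟩
  · right
    -- the cubic form in the coordinates `e`
    have key : ∀ (e : (ℂ × ℂ) ≃L[ℂ] (ℂ × ℂ)) (u : ℂ × ℂ → ℂ) (θ b₄ c₆ : ℂ → ℂ), AnalyticAt ℂ u 0 →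
        AnalyticAt ℂ θ 0 → θ 0 = 0 → AnalyticAt ℂ b₄ 0 → AnalyticAt ℂ c₆ 0 →
        (∀ᶠ w in 𝓝 (0 : ℂ × ℂ), φ (e w) =
            u w * ((w.2 + θ w.1) ^ 3 + w.1 ^ 4 * b₄ w.1 * (w.2 + θ w.1) + w.1 ^ 6 * c₆ w.1)) →
        ∀ w, kf a b c d (e w) = u 0 * (w.2 + deriv θ 0 * w.1) ^ 3 := by
      intro e u θ b₄ c₆ hu hθ hθ0 hb hc he w
      have h4 := jet_case2 hu hθ hθ0 hb hc he
      have h5 : (fun w : ℂ × ℂ => kf a b c d (e w) - u 0 * (w.2 + deriv θ 0 * w.1) ^ 3) =O[𝓝 0]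
          fun w => ‖w‖ ^ (3 + 1) := by
        refine (h4.sub (hke e)).congr_left fun q => ?_
        ring
      have h6 := hom_zero (F := fun w : ℂ × ℂ =>
        kf a b c d (e w) - u 0 * (w.2 + deriv θ 0 * w.1) ^ 3) (m := 3) (fun t q => by
          simp only [map_smul, kf_smul, Prod.smul_fst, Prod.smul_snd, smul_eq_mul]
          ring) h5 w
      linear_combination h6
    refine ⟨?_, ?_⟩
    · obtain ⟨u, θ, b₄, c₆, hu, hu0, hθ, hθ0, hb, hc, hbc, he⟩ := h2 e₀ he₀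
      have h4 := key e₀ u θ b₄ c₆ hu hθ hθ0 hb hc he
      set L : (ℂ × ℂ) → ℂ := fun q => (e₀.symm q).2 + deriv θ 0 * (e₀.symm q).1 with hL
      have hLe : ∀ q : ℂ × ℂ, L q = L (1, 0) * q.1 + L (0, 1) * q.2 := by
        intro q
        have e1 : q = q.1 • ((1, 0) : ℂ × ℂ) + q.2 • ((0, 1) : ℂ × ℂ) := by
          simp
        have e2 : e₀.symm q = q.1 • e₀.symm (1, 0) + q.2 • e₀.symm (0, 1) := by
          conv_lhs => rw [e1]
          rw [map_add, map_smul, map_smul]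
        simp only [hL, e2, Prod.fst_add, Prod.snd_add, Prod.smul_fst, Prod.smul_snd, smul_eq_mul]
        ring
      refine ⟨u 0, L (1, 0), L (0, 1), hu0, ?_, fun q => ?_⟩
      · by_contra hcon
        push Not at hcon
        have h5 := hLe (e₀ (0, 1))
        rw [hcon.1, hcon.2, zero_mul, zero_mul, add_zero] at h5
        simp only [hL, ContinuousLinearEquiv.symm_apply_apply, mul_zero, add_zero] at h5
        exact one_ne_zero h5
      · rw [← hLe q]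
        have h5 := h4 (e₀.symm q)
        rw [ContinuousLinearEquiv.apply_symm_apply] at h5
        exact h5
    · intro e he
      have hord : analyticOrderAt (fun y : ℂ => φ (e (0, y))) 0 = 3 := by
        have ty : Tendsto (fun y : ℂ => ((0, y) : ℂ × ℂ)) (𝓝 0) (𝓝 0) :=
          (by fun_prop : Continuous (fun y : ℂ => ((0, y) : ℂ × ℂ))).tendsto' _ _ rfl
        have hφe : AnalyticAt ℂ (fun y : ℂ => φ (e (0, y))) 0 := by
          have h1 : AnalyticAt ℂ (fun y : ℂ => e ((0, y) : ℂ × ℂ)) 0 :=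
            AnalyticAt.comp (g := e) (f := fun y : ℂ => ((0, y) : ℂ × ℂ)) (e.analyticAt _)
              (analyticAt_const.prod analyticAt_id)
          refine AnalyticAt.comp (g := φ) (f := fun y : ℂ => e ((0, y) : ℂ × ℂ)) ?_ h1
          have : e ((0, 0) : ℂ × ℂ) = 0 := map_zero e
          rw [this]
          exact hR.1
        have h4 : AnalyticAt ℂ (fun y : ℂ => φ (e (0, y)) - y ^ 3 * kf a b c d (e (0, 1))) 0 :=
          hφe.sub ((analyticAt_id.pow 3).mul analyticAt_const)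
        obtain ⟨C, hC⟩ := ((hke e).comp_tendsto ty).bound
        have h5 : ∀ᶠ y in 𝓝 (0 : ℂ), ‖φ (e (0, y)) - y ^ 3 * kf a b c d (e (0, 1))‖ ≤
            C * ‖y‖ ^ 4 := by
          filter_upwards [hC] with y hy
          simp only [Function.comp] at hy
          have e1 : kf a b c d (e (0, y)) = y ^ 3 * kf a b c d (e (0, 1)) := by
            rw [← kf_smul, ← map_smul]
            simp
          rw [e1, norm_pow, norm_norm] at hy
          have e2 : ‖((0, y) : ℂ × ℂ)‖ = ‖y‖ := by simp [Prod.norm_def]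
          rw [e2] at hy
          exact hy
        obtain ⟨g, hg, hge⟩ := exists_pow_mul_of_bound h4 h5
        have h6 : analyticOrderAt (fun y : ℂ => φ (e (0, y))) 0 = ((3 : ℕ) : ℕ∞) := by
          rw [hφe.analyticOrderAt_eq_natCast]
          refine ⟨fun y => kf a b c d (e (0, 1)) + y * g y, analyticAt_const.add
            (analyticAt_id.mul hg), by simpa using he, ?_⟩
          filter_upwards [hge] with y hy
          rw [sub_zero, smul_eq_mul]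
          linear_combination hy
        exact_mod_cast h6
      obtain ⟨u, θ, b₄, c₆, hu, hu0, hθ, hθ0, hb, hc, hbc, hee⟩ := h2 e hord
      exact ⟨u, θ, b₄, c₆, hu, hu0, hθ, hθ0, hb, hc, hbc, hee, key e u θ b₄ c₆ hu hθ hθ0 hb hc hee⟩

/-- the 3-jet of the critical value -/
lemma jet_crit {w : E2 → ℂ} (hw : AnalyticAt ℂ w 0) (hw0 : ∀ i j, i + j ≤ 2 → cf w i j = 0)
    {φ : ℂ × ℂ → ℂ} (h : (fun q : ℂ × ℂ => φ q - w (pt q)) =O[𝓝 0] fun q => ‖q‖ ^ 4) :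
    (fun q : ℂ × ℂ => φ q - kf (cf w 3 0) (cf w 2 1) (cf w 1 2) (cf w 0 3) q) =O[𝓝 0]
      fun q => ‖q‖ ^ 4 := by
  refine (h.add (cubic_expansion hw hw0)).congr_left fun q => ?_
  simp only [kf]
  ring

/-- **(B0)** of `LcxDefs_759` -/
theorem cubeStmt : CubeStmt := by
  intro f A u v w hf hD
  obtain ⟨φ, hR, h1, -⟩ := crit_value hf.iso.an hf.iso.zero A hD
  rcases cube_or hf hR (jet_crit hD.aw hD.w0 h1) with ⟨h30, h21, h12, h03, -⟩ | ⟨⟨m, α, β, -, -, hq⟩, -⟩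
  · rw [h30, h21, h12, h03]
    simp
  · have e1 := hq (1, 0)
    have e2 := hq (0, 1)
    have e3 := hq (1, 1)
    have e4 := hq (1, -1)
    simp only [kf] at e1 e2 e3 e4
    have h30 : cf w 3 0 = m * α ^ 3 := by linear_combination e1
    have h03 : cf w 0 3 = m * β ^ 3 := by linear_combination e2
    have h21 : cf w 2 1 = 3 * m * α ^ 2 * β := by
      linear_combination (e3 - e4) / 2 - h03
    have h12 : cf w 1 2 = 3 * m * α * β ^ 2 := by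
      linear_combination (e3 + e4) / 2 - h30
    rw [h30, h21, h12, h03]
    refine ⟨?_, ?_, ?_⟩ <;> ring

end Crest.Agent.R257.Cl2F_475
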