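import Crest.Agent.R257.Cl2F_475

/-!
R257 / Cl2G_475: the first half of `SextStmt` of `LcxDefs_759`, and the normal form in the
situation of `SextStmt` with the weighted Taylor coefficients of the discriminant.
-/

set_option autoImplicit false
set_option linter.deprecated false

open Topology Filter Set Asymptotics
open Crest.AlgGeometry.Germ

noncomputable section

namespace Crest.Agent.R257.Cl2G_475

open Crest.Agent.R257.Defs_219 Crest.Agent.R257.LcxDefs_759 Crest.Agent.R257.Kp_405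
open Crest.Agent.R257.Cl2_475 Crest.Agent.R257.Cl2D_475 Crest.Agent.R257.Cl2E_475
open Crest.Agent.R257.Cl2F_475

/-- the weighted coefficients `∑_{2i+j=k} c_ij a^i b^j` -/
def wc (c : ℕ → ℕ → ℂ) (a b : ℂ) (k : ℕ) : ℂ :=
  ∑ i ∈ Finset.range 7, ∑ j ∈ Finset.range (7 - i), if 2 * i + j = k then c i j * a ^ i * b ^ j else 0

lemma wc_sum (c : ℕ → ℕ → ℂ) (a b s : ℂ) :
    ∑ k ∈ Finset.range 13, wc c a b k * s ^ k = Pol c 6 (pt (s ^ 2 * a, s * b)) := by
  have h1 : ∀ k, wc c a b k * s ^ k = ∑ i ∈ Finset.range 7, ∑ j ∈ Finset.range (7 - i),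
      if 2 * i + j = k then c i j * a ^ i * b ^ j * s ^ k else 0 := by
    intro k
    rw [wc, Finset.sum_mul]
    refine Finset.sum_congr rfl fun i _ => ?_
    rw [Finset.sum_mul]
    refine Finset.sum_congr rfl fun j _ => ?_
    split_ifs <;> ring
  simp only [h1]
  rw [Finset.sum_comm]
  simp only [Pol, pt_0, pt_1]
  refine Finset.sum_congr rfl fun i hi => ?_
  rw [Finset.sum_comm]
  refine Finset.sum_congr rfl fun j hj => ?_
  rw [Finset.mem_range] at hi hj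
  rw [Finset.sum_ite_eq, if_pos (by rw [Finset.mem_range]; omega), pow_add, pow_mul, mul_pow,
    mul_pow]
  ring

lemma wc4 (c : ℕ → ℕ → ℂ) (a b : ℂ) :
    wc c a b 4 = c 0 4 * b ^ 4 + c 1 2 * a * b ^ 2 + c 2 0 * a ^ 2 := by
  simp [wc, Finset.sum_range_succ]

lemma wc5 (c : ℕ → ℕ → ℂ) (a b : ℂ) :
    wc c a b 5 = c 0 5 * b ^ 5 + c 1 3 * a * b ^ 3 + c 2 1 * a ^ 2 * b := by
  simp [wc, Finset.sum_range_succ]

lemma wc6 (c : ℕ → ℕ → ℂ) (a b : ℂ) :
    wc c a b 6 = c 0 6 * b ^ 6 + c 1 4 * a * b ^ 4 + c 2 2 * a ^ 2 * b ^ 2 + c 3 0 * a ^ 3 := by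
  simp [wc, Finset.sum_range_succ]

lemma tendsto_w (a b : ℂ) :
    Tendsto (fun s : ℂ => ((s ^ 2 * a, s * b) : ℂ × ℂ)) (𝓝 0) (𝓝 0) :=
  (by fun_prop : Continuous (fun s : ℂ => ((s ^ 2 * a, s * b) : ℂ × ℂ))).tendsto' _ _ (by simp)

lemma norm_w_bigO (a b : ℂ) :
    (fun s : ℂ => ((s ^ 2 * a, s * b) : ℂ × ℂ)) =O[𝓝 0] fun s : ℂ => s := by
  refine IsBigO.of_bound (‖a‖ + ‖b‖) ?_
  filter_upwards [Metric.ball_mem_nhds (0 : ℂ) one_pos] with s hs
  have hs' : ‖s‖ ≤ 1 := by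
    have : ‖s‖ < 1 := by simpa using hs
    exact this.le
  rw [Prod.norm_def]
  apply max_le
  · simp only [norm_mul, norm_pow]
    have h1 : ‖s‖ ^ 2 ≤ ‖s‖ := by nlinarith [norm_nonneg s]
    have h2 := norm_nonneg b
    have h3 := norm_nonneg a
    have h4 := norm_nonneg s
    nlinarith [mul_le_mul_of_nonneg_right h1 h3, mul_nonneg h2 h4]
  · simp only [norm_mul]
    have h2 := norm_nonneg b
    have h3 := norm_nonneg a
    have h4 := norm_nonneg s
    nlinarith [mul_nonneg h3 h4]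

/-- weighted coefficients from a weighted expansion of order `≤ 6` -/
lemma wc_of_bigO {g : E2 → ℂ} (hg : AnalyticAt ℂ g 0) {a b : ℂ} {m : ℕ} (hm : m < 7) {d : ℕ → ℂ}
    (h : (fun s : ℂ => g (pt (s ^ 2 * a, s * b)) - ∑ k ∈ Finset.range (m + 1), d k * s ^ k)
      =O[𝓝 0] fun s : ℂ => s ^ (m + 1)) {k : ℕ} (hk : k ≤ m) : wc (cf g) a b k = d k := by
  have tw : Tendsto (fun s : ℂ => pt (s ^ 2 * a, s * b)) (𝓝 0) (𝓝 0) :=
    tendsto_pt.comp (tendsto_w a b)
  have h1 := (pol_cf hg 6).comp_tendsto tw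
  have h2 : (fun s : ℂ => ‖pt (s ^ 2 * a, s * b)‖ ^ 7) =O[𝓝 0] fun s : ℂ => s ^ (m + 1) := by
    have h3 : (fun s : ℂ => ‖((s ^ 2 * a, s * b) : ℂ × ℂ)‖) =O[𝓝 0] fun s : ℂ => s :=
      (norm_w_bigO a b).norm_left
    have h4 := h3.pow 7
    have h5 : (fun s : ℂ => s ^ 7) =O[𝓝 0] fun s : ℂ => s ^ (m + 1) := by
      refine IsBigO.of_bound 1 ?_
      filter_upwards [Metric.ball_mem_nhds (0 : ℂ) one_pos] with s hs
      have hs' : ‖s‖ ≤ 1 := by
        have : ‖s‖ < 1 := by simpa using hs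
        exact this.le
      rw [one_mul, norm_pow, norm_pow]
      exact pow_le_pow_of_le_one (norm_nonneg _) hs' (by omega)
    refine (h4.trans h5).congr_left fun s => ?_
    rw [norm_pt]
  have h3 : (fun s : ℂ => ∑ l ∈ Finset.range 13,
      (wc (cf g) a b l - if l ≤ m then d l else 0) * s ^ l) =O[𝓝 0] fun s : ℂ => s ^ (m + 1) := by
    refine (h.sub (h1.trans h2)).congr_left fun s => ?_
    simp only [Function.comp]
    rw [← wc_sum]
    simp only [sub_mul, Finset.sum_sub_distrib]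
    have h4 : ∑ l ∈ Finset.range 13, (if l ≤ m then d l else 0) * s ^ l =
        ∑ l ∈ Finset.range (m + 1), d l * s ^ l := by
      rw [← Finset.sum_subset (Finset.range_subset_range.2 (show m + 1 ≤ 13 by omega))]
      · refine Finset.sum_congr rfl fun l hl => ?_
        rw [Finset.mem_range] at hl
        rw [if_pos (by omega)]
      · intro l _ hl
        rw [Finset.mem_range] at hl
        rw [if_neg (by omega), zero_mul]
    rw [h4]
    ring
  have h4 := coeff_zero h3 (show k < m + 1 by omega) (show k < 13 by omega)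
  rw [if_pos hk] at h4
  linear_combination h4

lemma an_Dsc {u : E3 → ℂ} {v w : E2 → ℂ} (hu : AnalyticAt ℂ u 0) (hv : AnalyticAt ℂ v 0)
    (hw : AnalyticAt ℂ w 0) : AnalyticAt ℂ (Dsc u v w) 0 := by
  have h1 : AnalyticAt ℂ (fun p : E2 => (Fin.cons 0 p : E3)) 0 := by
    rw [analyticAt_pi_iff]
    intro i
    refine Fin.cases ?_ (fun j => ?_) i
    · simp only [Fin.cons_zero]
      exact analyticAt_const
    · simp only [Fin.cons_succ]
      exact (ContinuousLinearMap.proj (R := ℂ) (φ := fun _ : Fin 2 => ℂ) j).analyticAt 0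
  have h2 : AnalyticAt ℂ (fun p : E2 => u (Fin.cons 0 p)) 0 := by
    refine AnalyticAt.comp (g := u) (f := fun p : E2 => (Fin.cons 0 p : E3)) ?_ h1
    have : (Fin.cons 0 (0 : E2) : E3) = 0 := by
      ext i
      fin_cases i <;> rfl
    rw [this]
    exact hu
  exact ((analyticAt_const.mul h2).mul hw).sub (hv.pow 2)

/-- **normal form in the situation of `SextStmt`**, with the weighted coefficients of the
discriminant -/
theorem sext_nf {f : E3 → ℂ} (A : E3 ≃L[ℂ] E3) {u : E3 → ℂ} {v w : E2 → ℂ} (hf : LC0 f)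
    (hD : Dcp (fun x => f (A x)) u v w) (h30 : cf w 3 0 ≠ 0) (h21 : cf w 2 1 = 0)
    (h12 : cf w 1 2 = 0) (h03 : cf w 0 3 = 0) :
    ∃ (φ U : ℂ × ℂ → ℂ) (θ b₄ c₆ : ℂ → ℂ), Red f φ ∧ AnalyticAt ℂ U 0 ∧ U 0 ≠ 0 ∧
      AnalyticAt ℂ θ 0 ∧ θ 0 = 0 ∧ deriv θ 0 = 0 ∧ AnalyticAt ℂ b₄ 0 ∧ AnalyticAt ℂ c₆ 0 ∧
      (b₄ 0 ≠ 0 ∨ c₆ 0 ≠ 0) ∧
      (∀ᶠ q in 𝓝 (0 : ℂ × ℂ), φ (q.2, q.1) =
        U q * ((q.2 + θ q.1) ^ 3 + q.1 ^ 4 * b₄ q.1 * (q.2 + θ q.1) + q.1 ^ 6 * c₆ q.1)) ∧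
      ((fun q : ℂ × ℂ => φ q - w (pt q)) =O[𝓝 0] fun q => ‖q‖ ^ 4) ∧
      ((fun q : ℂ × ℂ => Dsc u v w (pt q) - 4 * u (Fin.cons 0 (pt q)) * φ q) =O[𝓝 0]
        fun q => ‖q‖ ^ 6) := by
  obtain ⟨φ, hR, h1, h2⟩ := crit_value hf.iso.an hf.iso.zero A hD
  have hj := jet_crit hD.aw hD.w0 h1
  rcases cube_or hf hR hj with ⟨h, -⟩ | ⟨-, h3⟩
  · exact absurd h h30
  · obtain ⟨U, θ, b₄, c₆, hU, hU0, hθ, hθ0, hb, hc, hbc, he, hk⟩ :=
      h3 (ContinuousLinearEquiv.prodComm ℂ ℂ ℂ) (by simpa [kf] using h30)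
    refine ⟨φ, U, θ, b₄, c₆, hR, hU, hU0, hθ, hθ0, ?_, hb, hc, hbc, ?_, h1, h2⟩
    · have h4 := hk (1, 0)
      simp [kf, h21, h12, h03] at h4
      exact h4.resolve_left hU0
    · filter_upwards [he] with q hq
      exact hq

/-- the weighted expansion of the discriminant up to order `5` -/
theorem sext_first {f : E3 → ℂ} (A : E3 ≃L[ℂ] E3) {u : E3 → ℂ} {v w : E2 → ℂ} (hf : LC0 f)
    (hD : Dcp (fun x => f (A x)) u v w) (h30 : cf w 3 0 ≠ 0) (h21 : cf w 2 1 = 0)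
    (h12 : cf w 1 2 = 0) (h03 : cf w 0 3 = 0) :
    cf (Dsc u v w) 0 4 = 0 ∧ cf (Dsc u v w) 1 3 = 0 ∧ cf (Dsc u v w) 0 5 = 0 := by
  obtain ⟨φ, U, θ, b₄, c₆, hR, hU, hU0, hθ, hθ0, hθ1, hb, hc, hbc, he, h1, h2⟩ :=
    sext_nf A hf hD h30 h21 h12 h03
  have hδ := an_Dsc hD.au hD.av hD.aw
  have key : ∀ a b : ℂ, (fun s : ℂ => Dsc u v w (pt (s ^ 2 * a, s * b)) -
      ∑ k ∈ Finset.range (5 + 1), (0 : ℂ) * s ^ k) =O[𝓝 0] fun s : ℂ => s ^ (5 + 1) := by
    intro a b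
    simp only [zero_mul, Finset.sum_const_zero, sub_zero]
    have tw := tendsto_w a b
    have tw' : Tendsto (fun s : ℂ => ((s * b, s ^ 2 * a) : ℂ × ℂ)) (𝓝 0) (𝓝 0) :=
      (by fun_prop : Continuous (fun s : ℂ => ((s * b, s ^ 2 * a) : ℂ × ℂ))).tendsto' _ _ (by simp)
    have tb : Tendsto (fun s : ℂ => s * b) (𝓝 0) (𝓝 0) :=
      (by fun_prop : Continuous (fun s : ℂ => s * b)).tendsto' _ _ (by simp)
    have sb : (fun s : ℂ => s * b) =O[𝓝 0] fun s : ℂ => s := by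
      refine IsBigO.of_bound ‖b‖ (Eventually.of_forall fun s => ?_)
      rw [norm_mul, mul_comm]
    -- the error
    have e1 : (fun s : ℂ => Dsc u v w (pt (s ^ 2 * a, s * b)) -
        4 * u (Fin.cons 0 (pt (s ^ 2 * a, s * b))) * φ (s ^ 2 * a, s * b)) =O[𝓝 0]
        fun s : ℂ => s ^ (5 + 1) := by
      have h3 := h2.comp_tendsto tw
      refine h3.trans ?_
      exact (norm_w_bigO a b).norm_left.pow 6
    -- boundedness of the coefficient functions
    have tc : Tendsto (fun s : ℂ => (Fin.cons 0 (pt (s ^ 2 * a, s * b)) : E3)) (𝓝 0) (𝓝 0) := by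
      have h4 : Continuous (fun q : ℂ × ℂ => (Fin.cons 0 (pt q) : E3)) := by
        refine continuous_pi fun i => ?_
        refine Fin.cases ?_ (fun j => ?_) i
        · simp only [Fin.cons_zero]
          exact continuous_const
        · simp only [Fin.cons_succ]
          exact (continuous_apply j).comp pt.continuous
      have h5 : (Fin.cons 0 (pt 0) : E3) = 0 := by
        rw [map_zero]
        ext i
        fin_cases i <;> rfl
      have h6 := h4.tendsto 0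
      rw [h5] at h6
      exact h6.comp tw
    have u1 : (fun s : ℂ => u (Fin.cons 0 (pt (s ^ 2 * a, s * b)))) =O[𝓝 0] fun _ => (1 : ℝ) :=
      (hD.au.continuousAt.tendsto.isBigO_one ℝ).comp_tendsto tc
    have U1 : (fun s : ℂ => U (s * b, s ^ 2 * a)) =O[𝓝 0] fun _ => (1 : ℝ) :=
      (hU.continuousAt.tendsto.isBigO_one ℝ).comp_tendsto tw'
    have b1 : (fun s : ℂ => b₄ (s * b)) =O[𝓝 0] fun _ => (1 : ℝ) :=
      (hb.continuousAt.tendsto.isBigO_one ℝ).comp_tendsto tb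
    have c1 : (fun s : ℂ => c₆ (s * b)) =O[𝓝 0] fun _ => (1 : ℝ) :=
      (hc.continuousAt.tendsto.isBigO_one ℝ).comp_tendsto tb
    have θ1 : (fun s : ℂ => s ^ 2 * a + θ (s * b)) =O[𝓝 0] fun s : ℂ => s ^ 2 := by
      have h3 := (sub_one_jet hθ hθ0).comp_tendsto tb
      have h4 : (fun s : ℂ => (s * b) ^ 2) =O[𝓝 0] fun s : ℂ => s ^ 2 := sb.pow 2
      have h5 : (fun s : ℂ => s ^ 2 * a) =O[𝓝 0] fun s : ℂ => s ^ 2 := by
        refine IsBigO.of_bound ‖a‖ (Eventually.of_forall fun s => ?_)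
        rw [norm_mul, mul_comm]
      refine (h5.add (h3.trans h4)).congr_left fun s => ?_
      simp only [Function.comp, hθ1]
      ring
    have e2 : (fun s : ℂ => φ (s ^ 2 * a, s * b)) =O[𝓝 0] fun s : ℂ => s ^ (5 + 1) := by
      have h3 : (fun s : ℂ => φ (s ^ 2 * a, s * b)) =ᶠ[𝓝 0] fun s =>
          U (s * b, s ^ 2 * a) * ((s ^ 2 * a + θ (s * b)) ^ 3 +
            (s * b) ^ 4 * b₄ (s * b) * (s ^ 2 * a + θ (s * b)) + (s * b) ^ 6 * c₆ (s * b)) := by
        filter_upwards [tw'.eventually he] with s hs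
        exact hs
      refine IsBigO.congr' ?_ h3.symm EventuallyEq.rfl
      have h4 : (fun s : ℂ => (s ^ 2 * a + θ (s * b)) ^ 3 +
            (s * b) ^ 4 * b₄ (s * b) * (s ^ 2 * a + θ (s * b)) + (s * b) ^ 6 * c₆ (s * b))
            =O[𝓝 0] fun s : ℂ => ‖s‖ ^ 6 := by
        have θ1' := θ1.norm_right
        have sb' := sb.norm_right
        refine IsBigO.add (IsBigO.add ?_ ?_) ?_
        · refine (θ1'.pow 3).congr_right fun s => ?_
          rw [norm_pow]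
          ring
        · refine (((sb'.pow 4).mul b1).mul θ1').congr_right fun s => ?_
          rw [norm_pow]
          ring
        · refine ((sb'.pow 6).mul c1).congr_right fun s => ?_
          ring
      have h5 := U1.mul h4
      refine h5.trans ?_
      refine IsBigO.of_bound 1 (Eventually.of_forall fun s => ?_)
      simp
    have e3 : (fun s : ℂ => 4 * u (Fin.cons 0 (pt (s ^ 2 * a, s * b))) * φ (s ^ 2 * a, s * b))
        =O[𝓝 0] fun s : ℂ => s ^ (5 + 1) := by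
      have h3 := (u1.const_mul_left 4).mul e2.norm_right
      refine h3.trans ?_
      refine IsBigO.of_bound 1 (Eventually.of_forall fun s => ?_)
      simp
    refine (e1.add e3).congr_left fun s => ?_
    ring
  have k4 : ∀ a b : ℂ, wc (cf (Dsc u v w)) a b 4 = 0 := fun a b =>
    wc_of_bigO hδ (m := 5) (by norm_num) (d := fun _ => 0) (key a b) (by norm_num)
  have k5 : ∀ a b : ℂ, wc (cf (Dsc u v w)) a b 5 = 0 := fun a b =>
    wc_of_bigO hδ (m := 5) (by norm_num) (d := fun _ => 0) (key a b) (by norm_num)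
  simp only [wc4] at k4
  simp only [wc5] at k5
  have a1 := k4 0 1
  have a2 := k5 0 1
  have a3 := k5 1 1
  have a4 := k5 (-1) 1
  refine ⟨by linear_combination a1, by linear_combination (a3 - a4) / 2, by linear_combination a2⟩

end Crest.Agent.R257.Cl2G_475
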