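import Crest.Agent.R257.Cl2G_475

/-!
R257 / Cl2H_475: in the situation of `SextStmt` (normal form `sext_nf`), the weighted (2,1)
coefficients of order `6` of the discriminant.
-/

set_option autoImplicit false
set_option linter.deprecated false

open Topology Filter Set Asymptotics
open Crest.AlgGeometry.Germ

noncomputable section

namespace Crest.Agent.R257.Cl2H_475

open Crest.Agent.R257.Defs_219 Crest.Agent.R257.LcxDefs_759 Crest.Agent.R257.Kp_405
open Crest.Agent.R257.Cl2_475 Crest.Agent.R257.Cl2D_475 Crest.Agent.R257.Cl2E_475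
open Crest.Agent.R257.Cl2F_475 Crest.Agent.R257.Cl2G_475

/-- one-variable analytic function minus its 2-jet -/
lemma sub_two_jet {θ : ℂ → ℂ} (hθ : AnalyticAt ℂ θ 0) (h0 : θ 0 = 0) (h1 : deriv θ 0 = 0) :
    ∃ θ₂ : ℂ, (fun z : ℂ => θ z - θ₂ * z ^ 2) =O[𝓝 0] fun z : ℂ => z ^ 3 := by
  obtain ⟨C, hC⟩ := (sub_one_jet hθ h0).bound
  have hC' : ∀ᶠ z in 𝓝 (0 : ℂ), ‖θ z‖ ≤ C * ‖z‖ ^ 2 := by
    filter_upwards [hC] with z hz
    rw [h1, zero_mul, sub_zero, norm_pow] at hz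
    exact hz
  obtain ⟨g, hg, he⟩ := exists_pow_mul_of_bound hθ hC'
  refine ⟨g 0, ?_⟩
  have h2 := hg.differentiableAt.isBigO_sub
  have h3 : (fun z : ℂ => z ^ 2 * (g z - g 0)) =O[𝓝 0] fun z : ℂ => z ^ 2 * (z - 0) :=
    (isBigO_refl _ _).mul h2
  refine IsBigO.congr' h3 ?_ ?_
  · filter_upwards [he] with z hz
    rw [hz]
    ring
  · exact Eventually.of_forall fun z => by ring

lemma wc_lt (c : ℕ → ℕ → ℂ) (a b : ℂ) (h : ∀ i j, i + j ≤ 5 → c i j = 0) {k : ℕ} (hk : k < 6) :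
    wc c a b k = 0 := by
  refine Finset.sum_eq_zero fun i _ => Finset.sum_eq_zero fun j _ => ?_
  split_ifs with h1
  · rw [h i j (by omega)]
    ring
  · rfl

/-- an analytic germ `O(|p|^6)` has vanishing coefficients of degree `≤ 5` -/
lemma cf_of_bigO {g : E2 → ℂ} (hg : AnalyticAt ℂ g 0) {n : ℕ}
    (h : (fun q : ℂ × ℂ => g (pt q)) =O[𝓝 0] fun q => ‖q‖ ^ (n + 1)) {i j : ℕ} (hij : i + j ≤ n) :
    cf g i j = 0 := by
  -- the polynomial is `O`
  have h1 := (pol_cf hg n).comp_tendsto tendsto_pt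
  have h2 : (fun q : ℂ × ℂ => Pol (cf g) n (pt q)) =O[𝓝 0] fun q => ‖q‖ ^ (n + 1) := by
    have h3 : (fun q : ℂ × ℂ => g (pt q) - Pol (cf g) n (pt q)) =O[𝓝 0] fun q => ‖q‖ ^ (n + 1) := by
      refine h1.congr (fun q => rfl) fun q => ?_
      simp only [Function.comp, norm_pt]
    refine (h.sub h3).congr_left fun q => ?_
    ring
  -- one variable: `p = s (a, b)`
  have h3 : ∀ a b : ℂ, ∀ k ≤ n, ∑ i ∈ Finset.range (n + 1), ∑ j ∈ Finset.range (n + 1 - i),
      (if i + j = k then cf g i j * a ^ i * b ^ j else 0) = 0 := by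
    intro a b k hk
    have ts : Tendsto (fun s : ℂ => s • ((a, b) : ℂ × ℂ)) (𝓝 0) (𝓝 0) :=
      (by fun_prop : Continuous (fun s : ℂ => s • ((a, b) : ℂ × ℂ))).tendsto' _ _ (zero_smul _ _)
    have h4 := h2.comp_tendsto ts
    have h5 : (fun s : ℂ => ∑ k ∈ Finset.range (n + 1),
        (∑ i ∈ Finset.range (n + 1), ∑ j ∈ Finset.range (n + 1 - i),
          (if i + j = k then cf g i j * a ^ i * b ^ j else 0)) * s ^ k) =O[𝓝 0]
        fun s : ℂ => s ^ (n + 1) := by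
      have h6 : ((fun q : ℂ × ℂ => ‖q‖ ^ (n + 1)) ∘ fun s : ℂ => s • ((a, b) : ℂ × ℂ)) =O[𝓝 0]
          fun s : ℂ => s ^ (n + 1) := by
        refine IsBigO.of_bound (‖((a, b) : ℂ × ℂ)‖ ^ (n + 1)) (Eventually.of_forall fun s => ?_)
        simp only [Function.comp, norm_smul, mul_pow]
        rw [norm_mul, norm_pow, norm_pow, norm_norm, norm_norm, norm_pow, mul_comm]
      refine (h4.trans h6).congr_left fun s => ?_
      · simp only [Function.comp, Pol, pt_0, pt_1, Prod.smul_mk, smul_eq_mul]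
        symm
        simp only [Finset.sum_mul]
        rw [Finset.sum_comm]
        refine Finset.sum_congr rfl fun i hi => ?_
        rw [Finset.sum_comm]
        refine Finset.sum_congr rfl fun j hj => ?_
        rw [Finset.mem_range] at hi hj
        simp only [ite_mul, zero_mul]
        rw [Finset.sum_ite_eq, if_pos (by rw [Finset.mem_range]; omega), pow_add, mul_pow, mul_pow]
        ring
    exact coeff_zero h5 (by omega) (by omega)
  -- polynomial in `a` with `b = 1`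
  have h4 : ∀ a : ℂ, ∑ l ∈ Finset.range (i + j + 1), cf g l (i + j - l) * a ^ l = 0 := by
    intro a
    rw [← h3 a 1 (i + j) hij]
    have : ∀ l ∈ Finset.range (n + 1), ∑ m ∈ Finset.range (n + 1 - l),
        (if l + m = i + j then cf g l m * a ^ l * 1 ^ m else 0) =
        if l < i + j + 1 then cf g l (i + j - l) * a ^ l else 0 := by
      intro l hl
      rw [Finset.mem_range] at hl
      by_cases hl' : l < i + j + 1
      · rw [if_pos hl', Finset.sum_eq_single (i + j - l)]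
        · rw [if_pos (by omega), one_pow, mul_one]
        · intro m _ hm
          rw [if_neg (by omega)]
        · intro hm
          rw [Finset.mem_range] at hm
          omega
      · rw [if_neg hl']
        refine Finset.sum_eq_zero fun m _ => ?_
        rw [if_neg (by omega)]
    rw [Finset.sum_congr rfl this, ← Finset.sum_filter]
    refine Finset.sum_congr ?_ fun _ _ => rfl
    ext l
    simp only [Finset.mem_range, Finset.mem_filter]
    omega
  have h5 := coeff_zero (N := i + j + 1) (n := i + j + 1) (c := fun l => cf g l (i + j - l))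
    (by
      simp only [h4]
      exact isBigO_zero _ _) (show i < i + j + 1 by omega) (by omega)
  rwa [show i + j - i = j by omega] at h5

/-- an analytic function of a bounded quantity differs from its value at `0` by `O(s)` -/
lemma sub_value {E : Type*} [NormedAddCommGroup E] [NormedSpace ℂ E] {G : E → ℂ}
    (hG : AnalyticAt ℂ G 0) {c : ℂ → E} (hc : c =O[𝓝 0] fun s : ℂ => s)
    (tc : Tendsto c (𝓝 0) (𝓝 0)) : (fun s : ℂ => G (c s) - G 0) =O[𝓝 0] fun s : ℂ => s := by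
  have h1 := hG.differentiableAt.isBigO_sub.comp_tendsto tc
  refine h1.trans ?_
  refine hc.congr_left fun s => ?_
  simp

/-- **the weighted 6-part of the discriminant** in the situation of `SextStmt` -/
theorem sext_six {u : E3 → ℂ} {v w : E2 → ℂ} (hu : AnalyticAt ℂ u 0) (hv : AnalyticAt ℂ v 0)
    (hw : AnalyticAt ℂ w 0) {φ U : ℂ × ℂ → ℂ} {θ b₄ c₆ : ℂ → ℂ} (hφ : AnalyticAt ℂ φ 0)
    (hU : AnalyticAt ℂ U 0) (hθ : AnalyticAt ℂ θ 0) (hθ0 : θ 0 = 0) (hθ1 : deriv θ 0 = 0)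
    (hb : AnalyticAt ℂ b₄ 0) (hc : AnalyticAt ℂ c₆ 0)
    (he : ∀ᶠ q in 𝓝 (0 : ℂ × ℂ), φ (q.2, q.1) =
        U q * ((q.2 + θ q.1) ^ 3 + q.1 ^ 4 * b₄ q.1 * (q.2 + θ q.1) + q.1 ^ 6 * c₆ q.1))
    (h2 : (fun q : ℂ × ℂ => Dsc u v w (pt q) - 4 * u (Fin.cons 0 (pt q)) * φ q) =O[𝓝 0]
        fun q => ‖q‖ ^ 6) :
    ∃ θ₂ : ℂ, ((fun z : ℂ => θ z - θ₂ * z ^ 2) =O[𝓝 0] fun z : ℂ => z ^ 3) ∧
      cf (Dsc u v w) 3 0 = 4 * u 0 * U 0 ∧
      cf (Dsc u v w) 2 2 = 4 * u 0 * U 0 * (3 * θ₂) ∧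
      cf (Dsc u v w) 1 4 = 4 * u 0 * U 0 * (3 * θ₂ ^ 2 + b₄ 0) := by
  obtain ⟨θ₂, hθ₂⟩ := sub_two_jet hθ hθ0 hθ1
  have hδ := an_Dsc hu hv hw
  refine ⟨θ₂, hθ₂, ?_⟩
  -- the error term `E`
  have hcons : AnalyticAt ℂ (fun p : E2 => u (Fin.cons 0 p)) 0 := by
    have h1 : AnalyticAt ℂ (fun p : E2 => (Fin.cons 0 p : E3)) 0 := by
      rw [analyticAt_pi_iff]
      intro i
      refine Fin.cases ?_ (fun j => ?_) i
      · simp only [Fin.cons_zero]
        exact analyticAt_const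
      · simp only [Fin.cons_succ]
        exact (ContinuousLinearMap.proj (R := ℂ) (φ := fun _ : Fin 2 => ℂ) j).analyticAt 0
    refine AnalyticAt.comp (g := u) (f := fun p : E2 => (Fin.cons 0 p : E3)) ?_ h1
    have : (Fin.cons 0 (0 : E2) : E3) = 0 := by
      ext i
      fin_cases i <;> rfl
    rw [this]
    exact hu
  set Er : E2 → ℂ := fun p => Dsc u v w p - 4 * u (Fin.cons 0 p) * φ (pt.symm p) with hEr
  have hφs : AnalyticAt ℂ (fun p : E2 => φ (pt.symm p)) 0 :=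
    AnalyticAt.comp (g := φ) (f := pt.symm) (by rw [map_zero]; exact hφ) (pt.symm.analyticAt 0)
  have hEra : AnalyticAt ℂ Er 0 := hδ.sub ((analyticAt_const.mul hcons).mul hφs)
  have hErO : (fun q : ℂ × ℂ => Er (pt q)) =O[𝓝 0] fun q => ‖q‖ ^ (5 + 1) := by
    refine h2.congr_left fun q => ?_
    simp only [hEr, ContinuousLinearEquiv.symm_apply_apply]
  have hEr0 : ∀ i j, i + j ≤ 5 → cf Er i j = 0 := fun i j hij => cf_of_bigO hEra hErO hij
  have V := 4 * u 0 * U 0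
  have key : ∀ a b : ℂ, (fun s : ℂ => Dsc u v w (pt (s ^ 2 * a, s * b)) -
      ∑ k ∈ Finset.range (6 + 1), (if k = 6 then
        4 * u 0 * U 0 * ((a + θ₂ * b ^ 2) ^ 3 + b ^ 4 * b₄ 0 * (a + θ₂ * b ^ 2) + b ^ 6 * c₆ 0) +
          cf Er 0 6 * b ^ 6 else 0) * s ^ k) =O[𝓝 0] fun s : ℂ => s ^ (6 + 1) := by
    intro a b
    have e0 : ∀ s : ℂ, ∑ k ∈ Finset.range (6 + 1), (if k = 6 then
        4 * u 0 * U 0 * ((a + θ₂ * b ^ 2) ^ 3 + b ^ 4 * b₄ 0 * (a + θ₂ * b ^ 2) + b ^ 6 * c₆ 0) +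
          cf Er 0 6 * b ^ 6 else 0) * s ^ k =
        (4 * u 0 * U 0 * ((a + θ₂ * b ^ 2) ^ 3 + b ^ 4 * b₄ 0 * (a + θ₂ * b ^ 2) + b ^ 6 * c₆ 0) +
          cf Er 0 6 * b ^ 6) * s ^ 6 := by
      intro s
      rw [Finset.sum_eq_single 6]
      · simp
      · intro k _ hk
        rw [if_neg hk, zero_mul]
      · intro h
        simp at h
    have tw := tendsto_w a b
    have tw' : Tendsto (fun s : ℂ => ((s * b, s ^ 2 * a) : ℂ × ℂ)) (𝓝 0) (𝓝 0) :=
      (by fun_prop : Continuous (fun s : ℂ => ((s * b, s ^ 2 * a) : ℂ × ℂ))).tendsto' _ _ (by simp)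
    have tb : Tendsto (fun s : ℂ => s * b) (𝓝 0) (𝓝 0) :=
      (by fun_prop : Continuous (fun s : ℂ => s * b)).tendsto' _ _ (by simp)
    have sb : (fun s : ℂ => s * b) =O[𝓝 0] fun s : ℂ => s := by
      refine IsBigO.of_bound ‖b‖ (Eventually.of_forall fun s => ?_)
      rw [norm_mul, mul_comm]
    have sw' : (fun s : ℂ => ((s * b, s ^ 2 * a) : ℂ × ℂ)) =O[𝓝 0] fun s : ℂ => s := by
      refine (norm_w_bigO a b).norm_left.congr' ?_ EventuallyEq.rfl |>.of_norm_left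
      exact Eventually.of_forall fun s => by
        simp only [Prod.norm_def, max_comm]
    -- (i) the error term
    have e1 : (fun s : ℂ => Er (pt (s ^ 2 * a, s * b)) - cf Er 0 6 * b ^ 6 * s ^ 6) =O[𝓝 0]
        fun s : ℂ => s ^ 7 := by
      have tp : Tendsto (fun s : ℂ => pt (s ^ 2 * a, s * b)) (𝓝 0) (𝓝 0) := tendsto_pt.comp tw
      have h3 := (pol_cf hEra 6).comp_tendsto tp
      have h4 : (fun s : ℂ => ‖pt (s ^ 2 * a, s * b)‖ ^ (6 + 1)) =O[𝓝 0] fun s : ℂ => s ^ 7 := by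
        refine ((norm_w_bigO a b).norm_left.pow 7).congr_left fun s => ?_
        rw [norm_pt]
      have h5 : (fun s : ℂ => Pol (cf Er) 6 (pt (s ^ 2 * a, s * b)) - cf Er 0 6 * b ^ 6 * s ^ 6)
          =O[𝓝 0] fun s : ℂ => s ^ 7 := by
        have h6 : ∀ s : ℂ, Pol (cf Er) 6 (pt (s ^ 2 * a, s * b)) - cf Er 0 6 * b ^ 6 * s ^ 6 =
            s ^ 7 * (cf Er 1 5 * a * b ^ 5 + cf Er 2 4 * a ^ 2 * b ^ 4 * s +
              cf Er 3 3 * a ^ 3 * b ^ 3 * s ^ 2 + cf Er 4 2 * a ^ 4 * b ^ 2 * s ^ 3 +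
              cf Er 5 1 * a ^ 5 * b * s ^ 4 + cf Er 6 0 * a ^ 6 * s ^ 5) := by
          intro s
          rw [← wc_sum]
          simp only [wc, Finset.sum_range_succ, Finset.sum_range_zero]
          simp only [Nat.reduceAdd, Nat.reduceMul, Nat.reduceEqDiff, Nat.reduceSub,
            Finset.sum_range_succ, Finset.sum_range_zero, hEr0 0 0 (by norm_num),
            hEr0 0 1 (by norm_num), hEr0 0 2 (by norm_num),
            hEr0 0 3 (by norm_num), hEr0 0 4 (by norm_num), hEr0 0 5 (by norm_num),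
            hEr0 1 0 (by norm_num), hEr0 1 1 (by norm_num), hEr0 1 2 (by norm_num),
            hEr0 1 3 (by norm_num), hEr0 1 4 (by norm_num), hEr0 2 0 (by norm_num),
            hEr0 2 1 (by norm_num), hEr0 2 2 (by norm_num), hEr0 2 3 (by norm_num),
            hEr0 3 0 (by norm_num), hEr0 3 1 (by norm_num), hEr0 3 2 (by norm_num),
            hEr0 4 0 (by norm_num), hEr0 4 1 (by norm_num), hEr0 5 0 (by norm_num)]
          simp
          ring
        simp only [h6]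
        have h7 : (fun s : ℂ => cf Er 1 5 * a * b ^ 5 + cf Er 2 4 * a ^ 2 * b ^ 4 * s +
              cf Er 3 3 * a ^ 3 * b ^ 3 * s ^ 2 + cf Er 4 2 * a ^ 4 * b ^ 2 * s ^ 3 +
              cf Er 5 1 * a ^ 5 * b * s ^ 4 + cf Er 6 0 * a ^ 6 * s ^ 5) =O[𝓝 0]
              fun _ => (1 : ℝ) := by
          have : ContinuousAt (fun s : ℂ => cf Er 1 5 * a * b ^ 5 + cf Er 2 4 * a ^ 2 * b ^ 4 * s +
              cf Er 3 3 * a ^ 3 * b ^ 3 * s ^ 2 + cf Er 4 2 * a ^ 4 * b ^ 2 * s ^ 3 +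
              cf Er 5 1 * a ^ 5 * b * s ^ 4 + cf Er 6 0 * a ^ 6 * s ^ 5) 0 := by fun_prop
          exact this.tendsto.isBigO_one ℝ
        have h8 := (isBigO_refl (fun s : ℂ => s ^ 7) (𝓝 0)).norm_right.mul h7
        refine h8.trans (IsBigO.of_bound 1 (Eventually.of_forall fun s => ?_))
        simp
      refine ((h3.trans h4).add h5).congr_left fun s => ?_
      simp only [Function.comp]
      ring
    -- (ii) the main term
    have tc : Tendsto (fun s : ℂ => pt (s ^ 2 * a, s * b)) (𝓝 0) (𝓝 0) := tendsto_pt.comp tw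
    have scp : (fun s : ℂ => pt (s ^ 2 * a, s * b)) =O[𝓝 0] fun s : ℂ => s := by
      refine IsBigO.of_norm_left ?_
      refine (norm_w_bigO a b).norm_left.congr_left fun s => ?_
      rw [norm_pt]
    have u1 : (fun s : ℂ => u (Fin.cons 0 (pt (s ^ 2 * a, s * b))) - u 0) =O[𝓝 0]
        fun s : ℂ => s := by
      have h3 := sub_value hcons scp tc
      refine h3.congr_left fun s => ?_
      congr 2
      ext i
      fin_cases i <;> rfl
    have U1 : (fun s : ℂ => U (s * b, s ^ 2 * a) - U 0) =O[𝓝 0] fun s : ℂ => s :=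
      sub_value hU sw' tw'
    have b1 : (fun s : ℂ => b₄ (s * b) - b₄ 0) =O[𝓝 0] fun s : ℂ => s := sub_value hb sb tb
    have c1 : (fun s : ℂ => c₆ (s * b) - c₆ 0) =O[𝓝 0] fun s : ℂ => s := sub_value hc sb tb
    have one_of : ∀ {G : ℂ → ℂ} {d : ℂ}, ((fun s : ℂ => G s - d) =O[𝓝 0] fun s : ℂ => s) →
        G =O[𝓝 0] fun _ => (1 : ℂ) := by
      intro G d hG
      have h3 : (fun s : ℂ => s) =O[𝓝 (0 : ℂ)] fun _ => (1 : ℂ) := by
        have : ContinuousAt (fun s : ℂ => s) 0 := by fun_prop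
        exact this.tendsto.isBigO_one ℂ
      have h4 : (fun _ : ℂ => d) =O[𝓝 (0 : ℂ)] fun _ => (1 : ℂ) := isBigO_const_const _ one_ne_zero _
      exact ((hG.trans h3).add h4).congr_left fun s => by ring
    -- `Y = s² a + θ(s b) = s² (a + θ₂ b²) + O(s³)`
    have Y1 : (fun s : ℂ => (s ^ 2 * a + θ (s * b)) - s ^ 2 * (a + θ₂ * b ^ 2)) =O[𝓝 0]
        fun s : ℂ => s ^ 3 := by
      have h3 := (hθ₂.comp_tendsto tb).trans (sb.pow 3)
      refine h3.congr_left fun s => ?_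
      simp only [Function.comp]
      ring
    -- `Y = s² y`, `y = a + θ₂ b² + O(s)`
    set Y0 : ℂ := a + θ₂ * b ^ 2 with hY0
    have Yb : (fun s : ℂ => s ^ 2 * a + θ (s * b)) =O[𝓝 0] fun s : ℂ => s ^ 2 := by
      have h3 : (fun s : ℂ => s ^ 3) =O[𝓝 (0 : ℂ)] fun s : ℂ => s ^ 2 := by
        refine IsBigO.of_bound 1 ?_
        filter_upwards [Metric.ball_mem_nhds (0 : ℂ) one_pos] with s hs
        have hs' : ‖s‖ ≤ 1 := by
          have : ‖s‖ < 1 := by simpa using hs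
          exact this.le
        rw [one_mul, norm_pow, norm_pow]
        exact pow_le_pow_of_le_one (norm_nonneg _) hs' (by norm_num)
      have h4 : (fun s : ℂ => s ^ 2 * Y0) =O[𝓝 (0 : ℂ)] fun s : ℂ => s ^ 2 := by
        refine IsBigO.of_bound ‖Y0‖ (Eventually.of_forall fun s => ?_)
        rw [norm_mul, mul_comm]
      exact ((Y1.trans h3).add h4).congr_left fun s => by ring
    have Y0b : (fun s : ℂ => s ^ 2 * Y0) =O[𝓝 (0 : ℂ)] fun s : ℂ => s ^ 2 := by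
      refine IsBigO.of_bound ‖Y0‖ (Eventually.of_forall fun s => ?_)
      rw [norm_mul, mul_comm]
    have B1 : (fun s : ℂ => ((s ^ 2 * a + θ (s * b)) ^ 3 +
          (s * b) ^ 4 * b₄ (s * b) * (s ^ 2 * a + θ (s * b)) + (s * b) ^ 6 * c₆ (s * b)) -
        s ^ 6 * (Y0 ^ 3 + b ^ 4 * b₄ 0 * Y0 + b ^ 6 * c₆ 0)) =O[𝓝 0] fun s : ℂ => s ^ 7 := by
      have h3 : ∀ s : ℂ, ((s ^ 2 * a + θ (s * b)) ^ 3 +
          (s * b) ^ 4 * b₄ (s * b) * (s ^ 2 * a + θ (s * b)) + (s * b) ^ 6 * c₆ (s * b)) -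
          s ^ 6 * (Y0 ^ 3 + b ^ 4 * b₄ 0 * Y0 + b ^ 6 * c₆ 0) =
          ((s ^ 2 * a + θ (s * b)) - s ^ 2 * Y0) * ((s ^ 2 * a + θ (s * b)) ^ 2 +
            (s ^ 2 * a + θ (s * b)) * (s ^ 2 * Y0) + (s ^ 2 * Y0) ^ 2) +
          ((s * b) ^ 4 * ((b₄ (s * b) - b₄ 0) * (s ^ 2 * a + θ (s * b))) +
            (s * b) ^ 4 * b₄ 0 * ((s ^ 2 * a + θ (s * b)) - s ^ 2 * Y0)) +
          (s * b) ^ 6 * (c₆ (s * b) - c₆ 0) := by
        intro s
        ring
      simp only [h3]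
      refine IsBigO.add (IsBigO.add ?_ (IsBigO.add ?_ ?_)) ?_
      · have h4 : (fun s : ℂ => (s ^ 2 * a + θ (s * b)) ^ 2 +
            (s ^ 2 * a + θ (s * b)) * (s ^ 2 * Y0) + (s ^ 2 * Y0) ^ 2) =O[𝓝 0]
            fun s : ℂ => s ^ 4 := by
          refine IsBigO.add (IsBigO.add ?_ ?_) ?_
          · exact (Yb.pow 2).congr_right fun s => by ring
          · exact (Yb.mul Y0b).congr_right fun s => by ring
          · exact (Y0b.pow 2).congr_right fun s => by ring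
        exact (Y1.mul h4).congr_right fun s => by ring
      · exact ((sb.pow 4).mul (b1.mul Yb)).congr_right fun s => by ring
      · refine (((sb.pow 4).mul (isBigO_refl (fun _ : ℂ => b₄ 0) _)).mul Y1).trans ?_
        refine IsBigO.of_bound ‖b₄ 0‖ (Eventually.of_forall fun s => ?_)
        simp only [norm_mul, norm_pow]
        apply le_of_eq
        ring
      · exact ((sb.pow 6).mul c1).congr_right fun s => by ring
    have e2 : (fun s : ℂ => φ (s ^ 2 * a, s * b) -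
        U 0 * (s ^ 6 * (Y0 ^ 3 + b ^ 4 * b₄ 0 * Y0 + b ^ 6 * c₆ 0))) =O[𝓝 0]
        fun s : ℂ => s ^ 7 := by
      have h3 : (fun s : ℂ => φ (s ^ 2 * a, s * b) -
          U 0 * (s ^ 6 * (Y0 ^ 3 + b ^ 4 * b₄ 0 * Y0 + b ^ 6 * c₆ 0))) =ᶠ[𝓝 0] fun s =>
          U (s * b, s ^ 2 * a) * (((s ^ 2 * a + θ (s * b)) ^ 3 +
          (s * b) ^ 4 * b₄ (s * b) * (s ^ 2 * a + θ (s * b)) + (s * b) ^ 6 * c₆ (s * b)) -
            s ^ 6 * (Y0 ^ 3 + b ^ 4 * b₄ 0 * Y0 + b ^ 6 * c₆ 0)) +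
          (U (s * b, s ^ 2 * a) - U 0) * (s ^ 6 * (Y0 ^ 3 + b ^ 4 * b₄ 0 * Y0 + b ^ 6 * c₆ 0)) := by
        filter_upwards [tw'.eventually he] with s hs
        rw [hs]
        ring
      refine IsBigO.congr' ?_ h3.symm EventuallyEq.rfl
      refine IsBigO.add ?_ ?_
      · exact ((one_of U1).mul B1).congr_right fun s => by ring
      · refine (U1.mul ((isBigO_refl (fun s : ℂ => s ^ 6) _).mul
          (isBigO_const_const (Y0 ^ 3 + b ^ 4 * b₄ 0 * Y0 + b ^ 6 * c₆ 0) (one_ne_zero (α := ℂ)) _))).congr_right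
          fun s => by ring
    have e3 : (fun s : ℂ => 4 * u (Fin.cons 0 (pt (s ^ 2 * a, s * b))) * φ (s ^ 2 * a, s * b) -
        4 * u 0 * (U 0 * (s ^ 6 * (Y0 ^ 3 + b ^ 4 * b₄ 0 * Y0 + b ^ 6 * c₆ 0)))) =O[𝓝 0]
        fun s : ℂ => s ^ 7 := by
      have h3 : ∀ s : ℂ, 4 * u (Fin.cons 0 (pt (s ^ 2 * a, s * b))) * φ (s ^ 2 * a, s * b) -
          4 * u 0 * (U 0 * (s ^ 6 * (Y0 ^ 3 + b ^ 4 * b₄ 0 * Y0 + b ^ 6 * c₆ 0))) =
          4 * (u (Fin.cons 0 (pt (s ^ 2 * a, s * b))) * (φ (s ^ 2 * a, s * b) -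
            U 0 * (s ^ 6 * (Y0 ^ 3 + b ^ 4 * b₄ 0 * Y0 + b ^ 6 * c₆ 0)))) +
          4 * ((u (Fin.cons 0 (pt (s ^ 2 * a, s * b))) - u 0) *
            (U 0 * (s ^ 6 * (Y0 ^ 3 + b ^ 4 * b₄ 0 * Y0 + b ^ 6 * c₆ 0)))) := by
        intro s
        ring
      simp only [h3]
      refine IsBigO.add (IsBigO.const_mul_left ?_ 4) (IsBigO.const_mul_left ?_ 4)
      · exact ((one_of u1).mul e2).congr_right fun s => by ring
      · refine (u1.mul ((isBigO_const_const (U 0) (one_ne_zero (α := ℂ)) _).mul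
          ((isBigO_refl (fun s : ℂ => s ^ 6) _).mul
          (isBigO_const_const (Y0 ^ 3 + b ^ 4 * b₄ 0 * Y0 + b ^ 6 * c₆ 0) (one_ne_zero (α := ℂ)) _)))).congr_right
          fun s => by ring
    simp only [e0]
    refine (e1.add e3).congr_left fun s => ?_
    simp only [hEr, ContinuousLinearEquiv.symm_apply_apply]
    ring
  have k6 : ∀ a b : ℂ, wc (cf (Dsc u v w)) a b 6 =
      4 * u 0 * U 0 * ((a + θ₂ * b ^ 2) ^ 3 + b ^ 4 * b₄ 0 * (a + θ₂ * b ^ 2) + b ^ 6 * c₆ 0) +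
          cf Er 0 6 * b ^ 6 := by
    intro a b
    have := wc_of_bigO hδ (m := 6) (by norm_num) (key a b) (k := 6) le_rfl
    rw [this, if_pos rfl]
  simp only [wc6] at k6
  have a0 := k6 0 1
  have a1 := k6 1 1
  have a2 := k6 (-1) 1
  have a3 := k6 2 1
  refine ⟨?_, ?_, ?_⟩
  · linear_combination (a3 - 3 * a1 + 3 * a0 - a2) / 6
  · linear_combination (a1 + a2 - 2 * a0) / 2
  · linear_combination (-a3 + 6 * a1 - 3 * a0 - 2 * a2) / 6

end Crest.Agent.R257.Cl2H_475
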