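import Crest.Agent.R257.Cl2F_475
import Crest.Agent.R257.Kp8_405

/-!
R257 / Cl2I_475: the critical point `X` and the critical value in the coordinates `Fin 2 → ℂ`
(interface for 929).
-/

set_option autoImplicit false
set_option linter.deprecated false

open Topology Filter Set Asymptotics
open Crest.AlgGeometry.Germ

noncomputable section

namespace Crest.Agent.R257.Cl2I_475

open Crest.Agent.R257.Defs_219 Crest.Agent.R257.LcxDefs_759 Crest.Agent.R257.Kp_405
open Crest.Agent.R257.Cl2_475 Crest.Agent.R257.Cl2D_475 Crest.Agent.R257.Cl2E_475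

/-- a reduced germ in other coordinates -/
theorem Red_comp {f : E3 → ℂ} {φ : ℂ × ℂ → ℂ} (h : Red f φ) {Φ Φ' : ℂ × ℂ → ℂ × ℂ}
    (hL : LB Φ Φ') : Red f (fun w => φ (Φ w)) := by
  obtain ⟨hφ, Ψ, Ψ', U, hΨ, hU, hU0, he⟩ := h
  have hLL : LB (fun q : (ℂ × ℂ) × ℂ => (Φ q.1, q.2)) (fun q : (ℂ × ℂ) × ℂ => (Φ' q.1, q.2)) := by
    have tf : Tendsto (Prod.fst : (ℂ × ℂ) × ℂ → ℂ × ℂ) (𝓝 0) (𝓝 0) :=
      continuous_fst.tendsto' _ _ rfl
    refine ⟨?_, ?_, ?_, ?_, ?_, ?_⟩
    · exact (AnalyticAt.comp (g := Φ) (f := Prod.fst) hL.an analyticAt_fst).prod analyticAt_snd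
    · exact (AnalyticAt.comp (g := Φ') (f := Prod.fst) hL.symm.an analyticAt_fst).prod analyticAt_snd
    · simp [hL.map0]
    · simp [hL.map0']
    · filter_upwards [tf.eventually hL.left] with q hq
      ext
      · simp [hq]
      · simp [hq]
      · rfl
    · filter_upwards [tf.eventually hL.right] with q hq
      ext
      · simp [hq]
      · simp [hq]
      · rfl
  refine ⟨an_comp_LB hφ hL, fun q => Ψ (Φ q.1, q.2), fun x => (Φ' (Ψ' x).1, (Ψ' x).2),
    fun q => U (Φ q.1, q.2), hΨ.comp hLL, an_comp_LB hU hLL, ?_, ?_⟩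
  · simp only [Prod.fst_zero, Prod.snd_zero, hL.map0]
    exact hU0
  · filter_upwards [hLL.tendsto.eventually he] with q hq
    exact hq

/-- **the critical point** in the language of 929 -/
theorem crit_X {f : E3 → ℂ} (hf : AnalyticAt ℂ f 0) (hf0 : f 0 = 0) (A : E3 ≃L[ℂ] E3)
    {u : E3 → ℂ} {v w : E2 → ℂ} (hD : Dcp (fun x => f (A x)) u v w) :
    ∃ X : E2 → ℂ, AnalyticAt ℂ X 0 ∧ X 0 = 0 ∧ (X =O[𝓝 0] fun q : E2 => ‖q‖ ^ 2) ∧
      (∀ᶠ q in 𝓝 (0 : E2), coordDeriv (fun x => f (A x)) 0 (Fin.cons (X q) q) = 0) ∧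
      Red f (fun z : ℂ × ℂ => f (A (Fin.cons (X ![z.2, z.1]) ![z.2, z.1]))) ∧
      Red f (fun z : ℂ × ℂ => f (A (Fin.cons (X ![z.1, z.2]) ![z.1, z.2]))) ∧
      ((fun q : E2 => f (A (Fin.cons (X q) q)) - w q) =O[𝓝 0] fun q => ‖q‖ ^ 4) ∧
      ((fun q : E2 => Dsc u v w q - 4 * u (Fin.cons 0 q) * f (A (Fin.cons (X q) q)))
        =O[𝓝 0] fun q => ‖q‖ ^ 6) := by
  obtain ⟨X, hX, hX0, hXO, hcr, hR, h1, h2⟩ := crit_core hf hf0 A hD
  have ts : Tendsto pt.symm (𝓝 0) (𝓝 0) := by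
    have := pt.symm.continuous.tendsto 0
    rwa [map_zero] at this
  have hns : ∀ q : E2, ‖pt.symm q‖ = ‖q‖ := by
    intro q
    rw [← norm_pt, ContinuousLinearEquiv.apply_symm_apply]
  have hk : ∀ q : E2, kap (pt.symm q, X (pt.symm q)) = Fin.cons (X (pt.symm q)) q := by
    intro q
    ext i
    fin_cases i <;> rfl
  have hR1 : Red f (fun z : ℂ × ℂ => f (A (Fin.cons (X (pt.symm ![z.1, z.2])) ![z.1, z.2]))) := by
    have e : (fun z : ℂ × ℂ => f (A (Fin.cons (X (pt.symm ![z.1, z.2])) ![z.1, z.2]))) =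
        fun q => f (A (kap (q, X q))) := by
      funext z
      congr 2
    rw [e]
    exact hR
  have hsw : ∀ q : (ℂ × ℂ), (Prod.swap q) = (q.2, q.1) := fun q => rfl
  refine ⟨fun q => X (pt.symm q), ?_, by simp [hX0], ?_, ?_, ?_, hR1, ?_, ?_⟩
  · exact AnalyticAt.comp (g := X) (f := pt.symm) (by rw [map_zero]; exact hX)
      (pt.symm.analyticAt 0)
  · refine (hXO.comp_tendsto ts).congr_right fun q => ?_
    simp only [Function.comp, hns]
  · have tX : Tendsto (fun q : ℂ × ℂ => kap (q, X q)) (𝓝 0) (𝓝 0) := by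
      have h3 : ContinuousAt (fun q : ℂ × ℂ => (q, X q)) 0 := continuousAt_id.prodMk hX.continuousAt
      have h4 := h3.tendsto
      rw [hX0] at h4
      have h5 := kap.continuous.tendsto 0
      rw [map_zero] at h5
      exact h5.comp h4
    have hfa : AnalyticAt ℂ (fun x => f (A x)) 0 :=
      AnalyticAt.comp (g := f) (f := A) (by rw [map_zero]; exact hf) (A.analyticAt 0)
    filter_upwards [ts.eventually hcr, ts.eventually (tX.eventually hfa.eventually_analyticAt)]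
      with q a b
    have e1 : HasFDerivAt (fun x => f (A x)) (fderiv ℂ (fun x => f (A x))
        (kap (pt.symm q, X (pt.symm q)))) (kap (pt.symm q, X (pt.symm q))) :=
      b.differentiableAt.hasFDerivAt
    have e2 : HasFDerivAt (fun q => f (A (kap q))) ((fderiv ℂ (fun x => f (A x))
        (kap (pt.symm q, X (pt.symm q)))).comp (kap : ((ℂ × ℂ) × ℂ) →L[ℂ] E3))
        (pt.symm q, X (pt.symm q)) :=
      e1.comp (pt.symm q, X (pt.symm q)) (kap : ((ℂ × ℂ) × ℂ) →L[ℂ] E3).hasFDerivAt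
    rw [e2.fderiv] at a
    have e3 : (kap : ((ℂ × ℂ) × ℂ) →L[ℂ] E3) (0, 1) = Pi.single 0 1 := kap_single
    rw [ContinuousLinearMap.comp_apply, e3, hk] at a
    exact a
  · have h3 := Red_comp hR1 LB_swap
    exact h3
  · refine (h1.comp_tendsto ts).congr (fun q => ?_) fun q => ?_
    · simp only [Function.comp, hk, ContinuousLinearEquiv.apply_symm_apply]
    · simp only [Function.comp, hns]
  · refine (h2.comp_tendsto ts).congr (fun q => ?_) fun q => ?_
    · simp only [Function.comp, hk, ContinuousLinearEquiv.apply_symm_apply]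
    · simp only [Function.comp, hns]

end Crest.Agent.R257.Cl2I_475
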