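import Mathlib
import Crest.Agent.R257.BPDefs_258
import Crest.Agent.R257.T0_939

/-!
Row 257 (S0395), part C, task C-CLO (helper214): every `TB f` can be enlarged to one whose branches are
closed under truncation at the levels and under the Galois action: `BP_258.Clo`.
-/

set_option autoImplicit false

open Polynomial Set Filter Topology Metric
open Crest.AlgGeometry.Germ Crest.Agent.R257.AJ387 Crest.Agent.R257.T387
open Crest.Agent.R257.BP_258

noncomputable section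

namespace Crest.Agent.R257.Clo_214

/-! ### Taylor coefficients -/

/-- Taylor coefficient at `0` -/
def tc (g : ℂ → ℂ) (n : ℕ) : ℂ := iteratedDeriv n g 0 / (n.factorial : ℂ)

lemma tc_congr {g h : ℂ → ℂ} (e : g =ᶠ[𝓝 0] h) (n : ℕ) : tc g n = tc h n := by
  unfold tc; rw [Filter.EventuallyEq.iteratedDeriv_eq n e]

lemma iteratedDeriv_scale (g : ℂ → ℂ) (ζ : ℂ) (n : ℕ) :
    iteratedDeriv n (fun s => g (ζ * s)) = fun s => ζ ^ n * iteratedDeriv n g (ζ * s) := by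
  induction n with
  | zero => funext s; simp
  | succ n ih =>
    rw [iteratedDeriv_succ, ih]
    funext s
    rw [deriv_const_mul_field, deriv_comp_mul_left ζ (iteratedDeriv n g) s, iteratedDeriv_succ,
      smul_eq_mul, pow_succ, mul_assoc]

lemma tc_scale (g : ℂ → ℂ) (ζ : ℂ) (n : ℕ) : tc (fun s => g (ζ * s)) n = tc g n * ζ ^ n := by
  unfold tc; rw [iteratedDeriv_scale]; simp only [mul_zero]; ring

lemma iteratedDeriv_poly (p : ℂ[X]) (n : ℕ) :
    iteratedDeriv n (fun s => p.eval s) = fun s => (derivative^[n] p).eval s := by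
  induction n with
  | zero => rfl
  | succ n ih =>
    rw [iteratedDeriv_succ, ih]
    funext s
    rw [Function.iterate_succ_apply']
    exact Polynomial.deriv (p := derivative^[n] p)

lemma tc_poly (p : ℂ[X]) (n : ℕ) : tc (fun s => p.eval s) n = p.coeff n := by
  unfold tc
  rw [iteratedDeriv_poly]
  show (derivative^[n] p).eval 0 / _ = _
  rw [← coeff_zero_eq_eval_zero, coeff_iterate_derivative, zero_add, Nat.descFactorial_self,
    nsmul_eq_mul]
  have : (n.factorial : ℂ) ≠ 0 := by exact_mod_cast n.factorial_ne_zero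
  field_simp

lemma tc_eq_of_contact {g h u : ℂ → ℂ} {k : ℕ} (hg : AnalyticAt ℂ g 0) (hh : AnalyticAt ℂ h 0)
    (hu : AnalyticAt ℂ u 0) (e : ∀ᶠ s in 𝓝 (0 : ℂ), g s - h s = s ^ k * u s) {n : ℕ} (hn : n < k) :
    tc g n = tc h n := by
  have h1 : (k : ℕ∞) ≤ analyticOrderAt (g - h) 0 := by
    rw [natCast_le_analyticOrderAt (hg.sub hh)]
    exact ⟨u, hu, by filter_upwards [e] with s hs; simpa [sub_zero] using hs⟩
  have h2 := (natCast_le_analyticOrderAt_iff_iteratedDeriv_eq_zero (hg.sub hh)).1 h1 n hn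
  rw [iteratedDeriv_sub hg.contDiffAt hh.contDiffAt, sub_eq_zero] at h2
  unfold tc; rw [h2]

/-- truncation -/
def Tr (g : ℂ → ℂ) (k : ℕ) : ℂ[X] := ∑ n ∈ Finset.range k, C (tc g n) * X ^ n

lemma Tr_coeff (g : ℂ → ℂ) (k n : ℕ) : (Tr g k).coeff n = if n < k then tc g n else 0 := by
  unfold Tr
  rw [finsetSum_coeff]
  simp only [coeff_C_mul_X_pow]
  by_cases h : n < k
  · rw [if_pos h, Finset.sum_eq_single n]
    · simp
    · intro b _ hb; rw [if_neg (Ne.symm hb)]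
    · intro h1; exact absurd (Finset.mem_range.2 h) h1
  · rw [if_neg h]
    refine Finset.sum_eq_zero fun b hb => ?_
    rw [if_neg]
    rintro rfl
    exact h (Finset.mem_range.1 hb)

variable {f : (Fin 3 → ℂ) → ℂ} (T : TB f)

/-- the family of the conjugates (`k = 0`) and their truncations (`k > 0`) -/
def G (p : Fin T.m × ℂ × ℕ) : ℂ → ℂ :=
  if p.2.2 = 0 then fun s => T.φ p.1 (p.2.1 * s) else
    fun s => (Tr (fun s => T.φ p.1 (p.2.1 * s)) p.2.2).eval s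

lemma tc_G (a : Fin T.m) (ζ : ℂ) (k n : ℕ) :
    tc (G T (a, ζ, k)) n = if k = 0 ∨ n < k then tc (fun s => T.φ a (ζ * s)) n else 0 := by
  unfold G
  by_cases h : k = 0
  · subst h; simp
  · simp only [h, if_false, false_or]
    rw [tc_poly, Tr_coeff]

lemma Tr_G (a : Fin T.m) (ζ : ℂ) (k k' : ℕ) :
    Tr (G T (a, ζ, k)) k' = Tr (fun s => T.φ a (ζ * s)) (if k = 0 then k' else min k k') := by
  ext n
  rw [Tr_coeff, Tr_coeff, tc_G]
  split_ifs <;> first | rfl | (exfalso; omega)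

/-- the roots of unity -/
def Z : Finset ℂ := nthRootsFinset T.N₀ (1 : ℂ)

lemma mem_Z {ζ : ℂ} : ζ ∈ Z T ↔ ζ ^ T.N₀ = 1 := by
  unfold Z; rw [mem_nthRootsFinset T.N₀_pos]

lemma norm_Z {ζ : ℂ} (h : ζ ∈ Z T) : ‖ζ‖ = 1 :=
  Complex.norm_eq_one_of_pow_eq_one ((mem_Z T).1 h) T.N₀_pos.ne'

lemma ball_Z {ζ s : ℂ} {ρ : ℝ} (h : ζ ∈ Z T) (hs : s ∈ ball (0 : ℂ) ρ) : ζ * s ∈ ball (0 : ℂ) ρ := by
  rw [mem_ball_zero_iff, norm_mul, norm_Z T h, one_mul]; exact mem_ball_zero_iff.1 hs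

/-- bound for the truncation levels -/
def Bd : ℕ := 1 + ∑ p ∈ (Finset.univ : Finset (Fin T.m)) ×ˢ Z T,
  ∑ q ∈ (Finset.univ : Finset (Fin T.m)) ×ˢ Z T,
    analyticOrderNatAt (fun s => T.φ p.1 (p.2 * s) - T.φ q.1 (q.2 * s)) 0

lemma le_Bd {a b : Fin T.m} {ζ ξ : ℂ} (hζ : ζ ∈ Z T) (hξ : ξ ∈ Z T) :
    analyticOrderNatAt (fun s => T.φ a (ζ * s) - T.φ b (ξ * s)) 0 ≤ Bd T := by
  unfold Bd
  refine le_trans ?_ (Nat.le_add_left _ _)
  refine le_trans ?_ (Finset.single_le_sum (f := fun p : Fin T.m × ℂ =>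
    ∑ q ∈ (Finset.univ : Finset (Fin T.m)) ×ˢ Z T,
    analyticOrderNatAt (fun s => T.φ p.1 (p.2 * s) - T.φ q.1 (q.2 * s)) 0)
    (fun _ _ => Nat.zero_le _) (Finset.mk_mem_product (Finset.mem_univ a) hζ))
  exact Finset.single_le_sum (f := fun q : Fin T.m × ℂ =>
    analyticOrderNatAt (fun s => T.φ a (ζ * s) - T.φ q.1 (q.2 * s)) 0)
    (fun _ _ => Nat.zero_le _) (Finset.mk_mem_product (Finset.mem_univ b) hξ)

/-- the index set -/
def J : Finset (Fin T.m × ℂ × ℕ) :=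
  (Finset.univ : Finset (Fin T.m)) ×ˢ (Z T ×ˢ Finset.range (Bd T + 1))

lemma mem_J {a : Fin T.m} {ζ : ℂ} {k : ℕ} : (a, ζ, k) ∈ J T ↔ ζ ∈ Z T ∧ k ≤ Bd T := by
  unfold J
  simp [Finset.mem_product]

lemma G_an {a : Fin T.m} {ζ : ℂ} (k : ℕ) (hζ : ζ ∈ Z T) :
    AnalyticOnNhd ℂ (G T (a, ζ, k)) (ball 0 T.ρ) := by
  intro s hs
  unfold G
  split_ifs with h
  · exact AnalyticAt.comp (g := T.φ a) (f := fun s => ζ * s) (T.φ_an a _ (ball_Z T hζ hs))
      (analyticAt_const.mul analyticAt_id)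
  · exact (Polynomial.differentiable _).analyticAt s

lemma G_zero {a : Fin T.m} {ζ : ℂ} (k : ℕ) : G T (a, ζ, k) 0 = 0 := by
  unfold G
  split_ifs with h
  · simp [T.φ_zero]
  · show (Tr _ _).eval 0 = 0
    rw [← coeff_zero_eq_eval_zero, Tr_coeff]
    split_ifs
    · simp [tc, T.φ_zero]
    · rfl

lemma G_rot {a : Fin T.m} {ζ ξ : ℂ} (k : ℕ) (hξ : ξ ≠ 0) (s : ℂ) :
    G T (a, ζ * ξ⁻¹, k) (ξ * s) = G T (a, ζ, k) s := by
  unfold G
  split_ifs with h
  · show T.φ a _ = T.φ a _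
    congr 1
    show ζ * ξ⁻¹ * (ξ * s) = ζ * s
    field_simp
  · show (Tr (fun s => T.φ a (ζ * ξ⁻¹ * s)) k).eval (ξ * s) = (Tr (fun s => T.φ a (ζ * s)) k).eval s
    unfold Tr
    rw [eval_finsetSum, eval_finsetSum]
    refine Finset.sum_congr rfl fun n _ => ?_
    rw [eval_mul, eval_C, eval_pow, eval_X, eval_mul, eval_C, eval_pow, eval_X, tc_scale, tc_scale,
      mul_pow, mul_pow, inv_pow]
    have : ξ ^ n ≠ 0 := pow_ne_zero n hξ
    field_simp

/-- **C-CLO** -/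
theorem exists_clo : ∃ T' : TB f, Clo T' ∧ T'.A = T.A ∧ T'.d = T.d ∧ T'.P = T.P ∧ T'.v = T.v ∧
    T'.R = T.R ∧ T'.rz = T.rz ∧ T'.N₀ = T.N₀ ∧ T'.ρ ≤ T.ρ ∧
    (∀ i, ∃ j, ∀ s ∈ ball (0 : ℂ) T'.ρ, T'.φ j s = T.φ i s) := by
  classical
  let S : Finset (ℂ → ℂ) := (J T).image fun p => indicator (ball 0 T.ρ) (G T p)
  have h0m : (0 : ℂ) ∈ ball (0 : ℂ) T.ρ := mem_ball_self T.ρ_pos
  have hS : ∀ h ∈ S, ∃ a ζ k, ζ ∈ Z T ∧ k ≤ Bd T ∧ h = indicator (ball 0 T.ρ) (G T (a, ζ, k)) := by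
    intro h hh
    obtain ⟨⟨a, ζ, k⟩, hp, rfl⟩ := Finset.mem_image.1 hh
    exact ⟨a, ζ, k, ((mem_J T).1 hp).1, ((mem_J T).1 hp).2, rfl⟩
  have hmS : ∀ a ζ k, ζ ∈ Z T → k ≤ Bd T → indicator (ball 0 T.ρ) (G T (a, ζ, k)) ∈ S :=
    fun a ζ k h1 h2 => Finset.mem_image.2 ⟨(a, ζ, k), (mem_J T).2 ⟨h1, h2⟩, rfl⟩
  have hind : ∀ p, ∀ s ∈ ball (0 : ℂ) T.ρ, indicator (ball 0 T.ρ) (G T p) s = G T p s :=
    fun p s hs => indicator_of_mem hs _
  have hev : ∀ p, ∀ s ∈ ball (0 : ℂ) T.ρ, indicator (ball 0 T.ρ) (G T p) =ᶠ[𝓝 s] G T p :=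
    fun p s hs => by
      filter_upwards [isOpen_ball.mem_nhds hs] with x hx using hind p x hx
  have hSan : ∀ h ∈ S, AnalyticOnNhd ℂ h (ball 0 T.ρ) := by
    intro h hh s hs
    obtain ⟨a, ζ, k, hζ, hk, rfl⟩ := hS h hh
    exact (G_an T k hζ s hs).congr (hev _ s hs).symm
  have hS0 : ∀ h ∈ S, h 0 = 0 := by
    intro h hh
    obtain ⟨a, ζ, k, hζ, hk, rfl⟩ := hS h hh
    rw [hind _ 0 h0m, G_zero]
  have hSout : ∀ h ∈ S, ∀ s ∉ ball (0 : ℂ) T.ρ, h s = 0 := by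
    intro h hh s hs
    obtain ⟨a, ζ, k, hζ, hk, rfl⟩ := hS h hh
    exact indicator_of_notMem hs _
  -- the radius
  have hev1 : ∀ᶠ s in 𝓝 (0 : ℂ), (∀ h ∈ S, ‖h s‖ < T.R) ∧
      ∀ h ∈ S, ∀ h' ∈ S, h ≠ h' → s ≠ 0 → h s - h' s ≠ 0 := by
    refine ((Finset.eventually_all _).2 fun h hh => ?_).and
      ((Finset.eventually_all _).2 fun h hh => (Finset.eventually_all _).2 fun h' hh' => ?_)
    · have := (hSan h hh 0 h0m).continuousAt.norm.tendsto
      rw [hS0 h hh, norm_zero] at this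
      exact this.eventually (gt_mem_nhds T.R_pos)
    · by_cases hne : h = h'
      · exact Eventually.of_forall fun s h1 => absurd hne h1
      · have h1 : AnalyticAt ℂ (fun s => h s - h' s) 0 :=
          (hSan h hh 0 h0m).sub (hSan h' hh' 0 h0m)
        rcases h1.eventually_eq_zero_or_eventually_ne_zero with h2 | h2
        · exfalso
          apply hne
          have h3 : EqOn h h' (ball 0 T.ρ) := by
            refine (hSan h hh).eqOn_of_preconnected_of_eventuallyEq (hSan h' hh')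
              (convex_ball _ _).isPreconnected h0m ?_
            filter_upwards [h2] with s hs using sub_eq_zero.1 hs
          funext s
          by_cases hs : s ∈ ball (0 : ℂ) T.ρ
          · exact h3 hs
          · rw [hSout h hh s hs, hSout h' hh' s hs]
        · rw [eventually_nhdsWithin_iff] at h2
          filter_upwards [h2] with s hs _ hs0 using hs hs0
  obtain ⟨ε, hε, hεb⟩ := Metric.eventually_nhds_iff_ball.1 hev1
  set ρ : ℝ := min ε T.ρ with hρd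
  have hρ0 : 0 < ρ := lt_min hε T.ρ_pos
  have hρT : ρ ≤ T.ρ := min_le_right _ _
  have hρε : ρ ≤ ε := min_le_left _ _
  have hsub : ball (0 : ℂ) ρ ⊆ ball (0 : ℂ) T.ρ := ball_subset_ball hρT
  let e := S.equivFin
  let φ : Fin S.card → ℂ → ℂ := fun i => (e.symm i : ℂ → ℂ)
  have hφS : ∀ i, φ i ∈ S := fun i => (e.symm i).2
  have hφe : ∀ h (hh : h ∈ S), φ (e ⟨h, hh⟩) = h := by
    intro h hh
    show ((e.symm (e ⟨h, hh⟩) : S) : ℂ → ℂ) = h
    rw [Equiv.symm_apply_apply]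
  have hφinj : ∀ i j, i ≠ j → φ i ≠ φ j := by
    intro i j hij h
    exact hij (e.symm.injective (Subtype.ext h))
  have hφne : ∀ i j, i ≠ j → ∀ s ∈ ball (0 : ℂ) ρ, s ≠ 0 → φ i s - φ j s ≠ 0 :=
    fun i j hij s hs hs0 => (hεb s (ball_subset_ball hρε hs)).2 _ (hφS i) _ (hφS j)
      (hφinj i j hij) hs0
  have hφan : ∀ i, AnalyticOnNhd ℂ (φ i) (ball 0 ρ) := fun i => (hSan _ (hφS i)).mono hsub
  have hφ0 : ∀ i, φ i 0 = 0 := fun i => hS0 _ (hφS i)
  have hcon : ∀ i j, i ≠ j → ∃ (k : ℕ) (u : ℂ → ℂ), 0 < k ∧ AnalyticOnNhd ℂ u (ball 0 ρ) ∧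
      (∀ s ∈ ball (0 : ℂ) ρ, u s ≠ 0) ∧ ∀ s ∈ ball (0 : ℂ) ρ, φ i s - φ j s = s ^ k * u s := by
    intro i j hij
    exact T0_939.exists_contact (g := fun s => φ i s - φ j s) hρ0 ((hφan i).sub (hφan j))
      (by simp [hφ0]) (hφne i j hij)
  choose! k u hk hu hune hφs using hcon
  have hbr : ∀ i : Fin T.m, ∃ j, ∀ s ∈ ball (0 : ℂ) ρ, φ j s = T.φ i s := by
    intro i
    have h1 := hmS i 1 0 ((mem_Z T).2 (one_pow _)) (Nat.zero_le _)
    refine ⟨e ⟨_, h1⟩, fun s hs => ?_⟩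
    rw [hφe, hind _ s (hsub hs)]
    simp [G]
  have hρm : (0 : ℂ) ∈ ball (0 : ℂ) ρ := mem_ball_self hρ0
  let T' : TB f := {
    A := T.A
    d := T.d
    P := T.P
    v := T.v
    R := T.R
    rz := T.rz
    R_pos := T.R_pos
    rz_pos := T.rz_pos
    d_pos := T.d_pos
    monic := T.monic
    deg := T.deg
    coeff_an := T.coeff_an
    P_zero := T.P_zero
    f_an := T.f_an
    v_an := T.v_an
    v_ne := T.v_ne
    f_eq := T.f_eq
    roots_in := T.roots_in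
    N₀ := T.N₀
    N₀_pos := T.N₀_pos
    m := S.card
    m_pos := Finset.card_pos.2 ⟨_, hφS (e ⟨_, hmS ⟨0, T.m_pos⟩ 1 0 ((mem_Z T).2 (one_pow _))
      (Nat.zero_le _)⟩)⟩
    ρ := ρ
    ρ_pos := hρ0
    ρ_le := hρT.trans T.ρ_le
    ρ_R := fun s hs => T.ρ_R s (hsub hs)
    φ := φ
    φ_an := hφan
    φ_zero := hφ0
    φ_R := fun i s hs => (hεb s (ball_subset_ball hρε hs)).1 _ (hφS i)
    del := fun i j => if i = j then 1 else k i j
    u := u
    del_pos := fun i j => by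
      show 0 < if i = j then 1 else k i j
      split_ifs with h
      · exact one_pos
      · exact hk i j h
    u_an := hu
    u_ne := hune
    φ_sub := fun i j hij s hs => by
      show φ i s - φ j s = s ^ (if i = j then 1 else k i j) * u i j s
      rw [if_neg hij]
      exact hφs i j hij s hs
    nodup := fun s hs y hy hne => T.nodup s (hsub hs) y hy (fun i => by
      obtain ⟨j, hj⟩ := hbr i
      rw [← hj s hs]
      exact hne j) }
  have htc : ∀ p, ∀ n, tc (indicator (ball 0 T.ρ) (G T p)) n = tc (G T p) n :=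
    fun p n => tc_congr (hev p 0 h0m) n
  have hTr : ∀ p, ∀ n, Tr (indicator (ball 0 T.ρ) (G T p)) n = Tr (G T p) n := by
    intro p n; unfold Tr; simp_rw [htc]
  -- the key: truncations are in the family
  have key : ∀ (i : Fin S.card) (a : Fin T.m) (ζ : ℂ) (K n : ℕ), ζ ∈ Z T → 1 ≤ K → K ≤ Bd T →
      Tr (φ i) n = Tr (fun s => T.φ a (ζ * s)) K →
      ∃ j, ∀ s ∈ ball (0 : ℂ) ρ, φ j s = (Tr (φ i) n).eval s := by
    intro i a ζ K n hζ hK1 hK h
    refine ⟨e ⟨_, hmS a ζ K hζ hK⟩, fun s hs => ?_⟩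
    rw [hφe, hind _ s (hsub hs), h]
    unfold G
    rw [if_neg (by show K ≠ 0; omega)]
  have hB1 : 1 ≤ Bd T := by unfold Bd; omega
  refine ⟨T', ⟨?_, ?_⟩, rfl, rfl, rfl, rfl, rfl, rfl, rfl, hρT, hbr⟩
  · intro i n hn
    show ∃ j, ∀ s ∈ ball (0 : ℂ) ρ, φ j s = (Tr (φ i) n).eval s
    obtain ⟨a, ζ, k0, hζ, hk0, hi⟩ := hS _ (hφS i)
    have hn1 : 1 ≤ n := by
      rcases Finset.mem_insert.1 hn with h | h
      · exact h.ge
      · obtain ⟨j, _, rfl⟩ := Finset.mem_image.1 h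
        exact T'.del_pos i j
    have hTi : Tr (φ i) n = Tr (fun s => T.φ a (ζ * s)) (if k0 = 0 then n else min k0 n) := by
      rw [hi, hTr, Tr_G]
    by_cases hk00 : k0 = 0
    · rw [if_pos hk00] at hTi
      rcases Finset.mem_insert.1 hn with h | h
      · exact key i a ζ n n hζ hn1 (h ▸ hB1) hTi
      · obtain ⟨j, hj, hdel⟩ := Finset.mem_image.1 h
        have hji : i ≠ j := fun h => (Finset.mem_erase.1 hj).1 h.symm
        have hdel' : k i j = n := by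
          have : (if i = j then 1 else k i j) = n := hdel
          rwa [if_neg hji] at this
        obtain ⟨b, ξ, k1, hξ, hk1, hj'⟩ := hS _ (hφS j)
        have he1 : ∀ᶠ s in 𝓝 (0 : ℂ), φ i s - φ j s = s ^ n * u i j s := by
          filter_upwards [ball_mem_nhds _ hρ0] with s hs
          rw [← hdel']; exact hφs i j hji s hs
        by_cases hk10 : k1 = 0
        · -- contact of two conjugates
          refine key i a ζ n n hζ hn1 ?_ hTi
          have h1 : AnalyticAt ℂ (fun s => T.φ a (ζ * s) - T.φ b (ξ * s)) 0 := by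
            refine ((hφan i 0 hρm).sub (hφan j 0 hρm)).congr ?_
            rw [hi, hj', hk00, hk10]
            filter_upwards [hev (a, ζ, 0) 0 h0m, hev (b, ξ, 0) 0 h0m] with s h2 h3
            rw [Pi.sub_apply, h2, h3]
            simp [G]
          have h2 : analyticOrderAt (fun s => T.φ a (ζ * s) - T.φ b (ξ * s)) 0 = (n : ℕ∞) := by
            rw [h1.analyticOrderAt_eq_natCast]
            refine ⟨u i j, hu i j hji 0 hρm, hune i j hji 0 hρm, ?_⟩
            filter_upwards [he1, hev (a, ζ, 0) 0 h0m, hev (b, ξ, 0) 0 h0m] with s h2 h3 h4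
            rw [hi, hj', hk00, hk10, h3, h4] at h2
            simpa [G] using h2
          have h3 := le_Bd T (a := a) (b := b) hζ hξ
          rwa [analyticOrderNatAt, h2, ENat.toNat_natCast] at h3
        · have h5 : Tr (φ i) n = Tr (φ j) n := by
            unfold Tr
            refine Finset.sum_congr rfl fun l hl => ?_
            rw [tc_eq_of_contact (hφan i 0 hρm) (hφan j 0 hρm) (hu i j hji 0 hρm) he1
              (Finset.mem_range.1 hl)]
          have h6 : Tr (φ j) n = Tr (fun s => T.φ b (ξ * s)) (min k1 n) := by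
            rw [hj', hTr, Tr_G, if_neg hk10]
          exact key i b ξ (min k1 n) n hξ (by omega) ((min_le_left _ _).trans hk1) (h5.trans h6)
    · rw [if_neg hk00] at hTi
      exact key i a ζ (min k0 n) n hζ (by omega) ((min_le_left _ _).trans hk0) hTi
  · intro ξ hξ i
    show ∃ j, ∀ s ∈ ball (0 : ℂ) ρ, φ j (ξ * s) = φ i s
    obtain ⟨a, ζ, k0, hζ, hk0, hi⟩ := hS _ (hφS i)
    have hξZ : ξ ∈ Z T := (mem_Z T).2 hξ
    have hξ0 : ξ ≠ 0 := fun h => by simpa [h] using norm_Z T hξZ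
    have h1 : ζ * ξ⁻¹ ∈ Z T := by
      rw [mem_Z, mul_pow, inv_pow, (mem_Z T).1 hζ, (mem_Z T).1 hξZ]; simp
    refine ⟨e ⟨_, hmS a (ζ * ξ⁻¹) k0 h1 hk0⟩, fun s hs => ?_⟩
    rw [hφe, hi, hind _ s (hsub hs), hind _ _ (hsub (ball_Z T hξZ hs)), G_rot T k0 hξ0]

theorem clo_exists (T : TB f) : ∃ T' : TB f, Clo T' := by
  obtain ⟨T', h, _⟩ := exists_clo T
  exact ⟨T', h⟩

end Crest.Agent.R257.Clo_214
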