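import Crest.Agent.R257.Cl2G_475
import Crest.Agent.R257.EVg_929

/-!
R257 / EVh_929 (helper929): the critical value with its critical point (after 475's Cl2E_475).
-/

set_option autoImplicit false
set_option linter.deprecated false

open Topology Filter Set Asymptotics
open Crest.AlgGeometry.Germ

noncomputable section

namespace Crest.Agent.R257.EVh_929

open Crest.Agent.R257.Defs_219 Crest.Agent.R257.LcxDefs_759 Crest.Agent.R257.Kp_405
open Crest.Agent.R257.Cl2_475 Crest.Agent.R257.Cl2D_475 Crest.Agent.R257.Cl2E_475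

/-- **the critical value** of a germ in the shape `Dcp` (475's `Cl2E_475.crit_value`, same proof,
with the critical point `X` exposed) -/
theorem crit_X {f : E3 → ℂ} (hf : AnalyticAt ℂ f 0) (hf0 : f 0 = 0) (A : E3 ≃L[ℂ] E3)
    {u : E3 → ℂ} {v w : E2 → ℂ} (hD : Dcp (fun x => f (A x)) u v w) :
    ∃ X : ℂ × ℂ → ℂ, AnalyticAt ℂ X 0 ∧ X 0 = 0 ∧
      (∀ᶠ q in 𝓝 (0 : ℂ × ℂ), fderiv ℂ (fun q => f (A (kap q))) (q, X q) (0, 1) = 0) ∧
      Red f (fun q => f (A (kap (q, X q)))) ∧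
      ((fun q : ℂ × ℂ => f (A (kap (q, X q))) - w (pt q)) =O[𝓝 0] fun q => ‖q‖ ^ 4) ∧
      ((fun q : ℂ × ℂ => Dsc u v w (pt q) - 4 * u (Fin.cons 0 (pt q)) * f (A (kap (q, X q))))
        =O[𝓝 0] fun q => ‖q‖ ^ 6) := by
  have kap0 : kap 0 = 0 := map_zero kap
  have tk : Tendsto kap (𝓝 0) (𝓝 0) := by
    have := kap.continuous.tendsto 0
    rwa [map_zero] at this
  -- the pieces as functions of `q`
  set uk : (ℂ × ℂ) × ℂ → ℂ := fun q => u (kap q) with huk
  have huka : AnalyticAt ℂ uk 0 :=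
    AnalyticAt.comp (g := u) (f := kap) (by rw [map_zero]; exact hD.au) (kap.analyticAt 0)
  have huk0 : uk 0 ≠ 0 := by
    change u (kap 0) ≠ 0
    rw [kap0]
    exact hD.u0
  set vk : ℂ × ℂ → ℂ := fun q => v (pt q) with hvk
  have hvka : AnalyticAt ℂ vk 0 := an_pt hD.av
  set wk : ℂ × ℂ → ℂ := fun q => w (pt q) with hwk
  have hwka : AnalyticAt ℂ wk 0 := an_pt hD.aw
  have hvO : vk =O[𝓝 0] fun q => ‖q‖ ^ 2 := bigO_of_cf hD.av hD.v0
  have hwO : wk =O[𝓝 0] fun q => ‖q‖ ^ 3 := bigO_of_cf hD.aw hD.w0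
  have hv00 : vk 0 = 0 := by
    have := hD.v0 0 0 (by norm_num)
    change v (pt 0) = 0
    rw [map_zero]
    exact this
  have hw00 : wk 0 = 0 := by
    have := hD.w0 0 0 (by norm_num)
    change w (pt 0) = 0
    rw [map_zero]
    exact this
  set M : (ℂ × ℂ) × ℂ → ℂ := fun q => q.2 ^ 2 * uk q + q.2 * vk q.1 + wk q.1 with hM
  have hG : ∀ᶠ q in 𝓝 (0 : (ℂ × ℂ) × ℂ), f (A (kap q)) = M q := by
    filter_upwards [tk.eventually hD.eq] with q hq
    rw [hq, tail_kap]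
    rfl
  set ux : (ℂ × ℂ) × ℂ → ℂ := fun q => fderiv ℂ uk q (0, 1) with hux
  have huxa : AnalyticAt ℂ ux 0 :=
    (ContinuousLinearMap.analyticAt (ContinuousLinearMap.apply ℂ ℂ (((0, 0), 1) : (ℂ × ℂ) × ℂ)) _).comp
      huka.fderiv
  have tf : Tendsto (Prod.fst : (ℂ × ℂ) × ℂ → ℂ × ℂ) (𝓝 0) (𝓝 0) :=
    continuous_fst.tendsto' _ _ rfl
  set P : (ℂ × ℂ) × ℂ → ℂ := fun q => 2 * q.2 * uk q + q.2 ^ 2 * ux q + vk q.1 with hP
  have hvf : AnalyticAt ℂ (fun q : (ℂ × ℂ) × ℂ => vk q.1) 0 :=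
    AnalyticAt.comp (g := vk) (f := Prod.fst) hvka analyticAt_fst
  have hwf : AnalyticAt ℂ (fun q : (ℂ × ℂ) × ℂ => wk q.1) 0 :=
    AnalyticAt.comp (g := wk) (f := Prod.fst) hwka analyticAt_fst
  have hPa : AnalyticAt ℂ P 0 :=
    (((analyticAt_const.mul analyticAt_snd).mul huka).add ((analyticAt_snd.pow 2).mul huxa)).add hvf
  have hMa : AnalyticAt ℂ M 0 :=
    (((analyticAt_snd.pow 2).mul huka).add (analyticAt_snd.mul hvf)).add hwf
  have hMd : ∀ᶠ q in 𝓝 (0 : (ℂ × ℂ) × ℂ), fderiv ℂ (fun q => f (A (kap q))) q (0, 1) = P q := by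
    filter_upwards [hG.eventually_nhds, huka.eventually_analyticAt, hMa.eventually_analyticAt]
      with q h1 h2 h3
    have h4 : (fun q => f (A (kap q))) =ᶠ[𝓝 q] M := h1
    rw [h4.fderiv_eq]
    apply fd01 h3.differentiableAt
    have e0 : HasDerivAt (fun s : ℂ => q.2 + s) 1 0 := by
      simpa using (hasDerivAt_id (0 : ℂ)).const_add q.2
    have e1 : HasDerivAt (fun s : ℂ => uk (q.1, q.2 + s)) (ux q) 0 := by
      have a1 : HasDerivAt (fun s : ℂ => ((q.1, q.2 + s) : (ℂ × ℂ) × ℂ)) (0, 1) 0 :=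
        (hasDerivAt_const (0 : ℂ) q.1).prodMk e0
      have a2 : HasFDerivAt uk (fderiv ℂ uk q)
          ((fun s : ℂ => ((q.1, q.2 + s) : (ℂ × ℂ) × ℂ)) 0) := by
        simpa using h2.differentiableAt.hasFDerivAt
      exact a2.comp_hasDerivAt 0 a1
    have e2 : HasDerivAt (fun s : ℂ => (q.2 + s) ^ 2) (2 * q.2) 0 := by
      have := e0.fun_pow 2
      simpa using this
    have e3 := ((e2.mul e1).add (e0.mul_const (vk q.1))).add_const (wk q.1)
    have e4 : (2 * q.2 * uk (q.1, q.2 + 0) + (q.2 + 0) ^ 2 * ux q + 1 * vk q.1) = P q := by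
      simp only [add_zero, one_mul, hP]
    rw [← e4]
    exact e3
  have hP0 : P 0 = 0 := by
    simp only [hP, Prod.snd_zero, Prod.fst_zero, hv00]
    ring
  have hPd : ∀ s : ℂ, fderiv ℂ P 0 ((0 : ℂ × ℂ), s) = s * (2 * uk 0) := by
    intro s
    have e1 : fderiv ℂ P 0 (0, 1) = 2 * uk 0 := by
      apply fd01 hPa.differentiableAt
      have a1 : HasDerivAt (fun s : ℂ => (((0 : ℂ × ℂ), 0 + s) : (ℂ × ℂ) × ℂ)) (0, 1) 0 := by
        have := (hasDerivAt_const (0 : ℂ) (0 : ℂ × ℂ)).prodMk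
          ((hasDerivAt_id (0 : ℂ)).const_add (0 : ℂ))
        simpa using this
      have a0 : HasDerivAt (fun s : ℂ => (0 : ℂ) + s) 1 0 := by
        simpa using (hasDerivAt_id (0 : ℂ)).const_add (0 : ℂ)
      have b1 : HasDerivAt (fun s : ℂ => uk ((0 : ℂ × ℂ), 0 + s)) (fderiv ℂ uk 0 (0, 1)) 0 := by
        have a2 : HasFDerivAt uk (fderiv ℂ uk 0)
            ((fun s : ℂ => (((0 : ℂ × ℂ), 0 + s) : (ℂ × ℂ) × ℂ)) 0) := by
          simp only [add_zero]
          exact huka.differentiableAt.hasFDerivAt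
        exact a2.comp_hasDerivAt 0 a1
      have b2 : HasDerivAt (fun s : ℂ => ux ((0 : ℂ × ℂ), 0 + s)) (fderiv ℂ ux 0 (0, 1)) 0 := by
        have a2 : HasFDerivAt ux (fderiv ℂ ux 0)
            ((fun s : ℂ => (((0 : ℂ × ℂ), 0 + s) : (ℂ × ℂ) × ℂ)) 0) := by
          simp only [add_zero]
          exact huxa.differentiableAt.hasFDerivAt
        exact a2.comp_hasDerivAt 0 a1
      have c1 := (((a0.const_mul 2).mul b1).add ((a0.fun_pow 2).mul b2)).add_const (vk 0)
      refine c1.congr_deriv ?_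
      simp only [add_zero]
      have : uk ((0 : ℂ × ℂ), (0 : ℂ)) = uk 0 := rfl
      rw [this]
      simp
    have e2 : (((0 : ℂ × ℂ), s) : (ℂ × ℂ) × ℂ) = s • ((0 : ℂ × ℂ), (1 : ℂ)) := by
      simp
    rw [e2, map_smul, smul_eq_mul]
    congr 1
  obtain ⟨X, hX, hX0, hXe⟩ := LCc_472.ift (E := ℂ × ℂ) (E' := ℂ) (P := P) hPa hP0 (by
    intro s s' hs
    simp only at hs
    have h1 := hPd s
    have h2 := hPd s'
    have h3 : s * (2 * uk 0) = s' * (2 * uk 0) := by
      rw [← h1, ← h2]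
      exact hs
    exact mul_right_cancel₀ (mul_ne_zero two_ne_zero huk0) h3)
  have tX : Tendsto (fun q : ℂ × ℂ => (q, X q)) (𝓝 0) (𝓝 (0 : (ℂ × ℂ) × ℂ)) := by
    have h1 : ContinuousAt (fun q : ℂ × ℂ => (q, X q)) 0 := continuousAt_id.prodMk hX.continuousAt
    have h2 := h1.tendsto
    rw [hX0] at h2
    exact h2
  have hPX : ∀ᶠ q in 𝓝 (0 : ℂ × ℂ), P (q, X q) = 0 := by
    filter_upwards [tX.eventually hXe] with q hq
    exact hq.2 rfl
  -- `X = O(|q|²)`
  have hXO : X =O[𝓝 0] fun q : ℂ × ℂ => ‖q‖ ^ 2 := by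
    have h1 : Tendsto (fun q : ℂ × ℂ => 2 * uk (q, X q) + X q * ux (q, X q)) (𝓝 0)
        (𝓝 (2 * uk 0)) := by
      have a1 := huka.continuousAt.tendsto.comp tX
      have a2 := huxa.continuousAt.tendsto.comp tX
      have a3 : Tendsto X (𝓝 0) (𝓝 0) := by
        have := hX.continuousAt.tendsto
        rwa [hX0] at this
      have a4 := (a1.const_mul 2).add (a3.mul a2)
      simpa using a4
    have h2 : ∀ᶠ q in 𝓝 (0 : ℂ × ℂ), ‖uk 0‖ ≤ ‖2 * uk (q, X q) + X q * ux (q, X q)‖ := by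
      have h3 := h1.norm
      have h4 : ‖uk 0‖ < ‖2 * uk 0‖ := by
        rw [norm_mul]
        have : 0 < ‖uk 0‖ := norm_pos_iff.2 huk0
        norm_num
        linarith
      filter_upwards [h3.eventually (lt_mem_nhds h4)] with q hq
      exact hq.le
    obtain ⟨C, hC⟩ := hvO.bound
    refine IsBigO.of_bound (C / ‖uk 0‖) ?_
    filter_upwards [h2, hC, hPX] with q a b c
    have e1 : X q * (2 * uk (q, X q) + X q * ux (q, X q)) = - vk q := by
      simp only [hP] at c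
      linear_combination c
    have e2 : ‖X q‖ * ‖2 * uk (q, X q) + X q * ux (q, X q)‖ = ‖vk q‖ := by
      rw [← norm_mul, e1, norm_neg]
    have e3 : 0 < ‖uk 0‖ := norm_pos_iff.2 huk0
    rw [div_mul_eq_mul_div, le_div_iff₀ e3]
    calc ‖X q‖ * ‖uk 0‖ ≤ ‖X q‖ * ‖2 * uk (q, X q) + X q * ux (q, X q)‖ := by gcongr
      _ = ‖vk q‖ := e2
      _ ≤ _ := b
  have hu1 : (fun q : ℂ × ℂ => uk (q, X q)) =O[𝓝 0] fun _ => (1 : ℝ) :=
    (huka.continuousAt.tendsto.comp tX).isBigO_one ℝ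
  have hux1 : (fun q : ℂ × ℂ => ux (q, X q)) =O[𝓝 0] fun _ => (1 : ℝ) :=
    (huxa.continuousAt.tendsto.comp tX).isBigO_one ℝ
  have t0 : Tendsto (fun q : ℂ × ℂ => (q, (0 : ℂ))) (𝓝 0) (𝓝 (0 : (ℂ × ℂ) × ℂ)) := tendsto_emb
  have hdu : (fun q : ℂ × ℂ => uk (q, X q) - uk (q, 0)) =O[𝓝 0] fun q => ‖q‖ ^ 2 := by
    have h1 : ∃ K : NNReal, ∃ s ∈ 𝓝 (0 : (ℂ × ℂ) × ℂ), LipschitzOnWith K uk s :=
      (huka.contDiffAt (n := 1)).exists_lipschitzOnWith
    obtain ⟨K, s, hs, hK⟩ := h1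
    have h2 : (fun q : ℂ × ℂ => uk (q, X q) - uk (q, 0)) =O[𝓝 0] X := by
      refine IsBigO.of_bound K ?_
      filter_upwards [tX.eventually hs, t0.eventually hs] with q a b
      have := hK.dist_le_mul _ a _ b
      rw [dist_eq_norm, dist_eq_norm] at this
      refine this.trans (le_of_eq ?_)
      congr 1
      simp [Prod.norm_def]
    exact h2.trans hXO
  refine ⟨X, hX, hX0, ?_, ?_, ?_, ?_⟩
  · filter_upwards [tX.eventually hMd, hPX] with q a b
    rw [a, b]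
  · -- reduction
    have hL : LB (fun q : (ℂ × ℂ) × ℂ => A (kap q)) (fun x => kap.symm (A.symm x)) := by
      have := LB.of_equiv (kap.trans A)
      exact this
    refine red_of_crit hf hL hX hX0 ?_ hf0 ?_
    · filter_upwards [tX.eventually hMd, hPX] with q a b
      rw [a, b]
    · have tz : Tendsto (fun z : ℂ => ((0 : ℂ × ℂ), z)) (𝓝 0) (𝓝 (0 : (ℂ × ℂ) × ℂ)) :=
        (by fun_prop : Continuous (fun z : ℂ => ((0 : ℂ × ℂ), z))).tendsto' _ _ rfl
      have hfa : AnalyticAt ℂ (fun z : ℂ => f (A (kap ((0 : ℂ × ℂ), z)))) 0 := by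
        have h1 : AnalyticAt ℂ (fun q => f (A (kap q))) 0 := an_comp_LB hf hL
        exact AnalyticAt.comp (g := fun q => f (A (kap q))) (f := fun z : ℂ => ((0 : ℂ × ℂ), z)) h1
          (analyticAt_const.prod analyticAt_id)
      have h2 : analyticOrderAt (fun z : ℂ => f (A (kap ((0 : ℂ × ℂ), z)))) 0 = ((2 : ℕ) : ℕ∞) := by
        rw [hfa.analyticOrderAt_eq_natCast]
        refine ⟨fun z => uk ((0 : ℂ × ℂ), z), ?_, huk0, ?_⟩
        · exact AnalyticAt.comp (g := uk) (f := fun z : ℂ => ((0 : ℂ × ℂ), z)) huka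
            (analyticAt_const.prod analyticAt_id)
        · filter_upwards [tz.eventually hG] with z hz
          rw [hz]
          simp only [hM, hv00, hw00, sub_zero, smul_eq_mul]
          ring
      exact_mod_cast h2
  · -- 3-jet
    have h1 : (fun q : ℂ × ℂ => f (A (kap (q, X q))) - wk q) =ᶠ[𝓝 0]
        fun q => X q * X q * uk (q, X q) + X q * vk q := by
      filter_upwards [tX.eventually hG] with q hq
      rw [hq]
      simp only [hM]
      ring
    refine IsBigO.congr' ?_ h1.symm EventuallyEq.rfl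
    have h2 : (fun q : ℂ × ℂ => X q * X q * uk (q, X q)) =O[𝓝 0] fun q => ‖q‖ ^ 4 := by
      refine ((hXO.mul hXO).mul hu1).congr_right fun q => ?_
      ring
    have h3 : (fun q : ℂ × ℂ => X q * vk q) =O[𝓝 0] fun q => ‖q‖ ^ 4 := by
      refine (hXO.mul hvO).congr_right fun q => ?_
      ring
    exact h2.add h3
  · -- the discriminant
    have h1 : (fun q : ℂ × ℂ => Dsc u v w (pt q) -
        4 * u (Fin.cons 0 (pt q)) * f (A (kap (q, X q)))) =ᶠ[𝓝 0]
        fun q => -(4 * (X q * X q * uk (q, X q) * (uk (q, X q) - uk (q, 0)))) -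
          4 * (X q * X q * X q * ux (q, X q) * (uk (q, X q) - uk (q, 0))) -
          X q * X q * X q * X q * (ux (q, X q) * ux (q, X q)) := by
      filter_upwards [tX.eventually hG, hPX] with q hq hp
      rw [hq]
      have e0 : (Fin.cons 0 (pt q) : E3) = kap (q, 0) := rfl
      simp only [hM, Dsc, e0]
      change 4 * uk (q, 0) * wk q - vk q ^ 2 - _ = _
      have e1 : vk q = -(2 * X q * uk (q, X q)) - X q ^ 2 * ux (q, X q) := by
        simp only [hP] at hp
        linear_combination hp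
      rw [e1]
      ring
    refine IsBigO.congr' ?_ h1.symm EventuallyEq.rfl
    have h2 : (fun q : ℂ × ℂ => X q * X q * uk (q, X q) * (uk (q, X q) - uk (q, 0))) =O[𝓝 0]
        fun q => ‖q‖ ^ 6 := by
      refine (((hXO.mul hXO).mul hu1).mul hdu).congr_right fun q => ?_
      ring
    have hle : ∀ m : ℕ, 6 ≤ m → (fun q : ℂ × ℂ => ‖q‖ ^ m) =O[𝓝 0] fun q => ‖q‖ ^ 6 := by
      intro m hm
      refine IsBigO.of_bound 1 ?_
      filter_upwards [Metric.ball_mem_nhds (0 : ℂ × ℂ) one_pos] with q hq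
      have hq' : ‖q‖ ≤ 1 := by
        have : ‖q‖ < 1 := by simpa using hq
        exact this.le
      rw [one_mul, norm_pow, norm_pow, norm_norm]
      exact pow_le_pow_of_le_one (norm_nonneg _) hq' hm
    have h3 : (fun q : ℂ × ℂ => X q * X q * X q * ux (q, X q) * (uk (q, X q) - uk (q, 0)))
        =O[𝓝 0] fun q => ‖q‖ ^ 6 := by
      refine IsBigO.trans ?_ (hle 8 (by norm_num))
      refine ((((hXO.mul hXO).mul hXO).mul hux1).mul hdu).congr_right fun q => ?_
      ring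
    have h4 : (fun q : ℂ × ℂ => X q * X q * X q * X q * (ux (q, X q) * ux (q, X q))) =O[𝓝 0]
        fun q => ‖q‖ ^ 6 := by
      refine IsBigO.trans ?_ (hle 8 (by norm_num))
      refine ((((hXO.mul hXO).mul hXO).mul hXO).mul (hux1.mul hux1)).congr_right fun q => ?_
      ring
    exact ((h2.const_mul_left 4).neg_left.sub (h3.const_mul_left 4)).sub h4


end Crest.Agent.R257.EVh_929
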