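import Crest.Agent.R257.EVh_929
import Crest.Agent.R257.LcxD2_759
import Crest.Agent.R257.Ub3_472

/-!
R257 / EVi_929 (helper929): the quartic case `QuartStmt` of `LcxDefs_759`.
-/

set_option autoImplicit false
set_option linter.deprecated false

open Topology Filter Set Asymptotics
open Crest.AlgGeometry.Germ

noncomputable section

namespace Crest.Agent.R257.EVi_929

open Crest.Agent.R257.Defs_219 Crest.Agent.R257.LcxDefs_759 Crest.Agent.R257.Kp_405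
open Crest.Agent.R257.Cl2_475 Crest.Agent.R257.Cl2D_475 Crest.Agent.R257.Cl2E_475
open Crest.Agent.R257.Cl2F_475 Crest.Agent.R257.Cl2G_475
open Crest.Agent.R257.EVa_929 (TB)
open Crest.Agent.R257.EVb_929 (Bd)
open Crest.Agent.R257.EVg_929

theorem kap_cons (q : ℂ × ℂ) (x : ℂ) : kap (q, x) = Fin.cons x (pt q) := rfl

/-- the standing data of `EVg` from `Dcp` and `Good` -/
theorem st_of {f : E3 → ℂ} (A : E3 ≃L[ℂ] E3) {u : E3 → ℂ} {v w : E2 → ℂ} {r C : ℝ}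
    (hf : LC0 f) (hD : Dcp (fun x => f (A x)) u v w) (hG : Good (fun x => f (A x)) r C) :
    ∃ X : E2 → ℂ, St (fun x => f (A x)) C X ∧
      Red f (fun q : ℂ × ℂ => f (A (Fin.cons (X (pt q)) (pt q)))) ∧
      ((fun q : ℂ × ℂ => f (A (Fin.cons (X (pt q)) (pt q))) - w (pt q)) =O[𝓝 0]
        fun q => ‖q‖ ^ 4) ∧
      ((fun q : ℂ × ℂ => Dsc u v w (pt q) -
        4 * u (Fin.cons 0 (pt q)) * f (A (Fin.cons (X (pt q)) (pt q)))) =O[𝓝 0]
        fun q => ‖q‖ ^ 6) := by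
  obtain ⟨X, hX, hX0, hX1, hR, h1, h2⟩ := EVh_929.crit_X hf.iso.an hf.iso.zero A hD
  have hsym : ∀ q : ℂ × ℂ, pt.symm (pt q) = q := fun q => pt.symm_apply_apply q
  refine ⟨fun q => X (pt.symm q), ?_, ?_, ?_, ?_⟩
  · have hX' : AnalyticAt ℂ (fun q => X (pt.symm q)) 0 :=
      AnalyticAt.fun_comp (g := X) (f := pt.symm) (by rw [map_zero]; exact hX)
        (pt.symm.analyticAt 0)
    have hga : AnalyticAt ℂ (fun x => f (A x)) 0 :=
      AnalyticAt.fun_comp (g := f) (f := A) (by rw [map_zero]; exact hf.iso.an) (A.analyticAt 0)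
    refine ⟨⟨r, hG.r_pos, hG.an, hG.crit, hG.tb⟩, hG.zero, hG.crit0, hX', ?_, ?_, ?_⟩
    · simp only [map_zero, hX0]
    · have tX : Tendsto (fun q : ℂ × ℂ => (q, X q)) (𝓝 0) (𝓝 (0 : (ℂ × ℂ) × ℂ)) := by
        have h1 : ContinuousAt (fun q : ℂ × ℂ => (q, X q)) 0 :=
          continuousAt_id.prodMk hX.continuousAt
        have h2 := h1.tendsto
        rw [hX0] at h2
        exact h2
      have tk : Tendsto kap (𝓝 0) (𝓝 0) := by
        have := kap.continuous.tendsto 0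
        rwa [map_zero] at this
      have ts : Tendsto pt.symm (𝓝 0) (𝓝 0) := by
        have := pt.symm.continuous.tendsto 0
        rwa [map_zero] at this
      have h3 := (tk.comp tX).eventually hga.eventually_analyticAt
      filter_upwards [ts.eventually hX1, ts.eventually h3] with q a b
      have e1 : kap (pt.symm q, X (pt.symm q)) = Fin.cons (X (pt.symm q)) q := by
        rw [kap_cons, pt.apply_symm_apply]
      rw [Function.comp_apply, e1] at b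
      have e2 : fderiv ℂ (fun q => f (A (kap q))) (pt.symm q, X (pt.symm q)) (0, 1) =
          coordDeriv (fun x => f (A x)) 0 (Fin.cons (X (pt.symm q)) q) := by
        have h4 : HasFDerivAt (fun x => f (A x)) (fderiv ℂ (fun x => f (A x))
            (Fin.cons (X (pt.symm q)) q)) (kap (pt.symm q, X (pt.symm q))) := by
          rw [e1]
          exact b.differentiableAt.hasFDerivAt
        have h5 := (h4.comp (pt.symm q, X (pt.symm q)) kap.hasFDerivAt).fderiv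
        have h6 : (fun q => f (A (kap q))) = (fun x => f (A x)) ∘ kap := rfl
        rw [h6, h5]
        simp only [ContinuousLinearMap.comp_apply, coordDeriv]
        congr 1
        funext i
        fin_cases i <;> rfl
      rw [← e2]
      exact a
    · have h3 := (LcxD_759.Dq.mk hD.au hD.av hD.aw hD.eq).h00
      unfold LCDefs_472.H2 at h3
      rw [h3]
      exact mul_ne_zero two_ne_zero hD.u0
  · simp only [hsym]
    exact hR
  · simp only [hsym]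
    exact h1
  · simp only [hsym]
    exact h2

/-- `g_00(0) = 2 u(0)` -/
theorem g00 {g : E3 → ℂ} {u : E3 → ℂ} {v w : E2 → ℂ} (hD : Dcp g u v w) :
    coordDeriv (coordDeriv g 0) 0 0 = 2 * u 0 :=
  (LcxD_759.Dq.mk hD.au hD.av hD.aw hD.eq).h00

/-- the discriminant vanishes to order 4 when `w ∈ m⁴` -/
theorem cf_dsc_zero {g : E3 → ℂ} {u : E3 → ℂ} {v w : E2 → ℂ} (hD : Dcp g u v w)
    (h3 : ∀ i j, i + j = 3 → cf w i j = 0) {i j : ℕ} (hij : i + j ≤ 3) :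
    cf (Dsc u v w) i j = 0 := by
  rw [LcxD_759.cf_dsc hD.au hD.av hD.aw]
  have e1 : ∀ a ∈ Finset.HasAntidiagonal.antidiagonal i,
      ∀ b ∈ Finset.HasAntidiagonal.antidiagonal j,
      cf (fun p : Fin 2 → ℂ => u (Fin.cons 0 p)) a.1 b.1 * cf w a.2 b.2 = 0 := by
    intro a ha b hb
    rw [Finset.HasAntidiagonal.mem_antidiagonal] at ha hb
    rcases Nat.lt_or_ge (a.2 + b.2) 3 with h | h
    · rw [hD.w0 _ _ (by omega), mul_zero]
    · rw [h3 _ _ (by omega), mul_zero]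
  have e2 : ∀ a ∈ Finset.HasAntidiagonal.antidiagonal i,
      ∀ b ∈ Finset.HasAntidiagonal.antidiagonal j, cf v a.1 b.1 * cf v a.2 b.2 = 0 := by
    intro a ha b hb
    rw [Finset.HasAntidiagonal.mem_antidiagonal] at ha hb
    rcases Nat.lt_or_ge (a.2 + b.2) 2 with h | h
    · rw [hD.v0 a.2 b.2 (by omega), mul_zero]
    · rw [hD.v0 a.1 b.1 (by omega), zero_mul]
  rw [Finset.sum_eq_zero fun a ha => Finset.sum_eq_zero fun b hb => e1 a ha b hb,
    Finset.sum_eq_zero fun a ha => Finset.sum_eq_zero fun b hb => e2 a ha b hb]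
  ring

/-- the quartic coefficients of a plane germ -/
def qd (δ : E2 → ℂ) : Fin 5 → ℂ := ![cf δ 4 0, cf δ 3 1, cf δ 2 2, cf δ 1 3, cf δ 0 4]

theorem quart_exp {δ : E2 → ℂ} (hδ : AnalyticAt ℂ δ 0) (h : ∀ i j, i + j ≤ 3 → cf δ i j = 0) :
    (fun p : E2 => δ p - Q4 (qd δ) p) =O[𝓝 0] fun p : E2 => ‖p‖ ^ 5 := by
  refine (pol_cf hδ 4).congr_left fun p => ?_
  rw [Q4_eq]
  simp only [Pol, Finset.sum_range_succ, Finset.sum_range_zero, qd, Matrix.cons_val_zero,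
    Matrix.cons_val_one, Matrix.cons_val]
  rw [h 0 0 (by norm_num), h 0 1 (by norm_num), h 0 2 (by norm_num), h 0 3 (by norm_num),
    h 1 0 (by norm_num), h 1 1 (by norm_num), h 1 2 (by norm_num), h 2 0 (by norm_num),
    h 2 1 (by norm_num), h 3 0 (by norm_num)]
  ring

/-- the plane linear isomorphism with columns `(p,r)`, `(s,t)` -/
def ee {p r s t : ℂ} (hD : p * t - s * r ≠ 0) : (ℂ × ℂ) ≃L[ℂ] (ℂ × ℂ) :=
  LinearEquiv.toContinuousLinearEquiv
  { toFun := fun w => (w.1 * p + w.2 * s, w.1 * r + w.2 * t)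
    invFun := fun x => ((x.1 * t - x.2 * s) / (p * t - s * r), (x.2 * p - x.1 * r) / (p * t - s * r))
    map_add' := fun v w => by
      ext
      · simp only [Prod.fst_add, Prod.snd_add]
        ring
      · simp only [Prod.fst_add, Prod.snd_add]
        ring
    map_smul' := fun c w => by
      ext
      · simp only [Prod.smul_fst, Prod.smul_snd, smul_eq_mul, RingHom.id_apply]
        ring
      · simp only [Prod.smul_fst, Prod.smul_snd, smul_eq_mul, RingHom.id_apply]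
        ring
    left_inv := fun w => by
      ext
      · simp only
        rw [div_eq_iff hD]
        ring
      · simp only
        rw [div_eq_iff hD]
        ring
    right_inv := fun w => by
      ext
      · simp only
        rw [div_mul_eq_mul_div, div_mul_eq_mul_div, ← add_div, div_eq_iff hD]
        ring
      · simp only
        rw [div_mul_eq_mul_div, div_mul_eq_mul_div, ← add_div, div_eq_iff hD]
        ring }

theorem ee_apply {p r s t : ℂ} (hD : p * t - s * r ≠ 0) (w : ℂ × ℂ) :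
    ee hD w = (w.1 * p + w.2 * s, w.1 * r + w.2 * t) := rfl

/-- the critical value up to order 4 -/
theorem val_exp {u : E3 → ℂ} {v w : E2 → ℂ} (hu : AnalyticAt ℂ u 0) (u0 : u 0 ≠ 0)
    (hδ : AnalyticAt ℂ (Dsc u v w) 0) (h : ∀ i j, i + j ≤ 3 → cf (Dsc u v w) i j = 0)
    {φ : E2 → ℂ} (hφ : φ =O[𝓝 0] fun q => ‖q‖ ^ 4)
    (h2 : (fun q : E2 => Dsc u v w q - 4 * u (Fin.cons 0 q) * φ q) =O[𝓝 0] fun q => ‖q‖ ^ 6) :
    (fun q : E2 => φ q - Q4 (fun i => qd (Dsc u v w) i / (4 * u 0)) q) =O[𝓝 0]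
      fun q : E2 => ‖q‖ ^ 5 := by
  have hua : AnalyticAt ℂ (fun p : E2 => u (Fin.cons 0 p)) 0 := LcxD_759.an_c0 hu
  have hu1 : (fun p : E2 => u (Fin.cons 0 p) - u 0) =O[𝓝 0] fun p : E2 => ‖p‖ ^ 1 := by
    have h1 := hua.differentiableAt.isBigO_sub
    have e1 : u (Fin.cons 0 (0 : E2)) = u 0 := by
      congr 1
      funext i
      fin_cases i <;> rfl
    refine (IsBigO.congr_left (f₁ := fun p : E2 => u (Fin.cons 0 p) - u (Fin.cons 0 (0 : E2))) h1
      fun p => ?_).trans ?_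
    · rw [e1]
    · refine IsBigO.of_bound 1 (Eventually.of_forall fun p => ?_)
      simp
  have h3 : (fun q : E2 => ‖q‖ ^ 6) =O[𝓝 0] fun q : E2 => ‖q‖ ^ 5 := by
    refine IsBigO.of_bound 1 ?_
    filter_upwards [Metric.ball_mem_nhds (0 : E2) one_pos] with q hq
    have hq' : ‖q‖ ≤ 1 := by
      have : ‖q‖ < 1 := by simpa using hq
      exact this.le
    rw [one_mul, norm_pow, norm_pow, norm_norm]
    exact pow_le_pow_of_le_one (norm_nonneg _) hq' (by norm_num)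
  have h4 := (h2.trans h3)
  have h5 := quart_exp hδ h
  have h6 : (fun q : E2 => (u (Fin.cons 0 q) - u 0) * φ q) =O[𝓝 0] fun q : E2 => ‖q‖ ^ 5 := by
    refine (hu1.mul hφ).congr_right fun q => ?_
    ring
  have h7 := ((h5.sub h4).sub (h6.const_mul_left 4)).const_mul_left (1 / (4 * u 0))
  refine h7.congr_left fun q => ?_
  rw [Q4_eq, Q4_eq]
  field_simp
  ring

/-- **a quartic with a multiple root** -/
theorem mult_case {δ : Fin 5 → ℂ} (hq : ¬ Ub3_472.NoMult δ) {φ : E2 → ℂ} {m : ℂ} (hm : m ≠ 0)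
    (hQ : (fun q : E2 => φ q - Q4 (fun i => δ i / m) q) =O[𝓝 0] fun q : E2 => ‖q‖ ^ 5)
    (hns : ∀ e : (ℂ × ℂ) ≃L[ℂ] (ℂ × ℂ), ¬ ∃ C : ℝ, ∀ᶠ w in 𝓝 (0 : ℂ × ℂ),
      ‖φ (pt (e w))‖ ≤ C * (‖w.2‖ ^ 3 * ‖w‖ + ‖w‖ ^ 5)) :
    ∃ (v u : E2) (al be ga : ℂ), v 0 * u 1 - u 0 * v 1 ≠ 0 ∧ al ≠ 0 ∧
      ∀ b a : ℂ, Q4 (fun i => δ i / m) (mq v u ![b, a]) =
        a ^ 2 * (al * b ^ 2 + be * b * a + ga * a ^ 2) := by
  unfold Ub3_472.NoMult at hq
  push Not at hq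
  obtain ⟨p, r, h0, h1, h2⟩ := hq
  have hpr : p ≠ 0 ∨ r ≠ 0 := by
    by_contra hcon
    push Not at hcon
    exact h2 hcon.1 hcon.2
  obtain ⟨s, t, hD⟩ : ∃ s t : ℂ, p * t - s * r ≠ 0 := by
    rcases hpr with h | h
    · exact ⟨0, 1, by simpa using h⟩
    · exact ⟨1, 0, by simpa using h⟩
  set κ : Fin 5 → ℂ := fun i => δ i / m with hκ
  have hδ : ∀ i, δ i = m * κ i := fun i => by
    rw [hκ]
    field_simp
  unfold Ub3_472.Qy at h0
  unfold Ub3_472.Qz at h1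
  simp only [hδ] at h0 h1
  have h0' : 4 * κ 0 * p ^ 3 + 3 * κ 1 * (p ^ 2 * r) + 2 * κ 2 * (p * r ^ 2) + κ 3 * r ^ 3 = 0 := by
    have : m * (4 * κ 0 * p ^ 3 + 3 * κ 1 * (p ^ 2 * r) + 2 * κ 2 * (p * r ^ 2) + κ 3 * r ^ 3) = 0 := by
      linear_combination h0
    exact (mul_eq_zero.1 this).resolve_left hm
  have h1' : κ 1 * p ^ 3 + 2 * κ 2 * (p ^ 2 * r) + 3 * κ 3 * (p * r ^ 2) + 4 * κ 4 * r ^ 3 = 0 := by
    have : m * (κ 1 * p ^ 3 + 2 * κ 2 * (p ^ 2 * r) + 3 * κ 3 * (p * r ^ 2) + 4 * κ 4 * r ^ 3) = 0 := by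
      linear_combination h1
    exact (mul_eq_zero.1 this).resolve_left hm
  set K2 := 6 * κ 0 * p ^ 2 * s ^ 2 + 3 * κ 1 * p ^ 2 * s * t +
    3 * κ 1 * p * s ^ 2 * r + κ 2 * p ^ 2 * t ^ 2 + 4 * κ 2 * p * s * r * t +
    κ 2 * s ^ 2 * r ^ 2 + 3 * κ 3 * p * r * t ^ 2 + 3 * κ 3 * s * r ^ 2 * t +
    6 * κ 4 * r ^ 2 * t ^ 2 with hK2
  set K3 := 4 * κ 0 * p * s ^ 3 + 3 * κ 1 * p * s ^ 2 * t + κ 1 * s ^ 3 * r +
    2 * κ 2 * p * s * t ^ 2 + 2 * κ 2 * s ^ 2 * r * t + κ 3 * p * t ^ 3 +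
    3 * κ 3 * s * r * t ^ 2 + 4 * κ 4 * r * t ^ 3 with hK3
  set K4 := κ 0 * s ^ 4 + κ 1 * s ^ 3 * t + κ 2 * s ^ 2 * t ^ 2 + κ 3 * s * t ^ 3 +
    κ 4 * t ^ 4 with hK4
  have hform : ∀ b a : ℂ, Q4 κ (mq ![p, r] ![s, t] ![b, a]) =
      a ^ 2 * (K2 * b ^ 2 + K3 * b * a + K4 * a ^ 2) := by
    intro b a
    rw [Q4_eq]
    simp only [mq, Matrix.cons_val_zero, Matrix.cons_val_one]
    rw [hK2, hK3, hK4]
    linear_combination (p * b ^ 4 / 4 + s * b ^ 3 * a) * h0' + (r * b ^ 4 / 4 + t * b ^ 3 * a) * h1'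
  refine ⟨![p, r], ![s, t], K2, K3, K4, hD, ?_, hform⟩
  intro hK
  refine hns (ee hD) ?_
  have te : Tendsto (fun w : ℂ × ℂ => pt (ee hD w)) (𝓝 0) (𝓝 0) := by
    have := (pt.continuous.comp (ee hD).continuous).tendsto 0
    simp only [Function.comp_apply, map_zero] at this
    exact this
  have hO : (fun w : ℂ × ℂ => ‖pt (ee hD w)‖) =O[𝓝 0] fun w => ‖w‖ := by
    have h3 : (fun w : ℂ × ℂ => (ee hD) w) =O[𝓝 0] fun w => w :=
      ((ee hD) : (ℂ × ℂ) →L[ℂ] (ℂ × ℂ)).isBigO_id _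
    refine (h3.norm_norm).congr_left fun w => ?_
    rw [norm_pt]
  have h5 := (hQ.comp_tendsto te).trans ((hO.pow 5 : ((fun q : E2 => ‖q‖ ^ 5) ∘
    fun w : ℂ × ℂ => pt (ee hD w)) =O[𝓝 0] fun w : ℂ × ℂ => ‖w‖ ^ 5))
  obtain ⟨C, hC⟩ := h5.bound
  refine ⟨max (max C 0) (‖K3‖ + ‖K4‖), ?_⟩
  filter_upwards [hC] with w hw
  have e1 : Q4 κ (pt (ee hD w)) = w.2 ^ 3 * (K3 * w.1 + K4 * w.2) := by
    have h6 : pt (ee hD w) = mq ![p, r] ![s, t] ![w.1, w.2] := by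
      funext i
      fin_cases i <;> rfl
    rw [h6, hform, hK]
    ring
  rw [Function.comp_apply, e1, norm_pow, norm_norm] at hw
  have h7 : ‖K3 * w.1 + K4 * w.2‖ ≤ (‖K3‖ + ‖K4‖) * ‖w‖ := by
    refine (norm_add_le _ _).trans ?_
    rw [norm_mul, norm_mul, add_mul]
    exact add_le_add (mul_le_mul_of_nonneg_left (norm_fst_le w) (norm_nonneg _))
      (mul_le_mul_of_nonneg_left (norm_snd_le w) (norm_nonneg _))
  calc ‖φ (pt (ee hD w))‖ = ‖(φ (pt (ee hD w)) - w.2 ^ 3 * (K3 * w.1 + K4 * w.2)) +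
        w.2 ^ 3 * (K3 * w.1 + K4 * w.2)‖ := by congr 1; ring
    _ ≤ C * ‖w‖ ^ 5 + ‖w.2‖ ^ 3 * ((‖K3‖ + ‖K4‖) * ‖w‖) := by
        refine (norm_add_le _ _).trans (add_le_add hw ?_)
        rw [norm_mul, norm_pow]
        exact mul_le_mul_of_nonneg_left h7 (by positivity)
    _ ≤ max (max C 0) (‖K3‖ + ‖K4‖) * ‖w‖ ^ 5 +
        max (max C 0) (‖K3‖ + ‖K4‖) * (‖w.2‖ ^ 3 * ‖w‖) := by
        refine add_le_add ?_ ?_
        · exact mul_le_mul_of_nonneg_right ((le_max_left _ _).trans (le_max_left _ _))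
            (by positivity)
        · calc ‖w.2‖ ^ 3 * ((‖K3‖ + ‖K4‖) * ‖w‖) = (‖K3‖ + ‖K4‖) * (‖w.2‖ ^ 3 * ‖w‖) := by ring
            _ ≤ _ := mul_le_mul_of_nonneg_right (le_max_right _ _) (by positivity)
    _ = _ := by ring

/-- `μ ≤ 9` (472) -/
def QuartMu : Prop := ∀ (f : E3 → ℂ) (A : E3 ≃L[ℂ] E3) (u : E3 → ℂ) (v w : (Fin 2 → ℂ) → ℂ),
  Iso f → Dcp (fun x => f (A x)) u v w → (∀ i j, i + j = 3 → cf w i j = 0) →
  Ub3_472.NoMult ![cf (Dsc u v w) 4 0, cf (Dsc u v w) 3 1, cf (Dsc u v w) 2 2,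
    cf (Dsc u v w) 1 3, cf (Dsc u v w) 0 4] → col (par f) ≤ 9

/-- **(B1)** of `LcxDefs_759` -/
theorem quart_of (hmu : QuartMu) : QuartStmt := by
  refine ⟨400, by norm_num, fun f A u v w r C hf hD hG h3 => ?_⟩
  by_cases hq : Ub3_472.NoMult (qd (Dsc u v w))
  · exact Or.inl (hmu f A u v w hf.iso hD h3 hq)
  · right
    obtain ⟨X, hSt, hR, h1, h2⟩ := st_of A hf hD hG
    have hj := jet_crit hD.aw hD.w0 h1
    have w3 : cf w 3 0 = 0 ∧ cf w 2 1 = 0 ∧ cf w 1 2 = 0 ∧ cf w 0 3 = 0 :=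
      ⟨h3 3 0 rfl, h3 2 1 rfl, h3 1 2 rfl, h3 0 3 rfl⟩
    have hns : ∀ e : (ℂ × ℂ) ≃L[ℂ] (ℂ × ℂ), ¬ ∃ C : ℝ, ∀ᶠ w in 𝓝 (0 : ℂ × ℂ),
        ‖f (A (Fin.cons (X (pt (e w))) (pt (e w))))‖ ≤ C * (‖w.2‖ ^ 3 * ‖w‖ + ‖w‖ ^ 5) := by
      rcases cube_or hf hR hj with ⟨-, -, -, -, h⟩ | ⟨⟨m, α, β, hm, hab, hk⟩, -⟩
      · exact h
      · exfalso
        rw [w3.1, w3.2.1, w3.2.2.1, w3.2.2.2] at hk
        have e1 := hk (1, 0)
        have e2 := hk (0, 1)
        simp only [kf] at e1 e2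
        have e3 : m * α ^ 3 = 0 := by linear_combination -e1
        have e4 : m * β ^ 3 = 0 := by linear_combination -e2
        rcases hab with h | h
        · exact (mul_ne_zero hm (pow_ne_zero 3 h)) e3
        · exact (mul_ne_zero hm (pow_ne_zero 3 h)) e4
    set φ : E2 → ℂ := fun q => f (A (Fin.cons (X q) q)) with hφ
    have ts : Tendsto pt.symm (𝓝 0) (𝓝 0) := by
      have := pt.symm.continuous.tendsto 0
      rwa [map_zero] at this
    have hns' : ∀ q : E2, ‖pt.symm q‖ = ‖q‖ := fun q => by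
      rw [← norm_pt, pt.apply_symm_apply]
    have h2' : (fun q : E2 => Dsc u v w q - 4 * u (Fin.cons 0 q) * φ q) =O[𝓝 0]
        fun q => ‖q‖ ^ 6 := by
      refine (h2.comp_tendsto ts).congr (fun q => ?_) fun q => ?_
      · simp only [Function.comp_apply, pt.apply_symm_apply, hφ]
      · simp only [Function.comp_apply, hns']
    have hφO : φ =O[𝓝 0] fun q => ‖q‖ ^ 4 := by
      have h4 : (fun q : ℂ × ℂ => f (A (Fin.cons (X (pt q)) (pt q)))) =O[𝓝 0]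
          fun q => ‖q‖ ^ 4 := by
        refine hj.congr_left fun q => ?_
        simp only [kf, w3.1, w3.2.1, w3.2.2.1, w3.2.2.2]
        ring
      refine (h4.comp_tendsto ts).congr (fun q => ?_) fun q => ?_
      · simp only [Function.comp_apply, pt.apply_symm_apply, hφ]
      · simp only [Function.comp_apply, hns']
    have hQ := val_exp hD.au hD.u0 (an_Dsc hD.au hD.av hD.aw) (fun i j h => cf_dsc_zero hD h3 h)
      hφO h2'
    obtain ⟨V, U, al, be, ga, hdet, hal, hform⟩ := mult_case hq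
      (m := 4 * u 0) (mul_ne_zero (by norm_num) hD.u0) hQ hns
    have h5 := ev3 hSt hQ hdet hal hform
    rw [g00 hD] at h5
    have h6 : J4 (fun i => qd (Dsc u v w) i / (4 * u 0)) = (12 * cf (Dsc u v w) 4 0 *
        cf (Dsc u v w) 0 4 - 3 * cf (Dsc u v w) 3 1 * cf (Dsc u v w) 1 3 +
        cf (Dsc u v w) 2 2 ^ 2) / (4 * u 0) ^ 2 := by
      simp only [J4, qd, Matrix.cons_val_zero, Matrix.cons_val_one, Matrix.cons_val]
      have := hD.u0
      field_simp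
    rw [h6] at h5
    have h7 : 0 < ‖u 0‖ := norm_pos_iff.2 hD.u0
    refine h5.trans (le_of_eq ?_)
    rw [norm_div, norm_mul, norm_pow, norm_mul]
    have e2 : ‖(2 : ℂ)‖ = 2 := by simp
    have e4 : ‖(4 : ℂ)‖ = 4 := by simp
    rw [e2, e4]
    field_simp
    ring

end Crest.Agent.R257.EVi_929
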