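import Crest.Agent.R257.EVi_929
import Crest.Agent.R257.Ub8_472

/-!
R257 / EVj_929 (helper929): `QuartStmt` of `LcxDefs_759`, literal.
-/

set_option autoImplicit false

noncomputable section

namespace Crest.Agent.R257.EVj_929

/-- **(B1)** of `LcxDefs_759` -/
theorem quartStmt : LcxDefs_759.QuartStmt :=
  EVi_929.quart_of fun _ A _ _ _ hf hD h3 hq => Ub8_472.quart_mu hf A hD h3 hq

end Crest.Agent.R257.EVj_929
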