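import Crest.Agent.R257.EVi_929
import Crest.Agent.R257.Cl2H_475

/-!
R257 / EVk_929 (helper929): the case of a cubic part `κ y³`: `SextStmt` of `LcxDefs_759` from the
`μ` bound.
-/

set_option autoImplicit false
set_option linter.deprecated false

open Topology Filter Set Asymptotics
open Crest.AlgGeometry.Germ

noncomputable section

namespace Crest.Agent.R257.EVk_929

open Crest.Agent.R257.Defs_219 Crest.Agent.R257.LcxDefs_759 Crest.Agent.R257.Kp_405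
open Crest.Agent.R257.Cl2_475 Crest.Agent.R257.Cl2D_475 Crest.Agent.R257.Cl2E_475
open Crest.Agent.R257.Cl2F_475 Crest.Agent.R257.Cl2G_475 Crest.Agent.R257.Cl2H_475
open Crest.Agent.R257.EVa_929 (TB)
open Crest.Agent.R257.EVb_929 (Bd cm)
open Crest.Agent.R257.EVc_929 (gp Pl)
open Crest.Agent.R257.EVe_929 (ev_cubic)
open Crest.Agent.R257.EVg_929 Crest.Agent.R257.EVi_929

/-- the normal form from the 3-jet (475's `sext_nf`) -/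
theorem nf_of {f : E3 → ℂ} {w : E2 → ℂ} (hf : LC0 f) {φ : ℂ × ℂ → ℂ} (hR : Red f φ)
    (hw : AnalyticAt ℂ w 0) (hw0 : ∀ i j, i + j ≤ 2 → cf w i j = 0)
    (h1 : (fun q : ℂ × ℂ => φ q - w (pt q)) =O[𝓝 0] fun q => ‖q‖ ^ 4)
    (h30 : cf w 3 0 ≠ 0) (h21 : cf w 2 1 = 0) (h12 : cf w 1 2 = 0) (h03 : cf w 0 3 = 0) :
    ∃ (U : ℂ × ℂ → ℂ) (θ b₄ c₆ : ℂ → ℂ), AnalyticAt ℂ U 0 ∧ U 0 ≠ 0 ∧
      AnalyticAt ℂ θ 0 ∧ θ 0 = 0 ∧ deriv θ 0 = 0 ∧ AnalyticAt ℂ b₄ 0 ∧ AnalyticAt ℂ c₆ 0 ∧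
      (b₄ 0 ≠ 0 ∨ c₆ 0 ≠ 0) ∧
      (∀ᶠ q in 𝓝 (0 : ℂ × ℂ), φ (q.2, q.1) =
        U q * ((q.2 + θ q.1) ^ 3 + q.1 ^ 4 * b₄ q.1 * (q.2 + θ q.1) + q.1 ^ 6 * c₆ q.1)) := by
  have hj := jet_crit hw hw0 h1
  rcases cube_or hf hR hj with ⟨h, -⟩ | ⟨-, h3⟩
  · exact absurd h h30
  · obtain ⟨U, θ, b₄, c₆, hU, hU0, hθ, hθ0, hb, hc, hbc, he, hk⟩ :=
      h3 (ContinuousLinearEquiv.prodComm ℂ ℂ ℂ) (by simpa [kf] using h30)
    refine ⟨U, θ, b₄, c₆, hU, hU0, hθ, hθ0, ?_, hb, hc, hbc, ?_⟩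
    · have h4 := hk (1, 0)
      simp [kf, h21, h12, h03] at h4
      exact h4.resolve_left hU0
    · filter_upwards [he] with q hq
      exact hq

/-- `θ = z² t` -/
theorem exists_t {θ : ℂ → ℂ} (hθ : AnalyticAt ℂ θ 0) (θ0 : θ 0 = 0) (θ1 : deriv θ 0 = 0) {θ₂ : ℂ}
    (h : (fun z : ℂ => θ z - θ₂ * z ^ 2) =O[𝓝 0] fun z : ℂ => z ^ 3) :
    ∃ t : ℂ → ℂ, AnalyticAt ℂ t 0 ∧ (∀ᶠ z in 𝓝 (0 : ℂ), θ z = z ^ 2 * t z) ∧ t 0 = θ₂ := by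
  obtain ⟨C, hC⟩ := (sub_one_jet hθ θ0).bound
  obtain ⟨t, ht, hte⟩ := exists_pow_mul_of_bound (a := θ) hθ (n := 2) (C := C) (by
    filter_upwards [hC] with z hz
    rw [θ1, zero_mul, sub_zero, norm_pow] at hz
    exact hz)
  refine ⟨t, ht, hte, ?_⟩
  obtain ⟨K, hK⟩ := h.bound
  have h1 : ∀ᶠ z in 𝓝[≠] (0 : ℂ), ‖t z - θ₂‖ ≤ K * ‖z‖ := by
    filter_upwards [nhdsWithin_le_nhds hK, nhdsWithin_le_nhds hte, self_mem_nhdsWithin]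
      with z a b hz
    have hz' : 0 < ‖z‖ := norm_pos_iff.2 hz
    rw [b, show z ^ 2 * t z - θ₂ * z ^ 2 = z ^ 2 * (t z - θ₂) by ring, norm_mul, norm_pow,
      norm_pow] at a
    have h2 : ‖z‖ ^ 2 * ‖t z - θ₂‖ ≤ ‖z‖ ^ 2 * (K * ‖z‖) := a.trans (le_of_eq (by ring))
    exact le_of_mul_le_mul_left h2 (by positivity)
  have h2 : Tendsto (fun z => ‖t z - θ₂‖) (𝓝[≠] (0 : ℂ)) (𝓝 ‖t 0 - θ₂‖) :=
    ((ht.continuousAt.sub continuousAt_const).norm.tendsto).mono_left nhdsWithin_le_nhds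
  have h3 : Tendsto (fun z : ℂ => K * ‖z‖) (𝓝[≠] (0 : ℂ)) (𝓝 0) := by
    have : Tendsto (fun z : ℂ => K * ‖z‖) (𝓝 0) (𝓝 0) :=
      (by fun_prop : Continuous (fun z : ℂ => K * ‖z‖)).tendsto' _ _ (by simp)
    exact this.mono_left nhdsWithin_le_nhds
  have h4 := le_of_tendsto_of_tendsto h2 h3 h1
  have h5 : ‖t 0 - θ₂‖ = 0 := le_antisymm h4 (norm_nonneg _)
  exact sub_eq_zero.1 (norm_eq_zero.1 h5)

/-- `μ ≤ 10` (472) -/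
def SextMu : Prop := ∀ (f : E3 → ℂ) (φ : ℂ × ℂ → ℂ) (e : (ℂ × ℂ) ≃L[ℂ] (ℂ × ℂ)) (u : ℂ × ℂ → ℂ)
  (θ b₄ c₆ : ℂ → ℂ), Iso f → Red f φ → AnalyticAt ℂ u 0 → u 0 ≠ 0 → AnalyticAt ℂ θ 0 → θ 0 = 0 →
  AnalyticAt ℂ b₄ 0 → AnalyticAt ℂ c₆ 0 →
  (∀ᶠ w in 𝓝 (0 : ℂ × ℂ), φ (e w) =
    u w * ((w.2 + θ w.1) ^ 3 + w.1 ^ 4 * b₄ w.1 * (w.2 + θ w.1) + w.1 ^ 6 * c₆ w.1)) →
  4 * b₄ 0 ^ 3 + 27 * c₆ 0 ^ 2 ≠ 0 → col (par f) ≤ 10

/-- **the trace bound in the case of discriminant zero** -/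
theorem trace_sext {g : E3 → ℂ} {C : ℝ} {X : E2 → ℂ} (hSt : St g C X) {U : ℂ × ℂ → ℂ}
    {θ b₄ c₆ : ℂ → ℂ} (hU : AnalyticAt ℂ U 0) (hU0 : U 0 ≠ 0) (hθ : AnalyticAt ℂ θ 0)
    (θ0 : θ 0 = 0) (θ1 : deriv θ 0 = 0) {θ₂ : ℂ}
    (h : (fun z : ℂ => θ z - θ₂ * z ^ 2) =O[𝓝 0] fun z : ℂ => z ^ 3)
    (hb : AnalyticAt ℂ b₄ 0) (hc : AnalyticAt ℂ c₆ 0) (hbc : b₄ 0 ≠ 0 ∨ c₆ 0 ≠ 0)
    (hd : 4 * b₄ 0 ^ 3 + 27 * c₆ 0 ^ 2 = 0)
    (he : ∀ᶠ q in 𝓝 (0 : ℂ × ℂ), g (Fin.cons (X (pt (q.2, q.1))) (pt (q.2, q.1))) =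
      U q * ((q.2 + θ q.1) ^ 3 + q.1 ^ 4 * b₄ q.1 * (q.2 + θ q.1) + q.1 ^ 6 * c₆ q.1)) :
    1 ≤ 1764 * C ^ 2 * ‖coordDeriv (coordDeriv g 0) 0 0‖ ^ 2 * (12 * ‖U 0‖ ^ 2 * ‖b₄ 0‖) := by
  have b0 : b₄ 0 ≠ 0 := by
    intro hb0
    rw [hb0] at hd
    have h1 : c₆ 0 ^ 2 = 0 := by linear_combination hd / 27
    rcases hbc with h2 | h2
    · exact h2 hb0
    · exact h2 (pow_eq_zero_iff two_ne_zero |>.1 h1)
  have c0 : c₆ 0 ≠ 0 := by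
    intro hc0
    rw [hc0] at hd
    have h1 : b₄ 0 ^ 3 = 0 := by linear_combination hd / 4
    exact b0 (pow_eq_zero_iff three_ne_zero |>.1 h1)
  obtain ⟨t, ht, hte, ht0⟩ := exists_t hθ θ0 θ1 h
  set b := b₄ 0 with hbd
  set c := c₆ 0 with hcd
  set ρ := -(3 * c) / (2 * b) with hρ
  have hρ2 : 3 * ρ ^ 2 + b = 0 := by
    rw [hρ]
    field_simp
    linear_combination hd
  have hρ3 : ρ ^ 3 + b * ρ + c = 0 := by
    have h1 : ρ * (2 * b) = -(3 * c) := by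
      rw [hρ]
      field_simp
    linear_combination ρ / 3 * hρ2 + h1 / 3
  have hρ0 : ρ ≠ 0 := by
    intro h0
    rw [h0] at hρ3
    apply c0
    linear_combination hρ3
  -- the pieces
  have hp : ∀ i : Fin 2, AnalyticAt ℂ (fun q : E2 => q i) 0 := fun i =>
    (ContinuousLinearMap.proj (R := ℂ) (φ := fun _ : Fin 2 => ℂ) i).analyticAt 0
  have hUa : AnalyticAt ℂ (fun q : E2 => U (q 0, q 1)) 0 :=
    AnalyticAt.fun_comp (g := U) (f := fun q : E2 => (q 0, q 1)) hU ((hp 0).prod (hp 1))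
  have hta : AnalyticAt ℂ (fun q : E2 => t (q 0)) 0 :=
    AnalyticAt.fun_comp (g := t) (f := fun q : E2 => q 0) ht (hp 0)
  have hba : AnalyticAt ℂ (fun q : E2 => b₄ (q 0)) 0 :=
    AnalyticAt.fun_comp (g := b₄) (f := fun q : E2 => q 0) hb (hp 0)
  have hca : AnalyticAt ℂ (fun q : E2 => c₆ (q 0)) 0 :=
    AnalyticAt.fun_comp (g := c₆) (f := fun q : E2 => q 0) hc (hp 0)
  set cc : Fin (3 + 1) → E2 → ℂ := ![
    fun q => U (q 0, q 1) * (t (q 0) ^ 3 + b₄ (q 0) * t (q 0) + c₆ (q 0)),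
    fun q => U (q 0, q 1) * (3 * t (q 0) ^ 2 + b₄ (q 0)),
    fun q => U (q 0, q 1) * (3 * t (q 0)),
    fun q => U (q 0, q 1)] with hcc
  set v : E2 := ![0, 1] with hv
  set u : E2 := ![1, 0] with hu
  have hmq : ∀ q : E2, mq v u q = pt (q 1, q 0) := by
    intro q
    funext i
    fin_cases i <;> simp [mq, hv, hu]
  have hPl : Pl (fun q => cm g (AM v u) (gp (fun q => X (mq v u q)) q)) 2 3 cc := by
    refine ⟨?_, ?_, ?_⟩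
    · intro j
      fin_cases j
      · exact hUa.mul (((hta.pow 3).add (hba.mul hta)).add hca)
      · exact hUa.mul ((analyticAt_const.mul (hta.pow 2)).add hba)
      · exact hUa.mul (analyticAt_const.mul hta)
      · exact hUa
    · have t1 : Tendsto (fun q : E2 => (q 0, q 1)) (𝓝 0) (𝓝 (0 : ℂ × ℂ)) :=
        (by fun_prop : Continuous (fun q : E2 => (q 0, q 1))).tendsto' _ _ rfl
      have t2 : Tendsto (fun q : E2 => q 0) (𝓝 0) (𝓝 (0 : ℂ)) :=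
        (by fun_prop : Continuous (fun q : E2 => q 0)).tendsto' _ _ rfl
      filter_upwards [t1.eventually he, t2.eventually hte] with q a1 a2
      rw [cm_gp, hmq]
      rw [a1, a2]
      simp only [Fin.sum_univ_succ, Fin.sum_univ_zero]
      change _ = q 1 ^ 0 * q 0 ^ (2 * (3 - 0)) *
          (U (q 0, q 1) * (t (q 0) ^ 3 + b₄ (q 0) * t (q 0) + c₆ (q 0))) +
        (q 1 ^ 1 * q 0 ^ (2 * (3 - 1)) * (U (q 0, q 1) * (3 * t (q 0) ^ 2 + b₄ (q 0))) +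
        (q 1 ^ 2 * q 0 ^ (2 * (3 - 2)) * (U (q 0, q 1) * (3 * t (q 0))) +
        (q 1 ^ 3 * q 0 ^ (2 * (3 - 3)) * U (q 0, q 1) + 0)))
      norm_num
      ring
    · exact hU0
  have hdet : (AM v u).det = -1 := by
    rw [det_AM]
    simp [hv, hu]
  have hB := hSt.bd.cm (A := AM v u) (by rw [hdet]; norm_num)
  rw [hdet, norm_neg, norm_one, one_pow, div_one] at hB
  have hxx : coordDeriv (coordDeriv (cm g (AM v u)) 2) 2 0 ≠ 0 := by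
    rw [hSt.e']
    exact hSt.e0
  have z0 : ((0 : E2) 0, (0 : E2) 1) = (0 : ℂ × ℂ) := rfl
  have key := ev_cubic hB (hSt.zero' v u) (hSt.crit' v u) (hSt.aX' v u) (hSt.X0' v u)
    (hSt.X1' v u) hxx hPl (c0 := U 0 * (θ₂ ^ 3 + b * θ₂ + c)) (c1 := U 0 * (3 * θ₂ ^ 2 + b))
    (c2 := U 0 * (3 * θ₂)) (c3 := U 0) (w₀ := ρ - θ₂)
    (by rw [← ht0]; rfl)
    (by rw [← ht0]; rfl)
    (by rw [← ht0]; rfl)
    rfl
    (by linear_combination U 0 * hρ3)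
    (by linear_combination U 0 * hρ2)
    (by
      have e1 : 6 * U 0 * (ρ - θ₂) + 2 * (U 0 * (3 * θ₂)) = 6 * U 0 * ρ := by ring
      rw [e1]
      exact mul_ne_zero (mul_ne_zero (by norm_num) hU0) hρ0)
  rw [hSt.e'] at key
  have e1 : 6 * U 0 * (ρ - θ₂) + 2 * (U 0 * (3 * θ₂)) = 6 * U 0 * ρ := by ring
  rw [e1] at key
  have key2 := pow_le_pow_left₀ zero_le_one key 2
  rw [one_pow] at key2
  have e2 : ‖ρ‖ ^ 2 = ‖b‖ / 3 := by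
    have h1 : ρ ^ 2 = -b / 3 := by linear_combination hρ2 / 3
    rw [← norm_pow, h1, norm_div, norm_neg]
    simp
  refine key2.trans (le_of_eq ?_)
  rw [norm_mul, norm_mul, norm_mul, mul_pow, mul_pow, mul_pow, mul_pow, mul_pow, e2]
  have e6 : ‖(6 : ℂ)‖ = 6 := by simp
  rw [e6]
  ring

/-- **(B2)** of `LcxDefs_759` -/
theorem sext_of (hmu : SextMu) : SextStmt := by
  refine ⟨1764, by norm_num, fun f A u v w r C hf hD hG h30 h21 h12 h03 => ?_⟩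
  refine ⟨sext_first A hf hD h30 h21 h12 h03, ?_⟩
  obtain ⟨X, hSt, hR, h1, h2⟩ := st_of A hf hD hG
  obtain ⟨U, θ, b₄, c₆, hU, hU0, hθ, hθ0, hθ1, hb, hc, hbc, he⟩ :=
    nf_of hf hR hD.aw hD.w0 h1 h30 h21 h12 h03
  by_cases hd : 4 * b₄ 0 ^ 3 + 27 * c₆ 0 ^ 2 = 0
  · right
    have hφ : AnalyticAt ℂ (fun q : ℂ × ℂ => f (A (Fin.cons (X (pt q)) (pt q)))) 0 := by
      have h3 : AnalyticAt ℂ (fun x => f (A x)) 0 := an_of_bd hSt.bd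
      have h4 : AnalyticAt ℂ (fun q : ℂ × ℂ => (Fin.cons (X (pt q)) (pt q) : E3)) 0 := by
        have h5 : AnalyticAt ℂ (fun q : ℂ × ℂ => X (pt q)) 0 := an_pt hSt.aX
        have h6 : (fun q : ℂ × ℂ => (Fin.cons (X (pt q)) (pt q) : E3)) =
            fun q => kap (q, X (pt q)) := rfl
        rw [h6]
        exact AnalyticAt.fun_comp (g := kap) (f := fun q : ℂ × ℂ => (q, X (pt q)))
          (kap.analyticAt _) (analyticAt_id.prod h5)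
      refine AnalyticAt.fun_comp (g := fun x => f (A x))
        (f := fun q : ℂ × ℂ => (Fin.cons (X (pt q)) (pt q) : E3)) ?_ h4
      have h7 : (Fin.cons (X (pt 0)) (pt 0) : E3) = 0 := by
        rw [map_zero, hSt.X0]
        funext i
        fin_cases i <;> rfl
      rw [h7]
      exact h3
    obtain ⟨θ₂, hθ₂, k30, k22, k14⟩ := sext_six hD.au hD.av hD.aw hφ hU hθ hθ0 hθ1 hb hc he h2
    have key := trace_sext hSt hU hU0 hθ hθ0 hθ1 hθ₂ hb hc hbc hd he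
    rw [g00 hD] at key
    refine key.trans (le_of_eq ?_)
    have e1 : cf (Dsc u v w) 2 2 ^ 2 - 3 * cf (Dsc u v w) 3 0 * cf (Dsc u v w) 1 4 =
        -(48 * u 0 ^ 2 * U 0 ^ 2 * b₄ 0) := by
      rw [k30, k22, k14]
      ring
    rw [e1, norm_neg, norm_mul, norm_mul, norm_mul, norm_mul, norm_pow, norm_pow]
    have e2 : ‖(2 : ℂ)‖ = 2 := by simp
    have e48 : ‖(48 : ℂ)‖ = 48 := by simp
    rw [e2, e48]
    ring
  · left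
    exact hmu f _ (ContinuousLinearEquiv.prodComm ℂ ℂ ℂ) U θ b₄ c₆ hf.iso hR hU hU0 hθ hθ0 hb hc
      he hd

end Crest.Agent.R257.EVk_929
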