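import Crest.Agent.R257.Ub9_472
import Crest.Agent.R257.Cl2C_475

/-!
R257 / Ub10_472: **`J_10`**: `col (par f) ≤ 10` for a germ `f` with reduced plane germ
`φ = u ((y + θ(z))³ + z⁴ b₄ (y + θ(z)) + z⁶ c₆)`, `4 b₄(0)³ + 27 c₆(0)² ≠ 0`
(leaf MU of LcxDefs_759).
-/

set_option autoImplicit false
set_option linter.unusedVariables false
set_option linter.unusedSectionVars false
set_option linter.unusedSimpArgs false

open Set Filter Topology IsLocalRing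
open Crest.AlgGeometry.Germ
open Crest.Agent.R275.Loc2879
open Crest.Agent.R257.Defs_219 Crest.Agent.R257.UI939 Crest.Agent.R257.Ub4_472
open Crest.Agent.R257.LcxDefs_759 Crest.Agent.R257.LcxA_759 Crest.Agent.R257.Ub5_472
open Crest.Agent.R257.Ub6_472 Crest.Agent.R257.Ub7_472 Crest.Agent.R257.Ub9_472

noncomputable section

namespace Crest.Agent.R257.Ub10_472

variable {G : Fin 3 → E3 → ℂ} {U Q : E3 → ℂ} {b c : ℂ → ℂ}

/-- Hadamard in one variable, in the local algebra -/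
theorem exists_quot {b : ℂ → ℂ} (hb : AnalyticAt ℂ b 0) : ∃ B1 : QG G,
    cl G (fun x : E3 => b (x 2)) = algebraMap ℂ (QG G) (b 0) + cl G (co 2) * B1 := by
  have hd : AnalyticAt ℂ (dslope b 0) 0 := by
    obtain ⟨p, hp⟩ := hb
    exact hp.has_fpower_series_dslope_fslope.analyticAt
  refine ⟨cl G (fun x : E3 => dslope b 0 (x 2)), ?_⟩
  have e : (fun x : E3 => b (x 2)) = fun x => b 0 + x 2 * dslope b 0 (x 2) := by
    funext x
    have := sub_smul_dslope b 0 (x 2)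
    rw [sub_zero, smul_eq_mul] at this
    rw [this]
    ring
  have h1 : cl G (fun x : E3 => b 0 + x 2 * dslope b 0 (x 2)) = cl G (fun _ => b 0) +
      cl G (fun x : E3 => x 2 * dslope b 0 (x 2)) :=
    cl_add analyticAt_const ((an_co 2).fun_mul (an_c hd))
  rw [e, h1, cl_const]
  congr 1
  exact cl_mul (an_co 2) (an_c hd)

theorem cl_Nf (hb : AnalyticAt ℂ b 0) (hc : AnalyticAt ℂ c 0) : cl G (Nf b c) =
    cl G (co 1) ^ 3 + cl G (co 2) ^ 4 * cl G (fun x => b (x 2)) * cl G (co 1) +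
      cl G (co 2) ^ 6 * cl G (fun x => c (x 2)) := by
  have a1 := (an_co 1).fun_pow 3
  have a2 := ((an_co 2).fun_pow 4).fun_mul (an_c hb)
  have a3 := ((an_co 2).fun_pow 6).fun_mul (an_c hc)
  have h1 : cl G (Nf b c) = cl G (fun x => co 1 x ^ 3 + (co 2 x ^ 4 * b (x 2)) * co 1 x) +
      cl G (fun x => co 2 x ^ 6 * c (x 2)) := cl_add (a1.fun_add (a2.fun_mul (an_co 1))) a3
  rw [h1, cl_add a1 (a2.fun_mul (an_co 1)), cl_mul a2 (an_co 1), cl_mul ((an_co 2).fun_pow 4)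
    (an_c hb), cl_mul ((an_co 2).fun_pow 6) (an_c hc), cl_pow (an_co 1), cl_pow (an_co 2),
    cl_pow (an_co 2)]

theorem germ10 (hG : ∀ i, AnalyticAt ℂ (G i) 0) (hU : AnalyticAt ℂ U 0) (hQ : AnalyticAt ℂ Q 0)
    (hb : AnalyticAt ℂ b 0) (hc : AnalyticAt ℂ c 0) (hU0 : U 0 ≠ 0) (hQ0 : Q 0 ≠ 0)
    (hUx : ∀ᶠ x in 𝓝 0, coordDeriv U 0 x = 0)
    (he : ∀ i, G i =ᶠ[𝓝 0] coordDeriv (gj U Q b c) i)
    (hd : 4 * b 0 ^ 3 + 27 * c 0 ^ 2 ≠ 0) : ColFin G ∧ col G ≤ 10 := by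
  have hUd : ∀ i, AnalyticAt ℂ (coordDeriv U i) 0 := fun i => an_cd hU i
  have hQd : ∀ i, AnalyticAt ℂ (coordDeriv Q i) 0 := fun i => an_cd hQ i
  have hN := an_Nf hb hc
  have hbd : AnalyticAt ℂ (deriv b) 0 := hb.deriv
  have hcd : AnalyticAt ℂ (deriv c) 0 := hc.deriv
  have e0 : G 0 =ᶠ[𝓝 0] fun x => co 0 x * (2 * Q x + co 0 x * coordDeriv Q 0 x) := by
    filter_upwards [he 0, cd_gj hU hQ hb hc 0, cd_Nf hb hc 0, hUx] with x h1 h2 h3 h4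
    rw [h1, h2, h3, h4]
    simp [co]
    ring
  have e1 : G 1 =ᶠ[𝓝 0] fun x => coordDeriv U 1 x * Nf b c x +
      U x * (3 * co 1 x ^ 2 + co 2 x ^ 4 * b (x 2)) + co 0 x ^ 2 * coordDeriv Q 1 x := by
    filter_upwards [he 1, cd_gj hU hQ hb hc 1, cd_Nf hb hc 1] with x h1 h2 h3
    rw [h1, h2, h3]
    simp [co]
  have e2 : G 2 =ᶠ[𝓝 0] fun x => coordDeriv U 2 x * Nf b c x +
      U x * (4 * co 2 x ^ 3 * b (x 2) * co 1 x + co 2 x ^ 4 * deriv b (x 2) * co 1 x +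
        6 * co 2 x ^ 5 * c (x 2) + co 2 x ^ 6 * deriv c (x 2)) +
        co 0 x ^ 2 * coordDeriv Q 2 x := by
    filter_upwards [he 2, cd_gj hU hQ hb hc 2, cd_Nf hb hc 2] with x h1 h2 h3
    rw [h1, h2, h3]
    simp [co]
  have hN0 : Nf b c 0 = 0 := by simp [Nf]
  have hG0 : ∀ i, G i 0 = 0 := by
    intro i
    fin_cases i
    · change G 0 0 = 0
      rw [e0.self_of_nhds]
      simp [co]
    · change G 1 0 = 0
      rw [e1.self_of_nhds]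
      simp [co, hN0]
    · change G 2 0 = 0
      rw [e2.self_of_nhds]
      simp [co, hN0]
  obtain ⟨inst, hres, hM, hmem, hunit⟩ := setup hG hG0
  obtain ⟨B1, hB1⟩ := exists_quot (G := G) hb
  obtain ⟨C1, hC1⟩ := exists_quot (G := G) hc
  have aP : AnalyticAt ℂ (fun x : E3 => 2 * Q x + co 0 x * coordDeriv Q 0 x) 0 :=
    (analyticAt_const.fun_mul hQ).fun_add ((an_co 0).fun_mul (hQd 0))
  have E0 : cl G (co 0) * cl G (fun x : E3 => 2 * Q x + co 0 x * coordDeriv Q 0 x) = 0 := by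
    have h1 : cl G (G 0) = 0 := cl_gen hG 0
    rw [cl_congr e0, cl_mul (an_co 0) aP] at h1
    exact h1
  have hP : IsUnit (cl G (fun x : E3 => 2 * Q x + co 0 x * coordDeriv Q 0 x)) := by
    refine hunit _ aP ?_
    simp [co, hQ0]
  -- the pieces
  have p2 : AnalyticAt ℂ (fun x : E3 => 3 * co 1 x ^ 2) 0 :=
    analyticAt_const.fun_mul ((an_co 1).fun_pow 2)
  have p4 : AnalyticAt ℂ (fun x : E3 => co 2 x ^ 4 * b (x 2)) 0 :=
    ((an_co 2).fun_pow 4).fun_mul (an_c hb)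
  have q1 : AnalyticAt ℂ (fun x : E3 => 4 * co 2 x ^ 3 * b (x 2)) 0 :=
    (analyticAt_const.fun_mul ((an_co 2).fun_pow 3)).fun_mul (an_c hb)
  have q2 : AnalyticAt ℂ (fun x : E3 => co 2 x ^ 4 * deriv b (x 2)) 0 :=
    ((an_co 2).fun_pow 4).fun_mul (an_c hbd)
  have q3 : AnalyticAt ℂ (fun x : E3 => 6 * co 2 x ^ 5 * c (x 2)) 0 :=
    (analyticAt_const.fun_mul ((an_co 2).fun_pow 5)).fun_mul (an_c hc)
  have q4 : AnalyticAt ℂ (fun x : E3 => co 2 x ^ 6 * deriv c (x 2)) 0 :=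
    ((an_co 2).fun_pow 6).fun_mul (an_c hcd)
  have E1 : cl G (coordDeriv U 1) * (cl G (co 1) ^ 3 + cl G (co 2) ^ 4 *
      cl G (fun x => b (x 2)) * cl G (co 1) + cl G (co 2) ^ 6 * cl G (fun x => c (x 2))) +
      cl G U * (3 * cl G (co 1) ^ 2 + cl G (co 2) ^ 4 * cl G (fun x => b (x 2))) +
      cl G (co 0) ^ 2 * cl G (coordDeriv Q 1) = 0 := by
    have h1 : cl G (G 1) = 0 := cl_gen hG 1
    have a1 := (hUd 1).fun_mul hN
    have a2 := hU.fun_mul (p2.fun_add p4)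
    have a3 := ((an_co 0).fun_pow 2).fun_mul (hQd 1)
    rw [cl_congr e1, cl_add (a1.fun_add a2) a3, cl_add a1 a2, cl_mul (hUd 1) hN,
      cl_mul hU (p2.fun_add p4), cl_add p2 p4, cl_mul ((an_co 0).fun_pow 2) (hQd 1),
      cl_pow (an_co 0), cl_Nf hb hc, cl_const_mul ((an_co 1).fun_pow 2), cl_pow (an_co 1),
      cl_mul ((an_co 2).fun_pow 4) (an_c hb), cl_pow (an_co 2), map_ofNat] at h1
    exact h1
  have E2 : cl G (coordDeriv U 2) * (cl G (co 1) ^ 3 + cl G (co 2) ^ 4 *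
      cl G (fun x => b (x 2)) * cl G (co 1) + cl G (co 2) ^ 6 * cl G (fun x => c (x 2))) +
      cl G U * (4 * cl G (co 2) ^ 3 * cl G (fun x => b (x 2)) * cl G (co 1) +
        cl G (co 2) ^ 4 * cl G (fun x => deriv b (x 2)) * cl G (co 1) +
        6 * cl G (co 2) ^ 5 * cl G (fun x => c (x 2)) +
        cl G (co 2) ^ 6 * cl G (fun x => deriv c (x 2))) +
      cl G (co 0) ^ 2 * cl G (coordDeriv Q 2) = 0 := by
    have h1 : cl G (G 2) = 0 := cl_gen hG 2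
    have a1 := (hUd 2).fun_mul hN
    have r1 := q1.fun_mul (an_co 1)
    have r2 := q2.fun_mul (an_co 1)
    have a2 := hU.fun_mul (((r1.fun_add r2).fun_add q3).fun_add q4)
    have a3 := ((an_co 0).fun_pow 2).fun_mul (hQd 2)
    rw [cl_congr e2, cl_add (a1.fun_add a2) a3, cl_add a1 a2, cl_mul (hUd 2) hN,
      cl_mul hU (((r1.fun_add r2).fun_add q3).fun_add q4),
      cl_add ((r1.fun_add r2).fun_add q3) q4, cl_add (r1.fun_add r2) q3, cl_add r1 r2,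
      cl_mul q1 (an_co 1), cl_mul q2 (an_co 1), cl_mul ((an_co 0).fun_pow 2) (hQd 2),
      cl_pow (an_co 0), cl_Nf hb hc,
      cl_mul (analyticAt_const.fun_mul ((an_co 2).fun_pow 3)) (an_c hb),
      cl_const_mul ((an_co 2).fun_pow 3), cl_pow (an_co 2),
      cl_mul ((an_co 2).fun_pow 4) (an_c hbd), cl_pow (an_co 2),
      cl_mul (analyticAt_const.fun_mul ((an_co 2).fun_pow 5)) (an_c hc),
      cl_const_mul ((an_co 2).fun_pow 5), cl_pow (an_co 2),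
      cl_mul ((an_co 2).fun_pow 6) (an_c hcd), cl_pow (an_co 2), map_ofNat, map_ofNat] at h1
    exact h1
  have key := ring10 hres hM hd hP (hunit U hU hU0) E0 E1 E2 hB1 hC1
  exact ⟨(colFin_iff hG).2 key.1, by rw [col_eq hG]; exact key.2⟩

open Crest.Agent.R257.Kp_405 Crest.Agent.R257.Cl2_475

/-- the coordinates `x ↦ ((z, y - θ(z)), x)` -/
def S1 (θ : ℂ → ℂ) (x : E3) : (ℂ × ℂ) × ℂ := ((x 2, x 1 - θ (x 2)), x 0)

def S2 (θ : ℂ → ℂ) (q : (ℂ × ℂ) × ℂ) : E3 := ![q.2, q.1.2 + θ q.1.1, q.1.1]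

theorem LB_S {θ : ℂ → ℂ} (hθ : AnalyticAt ℂ θ 0) (h0 : θ 0 = 0) : LB (S1 θ) (S2 θ) := by
  refine ⟨?_, ?_, ?_, ?_, ?_, ?_⟩
  · exact ((an_co 2).prod ((an_co 1).fun_sub (an_c hθ))).prod (an_co 0)
  · refine AnalyticAt.pi fun i => ?_
    have h1 : AnalyticAt ℂ (fun q : (ℂ × ℂ) × ℂ => θ q.1.1) 0 :=
      AnalyticAt.fun_comp (g := θ) (f := fun q : (ℂ × ℂ) × ℂ => q.1.1) hθ
        (analyticAt_fst.fun_comp analyticAt_fst)
    fin_cases i
    · exact analyticAt_snd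
    · exact (analyticAt_snd.fun_comp analyticAt_fst).fun_add h1
    · exact analyticAt_fst.fun_comp analyticAt_fst
  · simp [S1, h0]
  · ext i
    fin_cases i <;> simp [S2, h0]
  · refine Eventually.of_forall fun x => ?_
    ext i
    fin_cases i <;> simp [S1, S2]
  · refine Eventually.of_forall fun q => ?_
    simp [S1, S2]

/-- **`J_10`** -/
theorem sext_mu' {f : E3 → ℂ} {φ : ℂ × ℂ → ℂ} (hf : AnalyticAt ℂ f 0) (h : Red f φ)
    (e : (ℂ × ℂ) ≃L[ℂ] (ℂ × ℂ)) {u : ℂ × ℂ → ℂ} {θ b₄ c₆ : ℂ → ℂ} (hu : AnalyticAt ℂ u 0)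
    (hu0 : u 0 ≠ 0) (hθ : AnalyticAt ℂ θ 0) (hθ0 : θ 0 = 0) (hb : AnalyticAt ℂ b₄ 0)
    (hc : AnalyticAt ℂ c₆ 0)
    (he : ∀ᶠ w in 𝓝 (0 : ℂ × ℂ), φ (e w) =
      u w * ((w.2 + θ w.1) ^ 3 + w.1 ^ 4 * b₄ w.1 * (w.2 + θ w.1) + w.1 ^ 6 * c₆ w.1))
    (hd : 4 * b₄ 0 ^ 3 + 27 * c₆ 0 ^ 2 ≠ 0) : ColFin (par f) ∧ col (par f) ≤ 10 := by
  obtain ⟨hφ, Ψ, Ψ', Q0, hL, hQ, hQ0, hfe⟩ := h
  have hS := LB_S hθ hθ0
  have hE : LB (e.prodCongr (ContinuousLinearEquiv.refl ℂ ℂ))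
      (e.prodCongr (ContinuousLinearEquiv.refl ℂ ℂ)).symm := LB.of_equiv _
  set E := e.prodCongr (ContinuousLinearEquiv.refl ℂ ℂ) with hEdef
  have hE' : LB (fun x => E (S1 θ x)) (fun q => S2 θ (E.symm q)) := hE.comp hS
  have hΘ : LB (fun x => Ψ (E (S1 θ x))) (fun p => S2 θ (E.symm (Ψ' p))) := hL.comp hE'
  set Θ : E3 → E3 := fun x => Ψ (E (S1 θ x)) with hΘdef
  -- the unit factors
  set U : E3 → ℂ := fun x => u (x 2, x 1 - θ (x 2)) with hUdef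
  set Q : E3 → ℂ := fun x => Q0 (E (S1 θ x)) with hQdef
  have a21 : AnalyticAt ℂ (fun x : E3 => ((x 2, x 1 - θ (x 2)) : ℂ × ℂ)) 0 :=
    (an_co 2).prod ((an_co 1).fun_sub (an_c hθ))
  have a21' : (fun x : E3 => ((x 2, x 1 - θ (x 2)) : ℂ × ℂ)) 0 = 0 := by simp [hθ0]
  have t21 : Tendsto (fun x : E3 => ((x 2, x 1 - θ (x 2)) : ℂ × ℂ)) (𝓝 0) (𝓝 0) := by
    have := a21.continuousAt.tendsto
    simp only [Pi.zero_apply, hθ0, sub_zero] at this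
    exact this
  have hU : AnalyticAt ℂ U 0 :=
    AnalyticAt.fun_comp (g := u) (f := fun x : E3 => ((x 2, x 1 - θ (x 2)) : ℂ × ℂ))
      (by simp only [Pi.zero_apply, hθ0, sub_zero]; exact hu) a21
  have hU0 : U 0 ≠ 0 := by
    have : U 0 = u 0 := congrArg u a21'
    rw [this]
    exact hu0
  have hQa : AnalyticAt ℂ Q 0 :=
    AnalyticAt.fun_comp (g := Q0) (f := fun x => E (S1 θ x)) (by rw [hE'.map0]; exact hQ) hE'.an
  have hQa0 : Q 0 ≠ 0 := by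
    have : Q 0 = Q0 0 := congrArg Q0 hE'.map0
    rw [this]
    exact hQ0
  have hUx : ∀ᶠ x in 𝓝 0, coordDeriv U 0 x = 0 := by
    have t2 : Tendsto (fun x : E3 => x 2) (𝓝 0) (𝓝 0) := (an_co 2).continuousAt
    filter_upwards [t21.eventually hu.eventually_analyticAt,
      t2.eventually hθ.eventually_analyticAt] with x h1 h2
    have h3 : HasFDerivAt (fun x : E3 => θ (x 2)) ((deriv θ (x 2)) •
        (ContinuousLinearMap.proj (R := ℂ) (φ := fun _ : Fin 3 => ℂ) 2)) x :=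
      (h2.differentiableAt.hasDerivAt).comp_hasFDerivAt x (hasF_co 2 x)
    have h4 := (hasF_co 2 x).prodMk ((hasF_co 1 x).sub h3)
    have h5 := HasFDerivAt.comp (g := u)
      (f := fun x : E3 => ((x 2, x 1 - θ (x 2)) : ℂ × ℂ)) x h1.differentiableAt.hasFDerivAt h4
    have h6 : fderiv ℂ U x = _ := h5.fderiv
    unfold coordDeriv
    rw [h6, ContinuousLinearMap.comp_apply]
    have : (((ContinuousLinearMap.proj (R := ℂ) (φ := fun _ : Fin 3 => ℂ) 2).prod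
        ((ContinuousLinearMap.proj (R := ℂ) (φ := fun _ : Fin 3 => ℂ) 1) - (deriv θ (x 2)) •
        (ContinuousLinearMap.proj (R := ℂ) (φ := fun _ : Fin 3 => ℂ) 2))) :
        E3 →L[ℂ] ℂ × ℂ) (Pi.single 0 1) = 0 := by
      simp [Pi.single_apply]
    rw [this, map_zero]
  -- `f ∘ Θ`
  have hfΘ : ∀ᶠ x in 𝓝 0, f (Θ x) = gj U Q b₄ c₆ x := by
    filter_upwards [hE'.tendsto.eventually hfe, t21.eventually he] with x h1 h2
    rw [hΘdef]
    simp only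
    rw [h1]
    have h3 : (E (S1 θ x)).1 = e (x 2, x 1 - θ (x 2)) := rfl
    have h4 : (E (S1 θ x)).2 = x 0 := rfl
    rw [h3, h4, h2]
    simp only [gj, Nf, hUdef, hQdef]
    ring
  have hga := an_gj hU hQa hb hc
  have hfa : AnalyticAt ℂ (fun x => f (Θ x)) 0 := hga.congr (hfΘ.mono fun x hx => hx.symm)
  have hc1 := LCa_472.par_comp (f := fun x => f (Θ x)) (g := f) (θ := Θ) hf hΘ.an hΘ.map0 (by
      have h1 := hΘ.symm.fderiv_comp_zero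
      intro v w hvw
      have h2 := congrArg (fun T : E3 →L[ℂ] E3 => T v) h1
      have h3 := congrArg (fun T : E3 →L[ℂ] E3 => T w) h1
      simp only [ContinuousLinearMap.comp_apply, ContinuousLinearMap.id_apply] at h2 h3
      rw [← h2, ← h3, hvw]) hfa (Eventually.of_forall fun x => rfl)
  have hG : ∀ i, AnalyticAt ℂ (par (fun x => f (Θ x)) i) 0 := fun i => an_cd hfa i
  have key := germ10 hG hU hQa hb hc hU0 hQa0 hUx
    (fun i => cd_congr (hfΘ.mono fun x hx => hx) i) hd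
  exact ⟨hc1.1.2 key.1, by rw [hc1.2]; exact key.2⟩

theorem sext_mu {f : E3 → ℂ} {φ : ℂ × ℂ → ℂ} (hf : Iso f) (h : Red f φ)
    (e : (ℂ × ℂ) ≃L[ℂ] (ℂ × ℂ)) {u : ℂ × ℂ → ℂ} {θ b₄ c₆ : ℂ → ℂ} (hu : AnalyticAt ℂ u 0)
    (hu0 : u 0 ≠ 0) (hθ : AnalyticAt ℂ θ 0) (hθ0 : θ 0 = 0) (hb : AnalyticAt ℂ b₄ 0)
    (hc : AnalyticAt ℂ c₆ 0)
    (he : ∀ᶠ w in 𝓝 (0 : ℂ × ℂ), φ (e w) =
      u w * ((w.2 + θ w.1) ^ 3 + w.1 ^ 4 * b₄ w.1 * (w.2 + θ w.1) + w.1 ^ 6 * c₆ w.1))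
    (hd : 4 * b₄ 0 ^ 3 + 27 * c₆ 0 ^ 2 ≠ 0) : col (par f) ≤ 10 :=
  (sext_mu' hf.an h e hu hu0 hθ hθ0 hb hc he hd).2

end Crest.Agent.R257.Ub10_472
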