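import Crest.Agent.R257.EVk_929
import Crest.Agent.R257.Ub10_472

/-!
R257 / EVl_929 (helper929): `SextStmt` of `LcxDefs_759`, literal.
-/

set_option autoImplicit false

noncomputable section

namespace Crest.Agent.R257.EVl_929

/-- **(B2)** of `LcxDefs_759` -/
theorem sextStmt : LcxDefs_759.SextStmt :=
  EVk_929.sext_of fun _ _ e _ _ _ _ hf h hu hu0 hθ hθ0 hb hc he hd =>
    Ub10_472.sext_mu hf h e hu hu0 hθ hθ0 hb hc he hd

end Crest.Agent.R257.EVl_929
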