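import Crest.Agent.R257.LcP1_980
import Crest.Agent.R257.OtKE_331

/-!
Row 257 (S0395), leaf LC-POS (helper980), part 2: growth of the functions of `J_p(f)` on
`V = {f = 0}` when `f` has weighted order `≥ 1` for weights of sum `< 1`
(from the Ohsawa-Takegoshi extension (D3) of helper331 at all scales `r`).
-/

set_option autoImplicit false

open MeasureTheory Metric Set Filter Topology
open scoped ENNReal Real NNReal

noncomputable section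

namespace Crest.Agent.R257.LcP2_980

open Crest.Agent.R257.OtK_331 Crest.Agent.R257.LcP1_980

variable {n : ℕ}

theorem growth (d : Dat n) (A : (Fin (n + 1) → ℂ) →ₗ[ℂ] (Fin (n + 1) → ℂ))
    (hA : Function.Injective A) (w : Fin (n + 1) → ℝ) {κ Kf s₀ : ℝ} (hκ : 0 < κ)
    (hbox : ∀ s : ℝ, 0 < s → s ≤ s₀ → ∀ X : Fin (n + 1) → ℂ, (∀ i, ‖X i‖ ≤ κ * s ^ w i) →
      A X ∈ Pd d.R ∧ ‖d.h (A X)‖ ≤ Kf * s)
    {q : ℝ} (hq0 : 0 < q) (hq1 : q ≤ 1)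
    {G0 : (Fin (n + 1) → ℂ) → ℂ} (hG0 : DifferentiableOn ℂ G0 (Pd d.R))
    (hB : ∃ B, ∀ x ∈ Pd d.R, ‖G0 x‖ ≤ B)
    (hS : Sh d (fun x => ENNReal.ofReal (‖G0 x‖ ^ (2 * q) * (‖d0 d.h x‖ ^ 2)⁻¹)) ≠ ∞) :
    ∃ C : ℝ, 0 ≤ C ∧ ∀ s : ℝ, 0 < s → s ≤ s₀ → ∀ X : Fin (n + 1) → ℂ,
      (∀ i, ‖X i‖ ≤ κ / 2 * s ^ w i) → d.h (A X) = 0 → d0 d.h (A X) ≠ 0 →
      ‖G0 (A X)‖ ^ (2 * q) ≤ C * s ^ (2 * (1 - ∑ i, w i)) := by
  obtain ⟨KA, hKA⟩ := wsubmean A hA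
  set K : ℝ≥0∞ := Sh d (fun x => ENNReal.ofReal (‖G0 x‖ ^ (2 * q) * (‖d0 d.h x‖ ^ 2)⁻¹)) with hK
  set M : ℝ := (C0 + 1) * (K + 1).toReal with hM
  have hC0 := C0_nonneg
  have hM0 : 0 ≤ M := by positivity
  refine ⟨KA * ((Kf ^ 2 + 1) ^ 2 * M) / (κ / 2) ^ (2 * (n + 1)), by positivity, ?_⟩
  intro s hs hs0 X hX hx0 hx1
  have hKt : K + 1 ≠ ∞ := ENNReal.add_ne_top.2 ⟨hS, ENNReal.one_ne_top⟩
  have hs2 : 0 < s ^ 2 := by positivity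
  -- the extension at scale `s`
  have hlt : ENNReal.ofReal (C0 * (s ^ 2)⁻¹) * K < ENNReal.ofReal (M * (s ^ 2)⁻¹) := by
    have e1 : ENNReal.ofReal (M * (s ^ 2)⁻¹) =
        ENNReal.ofReal ((C0 + 1) * (s ^ 2)⁻¹) * (K + 1) := by
      conv_rhs => rw [← ENNReal.ofReal_toReal hKt, ← ENNReal.ofReal_mul (by positivity)]
      congr 1
      rw [hM]; ring
    rw [e1]
    have e2 : ENNReal.ofReal (C0 * (s ^ 2)⁻¹) * K ≤ ENNReal.ofReal ((C0 + 1) * (s ^ 2)⁻¹) * K := by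
      gcongr
      linarith
    refine e2.trans_lt ?_
    refine ENNReal.mul_lt_mul_right ?_ ENNReal.ofReal_ne_top ?_
    · simp only [ne_eq, ENNReal.ofReal_eq_zero, not_le]; positivity
    · exact ENNReal.lt_add_right hS one_ne_zero
  obtain ⟨G, hG, hG1, hG2⟩ := d3 d hq0 hq1 hs hG0 hB hS le_rfl hlt
  have hκs : ∀ i, 0 < κ / 2 * s ^ w i := fun i => by positivity
  have hAX : A X ∈ Pd d.R := (hbox s hs hs0 X (fun i => (hX i).trans (by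
    have : 0 < s ^ w i := by positivity
    nlinarith))).1
  have hxU : A X ∈ d.U := ⟨hAX, hx1⟩
  have hGx : G (A X) = G0 (A X) := hG1 _ hxU hx0
  have hin : ∀ Y : Fin (n + 1) → ℂ, (∀ i, ‖Y i‖ ≤ κ / 2 * s ^ w i) →
      A X + A Y ∈ Pd d.R ∧ ‖d.h (A X + A Y)‖ ≤ Kf * s := by
    intro Y hY
    have : A X + A Y = A (X + Y) := (map_add A X Y).symm
    rw [this]
    apply hbox s hs hs0
    intro i
    calc ‖(X + Y) i‖ ≤ ‖X i‖ + ‖Y i‖ := norm_add_le _ _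
      _ ≤ κ / 2 * s ^ w i + κ / 2 * s ^ w i := add_le_add (hX i) (hY i)
      _ = κ * s ^ w i := by ring
  have h1 := hKA (Pd d.R) G (A X) (fun i => κ / 2 * s ^ w i) (2 * q) (isOpen_Pd _) hG hκs
    (by positivity) (fun Y hY => (hin Y hY).1)
  have hbm : MeasurableSet (box A (A X) fun i => κ / 2 * s ^ w i) :=
    (isOpen_box A hA (A X) hκs).measurableSet
  have hbs : (box A (A X) fun i => κ / 2 * s ^ w i) ⊆ Pd d.R := by
    rintro y ⟨Y, hY, rfl⟩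
    exact (hin Y fun i => (hY i).le).1
  have h2 : ∫⁻ y in box A (A X) fun i => κ / 2 * s ^ w i, ‖G y‖ₑ ^ (2 * q) ≤
      ENNReal.ofReal ((Kf ^ 2 + 1) ^ 2 * M * s ^ 2) := by
    calc ∫⁻ y in box A (A X) fun i => κ / 2 * s ^ w i, ‖G y‖ₑ ^ (2 * q)
        ≤ ∫⁻ y in box A (A X) fun i => κ / 2 * s ^ w i,
            ENNReal.ofReal ((Kf ^ 2 + 1) ^ 2 * s ^ 4) *
              ENNReal.ofReal (‖G y‖ ^ (2 * q) * ((‖d.h y‖ ^ 2 + s ^ 2) ^ 2)⁻¹) := by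
          refine setLIntegral_mono' hbm ?_
          rintro y ⟨Y, hY, rfl⟩
          obtain ⟨_, hh⟩ := hin Y fun i => (hY i).le
          set y := A X + A Y with hy
          rw [← ofReal_norm, ENNReal.ofReal_rpow_of_nonneg (norm_nonneg _) (by positivity),
            ← ENNReal.ofReal_mul (by positivity)]
          apply ENNReal.ofReal_le_ofReal
          have h3 : (‖d.h y‖ ^ 2 + s ^ 2) ^ 2 ≤ (Kf ^ 2 + 1) ^ 2 * s ^ 4 := by
            have h4 : ‖d.h y‖ ^ 2 + s ^ 2 ≤ (Kf ^ 2 + 1) * s ^ 2 := by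
              have : ‖d.h y‖ ^ 2 ≤ (Kf * s) ^ 2 := by gcongr
              nlinarith
            calc (‖d.h y‖ ^ 2 + s ^ 2) ^ 2 ≤ ((Kf ^ 2 + 1) * s ^ 2) ^ 2 := by gcongr
              _ = (Kf ^ 2 + 1) ^ 2 * s ^ 4 := by ring
          have h5 : 0 < (‖d.h y‖ ^ 2 + s ^ 2) ^ 2 := by positivity
          calc ‖G y‖ ^ (2 * q) = ‖G y‖ ^ (2 * q) * ((‖d.h y‖ ^ 2 + s ^ 2) ^ 2 *
                ((‖d.h y‖ ^ 2 + s ^ 2) ^ 2)⁻¹) := by
                rw [mul_inv_cancel₀ h5.ne', mul_one]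
            _ ≤ ‖G y‖ ^ (2 * q) * (((Kf ^ 2 + 1) ^ 2 * s ^ 4) *
                ((‖d.h y‖ ^ 2 + s ^ 2) ^ 2)⁻¹) := by gcongr
            _ = _ := by ring
      _ = ENNReal.ofReal ((Kf ^ 2 + 1) ^ 2 * s ^ 4) *
            ∫⁻ y in box A (A X) fun i => κ / 2 * s ^ w i,
              ENNReal.ofReal (‖G y‖ ^ (2 * q) * ((‖d.h y‖ ^ 2 + s ^ 2) ^ 2)⁻¹) := by
          rw [lintegral_const_mul' _ _ ENNReal.ofReal_ne_top]
      _ ≤ ENNReal.ofReal ((Kf ^ 2 + 1) ^ 2 * s ^ 4) * ENNReal.ofReal (M * (s ^ 2)⁻¹) := by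
          gcongr
          exact (lintegral_mono_set hbs).trans hG2
      _ = ENNReal.ofReal ((Kf ^ 2 + 1) ^ 2 * M * s ^ 2) := by
          rw [← ENNReal.ofReal_mul (by positivity)]
          congr 1
          field_simp
  have hprod : (∏ i : Fin (n + 1), ENNReal.ofReal ((κ / 2 * s ^ w i) ^ 2)) =
      ENNReal.ofReal ((κ / 2) ^ (2 * (n + 1)) * s ^ (2 * ∑ i, w i)) := by
    rw [← ENNReal.ofReal_prod_of_nonneg (fun i _ => by positivity)]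
    congr 1
    rw [Finset.prod_pow, Finset.prod_mul_distrib, mul_pow]
    congr 1
    · rw [Finset.prod_const, Finset.card_univ, Fintype.card_fin, ← pow_mul, mul_comm]
    · rw [← Real.rpow_sum_of_pos hs, ← Real.rpow_natCast, ← Real.rpow_mul hs.le]
      congr 1
      push_cast; ring
  rw [hprod, hGx, ← ofReal_norm, ENNReal.ofReal_rpow_of_nonneg (norm_nonneg _) (by positivity),
    ← ENNReal.ofReal_mul (by positivity)] at h1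
  have h6 := h1.trans (mul_le_mul_right h2 (KA : ℝ≥0∞))
  rw [← ENNReal.ofReal_coe_nnreal, ← ENNReal.ofReal_mul (by positivity),
    ENNReal.ofReal_le_ofReal_iff (by positivity)] at h6
  have h7 : s ^ (2 * (1 - ∑ i, w i)) = s ^ 2 / s ^ (2 * ∑ i, w i) := by
    rw [mul_sub, Real.rpow_sub hs]
    norm_num
  rw [h7]
  have h8 : 0 < s ^ (2 * ∑ i, w i) := by positivity
  have h9 : 0 < (κ / 2) ^ (2 * (n + 1)) := by positivity
  rw [div_mul_div_comm, le_div_iff₀ (by positivity)]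
  calc ‖G0 (A X)‖ ^ (2 * q) * ((κ / 2) ^ (2 * (n + 1)) * s ^ (2 * ∑ i, w i))
      = (κ / 2) ^ (2 * (n + 1)) * s ^ (2 * ∑ i, w i) * ‖G0 (A X)‖ ^ (2 * q) := by ring
    _ ≤ KA * ((Kf ^ 2 + 1) ^ 2 * M * s ^ 2) := h6
    _ = KA * ((Kf ^ 2 + 1) ^ 2 * M) * s ^ 2 := by ring

/-- the same in terms of the norm -/
theorem growth_norm (d : Dat n) (A : (Fin (n + 1) → ℂ) →ₗ[ℂ] (Fin (n + 1) → ℂ))
    (hA : Function.Injective A) (w : Fin (n + 1) → ℝ) {κ Kf s₀ W : ℝ} (hκ : 0 < κ) (hs₀ : 0 < s₀)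
    (hW : 0 < W) (hwW : ∀ i, w i ≤ W)
    (hbox : ∀ s : ℝ, 0 < s → s ≤ s₀ → ∀ X : Fin (n + 1) → ℂ, (∀ i, ‖X i‖ ≤ κ * s ^ w i) →
      A X ∈ Pd d.R ∧ ‖d.h (A X)‖ ≤ Kf * s)
    {q : ℝ} (hq0 : 0 < q) (hq1 : q ≤ 1)
    {G0 : (Fin (n + 1) → ℂ) → ℂ} (hG0 : DifferentiableOn ℂ G0 (Pd d.R))
    (hB : ∃ B, ∀ x ∈ Pd d.R, ‖G0 x‖ ≤ B)
    (hS : Sh d (fun x => ENNReal.ofReal (‖G0 x‖ ^ (2 * q) * (‖d0 d.h x‖ ^ 2)⁻¹)) ≠ ∞) :
    ∃ C : ℝ, 0 ≤ C ∧ ∀ᶠ x in 𝓝 (0 : Fin (n + 1) → ℂ), x ≠ 0 → d.h x = 0 → d0 d.h x ≠ 0 →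
      ‖G0 x‖ ≤ C * ‖x‖ ^ ((1 - ∑ i, w i) / (q * W)) := by
  obtain ⟨C, hC, hmain⟩ := growth d A hA w hκ hbox hq0 hq1 hG0 hB hS
  have hsurj : Function.Surjective A := LinearMap.injective_iff_surjective.1 hA
  set e : (Fin (n + 1) → ℂ) ≃ₗ[ℂ] (Fin (n + 1) → ℂ) := LinearEquiv.ofBijective A ⟨hA, hsurj⟩ with he
  set L : (Fin (n + 1) → ℂ) →L[ℂ] (Fin (n + 1) → ℂ) :=
    LinearMap.toContinuousLinearMap (e.symm : (Fin (n + 1) → ℂ) →ₗ[ℂ] (Fin (n + 1) → ℂ)) with hL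
  set c : ℝ := ‖L‖ + 1 with hc
  have hc0 : 0 < c := by positivity
  have hLb : ∀ x, ‖e.symm x‖ ≤ c * ‖x‖ := by
    intro x
    calc ‖e.symm x‖ = ‖L x‖ := rfl
      _ ≤ ‖L‖ * ‖x‖ := L.le_opNorm x
      _ ≤ c * ‖x‖ := by gcongr; rw [hc]; linarith
  set m : ℝ := min s₀ 1 with hm
  have hm0 : 0 < m := lt_min hs₀ one_pos
  refine ⟨C ^ (2 * q)⁻¹ * (2 * c / κ) ^ ((1 - ∑ i, w i) / (q * W)), by positivity, ?_⟩
  have hsmall : ∀ᶠ x in 𝓝 (0 : Fin (n + 1) → ℂ), 2 * c / κ * ‖x‖ < m ^ W := by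
    have : Tendsto (fun x : Fin (n + 1) → ℂ => 2 * c / κ * ‖x‖) (𝓝 0) (𝓝 (2 * c / κ * ‖(0 : Fin (n + 1) → ℂ)‖)) :=
      (continuous_const.mul continuous_norm).tendsto _
    rw [norm_zero, mul_zero] at this
    exact this.eventually (gt_mem_nhds (by positivity))
  filter_upwards [hsmall] with x hx hxn hx0 hx1
  have hxp : 0 < ‖x‖ := norm_pos_iff.2 hxn
  set s : ℝ := (2 * c / κ * ‖x‖) ^ W⁻¹ with hs
  have hs0 : 0 < s := by positivity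
  have hsW : s ^ W = 2 * c / κ * ‖x‖ := by
    rw [hs, ← Real.rpow_mul (by positivity), inv_mul_cancel₀ hW.ne', Real.rpow_one]
  have hsm : s ≤ m := by
    have : s ^ W ≤ m ^ W := by rw [hsW]; exact hx.le
    exact (Real.rpow_le_rpow_iff hs0.le hm0.le hW).1 this
  have hs1 : s ≤ 1 := hsm.trans (min_le_right _ _)
  have hAx : A (e.symm x) = x := e.apply_symm_apply x
  have h1 := hmain s hs0 (hsm.trans (min_le_left _ _)) (e.symm x) (by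
    intro i
    calc ‖e.symm x i‖ ≤ ‖e.symm x‖ := norm_le_pi_norm _ i
      _ ≤ c * ‖x‖ := hLb x
      _ = κ / 2 * s ^ W := by rw [hsW]; field_simp
      _ ≤ κ / 2 * s ^ w i := by
        apply mul_le_mul_of_nonneg_left _ (by positivity)
        exact Real.rpow_le_rpow_of_exponent_ge hs0 hs1 (hwW i)) (by rw [hAx]; exact hx0)
    (by rw [hAx]; exact hx1)
  rw [hAx] at h1
  have h2q : 0 < 2 * q := by positivity
  have h2 : ‖G0 x‖ = (‖G0 x‖ ^ (2 * q)) ^ (2 * q)⁻¹ := by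
    rw [← Real.rpow_mul (norm_nonneg _), mul_inv_cancel₀ h2q.ne', Real.rpow_one]
  rw [h2]
  calc (‖G0 x‖ ^ (2 * q)) ^ (2 * q)⁻¹ ≤ (C * s ^ (2 * (1 - ∑ i, w i))) ^ (2 * q)⁻¹ := by
        gcongr
    _ = C ^ (2 * q)⁻¹ * (2 * c / κ * ‖x‖) ^ ((1 - ∑ i, w i) / (q * W)) := by
        rw [Real.mul_rpow hC (by positivity), hs, ← Real.rpow_mul (by positivity),
          ← Real.rpow_mul (by positivity)]
        congr 2
        field_simp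
    _ = C ^ (2 * q)⁻¹ * (2 * c / κ) ^ ((1 - ∑ i, w i) / (q * W)) *
          ‖x‖ ^ ((1 - ∑ i, w i) / (q * W)) := by
        rw [Real.mul_rpow (by positivity) (norm_nonneg _), mul_assoc]

end Crest.Agent.R257.LcP2_980
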