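import Crest.Agent.R257.LcL_980
import Crest.Agent.R257.LcP2_980

/-!
Row 257 (S0395), leaf LC-POS (helper980): `0 < mstar f` if `f` has weighted order `≥ 1` for weights
with sum `< 1`.
-/

set_option autoImplicit false

open Topology Filter Set Metric MeasureTheory
open scoped ENNReal
open Crest.AlgGeometry Crest.AlgGeometry.Germ Crest.Agent.R257.Defs_219

noncomputable section

namespace Crest.Agent.R257.LcM_980

open Crest.Agent.R257.LcL_980 Crest.Agent.R257.OtK_331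

/-- weighted order `≥ 1` in some linear coordinates, sum of the weights `< 1` -/
def WBox (f : E3 → ℂ) : Prop :=
  ∃ (A : (Fin 3 → ℂ) →ₗ[ℂ] (Fin 3 → ℂ)) (w : Fin 3 → ℝ) (κ K s₀ : ℝ), Function.Injective A ∧
    (∀ i, 0 < w i) ∧ ∑ i, w i < 1 ∧ 0 < κ ∧ 0 < s₀ ∧
    ∀ s : ℝ, 0 < s → s ≤ s₀ → ∀ X : Fin 3 → ℂ, (∀ i, ‖X i‖ ≤ κ * s ^ w i) → ‖f (A X)‖ ≤ K * s

theorem sh_le {f g : E3 → ℂ} {r r' p : ℝ} (hr : r' ≤ r)
    (hol : DifferentiableOn ℂ f (Pd (fun _ : Fin 3 => r'))) :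
    Sh (n := 2) ⟨fun _ => r', f, hol⟩ (fun x => ENNReal.ofReal (‖g x‖ ^ (2 * (1 / p)) *
      (‖d0 f x‖ ^ 2)⁻¹)) ≤ Jint p (fun _ => r) f g := by
  unfold Sh Jint
  have hbox : MeasurableSet {x' : Fin 2 → ℂ | ∀ i, ‖x' i‖ < r} := by
    have : {x' : Fin 2 → ℂ | ∀ i, ‖x' i‖ < r} = Pd (fun _ : Fin 2 => r) := rfl
    rw [this]
    exact (isOpen_Pd _).measurableSet
  rw [← lintegral_indicator hbox]
  refine lintegral_mono fun x' => ?_
  by_cases hx : x' ∈ {x' : Fin 2 → ℂ | ∀ i, ‖x' i‖ < r}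
  · rw [indicator_of_mem hx]
    set S := {z : ℂ // (Fin.cons z x' : Fin 3 → ℂ) ∈
      (⟨fun _ => r', f, hol⟩ : Dat 2).U ∧ (⟨fun _ => r', f, hol⟩ : Dat 2).h (Fin.cons z x') = 0}
    set T := {z : ℂ // ‖z‖ < r ∧ f (Fin.cons z x') = 0 ∧ coordDeriv f 0 (Fin.cons z x') ≠ 0}
    have hST : ∀ z : S, ‖z.1‖ < r ∧ f (Fin.cons z.1 x') = 0 ∧
        coordDeriv f 0 (Fin.cons z.1 x') ≠ 0 := by
      rintro ⟨z, ⟨h1, h2⟩, h3⟩
      refine ⟨?_, h3, h2⟩
      have := h1 0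
      simp only [Fin.cons_zero] at this
      exact this.trans_le hr
    let φ : S → T := fun z => ⟨z.1, hST z⟩
    have hφ : Function.Injective φ := by
      intro a b hab
      exact Subtype.ext (congrArg (fun t : T => t.1) hab)
    have e1 : ∀ z : S, ENNReal.ofReal (‖g (Fin.cons z.1 x')‖ ^ (2 * (1 / p)) *
        (‖d0 f (Fin.cons z.1 x')‖ ^ 2)⁻¹) = ENNReal.ofReal (‖g (Fin.cons (φ z).1 x')‖ ^ (2 / p) /
          ‖coordDeriv f 0 (Fin.cons (φ z).1 x')‖ ^ 2) := by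
      intro z
      congr 1
      rw [mul_one_div, div_eq_mul_inv]
      rfl
    calc ∑' z : S, ENNReal.ofReal (‖g (Fin.cons z.1 x')‖ ^ (2 * (1 / p)) *
          (‖d0 f (Fin.cons z.1 x')‖ ^ 2)⁻¹)
        = ∑' z : S, (fun t : T => ENNReal.ofReal (‖g (Fin.cons t.1 x')‖ ^ (2 / p) /
          ‖coordDeriv f 0 (Fin.cons t.1 x')‖ ^ 2)) (φ z) := tsum_congr e1
      _ ≤ _ := ENNReal.tsum_comp_le_tsum_of_injective hφ _
  · rw [indicator_of_notMem hx]
    have hE : IsEmpty {z : ℂ // (Fin.cons z x' : Fin 3 → ℂ) ∈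
      (⟨fun _ => r', f, hol⟩ : Dat 2).U ∧ (⟨fun _ => r', f, hol⟩ : Dat 2).h (Fin.cons z x') = 0} := by
      refine ⟨?_⟩
      rintro ⟨z, ⟨h1, -⟩, -⟩
      apply hx
      intro i
      have := h1 i.succ
      simp only [Fin.cons_succ] at this
      exact this.trans_le hr
    rw [tsum_empty]

theorem grow_of_inJ {f : E3 → ℂ} (hf : AnalyticAt ℂ f 0) (hw : WBox f) :
    ∃ c : ℝ, 0 < c ∧ ∀ (a : ℝ) (g : E3 → ℂ), 1 ≤ a → AnalyticAt ℂ g 0 → InJ a f g →
      Grow f g (c * a) := by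
  obtain ⟨A, w, κ, K, s₀, hA, hw0, hws, hκ, hs₀, hbox⟩ := hw
  set W : ℝ := ∑ i, w i with hW
  have hW0 : 0 < W := by
    rw [hW]; exact Finset.sum_pos (fun i _ => hw0 i) Finset.univ_nonempty
  have hwW : ∀ i, w i ≤ W := by
    intro i
    rw [hW]
    exact Finset.single_le_sum (fun j _ => (hw0 j).le) (Finset.mem_univ i)
  refine ⟨(1 - ∑ i, w i) / W, by rw [← hW]; exact div_pos (by linarith) hW0, ?_⟩
  intro a g ha hg hJ
  obtain ⟨r, hr, hJ⟩ := hJ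
  have ha0 : 0 < a := by linarith
  -- a small polydisc on which everything is holomorphic and bounded
  have hgb : ∀ᶠ x in 𝓝 (0 : E3), AnalyticAt ℂ f x ∧ AnalyticAt ℂ g x ∧ ‖g x‖ < ‖g 0‖ + 1 := by
    filter_upwards [hf.eventually_analyticAt, hg.eventually_analyticAt,
      hg.continuousAt.norm.eventually_lt_const (show ‖g 0‖ < ‖g 0‖ + 1 by linarith)] with x h1 h2 h3
    exact ⟨h1, h2, h3⟩
  obtain ⟨ε, hε, hball⟩ := Metric.eventually_nhds_iff_ball.1 hgb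
  set r' : ℝ := min r ε with hr'
  have hr'0 : 0 < r' := lt_min hr hε
  have hPd : ∀ x ∈ Pd (fun _ : Fin 3 => r'), x ∈ ball (0 : E3) ε := by
    intro x hx
    rw [mem_ball_zero_iff, pi_norm_lt_iff hε]
    intro i
    exact (hx i).trans_le (min_le_right _ _)
  have hol : DifferentiableOn ℂ f (Pd (fun _ : Fin 3 => r')) := fun x hx =>
    (hball x (hPd x hx)).1.differentiableAt.differentiableWithinAt
  have holg : DifferentiableOn ℂ g (Pd (fun _ : Fin 3 => r')) := fun x hx =>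
    (hball x (hPd x hx)).2.1.differentiableAt.differentiableWithinAt
  set d : Dat 2 := ⟨fun _ => r', f, hol⟩ with hd
  have hS : Sh d (fun x => ENNReal.ofReal (‖g x‖ ^ (2 * (1 / a)) * (‖d0 d.h x‖ ^ 2)⁻¹)) ≠ ∞ :=
    ((sh_le (p := a) (g := g) (min_le_left _ _) hol).trans_lt hJ).ne
  -- the box is inside the polydisc
  have hAc : Continuous A := LinearMap.continuous_of_finiteDimensional A
  obtain ⟨η, hη, hηA⟩ : ∃ η > 0, ∀ X : Fin 3 → ℂ, ‖X‖ < η → A X ∈ Pd (fun _ : Fin 3 => r') := by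
    have h1 : A ⁻¹' (Pd (fun _ : Fin 3 => r')) ∈ 𝓝 (0 : Fin 3 → ℂ) := by
      apply hAc.continuousAt.preimage_mem_nhds
      rw [map_zero]
      apply (isOpen_Pd _).mem_nhds
      intro i; simpa using hr'0
    obtain ⟨η, hη, h2⟩ := Metric.mem_nhds_iff.1 h1
    exact ⟨η, hη, fun X hX => h2 (by simpa using hX)⟩
  have hsm : ∀ᶠ s in 𝓝[>] (0 : ℝ), ∀ i, κ * s ^ w i < η := by
    rw [Filter.eventually_all]
    intro i
    have hc : ContinuousAt (fun s : ℝ => κ * s ^ w i) 0 :=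
      continuousAt_const.mul (Real.continuousAt_rpow_const _ _ (Or.inr (hw0 i).le))
    have ht := hc.tendsto
    rw [Real.zero_rpow (hw0 i).ne', mul_zero] at ht
    exact (ht.eventually (gt_mem_nhds hη)).filter_mono nhdsWithin_le_nhds
  obtain ⟨s₁, hs₁, hs₁'⟩ := (mem_nhdsGT_iff_exists_Ioo_subset).1 hsm
  have hs₁0 : (0 : ℝ) < s₁ := hs₁
  have hbox' : ∀ s : ℝ, 0 < s → s ≤ min s₀ (s₁ / 2) → ∀ X : Fin (2 + 1) → ℂ,
      (∀ i, ‖X i‖ ≤ κ * s ^ w i) → A X ∈ Pd d.R ∧ ‖d.h (A X)‖ ≤ K * s := by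
    intro s hs hs' X hX
    refine ⟨hηA X ?_, hbox s hs (hs'.trans (min_le_left _ _)) X hX⟩
    rw [pi_norm_lt_iff hη]
    intro i
    refine (hX i).trans_lt (hs₁' ⟨hs, ?_⟩ i)
    have := hs'.trans (min_le_right _ _)
    linarith
  obtain ⟨C, hC, hev⟩ := LcP2_980.growth_norm d A hA w hκ (lt_min hs₀ (by positivity)) hW0 hwW hbox'
    (q := 1 / a) (by positivity) (by rw [div_le_one ha0]; exact ha) holg
    ⟨‖g 0‖ + 1, fun x hx => (hball x (hPd x hx)).2.2.le⟩ hS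
  refine ⟨C, hC, ?_⟩
  filter_upwards [hev] with x hx h0 h1 h2
  have h3 := hx h0 h1 h2
  have e : (1 - ∑ i, w i) / (1 / a * W) = (1 - ∑ i, w i) / W * a := by
    field_simp
  rw [e] at h3
  exact h3

/-- **LC-POS**: positivity of `mstar` -/
theorem mstar_pos {f : E3 → ℂ} (hf : Iso f) (hw : WBox f) (hne : (mset f).Nonempty) :
    0 < mstar f := by
  obtain ⟨κ, hκ, hκ'⟩ := col_lower hf
  obtain ⟨c, hc, hc'⟩ := grow_of_inJ hf.an hw
  have h1 : κ * c ^ 2 ≤ mstar f := by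
    refine le_csInf hne ?_
    rintro _ ⟨a, b, ha, hb, g, h, hg, hh, hgJ, hhJ, hfin, rfl⟩
    have ha0 : 0 < a := by linarith
    have hb0 : 0 < b := by linarith
    rw [le_div_iff₀ (by positivity)]
    have := hκ' g h (c * a) (c * b) hg hh (by positivity) (by positivity)
      (hc' a g ha hg hgJ) (hc' b h hb hh hhJ) hfin
    calc κ * c ^ 2 * (a * b) = κ * (c * a * (c * b)) := by ring
      _ ≤ _ := this
  have : 0 < κ * c ^ 2 := by positivity
  linarith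

end Crest.Agent.R257.LcM_980
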