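import Crest.Agent.R257.NodeB_547
import Crest.Agent.R257.LcM_980

/-!
Row 257 (S0395), leaf LC-POS (helper980): a critical germ with vanishing 2-jet whose cubic form is
not nodal has weighted order `≥ 1` for the weights `(1/3, 3/8, 1/4)` in suitable linear
coordinates (`wbox_of_not_nodal`).
-/

set_option autoImplicit false

open Topology Filter Set Metric
open scoped ContDiff Nat
open Crest.AlgGeometry.Germ

noncomputable section

namespace Crest.Agent.R257.LcN_980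

open Crest.Agent.R257.Defs_219 Crest.Agent.R257.LCDefs_472 Crest.Agent.R257.Node_547
  Crest.Agent.R257.LcM_980

variable {n : ℕ}

/-- iterated derivatives along a fixed direction, one step -/
theorem iter_succ {f : (Fin n → ℂ) → ℂ} {x : Fin n → ℂ} (hf : AnalyticAt ℂ f x) (m : ℕ)
    (y : Fin n → ℂ) : iteratedFDeriv ℂ (m + 1) f x (fun _ => y) =
      ∑ i, y i * iteratedFDeriv ℂ m (coordDeriv f i) x (fun _ => y) := by
  have hc : ContDiffAt ℂ ω (fun z => fderiv ℂ f z) x := hf.fderiv.contDiffAt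
  have h1 : ∀ v : Fin n → ℂ, iteratedFDeriv ℂ m (fun z => fderiv ℂ f z) x (fun _ => y) v =
      iteratedFDeriv ℂ m (fun z => fderiv ℂ f z v) x (fun _ => y) := by
    intro v
    have h2 := ContinuousLinearMap.iteratedFDeriv_comp_left
      (ContinuousLinearMap.apply ℂ ℂ v) hc (i := m) le_top
    have h3 := congrArg (fun T => T (fun _ : Fin m => y)) h2
    exact h3.symm
  have h4 : iteratedFDeriv ℂ (m + 1) f x (fun _ => y) =
      iteratedFDeriv ℂ m (fun z => fderiv ℂ f z) x (fun _ => y) y := by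
    rw [iteratedFDeriv_succ_apply_right]
    rfl
  have h5 : ∀ (L : (Fin n → ℂ) →L[ℂ] ℂ), L y = ∑ i, y i * L (Pi.single i 1) := by
    intro L
    conv_lhs => rw [pi_eq_sum_univ' y, map_sum]
    refine Finset.sum_congr rfl fun j _ => ?_
    rw [map_smul, smul_eq_mul]
  rw [h4, h5]
  refine Finset.sum_congr rfl fun j _ => ?_
  rw [h1]
  rfl

/-- Taylor's formula of order 3 for a germ with vanishing 2-jet -/
theorem taylor3 {f : E3 → ℂ} (hf : AnalyticAt ℂ f 0) (h0 : f 0 = 0)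
    (h1 : ∀ i, coordDeriv f i 0 = 0) (h2 : ∀ i j, H2 f i j = 0) :
    (fun y => f y - D3 f y y y / 6) =O[𝓝 0] fun y : E3 => ‖y‖ ^ 4 := by
  obtain ⟨p, hp⟩ := id hf
  obtain ⟨r, hr⟩ := id hp
  have e0 : ∀ (g : E3 → ℂ) (y : E3), iteratedFDeriv ℂ 0 g 0 (fun _ => y) = g 0 := fun g y => by
    rw [iteratedFDeriv_zero_apply]
  have ea : ∀ i, AnalyticAt ℂ (coordDeriv f i) 0 := fun i => an_cd hf i
  have eb : ∀ i j, AnalyticAt ℂ (coordDeriv (coordDeriv f i) j) 0 := fun i j => an_cd (ea i) j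
  have q0 : ∀ y, p 0 (fun _ => y) = 0 := fun y => by
    have := hr.factorial_smul y 0
    rw [e0, h0] at this
    simpa using this
  have q1 : ∀ y, p 1 (fun _ => y) = 0 := fun y => by
    have := hr.factorial_smul y 1
    rw [iter_succ hf] at this
    simp only [e0, h1, mul_zero, Finset.sum_const_zero] at this
    simpa using this
  have q2 : ∀ y, p 2 (fun _ => y) = 0 := fun y => by
    have := hr.factorial_smul y 2
    rw [iter_succ hf] at this
    simp only [iter_succ (ea _), e0] at this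
    have h3 : ∀ i j, coordDeriv (coordDeriv f i) j 0 = 0 := h2
    simp only [h3, mul_zero, Finset.sum_const_zero] at this
    simpa [Nat.factorial] using this
  have q3 : ∀ y, p 3 (fun _ => y) = D3 f y y y / 6 := fun y => by
    have := hr.factorial_smul y 3
    rw [iter_succ hf] at this
    simp only [iter_succ (ea _), iter_succ (eb _ _), e0] at this
    have h4 : (∑ i, y i * ∑ j, y j * ∑ k, y k * coordDeriv (coordDeriv (coordDeriv f i) j) k 0) =
        D3 f y y y := by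
      unfold D3 H3
      simp only [Finset.mul_sum]
      refine Finset.sum_congr rfl fun i _ => Finset.sum_congr rfl fun j _ =>
        Finset.sum_congr rfl fun k _ => ?_
      ring
    rw [h4] at this
    rw [← this]
    simp [Nat.factorial]
  have := hp.isBigO_sub_partialSum_pow 4
  refine this.congr_left fun y => ?_
  rw [zero_add, FormalMultilinearSeries.partialSum, Finset.sum_range_succ, Finset.sum_range_succ,
    Finset.sum_range_succ, Finset.sum_range_one, q0, q1, q2, q3]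
  ring

theorem D3_add (f : E3 → ℂ) (x y v w : E3) : D3 f (x + y) v w = D3 f x v w + D3 f y v w := by
  unfold D3
  simp only [← Finset.sum_add_distrib]
  refine Finset.sum_congr rfl fun i _ => Finset.sum_congr rfl fun j _ =>
    Finset.sum_congr rfl fun k _ => ?_
  rw [Pi.add_apply]; ring

theorem D3_smul (f : E3 → ℂ) (c : ℂ) (x v w : E3) : D3 f (c • x) v w = c * D3 f x v w := by
  unfold D3
  simp only [Finset.mul_sum]
  refine Finset.sum_congr rfl fun i _ => Finset.sum_congr rfl fun j _ =>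
    Finset.sum_congr rfl fun k _ => ?_
  rw [Pi.smul_apply, smul_eq_mul]; ring

theorem D3_add2 {f : E3 → ℂ} (hf : AnalyticAt ℂ f 0) (x y v w : E3) :
    D3 f v (x + y) w = D3 f v x w + D3 f v y w := by
  rw [D3_cyc hf v (x + y) w, D3_cyc hf v x w, D3_cyc hf v y w, D3_add]

theorem D3_smul2 {f : E3 → ℂ} (hf : AnalyticAt ℂ f 0) (c : ℂ) (x v w : E3) :
    D3 f v (c • x) w = c * D3 f v x w := by
  rw [D3_cyc hf v (c • x) w, D3_cyc hf v x w, D3_smul]

theorem D3_add3 {f : E3 → ℂ} (hf : AnalyticAt ℂ f 0) (x y v w : E3) :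
    D3 f v w (x + y) = D3 f v w x + D3 f v w y := by
  rw [D3_swap hf v w, D3_swap hf v w, D3_swap hf v w, D3_add2 hf]

theorem D3_smul3 {f : E3 → ℂ} (hf : AnalyticAt ℂ f 0) (c : ℂ) (x v w : E3) :
    D3 f v w (c • x) = c * D3 f v w x := by
  rw [D3_swap hf v w, D3_swap hf v w, D3_smul2 hf]

theorem D3_cube {f : E3 → ℂ} (hf : AnalyticAt ℂ f 0) (x v : E3) (c : ℂ) :
    D3 f (x + c • v) (x + c • v) (x + c • v) =
      D3 f x x x + 3 * c * D3 f v x x + 3 * c ^ 2 * D3 f v v x + c ^ 3 * D3 f v v v := by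
  simp only [D3_add, D3_add2 hf, D3_add3 hf, D3_smul, D3_smul2 hf, D3_smul3 hf]
  have e1 : D3 f x x v = D3 f v x x := (D3_cyc hf v x x).symm
  have e2 : D3 f x v x = D3 f v x x := by rw [D3_swap hf x v x, e1]
  have e3 : D3 f x v v = D3 f v v x := D3_cyc hf x v v
  have e4 : D3 f v x v = D3 f v v x := D3_swap hf v x v
  rw [e1, e2, e3, e4]
  ring

theorem D3_quad {f : E3 → ℂ} (hf : AnalyticAt ℂ f 0) (v e u : E3) (b a : ℂ) :
    D3 f v (b • e + a • u) (b • e + a • u) =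
      b ^ 2 * D3 f v e e + 2 * a * b * D3 f v u e + a ^ 2 * D3 f v u u := by
  simp only [D3_add2 hf, D3_add3 hf, D3_smul2 hf, D3_smul3 hf]
  rw [D3_swap hf v e u]
  ring

theorem D3_bound (f : E3 → ℂ) : ∃ M : ℝ, 0 ≤ M ∧ ∀ x : E3, ‖D3 f x x x‖ ≤ M * ‖x‖ ^ 3 := by
  refine ⟨∑ i, ∑ j, ∑ k, ‖H3 f i j k‖, by positivity, fun x => ?_⟩
  unfold D3
  simp only [Finset.sum_mul]
  refine (norm_sum_le _ _).trans (Finset.sum_le_sum fun i _ => ?_)
  refine (norm_sum_le _ _).trans (Finset.sum_le_sum fun j _ => ?_)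
  refine (norm_sum_le _ _).trans (Finset.sum_le_sum fun k _ => ?_)
  rw [norm_mul, norm_mul, norm_mul]
  have h1 := norm_le_pi_norm x i
  have h2 := norm_le_pi_norm x j
  have h3 := norm_le_pi_norm x k
  calc ‖H3 f i j k‖ * ‖x i‖ * ‖x j‖ * ‖x k‖ ≤ ‖H3 f i j k‖ * ‖x‖ * ‖x‖ * ‖x‖ := by gcongr
    _ = ‖H3 f i j k‖ * ‖x‖ ^ 3 := by ring

/-- not nodal implies weighted order `≥ 1` for the weights `(3/8, 1/4, 1/3)` -/
theorem wbox_of_not_nodal {f : E3 → ℂ} (hf : AnalyticAt ℂ f 0) (h0 : f 0 = 0)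
    (h1 : ∀ i, coordDeriv f i 0 = 0) (h2 : ∀ i j, H2 f i j = 0) (hN : ¬ Nodal f) : WBox f := by
  unfold Nodal at hN
  push Not at hN
  obtain ⟨v, u, hv, hvv, hvu, huv⟩ := hN
  have hli : LinearIndependent ℂ ![v, u] := by
    rw [LinearIndependent.pair_iff' hv]
    exact fun c h => huv c h.symm
  obtain ⟨e, he⟩ := exists_linearIndependent_cons_of_lt_finrank hli
    (by rw [Module.finrank_fintype_fun_eq_card]; decide)
  set A : (Fin 3 → ℂ) →ₗ[ℂ] E3 := Fintype.linearCombination ℂ ![e, v, u] with hA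
  have hAi : Function.Injective A := fun x y hxy => by
    have := Fintype.linearIndependent_iff.1 he (x - y) (by
      have h3 : A (x - y) = 0 := by rw [map_sub, hxy, sub_self]
      rw [hA, Fintype.linearCombination_apply] at h3
      exact h3)
    exact funext fun i => sub_eq_zero.1 (this i)
  have hAX : ∀ X, A X = X 0 • e + X 1 • v + X 2 • u := fun X => by
    rw [hA, Fintype.linearCombination_apply, Fin.sum_univ_three]; rfl
  obtain ⟨C, hC⟩ := (taylor3 hf h0 h1 h2).bound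
  obtain ⟨δ, hδ, hball⟩ := Metric.eventually_nhds_iff_ball.1 hC
  obtain ⟨M, hM, hD⟩ := D3_bound f
  set L : ℝ := ‖e‖ + ‖v‖ + ‖u‖ with hL
  have hL0 : 0 ≤ L := by positivity
  have hC' : ∀ y ∈ ball (0 : E3) δ, ‖f y - D3 f y y y / 6‖ ≤ |C| * ‖y‖ ^ 4 := fun y hy => by
    refine (hball y hy).trans ?_
    rw [norm_pow, norm_norm]
    gcongr
    exact le_abs_self C
  refine ⟨A, ![3 / 8, 1 / 4, 1 / 3], 1, |C| * L ^ 4 + (M * L ^ 3 + 3 * ‖D3 f v e e‖) / 6,
    min 1 ((δ / (L + 1)) ^ 4) / 2, hAi, ?_, ?_, one_pos, by positivity, ?_⟩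
  · intro i
    fin_cases i <;> norm_num
  · rw [Fin.sum_univ_three]
    show (3 / 8 : ℝ) + 1 / 4 + 1 / 3 < 1
    norm_num
  · intro s hs hss X hX
    have hs1 : s < 1 := by
      have : min 1 ((δ / (L + 1)) ^ 4) ≤ 1 := min_le_left _ _
      linarith
    have hs2 : s < (δ / (L + 1)) ^ 4 := by
      have h3 : min 1 ((δ / (L + 1)) ^ 4) ≤ (δ / (L + 1)) ^ 4 := min_le_right _ _
      have h4 : 0 < min 1 ((δ / (L + 1)) ^ 4) := by positivity
      linarith
    have hX0 : ‖X 0‖ ≤ s ^ (3 / 8 : ℝ) := by simpa using hX 0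
    have hX1 : ‖X 1‖ ≤ s ^ (1 / 4 : ℝ) := by simpa using hX 1
    have hX2 : ‖X 2‖ ≤ s ^ (1 / 3 : ℝ) := by simpa using hX 2
    have m1 : s ^ (3 / 8 : ℝ) ≤ s ^ (1 / 4 : ℝ) :=
      Real.rpow_le_rpow_of_exponent_ge hs hs1.le (by norm_num)
    have m2 : s ^ (1 / 3 : ℝ) ≤ s ^ (1 / 4 : ℝ) :=
      Real.rpow_le_rpow_of_exponent_ge hs hs1.le (by norm_num)
    have m3 : s ^ (3 / 8 : ℝ) ≤ s ^ (1 / 3 : ℝ) :=
      Real.rpow_le_rpow_of_exponent_ge hs hs1.le (by norm_num)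
    have p1 : (s ^ (1 / 4 : ℝ)) ^ 4 = s := by
      rw [← Real.rpow_natCast, ← Real.rpow_mul hs.le]; norm_num
    have p2 : (s ^ (1 / 3 : ℝ)) ^ 3 = s := by
      rw [← Real.rpow_natCast, ← Real.rpow_mul hs.le]; norm_num
    have p3 : s ^ (1 / 4 : ℝ) * (s ^ (3 / 8 : ℝ)) ^ 2 = s := by
      rw [← Real.rpow_natCast, ← Real.rpow_mul hs.le, ← Real.rpow_add hs]; norm_num
    have hs0 : 0 < s ^ (1 / 4 : ℝ) := Real.rpow_pos_of_pos hs _
    -- the norm of `y = A X`
    have hy : ‖A X‖ ≤ L * s ^ (1 / 4 : ℝ) := by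
      rw [hAX]
      calc ‖X 0 • e + X 1 • v + X 2 • u‖ ≤ ‖X 0‖ * ‖e‖ + ‖X 1‖ * ‖v‖ + ‖X 2‖ * ‖u‖ := by
            refine (norm_add₃_le).trans ?_
            rw [norm_smul, norm_smul, norm_smul]
        _ ≤ s ^ (1 / 4 : ℝ) * ‖e‖ + s ^ (1 / 4 : ℝ) * ‖v‖ + s ^ (1 / 4 : ℝ) * ‖u‖ := by
            gcongr
            · exact hX0.trans m1
            · exact hX2.trans m2
        _ = L * s ^ (1 / 4 : ℝ) := by rw [hL]; ring
    have hyb : A X ∈ ball (0 : E3) δ := by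
      rw [mem_ball_zero_iff]
      refine hy.trans_lt ?_
      have h3 : s ^ (1 / 4 : ℝ) < δ / (L + 1) := by
        refine lt_of_pow_lt_pow_left₀ 4 (by positivity) ?_
        rw [p1]; exact hs2
      calc L * s ^ (1 / 4 : ℝ) ≤ (L + 1) * s ^ (1 / 4 : ℝ) := by gcongr; linarith
        _ < (L + 1) * (δ / (L + 1)) := by gcongr
        _ = δ := by field_simp
    have hT := hC' _ hyb
    -- the cubic form
    have hcub : D3 f (A X) (A X) (A X) = D3 f (X 0 • e + X 2 • u) (X 0 • e + X 2 • u)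
        (X 0 • e + X 2 • u) + 3 * X 1 * (X 0 ^ 2 * D3 f v e e) := by
      have e1 : A X = (X 0 • e + X 2 • u) + X 1 • v := by rw [hAX]; abel
      rw [e1, D3_cube hf, hvv, hvv, D3_quad hf v, hvu, hvu]
      ring
    have hx : ‖X 0 • e + X 2 • u‖ ≤ L * s ^ (1 / 3 : ℝ) := by
      calc ‖X 0 • e + X 2 • u‖ ≤ ‖X 0‖ * ‖e‖ + ‖X 2‖ * ‖u‖ := by
            refine (norm_add_le _ _).trans ?_
            rw [norm_smul, norm_smul]
        _ ≤ s ^ (1 / 3 : ℝ) * ‖e‖ + s ^ (1 / 3 : ℝ) * ‖u‖ := by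
            gcongr
            exact hX0.trans m3
        _ ≤ L * s ^ (1 / 3 : ℝ) := by
            have : 0 ≤ s ^ (1 / 3 : ℝ) * ‖v‖ := by positivity
            rw [hL]; nlinarith
    have hcb : ‖D3 f (A X) (A X) (A X)‖ ≤ (M * L ^ 3 + 3 * ‖D3 f v e e‖) * s := by
      rw [hcub]
      have b1 : ‖D3 f (X 0 • e + X 2 • u) (X 0 • e + X 2 • u) (X 0 • e + X 2 • u)‖ ≤
          M * L ^ 3 * s := by
        refine (hD _).trans ?_
        calc M * ‖X 0 • e + X 2 • u‖ ^ 3 ≤ M * (L * s ^ (1 / 3 : ℝ)) ^ 3 := by gcongr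
          _ = M * L ^ 3 * (s ^ (1 / 3 : ℝ)) ^ 3 := by ring
          _ = M * L ^ 3 * s := by rw [p2]
      have b2 : ‖3 * X 1 * (X 0 ^ 2 * D3 f v e e)‖ ≤ 3 * ‖D3 f v e e‖ * s := by
        rw [norm_mul, norm_mul, norm_mul, norm_pow]
        have h3 : ‖(3 : ℂ)‖ = 3 := by norm_num
        rw [h3]
        calc 3 * ‖X 1‖ * (‖X 0‖ ^ 2 * ‖D3 f v e e‖) ≤
              3 * s ^ (1 / 4 : ℝ) * ((s ^ (3 / 8 : ℝ)) ^ 2 * ‖D3 f v e e‖) := by gcongr
          _ = 3 * ‖D3 f v e e‖ * (s ^ (1 / 4 : ℝ) * (s ^ (3 / 8 : ℝ)) ^ 2) := by ring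
          _ = 3 * ‖D3 f v e e‖ * s := by rw [p3]
      calc _ ≤ M * L ^ 3 * s + 3 * ‖D3 f v e e‖ * s := (norm_add_le _ _).trans (add_le_add b1 b2)
        _ = _ := by ring
    calc ‖f (A X)‖ = ‖(f (A X) - D3 f (A X) (A X) (A X) / 6) + D3 f (A X) (A X) (A X) / 6‖ := by
          rw [sub_add_cancel]
      _ ≤ |C| * ‖A X‖ ^ 4 + ‖D3 f (A X) (A X) (A X)‖ / 6 := by
          refine (norm_add_le _ _).trans (add_le_add hT (le_of_eq ?_))
          rw [norm_div]; norm_num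
      _ ≤ |C| * (L * s ^ (1 / 4 : ℝ)) ^ 4 + (M * L ^ 3 + 3 * ‖D3 f v e e‖) * s / 6 := by gcongr
      _ = |C| * L ^ 4 * (s ^ (1 / 4 : ℝ)) ^ 4 + (M * L ^ 3 + 3 * ‖D3 f v e e‖) * s / 6 := by ring
      _ = _ := by rw [p1]; ring

end Crest.Agent.R257.LcN_980
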