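import Crest.Agent.R257.LCc_472
import Crest.Agent.R257.LcN_980

/-!
# R257 (S0395), leaf LCX3 (helper838), part 1: the arcs of the polar curve of a germ with vanishing
2-jet whose polar conics meet in simple points
-/

set_option autoImplicit false
set_option linter.unusedSectionVars false

open Set Filter Topology Complex
open scoped ContDiff

namespace Crest.Agent.R257.Ev1_838

open Defs_219 LCDefs_472 Node_547 LcN_980 LCc_472
open Crest.AlgGeometry.Germ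

noncomputable section

/-- the partial derivative of the cubic form -/
def pq (f : E3 → ℂ) (i : Fin 3) (u : E3) : ℂ := (1 / 2) * ∑ j, ∑ k, H3 f i j k * u j * u k

/-- the linear form `∂_i∂_j` of the cubic form -/
def lq (f : E3 → ℂ) (i j : Fin 3) (u : E3) : ℂ := ∑ k, H3 f i j k * u k

theorem pq_add {f : E3 → ℂ} (hf : AnalyticAt ℂ f 0) (i : Fin 3) (a b : E3) (x : ℂ) :
    pq f i (a + x • b) = pq f i a + x * (∑ j, lq f i j a * b j) + x ^ 2 * pq f i b := by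
  unfold pq lq
  have h : ∀ j k, H3 f i j k = H3 f i k j := fun j k => H3_symm23 hf i j k
  simp only [Fin.sum_univ_three, Pi.add_apply, Pi.smul_apply, smul_eq_mul]
  rw [h 1 0, h 2 0, h 2 1]
  ring

theorem pq_smul (f : E3 → ℂ) (i : Fin 3) (a : E3) (x : ℂ) : pq f i (x • a) = x ^ 2 * pq f i a := by
  unfold pq
  simp only [Fin.sum_univ_three, Pi.smul_apply, smul_eq_mul]
  ring

theorem lq_smul (f : E3 → ℂ) (i j : Fin 3) (a : E3) (x : ℂ) : lq f i j (x • a) = x * lq f i j a := by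
  unfold lq
  simp only [Fin.sum_univ_three, Pi.smul_apply, smul_eq_mul]
  ring

theorem lq_symm {f : E3 → ℂ} (hf : AnalyticAt ℂ f 0) (i j : Fin 3) (a : E3) :
    lq f i j a = lq f j i a := by
  unfold lq
  exact Finset.sum_congr rfl fun k _ => by rw [H3_symm12 hf i j k]

theorem pq_cont (f : E3 → ℂ) (i : Fin 3) : Continuous (pq f i) := by
  unfold pq
  fun_prop

/-- blow-up of the partial derivatives -/
theorem blow {f : E3 → ℂ} (hf : AnalyticAt ℂ f 0) (h1 : ∀ i, coordDeriv f i 0 = 0)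
    (h2 : ∀ i j, H2 f i j = 0) (v : E3) (i : Fin 3) :
    ∃ U : E3 × ℂ → ℂ, AnalyticAt ℂ U (v, 0) ∧
      (∀ᶠ p in 𝓝 (v, (0 : ℂ)), coordDeriv f i (p.2 • p.1) = p.2 ^ 2 * U p) ∧
      ∀ᶠ u in 𝓝 v, U (u, 0) = pq f i u := by
  have hF : AnalyticAt ℂ (fun p : E3 × ℂ => f p.1) ((0 : E3), (0 : ℂ)) :=
    AnalyticAt.fun_comp (g := f) (f := fun p : E3 × ℂ => p.1) (x := ((0 : E3), (0 : ℂ))) hf
      analyticAt_fst
  obtain ⟨q, hq, hq1, hq2⟩ := ray_div hF (Eventually.of_forall fun _ => h1) h2 v i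
  refine ⟨fun p => q ((p.1, 0), p.2), ?_, ?_, ?_⟩
  · exact AnalyticAt.fun_comp (g := q) (f := fun p : E3 × ℂ => ((p.1, (0 : ℂ)), p.2)) hq
      ((analyticAt_fst.prod analyticAt_const).prod analyticAt_snd)
  · have ht : Tendsto (fun p : E3 × ℂ => ((p.1, (0 : ℂ)), p.2)) (𝓝 (v, 0)) (𝓝 ((v, 0), 0)) := by
      have : Continuous (fun p : E3 × ℂ => ((p.1, (0 : ℂ)), p.2)) := by fun_prop
      exact this.tendsto' _ _ rfl
    filter_upwards [ht.eventually hq1] with p hp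
    have h3 : ∀ j, H2 (sl (fun p : E3 × ℂ => f p.1) 0) i j = 0 := fun j => h2 i j
    simp only [h3, zero_mul, Finset.sum_const_zero, mul_zero, zero_add] at hp
    exact hp
  · exact hq2

/-- the vector `(1, w)` -/
def vec (w : ℂ × ℂ) : E3 := ![1, w.1, w.2]

theorem vec_zero (w : ℂ × ℂ) : vec w 0 = 1 := rfl

theorem vec_add (w v : ℂ × ℂ) (x : ℂ) : vec (w + x • v) = vec w + x • ![0, v.1, v.2] := by
  ext i
  fin_cases i <;> simp [vec]

theorem an_vec (w : ℂ × ℂ) : AnalyticAt ℂ vec w := by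
  refine AnalyticAt.pi fun i => ?_
  fin_cases i
  · exact analyticAt_const
  · exact analyticAt_fst
  · exact analyticAt_snd

theorem eq_smul_vec {u : E3} (h : u 0 ≠ 0) : u = u 0 • vec (u 1 / u 0, u 2 / u 0) := by
  ext i
  fin_cases i
  · simp [vec]
  · simp [vec]; field_simp
  · simp [vec]; field_simp

/-- the Hessian minor of the cubic form -/
def dl (f : E3 → ℂ) (u : E3) : ℂ := lq f 1 1 u * lq f 2 2 u - lq f 1 2 u ^ 2

/-- one arc -/
theorem arc {f : E3 → ℂ} (hf : AnalyticAt ℂ f 0) (h1 : ∀ i, coordDeriv f i 0 = 0)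
    (h2 : ∀ i j, H2 f i j = 0) {w : ℂ × ℂ} (hq1 : pq f 1 (vec w) = 0) (hq2 : pq f 2 (vec w) = 0)
    (hd : dl f (vec w) ≠ 0) :
    ∃ Z : ℂ → ℂ × ℂ, AnalyticAt ℂ Z 0 ∧ Z 0 = w ∧
      ∀ᶠ p : ℂ × (ℂ × ℂ) in 𝓝 (0, w), p.1 ≠ 0 →
        ((coordDeriv f 1 (p.1 • vec p.2) = 0 ∧ coordDeriv f 2 (p.1 • vec p.2) = 0) ↔
          p.2 = Z p.1) := by
  obtain ⟨U1, hU1, hU1e, hU1z⟩ := blow hf h1 h2 (vec w) 1
  obtain ⟨U2, hU2, hU2e, hU2z⟩ := blow hf h1 h2 (vec w) 2
  set m : ℂ × (ℂ × ℂ) → E3 × ℂ := fun q => (vec (w + q.2), q.1) with hm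
  have hma : AnalyticAt ℂ m (0, 0) := by
    refine AnalyticAt.prod ?_ analyticAt_fst
    refine AnalyticAt.fun_comp (g := vec) (f := fun q : ℂ × (ℂ × ℂ) => w + q.2) ?_
      (analyticAt_const.add analyticAt_snd)
    exact an_vec _
  have hm0 : m (0, 0) = (vec w, 0) := by simp [hm]
  set Pf : ℂ × (ℂ × ℂ) → ℂ × ℂ := fun q => (U1 (m q), U2 (m q)) with hPf
  have hPa : AnalyticAt ℂ Pf (0, 0) := by
    refine AnalyticAt.prod ?_ ?_
    · exact AnalyticAt.fun_comp (g := U1) (by rw [hm0]; exact hU1) hma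
    · exact AnalyticAt.fun_comp (g := U2) (by rw [hm0]; exact hU2) hma
  have hP0 : Pf (0, 0) = 0 := by
    simp only [hPf, hm0, hU1z.self_of_nhds, hU2z.self_of_nhds, hq1, hq2]
    rfl
  have hder : ∀ v : ℂ × ℂ, fderiv ℂ Pf (0, 0) ((0 : ℂ), v) =
      (lq f 1 1 (vec w) * v.1 + lq f 1 2 (vec w) * v.2,
        lq f 2 1 (vec w) * v.1 + lq f 2 2 (vec w) * v.2) := by
    intro v
    have hc : HasDerivAt (fun x : ℂ => ((0 : ℂ), x • v)) ((0 : ℂ), v) 0 := by
      have h3 : HasDerivAt (fun x : ℂ => x • v) v 0 := by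
        simpa using (hasDerivAt_id (0 : ℂ)).smul_const v
      exact (hasDerivAt_const (0 : ℂ) (0 : ℂ)).prodMk h3
    have hP' : HasFDerivAt Pf (fderiv ℂ Pf (0, 0)) ((0 : ℂ), (0 : ℂ) • v) := by
      rw [zero_smul]; exact hPa.differentiableAt.hasFDerivAt
    have h4 : HasDerivAt (fun x : ℂ => Pf ((0 : ℂ), x • v)) (fderiv ℂ Pf (0, 0) ((0 : ℂ), v)) 0 :=
      HasFDerivAt.comp_hasDerivAt (0 : ℂ) hP' hc
    have hcont : Tendsto (fun x : ℂ => vec (w + x • v)) (𝓝 0) (𝓝 (vec w)) := by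
      have : Continuous (fun x : ℂ => vec (w + x • v)) := by
        simp_rw [vec_add]
        fun_prop
      exact this.tendsto' _ _ (by simp)
    have hpoly : ∀ (i : Fin 3), HasDerivAt (fun x : ℂ => pq f i (vec (w + x • v)))
        (lq f i 1 (vec w) * v.1 + lq f i 2 (vec w) * v.2) 0 := by
      intro i
      have h5 : (fun x : ℂ => pq f i (vec (w + x • v))) = fun x =>
          pq f i (vec w) + x * (lq f i 1 (vec w) * v.1 + lq f i 2 (vec w) * v.2) +
            x ^ 2 * pq f i ![0, v.1, v.2] := by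
        funext x
        rw [vec_add, pq_add hf]
        congr 3
        simp [Fin.sum_univ_three]
      rw [h5]
      have h6 := (((hasDerivAt_id (0 : ℂ)).mul_const
        (lq f i 1 (vec w) * v.1 + lq f i 2 (vec w) * v.2)).const_add (pq f i (vec w))).add
          ((hasDerivAt_pow 2 (0 : ℂ)).mul_const (pq f i ![0, v.1, v.2]))
      refine h6.congr_deriv ?_
      simp
    have h7 : HasDerivAt (fun x : ℂ => Pf ((0 : ℂ), x • v))
        (lq f 1 1 (vec w) * v.1 + lq f 1 2 (vec w) * v.2,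
          lq f 2 1 (vec w) * v.1 + lq f 2 2 (vec w) * v.2) 0 := by
      refine ((hpoly 1).prodMk (hpoly 2)).congr_of_eventuallyEq ?_
      filter_upwards [hcont.eventually hU1z, hcont.eventually hU2z] with x e1 e2
      simp only [hPf, hm]
      rw [e1, e2]
    exact h4.unique h7
  have hinj : Function.Injective (fun v : ℂ × ℂ => fderiv ℂ Pf (0, 0) ((0 : ℂ), v)) := by
    intro v v' hvv
    simp only [hder, Prod.mk.injEq] at hvv
    obtain ⟨e1, e2⟩ := hvv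
    rw [lq_symm hf 2 1] at e2
    have hd' : lq f 1 1 (vec w) * lq f 2 2 (vec w) - lq f 1 2 (vec w) ^ 2 ≠ 0 := hd
    have k1 : (lq f 1 1 (vec w) * lq f 2 2 (vec w) - lq f 1 2 (vec w) ^ 2) * (v.1 - v'.1) = 0 := by
      linear_combination lq f 2 2 (vec w) * e1 - lq f 1 2 (vec w) * e2
    have k2 : (lq f 1 1 (vec w) * lq f 2 2 (vec w) - lq f 1 2 (vec w) ^ 2) * (v.2 - v'.2) = 0 := by
      linear_combination lq f 1 1 (vec w) * e2 - lq f 1 2 (vec w) * e1
    exact Prod.ext (sub_eq_zero.1 ((mul_eq_zero.1 k1).resolve_left hd'))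
      (sub_eq_zero.1 ((mul_eq_zero.1 k2).resolve_left hd'))
  obtain ⟨Z, hZ, hZ0, hZe⟩ := LCc_472.ift hPa hP0 hinj
  refine ⟨fun s => w + Z s, analyticAt_const.add hZ, by simp [hZ0], ?_⟩
  have ht1 : Tendsto (fun p : ℂ × (ℂ × ℂ) => ((p.1, p.2 - w) : ℂ × (ℂ × ℂ))) (𝓝 (0, w))
      (𝓝 (0, 0)) := by
    have : Continuous (fun p : ℂ × (ℂ × ℂ) => ((p.1, p.2 - w) : ℂ × (ℂ × ℂ))) := by fun_prop
    exact this.tendsto' _ _ (by simp)
  have ht2 : Tendsto (fun p : ℂ × (ℂ × ℂ) => ((vec p.2, p.1) : E3 × ℂ)) (𝓝 (0, w))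
      (𝓝 (vec w, 0)) := by
    have h3 : ContinuousAt (fun p : ℂ × (ℂ × ℂ) => ((vec p.2, p.1) : E3 × ℂ)) (0, w) := by
      refine ContinuousAt.prodMk ?_ continuousAt_fst
      exact ContinuousAt.comp (g := vec) (f := fun p : ℂ × (ℂ × ℂ) => p.2) (an_vec w).continuousAt
        continuousAt_snd
    exact h3
  filter_upwards [ht1.eventually hZe, ht2.eventually hU1e, ht2.eventually hU2e] with p e0 e1 e2 hp
  have hp2 : p.1 ^ 2 ≠ 0 := pow_ne_zero 2 hp
  rw [e1, e2, mul_eq_zero, mul_eq_zero, or_iff_right hp2, or_iff_right hp2]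
  have hmp : m (p.1, p.2 - w) = (vec p.2, p.1) := by simp [hm]
  have h3 : Pf (p.1, p.2 - w) = (U1 (vec p.2, p.1), U2 (vec p.2, p.1)) := by
    simp only [hPf, hmp]
  rw [h3] at e0
  have h4 : (U1 (vec p.2, p.1) = 0 ∧ U2 (vec p.2, p.1) = 0) ↔
      (U1 (vec p.2, p.1), U2 (vec p.2, p.1)) = ((0 : ℂ), (0 : ℂ)) := by
    rw [Prod.mk.injEq]
  rw [h4]
  refine (e0.trans ?_)
  constructor
  · intro h; rw [← h]; abel
  · intro h; rw [h]; abel

end

end Crest.Agent.R257.Ev1_838
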