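import Crest.Agent.R257.Ev1_838
import Crest.Agent.R257.EVa_929

/-!
# R257 (S0395), leaf LCX3 (helper838), part 2: the structure `Arcs` of EVa_929 for a germ with
vanishing 2-jet whose polar conics meet in simple points
-/

set_option autoImplicit false
set_option linter.unusedSectionVars false

open Set Filter Topology Complex
open scoped ContDiff

namespace Crest.Agent.R257.Ev2_838

open Defs_219 LCDefs_472 Node_547 LcN_980 LCc_472 Ev1_838 EVa_929
open Crest.AlgGeometry.Germ

noncomputable section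

theorem fderiv_cd2 (f : E3 → ℂ) (j k : Fin 3) (v : E3) :
    fderiv ℂ (coordDeriv (coordDeriv f j) k) 0 v = lq f j k v := by
  rw [fderiv_apply_eq]
  unfold lq H3
  exact Finset.sum_congr rfl fun l _ => mul_comm _ _

/-- the structure `Arcs` -/
theorem arcs {f : E3 → ℂ} (hf : AnalyticAt ℂ f 0) (h1 : ∀ i, coordDeriv f i 0 = 0)
    (h2 : ∀ i j, H2 f i j = 0) {ι : Type} [Nonempty ι] (W : ι → ℂ × ℂ)
    (hW : Function.Injective W) (hq1 : ∀ i, pq f 1 (vec (W i)) = 0)
    (hq2 : ∀ i, pq f 2 (vec (W i)) = 0) (hd : ∀ i, dl f (vec (W i)) ≠ 0)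
    (hz : ∀ u : E3, u ≠ 0 → pq f 1 u = 0 → pq f 2 u = 0 → ∃ i, u = u 0 • vec (W i)) :
    ∃ (γ : ι → ℂ → E3) (D : ι → ℂ → ℂ), Arcs f γ D ∧ (∀ i, D i 0 = dl f (vec (W i))) ∧
      ∀ i, HasDerivAt (γ i) (vec (W i)) 0 := by
  classical
  choose Z hZ hZ0 hZe using fun i => arc hf h1 h2 (hq1 i) (hq2 i) (hd i)
  set γ : ι → ℂ → E3 := fun i τ => τ • vec (Z i τ) with hγ
  have hvZ : ∀ i, AnalyticAt ℂ (fun τ => vec (Z i τ)) 0 := fun i =>
    AnalyticAt.fun_comp (g := vec) (an_vec _) (hZ i)
  have hγan : ∀ i, AnalyticAt ℂ (γ i) 0 := fun i => analyticAt_id.smul (hvZ i)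
  have hγ0 : ∀ i, γ i 0 = 0 := fun i => by simp [hγ]
  have hγd : ∀ i, HasDerivAt (γ i) (vec (W i)) 0 := by
    intro i
    have h3 := (hasDerivAt_id (0 : ℂ)).smul (hvZ i).differentiableAt.hasDerivAt
    refine h3.congr_deriv ?_
    simp [hZ0]
  -- zeros on the arcs
  have hc : ∀ i, ∀ᶠ τ in 𝓝 (0 : ℂ), coordDeriv f 1 (γ i τ) = 0 ∧ coordDeriv f 2 (γ i τ) = 0 := by
    intro i
    have ht : Tendsto (fun τ : ℂ => (τ, Z i τ)) (𝓝 0) (𝓝 (0, W i)) := by
      have : ContinuousAt (fun τ : ℂ => (τ, Z i τ)) 0 := continuousAt_id.prodMk (hZ i).continuousAt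
      have h3 := this.tendsto
      rwa [hZ0 i] at h3
    filter_upwards [ht.eventually (hZe i)] with τ hτ
    by_cases h0 : τ = 0
    · subst h0
      rw [hγ0]
      exact ⟨h1 1, h1 2⟩
    · exact (hτ h0).2 rfl
  -- second derivatives on the arcs
  have hs2 : ∀ i j k, Tendsto (fun τ : ℂ => τ⁻¹ * coordDeriv (coordDeriv f j) k (γ i τ)) (𝓝[≠] 0)
      (𝓝 (lq f j k (vec (W i)))) := by
    intro i j k
    have ha : AnalyticAt ℂ (coordDeriv (coordDeriv f j) k) 0 := EVa_929.an_cd (EVa_929.an_cd hf j) k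
    have h3 : HasFDerivAt (coordDeriv (coordDeriv f j) k)
        (fderiv ℂ (coordDeriv (coordDeriv f j) k) 0) (γ i 0) := by
      rw [hγ0]; exact ha.differentiableAt.hasFDerivAt
    have h4 := h3.comp_hasDerivAt (0 : ℂ) (hγd i)
    rw [fderiv_cd2] at h4
    have h5 := h4.tendsto_slope_zero
    refine h5.congr fun τ => ?_
    have h6 : coordDeriv (coordDeriv f j) k 0 = 0 := h2 j k
    simp only [Function.comp, zero_add, hγ0, h6, sub_zero, smul_eq_mul]
  have hmi : ∀ i, Tendsto (fun τ : ℂ => mi f (γ i τ) / τ ^ 2) (𝓝[≠] 0)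
      (𝓝 (dl f (vec (W i)))) := by
    intro i
    have h3 := ((hs2 i 1 1).mul (hs2 i 2 2)).sub ((hs2 i 1 2).mul (hs2 i 2 1))
    have h4 : lq f 1 1 (vec (W i)) * lq f 2 2 (vec (W i)) - lq f 1 2 (vec (W i)) *
        lq f 2 1 (vec (W i)) = dl f (vec (W i)) := by
      unfold dl
      rw [lq_symm hf 2 1]; ring
    rw [h4] at h3
    refine h3.congr' ?_
    filter_upwards [self_mem_nhdsWithin] with τ hτ
    have hτ' : τ ≠ 0 := hτ
    unfold mi
    field_simp
  set D : ι → ℂ → ℂ := fun i τ => if τ = 0 then dl f (vec (W i)) else mi f (γ i τ) / τ ^ 2 with hD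
  have hD0 : ∀ i, D i 0 = dl f (vec (W i)) := fun i => by simp [hD]
  refine ⟨γ, D, ⟨hγan, hγ0, ?_, fun i => (hc i).mono fun _ h => h.1,
    fun i => (hc i).mono fun _ h => h.2, ?_, ?_, ?_, ?_, fun i => by rw [hD0]; exact hd i⟩, hD0, hγd⟩
  · -- par
    intro i
    exact Eventually.of_forall fun τ => by simp [hγ, vec]
  · -- full
    have key : ∀ u ∈ Metric.sphere (0 : E3) 1, ∀ᶠ z : ℂ × E3 in 𝓝 (0, u), z.1 ≠ 0 →
        coordDeriv f 1 (z.1 • z.2) = 0 → coordDeriv f 2 (z.1 • z.2) = 0 →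
          ∃ i, z.1 • z.2 = γ i ((z.1 • z.2) 0) := by
      intro u hu
      have hu1 : ‖u‖ = 1 := by simpa using hu
      have hu0 : u ≠ 0 := by
        intro h
        rw [h, norm_zero] at hu1
        exact zero_ne_one hu1
      have hsw : Tendsto (fun z : ℂ × E3 => (z.2, z.1)) (𝓝 (0, u)) (𝓝 (u, 0)) :=
        continuous_swap.tendsto _
      have hne : ∀ j, pq f j u ≠ 0 → ∀ᶠ z : ℂ × E3 in 𝓝 (0, u), z.1 ≠ 0 →
          coordDeriv f j (z.1 • z.2) ≠ 0 := by
        intro j hj
        obtain ⟨U, hU, hUe, hUz⟩ := blow hf h1 h2 u j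
        have hU0 : U (u, 0) ≠ 0 := by rw [hUz.self_of_nhds]; exact hj
        filter_upwards [hsw.eventually hUe, hsw.eventually (hU.continuousAt.eventually_ne hU0)]
          with z e1 e2 hz0
        rw [e1]
        exact mul_ne_zero (pow_ne_zero 2 hz0) e2
      by_cases h3 : pq f 1 u = 0
      · by_cases h4 : pq f 2 u = 0
        · obtain ⟨i, hi⟩ := hz u hu0 h3 h4
          have hui : u 0 ≠ 0 := by
            intro h
            rw [h, zero_smul] at hi
            exact hu0 hi
          have hw : (u 1 / u 0, u 2 / u 0) = W i := by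
            have e1 : u 1 = u 0 * (W i).1 := by
              have := congrFun hi 1
              simpa [vec] using this
            have e2 : u 2 = u 0 * (W i).2 := by
              have := congrFun hi 2
              simpa [vec] using this
            rw [e1, e2]
            ext <;> simp <;> field_simp
          have ht : Tendsto (fun z : ℂ × E3 => (z.1 * z.2 0, (z.2 1 / z.2 0, z.2 2 / z.2 0)))
              (𝓝 (0, u)) (𝓝 (0, W i)) := by
            have c0 : ∀ j, ContinuousAt (fun z : ℂ × E3 => z.2 j) (0, u) := fun j =>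
              ((continuous_apply j).comp continuous_snd).continuousAt
            have hcont : ContinuousAt
                (fun z : ℂ × E3 => (z.1 * z.2 0, (z.2 1 / z.2 0, z.2 2 / z.2 0))) (0, u) :=
              (continuousAt_fst.mul (c0 0)).prodMk
                (((c0 1).div (c0 0) hui).prodMk ((c0 2).div (c0 0) hui))
            have h5 := hcont.tendsto
            simp only [zero_mul] at h5
            rwa [hw] at h5
          have hne0 : ∀ᶠ z : ℂ × E3 in 𝓝 (0, u), z.2 0 ≠ 0 := by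
            have c0 : ContinuousAt (fun z : ℂ × E3 => z.2 0) (0, u) :=
              ((continuous_apply 0).comp continuous_snd).continuousAt
            exact c0.eventually_ne hui
          filter_upwards [ht.eventually (hZe i), hne0] with z e1 e2 hz1 e3 e4
          have hzv : z.1 • z.2 = (z.1 * z.2 0) • vec (z.2 1 / z.2 0, z.2 2 / z.2 0) := by
            conv_lhs => rw [eq_smul_vec e2]
            rw [smul_smul]
          rw [hzv] at e3 e4
          have h6 := (e1 (mul_ne_zero hz1 e2)).1 ⟨e3, e4⟩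
          refine ⟨i, ?_⟩
          have h7 : (z.1 • z.2) 0 = z.1 * z.2 0 := by simp
          rw [h7]
          simp only [hγ]
          rw [hzv, ← h6]
        · filter_upwards [hne 2 h4] with z e1 hz1 _ e3
          exact absurd e3 (e1 hz1)
      · filter_upwards [hne 1 h3] with z e1 hz1 e3 _
        exact absurd e3 (e1 hz1)
    have hall := (isCompact_sphere (0 : E3) 1).eventually_forall_of_forall_eventually
      (P := fun (s : ℂ) (v : E3) => s ≠ 0 → coordDeriv f 1 (s • v) = 0 →
        coordDeriv f 2 (s • v) = 0 → ∃ i, s • v = γ i ((s • v) 0)) key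
    have ht : Tendsto (fun p : E3 => ((‖p‖ : ℝ) : ℂ)) (𝓝 0) (𝓝 0) := by
      have : Continuous (fun p : E3 => ((‖p‖ : ℝ) : ℂ)) := by fun_prop
      exact this.tendsto' _ _ (by simp)
    filter_upwards [ht.eventually hall] with p hp e1 e2
    by_cases h0 : p = 0
    · refine ⟨Classical.arbitrary ι, ?_⟩
      rw [h0]
      simp [hγ0]
    · have hn : ((‖p‖ : ℝ) : ℂ) ≠ 0 := by
        rw [Ne, Complex.ofReal_eq_zero]
        exact norm_ne_zero_iff.2 h0
      have hv : ((‖p‖ : ℝ) : ℂ) • (((‖p‖ : ℝ) : ℂ)⁻¹ • p) = p := by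
        rw [smul_smul, mul_inv_cancel₀ hn, one_smul]
      have h3 := hp (((‖p‖ : ℝ) : ℂ)⁻¹ • p) (by
        rw [mem_sphere_zero_iff_norm, norm_smul, norm_inv, Complex.norm_real, norm_norm]
        exact inv_mul_cancel₀ (norm_ne_zero_iff.2 h0)) hn
      rw [hv] at h3
      exact h3 e1 e2
  · -- inj
    intro i j hij
    have h3 : Z i 0 ≠ Z j 0 := by
      rw [hZ0, hZ0]
      exact fun h => hij (hW h)
    have h4 : ∀ᶠ τ in 𝓝 (0 : ℂ), Z i τ ≠ Z j τ :=
      ((hZ i).continuousAt.sub (hZ j).continuousAt).eventually_ne (sub_ne_zero.2 h3) |>.mono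
        fun τ h5 h6 => h5 (sub_eq_zero.2 h6)
    filter_upwards [nhdsWithin_le_nhds h4, self_mem_nhdsWithin] with τ h5 h6 h7
    refine h5 ?_
    have h8 : vec (Z i τ) = vec (Z j τ) := smul_right_injective E3 h6 h7
    have e1 := congrFun h8 1
    have e2 := congrFun h8 2
    exact Prod.ext (by simpa [vec] using e1) (by simpa [vec] using e2)
  · -- minor
    intro i
    refine Eventually.of_forall fun τ => ?_
    by_cases h0 : τ = 0
    · subst h0
      rw [hγ0]
      have h3 : ∀ j k, coordDeriv (coordDeriv f j) k 0 = 0 := h2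
      unfold mi
      rw [h3, h3, h3]; ring
    · simp only [hD, if_neg h0]
      field_simp
  · -- continuity
    intro i
    rw [continuousAt_iff_punctured_nhds]
    rw [hD0]
    refine (hmi i).congr' ?_
    filter_upwards [self_mem_nhdsWithin] with τ hτ
    have hτ' : τ ≠ 0 := hτ
    simp only [hD, if_neg hτ']

end

end Crest.Agent.R257.Ev2_838
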