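import Crest.Agent.R257.Ev2_838
import Crest.Agent.R257.LcxDefs_759

/-!
# R257 (S0395), leaf LCX3 (helper838), part 3: linear changes of coordinates (derivatives, `hs`,
`Good`), orders on the arcs
-/

set_option autoImplicit false
set_option linter.unusedSectionVars false

open Set Filter Topology Complex
open scoped ContDiff

namespace Crest.Agent.R257.Ev3_838

open Defs_219 LCDefs_472 Node_547 LcN_980 LCc_472 Ev1_838 EVa_929 LcxDefs_759
open Crest.AlgGeometry.Germ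

noncomputable section

theorem cd_sum {κ : Type} (s : Finset κ) {c : κ → ℂ} {h : κ → E3 → ℂ} {x : E3}
    (hh : ∀ j ∈ s, DifferentiableAt ℂ (h j) x) (k : Fin 3) :
    coordDeriv (fun y => ∑ j ∈ s, c j * h j y) k x = ∑ j ∈ s, c j * coordDeriv (h j) k x := by
  unfold coordDeriv
  have h1 : HasFDerivAt (fun y => ∑ j ∈ s, c j * h j y) (∑ j ∈ s, c j • fderiv ℂ (h j) x) x :=
    HasFDerivAt.fun_sum fun j hj => (hh j hj).hasFDerivAt.const_mul (c j)
  rw [h1.fderiv, sum_apply]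
  rfl

theorem cd_lin (f : E3 → ℂ) (A : E3 ≃L[ℂ] E3) (i : Fin 3) :
    coordDeriv (fun x => f (A x)) i = fun x => ∑ j, A (Pi.single i 1) j * coordDeriv f j (A x) := by
  funext x
  rw [← fderiv_apply_eq]
  unfold coordDeriv
  have : fderiv ℂ (f ∘ A) x = (fderiv ℂ f (A x)).comp (A : E3 →L[ℂ] E3) := A.comp_right_fderiv
  change fderiv ℂ (f ∘ A) x _ = _
  rw [this]
  rfl

theorem cd2_lin {f : E3 → ℂ} {A : E3 ≃L[ℂ] E3} {x : E3} (hf : AnalyticAt ℂ f (A x)) (i k : Fin 3) :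
    coordDeriv (coordDeriv (fun x => f (A x)) i) k x =
      ∑ j, ∑ l, A (Pi.single i 1) j * A (Pi.single k 1) l * coordDeriv (coordDeriv f j) l (A x) := by
  rw [cd_lin, cd_sum]
  · refine Finset.sum_congr rfl fun j _ => ?_
    have := congrFun (cd_lin (coordDeriv f j) A k) x
    rw [this, Finset.mul_sum]
    exact Finset.sum_congr rfl fun l _ => by ring
  · intro j _
    exact (EVa_929.an_cd hf j).differentiableAt.comp x A.differentiableAt

theorem H2_lin {f : E3 → ℂ} {A : E3 ≃L[ℂ] E3} (hf : AnalyticAt ℂ f 0) (h2 : ∀ i j, H2 f i j = 0)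
    (i j : Fin 3) : H2 (fun x => f (A x)) i j = 0 := by
  unfold H2
  rw [cd2_lin (by rw [map_zero]; exact hf), map_zero]
  have h3 : ∀ i j, coordDeriv (coordDeriv f i) j 0 = 0 := h2
  simp [h3]

theorem H3_lin {f : E3 → ℂ} {A : E3 ≃L[ℂ] E3} (hf : AnalyticAt ℂ f 0) (i j k : Fin 3) :
    H3 (fun x => f (A x)) i j k = D3 f (A (Pi.single i 1)) (A (Pi.single j 1)) (A (Pi.single k 1)) := by
  have hA : Tendsto (fun x : E3 => A x) (𝓝 0) (𝓝 0) := by
    have := A.continuous.tendsto 0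
    rwa [map_zero] at this
  have h1 : coordDeriv (coordDeriv (fun x => f (A x)) i) j =ᶠ[𝓝 0] fun x =>
      ∑ a, A (Pi.single i 1) a * (∑ b, A (Pi.single j 1) b * coordDeriv (coordDeriv f a) b (A x)) := by
    filter_upwards [hA.eventually hf.eventually_analyticAt] with x hx
    rw [cd2_lin hx]
    simp only [Finset.mul_sum, mul_assoc]
  have h2 : ∀ a b, AnalyticAt ℂ (coordDeriv (coordDeriv f a) b) (A 0) := fun a b => by
    rw [map_zero]; exact EVa_929.an_cd (EVa_929.an_cd hf a) b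
  have h3 : ∀ a b, DifferentiableAt ℂ (fun x => coordDeriv (coordDeriv f a) b (A x)) 0 := fun a b =>
    (h2 a b).differentiableAt.comp 0 A.differentiableAt
  unfold H3
  have h4 : coordDeriv (coordDeriv (coordDeriv (fun x => f (A x)) i) j) k 0 =
      coordDeriv (fun x => ∑ a, A (Pi.single i 1) a *
        (∑ b, A (Pi.single j 1) b * coordDeriv (coordDeriv f a) b (A x))) k 0 := by
    rw [coordDeriv, coordDeriv, h1.fderiv_eq]
  rw [h4, cd_sum]
  · unfold D3 H3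
    refine Finset.sum_congr rfl fun a _ => ?_
    rw [cd_sum _ fun b _ => h3 a b, Finset.mul_sum]
    refine Finset.sum_congr rfl fun b _ => ?_
    have := congrFun (cd_lin (coordDeriv (coordDeriv f a) b) A k) 0
    rw [this, map_zero, Finset.mul_sum, Finset.mul_sum]
    exact Finset.sum_congr rfl fun c _ => by ring
  · intro a _
    exact DifferentiableAt.fun_sum fun b _ => (h3 a b).const_mul _

/-- the matrix of `A` -/
def mt (A : E3 ≃L[ℂ] E3) : Matrix (Fin 3) (Fin 3) ℂ := Matrix.of fun j i => A (Pi.single i 1) j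

theorem mt_toMatrix (A : E3 ≃L[ℂ] E3) : mt A = LinearMap.toMatrix' (A : E3 →ₗ[ℂ] E3) := by
  ext i j
  rw [LinearMap.toMatrix'_apply]
  simp only [mt, Matrix.of_apply]
  congr 2

theorem mt_mulVec (A : E3 ≃L[ℂ] E3) (x : E3) : (mt A).mulVec x = A x := by
  rw [mt_toMatrix]
  exact LinearMap.toMatrix'_mulVec _ _

theorem mt_det (A : E3 ≃L[ℂ] E3) : (mt A).det ≠ 0 := by
  rw [mt_toMatrix, LinearMap.det_toMatrix']
  exact (LinearEquiv.isUnit_det' A.toLinearEquiv).ne_zero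

theorem hs_lin {f : E3 → ℂ} {A : E3 ≃L[ℂ] E3} {x : E3} (hf : AnalyticAt ℂ f (A x)) :
    hs (fun x => f (A x)) x = (mt A).det ^ 2 * hs f (A x) := by
  unfold hs
  have h1 : (Matrix.of fun i j : Fin 3 => coordDeriv (coordDeriv (fun x => f (A x)) j) i x) =
      (mt A).transpose * (Matrix.of fun i j : Fin 3 => coordDeriv (coordDeriv f j) i (A x)) *
        mt A := by
    ext i j
    rw [Matrix.of_apply, cd2_lin hf, Matrix.mul_apply]
    refine Finset.sum_congr rfl fun a _ => ?_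
    rw [Matrix.mul_apply, Finset.sum_mul]
    refine Finset.sum_congr rfl fun b _ => ?_
    simp only [mt, Matrix.transpose_apply, Matrix.of_apply]
    ring
  rw [h1, Matrix.det_mul, Matrix.det_mul, Matrix.det_transpose]
  ring

/-- small gradients are attained near the origin only -/
theorem proper' {f : E3 → ℂ} {r ε : ℝ} (hε : 0 < ε)
    (han : ∀ x : E3, ‖x‖ ≤ r → AnalyticAt ℂ f x)
    (hcr : ∀ x : E3, ‖x‖ ≤ r → (∀ i, coordDeriv f i x = 0) → x = 0) :
    ∃ δ > 0, ∀ y : E3, ‖y‖ < δ → ∀ x : E3, ‖x‖ ≤ r → (∀ i, coordDeriv f i x = y i) →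
      ‖x‖ < ε := by
  have hK : IsCompact {x : E3 | ‖x‖ ≤ r ∧ ε ≤ ‖x‖} := by
    refine (isCompact_closedBall (0 : E3) r).of_isClosed_subset ?_ ?_
    · exact (isClosed_le continuous_norm continuous_const).inter
        (isClosed_le continuous_const continuous_norm)
    · rintro x ⟨hx, -⟩
      simpa using hx
  by_cases hne : {x : E3 | ‖x‖ ≤ r ∧ ε ≤ ‖x‖}.Nonempty
  · have hcont : ContinuousOn (fun x => ‖gr f x‖) {x : E3 | ‖x‖ ≤ r ∧ ε ≤ ‖x‖} := by
      intro x hx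
      have : ContinuousAt (gr f) x :=
        continuousAt_pi.2 fun i => (EVa_929.an_cd (han x hx.1) i).continuousAt
      exact this.norm.continuousWithinAt
    obtain ⟨x₀, hx₀, hmin⟩ := hK.exists_isMinOn hne hcont
    have hpos : 0 < ‖gr f x₀‖ := by
      rw [norm_pos_iff]
      intro h0
      have h1 := hcr x₀ hx₀.1 fun i => congrFun h0 i
      have h2 : ε ≤ ‖x₀‖ := hx₀.2
      rw [h1, norm_zero] at h2
      exact absurd h2 (not_le.2 hε)
    refine ⟨‖gr f x₀‖, hpos, fun y hy x hx hg => ?_⟩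
    by_contra hcon
    have h2 : ‖gr f x₀‖ ≤ ‖gr f x‖ := hmin (show x ∈ {x : E3 | ‖x‖ ≤ r ∧ ε ≤ ‖x‖} from
      ⟨hx, not_lt.1 hcon⟩)
    have h3 : gr f x = y := funext hg
    rw [h3] at h2
    linarith
  · refine ⟨1, one_pos, fun y _ x hx _ => ?_⟩
    by_contra hcon
    exact hne ⟨x, hx, not_lt.1 hcon⟩

theorem grad_lin (f : E3 → ℂ) (A : E3 ≃L[ℂ] E3) (x y : E3) :
    (∀ i, coordDeriv (fun x => f (A x)) i x = (mt A).transpose.mulVec y i) ↔
      ∀ i, coordDeriv f i (A x) = y i := by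
  have h1 : ∀ i, coordDeriv (fun x => f (A x)) i x = (mt A).transpose.mulVec (gr f (A x)) i := by
    intro i
    rw [cd_lin]
    simp only [Matrix.mulVec, dotProduct, Matrix.transpose_apply, mt, Matrix.of_apply, gr]
  constructor
  · intro h
    have h2 : (mt A).transpose.mulVec (gr f (A x)) = (mt A).transpose.mulVec y :=
      funext fun i => by rw [← h1, h]
    have h3 : Function.Injective (mt A).transpose.mulVec :=
      Matrix.mulVec_injective_iff_isUnit.2 ((Matrix.isUnit_iff_isUnit_det _).2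
        (by rw [Matrix.det_transpose]; exact (mt_det A).isUnit))
    exact fun i => congrFun (h3 h2) i
  · intro h i
    rw [h1]
    have : gr f (A x) = y := funext h
    rw [this]

/-- `Good` under linear changes -/
theorem good_lin {f : E3 → ℂ} {r C : ℝ} (hG : Good f r C) (A : E3 ≃L[ℂ] E3) :
    ∃ r', Good (fun x => f (A x)) r' (C / ‖(mt A).det‖ ^ 2) := by
  have hdet : 0 < ‖(mt A).det‖ := norm_pos_iff.2 (mt_det A)
  set r' : ℝ := r / (‖(A : E3 →L[ℂ] E3)‖ + 1) with hr'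
  have hr0 := hG.r_pos
  have hr'0 : 0 < r' := by positivity
  have hAr : ∀ x, ‖x‖ ≤ r' → ‖A x‖ < r := by
    intro x hx
    have h1 : ‖A x‖ ≤ ‖(A : E3 →L[ℂ] E3)‖ * ‖x‖ := (A : E3 →L[ℂ] E3).le_opNorm x
    have h2 : ‖(A : E3 →L[ℂ] E3)‖ * ‖x‖ ≤ ‖(A : E3 →L[ℂ] E3)‖ * r' := by gcongr
    have h3 : ‖(A : E3 →L[ℂ] E3)‖ * r' < r := by
      rw [hr', ← mul_div_assoc, div_lt_iff₀ (by positivity)]
      nlinarith [norm_nonneg (A : E3 →L[ℂ] E3)]
    linarith
  set ε : ℝ := r' / (‖(A.symm : E3 →L[ℂ] E3)‖ + 1) with hε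
  have hε0 : 0 < ε := by positivity
  have hAε : ∀ x, ‖x‖ < ε → ‖A.symm x‖ < r' := by
    intro x hx
    have h1 : ‖A.symm x‖ ≤ ‖(A.symm : E3 →L[ℂ] E3)‖ * ‖x‖ := (A.symm : E3 →L[ℂ] E3).le_opNorm x
    have h2 : ‖(A.symm : E3 →L[ℂ] E3)‖ * ‖x‖ ≤ ‖(A.symm : E3 →L[ℂ] E3)‖ * ε := by gcongr
    have h3 : ‖(A.symm : E3 →L[ℂ] E3)‖ * ε < r' := by
      rw [hε, ← mul_div_assoc, div_lt_iff₀ (by positivity)]
      nlinarith [norm_nonneg (A.symm : E3 →L[ℂ] E3)]
    linarith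
  have han : ∀ x, ‖x‖ ≤ r' → AnalyticAt ℂ (fun x => f (A x)) x := fun x hx =>
    AnalyticAt.fun_comp (g := f) (hG.an _ (hAr x hx).le) ((A : E3 →L[ℂ] E3).analyticAt x)
  refine ⟨r', hr'0, han, by simp only [map_zero, hG.zero], ?_, ?_, ?_⟩
  · intro i
    rw [cd_lin]
    simp only [map_zero, hG.crit0, mul_zero, Finset.sum_const_zero]
  · intro x hx h1
    have h2 : ∀ i, coordDeriv f i (A x) = (0 : E3) i := by
      refine (grad_lin f A x 0).1 fun i => ?_
      rw [h1 i, Matrix.mulVec_zero]; rfl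
    have h3 := hG.crit (A x) (hAr x hx).le h2
    simpa using h3
  · obtain ⟨δ, hδ, hb⟩ := hG.tb
    obtain ⟨δ1, hδ1, hp⟩ := proper' (r := r) hε0 hG.an hG.crit
    -- the inverse of the transpose
    set B : Matrix (Fin 3) (Fin 3) ℂ := ((mt A).transpose)⁻¹ with hB
    have hBc : Tendsto (fun y : E3 => B.mulVec y) (𝓝 0) (𝓝 0) := by
      have : Continuous (fun y : E3 => B.mulVec y) := Continuous.matrix_mulVec continuous_const
        continuous_id
      exact this.tendsto' _ _ (Matrix.mulVec_zero _)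
    have hBB : ∀ y, (mt A).transpose.mulVec (B.mulVec y) = y := by
      intro y
      rw [Matrix.mulVec_mulVec, hB, Matrix.mul_nonsing_inv, Matrix.one_mulVec]
      rw [Matrix.det_transpose]
      exact (mt_det A).isUnit
    obtain ⟨δ2, hδ2, hB2⟩ := Metric.eventually_nhds_iff_ball.1
      (hBc.eventually (Metric.ball_mem_nhds (0 : E3) (lt_min hδ hδ1)))
    refine ⟨δ2, hδ2, fun y hy hreg Z hZ => ?_⟩
    have hy2 := hB2 y (by rwa [mem_ball_zero_iff])
    rw [dist_zero_right, lt_min_iff] at hy2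
    set y' := B.mulVec y with hy'
    have hiff : ∀ x : E3, (∀ i, coordDeriv (fun x => f (A x)) i x = y i) ↔
        ∀ i, coordDeriv f i (A x) = y' i := by
      intro x
      have := grad_lin f A x y'
      rw [hBB] at this
      exact this
    have hinj : Function.Injective A := A.injective
    have hsol : ∀ x : E3, x ∈ Metric.ball (0 : E3) r → (∀ i, coordDeriv f i x = y' i) →
        A.symm x ∈ Metric.ball (0 : E3) r' ∧
          ∀ i, coordDeriv (fun x => f (A x)) i (A.symm x) = y i := by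
      intro x hx h1
      have h2 : ‖x‖ < r := mem_ball_zero_iff.1 hx
      refine ⟨mem_ball_zero_iff.2 (hAε x (hp y' hy2.2 x h2.le h1)), ?_⟩
      rw [hiff, A.apply_symm_apply]
      exact h1
    have hh : ∀ x, x ∈ Metric.ball (0 : E3) r' → hs (fun x => f (A x)) x =
        (mt A).det ^ 2 * hs f (A x) := fun x hx =>
      hs_lin (hG.an _ (hAr x (mem_ball_zero_iff.1 hx).le).le)
    have hb' := hb y' hy2.1 ?_ (Z.map ⟨A, hinj⟩) ?_
    · rw [Finset.sum_map] at hb'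
      have hsum : ∑ x ∈ Z, (fun x => f (A x)) x / hs (fun x => f (A x)) x =
          ((mt A).det ^ 2)⁻¹ * ∑ x ∈ Z, f ((⟨A, hinj⟩ : E3 ↪ E3) x) /
            hs f ((⟨A, hinj⟩ : E3 ↪ E3) x) := by
        rw [Finset.mul_sum]
        refine Finset.sum_congr rfl fun x hx => ?_
        have h1 := ((hZ x).1 hx).1
        rw [hh x h1]
        simp only [Function.Embedding.coeFn_mk]
        have hd := mt_det A
        have h2 : hs f (A x) ≠ 0 := by
          intro h0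
          have h3 := hreg x h1 ((hZ x).1 hx).2
          rw [hh x h1, h0, mul_zero] at h3
          exact h3 rfl
        field_simp
      rw [hsum, norm_mul, norm_inv, norm_pow, inv_mul_eq_div]
      gcongr
    · intro x hx h1
      obtain ⟨h2, h3⟩ := hsol x hx h1
      have h4 := hreg _ h2 h3
      rw [hh _ h2, A.apply_symm_apply] at h4
      exact right_ne_zero_of_mul h4
    · intro x
      rw [Finset.mem_map]
      constructor
      · rintro ⟨z, hz, rfl⟩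
        have h1 := (hZ z).1 hz
        refine ⟨mem_ball_zero_iff.2 (hAr z (mem_ball_zero_iff.1 h1.1).le), ?_⟩
        exact (hiff z).1 h1.2
      · rintro ⟨h1, h2⟩
        exact ⟨A.symm x, (hZ _).2 (hsol x h1 h2), A.apply_symm_apply x⟩

/-- the cubic term on an arc -/
theorem lim3 {f : E3 → ℂ} (hf : AnalyticAt ℂ f 0) (h0 : f 0 = 0)
    (h1 : ∀ i, coordDeriv f i 0 = 0) (h2 : ∀ i j, H2 f i j = 0) {γ : ℂ → E3} {v : E3}
    (hγ : HasDerivAt γ v 0) (hγ0 : γ 0 = 0) :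
    Tendsto (fun τ => f (γ τ) / τ ^ 3) (𝓝[≠] 0) (𝓝 (D3 f v v v / 6)) := by
  have hsl : Tendsto (fun τ : ℂ => τ⁻¹ • γ τ) (𝓝[≠] 0) (𝓝 v) := by
    have := hγ.tendsto_slope_zero
    simpa [hγ0] using this
  have hD : Continuous fun x : E3 => D3 f x x x := by
    unfold D3
    fun_prop
  have hD1 : Tendsto (fun τ : ℂ => D3 f (τ⁻¹ • γ τ) (τ⁻¹ • γ τ) (τ⁻¹ • γ τ) / 6) (𝓝[≠] 0)
      (𝓝 (D3 f v v v / 6)) := ((hD.tendsto v).comp hsl).div_const 6
  -- the remainder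
  have hO := taylor3 hf h0 h1 h2
  have hγt : Tendsto γ (𝓝[≠] 0) (𝓝 0) := by
    have := hγ.continuousAt.tendsto
    rw [hγ0] at this
    exact this.mono_left nhdsWithin_le_nhds
  have hO2 := hO.comp_tendsto hγt
  have hrem : Tendsto (fun τ : ℂ => (f (γ τ) - D3 f (γ τ) (γ τ) (γ τ) / 6) / τ ^ 3) (𝓝[≠] 0)
      (𝓝 0) := by
    have h3 : (fun τ : ℂ => (f (γ τ) - D3 f (γ τ) (γ τ) (γ τ) / 6) / τ ^ 3) =O[𝓝[≠] 0]
        fun τ : ℂ => ‖γ τ‖ ^ 4 / ‖τ‖ ^ 3 := by
      have h4 : (fun τ : ℂ => ((τ : ℂ) ^ 3)⁻¹) =O[𝓝[≠] 0] fun τ : ℂ => (‖τ‖ ^ 3)⁻¹ := by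
        refine Asymptotics.IsBigO.of_bound 1 (Eventually.of_forall fun τ => ?_)
        rw [norm_inv, norm_inv, norm_pow, norm_pow, norm_norm, one_mul]
      refine (hO2.mul h4).congr_left fun τ => ?_
      simp only [Function.comp, div_eq_mul_inv]
    refine h3.trans_tendsto ?_
    have h5 : Tendsto (fun τ : ℂ => ‖τ⁻¹ • γ τ‖ ^ 4 * ‖τ‖) (𝓝[≠] 0) (𝓝 (‖v‖ ^ 4 * 0)) := by
      refine (hsl.norm.pow 4).mul ?_
      have : Tendsto (fun τ : ℂ => ‖τ‖) (𝓝 0) (𝓝 0) := by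
        simpa using (continuous_norm (E := ℂ)).tendsto 0
      exact this.mono_left nhdsWithin_le_nhds
    rw [mul_zero] at h5
    refine h5.congr' ?_
    filter_upwards [self_mem_nhdsWithin] with τ hτ
    have hτ' : ‖τ‖ ≠ 0 := norm_ne_zero_iff.2 hτ
    rw [norm_smul, norm_inv]
    field_simp
  have h6 := hrem.add hD1
  rw [zero_add] at h6
  refine h6.congr' ?_
  filter_upwards [self_mem_nhdsWithin] with τ hτ
  have hτ' : τ ≠ 0 := hτ
  have h7 : D3 f (τ⁻¹ • γ τ) (τ⁻¹ • γ τ) (τ⁻¹ • γ τ) = (τ ^ 3)⁻¹ * D3 f (γ τ) (γ τ) (γ τ) := by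
    rw [D3_smul, D3_smul2 hf, D3_smul3 hf]
    field_simp
  rw [h7]
  field_simp
  ring

/-- the order of `f` on an arc -/
theorem ord3 {q : ℂ → ℂ} {g : ℂ → ℂ} {c : ℂ} {p : ℕ} (hg : AnalyticAt ℂ g 0) (hg0 : g 0 ≠ 0)
    (hq : ∀ᶠ τ in 𝓝 (0 : ℂ), q τ = τ ^ p * g τ)
    (hl : Tendsto (fun τ => q τ / τ ^ 3) (𝓝[≠] 0) (𝓝 c)) :
    (c ≠ 0 → p = 3) ∧ (c = 0 → 4 ≤ p) := by
  have hgt : Tendsto g (𝓝[≠] 0) (𝓝 (g 0)) := hg.continuousAt.tendsto.mono_left nhdsWithin_le_nhds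
  have hid : Tendsto (fun τ : ℂ => τ) (𝓝[≠] 0) (𝓝 0) := tendsto_id.mono_left nhdsWithin_le_nhds
  rcases lt_trichotomy p 3 with h | h | h
  · exfalso
    have h1 : Tendsto (fun τ => τ ^ (3 - p) * (q τ / τ ^ 3)) (𝓝[≠] 0) (𝓝 (0 ^ (3 - p) * c)) :=
      (hid.pow _).mul hl
    rw [zero_pow (by omega), zero_mul] at h1
    refine hg0 (tendsto_nhds_unique (hgt.congr' ?_) h1)
    filter_upwards [nhdsWithin_le_nhds hq, self_mem_nhdsWithin] with τ h2 h3
    have h3' : τ ≠ 0 := h3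
    rw [h2]
    have h4 : τ ^ 3 = τ ^ (3 - p) * τ ^ p := by rw [← pow_add]; congr 1; omega
    have h5 : τ ^ (3 - p) ≠ 0 := pow_ne_zero _ h3'
    have h6 : τ ^ p ≠ 0 := pow_ne_zero _ h3'
    rw [h4]
    field_simp
  · subst h
    refine ⟨fun _ => rfl, fun hc => ?_⟩
    exfalso
    subst hc
    refine hg0 (tendsto_nhds_unique (hgt.congr' ?_) hl)
    filter_upwards [nhdsWithin_le_nhds hq, self_mem_nhdsWithin] with τ h2 h3
    have h3' : τ ≠ 0 := h3
    rw [h2]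
    field_simp
  · refine ⟨fun hc => ?_, fun _ => h⟩
    exfalso
    have h1 : Tendsto (fun τ => τ ^ (p - 3) * g τ) (𝓝[≠] 0) (𝓝 (0 ^ (p - 3) * g 0)) :=
      (hid.pow _).mul hgt
    rw [zero_pow (by omega), zero_mul] at h1
    refine hc (tendsto_nhds_unique (hl.congr' ?_) h1)
    filter_upwards [nhdsWithin_le_nhds hq, self_mem_nhdsWithin] with τ h2 h3
    have h3' : τ ≠ 0 := h3
    rw [h2]
    have h4 : τ ^ p = τ ^ (p - 3) * τ ^ 3 := by rw [← pow_add]; congr 1; omega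
    rw [h4]
    field_simp

/-- the evaluation of the trace bound for `f ∘ A` -/
theorem evalA {f : E3 → ℂ} {r C : ℝ} (hG : Good f r C) (h2 : ∀ i j, H2 f i j = 0)
    (A : E3 ≃L[ℂ] E3) {ι : Type} [Fintype ι] [Nonempty ι] (W : ι → ℂ × ℂ)
    (hW : Function.Injective W) (hq1 : ∀ i, pq (fun x => f (A x)) 1 (vec (W i)) = 0)
    (hq2 : ∀ i, pq (fun x => f (A x)) 2 (vec (W i)) = 0)
    (hd : ∀ i, dl (fun x => f (A x)) (vec (W i)) ≠ 0)
    (hz : ∀ u : E3, u ≠ 0 → pq (fun x => f (A x)) 1 u = 0 → pq (fun x => f (A x)) 2 u = 0 →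
      ∃ i, u = u 0 • vec (W i)) :
    ∃ p : ι → ℕ, (∀ i, D3 (fun x => f (A x)) (vec (W i)) (vec (W i)) (vec (W i)) ≠ 0 → p i = 3) ∧
      (∀ i, D3 (fun x => f (A x)) (vec (W i)) (vec (W i)) (vec (W i)) = 0 → 4 ≤ p i) ∧
      ‖∑ i, 1 / (p i * dl (fun x => f (A x)) (vec (W i)))‖ ≤ C / ‖(mt A).det‖ ^ 2 := by
  obtain ⟨r', hg⟩ := good_lin hG A
  have hf0 : AnalyticAt ℂ f 0 := hG.an 0 (by simpa using hG.r_pos.le)
  have hf : AnalyticAt ℂ (fun x => f (A x)) 0 := hg.an 0 (by simpa using hg.r_pos.le)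
  obtain ⟨γ, D, hA, hD, hγ⟩ := Ev2_838.arcs hf hg.crit0 (H2_lin hf0 h2) W hW hq1 hq2 hd hz
  obtain ⟨p, hp, hgi, hb⟩ := arc_bound hf hg.zero hg.crit0 hA hg.r_pos hg.an hg.crit hg.tb
  have hord : ∀ i, (D3 (fun x => f (A x)) (vec (W i)) (vec (W i)) (vec (W i)) / 6 ≠ 0 → p i = 3) ∧
      (D3 (fun x => f (A x)) (vec (W i)) (vec (W i)) (vec (W i)) / 6 = 0 → 4 ≤ p i) := by
    intro i
    obtain ⟨g, hga, hg0, hge⟩ := hgi i
    exact ord3 hga hg0 hge (lim3 hf hg.zero hg.crit0 (H2_lin hf0 h2) (hγ i) (hA.z0 i))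
  refine ⟨p, fun i h => (hord i).1 (div_ne_zero h (by norm_num)),
    fun i h => (hord i).2 (by rw [h]; simp), ?_⟩
  simp only [hD] at hb
  exact hb

end

end Crest.Agent.R257.Ev3_838
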