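import Crest.Agent.R257.Ev3_838

/-!
# R257 (S0395), leaf LCX3 (helper838), part 4: the normal form `xyz + a y³ + b z³` of a nodal cubic
with a node; the inequality `NodalStmt` of LcxDefs_759
-/

set_option autoImplicit false
set_option linter.unusedSectionVars false

open Set Filter Topology Complex
open scoped ContDiff

namespace Crest.Agent.R257.Ev4_838

open Defs_219 LCDefs_472 Node_547 LcN_980 LCc_472 Ev1_838 EVa_929 LcxDefs_759 Ev3_838
open Crest.AlgGeometry.Germ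

noncomputable section

/-- the matrix with columns `v, u, w` -/
def P3 (v u w : E3) : Matrix (Fin 3) (Fin 3) ℂ := Matrix.of fun j i => (![v, u, w] : Fin 3 → E3) i j

/-- adapted basis: the cubic form is `x y z + a y³ + b z³` in the basis `v, u, w` -/
structure Bs (f : E3 → ℂ) (v u w : E3) (a b : ℂ) : Prop where
  vv : ∀ x, D3 f v v x = 0
  vuu : D3 f v u u = 0
  vww : D3 f v w w = 0
  vuw : D3 f v u w = 1
  uuw : D3 f u u w = 0
  uww : D3 f u w w = 0
  uuu : D3 f u u u = 6 * a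
  www : D3 f w w w = 6 * b
  det : (P3 v u w).det ≠ 0

/-- linear combination -/
def cmb (v u w : E3) (X : E3) : E3 := X 0 • v + X 1 • u + X 2 • w

variable {f : E3 → ℂ} {v u w : E3} {a b : ℂ}

theorem P3_mulVec (v u w X : E3) : (P3 v u w).mulVec X = cmb v u w X := by
  ext j
  simp only [P3, cmb, Matrix.mulVec, dotProduct, Fin.sum_univ_three, Matrix.of_apply, Pi.add_apply,
    Pi.smul_apply, smul_eq_mul, Matrix.cons_val_zero, Matrix.cons_val_one, Matrix.cons_val]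
  ring

theorem D3_p12 (hf : AnalyticAt ℂ f 0) (x y z : E3) : D3 f x y z = D3 f y x z := by
  rw [D3_cyc hf, D3_swap hf]

theorem Bs.tri (h : Bs f v u w a b) (hf : AnalyticAt ℂ f 0) (X Y Z : E3) :
    D3 f (cmb v u w X) (cmb v u w Y) (cmb v u w Z) =
      X 0 * (Y 1 * Z 2 + Y 2 * Z 1) + X 1 * (Y 0 * Z 2 + Y 2 * Z 0) +
        X 2 * (Y 0 * Z 1 + Y 1 * Z 0) + 6 * a * X 1 * Y 1 * Z 1 + 6 * b * X 2 * Y 2 * Z 2 := by
  have s := D3_swap hf
  have c := D3_p12 hf
  have v2 : ∀ x, D3 f v x v = 0 := fun x => by rw [s v x v, h.vv]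
  have v3 : ∀ x, D3 f x v v = 0 := fun x => by rw [c x v v, v2]
  have a2 : D3 f u v u = 0 := by rw [c u v u, h.vuu]
  have a3 : D3 f u u v = 0 := by rw [s u u v, a2]
  have b2 : D3 f w v w = 0 := by rw [c w v w, h.vww]
  have b3 : D3 f w w v = 0 := by rw [s w w v, b2]
  have c2 : D3 f v w u = 1 := by rw [s v w u, h.vuw]
  have c3 : D3 f u v w = 1 := by rw [c u v w, h.vuw]
  have c4 : D3 f u w v = 1 := by rw [s u w v, c3]
  have c5 : D3 f w v u = 1 := by rw [c w v u, c2]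
  have c6 : D3 f w u v = 1 := by rw [s w u v, c5]
  have d2 : D3 f u w u = 0 := by rw [s u w u, h.uuw]
  have d3 : D3 f w u u = 0 := by rw [c w u u, d2]
  have e2 : D3 f w u w = 0 := by rw [c w u w, h.uww]
  have e3 : D3 f w w u = 0 := by rw [s w w u, e2]
  unfold cmb
  simp only [D3_add, D3_add2 hf, D3_add3 hf, D3_smul, D3_smul2 hf, D3_smul3 hf, h.vv, v2, v3,
    h.vuu, a2, a3, h.vww, b2, b3, h.vuw, c2, c3, c4, c5, c6, h.uuw, d2, d3, h.uww, e2, e3,
    h.uuu, h.www]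
  ring

theorem Bs.swap (h : Bs f v u w a b) (hf : AnalyticAt ℂ f 0) : Bs f v w u b a where
  vv := h.vv
  vuu := h.vww
  vww := h.vuu
  vuw := by rw [D3_swap hf, h.vuw]
  uuw := by
    have := h.uww
    rw [D3_p12 hf, D3_swap hf] at this
    exact this
  uww := by
    have := h.uuw
    rw [D3_swap hf, D3_p12 hf] at this
    exact this
  uuu := h.www
  www := h.uuu
  det := by
    have h1 : (P3 v w u).det = -(P3 v u w).det := by
      simp only [P3, Matrix.det_fin_three, Matrix.of_apply, Matrix.cons_val_zero,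
        Matrix.cons_val_one, Matrix.cons_val]
      ring
    rw [h1]
    exact neg_ne_zero.2 h.det

theorem Bs.scale (h : Bs f v u w a b) (hf : AnalyticAt ℂ f 0) {s : ℂ} (hs : s ≠ 0) :
    Bs f (s • v) (s⁻¹ • u) w (a / s ^ 3) b ∧ (P3 (s • v) (s⁻¹ • u) w).det = (P3 v u w).det := by
  have h1 : (P3 (s • v) (s⁻¹ • u) w).det = (P3 v u w).det := by
    simp only [P3, Matrix.det_fin_three, Matrix.of_apply, Matrix.cons_val_zero,
      Matrix.cons_val_one, Matrix.cons_val, Pi.smul_apply, smul_eq_mul]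
    field_simp
  refine ⟨⟨?_, ?_, ?_, ?_, ?_, ?_, ?_, h.www, by rw [h1]; exact h.det⟩, h1⟩
  · intro x
    rw [D3_smul, D3_smul2 hf, h.vv]; ring
  · rw [D3_smul, D3_smul2 hf, D3_smul3 hf, h.vuu]; ring
  · rw [D3_smul, h.vww]; ring
  · rw [D3_smul, D3_smul2 hf, h.vuw]; field_simp
  · rw [D3_smul, D3_smul2 hf, h.uuw]; ring
  · rw [D3_smul, h.uww]; ring
  · rw [D3_smul, D3_smul2 hf, D3_smul3 hf, h.uuu]; field_simp

/-- reduction to `a ∈ {0, 1}` -/
theorem Bs.norm1 (h : Bs f v u w a b) (hf : AnalyticAt ℂ f 0) :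
    ∃ v' u' a', Bs f v' u' w a' b ∧ (a' = 0 ∨ a' = 1) ∧ (a' = 0 ↔ a = 0) ∧
      (P3 v' u' w).det = (P3 v u w).det := by
  by_cases ha : a = 0
  · exact ⟨v, u, a, h, Or.inl ha, Iff.rfl, rfl⟩
  · obtain ⟨s, hs⟩ := IsAlgClosed.exists_pow_nat_eq a (n := 3) (by norm_num)
    have hs0 : s ≠ 0 := by
      rintro rfl
      exact ha (by rw [← hs]; ring)
    obtain ⟨h1, h2⟩ := h.scale hf hs0
    have h3 : a / s ^ 3 = 1 := by rw [hs]; exact div_self ha
    rw [h3] at h1
    exact ⟨_, _, 1, h1, Or.inr rfl, by simp [ha], h2⟩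

/-- three shapes -/
theorem Bs.norm (h : Bs f v u w a b) (hf : AnalyticAt ℂ f 0) :
    ∃ v' u' w' a' b', Bs f v' u' w' a' b' ∧ ((a' = 0 ∧ b' = 0) ∨ (a' = 1 ∧ b' = 0) ∨
      (a' = 1 ∧ b' = 1)) ∧ ‖(P3 v' u' w').det‖ = ‖(P3 v u w).det‖ := by
  obtain ⟨v1, u1, a1, h1, c1, -, d1⟩ := h.norm1 hf
  obtain ⟨v2, w2, b2, h2, c2, -, d2⟩ := (h1.swap hf).norm1 hf
  have dsw : ∀ v u w : E3, ‖(P3 v w u).det‖ = ‖(P3 v u w).det‖ := by
    intro v u w
    have h1 : (P3 v w u).det = -(P3 v u w).det := by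
      simp only [P3, Matrix.det_fin_three, Matrix.of_apply, Matrix.cons_val_zero,
        Matrix.cons_val_one, Matrix.cons_val]
      ring
    rw [h1, norm_neg]
  have e : ‖(P3 v2 w2 u1).det‖ = ‖(P3 v u w).det‖ := by rw [d2, dsw, d1]
  rcases c1 with c1 | c1
  · rcases c2 with c2 | c2
    · exact ⟨v2, w2, u1, b2, a1, h2, Or.inl ⟨c2, c1⟩, e⟩
    · exact ⟨v2, w2, u1, b2, a1, h2, Or.inr (Or.inl ⟨c2, c1⟩), e⟩
  · rcases c2 with c2 | c2
    · exact ⟨v2, u1, w2, a1, b2, h2.swap hf, Or.inr (Or.inl ⟨c1, c2⟩), by rw [dsw, e]⟩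
    · exact ⟨v2, w2, u1, b2, a1, h2, Or.inr (Or.inr ⟨c2, c1⟩), e⟩

/-- existence of an adapted basis at an ordinary node -/
theorem exists_bs (hf : AnalyticAt ℂ f 0) {v : E3} (hv : v ≠ 0) (hvv : ∀ x, D3 f v v x = 0)
    (hk : ∀ y : E3, (∀ x, D3 f v y x = 0) → ∃ c : ℂ, y = c • v) :
    ∃ v' u w a b, Bs f v' u w a b := by
  have s := D3_swap hf
  have c := D3_p12 hf
  -- an isotropic vector
  obtain ⟨u, huu, hu⟩ : ∃ u : E3, D3 f v u u = 0 ∧ ¬ ∃ c : ℂ, u = c • v := by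
    obtain ⟨e, he⟩ : ∃ e : E3, LinearIndependent ℂ ![v, e] := by
      have h1 : LinearIndependent ℂ ![v] := LinearIndependent.of_subsingleton (ι := Fin 1) 0 hv
      obtain ⟨e, he⟩ := exists_linearIndependent_cons_of_lt_finrank h1
        (by rw [Module.finrank_fintype_fun_eq_card]; decide)
      refine ⟨e, ?_⟩
      rw [LinearIndependent.pair_symm_iff]
      exact he
    obtain ⟨e', he'⟩ := exists_linearIndependent_cons_of_lt_finrank he
      (by rw [Module.finrank_fintype_fun_eq_card]; decide)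
    have hli : ∀ x y z : ℂ, x • e' + y • v + z • e = 0 → x = 0 ∧ y = 0 ∧ z = 0 := by
      intro x y z h
      have := Fintype.linearIndependent_iff.1 he' ![x, y, z] (by
        rw [Fin.sum_univ_three]; exact h)
      exact ⟨this 0, this 1, this 2⟩
    by_cases hA : D3 f v e e = 0
    · refine ⟨e, hA, ?_⟩
      rintro ⟨k, hk⟩
      have := hli 0 (-k) 1 (by rw [hk]; simp)
      exact one_ne_zero this.2.2
    · -- a root of `A x² + 2 B x + C`
      obtain ⟨r, hr⟩ := IsAlgClosed.exists_pow_nat_eq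
        ((D3 f v e e' ) ^ 2 - D3 f v e e * D3 f v e' e') (n := 2) (by norm_num)
      set x := (-(D3 f v e e') + r) / D3 f v e e with hx
      refine ⟨x • e + e', ?_, ?_⟩
      · have h1 : D3 f v (x • e + e') (x • e + e') =
            x ^ 2 * D3 f v e e + 2 * x * D3 f v e e' + D3 f v e' e' := by
          rw [D3_add2 hf, D3_add3 hf, D3_add3 hf, D3_smul2 hf, D3_smul2 hf, D3_smul3 hf,
            D3_smul3 hf, s v e' e]
          ring
        rw [h1, hx]
        field_simp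
        linear_combination hr
      · rintro ⟨k, hk⟩
        have := hli 1 (-k) x (by
          have : (1 : ℂ) • e' + (-k) • v + x • e = (x • e + e') - k • v := by
            simp only [one_smul, neg_smul]; abel
          rw [this, hk, sub_self])
        exact one_ne_zero this.1
  -- a partner
  obtain ⟨w', hw'⟩ : ∃ w', D3 f v u w' ≠ 0 := by
    by_contra h
    push Not at h
    exact hu (hk u h)
  set β := D3 f v u w' with hβ
  set w1 : E3 := w' - (D3 f v w' w' / (2 * β)) • u with hw1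
  have hsub : w1 = w' + (-(D3 f v w' w' / (2 * β))) • u := by rw [hw1, neg_smul, sub_eq_add_neg]
  have hw1w1 : D3 f v w1 w1 = 0 := by
    rw [hsub, D3_add2 hf, D3_add3 hf, D3_add3 hf, D3_smul2 hf, D3_smul2 hf, D3_smul3 hf,
      D3_smul3 hf, s v w' u, huu, ← hβ]
    field_simp
    ring
  have hvuw1 : D3 f v u w1 = β := by
    rw [hsub, D3_add3 hf, D3_smul3 hf, huu, ← hβ]; ring
  set w2 : E3 := β⁻¹ • w1 with hw2
  have hvuw2 : D3 f v u w2 = 1 := by
    rw [hw2, D3_smul3 hf, hvuw1, inv_mul_cancel₀ hw']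
  have hw2w2 : D3 f v w2 w2 = 0 := by
    rw [hw2, D3_smul2 hf, D3_smul3 hf, hw1w1]; ring
  -- the correction by `v`
  set u3 : E3 := u + (-(D3 f u u w2 / 2)) • v with hu3
  set w3 : E3 := w2 + (-(D3 f u w2 w2 / 2)) • v with hw3
  have v2 : ∀ x, D3 f v x v = 0 := fun x => by rw [s v x v, hvv]
  have v3 : ∀ x, D3 f x v v = 0 := fun x => by rw [c x v v, v2]
  have a2 : D3 f u v u = 0 := by rw [c u v u, huu]
  have a3 : D3 f u u v = 0 := by rw [s u u v, a2]
  have b2 : D3 f w2 v w2 = 0 := by rw [c w2 v w2, hw2w2]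
  have b3 : D3 f w2 w2 v = 0 := by rw [s w2 w2 v, b2]
  have c3 : D3 f u v w2 = 1 := by rw [c u v w2, hvuw2]
  have c4 : D3 f u w2 v = 1 := by rw [s u w2 v, c3]
  refine ⟨v, u3, w3, D3 f u3 u3 u3 / 6, D3 f w3 w3 w3 / 6, hvv, ?_, ?_, ?_, ?_, ?_, by ring,
    by ring, ?_⟩
  · simp only [hu3, D3_add2 hf, D3_add3 hf, D3_smul2 hf, D3_smul3 hf, hvv, v2, huu]; ring
  · simp only [hw3, D3_add2 hf, D3_add3 hf, D3_smul2 hf, D3_smul3 hf, hvv, v2, hw2w2]; ring
  · simp only [hu3, hw3, D3_add2 hf, D3_add3 hf, D3_smul2 hf, D3_smul3 hf, hvv, v2, hvuw2]; ring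
  · simp only [hu3, hw3, D3_add, D3_smul, D3_add2 hf, D3_add3 hf, D3_smul2 hf, D3_smul3 hf, hvv,
      v2, v3, a3, hvuw2, c3]
    ring
  · simp only [hu3, hw3, D3_add, D3_smul, D3_add2 hf, D3_add3 hf, D3_smul2 hf, D3_smul3 hf, hvv,
      v2, v3, hw2w2, c3, c4]
    ring
  · -- linear independence
    intro hdet
    obtain ⟨X, hX0, hX⟩ := Matrix.exists_mulVec_eq_zero_iff.2 hdet
    rw [P3_mulVec] at hX
    have e1 : D3 f v (cmb v u3 w3 X) u3 = 0 := by
      rw [hX]
      have := D3_smul2 hf (0 : ℂ) (0 : E3) v u3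
      simpa using this
    have e2 : D3 f v (cmb v u3 w3 X) w3 = 0 := by
      rw [hX]
      have := D3_smul2 hf (0 : ℂ) (0 : E3) v w3
      simpa using this
    have c2 : D3 f v w2 u = 1 := by rw [s v w2 u, hvuw2]
    have f1 : D3 f v (cmb v u3 w3 X) u3 = X 2 := by
      simp only [cmb, hu3, hw3, D3_add2 hf, D3_add3 hf, D3_smul2 hf, D3_smul3 hf, hvv, v2, huu, c2]
      ring
    have f2 : D3 f v (cmb v u3 w3 X) w3 = X 1 := by
      simp only [cmb, hu3, hw3, D3_add2 hf, D3_add3 hf, D3_smul2 hf, D3_smul3 hf, hvv, v2, hw2w2,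
        hvuw2]
      ring
    rw [f1] at e1
    rw [f2] at e2
    have e0 : X 0 = 0 := by
      unfold cmb at hX
      rw [e1, e2, zero_smul, zero_smul, add_zero, add_zero] at hX
      exact (smul_eq_zero.1 hX).resolve_right hv
    exact hX0 (funext fun i => by fin_cases i <;> assumption)

end

end Crest.Agent.R257.Ev4_838
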