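import Crest.Agent.R257.Ev4_838

/-!
# R257 (S0395), leaf LCX3 (helper838), part 5: `NodalStmt` of LcxDefs_759
-/

set_option autoImplicit false
set_option linter.unusedSectionVars false

open Set Filter Topology Complex
open scoped ContDiff

namespace Crest.Agent.R257.Ev5_838

open Defs_219 LCDefs_472 Node_547 LcN_980 LCc_472 Ev1_838 EVa_929 LcxDefs_759 Ev3_838 Ev4_838
open Crest.AlgGeometry.Germ

noncomputable section

variable {f : E3 → ℂ} {v u w : E3} {a b : ℂ}

/-- the linear map with given columns -/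
theorem exA (b0 b1 b2 : E3) (h : (P3 b0 b1 b2).det ≠ 0) : ∃ A : E3 ≃L[ℂ] E3,
    (∀ X, A X = cmb b0 b1 b2 X) ∧ Ev3_838.mt A = P3 b0 b1 b2 := by
  have hinj : Function.Injective (P3 b0 b1 b2).mulVec :=
    Matrix.mulVec_injective_iff_isUnit.2 ((Matrix.isUnit_iff_isUnit_det _).2 h.isUnit)
  set L : E3 →L[ℂ] E3 := LinearMap.toContinuousLinearMap (Matrix.toLin' (P3 b0 b1 b2)) with hL
  have hLi : Function.Injective L := hinj
  have hA : ∀ X, LCa_472.eqv L hLi X = cmb b0 b1 b2 X := by
    intro X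
    have h1 : LCa_472.eqv L hLi X = L X := by
      have := LCa_472.eqv_coe L hLi
      exact congrArg (fun T : E3 →L[ℂ] E3 => T X) this
    rw [h1, ← P3_mulVec]
    rfl
  refine ⟨LCa_472.eqv L hLi, hA, ?_⟩
  ext i j
  simp only [Ev3_838.mt, Matrix.of_apply, hA]
  rw [← P3_mulVec, Matrix.mulVec_single_one]
  rfl

theorem D3_lin' (hf : AnalyticAt ℂ f 0) (A : E3 ≃L[ℂ] E3) (X Y Z : E3) :
    D3 (fun x => f (A x)) X Y Z = D3 f (A X) (A Y) (A Z) := by
  have e : ∀ X : E3, A X = X 0 • A (Pi.single 0 1) + X 1 • A (Pi.single 1 1) +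
      X 2 • A (Pi.single 2 1) := by
    intro X
    rw [← map_smul, ← map_smul, ← map_smul, ← map_add, ← map_add]
    congr 1
    ext i
    fin_cases i <;> simp
  have hT : D3 (fun x => f (A x)) X Y Z = ∑ i, ∑ j, ∑ k,
      D3 f (A (Pi.single i 1)) (A (Pi.single j 1)) (A (Pi.single k 1)) * X i * Y j * Z k := by
    unfold D3
    simp only [H3_lin hf]
    rfl
  rw [hT, e X, e Y, e Z]
  simp only [D3_add, D3_add2 hf, D3_add3 hf, D3_smul, D3_smul2 hf, D3_smul3 hf,
    Fin.sum_univ_three]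
  ring

theorem pq_D3 (f : E3 → ℂ) (i : Fin 3) (U : E3) : pq f i U = (1 / 2) * D3 f (Pi.single i 1) U U := by
  rw [D3_single]
  rfl

theorem lq_D3 (f : E3 → ℂ) (i j : Fin 3) (U : E3) :
    lq f i j U = D3 f (Pi.single i 1) (Pi.single j 1) U := by
  rw [D3_single]
  unfold lq
  symm
  rw [Finset.sum_eq_single j]
  · simp
  · intro k _ hk
    simp [Pi.single_eq_of_ne hk]
  · simp

/-- explicit formulas in the coordinates `b_0 = v`, `b_1 = u - c_1 v`, `b_2 = w - c_2 v` -/
theorem core (h : Bs f v u w a b) (hf : AnalyticAt ℂ f 0) (c1 c2 : ℂ) : ∃ A : E3 ≃L[ℂ] E3,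
    (Ev3_838.mt A).det = (P3 v u w).det ∧
    (∀ U : E3, pq (fun x => f (A x)) 1 U =
      -c1 * U 1 * U 2 + (U 0 - c1 * U 1 - c2 * U 2) * U 2 + 3 * a * U 1 ^ 2) ∧
    (∀ U : E3, pq (fun x => f (A x)) 2 U =
      -c2 * U 1 * U 2 + (U 0 - c1 * U 1 - c2 * U 2) * U 1 + 3 * b * U 2 ^ 2) ∧
    (∀ U : E3, dl (fun x => f (A x)) U = (-2 * c1 * U 2 + 6 * a * U 1) *
      (-2 * c2 * U 1 + 6 * b * U 2) - (U 0 - 2 * c1 * U 1 - 2 * c2 * U 2) ^ 2) ∧
    (∀ U : E3, D3 (fun x => f (A x)) U U U =
      6 * ((U 0 - c1 * U 1 - c2 * U 2) * U 1 * U 2 + a * U 1 ^ 3 + b * U 2 ^ 3)) := by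
  have hdet : (P3 v (u + (-c1) • v) (w + (-c2) • v)).det = (P3 v u w).det := by
    simp only [P3, Matrix.det_fin_three, Matrix.of_apply, Matrix.cons_val_zero,
      Matrix.cons_val_one, Matrix.cons_val, Pi.add_apply, Pi.smul_apply, smul_eq_mul]
    ring
  obtain ⟨A, hA, hm⟩ := exA v (u + (-c1) • v) (w + (-c2) • v) (by rw [hdet]; exact h.det)
  have hA' : ∀ X, A X = cmb v u w ![X 0 - c1 * X 1 - c2 * X 2, X 1, X 2] := by
    intro X
    rw [hA]
    unfold cmb
    ext i
    simp only [Pi.add_apply, Pi.smul_apply, smul_eq_mul, Matrix.cons_val_zero,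
      Matrix.cons_val_one, Matrix.cons_val]
    ring
  have key : ∀ X Y Z, D3 (fun x => f (A x)) X Y Z = _ := fun X Y Z => by
    rw [D3_lin' hf, hA', hA', hA', h.tri hf]
  refine ⟨A, by rw [hm, hdet], ?_, ?_, ?_, ?_⟩
  · intro U
    rw [pq_D3, key]
    simp
    ring
  · intro U
    rw [pq_D3, key]
    simp
    ring
  · intro U
    unfold dl
    rw [lq_D3, lq_D3, lq_D3, key, key, key]
    simp
    ring
  · intro U
    rw [key]
    simp
    ring

theorem vec1 (w : ℂ × ℂ) : vec w 1 = w.1 := rfl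

theorem vec2 (w : ℂ × ℂ) : vec w 2 = w.2 := rfl

theorem eq_vec {U : E3} {w : ℂ × ℂ} (h1 : U 1 = U 0 * w.1) (h2 : U 2 = U 0 * w.2) :
    U = U 0 • vec w := by
  ext i
  fin_cases i
  · simp [vec]
  · simpa [vec] using h1
  · simpa [vec] using h2

theorem real_bound {S : ℂ} {x C d : ℝ} (hS : S = ((x : ℝ) : ℂ)) (hx : 1 / 12 ≤ x)
    (hb : ‖S‖ ≤ C / d ^ 2) : 1 / 12 ≤ C / d ^ 2 := by
  rw [hS, Complex.norm_real, Real.norm_eq_abs] at hb
  exact (hx.trans (le_abs_self x)).trans hb

theorem inv_le4 {p : ℕ} (h : 4 ≤ p) : (1 : ℝ) / p ≤ 1 / 4 := by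
  have h1 : (4 : ℝ) ≤ p := by exact_mod_cast h
  exact one_div_le_one_div_of_le (by norm_num) h1

/-- three nodes -/
theorem case1 (h : Bs f v u w 0 0) {r C : ℝ} (hG : Good f r C) (h2 : ∀ i j, H2 f i j = 0) :
    1 / 12 ≤ C / ‖(P3 v u w).det‖ ^ 2 := by
  have hf : AnalyticAt ℂ f 0 := hG.an 0 (by simpa using hG.r_pos.le)
  obtain ⟨A, hdet, hp1, hp2, hdl, hD⟩ := core h hf 1 1
  have key := evalA hG h2 A (ι := Fin 4) ![(0, 0), (1, 0), (0, 1), (1 / 3, 1 / 3)] ?_ ?_ ?_ ?_ ?_
  · obtain ⟨p, h3, h4, hb⟩ := key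
    simp only [hD, vec_zero, vec1, vec2] at h3 h4
    simp only [Fin.sum_univ_four, hdl, vec_zero, vec1, vec2, hdet] at hb
    have e0 := h4 0 (by simp)
    have e1 := h4 1 (by simp)
    have e2 := h4 2 (by simp)
    have e3 := h3 3 (by simp; norm_num)
    simp only [Matrix.cons_val_zero, Matrix.cons_val_one, Matrix.cons_val] at hb
    rw [e3] at hb
    refine real_bound (x := 1 - 1 / p 0 - 1 / p 1 - 1 / p 2) ?_ ?_ hb
    · have p0 : (p 0 : ℂ) ≠ 0 := by exact_mod_cast (by omega : p 0 ≠ 0)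
      have p1 : (p 1 : ℂ) ≠ 0 := by exact_mod_cast (by omega : p 1 ≠ 0)
      have p2 : (p 2 : ℂ) ≠ 0 := by exact_mod_cast (by omega : p 2 ≠ 0)
      push_cast
      field_simp
      ring
    · have := inv_le4 e0
      have := inv_le4 e1
      have := inv_le4 e2
      linarith
  · intro i j hij
    fin_cases i <;> fin_cases j <;> simp at hij ⊢
  · intro i
    rw [hp1]
    fin_cases i <;> simp [vec]
    ring
  · intro i
    rw [hp2]
    fin_cases i <;> simp [vec]
    ring
  · intro i
    rw [hdl]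
    fin_cases i <;> simp [vec]
    all_goals norm_num
  · intro U hU h5 h6
    rw [hp1] at h5
    rw [hp2] at h6
    have k1 : U 2 * (U 0 - 2 * U 1 - U 2) = 0 := by linear_combination h5
    have k2 : U 1 * (U 0 - U 1 - 2 * U 2) = 0 := by linear_combination h6
    rcases mul_eq_zero.1 k1 with k1 | k1
    · rcases mul_eq_zero.1 k2 with k2 | k2
      · exact ⟨0, eq_vec (by simpa using k2) (by simpa using k1)⟩
      · exact ⟨1, eq_vec (by simp; linear_combination -k2 - 2 * k1) (by simpa using k1)⟩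
    · rcases mul_eq_zero.1 k2 with k2 | k2
      · exact ⟨2, eq_vec (by simpa using k2) (by simp; linear_combination -k1 - 2 * k2)⟩
      · exact ⟨3, eq_vec (by simp; linear_combination (-2 / 3) * k1 + (1 / 3) * k2)
          (by simp; linear_combination (1 / 3) * k1 - (2 / 3) * k2)⟩

/-- two nodes -/
theorem case2 (h : Bs f v u w 1 0) {r C : ℝ} (hG : Good f r C) (h2 : ∀ i j, H2 f i j = 0) :
    1 / 12 ≤ C / ‖(P3 v u w).det‖ ^ 2 := by
  have hf : AnalyticAt ℂ f 0 := hG.an 0 (by simpa using hG.r_pos.le)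
  obtain ⟨s, hs⟩ := IsAlgClosed.exists_pow_nat_eq (-1 / 12 : ℂ) (n := 2) (by norm_num)
  have hs0 : s ≠ 0 := by
    rintro rfl
    norm_num at hs
  obtain ⟨A, hdet, hp1, hp2, hdl, hD⟩ := core h hf 0 1
  have key := evalA hG h2 A (ι := Fin 4) ![(0, 0), (0, 1), (s, 1 / 2), (-s, 1 / 2)] ?_ ?_ ?_ ?_ ?_
  · obtain ⟨p, h3, h4, hb⟩ := key
    simp only [hD, vec_zero, vec1, vec2] at h3 h4
    simp only [Fin.sum_univ_four, hdl, vec_zero, vec1, vec2, hdet] at hb
    have e0 := h4 0 (by simp)
    have e1 := h4 1 (by simp)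
    have hne : (1 - 1 / 2 : ℂ) * s * (1 / 2) + s ^ 3 ≠ 0 := by
      have : (1 - 1 / 2 : ℂ) * s * (1 / 2) + s ^ 3 = s * (1 / 6) := by
        linear_combination s * hs
      rw [this]
      exact mul_ne_zero hs0 (by norm_num)
    have e2 := h3 2 (by
      simp only [Matrix.cons_val]
      intro h0
      refine hne ?_
      linear_combination (1 / 6) * h0)
    have e3 := h3 3 (by
      simp only [Matrix.cons_val]
      intro h0
      refine hne ?_
      linear_combination (-1 / 6) * h0)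
    simp only [Matrix.cons_val_zero, Matrix.cons_val_one, Matrix.cons_val] at hb
    rw [e2, e3] at hb
    refine real_bound (x := 2 / 3 - 1 / p 0 - 1 / p 1) ?_ ?_ hb
    · have p0 : (p 0 : ℂ) ≠ 0 := by exact_mod_cast (by omega : p 0 ≠ 0)
      have p1 : (p 1 : ℂ) ≠ 0 := by exact_mod_cast (by omega : p 1 ≠ 0)
      have d2 : (-2 * 0 * (1 / 2) + 6 * 1 * s) * (-2 * 1 * s + 6 * 0 * (1 / 2)) -
          (1 - 2 * 0 * s - 2 * 1 * (1 / 2)) ^ 2 = (1 : ℂ) := by
        linear_combination (-12) * hs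
      have d3 : (-2 * 0 * (1 / 2) + 6 * 1 * -s) * (-2 * 1 * -s + 6 * 0 * (1 / 2)) -
          (1 - 2 * 0 * -s - 2 * 1 * (1 / 2)) ^ 2 = (1 : ℂ) := by
        linear_combination (-12) * hs
      rw [d2, d3]
      push_cast
      field_simp
      ring
    · have := inv_le4 e0
      have := inv_le4 e1
      linarith
  · intro i j hij
    have hss : s ≠ -s := fun h => hs0 (by
      have : (2 : ℂ) * s = 0 := by linear_combination h
      simpa using this)
    have h1 := congrArg Prod.fst hij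
    have h2 := congrArg Prod.snd hij
    fin_cases i <;> fin_cases j <;> first
      | rfl
      | (exfalso; simp only [Fin.zero_eta, Fin.mk_one, Fin.reduceFinMk, Matrix.cons_val_zero,
          Matrix.cons_val_one, Matrix.cons_val] at h1 h2
         first
          | exact hs0 (by linear_combination h1)
          | exact hs0 (by linear_combination -h1)
          | exact hss (by linear_combination h1)
          | exact hss (by linear_combination -h1)
          | norm_num at h2)
  · intro i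
    rw [hp1]
    fin_cases i <;> simp [vec]
    · linear_combination 3 * hs
    · linear_combination 3 * hs
  · intro i
    rw [hp2]
    fin_cases i <;> simp [vec]
    · ring
    · ring
  · intro i
    rw [hdl]
    fin_cases i <;> simp [vec]
    · norm_num
    · exact hs0
    · exact hs0
  · intro U hU h5 h6
    rw [hp1] at h5
    rw [hp2] at h6
    have k1 : (U 0 - U 2) * U 2 + 3 * U 1 ^ 2 = 0 := by linear_combination h5
    have k2 : U 1 * (U 0 - 2 * U 2) = 0 := by linear_combination h6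
    rcases mul_eq_zero.1 k2 with k2 | k2
    · rw [k2] at k1
      have k3 : (U 0 - U 2) * U 2 = 0 := by linear_combination k1
      rcases mul_eq_zero.1 k3 with k3 | k3
      · exact ⟨1, eq_vec (by simpa using k2) (by simp; linear_combination -k3)⟩
      · exact ⟨0, eq_vec (by simpa using k2) (by simpa using k3)⟩
    · have k3 : (U 1 - s * U 0) * (U 1 + s * U 0) = 0 := by
        linear_combination (1 / 3) * k1 + (1 / 12) * (U 0 - 2 * U 2) * k2 - U 0 ^ 2 * hs
      rcases mul_eq_zero.1 k3 with k3 | k3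
      · exact ⟨2, eq_vec (by simp; linear_combination k3) (by simp; linear_combination (-1 / 2) * k2)⟩
      · exact ⟨3, eq_vec (by simp; linear_combination k3) (by simp; linear_combination (-1 / 2) * k2)⟩

/-- one node -/
theorem case3 (h : Bs f v u w 1 1) {r C : ℝ} (hG : Good f r C) (h2 : ∀ i j, H2 f i j = 0) :
    1 / 12 ≤ C / ‖(P3 v u w).det‖ ^ 2 := by
  have hf : AnalyticAt ℂ f 0 := hG.an 0 (by simpa using hG.r_pos.le)
  obtain ⟨om, hom⟩ : ∃ om : ℂ, om ^ 2 + om + 1 = 0 := by
    obtain ⟨s, hs⟩ := IsAlgClosed.exists_pow_nat_eq (-3 / 4 : ℂ) (n := 2) (by norm_num)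
    exact ⟨s - 1 / 2, by linear_combination hs⟩
  have hom3 : om ^ 3 = 1 := by linear_combination (om - 1) * hom
  have hom0 : om ≠ 0 := by
    rintro rfl
    norm_num at hom
  have hom1 : om ≠ 1 := by
    rintro rfl
    norm_num at hom
  have homsq1 : om ^ 2 ≠ 1 := by
    intro h0
    have : om = -2 := by linear_combination hom - h0
    rw [this] at h0
    norm_num at h0
  have homsq : om ^ 2 ≠ om := by
    intro h0
    have : om * (om - 1) = 0 := by linear_combination h0
    rcases mul_eq_zero.1 this with h1 | h1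
    · exact hom0 h1
    · exact hom1 (sub_eq_zero.1 h1)
  obtain ⟨A, hdet, hp1, hp2, hdl, hD⟩ := core h hf 0 0
  have key := evalA hG h2 A (ι := Fin 4) ![(0, 0), (-1 / 3, -1 / 3), (-om / 3, -om ^ 2 / 3),
    (-om ^ 2 / 3, -om / 3)] ?_ ?_ ?_ ?_ ?_
  · obtain ⟨p, h3, h4, hb⟩ := key
    simp only [hD, vec_zero, vec1, vec2] at h3 h4
    simp only [Fin.sum_univ_four, hdl, vec_zero, vec1, vec2, hdet] at hb
    have e0 := h4 0 (by simp)
    have e1 := h3 1 (by simp; norm_num)
    have e2 := h3 2 (by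
      simp only [Matrix.cons_val]
      intro h0
      have : (1 : ℂ) = 0 := by
        linear_combination (27 / 6) * h0 - 3 * hom3 + (1 + (om ^ 3 + 1)) * hom3
      exact one_ne_zero this)
    have e3 := h3 3 (by
      simp only [Matrix.cons_val]
      intro h0
      have : (1 : ℂ) = 0 := by
        linear_combination (27 / 6) * h0 - 3 * hom3 + (1 + (om ^ 3 + 1)) * hom3
      exact one_ne_zero this)
    simp only [Matrix.cons_val_zero, Matrix.cons_val_one, Matrix.cons_val] at hb
    rw [e1, e2, e3] at hb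
    refine real_bound (x := 1 / 3 - 1 / p 0) ?_ ?_ hb
    · have p0 : (p 0 : ℂ) ≠ 0 := by exact_mod_cast (by omega : p 0 ≠ 0)
      have d1 : (-2 * 0 * (-1 / 3) + 6 * 1 * (-1 / 3)) * (-2 * 0 * (-1 / 3) + 6 * 1 * (-1 / 3)) -
          (1 - 2 * 0 * (-1 / 3) - 2 * 0 * (-1 / 3)) ^ 2 = (3 : ℂ) := by
        norm_num
      have d2 : (-2 * 0 * (-om ^ 2 / 3) + 6 * 1 * (-om / 3)) *
          (-2 * 0 * (-om / 3) + 6 * 1 * (-om ^ 2 / 3)) -
          (1 - 2 * 0 * (-om / 3) - 2 * 0 * (-om ^ 2 / 3)) ^ 2 = (3 : ℂ) := by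
        linear_combination 4 * hom3
      have d3 : (-2 * 0 * (-om / 3) + 6 * 1 * (-om ^ 2 / 3)) *
          (-2 * 0 * (-om ^ 2 / 3) + 6 * 1 * (-om / 3)) -
          (1 - 2 * 0 * (-om ^ 2 / 3) - 2 * 0 * (-om / 3)) ^ 2 = (3 : ℂ) := by
        linear_combination 4 * hom3
      rw [d1, d2, d3]
      push_cast
      field_simp
      ring
    · have := inv_le4 e0
      linarith
  · intro i j hij
    have h1 := congrArg Prod.fst hij
    fin_cases i <;> fin_cases j <;> first
      | rfl
      | (exfalso; simp only [Fin.zero_eta, Fin.mk_one, Fin.reduceFinMk, Matrix.cons_val_zero,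
          Matrix.cons_val_one, Matrix.cons_val] at h1
         first
          | exact hom0 (by linear_combination 3 * h1)
          | exact hom0 (by linear_combination (-3) * h1)
          | exact hom1 (by linear_combination 3 * h1)
          | exact hom1 (by linear_combination (-3) * h1)
          | exact homsq (by linear_combination 3 * h1)
          | exact homsq (by linear_combination (-3) * h1)
          | exact homsq1 (by linear_combination 3 * h1)
          | exact homsq1 (by linear_combination (-3) * h1)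
          | exact hom0 ((pow_eq_zero_iff two_ne_zero).1 (by linear_combination 3 * h1))
          | exact hom0 ((pow_eq_zero_iff two_ne_zero).1 (by linear_combination (-3) * h1))
          | norm_num at h1)
  · intro i
    rw [hp1]
    fin_cases i <;> simp [vec]
    · norm_num
    · ring
    · linear_combination (1 / 3) * om * hom3
  · intro i
    rw [hp2]
    fin_cases i <;> simp [vec]
    · norm_num
    · linear_combination (1 / 3) * om * hom3
    · ring
  · intro i
    rw [hdl]
    fin_cases i <;> simp [vec]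
    · norm_num
    · intro h0
      have : (3 : ℂ) = 0 := by linear_combination h0 - 4 * hom3
      norm_num at this
    · intro h0
      have : (3 : ℂ) = 0 := by linear_combination h0 - 4 * hom3
      norm_num at this
  · intro U hU h5 h6
    rw [hp1] at h5
    rw [hp2] at h6
    have k1 : U 0 * U 2 + 3 * U 1 ^ 2 = 0 := by linear_combination h5
    have k2 : U 0 * U 1 + 3 * U 2 ^ 2 = 0 := by linear_combination h6
    by_cases hU0 : U 0 = 0
    · exfalso
      rw [hU0] at k1 k2
      have e1 : U 1 = 0 := by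
        have : U 1 ^ 2 = 0 := by linear_combination (1 / 3) * k1
        exact pow_eq_zero_iff (two_ne_zero) |>.1 this
      have e2 : U 2 = 0 := by
        have : U 2 ^ 2 = 0 := by linear_combination (1 / 3) * k2
        exact pow_eq_zero_iff (two_ne_zero) |>.1 this
      exact hU (funext fun i => by fin_cases i <;> assumption)
    · -- `y = U 1 / U 0`, `z = U 2 / U 0`
      obtain ⟨y, hy⟩ : ∃ y, U 1 = U 0 * y := ⟨U 1 / U 0, by field_simp⟩
      obtain ⟨z, hz⟩ : ∃ z, U 2 = U 0 * z := ⟨U 2 / U 0, by field_simp⟩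
      have hsq : U 0 ^ 2 ≠ 0 := pow_ne_zero 2 hU0
      have m1 : z + 3 * y ^ 2 = 0 := by
        have : U 0 ^ 2 * (z + 3 * y ^ 2) = 0 := by rw [hy, hz] at k1; linear_combination k1
        exact (mul_eq_zero.1 this).resolve_left hsq
      have m2 : y + 3 * z ^ 2 = 0 := by
        have : U 0 ^ 2 * (y + 3 * z ^ 2) = 0 := by rw [hy, hz] at k2; linear_combination k2
        exact (mul_eq_zero.1 this).resolve_left hsq
      have mz : z = -3 * y ^ 2 := by linear_combination m1
      have m3 : y * (1 + 27 * y ^ 3) = 0 := by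
        rw [mz] at m2
        linear_combination m2
      rcases mul_eq_zero.1 m3 with m4 | m4
      · refine ⟨0, eq_vec (by simp [hy, m4]) (by simp [hz, mz, m4])⟩
      · have m5 : (3 * y + 1) * ((3 * y + om) * (3 * y + om ^ 2)) = 0 := by
          linear_combination m4 + (3 * y + 9 * y ^ 2) * hom + (1 + 3 * y) * hom3
        rcases mul_eq_zero.1 m5 with m6 | m6
        · have hy' : y = -1 / 3 := by linear_combination (1 / 3) * m6
          refine ⟨1, eq_vec (by simp [hy, hy']) (by simp [hz, mz, hy']; ring)⟩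
        · rcases mul_eq_zero.1 m6 with m6 | m6
          · have hy' : y = -om / 3 := by linear_combination (1 / 3) * m6
            refine ⟨2, eq_vec (by simp [hy, hy']) (by simp [hz, mz, hy']; ring)⟩
          · have hy' : y = -om ^ 2 / 3 := by linear_combination (1 / 3) * m6
            refine ⟨3, eq_vec (by simp [hy, hy']) (by
              simp [hz, mz, hy']; linear_combination (-(U 0) * om / 3) * hom3)⟩

/-- adapted basis with determinant bounded above -/
theorem nodal_bs {r C : ℝ} (hG : Good f r C) (h2 : ∀ i j, H2 f i j = 0) (hN : Nodal f)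
    (hv : ∃ v : E3, v ≠ 0 ∧ ∀ w, D3 f v v w = 0) :
    ∃ v u w a b, Bs f v u w a b ∧ 1 / 12 ≤ C / ‖(P3 v u w).det‖ ^ 2 := by
  obtain ⟨v, hv, hvv⟩ := hv
  have hf : AnalyticAt ℂ f 0 := hG.an 0 (by simpa using hG.r_pos.le)
  obtain ⟨v0, u0, w0, a0, b0, h0⟩ := exists_bs hf hv hvv (fun y hy => hN v y hv hvv hy)
  obtain ⟨v, u, w, a, b, h, hab, -⟩ := h0.norm hf
  refine ⟨v, u, w, a, b, h, ?_⟩
  rcases hab with ⟨rfl, rfl⟩ | ⟨rfl, rfl⟩ | ⟨rfl, rfl⟩
  · exact case1 h hG h2
  · exact case2 h hG h2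
  · exact case3 h hG h2

/-- **`NodalStmt`** -/
theorem nodalStmt : NodalStmt := by
  refine ⟨12, by norm_num, fun f r C hG h2 hN hv => ?_⟩
  have hf : AnalyticAt ℂ f 0 := hG.an 0 (by simpa using hG.r_pos.le)
  obtain ⟨v, u, w, a, b, h, hb⟩ := nodal_bs hG h2 hN hv
  have hd : 0 < ‖(P3 v u w).det‖ := norm_pos_iff.2 h.det
  refine ⟨(P3 v u w)⁻¹, a, b, ?_, ?_⟩
  · intro x
    have hx : cmb v u w ((P3 v u w)⁻¹.mulVec x) = x := by
      rw [← P3_mulVec, Matrix.mulVec_mulVec, Matrix.mul_nonsing_inv _ h.det.isUnit,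
        Matrix.one_mulVec]
    conv_lhs => rw [← hx]
    rw [h.tri hf]
    unfold nrm
    ring
  · rw [Matrix.det_nonsing_inv, Ring.inverse_eq_inv', norm_inv, inv_pow]
    have e : C / ‖(P3 v u w).det‖ ^ 2 = C * (‖(P3 v u w).det‖ ^ 2)⁻¹ := div_eq_mul_inv _ _
    rw [e] at hb
    linarith

end

end Crest.Agent.R257.Ev5_838
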