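import Crest.Agent.R257.Ev5_838
import Crest.Agent.R257.RtD_838

/-!
# R257 (S0395), leaf LCX3 (helper838), part 6: a limit of nodal cubics with bounded adapted bases is
nodal; the family is uniformly `Good`
-/

set_option autoImplicit false
set_option linter.unusedSectionVars false

open Set Filter Topology Complex
open scoped ContDiff

namespace Crest.Agent.R257.Ev6_838

open Defs_219 LCDefs_472 Node_547 LcN_980 LCc_472 Ev1_838 LcxDefs_759 Ev4_838 Ev5_838
open EVa_929 (TB)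
open Crest.AlgGeometry.Germ

noncomputable section

variable {f : E3 → ℂ} {v u w : E3} {a b : ℂ}

/-- the cubic form `x y z + a y³ + b z³` is nodal -/
theorem nodal_of_bs (h : Bs f v u w a b) (hf : AnalyticAt ℂ f 0) : Nodal f := by
  intro p q hp hpp hpq
  have hP : ∀ x : E3, ∃ X, cmb v u w X = x := by
    intro x
    refine ⟨(P3 v u w)⁻¹.mulVec x, ?_⟩
    rw [← P3_mulVec, Matrix.mulVec_mulVec, Matrix.mul_nonsing_inv _ h.det.isUnit,
      Matrix.one_mulVec]
  obtain ⟨X, rfl⟩ := hP p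
  obtain ⟨Y, rfl⟩ := hP q
  have k : ∀ Z : E3, D3 f (cmb v u w X) (cmb v u w X) (cmb v u w Z) = 0 := fun Z => hpp _
  have l : ∀ Z : E3, D3 f (cmb v u w X) (cmb v u w Y) (cmb v u w Z) = 0 := fun Z => hpq _
  have k0 := k ![1, 0, 0]
  have k1 := k ![0, 1, 0]
  have k2 := k ![0, 0, 1]
  have l0 := l ![1, 0, 0]
  have l1 := l ![0, 1, 0]
  have l2 := l ![0, 0, 1]
  rw [h.tri hf] at k0 k1 k2 l0 l1 l2
  simp at k0 k1 k2 l0 l1 l2
  suffices hs : ∃ c : ℂ, Y = c • X by
    obtain ⟨c, hc⟩ := hs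
    refine ⟨c, ?_⟩
    rw [hc]
    unfold cmb
    simp only [Pi.smul_apply, smul_eq_mul, smul_add, smul_smul]
  by_cases h1 : X 1 = 0
  · by_cases h2 : X 2 = 0
    · have h0 : X 0 ≠ 0 := by
        intro h0
        apply hp
        unfold cmb
        rw [h0, h1, h2]
        simp
      have y2 : Y 2 = 0 := by
        have : X 0 * Y 2 = 0 := by rw [h1, h2] at l1; linear_combination l1
        exact (mul_eq_zero.1 this).resolve_left h0
      have y1 : Y 1 = 0 := by
        have : X 0 * Y 1 = 0 := by rw [h1, h2] at l2; linear_combination l2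
        exact (mul_eq_zero.1 this).resolve_left h0
      refine ⟨Y 0 / X 0, ?_⟩
      ext i
      fin_cases i
      · simp; field_simp
      · simp [h1, y1]
      · simp [h2, y2]
    · have x0 : X 0 = 0 := by
        have : X 0 * X 2 = 0 := by rw [h1] at k1; linear_combination (1 / 2) * k1
        exact (mul_eq_zero.1 this).resolve_right h2
      have y1 : Y 1 = 0 := by
        have : X 2 * Y 1 = 0 := by rw [h1] at l0; linear_combination l0
        exact (mul_eq_zero.1 this).resolve_left h2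
      have y0 : Y 0 = 0 := by
        have : X 2 * Y 0 = 0 := by rw [h1, x0] at l1; linear_combination l1
        exact (mul_eq_zero.1 this).resolve_left h2
      refine ⟨Y 2 / X 2, ?_⟩
      ext i
      fin_cases i
      · simp [x0, y0]
      · simp [h1, y1]
      · simp; field_simp
  · have x2 : X 2 = 0 := by
      have : X 1 * X 2 = 0 := by linear_combination (1 / 2) * k0
      exact (mul_eq_zero.1 this).resolve_left h1
    have x0 : X 0 = 0 := by
      have : X 0 * X 1 = 0 := by rw [x2] at k2; linear_combination (1 / 2) * k2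
      exact (mul_eq_zero.1 this).resolve_right h1
    have y2 : Y 2 = 0 := by
      have : X 1 * Y 2 = 0 := by rw [x2] at l0; linear_combination l0
      exact (mul_eq_zero.1 this).resolve_left h1
    have y0 : Y 0 = 0 := by
      have : X 1 * Y 0 = 0 := by rw [x2, x0] at l2; linear_combination l2
      exact (mul_eq_zero.1 this).resolve_left h1
    refine ⟨Y 1 / X 1, ?_⟩
    ext i
    fin_cases i
    · simp [x0, y0]
    · simp; field_simp
    · simp [x2, y2]

/-- the matrix of `D3 f x · ·` -/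
def Mx (f : E3 → ℂ) (x : E3) : Matrix (Fin 3) (Fin 3) ℂ :=
  Matrix.of fun i j => D3 f x (Pi.single i 1) (Pi.single j 1)

theorem Mx_conj (hf : AnalyticAt ℂ f 0) (x b0 b1 b2 : E3) :
    (P3 b0 b1 b2).transpose * Mx f x * P3 b0 b1 b2 =
      Matrix.of fun i j => D3 f x ((![b0, b1, b2] : Fin 3 → E3) i) ((![b0, b1, b2] : Fin 3 → E3) j) := by
  have e : ∀ y : E3, y = y 0 • (Pi.single 0 1 : E3) + y 1 • (Pi.single 1 1 : E3) +
      y 2 • (Pi.single 2 1 : E3) := by
    intro y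
    ext i
    fin_cases i <;> simp
  ext i j
  rw [Matrix.of_apply]
  set p := (![b0, b1, b2] : Fin 3 → E3) i with hp
  set q := (![b0, b1, b2] : Fin 3 → E3) j with hq
  have h1 : D3 f x p q = ∑ k, ∑ l, p k * q l * Mx f x k l := by
    conv_lhs => rw [e p, e q]
    simp only [D3_add2 hf, D3_add3 hf, D3_smul2 hf, D3_smul3 hf, Fin.sum_univ_three, Mx,
      Matrix.of_apply]
    ring
  rw [h1, Matrix.mul_apply]
  simp only [Matrix.mul_apply, Matrix.transpose_apply, P3, Matrix.of_apply, Finset.sum_mul]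
  rw [Finset.sum_comm]
  refine Finset.sum_congr rfl fun k _ => Finset.sum_congr rfl fun l _ => ?_
  rw [← hp, ← hq]
  ring

theorem adj_conj (M P : Matrix (Fin 3) (Fin 3) ℂ) :
    P * (P.transpose * M * P).adjugate * P.transpose = P.det ^ 2 • M.adjugate := by
  rw [Matrix.adjugate_mul_distrib, Matrix.adjugate_mul_distrib]
  have h1 : P * P.adjugate = P.det • 1 := Matrix.mul_adjugate P
  have h2 : P.transpose.adjugate * P.transpose = P.det • 1 := by
    rw [Matrix.adjugate_mul, Matrix.det_transpose]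
  calc P * (P.adjugate * (M.adjugate * P.transpose.adjugate)) * P.transpose
      = (P * P.adjugate) * M.adjugate * (P.transpose.adjugate * P.transpose) := by
        simp only [Matrix.mul_assoc]
    _ = _ := by
        rw [h1, h2]
        simp only [Matrix.smul_mul, Matrix.one_mul, Matrix.mul_smul, Matrix.mul_one, smul_smul]
        congr 1
        ring

/-- the adjugate at the node -/
theorem adj_bs (h : Bs f v u w a b) (hf : AnalyticAt ℂ f 0) (i j : Fin 3) :
    (P3 v u w).det ^ 2 * (Mx f v).adjugate i j = -(v i * v j) := by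
  have h1 := adj_conj (Mx f v) (P3 v u w)
  rw [Mx_conj hf] at h1
  have c2 : D3 f v w u = 1 := by rw [D3_swap hf, h.vuw]
  have v2 : ∀ x, D3 f v x v = 0 := fun x => by rw [D3_swap hf v x v, h.vv]
  have h3 : (Matrix.of fun i j => D3 f v ((![v, u, w] : Fin 3 → E3) i)
      ((![v, u, w] : Fin 3 → E3) j)) = !![0, 0, 0; 0, 0, 1; 0, 1, 0] := by
    ext i j
    fin_cases i <;> fin_cases j <;>
      simp [h.vv, v2, h.vuu, h.vww, h.vuw, c2]
  have h4 : (!![0, 0, 0; 0, 0, 1; 0, 1, 0] : Matrix (Fin 3) (Fin 3) ℂ).adjugate =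
      !![-1, 0, 0; 0, 0, 0; 0, 0, 0] := by
    rw [Matrix.adjugate_fin_three]
    ext i j
    fin_cases i <;> fin_cases j <;> simp
  rw [h3, h4] at h1
  have h5 := congrFun (congrFun h1 i) j
  rw [Matrix.smul_apply, smul_eq_mul] at h5
  rw [← h5]
  fin_cases i <;> fin_cases j <;>
    simp [Matrix.mul_apply, Fin.sum_univ_three, P3]

/-- `adj ≠ 0` at a singular point: ordinary node -/
theorem ker_of_adj (hf : AnalyticAt ℂ f 0) {x : E3} (hx : x ≠ 0) (hxx : ∀ w, D3 f x x w = 0)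
    (hadj : (Mx f x).adjugate ≠ 0) (y : E3) (hy : ∀ w, D3 f x y w = 0) : ∃ c : ℂ, y = c • x := by
  by_contra hcon
  have hli : LinearIndependent ℂ ![x, y] := by
    rw [LinearIndependent.pair_iff' hx]
    exact fun c h => hcon ⟨c, h.symm⟩
  obtain ⟨z, hz⟩ := exists_linearIndependent_cons_of_lt_finrank hli
    (by rw [Module.finrank_fintype_fun_eq_card]; decide)
  have hdet : (P3 z x y).det ≠ 0 := by
    intro h0
    obtain ⟨X, hX0, hX⟩ := Matrix.exists_mulVec_eq_zero_iff.2 h0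
    rw [P3_mulVec] at hX
    have := Fintype.linearIndependent_iff.1 hz X (by
      rw [Fin.sum_univ_three]; exact hX)
    exact hX0 (funext this)
  have hxx' : ∀ w, D3 f x w x = 0 := fun w => by rw [D3_swap hf, hxx]
  have hy' : ∀ w, D3 f x w y = 0 := fun w => by rw [D3_swap hf, hy]
  have h1 := adj_conj (Mx f x) (P3 z x y)
  rw [Mx_conj hf] at h1
  have h3 : (Matrix.of fun i j => D3 f x ((![z, x, y] : Fin 3 → E3) i)
      ((![z, x, y] : Fin 3 → E3) j)) = !![D3 f x z z, 0, 0; 0, 0, 0; 0, 0, 0] := by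
    ext i j
    fin_cases i <;> fin_cases j <;> simp [hxx, hxx', hy, hy']
  have h4 : (!![D3 f x z z, 0, 0; 0, 0, 0; 0, 0, 0] : Matrix (Fin 3) (Fin 3) ℂ).adjugate = 0 := by
    rw [Matrix.adjugate_fin_three]
    ext i j
    fin_cases i <;> fin_cases j <;> simp
  rw [h3, h4, Matrix.mul_zero, Matrix.zero_mul] at h1
  exact hadj ((smul_eq_zero.1 h1.symm).resolve_left (pow_ne_zero 2 hdet))

theorem Mx_smul (f : E3 → ℂ) (c : ℂ) (x : E3) : Mx f (c • x) = c • Mx f x := by
  ext i j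
  simp only [Mx, Matrix.of_apply, Matrix.smul_apply, smul_eq_mul, D3_smul]

/-- quantitative form on the unit sphere -/
theorem adj_sphere (h : Bs f v u w a b) (hf : AnalyticAt ℂ f 0) {c : ℝ}
    (hc : c ≤ (‖(P3 v u w).det‖ ^ 2)⁻¹) :
    ∃ x ∈ Metric.sphere (0 : E3) 1, (∀ y, D3 f x x y = 0) ∧
      c ≤ ∑ i, ‖(Mx f x).adjugate i i‖ := by
  have hv : v ≠ 0 := by
    rintro rfl
    have := h.vuw
    have h0 := D3_smul f 0 (0 : E3) u w
    simp at h0
    rw [h0] at this
    exact zero_ne_one this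
  have hn : 0 < ‖v‖ := norm_pos_iff.2 hv
  have hnc : ((‖v‖ : ℝ) : ℂ) ≠ 0 := by exact_mod_cast hn.ne'
  obtain ⟨i, hi⟩ : ∃ i, ‖v i‖ = ‖v‖ := by
    obtain ⟨i, -, hi⟩ := Finset.exists_mem_eq_sup' (Finset.univ_nonempty (α := Fin 3))
      (fun i => ‖v i‖₊)
    refine ⟨i, ?_⟩
    have : ‖v‖₊ = ‖v i‖₊ := by
      rw [Pi.nnnorm_def, ← Finset.sup'_eq_sup Finset.univ_nonempty]
      exact hi
    exact (congrArg NNReal.toReal this).symm
  refine ⟨((‖v‖ : ℝ) : ℂ)⁻¹ • v, ?_, ?_, ?_⟩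
  · rw [mem_sphere_zero_iff_norm, norm_smul, norm_inv, Complex.norm_real, norm_norm]
    exact inv_mul_cancel₀ hn.ne'
  · intro y
    rw [D3_smul, D3_smul2 hf, h.vv]; ring
  · have h1 := adj_bs h hf i i
    have h2 : ‖(Mx f v).adjugate i i‖ = ‖v‖ ^ 2 * (‖(P3 v u w).det‖ ^ 2)⁻¹ := by
      have h3 := congrArg norm h1
      rw [norm_mul, norm_neg, norm_mul, norm_pow, hi] at h3
      have hd : 0 < ‖(P3 v u w).det‖ ^ 2 := pow_pos (norm_pos_iff.2 h.det) 2
      rw [← div_eq_mul_inv, eq_div_iff hd.ne']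
      linarith
    have h4 : ‖(Mx f (((‖v‖ : ℝ) : ℂ)⁻¹ • v)).adjugate i i‖ = (‖(P3 v u w).det‖ ^ 2)⁻¹ := by
      rw [Mx_smul, Matrix.adjugate_smul, Matrix.smul_apply, smul_eq_mul, norm_mul, h2,
        Fintype.card_fin, norm_pow, norm_inv, Complex.norm_real, norm_norm]
      norm_num
      field_simp
    refine hc.trans (h4.symm.le.trans ?_)
    exact Finset.single_le_sum (f := fun i => ‖(Mx f (((‖v‖ : ℝ) : ℂ)⁻¹ • v)).adjugate i i‖)
      (fun _ _ => norm_nonneg _) (Finset.mem_univ i)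

/-! ### families -/

theorem an_H3 {F : E3 × ℂ → ℂ} (hF : AnalyticAt ℂ F (0, 0)) (i j k : Fin 3) :
    AnalyticAt ℂ (fun t => H3 (sl F t) i j k) 0 := by
  have h1 := RtD_838.an_coord hF i
  have h2 := RtD_838.an_coord h1 j
  have h3 := RtD_838.an_coord h2 k
  exact AnalyticAt.fun_comp (g := fun p : E3 × ℂ => coordDeriv (sl (fun p : E3 × ℂ =>
    coordDeriv (sl (fun p : E3 × ℂ => coordDeriv (sl F p.2) i p.1) p.2) j p.1) p.2) k p.1)
    (f := fun t : ℂ => ((0 : E3), t)) h3 (analyticAt_const.prod analyticAt_id)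

/-- the family is uniformly good -/
theorem good_fam {F : E3 × ℂ → ℂ} {μ : ℕ} (hF : Fam F μ) : ∃ r > (0 : ℝ), ∃ C : ℝ,
    ∀ᶠ t in 𝓝 (0 : ℂ), Good (sl F t) r C := by
  have hiso : ∀ᶠ x in 𝓝 (0 : E3), (∀ i, coordDeriv (sl F 0) i x = 0) → x = 0 := by
    have ht : Tendsto (fun x : E3 => (x, (0 : ℂ))) (𝓝 0) (𝓝 (0, 0)) :=
      (Continuous.prodMk_left (0 : ℂ)).tendsto' _ _ rfl
    exact ht.eventually hF.iso
  obtain ⟨r0, hr0, hrt⟩ := RtD_838.rt hF.an hF.an hiso
  have hev := hF.an.eventually_analyticAt.and hF.iso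
  obtain ⟨R, hR, hb⟩ := Metric.eventually_nhds_iff_ball.1 hev
  have hb' : ∀ (x : E3) (t : ℂ), ‖x‖ < R → ‖t‖ < R → AnalyticAt ℂ F (x, t) ∧
      ((∀ i, coordDeriv (sl F t) i x = 0) → x = 0) := by
    intro x t hx ht
    refine hb (x, t) ?_
    rw [← Prod.zero_eq_mk, mem_ball_zero_iff, Prod.norm_def]
    exact max_lt hx ht
  set r : ℝ := min r0 R / 2 with hr
  have hrp : 0 < r := by
    have : 0 < min r0 R := lt_min hr0 hR
    positivity
  have hr1 : r < r0 := by
    have h1 : min r0 R ≤ r0 := min_le_left _ _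
    have h2 : 0 < min r0 R := lt_min hr0 hR
    linarith
  have hr2 : r < R := by
    have h1 : min r0 R ≤ R := min_le_right _ _
    have h2 : 0 < min r0 R := lt_min hr0 hR
    linarith
  obtain ⟨δ, hδ, C, hC⟩ := hrt r hrp hr1
  refine ⟨r, hrp, C, ?_⟩
  filter_upwards [hF.zero, hF.crit, Metric.ball_mem_nhds (0 : ℂ) hR,
    Metric.ball_mem_nhds (0 : ℂ) hδ] with t h1 h2 h3 h4
  rw [mem_ball_zero_iff] at h3 h4
  refine ⟨hrp, fun x hx => an_sl (hb' x t (hx.trans_lt hr2) h3).1, h1, h2,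
    fun x hx => (hb' x t (hx.trans_lt hr2) h3).2, δ, hδ, fun y hy hreg Z hZ => ?_⟩
  exact hC t y h4 hy Z hZ fun x hx => hreg x ((hZ x).1 hx).1 ((hZ x).1 hx).2

/-- **limits of nodal cubics with a node** -/
theorem node_case {F : E3 × ℂ → ℂ} {μ : ℕ} (hF : Fam F μ) (hN : ¬ Nodal (sl F 0)) :
    ∀ᶠ t in 𝓝 (0 : ℂ), (∀ i j, H2 (sl F t) i j = 0) → Nodal (sl F t) →
      ∀ v : E3, v ≠ 0 → ∃ w, D3 (sl F t) v v w ≠ 0 := by
  obtain ⟨r, hr, C, hG⟩ := good_fam hF
  have hf0 : AnalyticAt ℂ (sl F 0) 0 := an_sl hF.an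
  by_contra hcon
  have hfr' : ∃ᶠ t in 𝓝 (0 : ℂ), 0 < C ∧ ∃ x ∈ Metric.sphere (0 : E3) 1,
      (∀ y, D3 (sl F t) x x y = 0) ∧ (12 * C)⁻¹ ≤ ∑ i, ‖(Mx (sl F t) x).adjugate i i‖ := by
    have h1 : ∃ᶠ t in 𝓝 (0 : ℂ), ¬ ((∀ i j, H2 (sl F t) i j = 0) → Nodal (sl F t) →
      ∀ v : E3, v ≠ 0 → ∃ w, D3 (sl F t) v v w ≠ 0) := not_eventually.1 hcon
    refine (h1.and_eventually hG).mono ?_
    rintro t ⟨h2, hGt⟩
    push Not at h2
    obtain ⟨h3, h4, v, hv, hvv⟩ := h2
    obtain ⟨v, u, w, a, b, hB, hb⟩ := nodal_bs hGt h3 h4 ⟨v, hv, hvv⟩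
    have hft : AnalyticAt ℂ (sl F t) 0 := hGt.an 0 (by simpa using hr.le)
    have hd : 0 < ‖(P3 v u w).det‖ ^ 2 := pow_pos (norm_pos_iff.2 hB.det) 2
    have h5 : ‖(P3 v u w).det‖ ^ 2 ≤ 12 * C := by
      rw [le_div_iff₀ hd] at hb
      linarith
    exact ⟨by linarith, adj_sphere hB hft (inv_anti₀ hd h5)⟩
  have hC : 0 < C := hfr'.exists.choose_spec.1
  have hfr := hfr'.mono fun t h => h.2
  -- continuity
  have hH : ∀ i j k, ContinuousAt (fun t : ℂ => H3 (sl F t) i j k) 0 := fun i j k =>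
    (an_H3 hF.an i j k).continuousAt
  have hD : ∀ (x : E3) (y : E3), ContinuousAt (fun z : ℂ × E3 => D3 (sl F z.1) z.2 z.2 y) (0, x) := by
    intro x y
    unfold D3
    refine tendsto_finsetSum _ fun i _ => tendsto_finsetSum _ fun j _ =>
      tendsto_finsetSum _ fun k _ => ?_
    have e1 : ContinuousAt (fun z : ℂ × E3 => H3 (sl F z.1) i j k) (0, x) :=
      ContinuousAt.comp (f := fun z : ℂ × E3 => z.1) (x := ((0 : ℂ), x)) (hH i j k)
        continuousAt_fst
    have e2 : ∀ l, ContinuousAt (fun z : ℂ × E3 => z.2 l) (0, x) := fun l =>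
      ((continuous_apply l).comp continuous_snd).continuousAt
    exact ((e1.mul (e2 i)).mul (e2 j)).mul continuousAt_const
  have hMx : ∀ x : E3, ContinuousAt (fun z : ℂ × E3 => Mx (sl F z.1) z.2) (0, x) := by
    intro x
    refine continuousAt_pi.2 fun p => continuousAt_pi.2 fun q => ?_
    show ContinuousAt (fun z : ℂ × E3 => D3 (sl F z.1) z.2 (Pi.single p 1) (Pi.single q 1)) (0, x)
    unfold D3
    refine tendsto_finsetSum _ fun i _ => tendsto_finsetSum _ fun j _ =>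
      tendsto_finsetSum _ fun k _ => ?_
    have e1 : ContinuousAt (fun z : ℂ × E3 => H3 (sl F z.1) i j k) (0, x) :=
      ContinuousAt.comp (f := fun z : ℂ × E3 => z.1) (x := ((0 : ℂ), x)) (hH i j k)
        continuousAt_fst
    have e2 : ∀ l, ContinuousAt (fun z : ℂ × E3 => z.2 l) (0, x) := fun l =>
      ((continuous_apply l).comp continuous_snd).continuousAt
    exact ((e1.mul (e2 i)).mul continuousAt_const).mul continuousAt_const
  have hadj : ∀ x : E3, ContinuousAt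
      (fun z : ℂ × E3 => ∑ i, ‖(Mx (sl F z.1) z.2).adjugate i i‖) (0, x) := by
    intro x
    refine tendsto_finsetSum _ fun i _ => ?_
    have h1 : Continuous fun M : Matrix (Fin 3) (Fin 3) ℂ => ‖M.adjugate i i‖ := by
      have h2 : Continuous fun M : Matrix (Fin 3) (Fin 3) ℂ => M.adjugate :=
        Continuous.matrix_adjugate continuous_id
      exact ((continuous_apply i).comp ((continuous_apply i).comp h2)).norm
    exact (h1.continuousAt).comp (hMx x)
  have hneg : ∀ᶠ t in 𝓝 (0 : ℂ), ∀ x ∈ Metric.sphere (0 : E3) 1,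
      ¬ ((∀ y, D3 (sl F t) x x y = 0) ∧ (12 * C)⁻¹ ≤ ∑ i, ‖(Mx (sl F t) x).adjugate i i‖) := by
    refine (isCompact_sphere (0 : E3) 1).eventually_forall_of_forall_eventually
      (P := fun (t : ℂ) (x : E3) => ¬ ((∀ y, D3 (sl F t) x x y = 0) ∧
        (12 * C)⁻¹ ≤ ∑ i, ‖(Mx (sl F t) x).adjugate i i‖)) fun x hx => ?_
    have hx1 : ‖x‖ = 1 := by simpa using hx
    have hx0 : x ≠ 0 := by
      intro h
      rw [h, norm_zero] at hx1
      exact zero_ne_one hx1
    by_cases h1 : ∀ y, D3 (sl F 0) x x y = 0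
    · by_cases h2 : (Mx (sl F 0) x).adjugate = 0
      · have h3 : ∑ i, ‖(Mx (sl F 0) x).adjugate i i‖ < (12 * C)⁻¹ := by
          rw [h2]
          simp only [Matrix.zero_apply, norm_zero, Finset.sum_const_zero]
          positivity
        filter_upwards [(hadj x).eventually (gt_mem_nhds h3)] with z hz hz2
        exact absurd hz2.2 (not_le.2 hz)
      · exfalso
        obtain ⟨v', u, w, a, b, hB⟩ := exists_bs hf0 hx0 h1 (ker_of_adj hf0 hx0 h1 h2)
        exact hN (nodal_of_bs hB hf0)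
    · push Not at h1
      obtain ⟨y, hy⟩ := h1
      filter_upwards [(hD x y).eventually_ne hy] with z hz hz2
      exact hz (hz2.1 y)
  obtain ⟨t, ⟨x, hx, h1⟩, h2⟩ := (hfr.and_eventually hneg).exists
  exact h2 x hx h1

end

end Crest.Agent.R257.Ev6_838
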