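import Crest.Agent.R257.Exf1_843


/-!
# Row 257, ExN / ExT (helper843): the literal statements at the level of `BPDefs_258`

In the style of `KiD_121.KillBPStmt`; consumed by the frame (`Ex_121.ExN`, `Ex_121.ExT` for
`FrBP_808.FrIn.fr`).
-/

set_option autoImplicit false
set_option linter.unusedSectionVars false

open Polynomial Set Filter Topology Metric
open Crest.AlgGeometry.Germ Crest.Agent.R257.AJ387 Crest.Agent.R257.T387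
open Crest.Agent.R257.Gr1_157 Crest.Agent.R257.BP_258 Crest.Agent.R257.Tb3_941
open Crest.Agent.R257.Rot1_558 Crest.Agent.R257.Exf_843

noncomputable section

namespace Crest.Agent.R257.Exf_843

variable {f : (Fin 3 → ℂ) → ℂ} {T : TB f} {S : Sh T} {U : Tub T}

/-- order `> r` along the component `E`, in all vertex charts -/
def Lov (L : Lab U S) (g : (Fin 3 → ℂ) → ℂ) (E : II U) (r : ℝ) : Prop :=
  ∀ c, Ok S c → IsV c → ∀ j : Fin T.d, L.e1 c j = some E → ∀ z : ℂ, ‖z‖ < S.r c →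
    ∃ (n : ℕ) (H : ℂ × ℂ → ℂ), r < n ∧ AnalyticAt ℂ H (0, z) ∧
      ∀ᶠ p in 𝓝 ((0 : ℂ), z), g (T.th c (S.ζ c j) p) = p.1 ^ n * H p

/-- order exactly `n` along the component `E`, in all vertex charts -/
def Exv (L : Lab U S) (g : (Fin 3 → ℂ) → ℂ) (E : II U) (n : ℕ) : Prop :=
  ∀ c, Ok S c → IsV c → ∀ j : Fin T.d, L.e1 c j = some E → ∀ z : ℂ, ‖z‖ < S.r c →
    ∃ H : ℂ × ℂ → ℂ, AnalyticAt ℂ H (0, z) ∧
      (∀ᶠ p in 𝓝 ((0 : ℂ), z), g (T.th c (S.ζ c j) p) = p.1 ^ n * H p) ∧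
      ∃ᶠ w in 𝓝 z, H (0, w) ≠ 0

/-- **NULL ORBIT** (task C-EXNT), to be consumed by `Ex_121.ExN` with `Th := ThE hG` -/
def ExNBPStmt [Fintype (II U)] (hG : GalPt T) (L : Lab U S) (nu : II U → ℤ) : Prop :=
  ∀ E₀ : II U, ¬ ThE hG E₀ → ∀ (m : II U → ℕ) (y : II U → ℝ), (∀ E, KiD_121.Dv T ∣ m E) →
    (∀ (γ : Ru T) (E : II U), m (piH hG γ E) = m E) →
    (∀ (γ : Ru T) (E : II U), y (piH hG γ E) = y E) →
    dg (Mx L) (fun E => (m E : ℝ)) E₀ = 0 → y E₀ + nu E₀ = m E₀ →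
    (∀ E, (∀ γ, piH hG γ E₀ ≠ E) → y E + nu E < m E) → (∀ E, dg (Mx L) y E < 0) →
    ∃ g : (Fin 3 → ℂ) → ℂ, AnalyticAt ℂ g 0 ∧
      (∀ E, (∀ γ, piH hG γ E₀ ≠ E) → Lov L g E (y E + nu E)) ∧
      ∀ γ, Exv L g (piH hG γ E₀) (m E₀)

/-- **INVARIANT HOLOMORPHIC FORM** (task C-EXNT), to be consumed by `Ex_121.ExT` -/
def ExTBPStmt [Fintype (II U)] (hG : GalPt T) (L : Lab U S) (nu : II U → ℤ) : Prop :=
  ∀ E₀ : II U, ThE hG E₀ → ∀ n : ℕ, (n : ℤ) = nu E₀ → ∃ ε > 0, ∀ y : II U → ℝ,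
    (∀ (γ : Ru T) (E : II U), y (piH hG γ E) = y E) → (∀ E, dg (Mx L) y E < 0) →
    (∀ E, E = E₀ ∨ Mx L E₀ E ≠ 0 → y E < ε) →
    ∃ g : (Fin 3 → ℂ) → ℂ, AnalyticAt ℂ g 0 ∧
      (∀ E, (∀ γ, piH hG γ E₀ ≠ E) → Lov L g E (y E + nu E)) ∧
      ∀ γ, Exv L g (piH hG γ E₀) n

end Crest.Agent.R257.Exf_843
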