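import Crest.Agent.R257.Vt1_558
import Crest.Agent.R257.OrdT7_578

/-!
Row 257 (S0395), part C, C-TRANS (helper121): near an ordinary point of an exceptional axis every sheet
of a canonical chart is a sheet of a canonical vertex chart centred at that point, with the same label.
-/

set_option autoImplicit false
set_option linter.unusedSectionVars false

open Polynomial Set Filter Topology Metric
open Crest.AlgGeometry.Germ Crest.Agent.R257.AJ387 Crest.Agent.R257.T387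
open Crest.Agent.R257.BP_258 Crest.Agent.R257.OrdT_578 Crest.Agent.R257.OrdL_578
open Crest.Agent.R257.Vt1_558

noncomputable section

namespace Crest.Agent.R257.Tr_121

variable {f : (Fin 3 → ℂ) → ℂ} {T : TB f}

lemma same_of_tr {i j : Fin T.m} {k : ℕ} (h : tr T j k = tr T i k) : Same T k i j := by
  by_cases hij : j = i
  · exact Or.inl hij
  · exact Or.inr ((tr_eq_iff_del hij).1 h)

lemma shD_zero_of {i j : Fin T.m} {k : ℕ} (h : Same T k i j) :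
    shD T k i j 0 = co T j k - co T i k := by
  unfold shD
  by_cases hij : j = i
  · simp [hij]
  · have h1 : k ≤ T.del j i := h.resolve_left hij
    rw [if_neg hij, co_sub hij h1]
    by_cases h2 : k = T.del j i
    · rw [if_pos h2, h2]; simp
    · rw [if_neg h2, zero_pow (by omega), zero_mul]

lemma sp_iff (i : Fin T.m) (k : ℕ) (w : ℂ) : w ∈ sp T (vx T i k) ↔ w - co T i k ∈ T.Sp i k := by
  rw [Rot1_558.mem_Sp, mem_sp]
  constructor
  · rintro ⟨j, h1, h2⟩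
    have h1' : tr T j k = tr T i k := h1
    have h2' : co T j k = w := h2
    by_cases hj : j = i
    · subst hj
      left; rw [← h2', sub_self]
    · have h4 := (tr_eq_iff_del (Ne.symm hj)).1 h1'.symm
      have h5 := co_sub (Ne.symm hj) h4
      rw [h2'] at h5
      rcases h4.eq_or_lt with h6 | h6
      · right
        rw [if_pos h6] at h5
        exact ⟨j, ⟨hj, h6.symm⟩, by rw [← h5, neg_sub]⟩
      · left
        rw [if_neg h6.ne] at h5
        rw [← neg_eq_zero, neg_sub]; exact h5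
  · rintro (h | ⟨j, ⟨hj, hk⟩, hw⟩)
    · exact ⟨i, rfl, (sub_eq_zero.1 h).symm⟩
    · have h1 := co_sub hj.symm (le_refl (T.del i j))
      rw [if_pos rfl, hk] at h1
      refine ⟨j, ((tr_eq_iff_del hj.symm).2 hk.ge).symm, ?_⟩
      show co T j k = w
      rw [← h1] at hw
      linear_combination hw

variable {U : Tub T}

/-- labels are determined by one point -/
lemma lab_unique (hR : RetStmt U) {E E' : II U} (hv : E.1 = E'.1) {x : Fin 3 → ℂ}
    (h : InT U E.1.1 x ∧ ∀ q, IsRet U E.1.1 x q → (q : ConnectedComponents _) = E.2)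
    (h' : InT U E'.1.1 x ∧ ∀ q, IsRet U E'.1.1 x q → (q : ConnectedComponents _) = E'.2) :
    E = E' := by
  obtain ⟨v, A⟩ := E
  obtain ⟨v', A'⟩ := E'
  simp only at hv
  subst hv
  obtain ⟨q, hq, -⟩ := (hR v.1 v.2).1 x h.1
  have h1 := h.2 q hq
  have h2 := h'.2 q hq
  simp only at h1 h2
  rw [← h1, ← h2]

variable {S : Sh T}

variable (S) in
/-- the canonical vertex chart of the vertex `v` at `x` -/
def vc (v : Vtx) (x : ℂ) : Ch T.m := .vert (S.ci v) v.1 x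

lemma ok_vc {v : Vtx} (hv : v ∈ Vs T) {x : ℂ} (hx : x ∉ sp T v) : Ok S (vc S v x) :=
  ⟨⟨lev_ci S hv, fun h => hx ((Sp_ci S hv).1 h)⟩, v, hv, rfl, rfl, hx⟩

/-- `T.map c` in the coordinates of the vertex -/
structure Tra (c : Ch T.m) (p₀ : ℂ × ℂ) (e : ℂ × ℂ → ℂ) (v : Vtx) (x : ℂ)
    (χ : ℂ × ℂ → ℂ × ℂ) (u : ℂ × ℂ → ℂ) : Prop where
  nsp : x ∉ sp T v
  an : AnalyticAt ℂ χ p₀
  zero : χ p₀ = (0, 0)
  uan : AnalyticAt ℂ u p₀
  une : u p₀ ≠ 0
  fst : ∀ᶠ p in 𝓝 p₀, (χ p).1 = e p * u p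
  mfst : ∀ᶠ p in 𝓝 p₀, (χ p).1 = (T.map c p).1
  map : ∀ᶠ p in 𝓝 p₀, T.map c p = T.map (vc S v x) (χ p)

lemma ρ_ev {g : ℂ × ℂ → ℂ} {p₀ : ℂ × ℂ} (hg : ContinuousAt g p₀) (h0 : g p₀ = 0) :
    ∀ᶠ p in 𝓝 p₀, ‖g p‖ ^ T.M < T.ρ := by
  have h1 : ContinuousAt (fun p => ‖g p‖ ^ T.M) p₀ := hg.norm.pow _
  refine h1.eventually_lt_const ?_
  simp only [h0, norm_zero, zero_pow T.M_pos.ne']
  exact T.ρ_pos

/-- vertex charts -/
lemma tra_vert {v : Vtx} {w₁ b : ℂ} (hb : w₁ + b ∉ sp T v) :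
    ∃ χ u, Tra (S := S) (vc S v w₁) (0, b) Prod.fst v (w₁ + b) χ u := by
  have hS : Same T v.1 (S.ci v) (S.ci v) := Or.inl rfl
  have h0 : Wf T (S.ci v) v.1 (vc S v w₁) (0, b) = w₁ + b := by
    simp [Wf, vc, shD]
  refine ⟨fun p => (p.1, Wf T (S.ci v) v.1 (vc S v w₁) p - (w₁ + b)), fun _ => 1, hb,
    analyticAt_fst.prod ?_, ?_, analyticAt_const, one_ne_zero, ?_, ?_, ?_⟩
  · have h1 : (fun p => Wf T (S.ci v) v.1 (vc S v w₁) p - (w₁ + b)) = fun p : ℂ × ℂ => p.2 - b := by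
      funext p
      simp [Wf, vc, shD]
    rw [h1]
    exact analyticAt_snd.sub analyticAt_const
  · simp [h0]
  · exact Eventually.of_forall fun p => (mul_one _).symm
  · exact Eventually.of_forall fun p => rfl
  · filter_upwards [ρ_ev (T := T) (g := fun q : ℂ × ℂ => q.1) (p₀ := ((0 : ℂ), b)) continuousAt_fst rfl]
      with p hp
    exact Wf_vert hS hp

/-- leg charts -/
lemma tra_leg {l : Fin T.m} {b : ℂ} (hb0 : b ≠ 0) (hb : ‖b‖ ≤ 2 * S.r (.leg l)) :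
    ∃ x χ u, Tra (S := S) (.leg l) (0, b) Prod.fst (vx T l (T.top l)) x χ u := by
  set v := vx T l (T.top l) with hv'
  have hlev : T.top l ∈ T.lev l := Finset.max'_mem _ _
  have hv : v ∈ Vs T := vx_mem hlev
  have hS : Same T v.1 (S.ci v) l := same_of_tr (by rw [tr_ci S hv]; rfl)
  have hc := chg_leg (T := T) (S.ci v) l v.1 hb0
  set x := shD T v.1 (S.ci v) l 0 + b ^ T.M with hx
  refine ⟨x, fun q => (q.1, Wf T (S.ci v) v.1 (.leg l) q - x), fun _ => 1, ?_,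
    hc.an1.prod hc.an2, hc.val, hc.uan, hc.une, hc.fst, ?_, ?_⟩
  · intro h
    refine S.farl l b hb0 hb ?_
    have h1 := (sp_iff l (T.top l) x).1 h
    rwa [hx, shD_zero_of hS, co_ci_lev S hv, sub_zero, show v.1 = T.top l from rfl,
      add_sub_cancel_left] at h1
  · exact Eventually.of_forall fun q => rfl
  · filter_upwards [ρ_ev (T := T) (g := fun q : ℂ × ℂ => q.1) (p₀ := ((0 : ℂ), b)) continuousAt_fst rfl]
      with q hq
    exact Wf_leg hS rfl hq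

/-- edge charts, first axis -/
lemma tra_edge1 {i : Fin T.m} {k k' : ℕ} (hc : T.Valid (.edge i k k')) (hk : k ≠ 0) {b : ℂ}
    (hb0 : b ≠ 0) (hb : ‖b‖ ≤ 2 * S.r (.edge i k k')) :
    ∃ x χ u, Tra (S := S) (.edge i k k') (0, b) Prod.fst (vx T i k) x χ u := by
  set v := vx T i k with hv'
  have hc' : T.Cons i k k' := hc
  have hlev : k ∈ T.lev i := hc'.1.resolve_left hk
  have hv : v ∈ Vs T := vx_mem hlev
  have hS : Same T v.1 (S.ci v) i := same_of_tr (by rw [tr_ci S hv]; rfl)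
  have hcc := chg_edge1 (T := T) (S.ci v) i hc'.2.2.1 hb0
  set x := shD T k (S.ci v) i 0 + b ^ (T.M * (k' - k)) with hx
  refine ⟨x, fun q => (q.1 * q.2, Wf T (S.ci v) k (.edge i k k') q - x), fun q => q.2, ?_,
    hcc.an1.prod hcc.an2, hcc.val, hcc.uan, hcc.une, hcc.fst, ?_, ?_⟩
  · intro h
    refine (S.fare i k k' hc b hb0 hb).1 ?_
    have h1 := (sp_iff i k x).1 h
    have h2 : shD T k (S.ci v) i 0 = co T i k := by
      rw [shD_zero_of (k := k) hS]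
      have : co T (S.ci v) k = 0 := co_ci_lev S hv
      rw [this, sub_zero]
    rwa [hx, h2, add_sub_cancel_left] at h1
  · exact Eventually.of_forall fun q => rfl
  · filter_upwards [ρ_ev (T := T) (g := fun q : ℂ × ℂ => q.1 * q.2) (p₀ := ((0 : ℂ), b))
      (continuousAt_fst.mul continuousAt_snd) (by simp)] with q hq
    exact Wf_edge1 hS hc'.2.2.1.le hq

/-- edge charts, second axis -/
lemma tra_edge2 {i : Fin T.m} {k k' : ℕ} (hc : T.Valid (.edge i k k')) {a : ℂ}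
    (ha0 : a ≠ 0) (ha : ‖a‖ ≤ 2 * S.r (.edge i k k')) :
    ∃ x χ u, Tra (S := S) (.edge i k k') (a, 0) Prod.snd (vx T i k') x χ u := by
  set v := vx T i k' with hv'
  have hc' : T.Cons i k k' := hc
  have hv : v ∈ Vs T := vx_mem hc'.2.1
  have hS : Same T v.1 (S.ci v) i := same_of_tr (by rw [tr_ci S hv]; rfl)
  have hcc := chg_edge2 (T := T) (S.ci v) i hc'.2.2.1 ha0
  set x := shD T k' (S.ci v) i 0 + (a ^ (T.M * (k' - k)))⁻¹ with hx
  have hsw : AnalyticAt ℂ (fun q : ℂ × ℂ => ((q.2, q.1) : ℂ × ℂ)) (a, (0 : ℂ)) :=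
    analyticAt_snd.prod analyticAt_fst
  have hsw' : Tendsto (fun q : ℂ × ℂ => ((q.2, q.1) : ℂ × ℂ)) (𝓝 (a, (0 : ℂ))) (𝓝 ((0 : ℂ), a)) :=
    hsw.continuousAt
  have h2 : AnalyticAt ℂ (fun q : ℂ × ℂ => Wf T (S.ci v) k' (.edge i k k') q - x) (a, (0 : ℂ)) := by
    have := AnalyticAt.comp (g := fun q : ℂ × ℂ => Wf T (S.ci v) k' (.edge i k k') (q.2, q.1) - x)
      (f := fun q : ℂ × ℂ => ((q.2, q.1) : ℂ × ℂ)) (x := (a, (0 : ℂ))) hcc.an2 hsw
    exact this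
  refine ⟨x, fun q => (q.1 * q.2, Wf T (S.ci v) k' (.edge i k k') q - x), fun q => q.1, ?_,
    (analyticAt_fst.mul analyticAt_snd).prod h2, ?_, analyticAt_fst, ha0, ?_, ?_, ?_⟩
  · intro h
    refine (S.fare i k k' hc a ha0 ha).2 ?_
    have h1 := (sp_iff i k' x).1 h
    have h3 : shD T k' (S.ci v) i 0 = co T i k' := by
      rw [shD_zero_of (k := k') hS]
      have : co T (S.ci v) k' = 0 := co_ci_lev S hv
      rw [this, sub_zero]
    rwa [hx, h3, add_sub_cancel_left] at h1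
  · have h4 := hcc.val
    have h5 := congrArg Prod.snd h4
    simp only at h5
    simp only [mul_zero, Prod.mk.injEq, true_and]
    exact h5
  · exact Eventually.of_forall fun q => mul_comm _ _
  · exact Eventually.of_forall fun q => rfl
  · have hne : ∀ᶠ q : ℂ × ℂ in 𝓝 (a, (0 : ℂ)), q.1 ≠ 0 :=
      (continuousAt_fst (p := (a, (0 : ℂ)))).eventually_ne ha0
    filter_upwards [ρ_ev (T := T) (g := fun q : ℂ × ℂ => q.1 * q.2) (p₀ := (a, (0 : ℂ)))
      (continuousAt_fst.mul continuousAt_snd) (by simp), hne] with q hq hq1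
    exact Wf_edge2 hS hc'.2.2.1 hq hq1

/-- the sheets -/
lemma Tra.sheet {c : Ch T.m} (hc : Ok S c) {p₀ : ℂ × ℂ} (hp₀ : p₀ ∈ BD (2 * S.r c) (2 * S.r c))
    {e : ℂ × ℂ → ℂ} {v : Vtx} (hv : v ∈ Vs T) {x : ℂ} {χ : ℂ × ℂ → ℂ × ℂ} {u : ℂ × ℂ → ℂ}
    (h : Tra (S := S) c p₀ e v x χ u) (hgen : ∃ᶠ q in 𝓝 p₀, T.Gen c q) (j : Fin T.d) :
    ∃ j' : Fin T.d, ∀ᶠ p in 𝓝 p₀, wc S c j p = wc S (vc S v x) j' (χ p) := by
  have hok : Ok S (vc S v x) := ok_vc hv h.nsp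
  have h0 : χ p₀ ∈ BD (2 * S.r (vc S v x)) (2 * S.r (vc S v x)) := by
    rw [h.zero]
    have := S.pos (vc S v x)
    constructor <;> simp only [norm_zero] <;> linarith
  obtain ⟨σ, hσ⟩ := attach (S.sheets c hc.1) (S.sheets _ hok.1) hp₀ h.an h0 h.map hgen
  refine ⟨σ j, ?_⟩
  filter_upwards [hσ j, h.map] with p h1 h2
  rw [wc, wc, ← h2, h1]

/-- **first axis** -/
theorem tra1 (hR : RetStmt U) (L : Lab U S) {c : Ch T.m} (hc : Ok S c) (j : Fin T.d) {b : ℂ}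
    (hb : ‖b‖ ≤ S.r c) (hb0 : IsV c ∨ b ≠ 0) {E : II U} (hE : L.e1 c j = some E) :
    ∃ (x : ℂ) (j' : Fin T.d) (χ : ℂ × ℂ → ℂ × ℂ) (u : ℂ × ℂ → ℂ),
      Tra (S := S) c (0, b) Prod.fst E.1.1 x χ u ∧ L.e1 (vc S E.1.1 x) j' = some E ∧
      ∀ᶠ p in 𝓝 ((0 : ℂ), b), wc S c j p = wc S (vc S E.1.1 x) j' (χ p) := by
  have hr := S.pos c
  have hv1 : v1 T c = some E.1.1 := by rw [← L.v_e1 c hc j, hE]; rfl
  have hb2 : ‖b‖ ≤ 2 * S.r c := by linarith
  have key : ∃ x χ u, Tra (S := S) c (0, b) Prod.fst E.1.1 x χ u := by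
    cases c with
    | edge i k k' =>
      have hk : k ≠ 0 := by
        intro hk
        simp [v1, hk] at hv1
      simp only [v1, hk, if_false, Option.some.injEq] at hv1
      rw [← hv1]
      exact tra_edge1 hc.1 hk (hb0.resolve_left id) hb2
    | leg i =>
      simp only [v1, Option.some.injEq] at hv1
      rw [← hv1]
      exact tra_leg (hb0.resolve_left id) hb2
    | vert i k w₁ =>
      simp only [v1, Option.some.injEq] at hv1
      obtain ⟨v, hv, h1, h2, h3⟩ := hc.2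
      have h4 : E.1.1 = v := by
        rw [← hv1, h1, h2]
        exact vx_ci S hv
      have h5 : (Ch.vert i k w₁ : Ch T.m) = vc S v w₁ := by rw [h1, h2]; rfl
      rw [h4]
      have h6 := S.far i k w₁ hc.1 (w₁ + b) (by simpa using hb2)
      rw [h1, h2] at h6
      obtain ⟨χ, u, h7⟩ := tra_vert (S := S) (v := v) (w₁ := w₁) (b := b)
        (fun h => h6 ((Sp_ci S hv).2 h))
      rw [h5]
      exact ⟨_, χ, u, h7⟩
  obtain ⟨x, χ, u, h⟩ := key
  have hok : Ok S (vc S E.1.1 x) := ok_vc E.1.2 h.nsp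
  have hgen : ∃ᶠ q in 𝓝 ((0 : ℂ), b), T.Gen c q := by
    refine gen_freq1 c ?_
    rintro (⟨_, _, _, rfl⟩ | ⟨_, rfl⟩) <;> exact hb0.resolve_left id
  have hp₀ : ((0 : ℂ), b) ∈ BD (2 * S.r c) (2 * S.r c) := by
    constructor
    · simpa using hr
    · show ‖b‖ < 2 * S.r c
      linarith
  obtain ⟨j', hj'⟩ := h.sheet hc hp₀ E.1.2 hgen j
  refine ⟨x, j', χ, u, h, ?_, hj'⟩
  -- labels
  have hve := L.v_e1 _ hok j'
  have hv1' : v1 T (vc S E.1.1 x) = some E.1.1 := by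
    simp only [v1, vc]
    rw [vx_ci S E.1.2]
  rw [hv1'] at hve
  obtain ⟨E', hE', hEE⟩ := Option.map_eq_some_iff.1 hve
  rw [hE']
  have hvE : E.1 = E'.1 := Subtype.ext hEE.symm
  -- near the point
  obtain ⟨a, ha, hnear⟩ := L.near1 c hc j E hE (if b = 0 then 1 else ‖b‖) (by
    split_ifs with h0
    · exact one_pos
    · exact norm_pos_iff.2 h0)
  obtain ⟨a', ha', hnear'⟩ := L.near1 _ hok j' E' hE' 1 one_pos
  have hr' := S.pos (vc S E.1.1 x)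
  have hχ0 : Tendsto χ (𝓝 ((0 : ℂ), b)) (𝓝 (0, 0)) := by
    have := h.an.continuousAt.tendsto
    rwa [h.zero] at this
  have ev : ∀ᶠ p in 𝓝 ((0 : ℂ), b), ‖(χ p).1‖ < a' ∧ ‖(χ p).2‖ ≤ S.r (vc S E.1.1 x) ∧
      ‖p.1‖ < a ∧ u p ≠ 0 := by
    have h1 : ∀ᶠ q : ℂ × ℂ in 𝓝 ((0 : ℂ), (0 : ℂ)), ‖q.1‖ < a' ∧ ‖q.2‖ < S.r (vc S E.1.1 x) := by
      refine ((continuous_fst.norm.continuousAt (x := ((0 : ℂ), (0 : ℂ)))).eventually_lt_const
        (by simpa using ha')).and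
        ((continuous_snd.norm.continuousAt (x := ((0 : ℂ), (0 : ℂ)))).eventually_lt_const
        (by simpa using hr'))
    have h2 := hχ0.eventually h1
    have h3 : ∀ᶠ p : ℂ × ℂ in 𝓝 ((0 : ℂ), b), ‖p.1‖ < a :=
      (continuous_fst.norm.continuousAt (x := ((0 : ℂ), b))).eventually_lt_const (by simpa using ha)
    have h4 : ∀ᶠ p in 𝓝 ((0 : ℂ), b), u p ≠ 0 := h.uan.continuousAt.eventually_ne h.une
    filter_upwards [h2, h3, h4] with p h5 h6 h7
    exact ⟨h5.1, h5.2.le, h6, h7⟩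
  have hlim : Tendsto (fun s : ℂ => (s, b)) (𝓝[≠] 0) (𝓝 ((0 : ℂ), b)) := by
    have h1 : Tendsto (fun s : ℂ => (s, b)) (𝓝 0) (𝓝 ((0 : ℂ), b)) :=
      (by fun_prop : Continuous fun s : ℂ => (s, b)).tendsto 0
    exact h1.mono_left nhdsWithin_le_nhds
  have ev' := hlim.eventually ((ev.and h.fst).and hj')
  obtain ⟨s, ⟨⟨⟨h1, h2, h3, h4⟩, h5⟩, h6⟩, hs⟩ := (ev'.and self_mem_nhdsWithin).exists
  have hs0 : s ≠ 0 := hs
  have h7 : 0 < ‖(χ (s, b)).1‖ := by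
    rw [h5]
    exact norm_pos_iff.2 (mul_ne_zero hs0 h4)
  have h8 := hnear (s, b) (norm_pos_iff.2 hs0) h3 hb (by
    by_cases hV : IsV c
    · exact Or.inl hV
    · right
      have : b ≠ 0 := hb0.resolve_left hV
      rw [if_neg this])
  have h9 := hnear' (χ (s, b)) h7 h1 h2 (Or.inl trivial)
  rw [← h6] at h9
  rw [lab_unique hR hvE h8 h9]

/-- **second axis** -/
theorem tra2 (hR : RetStmt U) (L : Lab U S) {c : Ch T.m} (hc : Ok S c) (j : Fin T.d) {a : ℂ}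
    (ha : ‖a‖ ≤ S.r c) (ha0 : a ≠ 0) {E : II U} (hE : L.e2 c j = some E) :
    ∃ (x : ℂ) (j' : Fin T.d) (χ : ℂ × ℂ → ℂ × ℂ) (u : ℂ × ℂ → ℂ),
      Tra (S := S) c (a, 0) Prod.snd E.1.1 x χ u ∧ L.e1 (vc S E.1.1 x) j' = some E ∧
      ∀ᶠ p in 𝓝 (a, (0 : ℂ)), wc S c j p = wc S (vc S E.1.1 x) j' (χ p) := by
  have hr := S.pos c
  have hv2 : v2 T c = some E.1.1 := by rw [← L.v_e2 c hc j, hE]; rfl
  have hb2 : ‖a‖ ≤ 2 * S.r c := by linarith
  obtain ⟨i, k, k', rfl⟩ : ∃ i k k', c = .edge i k k' := by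
    cases c with
    | edge i k k' => exact ⟨i, k, k', rfl⟩
    | leg i => simp [v2] at hv2
    | vert i k w₁ => simp [v2] at hv2
  simp only [v2, Option.some.injEq] at hv2
  obtain ⟨x, χ, u, h⟩ : ∃ x χ u, Tra (S := S) (.edge i k k') (a, 0) Prod.snd E.1.1 x χ u := by
    rw [← hv2]
    exact tra_edge2 hc.1 ha0 hb2
  have hok : Ok S (vc S E.1.1 x) := ok_vc E.1.2 h.nsp
  have hgen : ∃ᶠ q in 𝓝 (a, (0 : ℂ)), T.Gen (.edge i k k') q := gen_freq2 ha0
  have hp₀ : (a, (0 : ℂ)) ∈ BD (2 * S.r (.edge i k k')) (2 * S.r (.edge i k k')) := by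
    constructor
    · show ‖a‖ < 2 * S.r (.edge i k k')
      linarith
    · simpa using hr
  obtain ⟨j', hj'⟩ := h.sheet hc hp₀ E.1.2 hgen j
  refine ⟨x, j', χ, u, h, ?_, hj'⟩
  -- labels
  have hve := L.v_e1 _ hok j'
  have hv1' : v1 T (vc S E.1.1 x) = some E.1.1 := by
    simp only [v1, vc]
    rw [vx_ci S E.1.2]
  rw [hv1'] at hve
  obtain ⟨E', hE', hEE⟩ := Option.map_eq_some_iff.1 hve
  rw [hE']
  have hvE : E.1 = E'.1 := Subtype.ext hEE.symm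
  -- near the point
  obtain ⟨a₁, ha₁, hnear⟩ := L.near2 _ hc j E hE ‖a‖ (norm_pos_iff.2 ha0)
  obtain ⟨a', ha', hnear'⟩ := L.near1 _ hok j' E' hE' 1 one_pos
  have hr' := S.pos (vc S E.1.1 x)
  have hχ0 : Tendsto χ (𝓝 (a, (0 : ℂ))) (𝓝 (0, 0)) := by
    have := h.an.continuousAt.tendsto
    rwa [h.zero] at this
  have ev : ∀ᶠ p in 𝓝 (a, (0 : ℂ)), ‖(χ p).1‖ < a' ∧ ‖(χ p).2‖ ≤ S.r (vc S E.1.1 x) ∧
      ‖p.2‖ < a₁ ∧ u p ≠ 0 := by
    have h1 : ∀ᶠ q : ℂ × ℂ in 𝓝 ((0 : ℂ), (0 : ℂ)), ‖q.1‖ < a' ∧ ‖q.2‖ < S.r (vc S E.1.1 x) := by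
      refine ((continuous_fst.norm.continuousAt (x := ((0 : ℂ), (0 : ℂ)))).eventually_lt_const
        (by simpa using ha')).and
        ((continuous_snd.norm.continuousAt (x := ((0 : ℂ), (0 : ℂ)))).eventually_lt_const
        (by simpa using hr'))
    have h2 := hχ0.eventually h1
    have h3 : ∀ᶠ p : ℂ × ℂ in 𝓝 (a, (0 : ℂ)), ‖p.2‖ < a₁ :=
      (continuous_snd.norm.continuousAt (x := (a, (0 : ℂ)))).eventually_lt_const (by simpa using ha₁)
    have h4 : ∀ᶠ p in 𝓝 (a, (0 : ℂ)), u p ≠ 0 := h.uan.continuousAt.eventually_ne h.une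
    filter_upwards [h2, h3, h4] with p h5 h6 h7
    exact ⟨h5.1, h5.2.le, h6, h7⟩
  have hlim : Tendsto (fun s : ℂ => (a, s)) (𝓝[≠] 0) (𝓝 (a, (0 : ℂ))) := by
    have h1 : Tendsto (fun s : ℂ => (a, s)) (𝓝 0) (𝓝 (a, (0 : ℂ))) :=
      (by fun_prop : Continuous fun s : ℂ => (a, s)).tendsto 0
    exact h1.mono_left nhdsWithin_le_nhds
  have ev' := hlim.eventually ((ev.and h.fst).and hj')
  obtain ⟨s, ⟨⟨⟨h1, h2, h3, h4⟩, h5⟩, h6⟩, hs⟩ := (ev'.and self_mem_nhdsWithin).exists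
  have hs0 : s ≠ 0 := hs
  have h7 : 0 < ‖(χ (a, s)).1‖ := by
    rw [h5]
    exact norm_pos_iff.2 (mul_ne_zero hs0 h4)
  have h8 := hnear (a, s) (norm_pos_iff.2 hs0) h3 ha le_rfl
  have h9 := hnear' (χ (a, s)) h7 h1 h2 (Or.inl trivial)
  rw [← h6] at h9
  rw [lab_unique hR hvE h8 h9]

end Crest.Agent.R257.Tr_121
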