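import Crest.Agent.R257.ExF_121
import Crest.Agent.R257.Tr_121

/-!
Row 257 (S0395), C-EXT (helper121): transfer of kills from the origin of a canonical vertex chart to an
ordinary point of an exceptional axis, and from `BPDefs_258` to the frame `D.fr`.
-/

set_option autoImplicit false
set_option linter.unusedSectionVars false

open Polynomial Set Filter Topology Metric
open Crest.AlgGeometry.Germ Crest.Agent.R257.AJ387 Crest.Agent.R257.T387
open Crest.Agent.R257.Defs_219 Crest.Agent.R257.Gr1_157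
open Crest.Agent.R257.BP_258 Crest.Agent.R257.Rot1_558 Crest.Agent.R257.Vt1_558
open Crest.Agent.R257.Vt3_558 Crest.Agent.R257.Tr_121
open Crest.Agent.R257.Tb_941 Crest.Agent.R257.Tb3_941
open Crest.Agent.R257.FrBP_808 Crest.Agent.R257.ExF_121
open Crest.Agent.R257.KiD_121

noncomputable section

namespace Crest.Agent.R257.ExG_121

variable {f : (Fin 3 → ℂ) → ℂ} {T : TB f} {U : Tub T} {S : Sh T} {L : Lab U S}

variable (L) in
/-- the function of a factorisation at the origin does not vanish -/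
def KC (g : (Fin 3 → ℂ) → ℂ) (m : II U → ℕ) (c : Ch T.m) (j : Fin T.d) : Prop :=
  ∀ H : ℂ × ℂ → ℂ, ContinuousAt H (0, 0) →
    (∀ᶠ p in 𝓝 ((0 : ℂ), (0 : ℂ)), g (T.th c (S.ζ c j) p) =
      p.1 ^ yn m (L.e1 c j) * p.2 ^ yn m (L.e2 c j) * H p) → H (0, 0) ≠ 0

variable (L) in
/-- the function of a factorisation at `p₀` does not vanish -/
def At (g : (Fin 3 → ℂ) → ℂ) (m : II U → ℕ) (c : Ch T.m) (j : Fin T.d) (p₀ : ℂ × ℂ) : Prop :=
  ∀ H : ℂ × ℂ → ℂ, AnalyticAt ℂ H p₀ →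
    (∀ᶠ p in 𝓝 p₀, g (T.th c (S.ζ c j) p) =
      p.1 ^ yn m (L.e1 c j) * p.2 ^ yn m (L.e2 c j) * H p) → H p₀ ≠ 0

theorem KC.at {g : (Fin 3 → ℂ) → ℂ} {m : II U → ℕ} {c : Ch T.m} {j : Fin T.d}
    (h : KC L g m c j) : At L g m c j (0, 0) := fun H hH => h H hH.continuousAt

/-! ### division -/

theorem fst_freq (p₀ : ℂ × ℂ) : ∃ᶠ p : ℂ × ℂ in 𝓝 p₀, p.1 ≠ 0 := by
  have h1 : ∃ᶠ s : ℂ in 𝓝 p₀.1, s ≠ 0 := by
    have h2 : ∃ᶠ s : ℂ in 𝓝[≠] p₀.1, s ≠ 0 := by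
      have : ∀ᶠ s : ℂ in 𝓝[≠] p₀.1, s ≠ 0 := by
        by_cases h : p₀.1 = 0
        · rw [h]; exact self_mem_nhdsWithin
        · exact (continuousAt_id.eventually_ne h).filter_mono nhdsWithin_le_nhds
      exact this.frequently
    exact h2.filter_mono nhdsWithin_le_nhds
  have h3 : Tendsto (fun s : ℂ => (s, p₀.2)) (𝓝 p₀.1) (𝓝 p₀) := by
    have : Continuous fun s : ℂ => (s, p₀.2) := by fun_prop
    have h4 := this.tendsto p₀.1
    exact h4
  exact h3.frequently h1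

theorem snd_freq (p₀ : ℂ × ℂ) : ∃ᶠ p : ℂ × ℂ in 𝓝 p₀, p.2 ≠ 0 := by
  have h3 : Tendsto (fun q : ℂ × ℂ => ((q.2, q.1) : ℂ × ℂ)) (𝓝 (p₀.2, p₀.1)) (𝓝 p₀) := by
    have : Continuous fun q : ℂ × ℂ => ((q.2, q.1) : ℂ × ℂ) := by fun_prop
    exact this.tendsto (p₀.2, p₀.1)
  exact h3.frequently (p := fun q : ℂ × ℂ => q.2 ≠ 0) (fst_freq (p₀.2, p₀.1))

theorem div_eq {p₀ : ℂ × ℂ} {e X Y : ℂ × ℂ → ℂ} {n : ℕ} (he : ∃ᶠ p in 𝓝 p₀, e p ≠ 0)
    (hX : ContinuousAt X p₀) (hY : ContinuousAt Y p₀)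
    (h : ∀ᶠ p in 𝓝 p₀, e p ^ n * X p = e p ^ n * Y p) : X p₀ = Y p₀ := by
  by_contra hne
  have h1 : ∀ᶠ p in 𝓝 p₀, X p - Y p ≠ 0 := (hX.sub hY).eventually_ne (sub_ne_zero.2 hne)
  obtain ⟨p, hp, h2, h3⟩ := (he.and_eventually (h.and h1)).exists
  exact h3 (sub_eq_zero.2 (mul_left_cancel₀ (pow_ne_zero n hp) h2))

/-- orders can be compared where a factor does not vanish along the axis -/
theorem le_of {p₀ : ℂ × ℂ} {e X Y : ℂ × ℂ → ℂ} {v n : ℕ}
    (he : ∀ p₁ : ℂ × ℂ, ∃ᶠ p in 𝓝 p₁, e p ≠ 0) (hec : Continuous e)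
    (hX : ∀ᶠ p in 𝓝 p₀, ContinuousAt X p) (hY : ∀ᶠ p in 𝓝 p₀, ContinuousAt Y p)
    (h : ∀ᶠ p in 𝓝 p₀, e p ^ v * X p = e p ^ n * Y p) (hfr : ∃ᶠ p in 𝓝 p₀, e p = 0 ∧ X p ≠ 0) :
    n ≤ v := by
  by_contra hlt
  push Not at hlt
  obtain ⟨p, ⟨h0, hne⟩, h1, h2, h3⟩ :=
    (hfr.and_eventually (h.eventually_nhds.and (hX.and hY))).exists
  refine hne ?_
  have h4 := div_eq (e := e) (n := v) (X := X) (Y := fun p => e p ^ (n - v) * Y p) (he p) h2
    ((hec.continuousAt.pow _).mul h3) (h1.mono fun q hq => by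
      rw [hq, ← mul_assoc, ← pow_add, Nat.add_sub_cancel' hlt.le])
  rw [h4, h0, zero_pow (by omega), zero_mul]

/-! ### transfer -/

theorem th_of_wc {c c' : Ch T.m} {j j' : Fin T.d} {p p' : ℂ × ℂ}
    (h : wc S c j p = wc S c' j' p') : T.th c (S.ζ c j) p = T.th c' (S.ζ c' j') p' := by
  have h0 := congrFun h 0
  have h1 := congrFun h 1
  have h2 := congrFun h 2
  simp only [wc, pt, Matrix.cons_val_zero, Matrix.cons_val_one, Matrix.cons_val] at h0 h1 h2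
  have h3 : T.map c p = T.map c' p' := Prod.ext h1 h2
  unfold TB.th
  rw [h0, h3]

theorem f_th {c : Ch T.m} (hc : Ok S c) (j : Fin T.d) {p : ℂ × ℂ}
    (hp : p ∈ BD (2 * S.r c) (2 * S.r c)) : f (T.th c (S.ζ c j) p) = 0 :=
  (S.sheets c hc.1).th_V j hp

theorem zc_zero {c : Ch T.m} : T.Zc c (0, 0) := by
  cases c with
  | edge i k k' => exact Or.inr rfl
  | leg i => rfl
  | vert i k w => rfl

/-- a kill is non zero on `{f = 0}` -/
theorem KC.freq {g : (Fin 3 → ℂ) → ℂ} {m : II U → ℕ} {c : Ch T.m}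
    {j : Fin T.d} (h : KC L g m c j) (hc : Ok S c) :
    ∃ᶠ x in 𝓝 (0 : Fin 3 → ℂ), f x = 0 ∧ g x ≠ 0 := by
  by_contra hcon
  rw [Filter.not_frequently] at hcon
  have hr := S.pos c
  have hp : ((0 : ℂ), (0 : ℂ)) ∈ BD (2 * S.r c) (2 * S.r c) := by
    constructor <;> simp only [norm_zero] <;> linarith
  have hth : T.th c (S.ζ c j) (0, 0) = 0 := ((S.sheets c hc.1).th_zero hc.1 j hp).2 zc_zero
  have hcont : Tendsto (T.th c (S.ζ c j)) (𝓝 (0, 0)) (𝓝 0) := by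
    have := ((S.sheets c hc.1).th_an j hp).continuousAt.tendsto
    rwa [hth] at this
  refine h (fun _ => 0) continuousAt_const ?_ rfl
  filter_upwards [hcont.eventually hcon, (isOpen_BD _ _).mem_nhds hp] with p h1 h2
  by_contra hne
  exact h1 ⟨f_th hc j h2, fun h3 => hne (by rw [h3]; simp)⟩

/-- the value at the centre of a vertex chart -/
theorem KC.val [Fintype (II U)] {g : (Fin 3 → ℂ) → ℂ} {m : II U → ℕ} {v : Vtx} (hv : v ∈ Vs T)
    {x : ℂ} {j : Fin T.d} (h : KC L g m (vc S v x) j) (hx : x ∉ sp T v) {E : II U}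
    (hE : L.e1 (vc S v x) j = some E) {w : II U → ℕ} (hmw : m E ≤ w E) {G : ℂ × ℂ → ℂ}
    (hG : ContinuousAt G (0, 0))
    (hev : ∀ᶠ p in 𝓝 ((0 : ℂ), (0 : ℂ)), g (T.th (vc S v x) (S.ζ (vc S v x) j) p) =
      p.1 ^ w E * G p) : w E = m E ∧ G (0, 0) ≠ 0 := by
  have hok : Ok S (vc S v x) := ok_vc hv hx
  have he2 : L.e2 (vc S v x) j = none := by
    have := L.v_e2 _ hok j
    simp only [vc, v2] at this
    exact Option.map_eq_none_iff.1 this
  have h1 := h (fun p => p.1 ^ (w E - m E) * G p) ((continuousAt_fst.pow _).mul hG) (by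
    filter_upwards [hev] with p hp
    rw [hp, hE, he2]
    simp only [yn, Option.elim, pow_zero, mul_one]
    rw [← mul_assoc, ← pow_add, Nat.add_sub_cancel' hmw])
  constructor
  · by_contra hne
    refine h1 ?_
    simp only
    rw [zero_pow (by omega), zero_mul]
  · exact right_ne_zero_of_mul h1

/-- **transfer**, first axis -/
theorem at1 [Fintype (II U)] (hR : RetStmt U) (hO : OrdStmt L) {c : Ch T.m} (hc : Ok S c)
    {j : Fin T.d} {b : ℂ} (hb : ‖b‖ ≤ S.r c) (hb0 : IsV c ∨ b ≠ 0) {E : II U}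
    (hE : L.e1 c j = some E) : ∃ (x : ℂ) (j' : Fin T.d), x ∉ sp T E.1.1 ∧
      L.e1 (vc S E.1.1 x) j' = some E ∧ ∀ (g : (Fin 3 → ℂ) → ℂ) (m : II U → ℕ), AnalyticAt ℂ g 0 →
        KC L g m (vc S E.1.1 x) j' → At L g m c j (0, b) := by
  obtain ⟨x, j', χ, u, h, hE', hwc⟩ := tra1 hR L hc j hb hb0 hE
  refine ⟨x, j', h.nsp, hE', fun g m hg hK H hH hev => ?_⟩
  have hok : Ok S (vc S E.1.1 x) := ok_vc E.1.2 h.nsp
  obtain ⟨w, -, hw⟩ := hO g hg (hK.freq hok)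
  have hr := S.pos c
  have hr' := S.pos (vc S E.1.1 x)
  obtain ⟨G, hG, hGev, hG1, -⟩ := hw c hc j (0, b) (by simpa using hr.le) hb
    (Or.inl ⟨by rw [hE]; simp, rfl⟩)
  obtain ⟨G₀, hG₀, hG₀ev, -, -⟩ := hw _ hok j' (0, 0) (by simpa using hr'.le) (by simpa using hr'.le)
    (Or.inl ⟨by rw [hE']; simp, rfl⟩)
  have he2 : L.e2 (vc S E.1.1 x) j' = none := by
    have := L.v_e2 _ hok j'
    simp only [vc, v2] at this
    exact Option.map_eq_none_iff.1 this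
  simp only [hE, hE', he2, yn, Option.elim, pow_zero, mul_one] at hGev hG₀ev hev
  -- the other factor
  set a₂ : ℕ := yn w (L.e2 c j) with ha₂
  set b₂ : ℕ := yn m (L.e2 c j) with hb₂
  have hb2 : b ≠ 0 ∨ (a₂ = 0 ∧ b₂ = 0) := by
    rcases hb0 with hV | hb0
    · right
      have h1 : L.e2 c j = none := by
        have := L.v_e2 c hc j
        cases c with
        | edge i k k' => exact absurd hV (by simp [IsV])
        | leg i => exact absurd hV (by simp [IsV])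
        | vert i k w => exact Option.map_eq_none_iff.1 this
      simp [ha₂, hb₂, h1, yn]
    · exact Or.inl hb0
  have hmw : m E ≤ w E := by
    refine le_of (p₀ := ((0 : ℂ), b)) (e := Prod.fst) (X := fun p => p.2 ^ a₂ * G p)
      (Y := fun p => p.2 ^ b₂ * H p) fst_freq continuous_fst ?_ ?_ ?_ ?_
    · exact hG.eventually_analyticAt.mono fun p hp => (continuousAt_snd.pow _).mul hp.continuousAt
    · exact hH.eventually_analyticAt.mono fun p hp => (continuousAt_snd.pow _).mul hp.continuousAt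
    · filter_upwards [hGev, hev] with p h1 h2
      have h1' : g (T.th c (S.ζ c j) p) = p.1 ^ w E * p.2 ^ a₂ * G p := h1
      have h2' : g (T.th c (S.ζ c j) p) = p.1 ^ m E * p.2 ^ b₂ * H p := h2
      rw [← mul_assoc, ← mul_assoc, ← h1', ← h2']
    · have h1 := (hG1 rfl E hE).1
      have h2 : Tendsto (fun z : ℂ => ((0 : ℂ), z)) (𝓝 b) (𝓝 ((0 : ℂ), b)) :=
        (by fun_prop : Continuous fun z : ℂ => ((0 : ℂ), z)).tendsto b
      refine h2.frequently ?_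
      have h3 : ∀ᶠ z in 𝓝 b, z ^ a₂ ≠ 0 := by
        rcases hb2 with hb2 | hb2
        · exact (continuousAt_id.eventually_ne hb2).mono fun z hz => pow_ne_zero _ hz
        · exact Eventually.of_forall fun z => by rw [hb2.1, pow_zero]; exact one_ne_zero
      exact (h1.and_eventually h3).mono fun z hz => ⟨rfl, mul_ne_zero hz.2 hz.1⟩
  have hG₀ev' : ∀ᶠ p in 𝓝 ((0 : ℂ), (0 : ℂ)),
      g (T.th (vc S E.1.1 x) (S.ζ (vc S E.1.1 x) j') p) = p.1 ^ w E * G₀ p := hG₀ev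
  obtain ⟨hwm, hne⟩ := hK.val E.1.2 h.nsp hE' hmw hG₀.continuousAt hG₀ev'
  have hχ0 : Tendsto χ (𝓝 ((0 : ℂ), b)) (𝓝 (0, 0)) := by
    have := h.an.continuousAt.tendsto
    rwa [h.zero] at this
  have hχc : ContinuousAt (fun p => G₀ (χ p)) ((0 : ℂ), b) := by
    have h1 : ContinuousAt G₀ (χ ((0 : ℂ), b)) := by rw [h.zero]; exact hG₀.continuousAt
    exact ContinuousAt.comp (f := χ) (g := G₀) h1 h.an.continuousAt
  have key := div_eq (p₀ := ((0 : ℂ), b)) (e := Prod.fst) (n := m E) (X := fun p => p.2 ^ b₂ * H p)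
    (Y := fun p => u p ^ m E * G₀ (χ p)) (fst_freq _) ((continuousAt_snd.pow _).mul hH.continuousAt)
    ((h.uan.continuousAt.pow _).mul hχc) (by
      filter_upwards [hev, hχ0.eventually hG₀ev', hwc, h.fst] with p h1 h2 h3 h4
      have h1' : g (T.th c (S.ζ c j) p) = p.1 ^ m E * p.2 ^ b₂ * H p := h1
      rw [← mul_assoc, ← h1', th_of_wc h3, h2, hwm, h4]
      ring)
  intro hH0
  have h5 : (u ((0 : ℂ), b)) ^ m E * G₀ (χ ((0 : ℂ), b)) = 0 := by
    rw [← key, hH0, mul_zero]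
  rw [h.zero] at h5
  exact mul_ne_zero (pow_ne_zero _ h.une) hne h5

/-- **transfer**, second axis -/
theorem at2 [Fintype (II U)] (hR : RetStmt U) (hO : OrdStmt L) {c : Ch T.m} (hc : Ok S c)
    {j : Fin T.d} {a : ℂ} (ha : ‖a‖ ≤ S.r c) (ha0 : a ≠ 0) {E : II U}
    (hE : L.e2 c j = some E) : ∃ (x : ℂ) (j' : Fin T.d), x ∉ sp T E.1.1 ∧
      L.e1 (vc S E.1.1 x) j' = some E ∧ ∀ (g : (Fin 3 → ℂ) → ℂ) (m : II U → ℕ), AnalyticAt ℂ g 0 →
        KC L g m (vc S E.1.1 x) j' → At L g m c j (a, 0) := by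
  obtain ⟨x, j', χ, u, h, hE', hwc⟩ := tra2 hR L hc j ha ha0 hE
  refine ⟨x, j', h.nsp, hE', fun g m hg hK H hH hev => ?_⟩
  have hok : Ok S (vc S E.1.1 x) := ok_vc E.1.2 h.nsp
  obtain ⟨w, -, hw⟩ := hO g hg (hK.freq hok)
  have hr := S.pos c
  have hr' := S.pos (vc S E.1.1 x)
  obtain ⟨G, hG, hGev, -, hG1⟩ := hw c hc j (a, 0) ha (by simpa using hr.le)
    (Or.inr ⟨by rw [hE]; simp, rfl⟩)
  obtain ⟨G₀, hG₀, hG₀ev, -, -⟩ := hw _ hok j' (0, 0) (by simpa using hr'.le) (by simpa using hr'.le)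
    (Or.inl ⟨by rw [hE']; simp, rfl⟩)
  have he2 : L.e2 (vc S E.1.1 x) j' = none := by
    have := L.v_e2 _ hok j'
    simp only [vc, v2] at this
    exact Option.map_eq_none_iff.1 this
  simp only [hE, hE', he2, yn, Option.elim, pow_zero, mul_one] at hGev hG₀ev hev
  set a₂ : ℕ := yn w (L.e1 c j) with ha₂
  set b₂ : ℕ := yn m (L.e1 c j) with hb₂
  have hmw : m E ≤ w E := by
    refine le_of (p₀ := (a, (0 : ℂ))) (e := Prod.snd) (X := fun p => p.1 ^ a₂ * G p)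
      (Y := fun p => p.1 ^ b₂ * H p) snd_freq continuous_snd ?_ ?_ ?_ ?_
    · exact hG.eventually_analyticAt.mono fun p hp => (continuousAt_fst.pow _).mul hp.continuousAt
    · exact hH.eventually_analyticAt.mono fun p hp => (continuousAt_fst.pow _).mul hp.continuousAt
    · filter_upwards [hGev, hev] with p h1 h2
      have h1' : g (T.th c (S.ζ c j) p) = p.1 ^ a₂ * p.2 ^ w E * G p := h1
      have h2' : g (T.th c (S.ζ c j) p) = p.1 ^ b₂ * p.2 ^ m E * H p := h2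
      calc p.2 ^ w E * (p.1 ^ a₂ * G p) = p.1 ^ a₂ * p.2 ^ w E * G p := by ring
        _ = p.1 ^ b₂ * p.2 ^ m E * H p := by rw [← h1', ← h2']
        _ = p.2 ^ m E * (p.1 ^ b₂ * H p) := by ring
    · have h1 := (hG1 rfl E hE).1
      have h2 : Tendsto (fun z : ℂ => (z, (0 : ℂ))) (𝓝 a) (𝓝 (a, (0 : ℂ))) :=
        (by fun_prop : Continuous fun z : ℂ => (z, (0 : ℂ))).tendsto a
      refine h2.frequently ?_
      have h3 : ∀ᶠ z in 𝓝 a, z ^ a₂ ≠ 0 :=
        (continuousAt_id.eventually_ne ha0).mono fun z hz => pow_ne_zero _ hz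
      exact (h1.and_eventually h3).mono fun z hz => ⟨rfl, mul_ne_zero hz.2 hz.1⟩
  have hG₀ev' : ∀ᶠ p in 𝓝 ((0 : ℂ), (0 : ℂ)),
      g (T.th (vc S E.1.1 x) (S.ζ (vc S E.1.1 x) j') p) = p.1 ^ w E * G₀ p := hG₀ev
  obtain ⟨hwm, hne⟩ := hK.val E.1.2 h.nsp hE' hmw hG₀.continuousAt hG₀ev'
  have hχ0 : Tendsto χ (𝓝 (a, (0 : ℂ))) (𝓝 (0, 0)) := by
    have := h.an.continuousAt.tendsto
    rwa [h.zero] at this
  have hχc : ContinuousAt (fun p => G₀ (χ p)) (a, (0 : ℂ)) := by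
    have h1 : ContinuousAt G₀ (χ (a, (0 : ℂ))) := by rw [h.zero]; exact hG₀.continuousAt
    exact ContinuousAt.comp (f := χ) (g := G₀) h1 h.an.continuousAt
  have key := div_eq (p₀ := (a, (0 : ℂ))) (e := Prod.snd) (n := m E) (X := fun p => p.1 ^ b₂ * H p)
    (Y := fun p => u p ^ m E * G₀ (χ p)) (snd_freq _) ((continuousAt_fst.pow _).mul hH.continuousAt)
    ((h.uan.continuousAt.pow _).mul hχc) (by
      filter_upwards [hev, hχ0.eventually hG₀ev', hwc, h.fst] with p h1 h2 h3 h4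
      have h1' : g (T.th c (S.ζ c j) p) = p.1 ^ b₂ * p.2 ^ m E * H p := h1
      calc p.2 ^ m E * (p.1 ^ b₂ * H p) = p.1 ^ b₂ * p.2 ^ m E * H p := by ring
        _ = p.2 ^ m E * (u p ^ m E * G₀ (χ p)) := by
            rw [← h1', th_of_wc h3, h2, hwm, h4]; ring)
  intro hH0
  have h5 : (u (a, (0 : ℂ))) ^ m E * G₀ (χ (a, (0 : ℂ))) = 0 := by
    rw [← key, hH0, mul_zero]
  rw [h.zero] at h5
  exact mul_ne_zero (pow_ne_zero _ h.une) hne h5

end Crest.Agent.R257.ExG_121
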