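import Crest.Agent.R257.ExG_121

/-!
Row 257 (S0395), C-EXT (helper121): **`ExP` and `ExE` for the frame `D.fr`**.
-/

set_option autoImplicit false
set_option linter.unusedSectionVars false

open Polynomial Set Filter Topology Metric
open Crest.AlgGeometry.Germ Crest.Agent.R257.AJ387 Crest.Agent.R257.T387
open Crest.Agent.R257.Defs_219 Crest.Agent.R257.Gr1_157
open Crest.Agent.R257.BP_258 Crest.Agent.R257.Rot1_558 Crest.Agent.R257.Vt1_558
open Crest.Agent.R257.Vt3_558 Crest.Agent.R257.Tr_121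
open Crest.Agent.R257.Tb_941 Crest.Agent.R257.Tb3_941
open Crest.Agent.R257.FrBP_808 Crest.Agent.R257.ExF_121 Crest.Agent.R257.ExG_121
open Crest.Agent.R257.KiD_121

noncomputable section

namespace Crest.Agent.R257.ExH_121

variable {f : (Fin 3 → ℂ) → ℂ} {T : TB f} {U : Tub T} {S : Sh T} {L : Lab U S}
  {nu : II U → ℤ} {n1 n2 : Ch T.m → Fin T.d → ℤ} [Fintype (II U)] {D : FrIn L nu n1 n2}

/-! ### scaling -/

/-- the inverse of `T.sg` -/
def gs (T : TB f) (c : Ch T.m) (R : ℝ) (q : ℂ × ℂ) : ℂ × ℂ :=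
  if T.IsTop c then ((R : ℂ)⁻¹ * q.2, (R : ℂ)⁻¹ * q.1) else ((R : ℂ)⁻¹ * q.1, (R : ℂ)⁻¹ * q.2)

theorem gs_an (c : Ch T.m) (R : ℝ) (q : ℂ × ℂ) : AnalyticAt ℂ (gs T c R) q := by
  unfold gs
  by_cases ht : T.IsTop c
  · simp only [if_pos ht]
    exact (analyticAt_const.mul analyticAt_snd).prod (analyticAt_const.mul analyticAt_fst)
  · simp only [if_neg ht]
    exact (analyticAt_const.mul analyticAt_fst).prod (analyticAt_const.mul analyticAt_snd)

theorem gs_sg (c : Ch T.m) {R : ℝ} (hR : 0 < R) (p : ℂ × ℂ) : gs T c R (T.sg c R p) = p := by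
  have hR' : (R : ℂ) ≠ 0 := by exact_mod_cast hR.ne'
  unfold gs TB.sg
  split_ifs <;> simp [hR']

theorem sg_gs (c : Ch T.m) {R : ℝ} (hR : 0 < R) (p : ℂ × ℂ) : T.sg c R (gs T c R p) = p := by
  have hR' : (R : ℂ) ≠ 0 := by exact_mod_cast hR.ne'
  unfold gs TB.sg
  split_ifs <;> simp [hR']

theorem sg_an (c : Ch T.m) (R : ℝ) (p : ℂ × ℂ) : AnalyticAt ℂ (T.sg c R) p := by
  have h1 : T.sg c R = fun p => T.sgL c R p := by funext p; rw [T.sgL_apply]
  rw [h1]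
  exact (T.sgL c R).analyticAt p

theorem l1_iU (a : D.K) : l1 L (D.ch a) (D.sh a) = some (iU (D.fr.e1 a)) := D.e1_spec a

theorem yn_l1 {mt : II U → ℕ} {m : D.fr.I → ℕ} (hm : ∀ i : D.fr.I, mt (iU i) = m i) (a : D.K) :
    yn mt (l1 L (D.ch a) (D.sh a)) = m (D.fr.e1 a) := by
  rw [l1_iU, ← hm]
  rfl

theorem yn_l2 {mt : II U → ℕ} {m : D.fr.I → ℕ} (hm : ∀ i : D.fr.I, mt (iU i) = m i) (a : D.K) :
    yn mt (l2 L (D.ch a) (D.sh a)) = Fr_808.ex2 m (D.fr.e2 a) := by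
  show _ = Fr_808.ex2 m (D.e2 a)
  cases h : D.e2 a with
  | none => rw [D.e2_none h]; rfl
  | some E =>
    rw [D.e2_some h]
    exact hm E

theorem l2_iU {a : D.K} {i : D.fr.I} (h : D.fr.e2 a = some i) :
    l2 L (D.ch a) (D.sh a) = some (iU i) := D.e2_some h

/-- from a chart to the frame -/
theorem fac_of_at {g : (Fin 3 → ℂ) → ℂ} {mt : II U → ℕ} {m : D.fr.I → ℕ}
    (hm : ∀ i : D.fr.I, mt (iU i) = m i) {a : D.K} {p₀ : ℂ × ℂ}
    (h : At L g mt (D.ch a) (D.sh a) (T.sg (D.ch a) (S.r (D.ch a)) p₀)) :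
    ∀ H, D.fr.Fac g m a p₀ H → H p₀ ≠ 0 := by
  rintro H ⟨hH, hev⟩ h0
  set c := D.ch a with hc
  set j := D.sh a with hj
  set R := S.r c with hRdef
  have hR : 0 < R := S.pos c
  set q₀ := T.sg c R p₀ with hq₀
  have hgq : gs T c R q₀ = p₀ := gs_sg c hR p₀
  set A : ℕ := m (D.fr.e1 a) with hA
  set B : ℕ := Fr_808.ex2 m (D.fr.e2 a) with hB
  have hHan : AnalyticAt ℂ (fun q => (R : ℂ)⁻¹ ^ A * (R : ℂ)⁻¹ ^ B * H (gs T c R q)) q₀ := by
    refine analyticAt_const.mul (AnalyticAt.comp (g := H) (f := gs T c R) ?_ (gs_an c R q₀))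
    rw [hgq]; exact hH
  refine h _ hHan ?_ (by simp only [hgq, h0, mul_zero])
  have htd : Tendsto (gs T c R) (𝓝 q₀) (𝓝 p₀) := by
    have := (gs_an c R q₀).continuousAt.tendsto
    rwa [hgq] at this
  filter_upwards [htd.eventually hev] with q hq
  have h1 : D.fr.th a (gs T c R q) = T.th c (S.ζ c j) q := by
    show T.thS c R (S.ζ c j) (gs T c R q) = _
    unfold TB.thS
    rw [sg_gs c hR]
  have h2 : D.fr.mo m a (gs T c R q) = (gs T c R q).1 ^ A * (gs T c R q).2 ^ B := rfl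
  rw [h1, h2] at hq
  rw [hq]
  have hl1 := yn_l1 hm a
  have hl2 := yn_l2 hm a
  rw [← hc, ← hj] at hl1 hl2
  by_cases ht : T.IsTop c
  · rw [l1_top ht] at hl1
    rw [l2_top ht] at hl2
    have he1 : L.e1 c j = none := e1_top (D.okK a) ht j
    rw [he1, hl1]
    have hB0 : B = 0 := hl2.symm
    have hgs : gs T c R q = ((R : ℂ)⁻¹ * q.2, (R : ℂ)⁻¹ * q.1) := if_pos ht
    rw [hgs, hB0, ← hA]
    simp only [yn, Option.elim, pow_zero, mul_one, one_mul]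
    rw [mul_pow]; ring
  · rw [l1_not ht] at hl1
    rw [l2_not ht] at hl2
    rw [hl1, hl2]
    have hgs : gs T c R q = ((R : ℂ)⁻¹ * q.1, (R : ℂ)⁻¹ * q.2) := if_neg ht
    rw [hgs, ← hA, ← hB]
    simp only
    rw [mul_pow, mul_pow]; ring

/-- orders -/
theorem lo_of {g : (Fin 3 → ℂ) → ℂ} {r : II U → ℝ}
    (h : ∀ c, Ok S c → IsV c → ∀ (j : Fin T.d) (E : II U), L.e1 c j = some E → ∀ z : ℂ,
      ‖z‖ < S.r c → ∃ (n : ℕ) (H : ℂ × ℂ → ℂ), r E < n ∧ AnalyticAt ℂ H (0, z) ∧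
        ∀ᶠ p in 𝓝 ((0 : ℂ), z), g (T.th c (S.ζ c j) p) = p.1 ^ n * H p) (i : D.fr.I) :
    Ex_121.Lo D.fr g i (r (iU i)) := by
  obtain ⟨c, hc, hV, j, hj⟩ := D.vert (iU i)
  have hR : 0 < S.r c := S.pos c
  let a : D.K := D.mkK hc j (Or.inl hj) (iU_mem D i)
  have ht : ¬ T.IsTop c := not_top_of_V hV
  refine ⟨a, ?_, ?_⟩
  · have h1 : ((D.e1 a : D.I0) : II U) = iU i := D.e1_of (by
      show l1 L c j = _
      rw [l1_not ht]; exact hj)
    exact Subtype.ext h1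
  · have h0 : ∀ᶠ z in 𝓝[≠] (0 : ℂ), ‖z‖ < 1 := by
      have : ∀ᶠ z in 𝓝 (0 : ℂ), ‖z‖ < 1 :=
        continuous_norm.continuousAt.eventually (gt_mem_nhds (by simp))
      exact this.filter_mono nhdsWithin_le_nhds
    refine h0.frequently.mono fun z hz => ?_
    obtain ⟨n, H, hn, hH, hev⟩ := h c (D.ok c hc) hV j (iU i) hj ((S.r c : ℂ) * z) (by
      rw [norm_mul, Complex.norm_real, Real.norm_of_nonneg hR.le]
      exact mul_lt_of_lt_one_right hR hz)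
    have hsg : ∀ p, T.sg c (S.r c) p = ((S.r c : ℂ) * p.1, (S.r c : ℂ) * p.2) := fun p => if_neg ht
    have hsg0 : T.sg c (S.r c) (0, z) = (0, (S.r c : ℂ) * z) := by rw [hsg]; simp
    have htd : Tendsto (T.sg c (S.r c)) (𝓝 ((0 : ℂ), z)) (𝓝 ((0 : ℂ), (S.r c : ℂ) * z)) := by
      have := (sg_an (T := T) c (S.r c) ((0 : ℂ), z)).continuousAt.tendsto
      rwa [hsg0] at this
    refine ⟨n, fun p => (S.r c : ℂ) ^ n * H (T.sg c (S.r c) p), hn, ?_, ?_⟩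
    · refine continuousAt_const.mul (ContinuousAt.comp (g := H) (f := T.sg c (S.r c)) ?_
        (sg_an (T := T) c (S.r c) ((0 : ℂ), z)).continuousAt)
      rw [hsg0]; exact hH.continuousAt
    · filter_upwards [htd.eventually hev] with p hp
      have h1 : D.fr.th a p = T.th c (S.ζ c j) (T.sg c (S.r c) p) := rfl
      rw [h1, hp, hsg]
      simp only
      rw [mul_pow]; ring

end Crest.Agent.R257.ExH_121
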