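import Crest.Agent.R257.ExF_121
import Crest.Agent.R257.ExBD_843

/-!
# Row 257 (S0395), C-EXT (helper82), (g6): `ExN` and `ExT` of the frame `D.fr` from the statements at the
level of `BPDefs_258`

* `lo_of_lov`, `ex_of_exv` : orders in the vertex charts ⟹ `Lo`, `Ex` of the frame;
* `exN_of : ExNBPStmt ⟹ ExN D.fr (GG D hG) (Dv T) (Th)`, `exT_of : ExTBPStmt ⟹ ExT D.fr (GG D hG) (Th)`,
  `Th i := ThE hG (iU i)`.
-/

set_option autoImplicit false
set_option linter.unusedSectionVars false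

open Polynomial Set Filter Topology Metric
open Crest.AlgGeometry.Germ Crest.Agent.R257.AJ387 Crest.Agent.R257.T387
open Crest.Agent.R257.Defs_219 Crest.Agent.R257.Gr1_157
open Crest.Agent.R257.BP_258 Crest.Agent.R257.Rot1_558
open Crest.Agent.R257.Tb_941 Crest.Agent.R257.Tb3_941
open Crest.Agent.R257.FrBP_808 Crest.Agent.R257.ExF_121 Crest.Agent.R257.Exf_843
open Crest.Agent.R257.KiD_121

noncomputable section

namespace Crest.Agent.R257.ExH_82

variable {f : (Fin 3 → ℂ) → ℂ} {T : TB f} {U : Tub T} {S : Sh T}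
variable {L : Lab U S} {nu : II U → ℤ} {n1 n2 : Ch T.m → Fin T.d → ℤ} [Fintype (II U)]
  (D : FrIn L nu n1 n2) (hG : GalPt T)

/-- a vertex chart of the frame with a given first label -/
theorem exists_chart (i : D.fr.I) : ∃ (c : Ch T.m) (j : Fin T.d) (a : D.fr.K), Ok S c ∧ IsV c ∧
    L.e1 c j = some (iU i) ∧ D.fr.e1 a = i ∧
    ∀ p, D.fr.th a p = T.th c (S.ζ c j) ((S.r c : ℂ) * p.1, (S.r c : ℂ) * p.2) := by
  obtain ⟨c, hc, hV, j, hj⟩ := D.vert (iU i)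
  refine ⟨c, j, D.mkK hc j (Or.inl hj) (iU_mem D i), D.ok c hc, hV, hj, ?_, fun p => ?_⟩
  · have h2 : l1 L c j = some (iU i) := by
      rw [l1_not (not_top_of_V hV)]
      exact hj
    have h3 := D.e1_of (a := D.mkK hc j (Or.inl hj) (iU_mem D i)) (E := iU i) h2
    exact Subtype.ext h3
  · show T.th c (S.ζ c j) (T.sg c (S.r c) p) = _
    rw [show T.sg c (S.r c) p = ((S.r c : ℂ) * p.1, (S.r c : ℂ) * p.2) from
      if_neg (not_top_of_V hV)]

variable {D} in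
/-- orders `> r` -/
theorem lo_of_lov {g : (Fin 3 → ℂ) → ℂ} {i : D.fr.I} {r : ℝ} (h : Lov L g (iU i) r) :
    Ex_121.Lo D.fr g i r := by
  obtain ⟨c, j, a, hc, hV, hj, ha, hth⟩ := exists_chart D i
  refine ⟨a, ha, ?_⟩
  have hr := S.pos c
  have hR : (S.r c : ℂ) ≠ 0 := by exact_mod_cast hr.ne'
  have h1 : ∀ᶠ z in 𝓝[≠] (0 : ℂ), ‖z‖ < 1 :=
    Filter.Eventually.filter_mono nhdsWithin_le_nhds
      (continuous_norm.continuousAt.eventually (gt_mem_nhds (by simp)))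
  refine h1.frequently.mono fun z hz => ?_
  obtain ⟨n, H, hn, hH, hev⟩ := h c hc hV j hj ((S.r c : ℂ) * z) (by
    rw [norm_mul, Complex.norm_real, Real.norm_of_nonneg hr.le]
    nlinarith)
  have hT : Continuous (fun p : ℂ × ℂ => (((S.r c : ℂ) * p.1, (S.r c : ℂ) * p.2) : ℂ × ℂ)) := by
    fun_prop
  have hT0 : Tendsto (fun p : ℂ × ℂ => (((S.r c : ℂ) * p.1, (S.r c : ℂ) * p.2) : ℂ × ℂ))
      (𝓝 ((0 : ℂ), z)) (𝓝 ((0 : ℂ), (S.r c : ℂ) * z)) := hT.tendsto' _ _ (by simp)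
  refine ⟨n, fun p => (S.r c : ℂ) ^ n * H ((S.r c : ℂ) * p.1, (S.r c : ℂ) * p.2), hn, ?_, ?_⟩
  · refine continuousAt_const.mul ?_
    refine ContinuousAt.comp (g := H) ?_ hT.continuousAt
    simpa using hH.continuousAt
  · filter_upwards [hT0.eventually hev] with p hp
    rw [hth, hp, mul_pow]
    ring

variable {D} in
/-- orders `= n` -/
theorem ex_of_exv {g : (Fin 3 → ℂ) → ℂ} {i : D.fr.I} {n : ℕ} (h : Exv L g (iU i) n) :
    Ex_121.Ex D.fr g i n := by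
  obtain ⟨c, j, a, hc, hV, hj, ha, hth⟩ := exists_chart D i
  refine ⟨a, ha, ?_⟩
  have hr := S.pos c
  have hR : (S.r c : ℂ) ≠ 0 := by exact_mod_cast hr.ne'
  obtain ⟨H, hH, hev, hne⟩ := h c hc hV j hj 0 (by simpa using hr)
  have hT : Continuous (fun p : ℂ × ℂ => (((S.r c : ℂ) * p.1, (S.r c : ℂ) * p.2) : ℂ × ℂ)) := by
    fun_prop
  -- zeros of `H (0, ·)` are isolated
  have hHa : AnalyticAt ℂ (fun w : ℂ => H (0, w)) 0 :=
    AnalyticAt.comp (g := H) (f := fun w : ℂ => ((0 : ℂ), w)) hH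
      (analyticAt_const.prod analyticAt_id)
  have hz : ∀ᶠ w in 𝓝[≠] (0 : ℂ), H (0, w) ≠ 0 := by
    rcases hHa.eventually_eq_zero_or_eventually_ne_zero with h0 | h0
    · exact absurd (h0.mono fun w hw h1 => h1 hw) hne
    · exact h0
  have hs1 : Tendsto (fun z : ℂ => (S.r c : ℂ) * z) (𝓝[≠] 0) (𝓝[≠] 0) := by
    refine tendsto_nhdsWithin_iff.2 ⟨?_, ?_⟩
    · have : Continuous fun z : ℂ => (S.r c : ℂ) * z := by fun_prop
      exact (this.tendsto' _ _ (mul_zero _)).mono_left nhdsWithin_le_nhds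
    · filter_upwards [self_mem_nhdsWithin] with z hz
      exact mul_ne_zero hR hz
  have hs2 : Tendsto (fun z : ℂ => ((0 : ℂ), (S.r c : ℂ) * z)) (𝓝[≠] 0)
      (𝓝 ((0 : ℂ), (0 : ℂ))) := by
    have : Continuous fun z : ℂ => ((0 : ℂ), (S.r c : ℂ) * z) := by fun_prop
    exact (this.tendsto' _ _ (by simp)).mono_left nhdsWithin_le_nhds
  have hall : ∀ᶠ z in 𝓝[≠] (0 : ℂ), H (0, (S.r c : ℂ) * z) ≠ 0 ∧
      AnalyticAt ℂ H (0, (S.r c : ℂ) * z) ∧ ∀ᶠ p in 𝓝 ((0 : ℂ), (S.r c : ℂ) * z),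
        g (T.th c (S.ζ c j) p) = p.1 ^ n * H p := by
    filter_upwards [hs1.eventually hz, hs2.eventually hH.eventually_analyticAt,
      hs2.eventually hev.eventually_nhds] with z a1 a2 a3 using ⟨a1, a2, a3⟩
  refine hall.frequently.mono fun z hz => ?_
  obtain ⟨a1, a2, a3⟩ := hz
  have hT0 : Tendsto (fun p : ℂ × ℂ => (((S.r c : ℂ) * p.1, (S.r c : ℂ) * p.2) : ℂ × ℂ))
      (𝓝 ((0 : ℂ), z)) (𝓝 ((0 : ℂ), (S.r c : ℂ) * z)) := hT.tendsto' _ _ (by simp)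
  refine ⟨fun p => (S.r c : ℂ) ^ n * H ((S.r c : ℂ) * p.1, (S.r c : ℂ) * p.2), ?_, ?_, ?_⟩
  · refine continuousAt_const.mul ?_
    refine ContinuousAt.comp (g := H) ?_ hT.continuousAt
    simpa using a2.continuousAt
  · simpa using ⟨fun h => absurd h hr.ne', a1⟩
  · filter_upwards [hT0.eventually a3] with p hp
    rw [hth, hp, mul_pow]
    ring

/-- `Th` at the level of the frame -/
def Th (i : D.fr.I) : Prop := ThE hG (iU i)

theorem inv_zero : Ex_121.Inv (GG D hG) (fun _ : D.fr.I => (0 : ℝ)) := fun _ _ _ => rfl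

theorem ex_zero (E : II U) : ex D hG (fun _ => (0 : ℝ)) (fun _ => 0) E = 0 := by
  refine ex_all (D := D) (hG := hG) (P := fun E => ex D hG (fun _ => (0 : ℝ)) (fun _ => 0) E = 0)
    (fun γ E h => ?_) (fun i => ?_) (fun E h => ?_) E
  · rwa [ex_inv (inv_zero D hG) (fun _ _ => rfl)] at h
  · exact ex_coe (inv_zero D hG) i
  · exact ex_not h

/-- **`ExN` of the frame** -/
theorem exN_of (h : ExNBPStmt hG L nu) : Ex_121.ExN D.fr (GG D hG) (Dv T) (Th D hG) := by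
  intro i₀ hTh m y hd hm hy hdg hyo hyn hdy
  have hdv : 0 < Dv T :=
    Nat.mul_pos T.N_pos (Nat.mul_pos T.M_pos (Nat.factorial_pos _))
  obtain ⟨mt, yt, a1, a2, a3, a4, a5, a6, a7⟩ := exists_ext D hG hdv hd hm hy
  have hself : i₀ ∈ Ex_121.orb (GG D hG) i₀ := ⟨1, (GG D hG).one_mem, rfl⟩
  have hdgt : ∀ E, dg (Mx L) yt E < 0 := fun E => by
    have h1 := a7 (fun _ => 0) (inv_zero D hG) (fun j => by simpa using hdy j) E
    rw [ex_zero] at h1
    simpa using h1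
  have hmt : dg (Mx L) (fun E => (mt E : ℝ)) (iU i₀) = 0 := by
    have h1 := D.fr_dg (fun E => (mt E : ℝ)) i₀
    have h2 : (fun j : D.I0 => (mt j : ℝ)) = fun j : D.fr.I => (m j : ℝ) := by
      funext j
      have := a4 j
      exact_mod_cast this
    rw [h2] at h1
    rw [← hdg i₀ hself]
    exact h1.symm
  have hnu : ∀ γ E, nu (piH hG γ E) = nu E := fun γ E => nu_piH D hG γ E
  obtain ⟨g, hg, h1, h2⟩ := h (iU i₀) hTh mt yt a1 a2 a3 hmt (by
    rw [a4, a5]; exact hyo i₀ hself) (fun E hE => by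
    by_cases hex : ∃ γ, piH hG γ E ∈ D.I0
    · obtain ⟨γ, hγ⟩ := hex
      set j : D.fr.I := ⟨piH hG γ E, hγ⟩ with hj
      have hjU : iU j = piH hG γ E := rfl
      have hnot : j ∉ Ex_121.orb (GG D hG) i₀ := by
        rw [mem_orb_iff]
        rintro ⟨δ, hδ⟩
        refine hE (γ⁻¹ * δ) ?_
        rw [map_mul, Equiv.Perm.mul_apply, hδ, hjU, inv_self]
      have h3 := hyn j hnot
      rw [← a3 γ E, ← a2 γ E, ← hnu γ E, ← hjU, a4, a5]
      exact h3
    · exact a6 E hex) hdgt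
  refine ⟨g, hg, fun j hj => ?_, fun j hj => ?_⟩
  · have h3 := h1 (iU j) (fun γ hγ => hj ((mem_orb_iff D hG i₀ j).2 ⟨γ, hγ⟩))
    rw [a5] at h3
    exact lo_of_lov h3
  · obtain ⟨γ, hγ⟩ := (mem_orb_iff D hG i₀ j).1 hj
    have h3 := h2 γ
    rw [hγ, ← a2 γ (iU i₀), hγ, a4] at h3
    exact ex_of_exv h3

/-- **`ExT` of the frame** -/
theorem exT_of (h : ExTBPStmt hG L nu) : Ex_121.ExT D.fr (GG D hG) (Th D hG) := by
  intro i₀ hTh n hn
  obtain ⟨ε, hε, hε'⟩ := h (iU i₀) hTh n hn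
  refine ⟨ε, hε, fun y hy hdy hlt => ?_⟩
  obtain ⟨mt, yt, a1, a2, a3, a4, a5, a6, a7⟩ := exists_ext D hG one_pos (m := fun _ => 0)
    (fun _ => one_dvd _) (fun _ _ _ => rfl) hy
  have hdgt : ∀ E, dg (Mx L) yt E < 0 := fun E => by
    have h1 := a7 (fun _ => 0) (inv_zero D hG) (fun j => by simpa using hdy j) E
    rw [ex_zero] at h1
    simpa using h1
  obtain ⟨g, hg, h1, h2⟩ := hε' yt a3 hdgt (fun E hE => by
    have hmem : E ∈ D.I0 := by
      rcases hE with rfl | hE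
      · exact iU_mem D i₀
      · exact cls_step (iU_mem D i₀) hE
    have h3 := a5 ⟨E, hmem⟩
    have h4 : iU (D := D) ⟨E, hmem⟩ = E := rfl
    rw [h4] at h3
    rw [h3]
    exact hlt _)
  refine ⟨g, hg, fun j hj => ?_, fun j hj => ?_⟩
  · have h3 := h1 (iU j) (fun γ hγ => hj ((mem_orb_iff D hG i₀ j).2 ⟨γ, hγ⟩))
    rw [a5] at h3
    exact lo_of_lov h3
  · obtain ⟨γ, hγ⟩ := (mem_orb_iff D hG i₀ j).1 hj
    have h3 := h2 γ
    rw [hγ] at h3
    exact ex_of_exv h3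

end Crest.Agent.R257.ExH_82
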