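import Crest.Agent.R257.ExH_121

/-!
Row 257 (S0395), C-EXT (helper121): **`ExP` and `ExE` for the frame `D.fr`**, from `KillBPStmt` and
`KOrbStmt`.
-/

set_option autoImplicit false
set_option linter.unusedSectionVars false

open Polynomial Set Filter Topology Metric
open Crest.AlgGeometry.Germ Crest.Agent.R257.AJ387 Crest.Agent.R257.T387
open Crest.Agent.R257.Defs_219 Crest.Agent.R257.Gr1_157
open Crest.Agent.R257.BP_258 Crest.Agent.R257.Rot1_558 Crest.Agent.R257.Vt1_558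
open Crest.Agent.R257.Vt3_558 Crest.Agent.R257.Tr_121
open Crest.Agent.R257.Tb_941 Crest.Agent.R257.Tb3_941
open Crest.Agent.R257.FrBP_808 Crest.Agent.R257.ExF_121 Crest.Agent.R257.ExG_121
open Crest.Agent.R257.KiD_121 Crest.Agent.R257.ExH_121

noncomputable section

namespace Crest.Agent.R257.ExI_121

variable {f : (Fin 3 → ℂ) → ℂ} {T : TB f} {U : Tub T} {S : Sh T} {L : Lab U S}
  {nu : II U → ℤ} {n1 n2 : Ch T.m → Fin T.d → ℤ} [Fintype (II U)] (D : FrIn L nu n1 n2)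
  (hG : GalPt T) (hR : RetStmt U)

theorem Dv_pos : 0 < Dv T := Nat.mul_pos T.N_pos (Nat.mul_pos T.M_pos (Nat.factorial_pos _))

/-- the function of an orbit -/
def onO (o : Option D.fr.I) (t : ℝ) (j : D.fr.I) : ℝ :=
  o.elim 0 fun i => Ex_121.on (Ex_121.orb (GG D hG) i) t j

variable {D hG}

theorem on_inv (i : D.fr.I) (t : ℝ) :
    Ex_121.Inv (GG D hG) (Ex_121.on (Ex_121.orb (GG D hG) i) t) := by
  intro σ hσ j
  have h1 : σ j ∈ Ex_121.orb (GG D hG) i ↔ j ∈ Ex_121.orb (GG D hG) i := by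
    constructor
    · rintro ⟨τ, hτ, h⟩
      exact ⟨σ⁻¹ * τ, (GG D hG).mul_mem ((GG D hG).inv_mem hσ) hτ, by simp [h]⟩
    · rintro ⟨τ, hτ, rfl⟩
      exact ⟨σ * τ, (GG D hG).mul_mem hσ hτ, rfl⟩
  by_cases h : j ∈ Ex_121.orb (GG D hG) i
  · rw [Ex_121.on_mem h, Ex_121.on_mem (h1.2 h)]
  · rw [Ex_121.on_notMem h, Ex_121.on_notMem fun h' => h (h1.1 h')]

theorem onO_inv (o : Option D.fr.I) (t : ℝ) : Ex_121.Inv (GG D hG) (onO D hG o t) := by
  cases o with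
  | none => intro σ hσ j; rfl
  | some i => exact on_inv i t

theorem ex_add {y y' : D.fr.I → ℝ} (E : II U) :
    ex D hG (fun j => y j + y' j) (fun _ => 0) E =
      ex D hG y (fun _ => 0) E + ex D hG y' (fun _ => 0) E := by
  unfold ExF_121.ex ExF_121.ext
  split_ifs <;> simp

theorem onO_ex (o : Option D.fr.I) (t : ℝ) (E : II U) :
    t * exo hG hR (o.map iU) E = ex D hG (onO D hG o t) (fun _ => 0) E := by
  cases o with
  | none =>
    show t * exo hG hR none E = _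
    rw [exo_none, mul_zero]
    unfold ExF_121.ex ExF_121.ext
    split_ifs <;> rfl
  | some i => exact exo_eq hR i t E

variable {hR}

/-- one kill -/
theorem kill_step (hK : KillBPStmt hG hR L nu n1 n2) (hOrb : KOrbStmt U) {c₀ : Ch T.m}
    (hc₀ : Ok S c₀) (j₀ : Fin T.d) {a b : ℕ} (ha : 0 < a) (hb : 0 < b)
    (hab : (a = 1 ∧ b = 1) ∨ (L.e1 c₀ j₀ ≠ none ∧ L.e2 c₀ j₀ ≠ none)) {m : D.fr.I → ℕ}
    {y : D.fr.I → ℝ} (hmD : ∀ i, Dv T ∣ m i) (hm : Ex_121.Inv (GG D hG) m)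
    (hy : Ex_121.Inv (GG D hG) y) (hlt : ∀ j, y j + D.fr.nu j < m j) {t : ℝ} (ht : 0 < t)
    {o1 o2 : Option D.fr.I} (h1 : L.e1 c₀ j₀ = o1.map iU) (h2 : L.e2 c₀ j₀ = o2.map iU)
    (hle : (a : ℝ) * Fr_808.ex2 m o1 + b * Fr_808.ex2 m o2 ≤
      a * (o1.elim 0 y + n1 c₀ j₀) + b * (o2.elim 0 y + n2 c₀ j₀) + a * b * t)
    (hdg : ∀ j, dg D.fr.M y j + (onO D hG o1 ((T.N * T.d : ℕ) * t * a) j +
      onO D hG o2 ((T.N * T.d : ℕ) * t * b) j) < 0) :
    ∃ (g : (Fin 3 → ℂ) → ℂ) (mt : II U → ℕ), AnalyticAt ℂ g 0 ∧ (∀ i : D.fr.I, mt (iU i) = m i) ∧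
      (∀ i, Ex_121.Lo D.fr g i (y i + D.fr.nu i)) ∧ KC L g mt c₀ j₀ := by
  obtain ⟨mt, yt, k1, k2, k3, k4, k5, k6, k7⟩ := exists_ext D hG (Dv_pos (T := T)) hmD hm hy
  obtain ⟨κ, hκ⟩ := hOrb hG hR S L c₀ hc₀ j₀
  have hynm : ∀ o : Option D.fr.I, yn mt (o.map iU) = Fr_808.ex2 m o := by
    intro o
    cases o with
    | none => rfl
    | some i => exact k4 i
  have hyoy : ∀ o : Option D.fr.I, yo yt (o.map iU) = o.elim 0 y := by
    intro o
    cases o with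
    | none => rfl
    | some i => exact k5 i
  have hall : ∀ E, yt E + nu E < mt E := by
    refine ex_all (D := D) (hG := hG) (fun γ E h => ?_) (fun i => ?_) k6
    · rwa [k2, k3, nu_piH D] at h
    · rw [k4, k5]; exact hlt i
  obtain ⟨g, hg, g1, g2⟩ := hK c₀ hc₀ j₀ κ hκ a b ha hb hab mt yt k1
    (fun ξ hξ E => forall_pi (P := fun E' E => mt E' = mt E) hG hR k2 hξ E)
    (fun ξ hξ E => forall_pi (P := fun E' E => yt E' = yt E) hG hR k3 hξ E) hall t ht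
    (by rw [h1, h2, hynm, hynm, hyoy, hyoy]; exact hle) (fun E => by
      have h3 := k7 (fun j => onO D hG o1 ((T.N * T.d : ℕ) * t * a) j +
        onO D hG o2 ((T.N * T.d : ℕ) * t * b) j) (fun σ hσ j => by
          show _ + _ = _ + _
          rw [onO_inv o1 _ σ hσ j, onO_inv o2 _ σ hσ j]) hdg E
      rw [ex_add, ← onO_ex hR, ← onO_ex hR, ← h1, ← h2] at h3
      have e : (T.N * T.d : ℕ) * t * ((a : ℝ) * exo hG hR (L.e1 c₀ j₀) E +
          b * exo hG hR (L.e2 c₀ j₀) E) = (T.N * T.d : ℕ) * t * a * exo hG hR (L.e1 c₀ j₀) E +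
          (T.N * T.d : ℕ) * t * b * exo hG hR (L.e2 c₀ j₀) E := by ring
      rw [e]
      exact h3)
  refine ⟨g, mt, hg, k4, fun i => ?_, g2⟩
  have h3 := lo_of (D := D) (r := fun E => yt E + nu E) g1 i
  simp only [k5] at h3
  exact h3

variable (D) in
/-- the bound -/
def NB : ℝ := 1 + ∑ c ∈ D.F, ∑ j, (|(n1 c j : ℝ)| + |(n2 c j : ℝ)|)

theorem NB_ge : 1 ≤ NB D := by
  unfold NB
  have : 0 ≤ ∑ c ∈ D.F, ∑ j, (|(n1 c j : ℝ)| + |(n2 c j : ℝ)|) :=
    Finset.sum_nonneg fun c _ => Finset.sum_nonneg fun j _ => by positivity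
  linarith

theorem le_NB {c : Ch T.m} (hc : c ∈ D.F) (j : Fin T.d) :
    |(n1 c j : ℝ)| + |(n2 c j : ℝ)| ≤ NB D := by
  have h1 : |(n1 c j : ℝ)| + |(n2 c j : ℝ)| ≤ ∑ j, (|(n1 c j : ℝ)| + |(n2 c j : ℝ)|) :=
    Finset.single_le_sum (f := fun j => |(n1 c j : ℝ)| + |(n2 c j : ℝ)|)
      (fun j _ => by positivity) (Finset.mem_univ j)
  have h2 : ∑ j, (|(n1 c j : ℝ)| + |(n2 c j : ℝ)|) ≤
      ∑ c ∈ D.F, ∑ j, (|(n1 c j : ℝ)| + |(n2 c j : ℝ)|) :=
    Finset.single_le_sum (f := fun c => ∑ j, (|(n1 c j : ℝ)| + |(n2 c j : ℝ)|))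
      (fun c _ => Finset.sum_nonneg fun j _ => by positivity) hc
  unfold NB
  linarith

theorem on_mono {A : Set D.fr.I} {t s : ℝ} (h : t ≤ s) (j : D.fr.I) :
    Ex_121.on A t j ≤ Ex_121.on A s j := by
  unfold Ex_121.on
  split_ifs
  · exact h
  · exact le_rfl

/-- a kill at a point of exactly one exceptional axis -/
theorem kill_pt (hK : KillBPStmt hG hR L nu n1 n2) (hOrb : KOrbStmt U) {c₀ : Ch T.m}
    (hc₀ : Ok S c₀) (j₀ : Fin T.d) {i : D.fr.I} {n : ℤ}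
    (hlab : (L.e1 c₀ j₀ = some (iU i) ∧ L.e2 c₀ j₀ = none ∧ n = n2 c₀ j₀) ∨
      (L.e1 c₀ j₀ = none ∧ L.e2 c₀ j₀ = some (iU i) ∧ n = n1 c₀ j₀)) (hn : n ≤ -1)
    (hnb : |(n : ℝ)| ≤ NB D) {m : D.fr.I → ℕ}
    {y : D.fr.I → ℝ} (hmD : ∀ i, Dv T ∣ m i) (hm : Ex_121.Inv (GG D hG) m)
    (hy : Ex_121.Inv (GG D hG) y) (hlt : ∀ j, y j + D.fr.nu j < m j)
    (hdg : ∀ j, dg D.fr.M y j + Ex_121.on (Ex_121.orb (GG D hG) i)
      (((T.N * T.d : ℕ) * NB D) * ((m i - D.fr.nu i - y i) + 1)) j < 0) :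
    ∃ (g : (Fin 3 → ℂ) → ℂ) (mt : II U → ℕ), AnalyticAt ℂ g 0 ∧ (∀ i : D.fr.I, mt (iU i) = m i) ∧
      (∀ i, Ex_121.Lo D.fr g i (y i + D.fr.nu i)) ∧ KC L g mt c₀ j₀ := by
  set z : ℝ := m i - D.fr.nu i - y i with hz
  have hz0 : 0 < z := by have := hlt i; rw [hz]; linarith
  have hnR : (n : ℝ) ≤ -1 := by exact_mod_cast hn
  have habs : |(n : ℝ)| = -n := abs_of_nonpos (by linarith)
  rw [habs] at hnb
  set t : ℝ := z - n with htdef
  have ht : 0 < t := by rw [htdef]; linarith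
  have hNd : (0 : ℝ) ≤ (T.N * T.d : ℕ) := Nat.cast_nonneg _
  have hNB := NB_ge (D := D)
  have hle : (T.N * T.d : ℕ) * t * ((1 : ℕ) : ℝ) ≤ ((T.N * T.d : ℕ) * NB D) * (z + 1) := by
    rw [Nat.cast_one, mul_one, mul_assoc]
    refine mul_le_mul_of_nonneg_left ?_ hNd
    rw [htdef]
    nlinarith
  rcases hlab with ⟨h1, h2, h3⟩ | ⟨h1, h2, h3⟩
  · have hn1 : (n1 c₀ j₀ : ℝ) = D.fr.nu i := by
      have := D.jac.some1 c₀ hc₀ j₀ _ h1
      rw [this]; rfl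
    refine kill_step hK hOrb hc₀ j₀ one_pos one_pos (Or.inl ⟨rfl, rfl⟩) hmD hm hy hlt ht
      (o1 := some i) (o2 := none) h1 h2 ?_ fun j => ?_
    · simp only [Fr_808.ex2, Option.elim]
      rw [hn1, htdef, hz, h3]
      push_cast
      linarith
    · have h4 := hdg j
      have h5 := on_mono (A := Ex_121.orb (GG D hG) i) hle j
      show _ + (Ex_121.on (Ex_121.orb (GG D hG) i) _ j + 0) < 0
      linarith
  · have hn1 : (n2 c₀ j₀ : ℝ) = D.fr.nu i := by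
      have := D.jac.some2 c₀ hc₀ j₀ _ h2
      rw [this]; rfl
    refine kill_step hK hOrb hc₀ j₀ one_pos one_pos (Or.inl ⟨rfl, rfl⟩) hmD hm hy hlt ht
      (o1 := none) (o2 := some i) h1 h2 ?_ fun j => ?_
    · simp only [Fr_808.ex2, Option.elim]
      rw [hn1, htdef, hz, h3]
      push_cast
      linarith
    · have h4 := hdg j
      have h5 := on_mono (A := Ex_121.orb (GG D hG) i) hle j
      show _ + (0 + Ex_121.on (Ex_121.orb (GG D hG) i) _ j) < 0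
      linarith

/-- the labels of a vertex chart -/
theorem vc_e2 {v : Vtx} (hv : v ∈ Vs T) {x : ℂ} (hx : x ∉ sp T v) (j : Fin T.d) :
    L.e2 (vc S v x) j = none := by
  have := L.v_e2 _ (ok_vc hv hx) j
  simp only [vc, v2] at this
  exact Option.map_eq_none_iff.1 this

/-- **`ExP`** -/
theorem exP (hK : KillBPStmt hG hR L nu n1 n2) (hOrb : KOrbStmt U) :
    Ex_121.ExP D.fr (GG D hG) ((T.N * T.d : ℕ) * NB D) (Dv T) := by
  intro c p₀ i hp₀ hcase m y hmD hm hy hlt hdg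
  set cc : Ch T.m := D.ch c with hcc
  set jj : Fin T.d := D.sh c with hjj
  have hok : Ok S cc := D.okK c
  have hccF : cc ∈ D.F := c.1.1.2
  have hR0 : 0 < S.r cc := S.pos cc
  have hRC : (S.r cc : ℂ) ≠ 0 := by exact_mod_cast hR0.ne'
  have hnrm : ∀ z : ℂ, ‖z‖ ≤ 1 → ‖(S.r cc : ℂ) * z‖ ≤ S.r cc := fun z hz => by
    rw [norm_mul, Complex.norm_real, Real.norm_of_nonneg hR0.le]
    exact mul_le_of_le_one_right hR0.le hz
  -- it is enough to kill at `(cc, jj, sg p₀)`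
  suffices hs : ∃ (g : (Fin 3 → ℂ) → ℂ) (mt : II U → ℕ), AnalyticAt ℂ g 0 ∧
      (∀ i : D.fr.I, mt (iU i) = m i) ∧ (∀ i, Ex_121.Lo D.fr g i (y i + D.fr.nu i)) ∧
      At L g mt cc jj (T.sg cc (S.r cc) p₀) by
    obtain ⟨g, mt, hg, hmt, hlo, hat⟩ := hs
    exact ⟨g, hg, hlo, fac_of_at hmt hat⟩
  -- interior points
  have hint : ∀ {q₀ : ℂ × ℂ}, (∃ (x : ℂ) (j' : Fin T.d), x ∉ sp T (iU i).1.1 ∧
      L.e1 (vc S (iU i).1.1 x) j' = some (iU i) ∧ ∀ (g : (Fin 3 → ℂ) → ℂ) (m : II U → ℕ),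
        AnalyticAt ℂ g 0 → KC L g m (vc S (iU i).1.1 x) j' → At L g m cc jj q₀) →
      ∃ (g : (Fin 3 → ℂ) → ℂ) (mt : II U → ℕ), AnalyticAt ℂ g 0 ∧
        (∀ i : D.fr.I, mt (iU i) = m i) ∧ (∀ i, Ex_121.Lo D.fr g i (y i + D.fr.nu i)) ∧
        At L g mt cc jj q₀ := by
    rintro q₀ ⟨x, j', hx, hE, htr⟩
    have hv : (iU i).1.1 ∈ Vs T := (iU i).1.2
    have hokv := ok_vc (S := S) hv hx
    have hn2 : n2 (vc S (iU i).1.1 x) j' = -1 := D.jac.vert _ hokv trivial j'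
    obtain ⟨g, mt, hg, hmt, hlo, hkc⟩ := kill_pt hK hOrb hokv j' (i := i) (n := -1)
      (Or.inl ⟨hE, vc_e2 hv hx j', hn2.symm⟩) le_rfl (by
        have := NB_ge (D := D)
        push_cast
        rw [abs_neg, abs_one]; exact this) hmD hm hy hlt hdg
    exact ⟨g, mt, hg, hmt, hlo, htr g mt hg hkc⟩
  -- the origin of `cc`
  have horig : ∀ {n : ℤ}, ((L.e1 cc jj = some (iU i) ∧ L.e2 cc jj = none ∧ n = n2 cc jj) ∨
      (L.e1 cc jj = none ∧ L.e2 cc jj = some (iU i) ∧ n = n1 cc jj)) → n ≤ -1 →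
      |(n : ℝ)| ≤ NB D → ∃ (g : (Fin 3 → ℂ) → ℂ) (mt : II U → ℕ), AnalyticAt ℂ g 0 ∧
        (∀ i : D.fr.I, mt (iU i) = m i) ∧ (∀ i, Ex_121.Lo D.fr g i (y i + D.fr.nu i)) ∧
        At L g mt cc jj (0, 0) := by
    intro n h1 h2 h3
    obtain ⟨g, mt, hg, hmt, hlo, hkc⟩ := kill_pt hK hOrb hok jj h1 h2 h3 hmD hm hy hlt hdg
    exact ⟨g, mt, hg, hmt, hlo, hkc.at⟩
  by_cases ht : T.IsTop cc
  · have hsg : T.sg cc (S.r cc) p₀ = ((S.r cc : ℂ) * p₀.2, (S.r cc : ℂ) * p₀.1) := if_pos ht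
    rcases hcase with ⟨h1, h2, h3⟩ | ⟨h1, -, -⟩
    · have hl1 := l1_iU (D := D) c
      rw [← hcc, ← hjj, l1_top ht, h1] at hl1
      have he1 : L.e1 cc jj = none := e1_top hok ht jj
      rw [hsg, h2, mul_zero]
      by_cases hp2 : p₀.2 = 0
      · rw [hp2, mul_zero]
        refine horig (Or.inr ⟨he1, hl1, rfl⟩) (D.jac.none1 cc hok jj he1) ?_
        have := le_NB (D := D) hccF jj
        have h5 := abs_nonneg (n2 cc jj : ℝ)
        linarith
      · exact hint (at2 hR D.ord hok (hnrm _ hp₀.1.2) (mul_ne_zero hRC hp2) hl1)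
    · have hl2 := l2_iU (D := D) h1
      rw [← hcc, ← hjj, l2_top ht] at hl2
      exact absurd hl2 (by simp)
  · have hsg : T.sg cc (S.r cc) p₀ = ((S.r cc : ℂ) * p₀.1, (S.r cc : ℂ) * p₀.2) := if_neg ht
    rcases hcase with ⟨h1, h2, h3⟩ | ⟨h1, h2, h3⟩
    · have hl1 := l1_iU (D := D) c
      rw [← hcc, ← hjj, l1_not ht, h1] at hl1
      rw [hsg, h2, mul_zero]
      by_cases hp2 : IsV cc ∨ p₀.2 ≠ 0
      · exact hint (at1 hR D.ord hok (hnrm _ hp₀.1.2) (hp2.imp_right (mul_ne_zero hRC)) hl1)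
      · push Not at hp2
        have he2 : L.e2 cc jj = none := by
          have h4 : D.fr.e2 c = none := h3.resolve_right (by rw [hp2.2]; simp)
          have h5 : l2 L cc jj = none := D.e2_none h4
          rwa [l2_not ht] at h5
        rw [hp2.2, mul_zero]
        refine horig (Or.inl ⟨hl1, he2, rfl⟩) (D.jac.none2 cc hok jj he2) ?_
        have := le_NB (D := D) hccF jj
        have h5 := abs_nonneg (n1 cc jj : ℝ)
        linarith
    · have hl2 := l2_iU (D := D) h1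
      rw [← hcc, ← hjj, l2_not ht] at hl2
      rw [hsg, h2, mul_zero]
      exact hint (at2 hR D.ord hok (hnrm _ hp₀.1.1) (mul_ne_zero hRC h3) hl2)

/-- **`ExE`** -/
theorem exE (hK : KillBPStmt hG hR L nu n1 n2) (hOrb : KOrbStmt U) :
    Ex_121.ExE D.fr (GG D hG) ((T.N * T.d : ℕ) * NB D) (Dv T) := by
  intro c i i' h1 h2 a b ha hb hab m y hmD hm hy hlt hdg
  set cc : Ch T.m := D.ch c with hcc
  set jj : Fin T.d := D.sh c with hjj
  have hok : Ok S cc := D.okK c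
  have hl2 := l2_iU (D := D) h2
  have ht : ¬ T.IsTop cc := by
    intro ht
    rw [← hcc, ← hjj, l2_top ht] at hl2
    exact absurd hl2 (by simp)
  have hl1 := l1_iU (D := D) c
  rw [← hcc, ← hjj, l1_not ht, h1] at hl1
  rw [← hcc, ← hjj, l2_not ht] at hl2
  set z : ℝ := m i - D.fr.nu i - y i with hz
  set z' : ℝ := m i' - D.fr.nu i' - y i' with hz'
  have hz0 : 0 < z := by have := hlt i; rw [hz]; linarith
  have hz0' : 0 < z' := by have := hlt i'; rw [hz']; linarith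
  have haR : (0 : ℝ) < a := by exact_mod_cast ha
  have hbR : (0 : ℝ) < b := by exact_mod_cast hb
  set t : ℝ := (a * z + b * z') / (a * b) with htdef
  have hs0 : 0 < (a : ℝ) * z + b * z' := by positivity
  have ht0 : 0 < t := by rw [htdef]; positivity
  have hta : t * a = (a * z + b * z') / b := by rw [htdef]; field_simp
  have htb : t * b = (a * z + b * z') / a := by rw [htdef]; field_simp
  have hNd : (0 : ℝ) ≤ (T.N * T.d : ℕ) := Nat.cast_nonneg _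
  have hNB := NB_ge (D := D)
  have hNdB : ((T.N * T.d : ℕ) : ℝ) ≤ (T.N * T.d : ℕ) * NB D := le_mul_of_one_le_right hNd hNB
  have hn1 : (n1 cc jj : ℝ) = D.fr.nu i := by
    have := D.jac.some1 cc hok jj _ hl1
    rw [this]; rfl
  have hn2 : (n2 cc jj : ℝ) = D.fr.nu i' := by
    have := D.jac.some2 cc hok jj _ hl2
    rw [this]; rfl
  obtain ⟨g, mt, hg, hmt, hlo, hkc⟩ := kill_step hK hOrb hok jj ha hb
    (Or.inr ⟨by rw [hl1]; simp, by rw [hl2]; simp⟩) hmD hm hy hlt ht0 (o1 := some i)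
    (o2 := some i') hl1 hl2 (by
      simp only [Fr_808.ex2, Option.elim]
      rw [hn1, hn2]
      have e : (a : ℝ) * b * t = a * z + b * z' := by rw [htdef]; field_simp
      rw [e, hz, hz']
      linarith) (fun j => by
      have h4 := hdg j
      have e1 : (T.N * T.d : ℕ) * t * a ≤ (T.N * T.d : ℕ) * NB D * ((a * z + b * z') / b) := by
        rw [mul_assoc, hta]
        exact mul_le_mul_of_nonneg_right hNdB (div_nonneg hs0.le hbR.le)
      have e2 : (T.N * T.d : ℕ) * t * b ≤ (T.N * T.d : ℕ) * NB D * ((a * z + b * z') / a) := by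
        rw [mul_assoc, htb]
        exact mul_le_mul_of_nonneg_right hNdB (div_nonneg hs0.le haR.le)
      have h5 := on_mono (A := Ex_121.orb (GG D hG) i) e1 j
      have h6 := on_mono (A := Ex_121.orb (GG D hG) i') e2 j
      show _ + (Ex_121.on (Ex_121.orb (GG D hG) i) _ j +
        Ex_121.on (Ex_121.orb (GG D hG) i') _ j) < 0
      linarith)
  refine ⟨g, hg, hlo, fac_of_at (p₀ := (0, 0)) hmt ?_⟩
  have hsg : T.sg (D.ch c) (S.r (D.ch c)) (0, 0) = (0, 0) := by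
    unfold TB.sg
    split_ifs <;> simp
  rw [hsg]
  exact hkc.at

end Crest.Agent.R257.ExI_121
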