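import Crest.Agent.R257.Exf3_843

/-!
# Row 257, ExN (helper843), file 4: `exf_N`, the invariant zero free function on a null component
-/

set_option autoImplicit false
set_option linter.unusedSectionVars false

open Polynomial Set Filter Topology Metric
open Crest.AlgGeometry.Germ Crest.Agent.R257.AJ387 Crest.Agent.R257.T387
open Crest.Agent.R257.Gr1_157 Crest.Agent.R257.HoB_843 Crest.Agent.R257.BP_258
open Crest.Agent.R257.Wt_258 Crest.Agent.R257.Cpt1_419 Crest.Agent.R257.Hv_174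
open Crest.Agent.R257.Rsn_843 Crest.Agent.R257.Tb3_941 Crest.Agent.R257.Rot1_558
open Crest.Agent.R257.Vt1_558 Crest.Agent.R257.Vt3_558 Crest.Agent.R257.Vt4_558

noncomputable section

namespace Crest.Agent.R257.Exf_843

variable {f : (Fin 3 → ℂ) → ℂ} {T : TB f} {S : Sh T} {U : Tub T}

namespace LamD

variable {L : Lab U S} {m : II U → ℕ} {v : Vtx} {r : ℝ} {lam : XV U v → ℝ}

lemma lt_r (h : LamD L m v r lam) {c c' : Ch T.m} (hc : c ∈ NC S) (hc' : c' ∈ NC S) {b : ℂ}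
    (hb : ‖b‖ ^ lx T c < r) : ‖b‖ < S.r c' :=
  lt_of_pow_lt_pow_left₀ (lx T c) (S.pos c').le (hb.trans (h.rad c hc c' hc'))

lemma near (h : LamD L m v r lam) (hv : v ∈ Vs T) {x : XV U v}
    (hx : ∃ c ∈ sp T v, ‖pV U v x - c‖ < r) : ∃ c, Ok S c ∧ ¬ IsV c ∧ v1 T c = some v ∧
      ∃ γ, End1 U S c v γ ∧ ∃ j b, 0 < ‖b‖ ∧ ‖b‖ ^ lx T c < r ∧ γ j b = x := by
  obtain ⟨c₀, hc₀, hx⟩ := hx
  obtain ⟨c, hc, hn, h1, hcx⟩ := exists_att S hv hc₀
  obtain ⟨γ, hγ, -⟩ := (End_636.endStmt L c hc ⟨v, hv⟩).1 h1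
  have hl : 0 < lx T c := lx_pos hc.1
  obtain ⟨b, hb⟩ := IsAlgClosed.exists_pow_nat_eq (pV U v x - c₀) hl
  have hnb : ‖b‖ ^ lx T c = ‖pV U v x - c₀‖ := by rw [← norm_pow, hb]
  have hne : pV U v x ≠ c₀ := fun h' => x.2.2.1 (by
    have h2 : x.1.1 = c₀ := h'
    rw [h2]; exact hc₀)
  have hb0 : 0 < ‖b‖ := by
    rw [norm_pos_iff]
    rintro rfl
    rw [zero_pow hl.ne'] at hb
    exact hne (sub_eq_zero.1 hb.symm)
  have hbr : ‖b‖ ^ lx T c < r := by rw [hnb]; exact hx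
  have hm := mem_NC.2 ⟨hc, hn⟩
  have hbS := h.lt_r hm hm hbr
  obtain ⟨j, hj⟩ := hγ.surj b ⟨Or.inr hb0, by linarith [S.pos c]⟩ x (by rw [hb, hcx]; ring)
  exact ⟨c, hc, hn, h1, γ, hγ, j, b, hb0, hbr, hj⟩

lemma ec_NC (hv : v ∈ Vs T) : ec S v ∈ NC S := mem_NC.2 ⟨Lab_931.ok_ec S hv, by simp [ec, IsV]⟩

lemma far (h : LamD L m v r lam) (hv : v ∈ Vs T) {x : XV U v}
    (hx : r⁻¹ < ‖pV U v x‖) : 
      ∃ γ, End2 U S (ec S v) v γ ∧ ∃ j b, 0 < ‖b‖ ∧ ‖b‖ ^ lx T (ec S v) < r ∧ γ j b = x := by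
  have hc := Lab_931.ok_ec S hv
  obtain ⟨γ, hγ, -⟩ := (End_636.endStmt L _ hc ⟨v, hv⟩).2 (Lab_931.v2_ec S hv)
  have hl : 0 < lx T (ec S v) := lx_pos hc.1
  obtain ⟨b, hb⟩ := IsAlgClosed.exists_pow_nat_eq (pV U v x)⁻¹ hl
  have hr := h.sep.pos
  have hw : 0 < ‖pV U v x‖ := (inv_pos.2 hr).trans hx
  have hnb : ‖b‖ ^ lx T (ec S v) = ‖pV U v x‖⁻¹ := by rw [← norm_pow, hb, norm_inv]
  have hb0 : 0 < ‖b‖ := by
    rw [norm_pos_iff]
    rintro rfl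
    rw [norm_zero, zero_pow hl.ne'] at hnb
    exact (inv_pos.2 hw).ne hnb
  have hbr : ‖b‖ ^ lx T (ec S v) < r := by
    rw [hnb]; exact inv_lt_of_inv_lt₀ hr hx
  have hbS := h.lt_r (ec_NC hv) (ec_NC hv) hbr
  obtain ⟨j, hj⟩ := hγ.surj b ⟨hb0, by linarith [S.pos (ec S v)]⟩ x (by rw [hb, inv_inv])
  exact ⟨γ, hγ, j, b, hb0, hbr, hj⟩

/-- integrality -/
lemma int (h : LamD L m v r lam) (hv : v ∈ Vs T) (hD : ∀ E, KiD_121.Dv T ∣ m E) (x : XV U v) :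
    ∃ z : ℤ, lam x = z * T.N := by
  by_cases hx : (∃ c ∈ sp T v, ‖pV U v x - c‖ < r) ∨ r⁻¹ < ‖pV U v x‖
  · rcases hx with hx | hx
    · obtain ⟨c, hc, hn, h1, γ, hγ, j, b, hb, hbr, rfl⟩ := h.near hv hx
      obtain ⟨z, hz⟩ := z1_dvd L hD hc.1 j
      have h2 := h.e1 c hc hn h1 γ hγ j b hb hbr
      have hl : (0 : ℝ) < lx T c := by exact_mod_cast lx_pos hc.1
      refine ⟨z, ?_⟩
      rw [hz] at h2
      push_cast at h2
      exact mul_right_cancel₀ hl.ne' h2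
    · obtain ⟨γ, hγ, j, b, hb, hbr, rfl⟩ := h.far hv hx
      have hc := Lab_931.ok_ec S hv
      obtain ⟨z, hz⟩ := z2_dvd L hD hc.1 j
      have h2 := h.e2 _ hc (Lab_931.v2_ec S hv) γ hγ j b hb hbr
      have hl : (0 : ℝ) < lx T (ec S v) := by exact_mod_cast lx_pos hc.1
      refine ⟨z, ?_⟩
      rw [hz] at h2
      push_cast at h2
      exact mul_right_cancel₀ hl.ne' h2
  · exact ⟨0, by rw [h.zero x hx]; simp⟩

end LamD

lemma near_smv {hG : GalPt T} {E : II U} (γ : GE hG E) {r : ℝ} {x : XV U E.1.1}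
    (h : (∃ c ∈ sp T E.1.1, ‖pV U E.1.1 x - c‖ < r) ∨ r⁻¹ < ‖pV U E.1.1 x‖) :
    (∃ c ∈ sp T E.1.1, ‖pV U E.1.1 (smv hG γ x) - c‖ < r) ∨
      r⁻¹ < ‖pV U E.1.1 (smv hG γ x)‖ := by
  have hξ := vl_pow γ.1
  have h1 : pV U E.1.1 (smv hG γ x) = cw T (vl γ.1) E.1.1 * pV U E.1.1 x :=
    (smv_spec hG γ).2.2.2.2.1 x
  rcases h with ⟨c, hc, hx⟩ | hx
  · left
    refine ⟨cw T (vl γ.1) E.1.1 * c, ?_, ?_⟩
    · have h2 := (mem_sp_rv hG hξ (v := E.1.1) (w := c)).2 hc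
      have h3 : rv T (vl γ.1) E.1.1 = E.1.1 := GE_fst hG γ.2
      rw [h3] at h2
      exact h2
    · rw [h1, ← mul_sub, norm_mul, cw_norm hξ, one_mul]; exact hx
  · right
    rw [h1, norm_mul, cw_norm hξ, one_mul]; exact hx

/-- invariance -/
lemma lam_smv {hG : GalPt T} {E : II U} {L : Lab U S} {m : II U → ℕ} {r : ℝ}
    {lam : XV U E.1.1 → ℝ} (h : LamD L m E.1.1 r lam)
    (hm : ∀ (γ : Ru T) (E : II U), m (piH hG γ E) = m E) (γ : GE hG E) (x : XV U E.1.1) :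
    lam (smv hG γ x) = lam x := by
  have hv := E.1.2
  have hξ := vl_pow γ.1
  have h3 : rv T (vl γ.1) E.1.1 = E.1.1 := GE_fst hG γ.2
  by_cases hx : (∃ c ∈ sp T E.1.1, ‖pV U E.1.1 x - c‖ < r) ∨ r⁻¹ < ‖pV U E.1.1 x‖
  · rcases hx with hx | hx
    · obtain ⟨c, hc, hn, h1, γ₁, hγ₁, j, b, hb, hbr, rfl⟩ := h.near hv hx
      obtain ⟨τ, hτ⟩ := exists_tau hG hξ S hc.1
      have hc' : Ok S (rc T (vl γ.1) c) := ok_rc S hG hξ hc
      have hn' : ¬ IsV (rc T (vl γ.1) c) := fun h' => hn ((isV_rc _ c).1 h')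
      have h1' : v1 T (rc T (vl γ.1) c) = some E.1.1 := by
        rw [v1_rc hG hξ, h1]; exact congrArg some h3
      obtain ⟨γ₂, hγ₂, -⟩ := (End_636.endStmt L _ hc' ⟨E.1.1, hv⟩).1 h1'
      have hm1 := mem_NC.2 ⟨hc, hn⟩
      have hm2 := mem_NC.2 ⟨hc', hn'⟩
      have b1 := h.lt_r hm1 hm1 hbr
      have b2 := h.lt_r hm1 hm2 hbr
      have b3 : ‖b‖ < min (S.r c) (S.r (rc T (vl γ.1) c)) := lt_min b1 b2
      have hnb : ‖(rm T (vl γ.1) c).2 * b‖ = ‖b‖ := rm_pow_norm hξ c b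
      have e1 := act_end1 γ hγ₁ hγ₂ (hτ j) (b := b) ⟨Or.inr hb, by linarith [S.pos c]⟩
        (by linarith [lt_min (S.pos c) (S.pos (rc T (vl γ.1) c))])
        ⟨Or.inr (by rw [hnb]; exact hb), by rw [hnb]; linarith [S.pos (rc T (vl γ.1) c)]⟩
      have e2 := h.e1 _ hc' hn' h1' γ₂ hγ₂ (τ j) ((rm T (vl γ.1) c).2 * b) (by rw [hnb]; exact hb)
        (by rw [hnb, lx_rc]; exact hbr)
      have e3 := h.e1 c hc hn h1 γ₁ hγ₁ j b hb hbr
      rw [e1, lx_rc, (z1_rc hm γ.1 hc (hτ j)).1, ← e3] at e2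
      have hl : (0 : ℝ) < lx T c := by exact_mod_cast lx_pos hc.1
      exact mul_right_cancel₀ hl.ne' e2
    · obtain ⟨γ₁, hγ₁, j, b, hb, hbr, rfl⟩ := h.far hv hx
      have hc := Lab_931.ok_ec S hv
      have hn : ¬ IsV (ec S E.1.1) := by simp [ec, IsV]
      obtain ⟨τ, hτ⟩ := exists_tau hG hξ S hc.1
      have hc' : Ok S (rc T (vl γ.1) (ec S E.1.1)) := ok_rc S hG hξ hc
      have hn' : ¬ IsV (rc T (vl γ.1) (ec S E.1.1)) := fun h' => hn ((isV_rc _ _).1 h')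
      have h1' : v2 T (rc T (vl γ.1) (ec S E.1.1)) = some E.1.1 := by
        rw [v2_rc hG hξ, Lab_931.v2_ec S hv]; exact congrArg some h3
      obtain ⟨γ₂, hγ₂, -⟩ := (End_636.endStmt L _ hc' ⟨E.1.1, hv⟩).2 h1'
      have hm1 := mem_NC.2 ⟨hc, hn⟩
      have hm2 := mem_NC.2 ⟨hc', hn'⟩
      have b1 := h.lt_r hm1 hm1 hbr
      have b2 := h.lt_r hm1 hm2 hbr
      have b3 : ‖b‖ < min (S.r (ec S E.1.1)) (S.r (rc T (vl γ.1) (ec S E.1.1))) := lt_min b1 b2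
      have hnb : ‖(rm T (vl γ.1) (ec S E.1.1)).1 * b‖ = ‖b‖ := rm_pow_norm1 hξ _ b
      have e1 := act_end2 γ hγ₁ hγ₂ (hτ j) (a := b) ⟨hb, by linarith [S.pos (ec S E.1.1)]⟩
        (by linarith [lt_min (S.pos (ec S E.1.1)) (S.pos (rc T (vl γ.1) (ec S E.1.1)))])
        ⟨by rw [hnb]; exact hb, by rw [hnb]; linarith [S.pos (rc T (vl γ.1) (ec S E.1.1))]⟩
      have e2 := h.e2 _ hc' h1' γ₂ hγ₂ (τ j) ((rm T (vl γ.1) (ec S E.1.1)).1 * b)
        (by rw [hnb]; exact hb) (by rw [hnb, lx_rc]; exact hbr)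
      have e3 := h.e2 _ hc (Lab_931.v2_ec S hv) γ₁ hγ₁ j b hb hbr
      rw [e1, lx_rc, (z1_rc hm γ.1 hc (hτ j)).2, ← e3] at e2
      have hl : (0 : ℝ) < lx T (ec S E.1.1) := by exact_mod_cast lx_pos hc.1
      exact mul_right_cancel₀ hl.ne' e2
  · rw [h.zero x hx, h.zero]
    intro h4
    refine hx ?_
    have h5 := near_smv γ⁻¹ h4
    rw [← smv_mul, inv_mul_cancel, smv_one] at h5
    exact h5

/-- **the invariant zero free function on a null component** -/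
theorem exf_N (rsn : RSNStmt) [Fintype (II U)] {hG : GalPt T} {L : Lab U S} (hW : LabWD L)
    {E₀ : II U} (hTh : ¬ ThE hG E₀) {m : II U → ℕ} (hD : ∀ E, KiD_121.Dv T ∣ m E)
    (hm : ∀ (γ : Ru T) (E : II U), m (piH hG γ E) = m E)
    (hdg : dg (Mx L) (fun E => (m E : ℝ)) E₀ = 0) :
    ∃ fX : XV U E₀.1.1 → ℂ, HolX (pV U E₀.1.1) fX ∧
      (∀ q : XV U E₀.1.1, (q : ConnectedComponents (XV U E₀.1.1)) ≠ E₀.2 → fX q = 0) ∧
      (∀ q : XV U E₀.1.1, (q : ConnectedComponents (XV U E₀.1.1)) = E₀.2 → fX q ≠ 0) ∧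
      (∀ (γ : GE hG E₀) (q : XV U E₀.1.1), (q : ConnectedComponents (XV U E₀.1.1)) = E₀.2 →
        fX (smv hG γ q) = fX q) ∧
      ∃ C r' : ℝ, 0 < C ∧ 0 < r' ∧ ∀ c, Ok S c →
        (¬ IsV c → v1 T c = some E₀.1.1 → ∀ γ, End1 U S c E₀.1.1 γ → ∀ j, ∀ b : ℂ, 0 < ‖b‖ →
          ‖b‖ < r' → ‖fX (γ j b)‖ ≤ C * ‖b‖ ^ (z1 L m c j)) ∧
        (v2 T c = some E₀.1.1 → ∀ γ, End2 U S c E₀.1.1 γ → ∀ j, ∀ b : ℂ, 0 < ‖b‖ →
          ‖b‖ < r' → ‖fX (γ j b)‖ ≤ C * ‖b‖ ^ (z2 L m c j)) := by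
  have hv := E₀.1.2
  obtain ⟨r, lam, h⟩ := exists_lamD hW m hv
  have hr := h.sep.pos
  have hN : (0 : ℝ) < T.N := by exact_mod_cast T.N_pos
  set mu : XE E₀ → ℤ := fun x => round (lam (vaX x)) with hmu
  have hmu1 : ∀ x, ∃ z : ℤ, mu x = z * T.N ∧ lam (vaX x) = z * T.N := by
    intro x
    obtain ⟨z, hz⟩ := h.int hv hD (vaX x)
    refine ⟨z, ?_, hz⟩
    simp only [hmu]
    rw [hz]
    have : ((z : ℝ) * T.N) = ((z * T.N : ℤ) : ℝ) := by push_cast; ring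
    rw [this, round_intCast]
  have hmul : ∀ x, (mu x : ℝ) = lam (vaX x) := by
    intro x
    obtain ⟨z, h1, h2⟩ := hmu1 x
    rw [h1, h2]; push_cast; ring
  have hfin : Finset ℂ := sp T E₀.1.1
  have hsmul : ∀ (γ : GE hG E₀) (x : XE E₀),
      vaX (letI := mulAct hG E₀; γ • x) = smv hG γ (vaX x) := fun γ x => rfl
  obtain ⟨g, C, g1, g2, g3, hC, g4, g5⟩ := rsn (sp T E₀.1.1) (XE E₀) inferInstance inferInstance
    inferInstance (covE E₀) (GE hG E₀) inferInstance inferInstance (mulAct hG E₀) (chE hG E₀) T.d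
    mu r h.sep (fib_card E₀) (continuous_smulE hG) (pr_smulE hG) (chE_norm hG E₀)
    (noTh_of hTh hr) (by
      intro x hx
      have h1 := h.loc (vaX x) hx
      have h2 : Tendsto (vaX : XE E₀ → XV U E₀.1.1) (𝓝 x) (𝓝 (vaX x)) :=
        (ind_vaX E₀).continuous.tendsto x
      filter_upwards [h2.eventually h1] with y hy
      simp only [hmu]
      rw [hy]) (by
      intro γ x
      simp only [hmu]
      rw [hsmul, lam_smv h hm γ]) (by
      intro x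
      obtain ⟨z, h1, h2⟩ := hmu1 x
      rw [h1]
      exact Dvd.dvd.mul_left (card_dvd hG E₀) z) (by
      have n1 : ∀ c : ℂ, ‖(c + (r / 2 : ℝ) : ℂ) - c‖ = r / 2 := fun c => by
        rw [add_sub_cancel_left, Complex.norm_real, Real.norm_of_nonneg (by linarith)]
      have hri : 0 < r⁻¹ := inv_pos.2 hr
      have n2 : ‖((2 * r⁻¹ : ℝ) : ℂ)‖ = 2 * r⁻¹ := by
        rw [Complex.norm_real, Real.norm_of_nonneg (by linarith)]
      refine ⟨fun o => o.elim ((2 * r⁻¹ : ℝ) : ℂ) (fun c => c + (r / 2 : ℝ)), ?_, ?_, ?_⟩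
      · intro c hc
        show 0 < ‖(c + (r / 2 : ℝ) : ℂ) - c‖ ∧ ‖(c + (r / 2 : ℝ) : ℂ) - c‖ < r
        rw [n1]
        constructor <;> linarith
      · show r⁻¹ < ‖((2 * r⁻¹ : ℝ) : ℂ)‖
        rw [n2]
        linarith
      · have h1 := h.deg hv E₀.2
        have h2 : (⟨⟨E₀.1.1, hv⟩, E₀.2⟩ : II U) = E₀ := rfl
        rw [h2, hdg] at h1
        have h3 : (((∑ c ∈ sp T E₀.1.1, ∑ᶠ x ∈ {x : XE E₀ | ((covE E₀).p x).1 =
            c + (r / 2 : ℝ)}, mu x) + ∑ᶠ x ∈ {x : XE E₀ | ((covE E₀).p x).1 =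
            ((2 * r⁻¹ : ℝ) : ℂ)}, mu x : ℤ) : ℝ) = 0 := by
          rw [Int.cast_add, Int.cast_sum]
          rw [cast_sum mu lam _ fun x _ => hmul x]
          rw [Finset.sum_congr rfl fun c _ => cast_sum mu lam (c + (r / 2 : ℝ)) fun x _ => hmul x]
          exact h1
        exact_mod_cast h3)
  refine ⟨extX g, holX_ext g1, fun q hq => extX_not g hq, fun q hq => ?_, fun γ q hq => ?_,
    C, r / 2, hC, by linarith, fun c hc => ⟨?_, ?_⟩⟩
  · rw [extX_of g hq]; exact g2 _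
  · have h1 : smv hG γ q = vaX (letI := mulAct hG E₀; γ • (mkX q hq)) := rfl
    rw [h1, extX_va, g3 γ (mkX q hq), extX_of g hq]
  · intro hn h1 γ hγ j b hb hbr
    by_cases hq : ((γ j b : XV U E₀.1.1) : ConnectedComponents (XV U E₀.1.1)) = E₀.2
    · have hl : 0 < lx T c := lx_pos hc.1
      have hle : ‖b‖ ^ lx T c ≤ ‖b‖ :=
        pow_le_of_le_one (norm_nonneg _) (by linarith [h.lt1]) hl.ne'
      have hbl : ‖b‖ ^ lx T c < r := by linarith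
      have hm1 := mem_NC.2 ⟨hc, hn⟩
      have b1 := h.lt_r hm1 hm1 hbl
      have hpr := hγ.pr j b ⟨Or.inr hb, by linarith [S.pos c]⟩
      have e1 : ‖((covE E₀).p (mkX _ hq)).1 - cx T c‖ = ‖b‖ ^ lx T c := by
        show ‖pV U E₀.1.1 (γ j b) - cx T c‖ = _
        rw [hpr, add_sub_cancel_left, norm_pow]
      have e2 := (g4 (cx T c) (cx_mem hn h1) (mkX _ hq) (by rw [e1]; linarith)).2
      have e3 := h.e1 c hc hn h1 γ hγ j b hb hbl
      have e4 : (lx T c : ℤ) * mu (mkX _ hq) = z1 L m c j := by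
        have h5 : ((mu (mkX _ hq) : ℤ) : ℝ) * lx T c = z1 L m c j := by
          rw [hmul]; exact e3
        have h6 : mu (mkX _ hq) * (lx T c : ℤ) = z1 L m c j := by exact_mod_cast h5
        rw [mul_comm]; exact h6
      rw [e1, ← zpow_natCast, ← zpow_mul, e4] at e2
      rw [extX_of g hq]
      exact e2
    · rw [extX_not g hq, norm_zero]
      exact mul_nonneg hC.le (zpow_nonneg (norm_nonneg _) _)
  · intro h1 γ hγ j b hb hbr
    by_cases hq : ((γ j b : XV U E₀.1.1) : ConnectedComponents (XV U E₀.1.1)) = E₀.2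
    · have hn : ¬ IsV c := by
        intro hV
        cases c with
        | edge i k k' => exact hV
        | leg i => exact hV
        | vert i k w => simp [v2] at h1
      have hl : 0 < lx T c := lx_pos hc.1
      have hle : ‖b‖ ^ lx T c ≤ ‖b‖ :=
        pow_le_of_le_one (norm_nonneg _) (by linarith [h.lt1]) hl.ne'
      have hbl : ‖b‖ ^ lx T c < r := by linarith
      have hm1 := mem_NC.2 ⟨hc, hn⟩
      have b1 := h.lt_r hm1 hm1 hbl
      have hpr := hγ.pr j b ⟨hb, by linarith [S.pos c]⟩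
      have e1 : ‖((covE E₀).p (mkX _ hq)).1‖ = (‖b‖ ^ lx T c)⁻¹ := by
        show ‖pV U E₀.1.1 (γ j b)‖ = _
        rw [hpr, norm_inv, norm_pow]
      have hbp : 0 < ‖b‖ ^ lx T c := pow_pos hb _
      have e2 := (g5 (mkX _ hq) (by
        rw [e1]
        have h7 := (inv_lt_inv₀ (by linarith : (0 : ℝ) < r / 2) hbp).2 (by linarith)
        rw [inv_div] at h7
        rwa [← div_eq_mul_inv])).2
      have e3 := h.e2 c hc h1 γ hγ j b hb hbl
      have e4 : (lx T c : ℤ) * mu (mkX _ hq) = z2 L m c j := by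
        have h5 : ((mu (mkX _ hq) : ℤ) : ℝ) * lx T c = z2 L m c j := by
          rw [hmul]; exact e3
        have h6 : mu (mkX _ hq) * (lx T c : ℤ) = z2 L m c j := by exact_mod_cast h5
        rw [mul_comm]; exact h6
      rw [e1, inv_zpow', neg_neg, ← zpow_natCast, ← zpow_mul, e4] at e2
      rw [extX_of g hq]
      exact e2
    · rw [extX_not g hq, norm_zero]
      exact mul_nonneg hC.le (zpow_nonneg (norm_nonneg _) _)

end Crest.Agent.R257.Exf_843
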