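import Crest.Agent.R257.ExNC_843
import Crest.Agent.R257.Exf4_843

/-!
# Row 257, ExN / ExT (helper843): the orders of the function from null data

* `exv_of_ord`, `exv_uniq`, `exv_rot` : exact orders, along an orbit;
* `null_orders` : all the orders of the function obtained from null data.
-/

set_option autoImplicit false
set_option linter.unusedSectionVars false

open Polynomial Set Filter Topology Metric
open Crest.AlgGeometry.Germ Crest.Agent.R257.Defs_219 Crest.Agent.R257.AJ387 Crest.Agent.R257.T387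
open Crest.Agent.R257.Gr1_157 Crest.Agent.R257.HoB_843 Crest.Agent.R257.BP_258
open Crest.Agent.R257.Wt_258 Crest.Agent.R257.Rsn_843 Crest.Agent.R257.OrdK_82
open Crest.Agent.R257.KB_82 Crest.Agent.R257.HoT_843 Crest.Agent.R257.Tb3_941
open Crest.Agent.R257.Rot1_558 Crest.Agent.R257.Vt1_558 Crest.Agent.R257.Vt3_558
open Crest.Agent.R257.Vt4_558

noncomputable section

namespace Crest.Agent.R257.Exf_843

variable {f : (Fin 3 → ℂ) → ℂ} {T : TB f} {S : Sh T} {U : Tub T}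

/-- `th` is a function of the point of `W` -/
lemma th_wc (c : Ch T.m) (j : Fin T.d) (p : ℂ × ℂ) :
    T.th c (S.ζ c j) p = pt (wc S c j p 0) (T.base (wc S c j p 1, wc S c j p 2)) := rfl

lemma base_rot {ξ : ℂ} (hξ : ξ ^ T.N = 1) (x : Fin 3 → ℂ) :
    pt (rot ξ x 0) (T.base (rot ξ x 1, rot ξ x 2)) = pt (x 0) (T.base (x 1, x 2)) := by
  have h1 : T.base (ξ * x 1, x 2) = T.base (x 1, x 2) := by
    unfold TB.base
    simp only [mul_pow, hξ, one_mul]
  show pt (x 0) (T.base (ξ * x 1, x 2)) = pt (x 0) (T.base (x 1, x 2))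
  rw [h1]

/-- rotations do not change `th` -/
lemma th_rot {ξ : ℂ} (hξ : ξ ^ T.N = 1) {c c' : Ch T.m} {j j' : Fin T.d} {a b : ℂ}
    (h : RotC S ξ c j c' j' a b) {p : ℂ × ℂ} (h1 : ‖p.1‖ < 2 * min (S.r c) (S.r c'))
    (h2 : ‖p.2‖ < 2 * min (S.r c) (S.r c')) :
    T.th c' (S.ζ c' j') (a * p.1, b * p.2) = T.th c (S.ζ c j) p := by
  rw [th_wc, th_wc, ← h.eq p h1 h2, base_rot hξ]

/-- `fX ∘ γ j` is analytic in a vertex chart -/
lemma fX_an {v : Vtx} {fX : XV U v → ℂ} (hX : HolX (pV U v) fX) {c : Ch T.m} (hV : IsV c)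
    {γ : Fin T.d → ℂ → XV U v} (hγ : End1 U S c v γ) (j : Fin T.d) :
    AnalyticAt ℂ (fun p : ℂ × ℂ => fX (γ j p.2)) (0, 0) := by
  have hr := S.pos c
  have hl : lx T c = 1 := by
    cases c with
    | edge i k k' => exact absurd hV id
    | leg i => exact absurd hV id
    | vert i k w => rfl
  have h1 : AnalyticAt ℂ (fX ∘ fun w => γ j (w - cx T c)) (cx T c) := by
    refine hX (cx T c) (2 * S.r c) _ (by linarith) ?_ ?_
    · refine (hγ.cont j).comp (continuous_id.sub continuous_const).continuousOn ?_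
      intro w hw
      refine ⟨Or.inl hV, ?_⟩
      simpa [dist_eq_norm] using hw
    · intro w hw
      have h3 := hγ.pr j (w - cx T c) ⟨Or.inl hV, by simpa [dist_eq_norm] using hw⟩
      rw [h3, hl, pow_one, add_sub_cancel]
  have h2 : AnalyticAt ℂ (fun p : ℂ × ℂ => p.2 + cx T c) (0, 0) :=
    analyticAt_snd.add analyticAt_const
  have h3 : AnalyticAt ℂ ((fX ∘ fun w => γ j (w - cx T c)) ∘ fun p : ℂ × ℂ => p.2 + cx T c)
      (0, 0) := by
    refine AnalyticAt.comp ?_ h2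
    simpa using h1
  refine h3.congr (Eventually.of_forall fun p => ?_)
  show fX (γ j (p.2 + cx T c - cx T c)) = fX (γ j p.2)
  rw [add_sub_cancel_right]

/-- the orders in the vertex charts, from `OrdStmt` -/
theorem exists_exv [Fintype (II U)] (hf : Iso f) (hR : RetStmt U) (L : Lab U S)
    {g : (Fin 3 → ℂ) → ℂ} (hg : AnalyticAt ℂ g 0)
    (hne : ∃ᶠ x in 𝓝 (0 : Fin 3 → ℂ), f x = 0 ∧ g x ≠ 0) :
    ∃ v : II U → ℕ, ∀ E, Exv L g E (v E) := by
  obtain ⟨v, -, hv⟩ := OrdA_578.ordStmt hf hR L g hg hne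
  refine ⟨v, fun E c hc hV j hE z hz => ?_⟩
  obtain ⟨G, hGa, hGe, hG1, -⟩ := hv c hc j (0, z) (by simpa using (S.pos c).le) hz.le
    (Or.inl ⟨by rw [hE]; simp, rfl⟩)
  refine ⟨G, hGa, ?_, (hG1 rfl E hE).1⟩
  filter_upwards [hGe] with p hp
  rw [hp, hE, e2_none L hc hV j]
  simp [yn]

/-- orders are unique -/
theorem exv_uniq (hR : RetStmt U) {L : Lab U S} {g : (Fin 3 → ℂ) → ℂ} {E : II U} {n m : ℕ}
    (h1 : Exv L g E n) (h2 : Exv L g E m) : n = m := by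
  obtain ⟨c, j, hc, hV, hE, -⟩ := exists_test hR L E ∅
  obtain ⟨G, hG, hGe, hGn⟩ := h1 c hc hV j hE 0 (by simpa using S.pos c)
  obtain ⟨G', hG', hGe', hGn'⟩ := h2 c hc hV j hE 0 (by simpa using S.pos c)
  refine le_antisymm ?_ ?_
  · refine ord_ge hG' hG ?_ hGn'
    filter_upwards [hGe, hGe'] with p q1 q2
    rw [← q1, ← q2]
  · refine ord_ge hG hG' ?_ hGn
    filter_upwards [hGe, hGe'] with p q1 q2
    rw [← q1, ← q2]

lemma lov_of_exv {L : Lab U S} {g : (Fin 3 → ℂ) → ℂ} {E : II U} {n : ℕ} (h : Exv L g E n) {r : ℝ}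
    (hr : r < n) : Lov L g E r := by
  intro c hc hV j hE z hz
  obtain ⟨G, hG, hGe, -⟩ := h c hc hV j hE z hz
  exact ⟨n, G, hr, hG, hGe⟩

/-- the orders along an orbit are equal -/
theorem exv_rot {hG : GalPt T} (hR : RetStmt U) {L : Lab U S} {g : (Fin 3 → ℂ) → ℂ} {E : II U}
    {n m : ℕ} (γ : Ru T) (h1 : Exv L g E n) (h2 : Exv L g (piH hG γ E) m) : n = m := by
  obtain ⟨c, j, hc, hV, hE, -⟩ := exists_test hR L E ∅
  have hξ := vl_pow γ
  obtain ⟨τ, hτ⟩ := exists_rotC hG hξ S hc.1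
  obtain ⟨τ', hτ'⟩ := exists_tau hG hξ S hc.1
  have hrot : RotC S (vl γ) c j (rc T (vl γ) c) (τ' j) (rm T (vl γ) c).1 (rm T (vl γ) c).2 :=
    ⟨isV_rc (vl γ) c, (rm_norm hξ c).1, (rm_norm hξ c).2, hτ' j⟩
  have hc' : Ok S (rc T (vl γ) c) := ok_rc S hG hξ hc
  have hV' : IsV (rc T (vl γ) c) := (isV_rc _ c).2 hV
  have hE' : L.e1 (rc T (vl γ) c) (τ' j) = some (piH hG γ E) := by
    rw [lab1 hG (Tb_941.retStmt U) hξ L hc (hτ' j), hE]; rfl
  have hr := S.pos c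
  have hr' := S.pos (rc T (vl γ) c)
  obtain ⟨G, hGa, hGe, hGn⟩ := h1 c hc hV j hE 0 (by simpa using hr)
  obtain ⟨G', hGa', hGe', hGn'⟩ := h2 _ hc' hV' (τ' j) hE' 0 (by simpa using hr')
  set a := (rm T (vl γ) c).1 with ha
  set b := (rm T (vl γ) c).2 with hb
  have ha0 : a ≠ 0 := norm_ne_zero_iff.1 (by rw [hrot.na]; exact one_ne_zero)
  have hb0 : b ≠ 0 := norm_ne_zero_iff.1 (by rw [hrot.nb]; exact one_ne_zero)
  have hT : Tendsto (fun p : ℂ × ℂ => ((a * p.1, b * p.2) : ℂ × ℂ)) (𝓝 ((0 : ℂ), (0 : ℂ)))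
      (𝓝 ((0 : ℂ), (0 : ℂ))) := by
    have : Continuous (fun p : ℂ × ℂ => ((a * p.1, b * p.2) : ℂ × ℂ)) := by fun_prop
    exact this.tendsto' _ _ (by simp)
  have hmin : 0 < 2 * min (S.r c) (S.r (rc T (vl γ) c)) := by
    have := lt_min hr hr'; linarith
  have e1 : ∀ᶠ p : ℂ × ℂ in 𝓝 ((0 : ℂ), (0 : ℂ)),
      ‖p.1‖ < 2 * min (S.r c) (S.r (rc T (vl γ) c)) :=
    continuousAt_fst.norm.eventually (gt_mem_nhds (by simpa using hmin))
  have e2 : ∀ᶠ p : ℂ × ℂ in 𝓝 ((0 : ℂ), (0 : ℂ)),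
      ‖p.2‖ < 2 * min (S.r c) (S.r (rc T (vl γ) c)) :=
    continuousAt_snd.norm.eventually (gt_mem_nhds (by simpa using hmin))
  -- the germ of the second, in the coordinates of the first
  have hK : AnalyticAt ℂ (fun p : ℂ × ℂ => a ^ m * G' (a * p.1, b * p.2)) (0, 0) := by
    refine analyticAt_const.mul (AnalyticAt.comp (g := G')
      (f := fun p : ℂ × ℂ => ((a * p.1, b * p.2) : ℂ × ℂ)) ?_
      ((analyticAt_const.mul analyticAt_fst).prod (analyticAt_const.mul analyticAt_snd)))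
    simpa using hGa'
  have hKe : ∀ᶠ p in 𝓝 ((0 : ℂ), (0 : ℂ)), p.1 ^ n * G p =
      p.1 ^ m * (a ^ m * G' (a * p.1, b * p.2)) := by
    filter_upwards [hGe, hT.eventually hGe', e1, e2] with p q1 q2 q3 q4
    rw [← q1, ← th_rot hξ hrot q3 q4, q2]
    show (a * p.1) ^ m * _ = _
    rw [mul_pow]; ring
  have hKn : ∃ᶠ x in 𝓝 (0 : ℂ), a ^ m * G' (a * ((0 : ℂ), x).1, b * ((0 : ℂ), x).2) ≠ 0 := by
    intro hcon
    refine hGn' ?_
    have hT' : Tendsto (fun x : ℂ => b⁻¹ * x) (𝓝 0) (𝓝 0) := by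
      have : Continuous fun x : ℂ => b⁻¹ * x := by fun_prop
      exact this.tendsto' _ _ (mul_zero _)
    filter_upwards [hT'.eventually hcon] with x hx
    rw [not_not] at hx ⊢
    have h3 := (mul_eq_zero.1 hx).resolve_left (pow_ne_zero _ ha0)
    simpa [mul_inv_cancel_left₀ hb0] using h3
  refine le_antisymm ?_ ?_
  · exact ord_ge hK hGa (hKe.mono fun p hp => hp.symm) hKn
  · exact ord_ge hGa hK hKe hGn

end Crest.Agent.R257.Exf_843
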