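import Crest.Agent.R257.NV1_287
import Crest.Agent.R257.T7_387

/-!
R257 / NV2_287 (leaf NVS of C-ORDS): a germ which does not vanish identically on the surface does not
vanish identically on any sheet of any chart.

* `qm_open` : the chart map to the `(x', y')`-plane is open at generic points
* `nvs`     : nonvanishing on every sheet
-/

set_option autoImplicit false
set_option linter.unusedSectionVars false

open Polynomial Set Filter Topology Metric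
open Crest.AlgGeometry.Germ Crest.Agent.R257.AJ387 Crest.Agent.R257.T387
open Crest.Agent.R257.Irr_547 Crest.Agent.R257.Defs_219
open Crest.Agent.R257.Fr_808 (jac2)

noncomputable section

namespace Crest.Agent.R257.NV_287

variable {f : (Fin 3 → ℂ) → ℂ} (T : TB f)

/-- the map `p ↦ (x', y')` of a chart -/
def qm (c : Ch T.m) (p : ℂ × ℂ) : ℂ × ℂ := ((T.map c p).1 ^ T.N, (T.map c p).2)

theorem th_eq (c : Ch T.m) (z : ℂ × ℂ → ℂ) (p : ℂ × ℂ) : T.th c z p = LL T (qm T c p, z p) := by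
  rw [LL_apply]; rfl

theorem qm_an {c : Ch T.m} {p : ℂ × ℂ} (hp : ‖(T.map c p).1‖ ^ T.M < T.ρ) :
    AnalyticAt ℂ (qm T c) p := by
  have h := TB.map_an T c hp
  have h1 : AnalyticAt ℂ (fun p => (T.map c p).1) p :=
    AnalyticAt.comp (g := Prod.fst) (f := T.map c) analyticAt_fst h
  have h2 : AnalyticAt ℂ (fun p => (T.map c p).2) p :=
    AnalyticAt.comp (g := Prod.snd) (f := T.map c) analyticAt_snd h
  exact (h1.pow T.N).prod h2

/-- the chart map to the `(x', y')`-plane is open at generic points -/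
theorem qm_open {c : Ch T.m} (hc : T.Valid c) {p : ℂ × ℂ} (hp : ‖(T.map c p).1‖ ^ T.M < T.ρ)
    (h1 : p.1 ≠ 0) (h2 : p.2 ≠ 0) : Filter.map (qm T c) (𝓝 p) = 𝓝 (qm T c p) := by
  set F : ℂ × ℂ → ℂ × ℂ := fun p => T.A (qm T c p) with hF
  have hFan : AnalyticAt ℂ F p :=
    AnalyticAt.comp (g := fun q => T.A q) (f := qm T c) (T.A.toContinuousLinearMap.analyticAt _)
      (qm_an T hp)
  have hjac := TB.jac_chart T (z := fun _ => 0) hc hp (differentiableAt_const 0)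
  have hne : jac2 (T.th c (fun _ => 0)) p ≠ 0 := by
    rw [hjac]
    exact mul_ne_zero (mul_ne_zero (TB.jk_ne T hc) (pow_ne_zero _ h1)) (pow_ne_zero _ h2)
  have hth : T.th c (fun _ => 0) = fun p => T0_387.ptL (F p, 0) := by
    funext p
    rw [T0_387.ptL_apply]
    rfl
  have hFd := hFan.differentiableAt.hasFDerivAt
  set F' := fderiv ℂ F p with hF'
  have hthd : HasFDerivAt (T.th c (fun _ => 0))
      (T0_387.ptL.comp (F'.prod (0 : ℂ × ℂ →L[ℂ] ℂ))) p := by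
    rw [hth]
    exact T0_387.ptL.hasFDerivAt.comp p (hFd.prodMk (hasFDerivAt_const (0 : ℂ) p))
  have hcomp : ∀ v : ℂ × ℂ, (T0_387.ptL.comp (F'.prod (0 : ℂ × ℂ →L[ℂ] ℂ))) v = pt 0 (F' v) := by
    intro v
    show T0_387.ptL (F' v, 0) = _
    rw [T0_387.ptL_apply]
  rw [jac2, hthd.fderiv, hcomp, hcomp] at hne
  have hdet : (F' (1, 0)).1 * (F' (0, 1)).2 - (F' (1, 0)).2 * (F' (0, 1)).1 ≠ 0 := hne
  have hsurj : (F' : ℂ × ℂ →ₗ[ℂ] ℂ × ℂ).range = ⊤ := by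
    rw [LinearMap.range_eq_top]
    intro w
    set a := F' (1, 0) with ha
    set b := F' (0, 1) with hb
    set δ := a.1 * b.2 - a.2 * b.1 with hδ
    refine ⟨((w.1 * b.2 - w.2 * b.1) / δ, (a.1 * w.2 - a.2 * w.1) / δ), ?_⟩
    have e1 : (((w.1 * b.2 - w.2 * b.1) / δ, (a.1 * w.2 - a.2 * w.1) / δ) : ℂ × ℂ) =
        ((w.1 * b.2 - w.2 * b.1) / δ) • ((1, 0) : ℂ × ℂ) +
          ((a.1 * w.2 - a.2 * w.1) / δ) • ((0, 1) : ℂ × ℂ) := by
      ext <;> simp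
    show F' _ = w
    rw [e1, map_add, map_smul, map_smul, ← ha, ← hb]
    ext
    · simp only [Prod.fst_add, Prod.smul_fst, smul_eq_mul]
      field_simp
      rw [hδ]; ring
    · simp only [Prod.snd_add, Prod.smul_snd, smul_eq_mul]
      field_simp
      rw [hδ]; ring
  have hmap : Filter.map F (𝓝 p) = 𝓝 (F p) :=
    (hFan.hasStrictFDerivAt).map_nhds_eq_of_surj hsurj
  have hA : Filter.map (fun q => T.A.symm q) (𝓝 (F p)) = 𝓝 (T.A.symm (F p)) :=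
    T.A.symm.map_nhds_eq _
  have e2 : qm T c = (fun q => T.A.symm q) ∘ F := by
    funext p
    simp [hF]
  rw [e2, ← Filter.map_map, hmap, hA]
  rfl

/-- the roots of a product of linear factors -/
theorem nodup_prod {d : ℕ} {z : Fin d → ℂ} (hz : Function.Injective z) :
    (∏ j, (X - C (z j))).roots.Nodup := by
  have h1 : (∏ j, (X - C (z j))) = ((Multiset.map z Finset.univ.val).map
      fun a => (X - C a : ℂ[X])).prod := by
    rw [Multiset.map_map]; rfl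
  rw [h1, roots_multiset_prod_X_sub_C]
  exact (Finset.univ.nodup).map hz

/-- generic points are dense -/
theorem exists_gen {p₀ : ℂ × ℂ} {Q : ℂ × ℂ → Prop} (h : ∀ᶠ p in 𝓝 p₀, Q p) :
    ∃ p : ℂ × ℂ, p.1 ≠ 0 ∧ p.2 ≠ 0 ∧ Q p := by
  have h1 : 𝓝[≠] p₀.1 ×ˢ 𝓝[≠] p₀.2 ≤ 𝓝 p₀ := by
    rw [nhds_prod_eq (x := p₀.1) (y := p₀.2) |> fun h => (by simpa using h : 𝓝 p₀ = _)]
    exact Filter.prod_mono nhdsWithin_le_nhds nhdsWithin_le_nhds
  have h3 : ∀ a : ℂ, ∀ᶠ z in 𝓝[≠] a, z ≠ 0 := by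
    intro a
    by_cases ha : a = 0
    · subst ha; exact self_mem_nhdsWithin
    · exact nhdsWithin_le_nhds (isOpen_ne.mem_nhds ha)
  have h2 : ∀ᶠ p in 𝓝[≠] p₀.1 ×ˢ 𝓝[≠] p₀.2, p.1 ≠ 0 ∧ p.2 ≠ 0 :=
    (h3 p₀.1).prod_mk (h3 p₀.2)
  obtain ⟨p, ⟨h4, h5⟩, h6⟩ := (h2.and (h1 h)).exists
  exact ⟨p, h4, h5, h6⟩

/-- **nonvanishing on every sheet** -/
theorem nvs (hf : Iso f) {g : (Fin 3 → ℂ) → ℂ} (hg : AnalyticAt ℂ g 0)
    (hne : ∃ᶠ x in 𝓝 (0 : Fin 3 → ℂ), f x = 0 ∧ g x ≠ 0) {c : Ch T.m} (hc : T.Valid c) {r : ℝ}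
    {ζ : Fin T.d → ℂ × ℂ → ℂ} (hS : T.Sheets c r ζ) {p₀ : ℂ × ℂ} (hp₀ : p₀ ∈ BD r r)
    (h0 : T.map c p₀ = 0) (j : Fin T.d) : ¬ ∀ᶠ p in 𝓝 p₀, g (T.th c (ζ j) p) = 0 := by
  intro hcon
  set G : (ℂ × ℂ) × ℂ → ℂ := fun x => g (LL T x) with hGdef
  have hL0 : Tendsto (LL T) (𝓝 (0 : (ℂ × ℂ) × ℂ)) (𝓝 0) := by
    have := (LL T).continuous.tendsto (0 : (ℂ × ℂ) × ℂ)
    rwa [map_zero (LL T)] at this
  have hGan : ∀ᶠ x in 𝓝 (0 : (ℂ × ℂ) × ℂ), AnalyticAt ℂ G x := by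
    filter_upwards [hL0.eventually hg.eventually_analyticAt] with x hx
    exact AnalyticAt.comp (g := g) (f := LL T) hx ((LL T).analyticAt x)
  obtain ⟨ε, hε, hball⟩ := Metric.eventually_nhds_iff_ball.1 (hGan.and (near_dom T))
  have hP0 : T.P (0, 0) = X ^ T.d := T.P_zero
  have hrs := IrrB_331.roots_small (monFam T T.R_pos le_rfl)
    ⟨by simpa using T.R_pos, by simpa using T.R_pos⟩ hP0 hε
  obtain ⟨δ, hδ, hδb⟩ := Metric.eventually_nhds_iff_ball.1 hrs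
  set R' : ℝ := min (min δ ε) T.R with hR'
  have hR'0 : 0 < R' := lt_min (lt_min hδ hε) T.R_pos
  have hR'le : R' ≤ T.R := min_le_right _ _
  have hBD : ∀ q ∈ BD R' R', ∀ z, (T.P q).eval z = 0 → ((q, z) : (ℂ × ℂ) × ℂ) ∈ ball 0 ε := by
    intro q hq z hz
    have h1 : ‖q.1‖ < δ := hq.1.trans_le ((min_le_left _ _).trans (min_le_left _ _))
    have h2 : ‖q.2‖ < δ := hq.2.trans_le ((min_le_left _ _).trans (min_le_left _ _))
    have h3 : ‖q.1‖ < ε := hq.1.trans_le ((min_le_left _ _).trans (min_le_right _ _))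
    have h4 : ‖q.2‖ < ε := hq.2.trans_le ((min_le_left _ _).trans (min_le_right _ _))
    have h5 : q ∈ ball ((0 : ℂ), (0 : ℂ)) δ := by
      rw [mem_ball, Prod.dist_eq, max_lt_iff]
      exact ⟨by simpa using h1, by simpa using h2⟩
    have h6 := hδb q h5 z hz
    rw [mem_ball, Prod.dist_eq, max_lt_iff, Prod.dist_eq, max_lt_iff]
    exact ⟨⟨by simpa using h3, by simpa using h4⟩, by simpa using h6⟩
  have F := monFam T hR'0 hR'le
  have h00 : ((0 : ℂ), (0 : ℂ)) ∈ BD R' R' := ⟨by simpa using hR'0, by simpa using hR'0⟩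
  have hGV : ∀ x ∈ IrrB_331.Vo (BD R' R') T.P (Dc T), AnalyticAt ℂ G x := by
    rintro ⟨q, z⟩ ⟨hq, -, hz⟩
    exact (hball _ (hBD q hq z hz)).1
  -- it suffices to vanish near one point
  have key : ∀ x ∈ IrrB_331.Vo (BD R' R') T.P (Dc T),
      ¬ ∀ᶠ y in 𝓝 x, y ∈ IrrB_331.Vo (BD R' R') T.P (Dc T) → G y = 0 := by
    intro x hx hxe
    have hall := ident F h00 hP0 (hreg T hf) hGV hx hxe
    have hLi : Tendsto (fun x : Fin 3 → ℂ => ((T.A.symm (x 1, x 2), x 0) : (ℂ × ℂ) × ℂ)) (𝓝 0)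
        (𝓝 0) := by
      have hc : Continuous (fun x : Fin 3 → ℂ => ((T.A.symm (x 1, x 2), x 0) : (ℂ × ℂ) × ℂ)) := by
        fun_prop
      refine hc.tendsto' _ _ ?_
      have : T.A.symm ((0 : Fin 3 → ℂ) 1, (0 : Fin 3 → ℂ) 2) = 0 := map_zero T.A.symm
      rw [this]; rfl
    have hnb : ∀ᶠ y in 𝓝 (0 : (ℂ × ℂ) × ℂ), y.1 ∈ BD R' R' ∧ y ∈ ball 0 ε := by
      refine Filter.Eventually.and ?_ (ball_mem_nhds _ hε)
      exact continuous_fst.continuousAt.eventually ((isOpen_BD R' R').mem_nhds h00)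
    obtain ⟨e, ⟨hfe, hge⟩, hy1, hy2⟩ := (hne.and_eventually (hLi.eventually hnb)).exists
    set y₀ : (ℂ × ℂ) × ℂ := (T.A.symm (e 1, e 2), e 0) with hy₀
    have hLy : LL T y₀ = e := LL_surj T e
    have hroot : (T.P y₀.1).eval y₀.2 = 0 := by
      obtain ⟨-, h1, h2⟩ := hball y₀ hy2
      have h3 := T.f_eq y₀.1 h1 y₀.2 h2
      rw [← LL_apply, hLy, hfe] at h3
      have h4 := T.v_ne y₀.1 h1 y₀.2 h2
      exact (mul_eq_zero.1 h3.symm).resolve_left h4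
    have hG0 : G y₀ ≠ 0 := by
      show g (LL T y₀) ≠ 0
      rw [hLy]; exact hge
    obtain ⟨η, hη, hηb⟩ := Metric.eventually_nhds_iff_ball.1
      ((hball y₀ hy2).1.continuousAt.eventually_ne hG0)
    have h1 : ∃ᶠ q in 𝓝 y₀.1, Dc T q ≠ 0 := F.freq hy1
    have e1 : ∀ᶠ q in 𝓝 y₀.1, q ∈ ball y₀.1 η := ball_mem_nhds y₀.1 hη
    have e2 : ∀ᶠ q in 𝓝 y₀.1, q ∈ BD R' R' := F.op.mem_nhds hy1
    obtain ⟨q, hqD, ⟨z, hz, hqz⟩, hqb, hqΔ⟩ := (h1.and_eventually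
      ((root_near F hy1 hroot hη).and (e1.and e2))).exists
    have h2 : ((q, z) : (ℂ × ℂ) × ℂ) ∈ ball y₀ η := by
      rw [mem_ball, Prod.dist_eq, max_lt_iff]
      exact ⟨hqb, by rw [dist_eq_norm]; exact hz⟩
    exact hηb _ h2 (hall (q, z) ⟨hqΔ, hqD, hqz⟩)
  -- a generic point near `p₀`
  have hmp := TB.map_an T c (hS.mem p₀ hp₀).2
  have hq0 : qm T c p₀ = 0 := by
    show ((T.map c p₀).1 ^ T.N, (T.map c p₀).2) = 0
    rw [h0]
    show (((0 : ℂ) ^ T.N, (0 : ℂ)) : ℂ × ℂ) = 0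
    rw [zero_pow T.N_pos.ne']; rfl
  have hqΔ : ∀ᶠ p in 𝓝 p₀, qm T c p ∈ BD R' R' := by
    refine (qm_an T (hS.mem p₀ hp₀).2).continuousAt.eventually ((isOpen_BD R' R').mem_nhds ?_)
    rw [hq0]; exact h00
  have hrΔ : ∀ᶠ p in 𝓝 p₀, p ∈ BD r r := (isOpen_BD r r).mem_nhds hp₀
  obtain ⟨p₁, hp1, hp2, hp3, hp4, hp5⟩ := exists_gen (hcon.eventually_nhds.and (hqΔ.and hrΔ))
  have hgen : T.Gen c p₁ := by
    cases c with
    | edge i k k' => exact ⟨hp1, hp2⟩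
    | leg i => exact ⟨hp1, hp2⟩
    | vert i k w₀ => exact hp1
  have hspl : ∀ p ∈ BD r r, T.P (qm T c p) = ∏ l, (X - C (ζ l p)) := fun p hp => hS.split p hp
  have hD1 : Dc T (qm T c p₁) ≠ 0 := by
    rw [Dc_iff T (BD_le hR'le hp4), hspl p₁ hp5]
    exact nodup_prod (hS.inj p₁ hp5 hgen)
  have hx1 : ((qm T c p₁, ζ j p₁) : (ℂ × ℂ) × ℂ) ∈ IrrB_331.Vo (BD R' R') T.P (Dc T) := by
    refine ⟨hp4, hD1, ?_⟩
    show (T.P (qm T c p₁)).eval (ζ j p₁) = 0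
    rw [hspl p₁ hp5, eval_prod]
    exact Finset.prod_eq_zero (Finset.mem_univ j) (by simp)
  refine key _ hx1 ?_
  have hnh : 𝓝 ((qm T c p₁, ζ j p₁) : (ℂ × ℂ) × ℂ) =
      Filter.map (Prod.map (qm T c) id) (𝓝 p₁ ×ˢ 𝓝 (ζ j p₁)) := by
    rw [nhds_prod_eq, ← qm_open T hc (hS.mem p₁ hp5).2 hp1 hp2, ← Filter.prod_map_map_eq',
      Filter.map_id]
  rw [hnh, Filter.eventually_map]
  have hsep : ∀ᶠ y : (ℂ × ℂ) × ℂ in 𝓝 p₁ ×ˢ 𝓝 (ζ j p₁), ∀ l, l ≠ j → ζ l y.1 ≠ y.2 := by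
    refine Filter.eventually_all.2 fun l => ?_
    by_cases hl : l = j
    · exact Eventually.of_forall fun y h => absurd hl h
    · have h1 : Tendsto (fun y : (ℂ × ℂ) × ℂ => ζ l y.1 - y.2) (𝓝 p₁ ×ˢ 𝓝 (ζ j p₁))
          (𝓝 (ζ l p₁ - ζ j p₁)) := by
        exact ((hS.an l p₁ hp5).continuousAt.tendsto.comp tendsto_fst).sub tendsto_snd
      have h2 : ζ l p₁ - ζ j p₁ ≠ 0 := sub_ne_zero.2 fun h => hl (hS.inj p₁ hp5 hgen h)
      filter_upwards [h1.eventually_ne h2] with y hy _ h3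
      exact hy (sub_eq_zero.2 h3)
  have hgood : ∀ᶠ y : (ℂ × ℂ) × ℂ in 𝓝 p₁ ×ˢ 𝓝 (ζ j p₁), g (T.th c (ζ j) y.1) = 0 ∧
      y.1 ∈ BD r r :=
    tendsto_fst.eventually (hp3.and ((isOpen_BD r r).mem_nhds hp5))
  filter_upwards [hsep, hgood] with y h1 h2 h3
  obtain ⟨h4, h5⟩ := h2
  have h6 : (T.P (qm T c y.1)).eval y.2 = 0 := h3.2.2
  rw [hspl _ h5, eval_prod, Finset.prod_eq_zero_iff] at h6
  obtain ⟨l, -, hl⟩ := h6
  have h7 : y.2 = ζ l y.1 := by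
    simpa [sub_eq_zero] using hl
  have h8 : l = j := by
    by_contra hlj
    exact h1 l hlj h7.symm
  subst h8
  show g (LL T (qm T c y.1, y.2)) = 0
  rw [h7, ← th_eq]
  exact h4

end Crest.Agent.R257.NV_287
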