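import Crest.Agent.R257.OrdE_578
import Crest.Agent.R257.NV2_287

/-!
# Row 257, part C (helper578): **`OrdStmt L`**
-/

set_option autoImplicit false

open Crest.AlgGeometry.Germ Crest.Agent.R257.T387 Crest.Agent.R257.BP_258 Crest.Agent.R257.Defs_219

noncomputable section

namespace Crest.Agent.R257.OrdA_578

variable {f : (Fin 3 → ℂ) → ℂ} {T : TB f} {U : Tub T} {S : Sh T}

/-- **orders of functions and the degree formula on all components** -/
theorem ordStmt [Fintype (II U)] (hf : Iso f) (hR : RetStmt U) (L : Lab U S) : OrdStmt L :=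
  ordStmt_of_nv T.sheets hR (fun _ hg hne _ _ _ hc hs _ hp h0 j =>
    NV_287.nvs T hf hg hne hc hs hp h0 j) L

end Crest.Agent.R257.OrdA_578
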