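import Crest.Agent.R257.KB2_82
import Crest.Agent.R257.KiD_121
import Crest.Agent.R257.WtF_258
import Crest.Agent.R257.OrdF_578

/-!
# Row 257 (S0395), part C, task (K1) KILL-BP (helper82), file 3: `KillBPStmt` from the weights
-/

set_option autoImplicit false
set_option linter.unusedSectionVars false

noncomputable section

open Set Filter Topology MeasureTheory
open scoped ENNReal

namespace Crest.Agent.R257.KB_82

open Crest.AlgGeometry.Germ Crest.Agent.R257.Defs_219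
open Crest.Agent.R257.T387 Crest.Agent.R257.BP_258 Crest.Agent.R257.OrdK_82
open Crest.Agent.R257.HoT_843 Crest.Agent.R257.AJ387 Crest.Agent.R257.Gr1_157
open Crest.Agent.R257.Rot1_558 Crest.Agent.R257.Vt1_558 Crest.Agent.R257.Vt3_558
open Crest.Agent.R257.Vt4_558 Crest.Agent.R257.Wt_258 Crest.Agent.R257.KiD_121
open Polynomial (nthRootsFinset)

variable {f : (Fin 3 → ℂ) → ℂ} {T : TB f} {U : Tub T} {S : Sh T}

/-- the divisor of an edge divides `Dv T` -/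
theorem edge_dvd {i : Fin T.m} {k k' : ℕ} (hc : T.Valid (.edge i k k')) :
    T.M * (k' - k) ∣ KiD_121.Dv T := by
  have hk : k < k' := hc.2.2.1
  refine Dvd.dvd.mul_left (Nat.mul_dvd_mul_left _ ?_) _
  refine Nat.dvd_factorial (by omega) ?_
  have h1 : k' ≤ T.top i := (T.lev i).le_max' k' hc.2.1
  have h2 : T.top i ≤ Finset.univ.sup T.top := Finset.le_sup (f := T.top) (Finset.mem_univ i)
  omega

theorem m_dvd : T.M ∣ KiD_121.Dv T :=
  Dvd.dvd.mul_left (Dvd.intro _ rfl) _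

theorem dv_pos : 0 < KiD_121.Dv T :=
  Nat.mul_pos T.N_pos (Nat.mul_pos T.M_pos (Nat.factorial_pos _))

theorem dv_of {c : Ch T.m} (hc : T.Valid c) {m₁ m₂ : ℕ} (h1 : KiD_121.Dv T ∣ m₁)
    (h2 : KiD_121.Dv T ∣ m₂) : CDataB_250.Dv T c m₁ m₂ := by
  cases c with
  | edge i k k' => exact ⟨(edge_dvd hc).trans h1, (edge_dvd hc).trans h2⟩
  | leg i => exact m_dvd.trans h2
  | vert i k w => trivial

theorem yn_dvd {m : II U → ℕ} (h : ∀ E, KiD_121.Dv T ∣ m E) (e : Option (II U)) :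
    KiD_121.Dv T ∣ yn m e := by
  cases e with
  | none => exact dvd_zero _
  | some E => exact h E

theorem yn_map {m : II U → ℕ} {π : II U → II U} (h : ∀ E, m (π E) = m E) (e : Option (II U)) :
    yn m (e.map π) = yn m e := by
  cases e with
  | none => rfl
  | some E => exact h E

theorem yo_map {y : II U → ℝ} {π : II U → II U} (h : ∀ E, y (π E) = y E) (e : Option (II U)) :
    yo y (e.map π) = yo y e := by
  cases e with
  | none => rfl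
  | some E => exact h E

theorem exo_nonneg (hG : GalPt T) (hR : RetStmt U) (e : Option (II U)) (E : II U) :
    0 ≤ exo hG hR e E := by
  unfold exo
  split_ifs <;> norm_num

/-- the cover by canonical charts (554's `coverP`) -/
def CovP (S : Sh T) : Prop := ∀ r : Ch T.m → ℝ, (∀ c, 0 < r c) →
    ∃ F : Finset (Ch T.m), (∀ c ∈ F, Ok S c) ∧ ∃ ε > 0, ∀ s y : ℂ, ‖s‖ < ε → ‖y‖ < ε →
      (s, y) ≠ 0 → ∃ c ∈ F, ∃ p : ℂ × ℂ, ‖p.1‖ ≤ r c ∧ ‖p.2‖ ≤ r c ∧ T.map c p = (s, y)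

/-- the weights in the consumed form -/
theorem wtf_of [Fintype (II U)] {L : Lab U S} (hW : WTDStmt L) {y : II U → ℝ}
    {F : Finset (Ch T.m)} (K : DKill S F) (hF : ∀ c ∈ F, Ok S c) (hK : ∀ E, DSup L y K E) :
    ∃ τ₁ > 0, ∀ τ₀ > 0, τ₀ < τ₁ → ∃ Φ ρ₀ C c₀, WTF L y F K.κ K.t K.a K.b τ₀ τ₁ Φ ρ₀ C c₀ := by
  obtain ⟨τ₁, hτ₁, h⟩ := hW y F K hF hK
  refine ⟨τ₁, hτ₁, fun τ₀ h0 h1 => ?_⟩
  obtain ⟨Φ, ρ₀, C, c₀, hρ, hc, h2⟩ := h τ₀ h0 h1
  refine ⟨Φ, ρ₀, C, c₀, hρ, hc, ?_, ?_, ?_, ?_, ?_, ?_, ?_⟩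
  · exact fun c hcF j p hp => ((h2 c hcF j).1 p hp).1
  · exact fun c hcF j p hp w => ((h2 c hcF j).1 p hp).2.1 w
  · exact fun c hcF j p hp => ((h2 c hcF j).1 p hp).2.2
  · exact fun c hcF j p hp => (h2 c hcF j).2.1 p hp
  · exact fun c hcF j hk p hp hp' => (h2 c hcF j).2.2.2.1 hk p hp hp'.1 hp'.2
  · exact fun c hcF j hk p hp hp' he ht w =>
      ((h2 c hcF j).2.2.2.2.2 hk p hp hp'.1 hp'.2).1 he ht w
  · exact fun c hcF j hk p hp hp' he ht w =>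
      ((h2 c hcF j).2.2.2.2.2 hk p hp hp'.1 hp'.2).2 he ht w

theorem e2_none (L : Lab U S) {c : Ch T.m} (hc : Ok S c) (hV : IsV c) (j : Fin T.d) :
    L.e2 c j = none := by
  have := L.v_e2 c hc j
  have hv2 : v2 T c = none := by
    cases c with
    | edge i k k' => exact absurd hV id
    | leg i => rfl
    | vert i k w => rfl
  rw [hv2] at this
  simpa using this

/-- **(K1)** -/
theorem killBP [Fintype (II U)] (hf : Iso f) (hC : Clo T) (hG : GalPt T) (hR : RetStmt U)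
    {S : Sh T} (hmono : ∀ c, T.Valid c → T.MonoC c (S.r c)) (hcovP : CovP S) (L : Lab U S)
    {nu : II U → ℤ} {n1 n2 : Ch T.m → Fin T.d → ℤ} (J : Jac L nu n1 n2) (hsumK : KSumStmt U)
    (hW : WTDStmt L) : KillBPStmt hG hR L nu n1 n2 := by
  classical
  intro c₀ hc₀ j₀ κ hO a b ha hb _ m y hDv hmi hyi hlt t ht hineq hsup
  have hform := Lab_931.iform L hR
  have hnd : (0 : ℝ) ≤ (T.N * T.d : ℕ) * t := by positivity
  -- `y ≥ 0`
  have hdgy : ∀ E, dg (Mx L) y E < 0 := fun E => by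
    have h1 := hsup E
    have h2 : 0 ≤ (a : ℝ) * exo hG hR (L.e1 c₀ j₀) E + b * exo hG hR (L.e2 c₀ j₀) E :=
      add_nonneg (mul_nonneg (Nat.cast_nonneg _) (exo_nonneg _ _ _ _))
        (mul_nonneg (Nat.cast_nonneg _) (exo_nonneg _ _ _ _))
    have := mul_nonneg hnd h2
    linarith
  have hy0 : ∀ E, 0 ≤ y E := nonneg_of hform (S := Set.univ) (fun E _ => (hdgy E).le)
    (fun E hE => absurd (Set.mem_univ E) hE)
  -- the charts
  set Fκ : Finset (Ch T.m) := κ.image Prod.fst with hFκ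
  have hFκ_ok : ∀ c ∈ Fκ, Ok S c := by
    intro c hc
    obtain ⟨x, hx, rfl⟩ := Finset.mem_image.1 hc
    exact hO.ok x hx
  obtain ⟨Fc, hFc_ok, ε, hε, hcov⟩ := hcovP (fun c => S.r c / 2) (fun c => half_pos (S.pos c))
  choose cT jT hcT_ok hcT_V hcT_e hcT_B using fun E => exists_test hR L E Fκ
  set Ft : Finset (Ch T.m) := Finset.univ.biUnion fun E =>
    (nthRootsFinset T.N (1 : ℂ)).image fun ξ => rc T ξ (cT E) with hFt
  have hFt_ok : ∀ c ∈ Ft, Ok S c := by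
    intro c hc
    obtain ⟨E, -, hE⟩ := Finset.mem_biUnion.1 hc
    obtain ⟨ξ, hξ, rfl⟩ := Finset.mem_image.1 hE
    exact ok_rc S hG ((Polynomial.mem_nthRootsFinset T.N_pos (1 : ℂ)).1 hξ) (hcT_ok E)
  set F : Finset (Ch T.m) := Fκ ∪ (Fc ∪ Ft) with hFdef
  have hF : ∀ c ∈ F, Ok S c := by
    intro c hc
    rcases Finset.mem_union.1 hc with h | h
    · exact hFκ_ok c h
    · rcases Finset.mem_union.1 h with h | h
      · exact hFc_ok c h
      · exact hFt_ok c h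
  have hκF : ∀ x ∈ κ, x.1 ∈ F := fun x hx =>
    Finset.mem_union_left _ (Finset.mem_image_of_mem _ hx)
  have hcov' : ∃ ε > 0, ∀ s y : ℂ, ‖s‖ < ε → ‖y‖ < ε → (s, y) ≠ 0 → ∃ c ∈ F, ∃ p : ℂ × ℂ,
      ‖p.1‖ < S.r c ∧ ‖p.2‖ < S.r c ∧ T.map c p = (s, y) := by
    refine ⟨ε, hε, fun s y h1 h2 h3 => ?_⟩
    obtain ⟨c, hc, p, hp1, hp2, hp3⟩ := hcov s y h1 h2 h3
    have := S.pos c
    exact ⟨c, Finset.mem_union_right _ (Finset.mem_union_left _ hc), p, by linarith, by linarith,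
      hp3⟩
  have hrcF : ∀ E, ∀ ξ : ℂ, ξ ^ T.N = 1 → rc T ξ (cT E) ∈ F := fun E ξ hξ =>
    Finset.mem_union_right _ (Finset.mem_union_right _ (Finset.mem_biUnion.2 ⟨E,
      Finset.mem_univ _, Finset.mem_image.2 ⟨ξ,
        (Polynomial.mem_nthRootsFinset T.N_pos (1 : ℂ)).2 hξ, rfl⟩⟩))
  -- the kills
  obtain ⟨rx, hrx, hex⟩ := hO.ex
  set K : DKill S F :=
    { κ := ↑κ
      t := fun _ => t
      a := fun _ => a
      b := fun _ => b
      t_pos := fun _ _ => ht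
      ab_pos := fun _ _ => ⟨ha, hb⟩
      mem := fun x hx => hκF x hx
      ex := ⟨rx, hrx, fun x hx c hc j p p' hp hp' hg hg' he => by
        obtain ⟨e1, e2⟩ := hex x hx c hc j p p' hp hp' hg hg' he
        exact ⟨e1, e2, rfl, rfl, rfl⟩⟩ } with hK
  have hsupK : ∀ E, DSup L y K E := fun E => by
    have h1 := hsumK hG hR S L c₀ j₀ κ hO F t a b ht.le (Nat.cast_nonneg _) (Nat.cast_nonneg _) E
    have h2 := hsup E
    refine lt_of_le_of_lt (add_le_add_right ?_ _) h2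
    refine le_trans (le_of_eq ?_) h1
    refine Finset.sum_congr rfl fun c _ => Finset.sum_congr rfl fun j _ => ?_
    simp only [hK, Finset.mem_coe]
  obtain ⟨τ₁, hτ₁, hW'⟩ := wtf_of hW K hF hsupK
  -- radii for the vanishing near the test charts
  choose rT hrT hvan using fun E => vanish_near (S := S) hG (hcT_ok E) (jT E) hFκ_ok (hcT_B E)
  obtain ⟨r₀, hr₀, hr₀le⟩ : ∃ r₀ > 0, ∀ E, r₀ ≤ rT E := by
    by_cases hne : Nonempty (II U)
    · obtain ⟨E, hE⟩ := Finite.exists_min rT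
      exact ⟨rT E, hrT E, hE⟩
    · exact ⟨1, one_pos, fun E => absurd ⟨E⟩ hne⟩
  -- the data
  set m₁ : ℕ := yn m (L.e1 c₀ j₀) with hm₁
  set m₂ : ℕ := yn m (L.e2 c₀ j₀) with hm₂
  have hdm₁ : KiD_121.Dv T ∣ m₁ := yn_dvd hDv _
  have hdm₂ : KiD_121.Dv T ∣ m₂ := yn_dvd hDv _
  have hlab : ∀ x ∈ κ, yn m (L.e1 x.1 x.2) = m₁ ∧ yn m (L.e2 x.1 x.2) = m₂ ∧
      yo y (L.e1 x.1 x.2) = yo y (L.e1 c₀ j₀) ∧ yo y (L.e2 x.1 x.2) = yo y (L.e2 c₀ j₀) := by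
    intro x hx
    obtain ⟨ξ, hξ, -, e1, e2⟩ := hO.lab x hx
    rw [e1, e2]
    exact ⟨yn_map (hmi ξ hξ) _, yn_map (hmi ξ hξ) _, yo_map (hyi ξ hξ) _, yo_map (hyi ξ hξ) _⟩
  have hn1 : ∀ q ∈ κ, n1 q.1 q.2 < m₁ := by
    intro q hq
    rw [← (hlab q hq).1]
    rcases he : L.e1 q.1 q.2 with _ | E
    · have := J.none1 q.1 (hO.ok q hq) q.2 he
      show n1 q.1 q.2 < ((yn m none : ℕ) : ℤ)
      simp only [yn, Option.elim_none, Nat.cast_zero]
      omega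
    · rw [J.some1 q.1 (hO.ok q hq) q.2 E he]
      have h1 := hlt E
      have h2 := hy0 E
      have h3 : (nu E : ℝ) < m E := by linarith
      show nu E < ((m E : ℕ) : ℤ)
      exact_mod_cast h3
  have hn2 : ∀ q ∈ κ, n2 q.1 q.2 < m₂ := by
    intro q hq
    rw [← (hlab q hq).2.1]
    rcases he : L.e2 q.1 q.2 with _ | E
    · have := J.none2 q.1 (hO.ok q hq) q.2 he
      show n2 q.1 q.2 < ((yn m none : ℕ) : ℤ)
      simp only [yn, Option.elim_none, Nat.cast_zero]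
      omega
    · rw [J.some2 q.1 (hO.ok q hq) q.2 E he]
      have h1 := hlt E
      have h2 := hy0 E
      have h3 : (nu E : ℝ) < m E := by linarith
      show nu E < ((m E : ℕ) : ℤ)
      exact_mod_cast h3
  have hy1 : ∀ q ∈ κ, L.e1 q.1 q.2 ≠ none → yo y (L.e1 q.1 q.2) + n1 q.1 q.2 < m₁ := by
    intro q hq hne
    rw [← (hlab q hq).1]
    obtain ⟨E, he⟩ := Option.ne_none_iff_exists'.1 hne
    rw [J.some1 q.1 (hO.ok q hq) q.2 E he, he]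
    exact hlt E
  have hy2 : ∀ q ∈ κ, L.e2 q.1 q.2 ≠ none → yo y (L.e2 q.1 q.2) + n2 q.1 q.2 < m₂ := by
    intro q hq hne
    rw [← (hlab q hq).2.1]
    obtain ⟨E, he⟩ := Option.ne_none_iff_exists'.1 hne
    rw [J.some2 q.1 (hO.ok q hq) q.2 E he, he]
    exact hlt E
  obtain ⟨g, V, D, Φ, ρ₀, ρ₁, C, τ, hτ, hρ₀, hHT, hup, hkl, hD1, hD2⟩ := kill_core hC L J hF hcov'
    (κs := (κ : Set (Ch T.m × Fin T.d))) hκF
    ⟨rx, hrx, fun q hq q' hq' p p' hp hp' hg hg' he =>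
      (hex q hq q'.1 (Or.inr ⟨q'.2, hq'⟩) q'.2 p p' hp hp' hg hg' he).1⟩
    (m₁ := m₁) (m₂ := m₂) (fun q hq => dv_of (hO.ok q hq).1 hdm₁ hdm₂) hn1 hn2 hy1 hy2
    (t := fun _ => t) (fun _ _ => ht.le) (a := fun _ => a) (b := fun _ => b) hr₀ hτ₁ hW'
  -- the kill
  have hkill : ∀ H : ℂ × ℂ → ℂ, ContinuousAt H (0, 0) →
      (∀ᶠ p in 𝓝 ((0 : ℂ), (0 : ℂ)), g (T.th c₀ (S.ζ c₀ j₀) p) =
        p.1 ^ m₁ * p.2 ^ m₂ * H p) → H (0, 0) = 1 := by
    intro H hH hu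
    refine hHT.kill_rot J hc₀ j₀ (off_of_mono (hmono c₀ hc₀.1) ρ₁) ha hb
      (y₁ := yo y (L.e1 c₀ j₀)) (y₂ := yo y (L.e2 c₀ j₀)) (t := t) (C := C) ht.le hρ₀ hτ
      (fun ξ hξ => ?_) hineq hH (hu.mono fun p hp _ _ => hp)
    obtain ⟨j', a', b', hmem, hrotC, ha', hb'⟩ := hO.rot (c₀, j₀) hO.mem₀ ξ hξ
    refine ⟨rc T ξ c₀, j', a', b', (hO.ok _ hmem).1, hrotC, ?_, ?_, ?_⟩
    · obtain ⟨k₁, hk₁⟩ := hdm₁
      obtain ⟨k₂, hk₂⟩ := hdm₂
      rw [hk₁, hk₂, pow_mul, pow_mul, ha', hb', one_pow, one_pow, one_mul]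
    · have e1 : ∀ᶠ p : ℂ × ℂ in 𝓝 ((0 : ℂ), (0 : ℂ)), p ∈ BD τ τ :=
        (isOpen_BD _ _).mem_nhds ⟨by simpa using hτ, by simpa using hτ⟩
      filter_upwards [e1] with p hp hg using hD1 _ hmem p hp hg
    · intro p hp h1 h2
      have h3 := hkl (rc T ξ c₀) (hκF _ hmem) j' hmem p hp ⟨h1, h2⟩
      rw [(hlab _ hmem).2.2.1, (hlab _ hmem).2.2.2] at h3
      exact h3
  -- `g` is not zero on `{f = 0}`
  have hfreq : ∃ᶠ x in 𝓝 (0 : Fin 3 → ℂ), f x = 0 ∧ g x ≠ 0 := by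
    by_contra hcon
    rw [not_frequently] at hcon
    have hr := S.pos c₀
    have hb0 : ((0 : ℂ), (0 : ℂ)) ∈ AJ387.BD (2 * S.r c₀) (2 * S.r c₀) :=
      ⟨by simpa using hr, by simpa using hr⟩
    have h0 : T.map c₀ (0, 0) = 0 := by
      rw [T.map_eq_zero hc₀.1]
      cases c₀ with
      | edge i k k' => right; rfl
      | leg i => rfl
      | vert i k w₀ => rfl
    have hth0 : T.th c₀ (S.ζ c₀ j₀) (0, 0) = 0 := by
      rw [(S.sheets c₀ hc₀.1).th_zero hc₀.1 j₀ hb0, ← T.map_eq_zero hc₀.1]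
      exact h0
    have htend : Tendsto (T.th c₀ (S.ζ c₀ j₀)) (𝓝 ((0 : ℂ), (0 : ℂ))) (𝓝 0) := by
      have := ((S.sheets c₀ hc₀.1).th_an j₀ hb0).continuousAt.tendsto
      rwa [hth0] at this
    have hz : ∀ᶠ p in 𝓝 ((0 : ℂ), (0 : ℂ)), g (T.th c₀ (S.ζ c₀ j₀) p) =
        p.1 ^ m₁ * p.2 ^ m₂ * (fun _ : ℂ × ℂ => (0 : ℂ)) p := by
      have e1 : ∀ᶠ p : ℂ × ℂ in 𝓝 ((0 : ℂ), (0 : ℂ)), p ∈ AJ387.BD (2 * S.r c₀) (2 * S.r c₀) :=
        (isOpen_BD _ _).mem_nhds hb0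
      filter_upwards [e1, htend.eventually hcon] with p hp hp'
      have hfp : f (T.th c₀ (S.ζ c₀ j₀) p) = 0 := (S.sheets c₀ hc₀.1).th_V j₀ hp
      rw [mul_zero]
      by_contra hne
      exact hp' ⟨hfp, hne⟩
    exact zero_ne_one (hkill (fun _ => 0) continuousAt_const hz)
  obtain ⟨v, -, hv⟩ := OrdA_578.ordStmt hf hR L g hHT.an hfreq
  -- the orders
  have hord : ∀ E, y E + nu E < v E := by
    intro E
    have hc := hcT_ok E
    obtain ⟨G, hGa, hGe, hG1, -⟩ := hv (cT E) hc (jT E) (0, 0) (by simpa using (S.pos _).le)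
      (by simpa using (S.pos _).le) (Or.inl ⟨by rw [hcT_e E]; simp, rfl⟩)
    refine lo_all hG hR L J hyi hHT hc (hcT_V E) (hcT_e E) (off_of_mono (hmono _ hc.1) ρ₁)
      (fun ξ hξ => ?_) hρ₀ (C := C) (fun ξ hξ j p hp => hup _ (hrcF E ξ hξ) j p hp) hGa hGe
      (hG1 rfl E (hcT_e E)).1
    refine hvan E (fun x hx => ?_) ξ hξ
    obtain ⟨q, hq, p, hp, hg, he⟩ := hD2 x hx
    exact ⟨q.1, Finset.mem_image_of_mem _ hq, q.2, p, ⟨hp.1.trans_le (hr₀le E),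
      hp.2.trans_le (hr₀le E)⟩, hg, he⟩
  refine ⟨g, hHT.an, fun c hc hV j E hE z hz => ?_, fun H hH hu => ?_⟩
  · obtain ⟨G, hGa, hGe, -⟩ := hv c hc j (0, z) (by simpa using (S.pos _).le) hz.le
      (Or.inl ⟨by rw [hE]; simp, rfl⟩)
    refine ⟨v E, G, hord E, hGa, ?_⟩
    filter_upwards [hGe] with p hp
    rw [hp, hE, e2_none L hc hV j]
    simp [yn]
  · rw [hkill H hH hu]
    exact one_ne_zero

end Crest.Agent.R257.KB_82
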