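import Crest.Agent.R257.ExND_843
import Crest.Agent.R257.KB3_82
import Crest.Agent.R257.Wt1_258

/-!
# Row 257, ExN / ExT (helper843): the Hörmander step with null data

`null_core` : `WTDStmt` + `NullStmt` + `hoT`.
-/

set_option autoImplicit false
set_option linter.unusedSectionVars false

open Polynomial Set Filter Topology Metric
open Crest.AlgGeometry.Germ Crest.Agent.R257.AJ387 Crest.Agent.R257.T387
open Crest.Agent.R257.Gr1_157 Crest.Agent.R257.HoB_843 Crest.Agent.R257.BP_258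
open Crest.Agent.R257.Wt_258 Crest.Agent.R257.Rsn_843 Crest.Agent.R257.OrdK_82
open Crest.Agent.R257.KB_82 Crest.Agent.R257.HoT_843

noncomputable section

namespace Crest.Agent.R257.Exf_843

variable {f : (Fin 3 → ℂ) → ℂ} {T : TB f} {S : Sh T} {U : Tub T}

variable (S) in
/-- no kills -/
def dk0 (F : Finset (Ch T.m)) : DKill S F where
  κ := ∅
  t := fun _ => 0
  a := fun _ => 0
  b := fun _ => 0
  t_pos := fun _ h => absurd h (Set.notMem_empty _)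
  ab_pos := fun _ h => absurd h (Set.notMem_empty _)
  mem := fun _ h => absurd h (Set.notMem_empty _)
  ex := ⟨1, one_pos, fun _ h => absurd h (Set.notMem_empty _)⟩

lemma dsup0 [Fintype (II U)] {L : Lab U S} {y : II U → ℝ} {F : Finset (Ch T.m)} {E : II U}
    (h : dg (Mx L) y E < 0) : DSup L y (dk0 S F) E := by
  unfold DSup
  simpa [dk0] using h

/-- the weights in the consumed form -/
theorem wt0_of [Fintype (II U)] {L : Lab U S} (hW : WTDStmt L) {y : II U → ℝ}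
    {F : Finset (Ch T.m)} (hF : ∀ c ∈ F, Ok S c) (hy : ∀ E, dg (Mx L) y E < 0) :
    ∃ τ₁ > 0, ∀ τ₀ > 0, τ₀ < τ₁ → ∃ Φ ρ₀ C c₀, WT0 L y F τ₀ Φ ρ₀ C c₀ := by
  obtain ⟨τ₁, hτ₁, h⟩ := hW y F (dk0 S F) hF fun E => dsup0 (hy E)
  refine ⟨τ₁, hτ₁, fun τ₀ h0 h1 => ?_⟩
  obtain ⟨Φ, ρ₀, C, c₀, hρ, hc, h2⟩ := h τ₀ h0 h1
  have hκ : (dk0 S F).κ = ∅ := rfl
  refine ⟨Φ, ρ₀, C, c₀, hρ, hc, ?_, ?_, ?_, ?_, ?_, ?_, ?_⟩
  · exact fun c hcF j p hp => ((h2 c hcF j).1 p hp).1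
  · exact fun c hcF j p hp w => ((h2 c hcF j).1 p hp).2.1 w
  · exact fun c hcF j p hp => ((h2 c hcF j).1 p hp).2.2
  · exact fun c hcF j p hp => (h2 c hcF j).2.1 p hp
  · exact fun c hcF j p hp => (h2 c hcF j).2.2.1 hκ p hp
  · exact fun c hcF j p hp he ht w => ((h2 c hcF j).2.2.2.2.1 hκ p hp).1 he ht w
  · exact fun c hcF j p hp he ht w => ((h2 c hcF j).2.2.2.2.1 hκ p hp).2 he ht w

lemma wc1 (c : Ch T.m) (j : Fin T.d) (p : ℂ × ℂ) : wc S c j p 1 = (T.map c p).1 := rfl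

lemma an_s {c : Ch T.m} (hc : T.Valid c) {p : ℂ × ℂ} (hp : p ∈ AJ387.BD (2 * S.r c) (2 * S.r c)) :
    AnalyticAt ℂ (fun q => (T.map c q).1) p := by
  have hm := (S.sheets c hc).map_an hp
  exact analyticAt_fst.comp hm

/-- the shifted weight -/
lemma shift_sm {c : Ch T.m} (hc : T.Valid c) (j : Fin T.d) {p : ℂ × ℂ}
    (hp : p ∈ AJ387.BD (2 * S.r c) (2 * S.r c)) (hg : T.Gen c p) (a : ℕ) {Φ : (Fin 3 → ℂ) → ℝ}
    (h : ContDiffAt ℝ (⊤ : ℕ∞) (Φ ∘ wc S c j) p) :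
    ContDiffAt ℝ (⊤ : ℕ∞) ((fun x => Φ x + a * Real.log (‖x 1‖ ^ 2)) ∘ wc S c j) p ∧
      ∀ w, lvE ((fun x => Φ x + a * Real.log (‖x 1‖ ^ 2)) ∘ wc S c j) p w =
        lvE (Φ ∘ wc S c j) p w := by
  have h1 := an_s (S := S) hc hp
  have h0 : (T.map c p).1 ≠ 0 := CDataB_250.sc_ne hg
  have h2 : ContDiffAt ℂ (⊤ : ℕ∞) (fun q => (T.map c q).1) p := h1.contDiffAt
  have h3 := cd_log h2 h0
  have e : ((fun x => Φ x + a * Real.log (‖x 1‖ ^ 2)) ∘ wc S c j) =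
      fun q => (Φ ∘ wc S c j) q + (a : ℝ) * Real.log (‖(T.map c q).1‖ ^ 2) := by
    funext q; rfl
  refine ⟨?_, fun w => ?_⟩
  · rw [e]
    exact h.add (contDiffAt_const.mul h3)
  · rw [e, lvE_add (h.of_le (by norm_cast)) ((contDiffAt_const.mul h3).of_le (by norm_cast)),
      lvE_const_mul (h3.of_le (by norm_cast)), lvE_log h2 h0]
    ring

lemma sc_le_one {c : Ch T.m} {p : ℂ × ℂ} (h1 : ‖p.1‖ < S.r c) (h2 : ‖p.2‖ < S.r c) :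
    ‖(T.map c p).1‖ ≤ 1 := by
  have hr := S.le c
  have e1 : ‖p.1‖ ≤ 1 := by linarith
  have e2 : ‖p.2‖ ≤ 1 := by linarith
  cases c with
  | edge i k k' =>
    show ‖p.1 * p.2‖ ≤ 1
    rw [norm_mul]
    exact mul_le_one₀ e1 (norm_nonneg _) e2
  | leg i => exact e1
  | vert i k w => exact e1

/-- the Hörmander step with admissible data -/
theorem adm_ht (hC : Clo T) {F : Finset (Ch T.m)} (hF : ∀ c ∈ F, Ok S c)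
    (hcov : ∃ ε > 0, ∀ s y : ℂ, ‖s‖ < ε → ‖y‖ < ε → (s, y) ≠ 0 → ∃ c ∈ F, ∃ p : ℂ × ℂ,
      ‖p.1‖ < S.r c ∧ ‖p.2‖ < S.r c ∧ T.map c p = (s, y)) {ρ : ℝ} (hρ : 0 < ρ)
    {Φ : (Fin 3 → ℂ) → ℝ} {D : (Fin 3 → ℂ) → ℂ} {O : Ch T.m → Fin T.d → Set (ℂ × ℂ)}
    {κ : Ch T.m → Fin T.d → ℂ × ℂ → ℝ} (hA : CDataB_250.Adm S F Φ ρ D O κ)
    (hsm : ∀ c ∈ F, ∀ j, ∀ p ∈ O c j, ContDiffAt ℝ (⊤ : ℕ∞) (Φ ∘ wc S c j) p)
    (hps : ∀ c ∈ F, ∀ j, ∀ p ∈ O c j, ∀ w, 0 ≤ lvE (Φ ∘ wc S c j) p w) {C : ℝ}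
    (hle : ∀ c ∈ F, ∀ j, ∀ p ∈ O c j, Φ (wc S c j p) ≤ C) :
    ∃ (g V : (Fin 3 → ℂ) → ℂ) (ρ₁ : ℝ), HT S g V D Φ ρ₁ := by
  have hO : ∀ c ∈ F, ∀ j, O c j ⊆ Og (S := S) c ρ := fun c hc j p hp => (hA.sub c hc j p hp).1
  have hv : ∀ c ∈ F, T.Valid c := fun c hc => (hF c hc).1
  obtain ⟨g, V, ρ₁, -, h4⟩ := HT.of_hoT (hoT S hv hρ hC.gal hA.op hO
    (cov_of S hv hρ hcov hA.cov) (Φ := Φ) (D := D) (κ := κ) hsm hA.sm hps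
    (fun c hc j p => hA.nn c j p) (fun c hc j => hA.me c j) hA.db (C := C) hle hA.iK hA.iD)
  exact ⟨g, V, ρ₁, h4⟩

/-- **the Hörmander step with null data** -/
theorem null_core [Fintype (II U)] (hC : Clo T) (hcovP : CovP S) (L : Lab U S)
    {n1 n2 : Ch T.m → Fin T.d → ℤ} (hW : WTDStmt L) (hN : NullStmt L n1 n2)
    {E₀ : II U} {y : II U → ℝ} (hsup : ∀ E, dg (Mx L) y E < 0) {a : ℕ}
    {fX : XV U E₀.1.1 → ℂ} {H : (Fin 3 → ℂ) → ℂ} {h1 h2 e : Ch T.m → Fin T.d → ℝ}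
    (hd : NDat L n1 n2 E₀ y a fX H h1 h2 e) (F' : Finset (Ch T.m)) (hF' : ∀ c ∈ F', Ok S c) :
    ∃ (g V D : (Fin 3 → ℂ) → ℂ) (Φ : (Fin 3 → ℂ) → ℝ) (ρ₀ ρ₁ C : ℝ), 0 < ρ₀ ∧
      HT S g V (fun x => x 1 ^ a * D x) (fun x => Φ x + a * Real.log (‖x 1‖ ^ 2)) ρ₁ ∧
      (∀ c ∈ F', ∀ j, ∀ p ∈ Og (S := S) c ρ₀, Φ (wc S c j p) ≤
        yo y (L.e1 c j) * Real.log (‖p.1‖ ^ 2) + yo y (L.e2 c j) * Real.log (‖p.2‖ ^ 2) + C) ∧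
      (∀ c ∈ F', IsV c → ∀ j, L.e1 c j = some E₀ → ∀ γ, End1 U S c E₀.1.1 γ →
        ∀ᶠ p in 𝓝 ((0 : ℂ), (0 : ℂ)), T.Gen c p →
          D (wc S c j p) = H (wc S c j p) * fX (γ j p.2)) ∧
      (∀ c ∈ F', IsV c → ∀ j, L.e1 c j ≠ some E₀ →
        ∀ᶠ p in 𝓝 ((0 : ℂ), (0 : ℂ)), T.Gen c p → D (wc S c j p) = 0) ∧
      (∀ c ∈ F', v1 T c = none → ∀ j,
        (L.e2 c j = some E₀ → ∃ r > 0, ∃ C' : ℝ, ∀ p ∈ AJ387.BD r r, T.Gen c p →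
          ContinuousAt (D ∘ wc S c j) p ∧
          ‖D (wc S c j p)‖ ≤ C' * (‖p.1‖ ^ (h1 c j + e c j) * ‖p.2‖ ^ h2 c j)) ∧
        (L.e2 c j ≠ some E₀ → ∃ r > 0, ∀ p ∈ AJ387.BD r r, T.Gen c p → D (wc S c j p) = 0)) := by
  classical
  obtain ⟨Fc, hFc_ok, ε, hε, hcov⟩ := hcovP (fun c => S.r c / 2) (fun c => half_pos (S.pos c))
  obtain ⟨F₀, hF₀, hF'₀, hdat⟩ := hN E₀ y a fX H h1 h2 e hd F' hF'
  set F : Finset (Ch T.m) := Fc ∪ F₀ with hFdef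
  have hF : ∀ c ∈ F, Ok S c := by
    intro c hc
    rcases Finset.mem_union.1 hc with h | h
    · exact hFc_ok c h
    · exact hF₀ c h
  have hcov' : ∃ ε > 0, ∀ s y : ℂ, ‖s‖ < ε → ‖y‖ < ε → (s, y) ≠ 0 → ∃ c ∈ F, ∃ p : ℂ × ℂ,
      ‖p.1‖ < S.r c ∧ ‖p.2‖ < S.r c ∧ T.map c p = (s, y) := by
    refine ⟨ε, hε, fun s y h1 h2 h3 => ?_⟩
    obtain ⟨c, hc, p, hp1, hp2, hp3⟩ := hcov s y h1 h2 h3
    have := S.pos c
    exact ⟨c, Finset.mem_union_left _ hc, p, by linarith, by linarith, hp3⟩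
  obtain ⟨τ₁, hτ₁, hW'⟩ := wt0_of hW hF hsup
  obtain ⟨τ₀, hτ₀, hτ01, hdat'⟩ := hdat F Finset.subset_union_right hF τ₁ hτ₁
  obtain ⟨Φ, ρ₀, C, c₀, hw⟩ := hW' τ₀ hτ₀ hτ01
  obtain ⟨ρ, D, O, κ, hρ0, hρ, hA, hD1, hD2, hD3⟩ := hdat' Φ ρ₀ C c₀ hw
  have hO : ∀ c ∈ F, ∀ j, O c j ⊆ Og (S := S) c ρ := fun c hc j p hp => (hA.sub c hc j p hp).1
  have hOg : ∀ c : Ch T.m, Og (S := S) c ρ ⊆ Og (S := S) c ρ₀ := fun c p hp =>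
    ⟨hp.1, hp.2.1, hp.2.2.1, hp.2.2.2.trans_le hρ⟩
  have hsh : ∀ c ∈ F, ∀ j, ∀ p ∈ O c j,
      ContDiffAt ℝ (⊤ : ℕ∞) ((fun x => Φ x + a * Real.log (‖x 1‖ ^ 2)) ∘ wc S c j) p ∧
      ∀ w, lvE ((fun x => Φ x + a * Real.log (‖x 1‖ ^ 2)) ∘ wc S c j) p w =
        lvE (Φ ∘ wc S c j) p w := by
    intro c hc j p hp
    have h3 := hO c hc j hp
    exact shift_sm (hF c hc).1 j (CDataB_250.Og_mem2 h3) h3.2.2.1 a
      (hw.sm c hc j p (hOg c h3))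
  have hle : ∀ c ∈ F, ∀ j, ∀ p ∈ O c j,
      (fun x : Fin 3 → ℂ => Φ x + a * Real.log (‖x 1‖ ^ 2)) (wc S c j p) ≤ C := by
    intro c hc j p hp
    have h3 := hO c hc j hp
    have h5 := hw.le c hc j p (hOg c h3)
    have h6 : Real.log (‖wc S c j p 1‖ ^ 2) ≤ 0 := by
      rw [wc1]
      refine Real.log_nonpos (by positivity) ?_
      exact pow_le_one₀ (norm_nonneg _) (sc_le_one h3.1 h3.2.1)
    have h7 : (a : ℝ) * Real.log (‖wc S c j p 1‖ ^ 2) ≤ 0 :=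
      mul_nonpos_of_nonneg_of_nonpos (Nat.cast_nonneg a) h6
    show Φ (wc S c j p) + a * Real.log (‖wc S c j p 1‖ ^ 2) ≤ C
    linarith
  obtain ⟨g, V, ρ₁, h4⟩ := adm_ht hC hF hcov' hρ0 hA (fun c hc j p hp => (hsh c hc j p hp).1)
    (fun c hc j p hp w => by
      rw [(hsh c hc j p hp).2 w]
      exact hw.psh c hc j p (hOg c (hO c hc j hp)) w) hle
  exact ⟨g, V, D, Φ, ρ₀, ρ₁, C, hw.ρ_pos, h4,
    fun c hc j p hp => hw.up c (Finset.mem_union_right _ (hF'₀ hc)) j p hp, hD1, hD2, hD3⟩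

end Crest.Agent.R257.Exf_843
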