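import Crest.Agent.R257.ExNA_843

/-!
# Row 257, ExN / ExT (helper843): all the orders of the function obtained from null data
-/

set_option autoImplicit false
set_option linter.unusedSectionVars false

open Polynomial Set Filter Topology Metric
open Crest.AlgGeometry.Germ Crest.Agent.R257.Defs_219 Crest.Agent.R257.AJ387 Crest.Agent.R257.T387
open Crest.Agent.R257.Gr1_157 Crest.Agent.R257.HoB_843 Crest.Agent.R257.BP_258
open Crest.Agent.R257.Wt_258 Crest.Agent.R257.Rsn_843 Crest.Agent.R257.OrdK_82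
open Crest.Agent.R257.KB_82 Crest.Agent.R257.HoT_843 Crest.Agent.R257.Tb3_941
open Crest.Agent.R257.Rot1_558 Crest.Agent.R257.Vt1_558 Crest.Agent.R257.Vt3_558
open Crest.Agent.R257.Vt4_558

noncomputable section

namespace Crest.Agent.R257.Exf_843

variable {f : (Fin 3 → ℂ) → ℂ} {T : TB f} {S : Sh T} {U : Tub T}

lemma map0V {c : Ch T.m} (hc : T.Valid c) (hV : IsV c) : T.map c (0, 0) = 0 := by
  rw [T.map_eq_zero hc]
  cases c with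
  | edge i k k' => exact absurd hV id
  | leg i => exact absurd hV id
  | vert i k w₀ => rfl

lemma mapV {c : Ch T.m} (hV : IsV c) (p : ℂ × ℂ) : (T.map c p).1 = p.1 := by
  cases c with
  | edge i k k' => exact absurd hV id
  | leg i => exact absurd hV id
  | vert i k w₀ => rfl

lemma lab_comp {E : II U} {hv : E.1.1 ∈ Vs T} {q : XV U E.1.1}
    (h : lab U ⟨E.1.1, hv⟩ q = E) : (q : ConnectedComponents (XV U E.1.1)) = E.2 :=
  eq_of_heq (Sigma.ext_iff.1 h).2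

/-- a common small bidisc -/
lemma hmin (c c' : Ch T.m) : 0 < 2 * min (S.r c) (S.r c') := by
  have := lt_min (S.pos c) (S.pos c'); linarith

/-- the data vanish near the rotated chart -/
lemma rot_zero {hG : GalPt T} {hR : RetStmt U} {L : Lab U S} {E₀ : II U} {a : ℕ}
    {D : (Fin 3 → ℂ) → ℂ} {F' : Finset (Ch T.m)}
    (hD2 : ∀ c ∈ F', IsV c → ∀ j, L.e1 c j ≠ some E₀ →
        ∀ᶠ p in 𝓝 ((0 : ℂ), (0 : ℂ)), T.Gen c p → D (wc S c j p) = 0)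
    {c : Ch T.m} (hc : Ok S c) (hV : IsV c) {j : Fin T.d} {E : II U} (hE : L.e1 c j = some E)
    {ξ : ℂ} (hξ : ξ ^ T.N = 1) (hmem : rc T ξ c ∈ F') (hne : pi hG hR hξ E ≠ E₀) :
    ∀ᶠ p in 𝓝 ((0 : ℂ), (0 : ℂ)), T.Gen c p →
      (fun x : Fin 3 → ℂ => x 1 ^ a * D x) (rot ξ (wc S c j p)) = 0 := by
  obtain ⟨τ, hτ⟩ := exists_tau hG hξ S hc.1
  have hrot : RotC S ξ c j (rc T ξ c) (τ j) (rm T ξ c).1 (rm T ξ c).2 :=
    ⟨isV_rc ξ c, (rm_norm hξ c).1, (rm_norm hξ c).2, hτ j⟩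
  have hE' : L.e1 (rc T ξ c) (τ j) = some (pi hG hR hξ E) := by
    rw [lab1 hG hR hξ L hc (hτ j), hE]; rfl
  have h3 := hD2 _ hmem ((isV_rc ξ c).2 hV) (τ j)
    (by rw [hE']; exact fun h => hne (Option.some.inj h))
  have hm := hmin (S := S) c (rc T ξ c)
  exact hrot.ev (p₀ := ((0 : ℂ), (0 : ℂ))) (by simpa using hm) (by simpa using hm)
    (P := fun x _ => x 1 ^ a * D x = 0) (by
      simp only [mul_zero]
      exact h3.mono fun p hp hg => by rw [hp hg, mul_zero])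

/-- the data near a chart rotated by an element of the stabiliser -/
lemma rot_stab {hG : GalPt T} {L : Lab U S} {E₀ : II U} {a : ℕ} (ha : T.N ∣ a)
    {D H : (Fin 3 → ℂ) → ℂ} {fX : XV U E₀.1.1 → ℂ} {F' : Finset (Ch T.m)}
    (hD1 : ∀ c ∈ F', IsV c → ∀ j, L.e1 c j = some E₀ → ∀ γ, End1 U S c E₀.1.1 γ →
        ∀ᶠ p in 𝓝 ((0 : ℂ), (0 : ℂ)), T.Gen c p →
          D (wc S c j p) = H (wc S c j p) * fX (γ j p.2))
    (hinv : ∀ (γ : GE hG E₀) (c : Ch T.m), Ok S c → ∀ (j : Fin T.d) (p : ℂ × ℂ)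
      (q : XV U E₀.1.1), T.Gen c p → (q : ConnectedComponents (XV U E₀.1.1)) = E₀.2 →
      H (rot (vl γ.1) (wc S c j p)) * fX (smv hG γ q) = H (wc S c j p) * fX q)
    {c : Ch T.m} (hc : Ok S c) (hV : IsV c) (hv : v1 T c = some E₀.1.1)
    {γ₀ : Fin T.d → ℂ → XV U E₀.1.1} (hγ₀ : End1 U S c E₀.1.1 γ₀)
    (hlab : ∀ j, ∀ b ∈ PDv S c, L.e1 c j = some (lab U ⟨E₀.1.1, E₀.1.2⟩ (γ₀ j b)))
    {j : Fin T.d} (hE : L.e1 c j = some E₀) {m : ℕ} {u : ℂ × ℂ → ℂ}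
    (hu : ∀ᶠ p in 𝓝 ((0 : ℂ), (0 : ℂ)), T.Gen c p → H (wc S c j p) = p.1 ^ m * u p)
    (γ : GE hG E₀) (hmem : rc T (vl γ.1) c ∈ F') :
    ∀ᶠ p in 𝓝 ((0 : ℂ), (0 : ℂ)), T.Gen c p →
      (fun x : Fin 3 → ℂ => x 1 ^ a * D x) (rot (vl γ.1) (wc S c j p)) =
        p.1 ^ (m + a) * (u p * fX (γ₀ j p.2)) := by
  have hξ := vl_pow γ.1
  obtain ⟨τ, hτ⟩ := exists_tau hG hξ S hc.1
  have hrot : RotC S (vl γ.1) c j (rc T (vl γ.1) c) (τ j) (rm T (vl γ.1) c).1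
      (rm T (vl γ.1) c).2 := ⟨isV_rc (vl γ.1) c, (rm_norm hξ c).1, (rm_norm hξ c).2, hτ j⟩
  have hc' : Ok S (rc T (vl γ.1) c) := ok_rc S hG hξ hc
  have hV' : IsV (rc T (vl γ.1) c) := (isV_rc _ c).2 hV
  have hE' : L.e1 (rc T (vl γ.1) c) (τ j) = some E₀ := by
    rw [lab1 hG (Tb_941.retStmt U) hξ L hc (hτ j), hE]
    exact congrArg some ((mem_GE hG).1 γ.2)
  have hv' : v1 T (rc T (vl γ.1) c) = some E₀.1.1 := by
    rw [v1_rc hG hξ, hv]; exact congrArg some (GE_fst hG γ.2)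
  obtain ⟨γ₂, hγ₂, -⟩ := (End_636.endStmt L _ hc' ⟨E₀.1.1, E₀.1.2⟩).1 hv'
  have h3 := hD1 _ hmem hV' (τ j) hE' γ₂ hγ₂
  have hm := hmin (S := S) c (rc T (vl γ.1) c)
  have h4 := hrot.ev (p₀ := ((0 : ℂ), (0 : ℂ))) (by simpa using hm) (by simpa using hm)
    (P := fun x p => D x = H x * fX (γ₂ (τ j) p.2)) (by simpa only [mul_zero] using h3)
  have e2 : ∀ᶠ p : ℂ × ℂ in 𝓝 ((0 : ℂ), (0 : ℂ)),
      ‖p.2‖ < 2 * min (S.r c) (S.r (rc T (vl γ.1) c)) :=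
    continuousAt_snd.norm.eventually (gt_mem_nhds (by simpa using hm))
  filter_upwards [h4, e2, hu] with p q1 q2 q3 hg
  have hb1 : p.2 ∈ PDv S c := ⟨Or.inl hV, q2.trans_le
    (mul_le_mul_of_nonneg_left (min_le_left _ _) (by norm_num))⟩
  have hb2 : (rm T (vl γ.1) c).2 * p.2 ∈ PDv S (rc T (vl γ.1) c) := by
    refine ⟨Or.inl hV', ?_⟩
    rw [norm_mul, (rm_norm hξ c).2, one_mul]
    exact q2.trans_le (mul_le_mul_of_nonneg_left (min_le_right _ _) (by norm_num))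
  have e3 := act_end1 γ hγ₀ hγ₂ (hτ j) hb1 q2 hb2
  have hcomp : ((γ₀ j p.2 : XV U E₀.1.1) : ConnectedComponents (XV U E₀.1.1)) = E₀.2 := by
    refine lab_comp (hv := E₀.1.2) ?_
    have h5 := hlab j p.2 hb1
    rw [hE] at h5
    exact (Option.some.inj h5).symm
  have e4 : D (rot (vl γ.1) (wc S c j p)) = p.1 ^ m * (u p * fX (γ₀ j p.2)) := by
    rw [q1 hg]
    show H (rot (vl γ.1) (wc S c j p)) * fX (γ₂ (τ j) ((rm T (vl γ.1) c).2 * p.2)) = _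
    rw [e3, hinv γ c hc j p _ hg hcomp, q3 hg]
    ring
  have e5 : (rot (vl γ.1) (wc S c j p)) 1 ^ a = p.1 ^ a := by
    show (vl γ.1 * (T.map c p).1) ^ a = p.1 ^ a
    obtain ⟨k, rfl⟩ := ha
    rw [mapV hV, mul_pow, pow_mul (vl γ.1), hξ, one_pow, one_mul]
  show (rot (vl γ.1) (wc S c j p)) 1 ^ a * D (rot (vl γ.1) (wc S c j p)) = _
  rw [e5, e4, pow_add]
  ring

/-- **all the orders** of the function obtained from null data -/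
theorem null_orders [Fintype (II U)] (hf : Iso f) (hC : Clo T) (hG : GalPt T) (hR : RetStmt U)
    (hmono : ∀ c, T.Valid c → T.MonoC c (S.r c)) (hcovP : CovP S) (L : Lab U S)
    {nu : II U → ℤ} {n1 n2 : Ch T.m → Fin T.d → ℤ} (J : Jac L nu n1 n2) (hW : WTDStmt L)
    (hN : NullStmt L n1 n2) {E₀ : II U} {y : II U → ℝ}
    (hyi : ∀ (γ : Ru T) (E : II U), y (piH hG γ E) = y E) (hsup : ∀ E, dg (Mx L) y E < 0)
    {a : ℕ} (ha : T.N ∣ a) {fX : XV U E₀.1.1 → ℂ} {H : (Fin 3 → ℂ) → ℂ}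
    {h1 h2 e : Ch T.m → Fin T.d → ℝ} (hd : NDat L n1 n2 E₀ y a fX H h1 h2 e)
    (hinv : ∀ (γ : GE hG E₀) (c : Ch T.m), Ok S c → ∀ (j : Fin T.d) (p : ℂ × ℂ)
      (q : XV U E₀.1.1), T.Gen c p → (q : ConnectedComponents (XV U E₀.1.1)) = E₀.2 →
      H (rot (vl γ.1) (wc S c j p)) * fX (smv hG γ q) = H (wc S c j p) * fX q)
    {m : ℕ} (hm : (m : ℝ) ≤ y E₀ + nu E₀)
    (hu : ∀ c, Ok S c → IsV c → ∀ j, L.e1 c j = some E₀ → ∃ u : ℂ × ℂ → ℂ,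
      AnalyticAt ℂ u (0, 0) ∧ u (0, 0) ≠ 0 ∧
      ∀ᶠ p in 𝓝 ((0 : ℂ), (0 : ℂ)), T.Gen c p → H (wc S c j p) = p.1 ^ m * u p)
    (hne : ∃ q : XV U E₀.1.1, fX q ≠ 0) (F' : Finset (Ch T.m)) (hF' : ∀ c ∈ F', Ok S c) :
    ∃ (g V D : (Fin 3 → ℂ) → ℂ) (Φ : (Fin 3 → ℂ) → ℝ) (ρ₀ ρ₁ C : ℝ) (v : II U → ℕ), 0 < ρ₀ ∧
      HT S g V (fun x => x 1 ^ a * D x) (fun x => Φ x + a * Real.log (‖x 1‖ ^ 2)) ρ₁ ∧
      (∀ c ∈ F', ∀ j, ∀ p ∈ Og (S := S) c ρ₀, Φ (wc S c j p) ≤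
        yo y (L.e1 c j) * Real.log (‖p.1‖ ^ 2) + yo y (L.e2 c j) * Real.log (‖p.2‖ ^ 2) + C) ∧
      (∀ c ∈ F', v1 T c = none → ∀ j,
        (L.e2 c j = some E₀ → ∃ r > 0, ∃ C' : ℝ, ∀ p ∈ AJ387.BD r r, T.Gen c p →
          ContinuousAt (D ∘ wc S c j) p ∧
          ‖D (wc S c j p)‖ ≤ C' * (‖p.1‖ ^ (h1 c j + e c j) * ‖p.2‖ ^ h2 c j)) ∧
        (L.e2 c j ≠ some E₀ → ∃ r > 0, ∀ p ∈ AJ387.BD r r, T.Gen c p → D (wc S c j p) = 0)) ∧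
      (∃ᶠ x in 𝓝 (0 : Fin 3 → ℂ), f x = 0 ∧ g x ≠ 0) ∧ (∀ E, Exv L g E (v E)) ∧
      (∀ E, (∀ γ, piH hG γ E₀ ≠ E) → y E + a + nu E < v E) ∧
      ∀ γ, v (piH hG γ E₀) = m + a := by
  classical
  -- the test chart of `E₀`
  obtain ⟨q₀, hq₀⟩ := hne
  have hq₀c : (q₀ : ConnectedComponents (XV U E₀.1.1)) = E₀.2 := by
    by_contra h; exact hq₀ (hd.off q₀ h)
  have hv := E₀.1.2
  have hw₀ : pV U E₀.1.1 q₀ ∉ sp T E₀.1.1 := q₀.2.2.1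
  set c₀ : Ch T.m := .vert (S.ci E₀.1.1) E₀.1.1.1 (pV U E₀.1.1 q₀) with hc₀def
  have hc₀ : Ok S c₀ := Lab_931.ok_vert S hv hw₀
  have hV₀ : IsV c₀ := trivial
  have hv₀ : v1 T c₀ = some E₀.1.1 := Lab_931.v1_vert S hv _
  obtain ⟨γ₀, hγ₀, hlab₀⟩ := (End_636.endStmt L c₀ hc₀ ⟨E₀.1.1, E₀.1.2⟩).1 hv₀
  have hr₀ := S.pos c₀
  have h0mem : (0 : ℂ) ∈ PDv S c₀ := ⟨Or.inl hV₀, by simpa using hr₀⟩
  obtain ⟨j₀, hj₀⟩ := hγ₀.surj 0 h0mem q₀ (by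
    show pV U E₀.1.1 q₀ = pV U E₀.1.1 q₀ + 0 ^ 1
    simp)
  have hE₀ : L.e1 c₀ j₀ = some E₀ := by
    rw [hlab₀ j₀ 0 h0mem, hj₀]
    exact congrArg some (Sigma.ext rfl (heq_of_eq hq₀c))
  obtain ⟨u, hua, hu0, hue⟩ := hu c₀ hc₀ hV₀ j₀ hE₀
  -- the test charts of the other components
  choose cT jT hcT_ok hcT_V hcT_e _ using fun E => exists_test hR L E ∅
  set Ft : Finset (Ch T.m) := Finset.univ.biUnion fun E =>
    (nthRootsFinset T.N (1 : ℂ)).image fun ξ => rc T ξ (cT E) with hFt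
  set F0 : Finset (Ch T.m) := (nthRootsFinset T.N (1 : ℂ)).image fun ξ => rc T ξ c₀ with hF0
  set F : Finset (Ch T.m) := F' ∪ (Ft ∪ F0) with hFdef
  have hroot : ∀ {ξ : ℂ}, ξ ^ T.N = 1 → ξ ∈ nthRootsFinset T.N (1 : ℂ) := fun hξ =>
    (Polynomial.mem_nthRootsFinset T.N_pos (1 : ℂ)).2 hξ
  have hroot' : ∀ {ξ : ℂ}, ξ ∈ nthRootsFinset T.N (1 : ℂ) → ξ ^ T.N = 1 := fun hξ =>
    (Polynomial.mem_nthRootsFinset T.N_pos (1 : ℂ)).1 hξ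
  have hF : ∀ c ∈ F, Ok S c := by
    intro c hc
    rcases Finset.mem_union.1 hc with h | h
    · exact hF' c h
    · rcases Finset.mem_union.1 h with h | h
      · obtain ⟨E, -, hE⟩ := Finset.mem_biUnion.1 h
        obtain ⟨ξ, hξ, rfl⟩ := Finset.mem_image.1 hE
        exact ok_rc S hG (hroot' hξ) (hcT_ok E)
      · obtain ⟨ξ, hξ, rfl⟩ := Finset.mem_image.1 h
        exact ok_rc S hG (hroot' hξ) hc₀
  have hrcT : ∀ E, ∀ ξ : ℂ, ξ ^ T.N = 1 → rc T ξ (cT E) ∈ F := fun E ξ hξ =>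
    Finset.mem_union_right _ (Finset.mem_union_left _ (Finset.mem_biUnion.2 ⟨E,
      Finset.mem_univ _, Finset.mem_image.2 ⟨ξ, hroot hξ, rfl⟩⟩))
  have hrc0 : ∀ ξ : ℂ, ξ ^ T.N = 1 → rc T ξ c₀ ∈ F := fun ξ hξ =>
    Finset.mem_union_right _ (Finset.mem_union_right _ (Finset.mem_image.2 ⟨ξ, hroot hξ, rfl⟩))
  obtain ⟨g, V, D, Φ, ρ₀, ρ₁, C, hρ₀, hHT, hup, hD1, hD2, hD3⟩ :=
    null_core hC hcovP L hW hN hsup hd F hF
  -- the shifted weight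
  set y' : II U → ℝ := fun E => y E + a with hy'
  have hyi' : ∀ (ξ : ℂ) (hξ : ξ ^ T.N = 1) (E : II U), y' (pi hG hR hξ E) = y' E := by
    intro ξ hξ E
    obtain ⟨γ, rfl⟩ := exists_vl hξ
    have h3 := hyi γ E
    simp only [hy']
    have h4 : pi hG hR hξ E = piH hG γ E := rfl
    rw [h4, h3]
  have hup' : ∀ c ∈ F, IsV c → ∀ j, ∀ p ∈ Og (S := S) c ρ₀,
      (fun x : Fin 3 → ℂ => Φ x + a * Real.log (‖x 1‖ ^ 2)) (wc S c j p) ≤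
        yo y' (L.e1 c j) * Real.log (‖p.1‖ ^ 2) + yo y' (L.e2 c j) * Real.log (‖p.2‖ ^ 2) + C := by
    intro c hc hV j p hp
    have h3 := hup c hc j p hp
    have hok := hF c hc
    have h4 := L.v_e1 c hok j
    obtain ⟨E, hE⟩ : ∃ E, L.e1 c j = some E := by
      rcases he : L.e1 c j with _ | E
      · rw [he] at h4
        cases c with
        | edge i k k' => exact absurd hV id
        | leg i => exact absurd hV id
        | vert i k w₀ => simp [v1] at h4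
      · exact ⟨E, rfl⟩
    rw [hE, e2_none L hok hV j] at h3 ⊢
    show Φ (wc S c j p) + a * Real.log (‖(T.map c p).1‖ ^ 2) ≤
      (y E + a) * Real.log (‖p.1‖ ^ 2) + 0 * Real.log (‖p.2‖ ^ 2) + C
    rw [mapV hV]
    have h5 : Φ (wc S c j p) ≤ y E * Real.log (‖p.1‖ ^ 2) + 0 * Real.log (‖p.2‖ ^ 2) + C := h3
    linarith
  -- the order along `E₀`
  have hoff := fun c (hc : T.Valid c) => off_of_mono (hmono c hc) ρ₁
  obtain ⟨C', hC'⟩ := unif (T := T) (P := fun ξ C' => ∀ᶠ p in 𝓝 ((0 : ℂ), (0 : ℂ)), T.Gen c₀ p →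
      (fun x : Fin 3 → ℂ => Φ x + a * Real.log (‖x 1‖ ^ 2)) (rot ξ (wc S c₀ j₀ p)) ≤
        y' E₀ * Real.log (‖p.1‖ ^ 2) + C')
    (fun ξ C₁ C₂ hC hP => hP.mono fun p hp hg => (hp hg).trans (by linarith))
    (fun ξ hξ => by
      obtain ⟨τ, hτ⟩ := exists_tau hG hξ S hc₀.1
      have hrot : RotC S ξ c₀ j₀ (rc T ξ c₀) (τ j₀) (rm T ξ c₀).1 (rm T ξ c₀).2 :=
        ⟨isV_rc ξ c₀, (rm_norm hξ c₀).1, (rm_norm hξ c₀).2, hτ j₀⟩
      have hc' : Ok S (rc T ξ c₀) := ok_rc S hG hξ hc₀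
      have hV' : IsV (rc T ξ c₀) := (isV_rc _ c₀).2 hV₀
      refine hrot.le hc'.1 (z := 0) (by simpa using hr₀) (by simpa using S.pos _)
        (Φ := fun x : Fin 3 → ℂ => Φ x + a * Real.log (‖x 1‖ ^ 2)) (Y₁ := y' E₀) (Y₂ := 0) (C := C) hρ₀ (Or.inr rfl) fun p hp => ?_
      have h3 := hup' _ (hrc0 ξ hξ) hV' (τ j₀) p hp
      rw [lab1 hG hR hξ L hc₀ (hτ j₀), hE₀, e2_none L hc' hV' (τ j₀)] at h3
      have h4 : yo y' ((some E₀ : Option (II U)).map (pi hG hR hξ)) = y' E₀ := hyi' ξ hξ E₀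
      rw [h4] at h3
      simpa [yo] using h3)
  set P : ℂ → Prop := fun ξ => ∃ γ : GE hG E₀, vl γ.1 = ξ with hP
  set ee : ℂ → ℂ × ℂ → ℂ := fun ξ p => if P ξ then u p * fX (γ₀ j₀ p.2) else 0 with hee
  have hfa : AnalyticAt ℂ (fun p : ℂ × ℂ => u p * fX (γ₀ j₀ p.2)) (0, 0) :=
    hua.mul (fX_an hd.hol hV₀ hγ₀ j₀)
  obtain ⟨Hx, hHx, hHxe, hHx0⟩ := hHT.exact J hc₀ j₀ (hoff c₀ hc₀.1) (z := 0) (Or.inr hV₀)
    (by simpa using hr₀) (map0V hc₀.1 hV₀) (m := m + a) (e := ee) (fun ξ hξ => by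
      by_cases h : P ξ
      · simp only [hee, if_pos h]; exact hfa
      · simp only [hee, if_neg h]; exact analyticAt_const) (fun ξ hξ => by
      by_cases h : P ξ
      · obtain ⟨γ, rfl⟩ := h
        have h3 := rot_stab ha hD1 hinv hc₀ hV₀ hv₀ hγ₀ hlab₀ hE₀ hue γ (hrc0 _ (vl_pow γ.1))
        filter_upwards [h3] with p hp hg
        rw [hp hg]
        simp only [hee]
        rw [if_pos ⟨γ, rfl⟩]
      · have h3 := rot_zero (hG := hG) (hR := hR) (a := a) hD2 hc₀ hV₀ hE₀ hξ (hrc0 ξ hξ)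
          (fun h4 => h (by
            obtain ⟨γ, hγ⟩ := exists_vl hξ
            subst hγ
            exact ⟨⟨γ, h4⟩, rfl⟩))
        filter_upwards [h3] with p hp hg
        rw [hp hg]
        simp only [hee]
        rw [if_neg h, mul_zero]) (y := y' E₀) (C := C') (by
      rw [J.some1 c₀ hc₀ j₀ E₀ hE₀]
      simp only [hy']
      push_cast
      linarith) hC'
  have hHne : Hx (0, 0) ≠ 0 := by
    rw [hHx0]
    have h3 : ∑ ξ ∈ nthRootsFinset T.N (1 : ℂ), ee ξ ((0 : ℂ), (0 : ℂ)) =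
        (((nthRootsFinset T.N (1 : ℂ)).filter P).card : ℂ) * (u (0, 0) * fX (γ₀ j₀ 0)) := by
      simp only [hee]
      rw [← Finset.sum_filter, Finset.sum_const, nsmul_eq_mul]
    rw [h3, hj₀]
    refine mul_ne_zero (one_div_ne_zero (Nat.cast_ne_zero.2 T.N_pos.ne')) (mul_ne_zero
      (Nat.cast_ne_zero.2 ?_) (mul_ne_zero hu0 hq₀))
    refine (Finset.card_pos.2 ⟨1, ?_⟩).ne'
    rw [Finset.mem_filter]
    exact ⟨hroot (one_pow _), ⟨1, rfl⟩⟩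
  -- `g` is not zero on `{f = 0}`
  have hfreq : ∃ᶠ x in 𝓝 (0 : Fin 3 → ℂ), f x = 0 ∧ g x ≠ 0 := by
    by_contra hcon
    rw [not_frequently] at hcon
    have hb0 : ((0 : ℂ), (0 : ℂ)) ∈ AJ387.BD (2 * S.r c₀) (2 * S.r c₀) :=
      ⟨by simpa using hr₀, by simpa using hr₀⟩
    have hth0 : T.th c₀ (S.ζ c₀ j₀) (0, 0) = 0 := by
      rw [(S.sheets c₀ hc₀.1).th_zero hc₀.1 j₀ hb0, ← T.map_eq_zero hc₀.1]
      exact map0V hc₀.1 hV₀
    have htend : Tendsto (T.th c₀ (S.ζ c₀ j₀)) (𝓝 ((0 : ℂ), (0 : ℂ))) (𝓝 0) := by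
      have := ((S.sheets c₀ hc₀.1).th_an j₀ hb0).continuousAt.tendsto
      rwa [hth0] at this
    have e1 : ∀ᶠ p : ℂ × ℂ in 𝓝 ((0 : ℂ), (0 : ℂ)), p ∈ AJ387.BD (2 * S.r c₀) (2 * S.r c₀) :=
      (isOpen_BD _ _).mem_nhds hb0
    have e2 : ∀ᶠ p in 𝓝 ((0 : ℂ), (0 : ℂ)), Hx p ≠ 0 := hHx.continuousAt.eventually_ne hHne
    have e3 : ∀ᶠ p : ℂ × ℂ in 𝓝 ((0 : ℂ), (0 : ℂ)), p.1 = 0 := by
      filter_upwards [e1, htend.eventually hcon, e2, hHxe] with p q1 q2 q3 q4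
      by_contra hne
      have hfp : f (T.th c₀ (S.ζ c₀ j₀) p) = 0 := (S.sheets c₀ hc₀.1).th_V j₀ q1
      exact q2 ⟨hfp, by rw [q4]; exact mul_ne_zero (pow_ne_zero _ hne) q3⟩
    have hft : Tendsto (fun α : ℂ => (α, (0 : ℂ))) (𝓝[≠] 0) (𝓝 ((0 : ℂ), (0 : ℂ))) := by
      have : Continuous fun α : ℂ => (α, (0 : ℂ)) := by fun_prop
      exact (this.tendsto' _ _ rfl).mono_left nhdsWithin_le_nhds
    obtain ⟨α, hα, hα0⟩ := ((hft.eventually e3).and self_mem_nhdsWithin).exists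
    exact hα0 hα
  obtain ⟨v, hvE⟩ := exists_exv hf hR L hHT.an hfreq
  have hv0 : v E₀ = m + a := by
    obtain ⟨G, hGa, hGe, hGn⟩ := hvE E₀ c₀ hc₀ hV₀ j₀ hE₀ 0 (by simpa using hr₀)
    refine le_antisymm ?_ ?_
    · refine ord_ge hHx hGa (z := 0) ?_ ?_
      · filter_upwards [hGe, hHxe] with p q1 q2
        rw [← q1, ← q2]
      · have hft : Tendsto (fun x : ℂ => ((0 : ℂ), x)) (𝓝 0) (𝓝 ((0 : ℂ), (0 : ℂ))) := by
          have : Continuous fun x : ℂ => ((0 : ℂ), x) := by fun_prop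
          exact this.tendsto' _ _ rfl
        exact (hft.eventually (hHx.continuousAt.eventually_ne hHne)).frequently
    · refine ord_ge hGa hHx ?_ hGn
      filter_upwards [hGe, hHxe] with p q1 q2
      rw [← q1, ← q2]
  refine ⟨g, V, D, Φ, ρ₀, ρ₁, C, v, hρ₀, hHT, fun c hc => hup c (Finset.mem_union_left _ hc),
    fun c hc => hD3 c (Finset.mem_union_left _ hc), hfreq, hvE, fun E hE => ?_, fun γ => ?_⟩
  · obtain ⟨G, hGa, hGe, hGn⟩ := hvE E (cT E) (hcT_ok E) (hcT_V E) (jT E) (hcT_e E) 0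
      (by simpa using S.pos _)
    have h3 := lo_all hG hR L J hyi' hHT (hcT_ok E) (hcT_V E) (hcT_e E)
      (hoff _ (hcT_ok E).1) (fun ξ hξ => rot_zero (hG := hG) (hR := hR) (a := a) hD2 (hcT_ok E)
        (hcT_V E) (hcT_e E) hξ (hrcT E ξ hξ) (fun h4 => by
          obtain ⟨γ, hγ⟩ := exists_vl hξ
          subst hγ
          have h5 : piH hG γ E = E₀ := h4
          refine hE γ⁻¹ ?_
          rw [← h5, ← Equiv.Perm.mul_apply, ← map_mul, inv_mul_cancel, map_one,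
            Equiv.Perm.one_apply])) hρ₀ (C := C)
      (fun ξ hξ j p hp => hup' _ (hrcT E ξ hξ) ((isV_rc _ _).2 (hcT_V E)) j p hp) (v := v) hGa
      (by
        filter_upwards [hGe] with p hp
        rw [hp, hcT_e E, e2_none L (hcT_ok E) (hcT_V E) (jT E)]
        simp [yn]) hGn
    exact h3
  · rw [← exv_rot hR γ (hvE E₀) (hvE (piH hG γ E₀)), hv0]

end Crest.Agent.R257.Exf_843
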