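import Crest.Agent.R257.Vt4_558
import Crest.Agent.R257.T7_387

/-!
Row 257 (S0395), part C: the density `dn` in the charts (helper558, tasks C-JAC, C-ROT).

* `dn_eq`   : `dn S c j p = kk c * ‖α‖^jx1 * ‖β‖^jx2 / ‖f_z‖`;
* `dn_rot`  : invariance under the rotation;
* `bd_of`   : the two-sided bound of `Jac.bd`;
* `exp_unique` : comparison of exponents.
-/

set_option autoImplicit false
set_option linter.unusedSectionVars false

open Polynomial Set Filter Topology Metric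
open Crest.AlgGeometry.Germ Crest.Agent.R257.AJ387 Crest.Agent.R257.T387
open Crest.Agent.R257.Fr_808 (jac2)
open Crest.Agent.R257.Rot1_558 Crest.Agent.R257.BP_258 Crest.Agent.R257.Vt1_558
open Crest.Agent.R257.Vt2_558 Crest.Agent.R257.Vt3_558 Crest.Agent.R257.Vt4_558

noncomputable section

namespace Crest.Agent.R257.Vt6_558

variable {f : (Fin 3 → ℂ) → ℂ} {T : TB f} {U : Tub T}

lemma jac2_Jm {c : Ch T.m} {z : ℂ × ℂ → ℂ} {p : ℂ × ℂ} (hp : ‖(T.map c p).1‖ ^ T.M < T.ρ)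
    (hz : DifferentiableAt ℂ z p) :
    jac2 (T.th c z) p = T.detA * (T.N * (T.map c p).1 ^ (T.N - 1)) * Jm T c p := by
  have h1 : T.th c z = fun p => pt (z p) (T.A (T.sc c p ^ T.N,
      (fun s : ℂ => T.φ (T.ix c) (s ^ T.M)) (T.sc c p) + T.mc c p)) := by
    funext p
    show pt (z p) (T.base (T.map c p)) = _
    rw [T.map_eq]
    rfl
  have hp' := hp
  rw [T.map_fst] at hp'
  have hg := (T.gg_an (T.ix c) hp').differentiableAt.hasDerivAt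
  have hsc := (T.sc_an c p).differentiableAt.hasFDerivAt
  have hmc := (T.mc_an c p).differentiableAt.hasFDerivAt
  rw [h1, T.jac_gen T.N hz.hasFDerivAt hsc hmc hg, T.map_fst]
  congr 1
  have h2 : (fun q => (T.map c q).1) = T.sc c := funext fun q => T.map_fst c q
  have h3 : (fun q => (T.map c q).2) =
      fun q => (fun s : ℂ => T.φ (T.ix c) (s ^ T.M)) (T.sc c q) + T.mc c q :=
    funext fun q => by rw [T.map_eq]
  have h4 : HasFDerivAt (fun q => (fun s : ℂ => T.φ (T.ix c) (s ^ T.M)) (T.sc c q) + T.mc c q)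
      (deriv (fun s : ℂ => T.φ (T.ix c) (s ^ T.M)) (T.sc c p) • fderiv ℂ (T.sc c) p +
        fderiv ℂ (T.mc c) p) p := (hg.comp_hasFDerivAt p hsc).add hmc
  unfold Jm
  rw [h2, h3, h4.fderiv]
  simp only [add_apply, smul_apply, smul_eq_mul]
  ring

/-- the constant of the density -/
def kk (T : TB f) (c : Ch T.m) : ℝ := ‖T.jk c‖ / (‖T.detA‖ * T.N)

lemma kk_pos {c : Ch T.m} (hc : T.Valid c) : 0 < kk T c := by
  have h1 := norm_pos_iff.2 (T.jk_ne hc)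
  have h2 := norm_pos_iff.2 T.detA_ne
  have h3 : (0 : ℝ) < T.N := by exact_mod_cast T.N_pos
  unfold kk
  positivity

/-- `∂f/∂z` at a point of `W` -/
def fz (T : TB f) (x : Fin 3 → ℂ) : ℂ := coordDeriv f 0 (pt (x 0) (T.base (x 1, x 2)))

lemma fz_wc (S : Sh T) (c : Ch T.m) (j : Fin T.d) (p : ℂ × ℂ) :
    coordDeriv f 0 (T.th c (S.ζ c j) p) = fz T (wc S c j p) := rfl

lemma fz_rot {ξ : ℂ} (hξ : ξ ^ T.N = 1) (x : Fin 3 → ℂ) : fz T (rot ξ x) = fz T x := by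
  simp only [fz, rot_0, rot_1, rot_2, base_rot hξ]

/-- **the density** -/
theorem dn_eq (S : Sh T) {c : Ch T.m} (hc : T.Valid c) (j : Fin T.d) {p : ℂ × ℂ}
    (hp : p ∈ BD (2 * S.r c) (2 * S.r c)) :
    dn S c j p = kk T c * ‖p.1‖ ^ (T.jx c).1 * ‖p.2‖ ^ (T.jx c).2 / ‖fz T (wc S c j p)‖ := by
  have hS := S.sheets c hc
  have hz : DifferentiableAt ℂ (S.ζ c j) p := (hS.an j p hp).differentiableAt
  have h1 := T.jac_chart hc (hS.mem p hp).2 hz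
  rw [jac2_Jm (hS.mem p hp).2 hz] at h1
  have h2 := norm_pos_iff.2 T.detA_ne
  have h3 : (0 : ℝ) < T.N := by exact_mod_cast T.N_pos
  have h4 : ‖(T.map c p).1‖ ^ (T.N - 1) * ‖Jm T c p‖ =
      kk T c * ‖p.1‖ ^ (T.jx c).1 * ‖p.2‖ ^ (T.jx c).2 := by
    have h5 := congrArg norm h1
    simp only [norm_mul, norm_pow, Complex.norm_natCast] at h5
    unfold kk
    field_simp
    linarith
  unfold dn
  rw [h4, fz_wc]

lemma jx_rc (hG : GalPt T) {ξ : ℂ} (hξ : ξ ^ T.N = 1) (c : Ch T.m) :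
    T.jx (rc T ξ c) = T.jx c := by
  cases c with
  | edge i k k' => rfl
  | leg i => simp only [rc, TB.jx, top_sg hG hξ]
  | vert i k w => rfl

lemma kk_rc (ξ : ℂ) (c : Ch T.m) : kk T (rc T ξ c) = kk T c := by
  cases c <;> rfl

/-- the density is invariant -/
theorem dn_rot (hG : GalPt T) {ξ : ℂ} (hξ : ξ ^ T.N = 1) (S : Sh T) {c : Ch T.m} (hc : T.Valid c)
    {j j' : Fin T.d} {p : ℂ × ℂ} (hp : p ∈ BD (2 * S.r c) (2 * S.r c))
    (hp' : p ∈ BD (2 * S.r (rc T ξ c)) (2 * S.r (rc T ξ c)))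
    (h : rot ξ (wc S c j p) = wc S (rc T ξ c) j' (rp T ξ c p)) :
    dn S (rc T ξ c) j' (rp T ξ c p) = dn S c j p := by
  obtain ⟨r1, r2⟩ := rp_norm hξ c p
  rw [dn_eq S hc j hp, dn_eq S ((valid_rc hG hξ c).2 hc) j' ((rp_mem hξ c).2 hp'), ← h, fz_rot hξ,
    jx_rc hG hξ, kk_rc, r1, r2]

/-- **the two-sided bound** -/
theorem bd_of (S : Sh T) {c : Ch T.m} (hc : T.Valid c) (j : Fin T.d) {a b : ℕ} {w : ℂ × ℂ → ℂ}
    (hw : AnalyticOnNhd ℂ w (BD (2 * S.r c) (2 * S.r c)))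
    (hw0 : ∀ p ∈ BD (2 * S.r c) (2 * S.r c), w p ≠ 0)
    (he : ∀ p ∈ BD (2 * S.r c) (2 * S.r c), coordDeriv f 0 (T.th c (S.ζ c j) p) =
      p.1 ^ a * p.2 ^ b * w p) (hb : ∀ i k w₀, c = .vert i k w₀ → b = 0) {n1 n2 : ℤ}
    (hn1 : n1 = a - (T.jx c).1 - 1) (hn2 : n2 = b - (T.jx c).2 - 1) :
    ∃ K : ℝ, 0 < K ∧ ∀ p : ℂ × ℂ, ‖p.1‖ ≤ S.r c → ‖p.2‖ ≤ S.r c → T.Gen c p →
      coordDeriv f 0 (T.th c (S.ζ c j) p) ≠ 0 ∧
      dn S c j p ≤ K * (‖p.1‖ ^ (-n1 - 1) * ‖p.2‖ ^ (-n2 - 1)) ∧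
      ‖p.1‖ ^ (-n1 - 1) * ‖p.2‖ ^ (-n2 - 1) ≤ K * dn S c j p := by
  have hr := S.pos c
  set B : Set (ℂ × ℂ) := closedBall (0 : ℂ) (S.r c) ×ˢ closedBall (0 : ℂ) (S.r c) with hB
  have hBc : IsCompact B := (isCompact_closedBall _ _).prod (isCompact_closedBall _ _)
  have hBD : ∀ p ∈ B, p ∈ BD (2 * S.r c) (2 * S.r c) := fun p hp => by
    have h1 : ‖p.1‖ ≤ S.r c := by simpa using hp.1
    have h2 : ‖p.2‖ ≤ S.r c := by simpa using hp.2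
    exact ⟨by linarith, by linarith⟩
  have hcont : ContinuousOn (fun p => ‖w p‖) B := fun p hp =>
    ((hw p (hBD p hp)).continuousAt.norm).continuousWithinAt
  have hne : B.Nonempty := ⟨(0, 0), by simp [hB, hr.le]⟩
  obtain ⟨p₁, hp₁, h1⟩ := hBc.exists_isMinOn hne hcont
  obtain ⟨p₂, hp₂, h2⟩ := hBc.exists_isMaxOn hne hcont
  have hm : 0 < ‖w p₁‖ := norm_pos_iff.2 (hw0 _ (hBD _ hp₁))
  have hM : 0 < ‖w p₂‖ := norm_pos_iff.2 (hw0 _ (hBD _ hp₂))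
  have hk := kk_pos hc
  refine ⟨kk T c / ‖w p₁‖ + ‖w p₂‖ / kk T c, by positivity, fun p hp1 hp2 hg => ?_⟩
  have hp : p ∈ B := ⟨by simpa using hp1, by simpa using hp2⟩
  have hwp := norm_pos_iff.2 (hw0 _ (hBD _ hp))
  have hle1 : ‖w p₁‖ ≤ ‖w p‖ := h1 hp
  have hle2 : ‖w p‖ ≤ ‖w p₂‖ := h2 hp
  have hp10 : p.1 ≠ 0 := by
    cases c with
    | edge i k k' => exact hg.1
    | leg i => exact hg.1
    | vert i k w => exact hg
  have hp20 : p.2 ^ b ≠ 0 ∧ ‖p.2‖ ^ (T.jx c).2 / ‖p.2‖ ^ b = ‖p.2‖ ^ (-n2 - 1) := by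
    have hgen : p.2 ≠ 0 → p.2 ^ b ≠ 0 ∧ ‖p.2‖ ^ (T.jx c).2 / ‖p.2‖ ^ b = ‖p.2‖ ^ (-n2 - 1) := by
      intro h
      have h' : ‖p.2‖ ≠ 0 := norm_ne_zero_iff.2 h
      refine ⟨pow_ne_zero _ h, ?_⟩
      rw [hn2, show -((b : ℤ) - (T.jx c).2 - 1) - 1 = ((T.jx c).2 : ℤ) - b by ring,
        zpow_sub₀ h', zpow_natCast, zpow_natCast]
    cases c with
    | edge i k k' => exact hgen hg.2
    | leg i => exact hgen hg.2
    | vert i k w =>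
      have hb0 := hb i k w rfl
      subst hb0
      refine ⟨by simp, ?_⟩
      rw [hn2]
      simp [TB.jx]
  have hp1' : ‖p.1‖ ^ (T.jx c).1 / ‖p.1‖ ^ a = ‖p.1‖ ^ (-n1 - 1) := by
    have h' : ‖p.1‖ ≠ 0 := norm_ne_zero_iff.2 hp10
    rw [hn1, show -((a : ℤ) - (T.jx c).1 - 1) - 1 = ((T.jx c).1 : ℤ) - a by ring,
      zpow_sub₀ h', zpow_natCast, zpow_natCast]
  have hcd := he p (hBD p hp)
  refine ⟨by rw [hcd]; exact mul_ne_zero (mul_ne_zero (pow_ne_zero _ hp10) hp20.1) (hw0 _ (hBD _ hp)), ?_⟩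
  have hdn : dn S c j p = kk T c / ‖w p‖ * (‖p.1‖ ^ (-n1 - 1) * ‖p.2‖ ^ (-n2 - 1)) := by
    rw [dn_eq S hc j (hBD p hp), ← fz_wc, hcd, norm_mul, norm_mul, norm_pow, norm_pow, ← hp1',
      ← hp20.2]
    have e1 : ‖p.1‖ ^ a ≠ 0 := pow_ne_zero _ (norm_ne_zero_iff.2 hp10)
    have e2 : ‖p.2‖ ^ b ≠ 0 := by rw [← norm_pow]; exact norm_ne_zero_iff.2 hp20.1
    field_simp
  set X := ‖p.1‖ ^ (-n1 - 1) * ‖p.2‖ ^ (-n2 - 1) with hX
  have hX0 : 0 ≤ X := by positivity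
  rw [hdn]
  constructor
  · refine mul_le_mul_of_nonneg_right ?_ hX0
    have e1 : kk T c / ‖w p‖ ≤ kk T c / ‖w p₁‖ := div_le_div_of_nonneg_left hk.le hm hle1
    have e2 : 0 ≤ ‖w p₂‖ / kk T c := by positivity
    linarith
  · have e1 : 1 ≤ (kk T c / ‖w p₁‖ + ‖w p₂‖ / kk T c) * (kk T c / ‖w p‖) := by
      have e2 : ‖w p₂‖ / kk T c * (kk T c / ‖w p‖) = ‖w p₂‖ / ‖w p‖ := by field_simp
      have e3 : 1 ≤ ‖w p₂‖ / ‖w p‖ := (one_le_div hwp).2 hle2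
      have e4 : 0 ≤ kk T c / ‖w p₁‖ * (kk T c / ‖w p‖) := by positivity
      rw [add_mul, e2]
      linarith
    calc X = 1 * X := (one_mul X).symm
      _ ≤ ((kk T c / ‖w p₁‖ + ‖w p₂‖ / kk T c) * (kk T c / ‖w p‖)) * X :=
          mul_le_mul_of_nonneg_right e1 hX0
      _ = _ := by ring

/-- comparison of exponents -/
theorem exp_unique {a n : ℤ} {g : ℂ → ℝ} {A B A' B' : ℝ} (hA : 0 < A) (hA' : 0 < A')
    (h1 : ∀ᶠ t in 𝓝[≠] (0 : ℂ), A * ‖t‖ ^ a ≤ g t ∧ g t ≤ B * ‖t‖ ^ a)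
    (h2 : ∀ᶠ t in 𝓝[≠] (0 : ℂ), A' * ‖t‖ ^ n ≤ g t ∧ g t ≤ B' * ‖t‖ ^ n) : a = n := by
  have key : ∀ {a n : ℤ} {A B' : ℝ}, 0 < A →
      (∀ᶠ t in 𝓝[≠] (0 : ℂ), A * ‖t‖ ^ a ≤ g t) → (∀ᶠ t in 𝓝[≠] (0 : ℂ), g t ≤ B' * ‖t‖ ^ n) →
      n ≤ a := by
    intro a n A B' hA h1 h2
    by_contra hcon
    push Not at hcon
    obtain ⟨k, hk⟩ : ∃ k : ℕ, n = a + (k + 1 : ℕ) := ⟨(n - a - 1).toNat, by omega⟩
    have h3 : ∀ᶠ t in 𝓝[≠] (0 : ℂ), A ≤ B' * ‖t‖ ^ (k + 1) := by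
      filter_upwards [h1, h2, self_mem_nhdsWithin] with t e1 e2 e3
      have ht : 0 < ‖t‖ := norm_pos_iff.2 e3
      have h4 := e1.trans e2
      rw [hk, zpow_add₀ ht.ne', zpow_natCast] at h4
      have h5 : 0 < ‖t‖ ^ a := zpow_pos ht a
      have h6 : ‖t‖ ^ a * A ≤ ‖t‖ ^ a * (B' * ‖t‖ ^ (k + 1)) := by
        calc _ = A * ‖t‖ ^ a := mul_comm _ _
          _ ≤ _ := h4
          _ = _ := by ring
      exact le_of_mul_le_mul_left h6 h5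
    have h4 : Tendsto (fun t : ℂ => B' * ‖t‖ ^ (k + 1)) (𝓝[≠] 0) (𝓝 0) := by
      have h5 : Continuous fun t : ℂ => B' * ‖t‖ ^ (k + 1) := by fun_prop
      have h6 := h5.tendsto 0
      simp only [norm_zero, zero_pow (Nat.succ_ne_zero k), mul_zero] at h6
      exact h6.mono_left nhdsWithin_le_nhds
    have h5 : A ≤ 0 := ge_of_tendsto h4 h3
    linarith
  exact le_antisymm (key hA' (h2.mono fun t h => h.1) (h1.mono fun t h => h.2))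
    (key hA (h1.mono fun t h => h.1) (h2.mono fun t h => h.2))

end Crest.Agent.R257.Vt6_558
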