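import Crest.Agent.R257.ExND_843
import Crest.Agent.R257.Vt6_558
import Crest.Agent.R257.T7_387

/-!
# Row 257, ExT (helper176): the input `NDat` of the null data for an invariant form

`HT T k x = ∂_z f / s ^ (N + M k)`; exponents `hT1`, `hT2`, `eT`; `ndatT : NDat ..`.
-/

set_option autoImplicit false
set_option linter.unusedSectionVars false

open Polynomial Set Filter Topology Metric
open Crest.AlgGeometry.Germ Crest.Agent.R257.AJ387 Crest.Agent.R257.T387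
open Crest.Agent.R257.Gr1_157 Crest.Agent.R257.HoB_843 Crest.Agent.R257.BP_258
open Crest.Agent.R257.Wt_258 Crest.Agent.R257.Rsn_843 Crest.Agent.R257.Hv_174
open Crest.Agent.R257.Vt6_558 Crest.Agent.R257.Exf_843
open Crest.Agent.R257.CDataB_250 (sc_ne gen_fst)

noncomputable section

namespace Crest.Agent.R257.ExT1_176

variable {f : (Fin 3 → ℂ) → ℂ} {T : TB f} {S : Sh T} {U : Tub T}

/-- the coefficient `∂_z f / s ^ (N + M k)` -/
def HT (T : TB f) (k : ℕ) (x : Fin 3 → ℂ) : ℂ := fz T x / x 1 ^ (T.N + T.M * k)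

lemma HT_wc (k : ℕ) (c : Ch T.m) (j : Fin T.d) (p : ℂ × ℂ) : HT T k (wc S c j p) =
    coordDeriv f 0 (T.th c (S.ζ c j) p) / (T.map c p).1 ^ (T.N + T.M * k) := rfl

open Classical in
/-- exponent along `{α = 0}` -/
def hT1 (L : Lab U S) (n1 : Ch T.m → Fin T.d → ℤ) (E₀ : II U) (c : Ch T.m) (j : Fin T.d) : ℝ :=
  if L.e2 c j = some E₀ then (n1 c j : ℝ) - lx T c else n1 c j

open Classical in
/-- exponent along `{β = 0}` -/
def hT2 (L : Lab U S) (n2 : Ch T.m → Fin T.d → ℤ) (E₀ : II U) (c : Ch T.m) (j : Fin T.d) : ℝ :=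
  if IsV c then 0 else if L.e2 c j = some E₀ then (n2 c j : ℝ) else (n2 c j : ℝ) + lx T c

open Classical in
/-- exponent of the form at the end -/
def eT (L : Lab U S) (E₀ : II U) (c : Ch T.m) (j : Fin T.d) : ℝ :=
  if L.e2 c j = some E₀ then (lx T c : ℝ) * (1 + 1 / (T.d : ℝ))
  else (lx T c : ℝ) * (-1 + 1 / (T.d : ℝ))

/-! ### labels -/

lemma v1_of (L : Lab U S) {c : Ch T.m} (hc : Ok S c) {j : Fin T.d} {E : II U}
    (h : L.e1 c j = some E) : v1 T c = some E.1.1 := by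
  have h1 := L.v_e1 c hc j
  rw [h] at h1
  exact h1.symm

lemma v2_of (L : Lab U S) {c : Ch T.m} (hc : Ok S c) {j : Fin T.d} {E : II U}
    (h : L.e2 c j = some E) : v2 T c = some E.1.1 := by
  have h1 := L.v_e2 c hc j
  rw [h] at h1
  exact h1.symm

/-- the two labels of an edge -/
lemma edge_of (L : Lab U S) {c : Ch T.m} (hc : Ok S c) {j : Fin T.d} {E : II U}
    (h : L.e2 c j = some E) : ∃ i k, c = .edge i k E.1.1.1 ∧ k < E.1.1.1 := by
  have h2 := v2_of L hc h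
  cases c with
  | leg i => simp [v2] at h2
  | vert i k w => simp [v2] at h2
  | edge i k k' =>
    simp only [v2, Option.some.injEq] at h2
    have h3 : k' = E.1.1.1 := congrArg Prod.fst h2
    subst h3
    exact ⟨i, k, rfl, hc.1.2.2.1⟩

lemma lab_ne (L : Lab U S) {c : Ch T.m} (hc : Ok S c) {j : Fin T.d} {E E' : II U}
    (h1 : L.e1 c j = some E) (h2 : L.e2 c j = some E') : E ≠ E' := by
  obtain ⟨i, k, rfl, hk⟩ := edge_of L hc h2
  have h3 := v1_of L hc h1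
  rintro rfl
  by_cases h0 : k = 0
  · simp [v1, h0] at h3
  · simp only [v1, h0, if_false, Option.some.injEq] at h3
    have h4 : k = E.1.1.1 := congrArg Prod.fst h3
    omega

lemma cd_pos {v : Vtx} (hv : v ∈ Vs T) : 0 < cd S v := by
  have h1 : S.kp v < v.1 := (S.kp_cons v hv).2.2.1
  have h2 : (0 : ℝ) < ((v.1 - S.kp v : ℕ) : ℝ) := by
    have : 0 < v.1 - S.kp v := by omega
    exact_mod_cast this
  have h3 : (0 : ℝ) < T.M := by exact_mod_cast T.M_pos
  unfold cd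
  positivity

lemma Mx_pos (L : Lab U S) {E E' : II U} (hne : E ≠ E') {v : Vtx} (hv : v ∈ Vs T) {j : Fin T.d}
    (h : (L.e1 (ec S v) j = some E ∧ L.e2 (ec S v) j = some E') ∨
      (L.e2 (ec S v) j = some E ∧ L.e1 (ec S v) j = some E')) : 0 < Mx L E E' := by
  classical
  unfold Mx
  have hterm : ∀ v ∈ Vs T, ∀ j : Fin T.d, 0 ≤ cd S v *
      ((if L.e1 (ec S v) j = some E then
        (if L.e2 (ec S v) j = some E' then (1 : ℝ) else 0) - (if E = E' then 1 else 0) else 0) +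
      (if L.e2 (ec S v) j = some E then
        (if L.e1 (ec S v) j = some E' then (1 : ℝ) else 0) - (if E = E' then 1 else 0) else 0)) := by
    intro v hv j
    refine mul_nonneg (cd_pos hv).le ?_
    simp only [if_neg hne, sub_zero]
    split_ifs <;> norm_num
  have hpos : 0 < cd S v *
      ((if L.e1 (ec S v) j = some E then
        (if L.e2 (ec S v) j = some E' then (1 : ℝ) else 0) - (if E = E' then 1 else 0) else 0) +
      (if L.e2 (ec S v) j = some E then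
        (if L.e1 (ec S v) j = some E' then (1 : ℝ) else 0) - (if E = E' then 1 else 0) else 0)) := by
    refine mul_pos (cd_pos hv) ?_
    simp only [if_neg hne, sub_zero]
    rcases h with ⟨h1, h2⟩ | ⟨h1, h2⟩
    · simp only [h1, h2]
      split_ifs <;> norm_num
    · simp only [h1, h2]
      split_ifs <;> norm_num
  have e1 : ∀ v ∈ Vs T, (0 : ℝ) ≤ ∑ j : Fin T.d, cd S v *
      ((if L.e1 (ec S v) j = some E then
        (if L.e2 (ec S v) j = some E' then (1 : ℝ) else 0) - (if E = E' then 1 else 0) else 0) +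
      (if L.e2 (ec S v) j = some E then
        (if L.e1 (ec S v) j = some E' then (1 : ℝ) else 0) - (if E = E' then 1 else 0) else 0)) :=
    fun v hv => Finset.sum_nonneg fun j _ => hterm v hv j
  have e2 := Finset.single_le_sum (f := fun v => ∑ j : Fin T.d, cd S v *
      ((if L.e1 (ec S v) j = some E then
        (if L.e2 (ec S v) j = some E' then (1 : ℝ) else 0) - (if E = E' then 1 else 0) else 0) +
      (if L.e2 (ec S v) j = some E then
        (if L.e1 (ec S v) j = some E' then (1 : ℝ) else 0) - (if E = E' then 1 else 0) else 0)))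
    e1 hv
  have e3 := Finset.single_le_sum (f := fun j : Fin T.d => cd S v *
      ((if L.e1 (ec S v) j = some E then
        (if L.e2 (ec S v) j = some E' then (1 : ℝ) else 0) - (if E = E' then 1 else 0) else 0) +
      (if L.e2 (ec S v) j = some E then
        (if L.e1 (ec S v) j = some E' then (1 : ℝ) else 0) - (if E = E' then 1 else 0) else 0)))
    (fun j _ => hterm v hv j) (Finset.mem_univ j)
  have e4 := lt_of_lt_of_le hpos (e3.trans e2)
  convert e4 using 1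

/-! ### the bound of `HT` -/

lemma part {u : ℝ} (hu : 0 < u) (a E : ℕ) (n h : ℤ) (e : h = a + n + 1 - E) :
    u ^ (-n - 1) * u ^ E * u ^ h = u ^ a := by
  rw [← zpow_natCast u E, ← zpow_natCast u a, ← zpow_add₀ hu.ne', ← zpow_add₀ hu.ne', e]
  congr 1
  ring

lemma fz_le {L : Lab U S} {nu : II U → ℤ} {n1 n2 : Ch T.m → Fin T.d → ℤ} (J : Jac L nu n1 n2)
    {c : Ch T.m} (hc : Ok S c) (j : Fin T.d) : ∃ C : ℝ, 0 < C ∧ ∀ p : ℂ × ℂ, ‖p.1‖ ≤ S.r c →
      ‖p.2‖ ≤ S.r c → T.Gen c p → ‖fz T (wc S c j p)‖ *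
        (‖p.1‖ ^ (-n1 c j - 1) * ‖p.2‖ ^ (-n2 c j - 1)) ≤
          C * (‖p.1‖ ^ (T.jx c).1 * ‖p.2‖ ^ (T.jx c).2) := by
  obtain ⟨K, hK, h⟩ := J.bd c hc j
  have hk := kk_pos hc.1
  refine ⟨K * kk T c, by positivity, fun p h1 h2 hg => ?_⟩
  obtain ⟨h3, -, h4⟩ := h p h1 h2 hg
  have hS := S.pos c
  have hm : p ∈ BD (2 * S.r c) (2 * S.r c) := ⟨by linarith, by linarith⟩
  rw [dn_eq S hc.1 j hm] at h4
  rw [fz_wc] at h3
  have h5 := norm_pos_iff.2 h3
  calc ‖fz T (wc S c j p)‖ * (‖p.1‖ ^ (-n1 c j - 1) * ‖p.2‖ ^ (-n2 c j - 1))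
      ≤ ‖fz T (wc S c j p)‖ * (K * (kk T c * ‖p.1‖ ^ (T.jx c).1 * ‖p.2‖ ^ (T.jx c).2 /
        ‖fz T (wc S c j p)‖)) := mul_le_mul_of_nonneg_left h4 h5.le
    _ = _ := by field_simp

/-- from the bound of `fz` to the bound of `HT` -/
lemma HT_le {A s X Y F C B : ℝ} (hA : 0 < A) (hs : 0 < s) (_hY : 0 ≤ Y)
    (h : F * A ≤ C * X) (hX : A * s * Y = X) (hB : B = F / s) : B ≤ C * Y := by
  rw [hB, div_le_iff₀ hs]
  have h1 : F * A ≤ (C * Y * s) * A := by
    rw [← hX] at h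
    calc F * A ≤ C * (A * s * Y) := h
      _ = _ := by ring
  exact le_of_mul_le_mul_right h1 hA

lemma norm_HT (k : ℕ) (c : Ch T.m) (j : Fin T.d) (p : ℂ × ℂ) : ‖HT T k (wc S c j p)‖ =
    ‖fz T (wc S c j p)‖ / ‖(T.map c p).1‖ ^ (T.N + T.M * k) := by
  change ‖fz T (wc S c j p) / (T.map c p).1 ^ (T.N + T.M * k)‖ = _
  rw [norm_div, norm_pow]

theorem HT_bd {L : Lab U S} {nu : II U → ℤ} {n1 n2 : Ch T.m → Fin T.d → ℤ} (J : Jac L nu n1 n2)
    {E₀ : II U} {c : Ch T.m} (hc : Ok S c) (j : Fin T.d)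
    (hE : L.e1 c j = some E₀ ∨ L.e2 c j = some E₀) : ∃ C : ℝ, 0 < C ∧ ∀ p : ℂ × ℂ,
      ‖p.1‖ ≤ S.r c → ‖p.2‖ ≤ S.r c → T.Gen c p → ‖HT T E₀.1.1.1 (wc S c j p)‖ ≤
        C * (‖p.1‖ ^ hT1 L n1 E₀ c j * ‖p.2‖ ^ hT2 L n2 E₀ c j) := by
  have hN := T.N_pos
  have hM := T.M_pos
  obtain ⟨C, hC, h⟩ := fz_le J hc j
  refine ⟨C, hC, fun p h1 h2 hg => ?_⟩
  have h3 := h p h1 h2 hg
  have hu : 0 < ‖p.1‖ := norm_pos_iff.2 (gen_fst hg)
  have hs : 0 < ‖(T.map c p).1‖ := norm_pos_iff.2 (sc_ne hg)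
  have hA : 0 < ‖p.1‖ ^ (-n1 c j - 1) := zpow_pos hu _
  cases c with
  | edge i k k' =>
    have hv : 0 < ‖p.2‖ := norm_pos_iff.2 hg.2
    have hkk : k < k' := hc.1.2.2.1
    obtain ⟨t, rfl⟩ : ∃ t, k' = k + t := ⟨k' - k, by omega⟩
    have hB : 0 < ‖p.2‖ ^ (-n2 (.edge i k (k + t)) j - 1) := zpow_pos hv _
    have hsn : ‖(T.map (.edge i k (k + t)) p).1‖ = ‖p.1‖ * ‖p.2‖ := norm_mul _ _
    have hl : lx T (.edge i k (k + t)) = T.M * t := by simp [lx]
    have hV : ¬ IsV (.edge i k (k + t) : Ch T.m) := fun h => h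
    by_cases he : L.e2 (.edge i k (k + t)) j = some E₀
    · have h4 := v2_of L hc he
      simp only [v2, Option.some.injEq] at h4
      have h5 : k + t = E₀.1.1.1 := congrArg Prod.fst h4
      have e1 : hT1 L n1 E₀ (.edge i k (k + t)) j =
          ((n1 (.edge i k (k + t)) j - T.M * t : ℤ) : ℝ) := by
        rw [hT1, if_pos he, hl]; push_cast; ring
      have e2 : hT2 L n2 E₀ (.edge i k (k + t)) j = ((n2 (.edge i k (k + t)) j : ℤ) : ℝ) := by
        rw [hT2, if_neg hV, if_pos he]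
      rw [e1, e2, Real.rpow_intCast, Real.rpow_intCast]
      refine HT_le (mul_pos hA hB) (pow_pos hs (T.N + T.M * E₀.1.1.1)) (by positivity) h3 ?_
        (norm_HT _ _ _ _)
      rw [hsn, mul_pow, ← h5]
      have p1 := part hu (T.jx (.edge i k (k + t))).1 (T.N + T.M * (k + t))
        (n1 (.edge i k (k + t)) j) (n1 (.edge i k (k + t)) j - T.M * t) (by
          simp only [TB.jx]; push_cast [Nat.cast_sub (show 1 ≤ T.N from hN)]; ring)
      have p2 := part hv (T.jx (.edge i k (k + t))).2 (T.N + T.M * (k + t))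
        (n2 (.edge i k (k + t)) j) (n2 (.edge i k (k + t)) j) (by
          simp only [TB.jx]; push_cast [Nat.cast_sub (show 1 ≤ T.N from hN)]; ring)
      rw [← p1, ← p2]
      ring
    · have he1 : L.e1 (.edge i k (k + t)) j = some E₀ := hE.resolve_right he
      have h4 := v1_of L hc he1
      have hk0 : k ≠ 0 := by
        rintro rfl
        simp [v1] at h4
      simp only [v1, hk0, if_false, Option.some.injEq] at h4
      have h5 : k = E₀.1.1.1 := congrArg Prod.fst h4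
      have e1 : hT1 L n1 E₀ (.edge i k (k + t)) j = ((n1 (.edge i k (k + t)) j : ℤ) : ℝ) := by
        rw [hT1, if_neg he]
      have e2 : hT2 L n2 E₀ (.edge i k (k + t)) j =
          ((n2 (.edge i k (k + t)) j + T.M * t : ℤ) : ℝ) := by
        rw [hT2, if_neg hV, if_neg he, hl]; push_cast; ring
      rw [e1, e2, Real.rpow_intCast, Real.rpow_intCast]
      refine HT_le (mul_pos hA hB) (pow_pos hs (T.N + T.M * E₀.1.1.1)) (by positivity) h3 ?_
        (norm_HT _ _ _ _)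
      rw [hsn, mul_pow, ← h5]
      have p1 := part hu (T.jx (.edge i k (k + t))).1 (T.N + T.M * k)
        (n1 (.edge i k (k + t)) j) (n1 (.edge i k (k + t)) j) (by
          simp only [TB.jx]; push_cast [Nat.cast_sub (show 1 ≤ T.N from hN)]; ring)
      have p2 := part hv (T.jx (.edge i k (k + t))).2 (T.N + T.M * k)
        (n2 (.edge i k (k + t)) j) (n2 (.edge i k (k + t)) j + T.M * t) (by
          simp only [TB.jx]; push_cast [Nat.cast_sub (show 1 ≤ T.N from hN)]; ring)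
      rw [← p1, ← p2]
      ring
  | leg i =>
    have hv : 0 < ‖p.2‖ := norm_pos_iff.2 hg.2
    have hB : 0 < ‖p.2‖ ^ (-n2 (.leg i) j - 1) := zpow_pos hv _
    have hsn : ‖(T.map (.leg i) p).1‖ = ‖p.1‖ := rfl
    have hV : ¬ IsV (.leg i : Ch T.m) := fun h => h
    have he : L.e2 (.leg i) j ≠ some E₀ := by
      intro h
      have := v2_of L hc h
      simp [v2] at this
    have he1 : L.e1 (.leg i) j = some E₀ := hE.resolve_right he
    have h4 := v1_of L hc he1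
    simp only [v1, Option.some.injEq] at h4
    have h5 : T.top i = E₀.1.1.1 := congrArg Prod.fst h4
    have e1 : hT1 L n1 E₀ (.leg i) j = ((n1 (.leg i) j : ℤ) : ℝ) := by
      rw [hT1, if_neg he]
    have e2 : hT2 L n2 E₀ (.leg i) j = ((n2 (.leg i) j + T.M : ℤ) : ℝ) := by
      rw [hT2, if_neg hV, if_neg he]; simp [lx]
    rw [e1, e2, Real.rpow_intCast, Real.rpow_intCast]
    refine HT_le (mul_pos hA hB) (pow_pos hs (T.N + T.M * E₀.1.1.1)) (by positivity) h3 ?_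
      (norm_HT _ _ _ _)
    rw [hsn, ← h5]
    have p1 := part hu (T.jx (.leg i)).1 (T.N + T.M * T.top i)
      (n1 (.leg i) j) (n1 (.leg i) j) (by
        simp only [TB.jx]; push_cast [Nat.cast_sub (show 1 ≤ T.N from hN)]; ring)
    have p2 := part hv (T.jx (.leg i)).2 0 (n2 (.leg i) j) (n2 (.leg i) j + T.M) (by
        simp only [TB.jx]; push_cast [Nat.cast_sub (show 1 ≤ T.M from hM)]; ring)
    rw [← p1, ← p2, pow_zero]
    ring
  | vert i k w₀ =>
    have hsn : ‖(T.map (.vert i k w₀) p).1‖ = ‖p.1‖ := rfl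
    have hV : IsV (.vert i k w₀ : Ch T.m) := trivial
    have he : L.e2 (.vert i k w₀) j ≠ some E₀ := by
      intro h
      have := v2_of L hc h
      simp [v2] at this
    have he1 : L.e1 (.vert i k w₀) j = some E₀ := hE.resolve_right he
    have h4 := v1_of L hc he1
    simp only [v1, Option.some.injEq] at h4
    have h5 : k = E₀.1.1.1 := congrArg Prod.fst h4
    have e1 : hT1 L n1 E₀ (.vert i k w₀) j = ((n1 (.vert i k w₀) j : ℤ) : ℝ) := by
      rw [hT1, if_neg he]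
    have e2 : hT2 L n2 E₀ (.vert i k w₀) j = 0 := by
      rw [hT2, if_pos hV]
    have hn2 := J.vert _ hc hV j
    rw [e1, e2, Real.rpow_intCast, Real.rpow_zero]
    have hone : ‖p.2‖ ^ (-n2 (.vert i k w₀) j - 1) = 1 := by rw [hn2]; norm_num
    have hjx : (T.jx (.vert i k w₀)).2 = 0 := rfl
    rw [hone, hjx, pow_zero] at h3
    refine HT_le (mul_pos hA one_pos) (pow_pos hs (T.N + T.M * E₀.1.1.1)) (by positivity) h3 ?_
      (norm_HT _ _ _ _)
    rw [hsn, ← h5]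
    have p1 := part hu (T.jx (.vert i k w₀)).1 (T.N + T.M * k)
      (n1 (.vert i k w₀) j) (n1 (.vert i k w₀) j) (by
        simp only [TB.jx]; push_cast [Nat.cast_sub (show 1 ≤ T.N from hN)]; ring)
    rw [← p1]
    ring

/-- `HT` is holomorphic at the generic points -/
theorem HT_an (k : ℕ) {c : Ch T.m} (hc : T.Valid c) (j : Fin T.d) {p : ℂ × ℂ}
    (h1 : ‖p.1‖ < 2 * S.r c) (h2 : ‖p.2‖ < 2 * S.r c) (hg : T.Gen c p) :
    AnalyticAt ℂ (HT T k ∘ wc S c j) p := by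
  have hS := S.sheets c hc
  have hp : p ∈ BD (2 * S.r c) (2 * S.r c) := ⟨h1, h2⟩
  obtain ⟨a, b, w, hw, -, he, -⟩ := hS.cd0_mono j
  have h3 : AnalyticAt ℂ (fun p => fz T (wc S c j p)) p := by
    have h4 : AnalyticAt ℂ (fun p : ℂ × ℂ => p.1 ^ a * p.2 ^ b * w p) p :=
      ((analyticAt_fst.pow a).mul (analyticAt_snd.pow b)).mul (hw p hp)
    refine h4.congr ?_
    have ho : IsOpen (BD (2 * S.r c) (2 * S.r c)) :=
      (isOpen_lt continuous_fst.norm continuous_const).inter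
        (isOpen_lt continuous_snd.norm continuous_const)
    filter_upwards [ho.mem_nhds hp] with q hq
    exact (he q hq).symm
  have h5 : AnalyticAt ℂ (fun p => (T.map c p).1) p := analyticAt_fst.comp (hS.map_an hp)
  exact h3.div (h5.pow _) (pow_ne_zero _ (sc_ne hg))

/-- `HT` under the rotations -/
lemma HT_rot (k : ℕ) {ξ : ℂ} (hξ : ξ ^ T.N = 1) (x : Fin 3 → ℂ) :
    HT T k (rot ξ x) = (ξ ^ (T.M * k))⁻¹ * HT T k x := by
  unfold HT
  rw [fz_rot hξ]
  have h1 : rot ξ x 1 = ξ * x 1 := rfl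
  rw [h1, mul_pow, pow_add ξ, hξ, one_mul, mul_comm (ξ ^ (T.M * k)), ← div_div, div_eq_mul_inv _
    (ξ ^ (T.M * k)), mul_comm]

/-! ### the null data for an invariant form -/

theorem ndatT (L : Lab U S) {nu : II U → ℤ} {n1 n2 : Ch T.m → Fin T.d → ℤ} (J : Jac L nu n1 n2)
    {E₀ : II U} {fX : XV U E₀.1.1 → ℂ} (hol : HolX (pV U E₀.1.1) fX)
    (off : ∀ q : XV U E₀.1.1, (q : ConnectedComponents (XV U E₀.1.1)) ≠ E₀.2 → fX q = 0)
    {C r' : ℝ} (hr' : 0 < r')
    (hf1 : ∀ c, Ok S c → ¬ IsV c → v1 T c = some E₀.1.1 → ∀ γ, End1 U S c E₀.1.1 γ →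
      ∀ j (b : ℂ), 0 < ‖b‖ → ‖b‖ < r' →
        ‖fX (γ j b)‖ ≤ C * ‖b‖ ^ ((lx T c : ℝ) * (-1 + 1 / (T.d : ℝ))))
    (hf2 : ∀ c, Ok S c → v2 T c = some E₀.1.1 → ∀ γ, End2 U S c E₀.1.1 γ →
      ∀ j (a : ℂ), 0 < ‖a‖ → ‖a‖ < r' →
        ‖fX (γ j a)‖ ≤ C * ‖a‖ ^ ((lx T c : ℝ) * (1 + 1 / (T.d : ℝ))))
    {y : II U → ℝ} (hy : ∀ E, E = E₀ ∨ Mx L E₀ E ≠ 0 → y E < 1 / (T.d : ℝ)) {a : ℕ}
    (ha : 0 < a) :
    NDat L n1 n2 E₀ y a fX (HT T E₀.1.1.1) (hT1 L n1 E₀) (hT2 L n2 E₀) (eT L E₀) := by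
  have hd : (1 : ℝ) ≤ T.d := by exact_mod_cast T.d_pos
  have hd0 : (0 : ℝ) < T.d := by linarith
  have hd1 : 0 < 1 / (T.d : ℝ) := by positivity
  have hd2 : 1 / (T.d : ℝ) ≤ 1 := by rw [div_le_one hd0]; exact hd
  have ha' : (1 : ℝ) ≤ a := by exact_mod_cast ha
  have hy0 : y E₀ < 1 / (T.d : ℝ) := hy E₀ (Or.inl rfl)
  have hlx : ∀ c, Ok S c → (1 : ℝ) ≤ lx T c := fun c hc => by exact_mod_cast lx_pos hc.1
  have hldv : ∀ c, Ok S c → 1 / (T.d : ℝ) ≤ (lx T c : ℝ) * (1 / (T.d : ℝ)) := fun c hc => by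
    have := hlx c hc
    nlinarith
  -- the labels of an edge sheet
  have hadj : ∀ c, Ok S c → ∀ j E E', L.e1 c j = some E → L.e2 c j = some E' →
      Mx L E E' ≠ 0 ∧ Mx L E' E ≠ 0 := by
    intro c hc j E E' h1 h2
    have hne := lab_ne L hc h1 h2
    have he := v2_eq hc (v2_of L hc h2)
    rw [he] at h1 h2
    exact ⟨(Mx_pos L hne E'.1.2 (Or.inl ⟨h1, h2⟩)).ne',
      (Mx_pos L hne.symm E'.1.2 (Or.inr ⟨h2, h1⟩)).ne'⟩
  -- the exponents
  have hE1 : ∀ c, Ok S c → ∀ j, L.e1 c j = some E₀ → L.e2 c j ≠ some E₀ := fun c hc j h1 h2 =>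
    lab_ne L hc h1 h2 rfl
  have x1 : ∀ c, Ok S c → ∀ j, L.e1 c j = some E₀ → hT1 L n1 E₀ c j = n1 c j ∧
      eT L E₀ c j = (lx T c : ℝ) * (-1 + 1 / (T.d : ℝ)) := fun c hc j h1 =>
    ⟨if_neg (hE1 c hc j h1), if_neg (hE1 c hc j h1)⟩
  have x1' : ∀ c, Ok S c → ¬ IsV c → ∀ j, L.e1 c j = some E₀ →
      hT2 L n2 E₀ c j = n2 c j + lx T c := fun c hc hV j h1 => by
    rw [hT2, if_neg hV, if_neg (hE1 c hc j h1)]
  have hVE : ∀ c, Ok S c → ∀ j E, L.e2 c j = some E → ¬ IsV c := by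
    intro c hc j E h
    obtain ⟨i, k, rfl, -⟩ := edge_of L hc h
    exact fun h => h
  have x2 : ∀ c, Ok S c → ∀ j, L.e2 c j = some E₀ → hT1 L n1 E₀ c j = n1 c j - lx T c ∧
      hT2 L n2 E₀ c j = n2 c j ∧ eT L E₀ c j = (lx T c : ℝ) * (1 + 1 / (T.d : ℝ)) :=
    fun c hc j h1 => ⟨if_pos h1, by rw [hT2, if_neg (hVE c hc j _ h1), if_pos h1], if_pos h1⟩
  have hCC : ∀ x : ℝ, 0 ≤ x → C * x ≤ (|C| + 1) * x := fun x hx =>
    mul_le_mul_of_nonneg_right (by have := le_abs_self C; linarith) hx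
  refine ⟨hol, off, fun c hc j p h1 h2 hg => HT_an _ hc.1 j h1 h2 hg,
    fun c hc j h => HT_bd J hc j h, ?_, ?_, ?_, ?_, ?_, ?_, ?_, ?_, ?_, ?_, ?_⟩
  · intro c hc hV j
    rw [hT2, if_pos hV]
  · intro c hc hV hv γ hγ j h1
    rw [(x1 c hc j h1).2]
    exact ⟨|C| + 1, r', by positivity, hr', fun b hb hb' =>
      (hf1 c hc hV hv γ hγ j b hb hb').trans (hCC _ (by positivity))⟩
  · intro c hc hv γ hγ j h1
    rw [(x2 c hc j h1).2.2]
    exact ⟨|C| + 1, r', by positivity, hr', fun b hb hb' =>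
      (hf2 c hc hv γ hγ j b hb hb').trans (hCC _ (by positivity))⟩
  · intro c hc j h1
    rw [(x1 c hc j h1).1]
    linarith
  · intro c hc j h1
    rw [(x1 c hc j h1).1]
    linarith
  · intro c hc j h1 E h2
    rw [(x1 c hc j h1).2, x1' c hc (hVE c hc j E h2) j h1]
    have h3 := hldv c hc
    have h4 := hy E (Or.inr (hadj c hc j E₀ E h1 h2).1)
    constructor
    · linarith
    · linarith
  · intro c hc hV j h1 h2
    rw [(x1 c hc j h1).2, x1' c hc hV j h1]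
    have h3 := hldv c hc
    linarith
  · intro c hc j h1
    rw [(x2 c hc j h1).2.1]
    linarith
  · intro c hc j h1
    rw [(x2 c hc j h1).2.1]
    linarith
  · intro c hc j h1 E h2
    rw [(x2 c hc j h1).1, (x2 c hc j h1).2.2]
    have h3 := hldv c hc
    have h4 := hy E (Or.inr (hadj c hc j E E₀ h2 h1).2)
    constructor
    · linarith
    · linarith
  · intro c hc j h1 h2
    rw [(x2 c hc j h1).1, (x2 c hc j h1).2.2]
    have h3 := hldv c hc
    linarith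

end Crest.Agent.R257.ExT1_176
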