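import Crest.Agent.R257.Exf1_843

/-!
# Row 257, ExT (helper176): the coefficient of an invariant form on the curve of a vertex

`exists_fX`: from `ThE hG E₀` a function `fX` on `XV U v`, holomorphic, supported on the component
`E₀`, equivariant, non zero, with bounds at the ends.
-/

set_option autoImplicit false
set_option linter.unusedSectionVars false

open Polynomial Set Filter Topology Metric
open Crest.AlgGeometry.Germ Crest.Agent.R257.AJ387 Crest.Agent.R257.T387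
open Crest.Agent.R257.Gr1_157 Crest.Agent.R257.HoB_843 Crest.Agent.R257.BP_258
open Crest.Agent.R257.Wt_258 Crest.Agent.R257.Cpt1_419 Crest.Agent.R257.Hv_174
open Crest.Agent.R257.Rsn_843 Crest.Agent.R257.Tb3_941 Crest.Agent.R257.Rot1_558
open Crest.Agent.R257.Vt1_558 Crest.Agent.R257.Vt4_558 Crest.Agent.R257.Exf_843

noncomputable section

namespace Crest.Agent.R257.Exg_176

variable {f : (Fin 3 → ℂ) → ℂ} {T : TB f} {S : Sh T} {U : Tub T}

open Classical in
/-- extension by zero of a function on a component -/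
def ex0 {E : II U} (g : XE E → ℂ) (q : XV U E.1.1) : ℂ :=
  if h : (q : ConnectedComponents (XV U E.1.1)) = E.2 then g ⟨q, h⟩ else 0

lemma ex0_of {E : II U} (g : XE E → ℂ) {q : XV U E.1.1}
    (h : (q : ConnectedComponents (XV U E.1.1)) = E.2) : ex0 g q = g ⟨q, h⟩ := dif_pos h

lemma ex0_not {E : II U} (g : XE E → ℂ) {q : XV U E.1.1}
    (h : (q : ConnectedComponents (XV U E.1.1)) ≠ E.2) : ex0 g q = 0 := dif_neg h

lemma holX_ex0 {E : II U} {g : XE E → ℂ} (hg : HolX (fun x => ((covE E).p x).1) g) :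
    HolX (pV U E.1.1) (ex0 g) := by
  intro w₀ ρ σ hρ hσ hσ'
  have hw : w₀ ∈ ball w₀ ρ := mem_ball_self hρ
  have hcomp : ∀ z ∈ ball w₀ ρ, (σ z : ConnectedComponents (XV U E.1.1)) = σ w₀ := by
    intro z hz
    have h5 : IsPreconnected (σ '' ball w₀ ρ) := (convex_ball _ _).isPreconnected.image _ hσ
    have h6 := h5.subset_connectedComponent (x := σ w₀) ⟨w₀, hw, rfl⟩ ⟨z, hz, rfl⟩
    exact ConnectedComponents.coe_eq_coe'.2 h6
  by_cases h0 : (σ w₀ : ConnectedComponents (XV U E.1.1)) = E.2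
  · have hin : ∀ z ∈ ball w₀ ρ, (σ z : ConnectedComponents (XV U E.1.1)) = E.2 := fun z hz =>
      (hcomp z hz).trans h0
    classical
    let σ' : ℂ → XE E := fun z => if hz : (σ z : ConnectedComponents (XV U E.1.1)) = E.2 then
      ⟨σ z, hz⟩ else ⟨σ w₀, h0⟩
    have hσv : ∀ z (hz : z ∈ ball w₀ ρ), σ' z = ⟨σ z, hin z hz⟩ := by
      intro z hz
      exact dif_pos (hin z hz)
    have hσc : ContinuousOn σ' (ball w₀ ρ) := by
      have h7 : ContinuousOn (fun z => (σ' z).1) (ball w₀ ρ) :=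
        hσ.congr fun z hz => by rw [hσv z hz]
      exact (Topology.IsInducing.subtypeVal.continuousOn_iff).2 h7
    have h8 := hg w₀ ρ σ' hρ hσc (fun z hz => by
      change pV U E.1.1 (σ' z).1 = z
      rw [hσv z hz]
      exact hσ' z hz)
    refine h8.congr ?_
    filter_upwards [ball_mem_nhds w₀ hρ] with z hz
    simp only [Function.comp_apply]
    rw [hσv z hz, ex0_of g (hin z hz)]
  · refine (analyticAt_const (v := (0 : ℂ))).congr ?_
    filter_upwards [ball_mem_nhds w₀ hρ] with z hz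
    simp only [Function.comp_apply]
    rw [ex0_not g (by rw [hcomp z hz]; exact h0)]

lemma rpow_l {x : ℝ} (hx : 0 ≤ x) (l : ℕ) (e : ℝ) : (x ^ l) ^ e = x ^ ((l : ℝ) * e) := by
  rw [Real.rpow_mul hx, Real.rpow_natCast]

lemma rpow_l_inv {x : ℝ} (hx : 0 < x) (l : ℕ) (e : ℝ) :
    ((x ^ l)⁻¹) ^ (-1 - e) = x ^ ((l : ℝ) * (1 + e)) := by
  rw [Real.inv_rpow (by positivity), ← Real.rpow_neg (by positivity), rpow_l hx.le]
  congr 1
  ring

/-- **the coefficient of an invariant form** -/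
theorem exists_fX {hG : GalPt T} {E₀ : II U} (h : ThE hG E₀) :
    ∃ fX : XV U E₀.1.1 → ℂ, HolX (pV U E₀.1.1) fX ∧
      (∀ q : XV U E₀.1.1, (q : ConnectedComponents (XV U E₀.1.1)) ≠ E₀.2 → fX q = 0) ∧
      (∀ (γ : GE hG E₀) (q : XV U E₀.1.1), (q : ConnectedComponents (XV U E₀.1.1)) = E₀.2 →
        chE hG E₀ γ * fX (smv hG γ q) = fX q) ∧
      (∃ q, fX q ≠ 0) ∧
      ∃ C r' : ℝ, 0 < r' ∧ 0 ≤ C ∧
        (∀ c, Ok S c → ¬ IsV c → v1 T c = some E₀.1.1 → ∀ γ, End1 U S c E₀.1.1 γ → ∀ j (b : ℂ),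
          0 < ‖b‖ → ‖b‖ < r' →
          ‖fX (γ j b)‖ ≤ C * ‖b‖ ^ ((lx T c : ℝ) * (-1 + 1 / (T.d : ℝ)))) ∧
        (∀ c, Ok S c → v2 T c = some E₀.1.1 → ∀ γ, End2 U S c E₀.1.1 γ → ∀ j (a : ℂ),
          0 < ‖a‖ → ‖a‖ < r' →
          ‖fX (γ j a)‖ ≤ C * ‖a‖ ^ ((lx T c : ℝ) * (1 + 1 / (T.d : ℝ)))) := by
  classical
  obtain ⟨r, hr, g, hg1, hg2, ⟨C, hC1, hC2⟩, x₀, hx₀⟩ := h
  refine ⟨ex0 g, holX_ex0 hg1, fun q hq => ex0_not g hq, ?_, ?_, ?_⟩
  · intro γ q hq
    rw [ex0_of g hq, ex0_of g (smv_comp hG γ hq)]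
    exact hg2 γ ⟨q, hq⟩
  · exact ⟨x₀.1, by rw [ex0_of g x₀.2]; exact hx₀⟩
  -- the radius
  have hex : ∃ r' : ℝ, 0 < r' ∧ r' ≤ 1 ∧ r' ≤ r ∧ ∀ c, Ok S c → ¬ IsV c → r' ≤ S.r c := by
    have h1 : ∀ᶠ r' in 𝓝[>] (0 : ℝ), ∀ c ∈ NC S, r' ≤ S.r c := by
      rw [eventually_all_finset]
      intro c _
      exact mem_of_superset (Ioo_mem_nhdsGT (S.pos c)) fun η hη => hη.2.le
    have h2 : ∀ᶠ r' in 𝓝[>] (0 : ℝ), r' ≤ min 1 r :=
      mem_of_superset (Ioo_mem_nhdsGT (lt_min one_pos hr)) fun η hη => hη.2.le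
    obtain ⟨r', h3, h4, h5⟩ := (h1.and (h2.and self_mem_nhdsWithin)).exists
    exact ⟨r', h5, h4.trans (min_le_left _ _), h4.trans (min_le_right _ _),
      fun c hc hn => h3 c (mem_NC.2 ⟨hc, hn⟩)⟩
  obtain ⟨r', hr', hr1, hrr, hrc⟩ := hex
  refine ⟨|C|, r', hr', abs_nonneg C, ?_, ?_⟩
  · intro c hc hn h1 γ hγ j b hb hb'
    have hl := lx_pos hc.1
    have hS := S.pos c
    have hmem : b ∈ PDv S c := ⟨Or.inr hb, by
      have := hrc c hc hn
      linarith⟩
    have hpr := hγ.pr j b hmem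
    by_cases hq : (γ j b : ConnectedComponents (XV U E₀.1.1)) = E₀.2
    · rw [ex0_of g hq]
      have h2 : ((covE E₀).p ⟨γ j b, hq⟩).1 - cx T c = b ^ lx T c := by
        change pV U E₀.1.1 (γ j b) - cx T c = _
        rw [hpr, add_sub_cancel_left]
      have h3 : ‖b ^ lx T c‖ < r := by
        rw [norm_pow]
        exact (pow_le_of_le_one hb.le (hb'.le.trans hr1) hl.ne').trans_lt (hb'.trans_le hrr)
      have h4 := hC1 (cx T c) (cx_mem hn h1) ⟨γ j b, hq⟩ (by
        change ‖((covE E₀).p ⟨γ j b, hq⟩).1 - cx T c‖ < r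
        rw [h2]; exact h3)
      simp only [h2] at h4
      rw [norm_pow, rpow_l hb.le] at h4
      refine h4.trans (mul_le_mul_of_nonneg_right (le_abs_self C) (by positivity))
    · rw [ex0_not g hq, norm_zero]
      positivity
  · intro c hc h1 γ hγ j a ha ha'
    have hl := lx_pos hc.1
    have hS := S.pos c
    have hn : ¬ IsV c := by
      rw [v2_eq hc h1]
      exact fun h => h
    have hmem : a ∈ PDc S c := ⟨ha, by
      have := hrc c hc hn
      linarith⟩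
    have hpr := hγ.pr j a hmem
    by_cases hq : (γ j a : ConnectedComponents (XV U E₀.1.1)) = E₀.2
    · rw [ex0_of g hq]
      have h2 : ((covE E₀).p ⟨γ j a, hq⟩).1 = (a ^ lx T c)⁻¹ := hpr
      have h3 : ‖a ^ lx T c‖ < r := by
        rw [norm_pow]
        exact (pow_le_of_le_one ha.le (ha'.le.trans hr1) hl.ne').trans_lt (ha'.trans_le hrr)
      have h3' : 0 < ‖a ^ lx T c‖ := by rw [norm_pow]; positivity
      have h4 := hC2 ⟨γ j a, hq⟩ (by
        change r⁻¹ < ‖((covE E₀).p ⟨γ j a, hq⟩).1‖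
        rw [h2, norm_inv]
        exact (inv_lt_inv₀ hr h3').2 h3)
      simp only [h2] at h4
      rw [norm_inv, norm_pow, rpow_l_inv ha] at h4
      refine h4.trans (mul_le_mul_of_nonneg_right (le_abs_self C) (by positivity))
    · rw [ex0_not g hq, norm_zero]
      positivity

end Crest.Agent.R257.Exg_176
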