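import Crest.Agent.R257.ExT1_176
import Crest.Agent.R257.Exg_176

/-!
# Row 257, ExT (helper176): from an invariant form to the input of the null data

`exists_T`: `ThE hG E₀` gives `fX` (non zero, equivariant, supported on `E₀`) and `NDat` for every
small `y` and every shift `a > 0`; `inv_T`: invariance of the product `HT * fX`.
-/

set_option autoImplicit false
set_option linter.unusedSectionVars false

open Polynomial Set Filter Topology Metric
open Crest.AlgGeometry.Germ Crest.Agent.R257.AJ387 Crest.Agent.R257.T387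
open Crest.Agent.R257.Gr1_157 Crest.Agent.R257.HoB_843 Crest.Agent.R257.BP_258
open Crest.Agent.R257.Wt_258 Crest.Agent.R257.Cpt1_419 Crest.Agent.R257.Hv_174
open Crest.Agent.R257.Rsn_843 Crest.Agent.R257.Tb3_941 Crest.Agent.R257.Rot1_558
open Crest.Agent.R257.Vt1_558 Crest.Agent.R257.Vt4_558 Crest.Agent.R257.Exf_843

noncomputable section

namespace Crest.Agent.R257.ExT1_176

variable {f : (Fin 3 → ℂ) → ℂ} {T : TB f} {S : Sh T} {U : Tub T}

/-- invariance of the data `HT * fX` -/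
lemma inv_T {hG : GalPt T} {E₀ : II U} {fX : XV U E₀.1.1 → ℂ} (γ : GE hG E₀) {q : XV U E₀.1.1}
    (h : chE hG E₀ γ * fX (smv hG γ q) = fX q) (x : Fin 3 → ℂ) :
    HT T E₀.1.1.1 (rot (vl γ.1) x) * fX (smv hG γ q) = HT T E₀.1.1.1 x * fX q := by
  rw [HT_rot _ (vl_pow γ.1), ← h]
  have h1 : chE hG E₀ γ = (vl γ.1 ^ (T.M * E₀.1.1.1))⁻¹ := rfl
  rw [h1]
  ring

/-- **from an invariant form to the input of the null data** -/
theorem exists_T (L : Lab U S) {hG : GalPt T} {nu : II U → ℤ} {n1 n2 : Ch T.m → Fin T.d → ℤ}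
    (J : Jac L nu n1 n2) {E₀ : II U} (h : ThE hG E₀) :
    ∃ fX : XV U E₀.1.1 → ℂ, HolX (pV U E₀.1.1) fX ∧
      (∀ q : XV U E₀.1.1, (q : ConnectedComponents (XV U E₀.1.1)) ≠ E₀.2 → fX q = 0) ∧
      (∀ (γ : GE hG E₀) (q : XV U E₀.1.1), (q : ConnectedComponents (XV U E₀.1.1)) = E₀.2 →
        chE hG E₀ γ * fX (smv hG γ q) = fX q) ∧
      (∀ (γ : GE hG E₀) (q : XV U E₀.1.1), (q : ConnectedComponents (XV U E₀.1.1)) = E₀.2 →
        ∀ x, HT T E₀.1.1.1 (rot (vl γ.1) x) * fX (smv hG γ q) = HT T E₀.1.1.1 x * fX q) ∧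
      (∃ q, fX q ≠ 0) ∧
      ∀ (y : II U → ℝ) (a : ℕ), 0 < a → (∀ E, E = E₀ ∨ Mx L E₀ E ≠ 0 → y E < 1 / (T.d : ℝ)) →
        NDat L n1 n2 E₀ y a fX (HT T E₀.1.1.1) (hT1 L n1 E₀) (hT2 L n2 E₀) (eT L E₀) := by
  obtain ⟨fX, h1, h2, h3, h4, C, r', hr', -, h5, h6⟩ := Exg_176.exists_fX (S := S) h
  exact ⟨fX, h1, h2, h3, fun γ q hq x => inv_T γ (h3 γ q hq) x, h4, fun y a ha hy =>
    ndatT L J h1 h2 hr' h5 h6 hy ha⟩

end Crest.Agent.R257.ExT1_176
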