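import Crest.Agent.R257.Exf1_843
import Crest.Agent.R257.Vt8_558
import Crest.Agent.R257.HoT_843
import Crest.Agent.R257.Div_843

/-!
# Row 257, ExT (helper952): the factor of the invariant form

`HF T k x = ∂₀ f / s ^ (N + M k)` on `W`:

* `HF_wc`, `HF_rot`, `HF_inv` (T2: `HF * fX` is invariant under the stabiliser);
* `HF_loc` : in a vertex chart `HF = α ^ n * unit`, `n = n1`.
-/

set_option autoImplicit false
set_option linter.unusedSectionVars false

open Polynomial Set Filter Topology Metric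
open Crest.AlgGeometry.Germ Crest.Agent.R257.AJ387 Crest.Agent.R257.T387
open Crest.Agent.R257.BP_258 Crest.Agent.R257.Tb3_941 Crest.Agent.R257.Rot1_558
open Crest.Agent.R257.Vt1_558 Crest.Agent.R257.Vt3_558 Crest.Agent.R257.Vt6_558
open Crest.Agent.R257.HoG_843

noncomputable section

namespace Crest.Agent.R257.ExT2_952

variable {f : (Fin 3 → ℂ) → ℂ} {T : TB f} {S : Sh T} {U : Tub T}

/-- the factor of the invariant form -/
def HF (T : TB f) (k : ℕ) (x : Fin 3 → ℂ) : ℂ := fz T x / x 1 ^ (T.N + T.M * k)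

lemma HF_wc (k : ℕ) (c : Ch T.m) (j : Fin T.d) (p : ℂ × ℂ) : HF T k (wc S c j p) =
    coordDeriv f 0 (T.th c (S.ζ c j) p) / (T.map c p).1 ^ (T.N + T.M * k) := rfl

lemma HF_rot {ξ : ℂ} (hξ : ξ ^ T.N = 1) (k : ℕ) (x : Fin 3 → ℂ) :
    HF T k (rot ξ x) = (ξ ^ (T.M * k))⁻¹ * HF T k x := by
  unfold HF
  rw [fz_rot hξ, rot_1, mul_pow, pow_add ξ, hξ, one_mul, div_eq_mul_inv, mul_inv]
  ring

/-- **(T2)** the product with the coefficient of an invariant form is invariant -/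
theorem HF_inv {hG : GalPt T} {E : II U} (γ : GE hG E) {fX : XV U E.1.1 → ℂ} {q : XV U E.1.1}
    (h : chE hG E γ * fX (smv hG γ q) = fX q) (x : Fin 3 → ℂ) :
    HF T E.1.1.1 (rot (vl γ.1) x) * fX (smv hG γ q) = HF T E.1.1.1 x * fX q := by
  rw [HF_rot (vl_pow γ.1), ← h]
  show ((vl γ.1) ^ (T.M * E.1.1.1))⁻¹ * HF T E.1.1.1 x * fX (smv hG γ q) =
    HF T E.1.1.1 x * (((vl γ.1) ^ (T.M * E.1.1.1))⁻¹ * fX (smv hG γ q))
  ring

/-- **the form in a vertex chart** -/
theorem HF_loc {L : Lab U S} {nu : II U → ℤ} {n1 n2 : Ch T.m → Fin T.d → ℤ}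
    (J : Jac L nu n1 n2) {c : Ch T.m} (hc : Ok S c) (hV : IsV c) (j : Fin T.d) {v : Vtx}
    (hv : v1 T c = some v) {n : ℕ} (hn : (n : ℤ) = n1 c j) :
    ∃ u : ℂ × ℂ → ℂ, AnalyticOnNhd ℂ u (BD (2 * S.r c) (2 * S.r c)) ∧
      (∀ p ∈ BD (2 * S.r c) (2 * S.r c), u p ≠ 0) ∧
      ∀ p ∈ BD (2 * S.r c) (2 * S.r c), p.1 ≠ 0 → HF T v.1 (wc S c j p) = p.1 ^ n * u p := by
  have hr := S.pos c
  cases c with
  | edge i k k' => exact absurd hV id
  | leg i => exact absurd hV id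
  | vert i k w₀ =>
    have hvk : v.1 = k := by
      have h1 : vx T i k = v := Option.some.inj hv
      rw [← h1]; rfl
    subst hvk
    set c : Ch T.m := .vert i v.1 w₀ with hcdef
    obtain ⟨a, b, w, h1, h2, h3, h4⟩ := (S.sheets c hc.1).cd0_mono j
    have hb : b = 0 := h4 i v.1 w₀ rfl
    subst hb
    simp only [pow_zero, mul_one] at h3
    -- the exponent
    obtain ⟨K, hK, hbd⟩ := J.bd c hc j
    have hn2 : n2 c j = -1 := J.vert c hc trivial j
    have hab : a = T.N + T.M * v.1 + n := by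
      -- on the disc `(t, 0)`
      set m := T.N + T.M * v.1 + n with hm
      have hk := kk_pos hc.1
      have hN := T.N_pos
      have key : ∀ t : ℂ, t ≠ 0 → ‖t‖ < S.r c →
          kk T c * ‖t‖ ^ m ≤ K * (‖t‖ ^ a * ‖w (t, 0)‖) ∧
          ‖t‖ ^ a * ‖w (t, 0)‖ ≤ K * kk T c * ‖t‖ ^ m := by
        intro t ht htr
        have htn : 0 < ‖t‖ := norm_pos_iff.2 ht
        have hmem : ((t, 0) : ℂ × ℂ) ∈ BD (2 * S.r c) (2 * S.r c) :=
          ⟨by simpa using by linarith, by simpa using by linarith⟩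
        obtain ⟨b1, b2, b3⟩ := hbd (t, 0) htr.le (by simpa using hr.le) ht
        have e1 := dn_eq S hc.1 j hmem
        have e2 : fz T (wc S c j (t, 0)) = t ^ a * w (t, 0) := h3 _ hmem
        have e3 : T.jx c = (T.N - 1 + T.M * v.1, 0) := rfl
        rw [e3] at e1
        simp only [pow_zero, mul_one] at e1
        rw [e2, norm_mul, norm_pow] at e1
        have hw0 : 0 < ‖w (t, 0)‖ := norm_pos_iff.2 (h2 _ hmem)
        have e4 : ‖t‖ ^ (-n1 c j - 1) * ‖(((t, 0) : ℂ × ℂ)).2‖ ^ (-n2 c j - 1) =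
            (‖t‖ ^ (n + 1))⁻¹ := by
          rw [hn2, ← hn]
          have : (-(n : ℤ) - 1) = -((n + 1 : ℕ) : ℤ) := by push_cast; ring
          rw [this, zpow_neg, zpow_natCast]
          norm_num
        simp only at b2 b3
        have hD : 0 < ‖t‖ ^ a * ‖w (t, 0)‖ := by positivity
        have hP : 0 < ‖t‖ ^ (n + 1) := by positivity
        have e5 : ‖t‖ ^ m = ‖t‖ ^ (T.N - 1 + T.M * v.1) * ‖t‖ ^ (n + 1) := by
          rw [← pow_add]
          congr 1
          omega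
        have b2' : dn S c j (t, 0) ≤ K * (‖t‖ ^ (n + 1))⁻¹ := by rw [← e4]; exact b2
        have b3' : (‖t‖ ^ (n + 1))⁻¹ ≤ K * dn S c j (t, 0) := by rw [← e4]; exact b3
        rw [e1] at b2' b3'
        constructor
        · rw [div_le_iff₀ hD] at b2'
          have := mul_le_mul_of_nonneg_right b2' hP.le
          calc kk T c * ‖t‖ ^ m = kk T c * ‖t‖ ^ (T.N - 1 + T.M * v.1) * ‖t‖ ^ (n + 1) := by
                rw [e5]; ring
            _ ≤ K * (‖t‖ ^ (n + 1))⁻¹ * (‖t‖ ^ a * ‖w (t, 0)‖) * ‖t‖ ^ (n + 1) := this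
            _ = K * (‖t‖ ^ a * ‖w (t, 0)‖) := by field_simp
        · have h5 : 1 ≤ K * (kk T c * ‖t‖ ^ (T.N - 1 + T.M * v.1) / (‖t‖ ^ a * ‖w (t, 0)‖)) *
              ‖t‖ ^ (n + 1) := by
            have := mul_le_mul_of_nonneg_right b3' hP.le
            rwa [inv_mul_cancel₀ hP.ne'] at this
          have h6 := mul_le_mul_of_nonneg_right h5 hD.le
          calc ‖t‖ ^ a * ‖w (t, 0)‖ = 1 * (‖t‖ ^ a * ‖w (t, 0)‖) := (one_mul _).symm
            _ ≤ _ := h6
            _ = K * kk T c * ‖t‖ ^ m := by rw [e5]; field_simp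
      have hwc : ContinuousAt (fun t : ℂ => ‖w (t, 0)‖) 0 := by
        have h5 : ContinuousAt w ((fun t : ℂ => ((t, 0) : ℂ × ℂ)) 0) :=
          (h1 _ ⟨by simpa using hr, by simpa using hr⟩).continuousAt
        exact (ContinuousAt.comp (f := fun t : ℂ => ((t, 0) : ℂ × ℂ)) h5 (by fun_prop)).norm
      have hw0 : 0 < ‖w (0, 0)‖ := norm_pos_iff.2 (h2 _ ⟨by simpa using hr, by simpa using hr⟩)
      have e1 : ∀ᶠ t in 𝓝[≠] (0 : ℂ), ‖w (0, 0)‖ / 2 < ‖w (t, 0)‖ :=
        (hwc.eventually (lt_mem_nhds (half_lt_self hw0))).filter_mono nhdsWithin_le_nhds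
      have e2 : ∀ᶠ t in 𝓝[≠] (0 : ℂ), ‖w (t, 0)‖ < ‖w (0, 0)‖ + 1 :=
        (hwc.eventually (gt_mem_nhds (lt_add_one _))).filter_mono nhdsWithin_le_nhds
      have e3 : ∀ᶠ t in 𝓝[≠] (0 : ℂ), ‖t‖ < S.r c :=
        (continuous_norm.continuousAt.eventually (gt_mem_nhds (by simpa using hr))).filter_mono
          nhdsWithin_le_nhds
      refine le_antisymm ?_ ?_
      · refine Div_843.ord_cmp (a := m) (b := a) hk (C := K * (‖w (0, 0)‖ + 1)) ?_
        filter_upwards [e1, e2, e3, self_mem_nhdsWithin] with t t1 t2 t3 t4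
        refine (key t t4 t3).1.trans ?_
        have : ‖t‖ ^ a * ‖w (t, 0)‖ ≤ ‖t‖ ^ a * (‖w (0, 0)‖ + 1) :=
          mul_le_mul_of_nonneg_left t2.le (by positivity)
        nlinarith [mul_le_mul_of_nonneg_left this hK.le]
      · refine Div_843.ord_cmp (a := a) (b := m) (half_pos hw0) (C := K * kk T c) ?_
        filter_upwards [e1, e2, e3, self_mem_nhdsWithin] with t t1 t2 t3 t4
        refine le_trans ?_ (key t t4 t3).2
        rw [mul_comm]
        exact mul_le_mul_of_nonneg_left t1.le (by positivity)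
    refine ⟨w, h1, h2, fun p hp hp1 => ?_⟩
    have e1 : HF T v.1 (wc S c j p) = coordDeriv f 0 (T.th c (S.ζ c j) p) /
        p.1 ^ (T.N + T.M * v.1) := rfl
    rw [e1, h3 p hp, hab, pow_add]
    have : p.1 ^ (T.N + T.M * v.1) ≠ 0 := pow_ne_zero _ hp1
    field_simp

end Crest.Agent.R257.ExT2_952
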