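import Crest.Agent.R257.ExT2_952
import Crest.Agent.R257.ExNC_843

/-!
# Row 257, ExT (helper952), the top axis

`top_ord` : the solution of the shifted Hörmander step has order `> a - N` along the axis `{α = 0}`
of a top edge.
-/

set_option autoImplicit false
set_option linter.unusedSectionVars false

noncomputable section

open Set Filter Topology MeasureTheory
open scoped ENNReal

namespace Crest.Agent.R257.ExT2_952

open Crest.AlgGeometry.Germ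
open Crest.Agent.R257.T387 Crest.Agent.R257.BP_258 Crest.Agent.R257.OrdK_82
open Crest.Agent.R257.HoT_843 Crest.Agent.R257.AJ387 Crest.Agent.R257.Gr1_157
open Crest.Agent.R257.Rot1_558 Crest.Agent.R257.Vt1_558 Crest.Agent.R257.Vt3_558
open Crest.Agent.R257.Vt4_558 Crest.Agent.R257.Vt6_558 Crest.Agent.R257.KB_82
open Polynomial (nthRootsFinset)

variable {f : (Fin 3 → ℂ) → ℂ} {T : TB f} {S : Sh T} {U : Tub T}

lemma root_mem {ξ : ℂ} (hξ : ξ ∈ nthRootsFinset T.N (1 : ℂ)) : ξ ^ T.N = 1 := by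
  rwa [Polynomial.mem_nthRootsFinset T.N_pos] at hξ

theorem top_ord {g V D : (Fin 3 → ℂ) → ℂ} {Φ : (Fin 3 → ℂ) → ℝ} {ρ₁ : ℝ} {a : ℕ}
    (h : HT S g V (fun x => x 1 ^ a * D x) (fun x => Φ x + a * Real.log (‖x 1‖ ^ 2)) ρ₁)
    {i : Fin T.m} {k' : ℕ} {c : Ch T.m} (hcd : c = .edge i 0 k') (hc : T.Valid c) (j : Fin T.d)
    (hoff : ∀ p ∈ Ogs S c ρ₁, ∀ i, (T.map c p).2 ≠ T.φ i ((T.map c p).1 ^ T.M))
    {b : ℂ} (hb : b ≠ 0) (hbr : ‖b‖ < S.r c)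
    (hog : ∀ᶠ p in 𝓝 ((0 : ℂ), b), T.Gen c p → p ∈ Ogs S c ρ₁)
    (hga : AnalyticAt ℂ (fun p => g (T.th c (S.ζ c j) p)) (0, b)) {δ C : ℝ} (hδ : 0 < δ)
    (hD : ∀ ξ : ℂ, ξ ^ T.N = 1 → ∃ C', ∀ᶠ p in 𝓝 ((0 : ℂ), b), T.Gen c p →
      ContinuousAt (fun p => D (rot ξ (wc S c j p))) p ∧
      ‖D (rot ξ (wc S c j p))‖ * dn S c j p ≤ C' * ‖p.1‖ ^ (δ - 1))
    (hΦ : ∀ ξ : ℂ, ξ ^ T.N = 1 → ∀ᶠ p in 𝓝 ((0 : ℂ), b), T.Gen c p →
      Φ (rot ξ (wc S c j p)) ≤ C) :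
    ∃ (n : ℕ) (H : ℂ × ℂ → ℂ), (a : ℝ) - T.N < n ∧ AnalyticAt ℂ H (0, b) ∧
      ∀ᶠ p in 𝓝 ((0 : ℂ), b), g (T.th c (S.ζ c j) p) = p.1 ^ n * H p := by
  classical
  have hr := S.pos c
  have hr1 := S.le c
  have hgen : ∀ p : ℂ × ℂ, T.Gen c p ↔ p.1 ≠ 0 ∧ p.2 ≠ 0 := by
    subst hcd; exact fun p => Iff.rfl
  have hs : ∀ p : ℂ × ℂ, (T.map c p).1 = p.1 * p.2 := by
    subst hcd; exact fun p => rfl
  have hjx : (T.jx c).1 = T.N - 1 := by
    subst hcd; simp [TB.jx]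
  have hmem : ((0 : ℂ), b) ∈ AJ387.BD (2 * S.r c) (2 * S.r c) :=
    ⟨by simpa using hr, show ‖b‖ < 2 * S.r c by linarith⟩
  have hD' : ∀ ξ : ℂ, ∃ C', ξ ^ T.N = 1 → ∀ᶠ p in 𝓝 ((0 : ℂ), b), T.Gen c p →
      ContinuousAt (fun p => D (rot ξ (wc S c j p))) p ∧
      ‖D (rot ξ (wc S c j p))‖ * dn S c j p ≤ C' * ‖p.1‖ ^ (δ - 1) := fun ξ => by
    by_cases hξ : ξ ^ T.N = 1
    · obtain ⟨C', hC'⟩ := hD ξ hξ; exact ⟨C', fun _ => hC'⟩
    · exact ⟨0, fun h => absurd h hξ⟩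
  choose C' hC' using hD'
  -- the neighbourhood
  have hall : ∀ᶠ p in 𝓝 ((0 : ℂ), b), ∀ ξ ∈ nthRootsFinset T.N (1 : ℂ), T.Gen c p →
      (ContinuousAt (fun p => D (rot ξ (wc S c j p))) p ∧
      ‖D (rot ξ (wc S c j p))‖ * dn S c j p ≤ C' ξ * ‖p.1‖ ^ (δ - 1)) ∧
      Φ (rot ξ (wc S c j p)) ≤ C := by
    rw [Filter.eventually_all_finset]
    intro ξ hξ
    filter_upwards [hC' ξ (root_mem hξ), hΦ ξ (root_mem hξ)] with p q1 q2 hg using ⟨q1 hg, q2 hg⟩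
  have hfc : ContinuousAt (fun p => ‖fz T (wc S c j p)‖) ((0 : ℂ), b) := by
    obtain ⟨a', b', w, w1, -, w3, -⟩ := (S.sheets c hc).cd0_mono j
    have e : (fun p : ℂ × ℂ => p.1 ^ a' * p.2 ^ b' * w p) =ᶠ[𝓝 ((0 : ℂ), b)]
        fun p => fz T (wc S c j p) := by
      filter_upwards [(isOpen_BD _ _).mem_nhds hmem] with p hp
      exact (w3 p hp).symm
    have h5 : ContinuousAt (fun p : ℂ × ℂ => p.1 ^ a' * p.2 ^ b' * w p) ((0 : ℂ), b) :=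
      ((continuousAt_fst.pow _).mul (continuousAt_snd.pow _)).mul (w1 _ hmem).continuousAt
    exact (h5.congr e).norm
  set B : ℝ := ‖fz T (wc S c j (0, b))‖ + 1 with hB
  have hB0 : 0 < B := by positivity
  have hfz : ∀ᶠ p in 𝓝 ((0 : ℂ), b), ‖fz T (wc S c j p)‖ < B :=
    hfc.eventually (gt_mem_nhds (lt_add_one _))
  have hb0 : 0 < ‖b‖ := norm_pos_iff.2 hb
  have e2 : ∀ᶠ p : ℂ × ℂ in 𝓝 ((0 : ℂ), b), ‖b‖ / 2 < ‖p.2‖ :=
    continuousAt_snd.norm.eventually (lt_mem_nhds (half_lt_self hb0))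
  have e3 : ∀ᶠ p : ℂ × ℂ in 𝓝 ((0 : ℂ), b), p ∈ AJ387.BD (S.r c) (S.r c) :=
    (isOpen_BD _ _).mem_nhds ⟨by simpa using hr, hbr⟩
  have hgc : ∀ᶠ p in 𝓝 ((0 : ℂ), b), ContinuousAt (fun p => g (T.th c (S.ζ c j) p)) p :=
    hga.eventually_analyticAt.mono fun p hp => hp.continuousAt
  obtain ⟨A, hA, hAo, hA0⟩ := eventually_nhds_iff.1
    (hall.and (hfz.and (e2.and (e3.and (hgc.and hog)))))
  set W : Set (ℂ × ℂ) := A ∩ {p | T.Gen c p} with hW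
  have hWo : IsOpen W := hAo.inter (isOpen_gen c)
  have hp1 : ∀ p ∈ W, 0 < ‖p.1‖ := fun p hp => norm_pos_iff.2 ((hgen p).1 hp.2).1
  -- the comparison weight
  set Ψ : ℂ × ℂ → ℝ := fun p => a * Real.log (‖p.1‖ ^ 2) + C with hΨ
  have hΨc : ContinuousOn Ψ W := by
    intro p hp
    have : ‖p.1‖ ^ 2 ≠ 0 := pow_ne_zero _ (hp1 p hp).ne'
    exact ((continuousAt_const.mul ((continuousAt_fst.norm.pow 2).log this)).add
      continuousAt_const).continuousWithinAt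
  have hn1 : ∀ ξ : ℂ, ξ ^ T.N = 1 → ∀ p ∈ W, ‖rot ξ (wc S c j p) 1‖ = ‖p.1‖ * ‖p.2‖ := by
    intro ξ hξ p hp
    rw [rot_1, norm_mul, norm_one T hξ, one_mul]
    show ‖(T.map c p).1‖ = _
    rw [hs, norm_mul]
  have hp2 : ∀ p ∈ W, ‖p.2‖ ≤ 1 := fun p hp => by
    have := (hA p hp.1).2.2.2.1.2
    linarith
  have hp2' : ∀ p ∈ W, 0 < ‖p.2‖ := fun p hp => norm_pos_iff.2 ((hgen p).1 hp.2).2
  set d : ℂ → ℂ × ℂ → ℂ := fun ξ p => (rot ξ (wc S c j p) 1) ^ a * D (rot ξ (wc S c j p)) with hd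
  have hwcc : ∀ p ∈ W, ContinuousAt (wc S c j) p := fun p hp => by
    have h3 := (hA p hp.1).2.2.2.1
    exact (an_wc S hc (by linarith [h3.1]) (by linarith [h3.2]) j).continuousAt
  have hdc : ∀ ξ : ℂ, ξ ^ T.N = 1 → ContinuousOn (d ξ) W := by
    intro ξ hξ p hp
    have h5 : ξ ∈ nthRootsFinset T.N (1 : ℂ) := (Polynomial.mem_nthRootsFinset T.N_pos (1 : ℂ)).2 hξ
    have h4 := (((hA p hp.1).1 ξ h5) hp.2).1.1
    have h6 : ContinuousAt (fun p => ξ * wc S c j p 1) p :=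
      continuousAt_const.mul (continuousAt_pi.1 (hwcc p hp) 1)
    exact ((h6.pow a).mul h4).continuousWithinAt
  have key := h.l2 hc j hoff hWo (fun p hp => (hA p hp.1).2.2.2.2.2 hp.2) (d := d) hdc
    (fun ξ hξ p hp => rfl) hΨc (fun ξ hξ p hp => by
      have h5 : ξ ∈ nthRootsFinset T.N (1 : ℂ) :=
        (Polynomial.mem_nthRootsFinset T.N_pos (1 : ℂ)).2 hξ
      have h4 := (((hA p hp.1).1 ξ h5) hp.2).2
      have h6 : Real.log (‖rot ξ (wc S c j p) 1‖ ^ 2) ≤ Real.log (‖p.1‖ ^ 2) := by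
        rw [hn1 ξ hξ p hp]
        have h7 := hp1 p hp
        have h8 := hp2' p hp
        refine Real.log_le_log (by positivity) (pow_le_pow_left₀ (by positivity) ?_ 2)
        exact mul_le_of_le_one_right h7.le (hp2 p hp)
      have h7 : (a : ℝ) * Real.log (‖rot ξ (wc S c j p) 1‖ ^ 2) ≤ a * Real.log (‖p.1‖ ^ 2) :=
        mul_le_mul_of_nonneg_left h6 (Nat.cast_nonneg a)
      simp only [hΨ]
      linarith)
  -- the average of the data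
  set dl : ℂ × ℂ → ℂ := fun p => 1 / T.N * ∑ ξ ∈ nthRootsFinset T.N (1 : ℂ), d ξ p with hdl
  have hdlc : ContinuousOn dl W := by
    refine continuousOn_const.mul (continuousOn_finsetSum _ fun ξ hξ => hdc ξ (root_mem hξ))
  have hgW : ContinuousOn (fun p => g (T.th c (S.ζ c j) p)) W := fun p hp =>
    ((hA p hp.1).2.2.2.2.1).continuousWithinAt
  set w : ℂ × ℂ → ℝ := fun p => Real.exp (-Ψ p) * dn S c j p ^ 2 with hw
  have hwc : ContinuousOn w W := by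
    refine (Real.continuous_exp.comp_continuousOn hΨc.neg).mul (ContinuousOn.pow ?_ 2)
    intro p hp
    have h3 := (hA p hp.1).2.2.2.1
    exact (dn_cont hc j (by linarith [h3.1]) (by linarith [h3.2]) hp.2).continuousWithinAt
  have hw0 : ∀ p, 0 ≤ w p := fun p => by positivity
  have hexp : ∀ p ∈ W, Real.exp (-Ψ p) = Real.exp (-C) * ‖p.1‖ ^ (-2 * (a : ℝ)) := by
    intro p hp
    simp only [hΨ]
    rw [neg_add, Real.exp_add, CDataA_250.exp_log_sq (hp1 p hp), mul_comm]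
  set Cs : ℝ := ∑ ξ ∈ nthRootsFinset T.N (1 : ℂ), |C' ξ| with hCs
  have hCs0 : 0 ≤ Cs := Finset.sum_nonneg fun _ _ => abs_nonneg _
  have hdn0 : ∀ p, 0 ≤ dn S c j p := fun p => by unfold dn; positivity
  have hdb : ∀ p ∈ W, ‖dl p‖ * dn S c j p ≤ Cs * (‖p.1‖ ^ a * ‖p.1‖ ^ (δ - 1)) := by
    intro p hp
    have h1 : ‖dl p‖ ≤ ∑ ξ ∈ nthRootsFinset T.N (1 : ℂ), ‖d ξ p‖ := by
      simp only [hdl]
      rw [norm_mul]
      have hN : ‖(1 / T.N : ℂ)‖ ≤ 1 := by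
        rw [norm_div, NormOneClass.norm_one, Complex.norm_natCast]
        have : (1 : ℝ) ≤ T.N := by exact_mod_cast T.N_pos
        exact (div_le_one (by linarith)).2 this
      calc _ ≤ 1 * ‖∑ ξ ∈ nthRootsFinset T.N (1 : ℂ), d ξ p‖ :=
            mul_le_mul_of_nonneg_right hN (norm_nonneg _)
        _ ≤ _ := by rw [one_mul]; exact norm_sum_le _ _
    calc ‖dl p‖ * dn S c j p ≤ (∑ ξ ∈ nthRootsFinset T.N (1 : ℂ), ‖d ξ p‖) * dn S c j p :=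
          mul_le_mul_of_nonneg_right h1 (hdn0 p)
      _ = ∑ ξ ∈ nthRootsFinset T.N (1 : ℂ), ‖d ξ p‖ * dn S c j p := by rw [Finset.sum_mul]
      _ ≤ ∑ ξ ∈ nthRootsFinset T.N (1 : ℂ), |C' ξ| * (‖p.1‖ ^ a * ‖p.1‖ ^ (δ - 1)) := by
          refine Finset.sum_le_sum fun ξ hξ => ?_
          have h4 := (((hA p hp.1).1 ξ hξ) hp.2).1.2
          have h5 := hp1 p hp
          simp only [hd]
          rw [norm_mul, norm_pow, hn1 ξ (root_mem hξ) p hp, mul_pow]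
          have h6 : ‖p.2‖ ^ a ≤ 1 := pow_le_one₀ (norm_nonneg _) (hp2 p hp)
          have h7 : 0 ≤ ‖D (rot ξ (wc S c j p))‖ * dn S c j p :=
            mul_nonneg (norm_nonneg _) (hdn0 p)
          calc ‖p.1‖ ^ a * ‖p.2‖ ^ a * ‖D (rot ξ (wc S c j p))‖ * dn S c j p
              = ‖p.1‖ ^ a * (‖p.2‖ ^ a * (‖D (rot ξ (wc S c j p))‖ * dn S c j p)) := by ring
            _ ≤ ‖p.1‖ ^ a * (1 * (‖D (rot ξ (wc S c j p))‖ * dn S c j p)) := by gcongr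
            _ ≤ ‖p.1‖ ^ a * (|C' ξ| * ‖p.1‖ ^ (δ - 1)) := by
                rw [one_mul]
                refine mul_le_mul_of_nonneg_left (h4.trans ?_) (by positivity)
                exact mul_le_mul_of_nonneg_right (le_abs_self _) (by positivity)
            _ = _ := by ring
      _ = Cs * (‖p.1‖ ^ a * ‖p.1‖ ^ (δ - 1)) := by rw [hCs, Finset.sum_mul]
  have hint : ∫⁻ p in W, ENNReal.ofReal (‖dl p‖ ^ 2 * w p) ≠ ∞ := by
    refine CDataA_250.fin_int hWo.measurableSet (R := S.r c) (fun p hp => (hA p hp.1).2.2.2.1)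
      (C := Real.exp (-C) * Cs ^ 2) (e := δ) (e' := 1) hδ one_pos (by positivity)
      fun p hp h1 h2 => ?_
    have h5 := hp1 p hp
    have h3 := hdb p hp
    have h4 : (‖dl p‖ * dn S c j p) ^ 2 ≤ (Cs * (‖p.1‖ ^ a * ‖p.1‖ ^ (δ - 1))) ^ 2 :=
      pow_le_pow_left₀ (mul_nonneg (norm_nonneg _) (hdn0 p)) h3 2
    have h6 : (‖p.1‖ ^ a) ^ 2 * ‖p.1‖ ^ (-2 * (a : ℝ)) = 1 := by
      rw [← Real.rpow_natCast, ← Real.rpow_natCast, ← Real.rpow_mul h5.le, ← Real.rpow_add h5]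
      rw [show (a : ℝ) * ((2 : ℕ) : ℝ) + -2 * (a : ℝ) = 0 by push_cast; ring, Real.rpow_zero]
    have h7 : (‖p.1‖ ^ (δ - 1)) ^ 2 = ‖p.1‖ ^ (2 * δ - 2) := by
      rw [← Real.rpow_natCast, ← Real.rpow_mul h5.le]
      congr 1
      push_cast
      ring
    calc ‖dl p‖ ^ 2 * w p = Real.exp (-C) * ‖p.1‖ ^ (-2 * (a : ℝ)) *
          (‖dl p‖ * dn S c j p) ^ 2 := by
          simp only [hw]; rw [hexp p hp]; ring
      _ ≤ Real.exp (-C) * ‖p.1‖ ^ (-2 * (a : ℝ)) * (Cs * (‖p.1‖ ^ a * ‖p.1‖ ^ (δ - 1))) ^ 2 :=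
          mul_le_mul_of_nonneg_left h4 (by positivity)
      _ = Real.exp (-C) * Cs ^ 2 * ((‖p.1‖ ^ a) ^ 2 * ‖p.1‖ ^ (-2 * (a : ℝ))) *
          (‖p.1‖ ^ (δ - 1)) ^ 2 := by ring
      _ = Real.exp (-C) * Cs ^ 2 * (‖p.1‖ ^ (2 * δ - 2) * ‖p.2‖ ^ (2 * (1 : ℝ) - 2)) := by
          rw [h6, h7, show (2 : ℝ) * 1 - 2 = 0 by norm_num, Real.rpow_zero]; ring
  -- the integral of `g`
  have hL : ∫⁻ p in W, ENNReal.ofReal (‖g (T.th c (S.ζ c j) p)‖ ^ 2 * w p) ≠ ⊤ := by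
    have e1 : ∀ p, ‖g (T.th c (S.ζ c j) p)‖ ^ 2 * w p =
        ‖(1 : ℂ) * ∑ x ∈ ({0, 1} : Finset (Fin 2)), ![g (T.th c (S.ζ c j) p) - dl p, dl p] x‖ ^ 2 *
          w p := by
      intro p
      simp
    have e2 := avg_L2 ({0, 1} : Finset (Fin 2)) hWo.measurableSet
      (v := fun x p => (![g (T.th c (S.ζ c j) p) - dl p, dl p] : Fin 2 → ℂ) x)
      (w := fun _ p => w p) (w₀ := w) (fun p _ => hw0 p) (fun _ _ _ _ => le_rfl)
      (fun x _ => by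
        refine ContinuousOn.aemeasurable ?_ hWo.measurableSet
        refine ENNReal.continuous_ofReal.comp_continuousOn (ContinuousOn.mul ?_ hwc)
        refine ContinuousOn.pow (ContinuousOn.norm ?_) 2
        fin_cases x
        · exact hgW.sub hdlc
        · exact hdlc)
      (fun x _ => by
        fin_cases x
        · have := key
          simp only [mul_assoc] at this
          simpa [hw, hdl, mul_assoc] using this
        · exact hint) 1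
    simp only [e1]
    exact e2
  have hlow : ∀ᶠ p in 𝓝 ((0 : ℂ), b), p.1 ≠ 0 →
      (Real.exp (-C) * (kk T c * (‖b‖ / 2) ^ (T.jx c).2 / B) ^ 2) *
        ‖p.1‖ ^ (-2 * ((a : ℝ) - T.N) - 2) ≤ w p := by
    filter_upwards [hAo.mem_nhds hA0] with p hp hp0
    have h2 : p.2 ≠ 0 := by
      have := (hA p hp).2.2.1
      exact norm_pos_iff.1 (by linarith)
    have hpW : p ∈ W := ⟨hp, (hgen p).2 ⟨hp0, h2⟩⟩
    have h5 := hp1 p hpW
    have h3 := (hA p hp).2.2.2.1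
    have hm2 : p ∈ AJ387.BD (2 * S.r c) (2 * S.r c) :=
      ⟨by linarith [h3.1], by linarith [h3.2]⟩
    have h6 : 0 < ‖fz T (wc S c j p)‖ := by
      refine norm_pos_iff.2 ?_
      exact cd_ne S hc hm2.1 hm2.2 hpW.2 j
    have hk := kk_pos hc
    have h7 : kk T c * (‖b‖ / 2) ^ (T.jx c).2 / B * ‖p.1‖ ^ (T.N - 1) ≤ dn S c j p := by
      rw [dn_eq S hc j hm2, hjx]
      have h8 : (‖b‖ / 2) ^ (T.jx c).2 ≤ ‖p.2‖ ^ (T.jx c).2 :=
        pow_le_pow_left₀ (by positivity) (hA p hp).2.2.1.le _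
      calc kk T c * (‖b‖ / 2) ^ (T.jx c).2 / B * ‖p.1‖ ^ (T.N - 1)
          = kk T c * ‖p.1‖ ^ (T.N - 1) * (‖b‖ / 2) ^ (T.jx c).2 / B := by ring
        _ ≤ kk T c * ‖p.1‖ ^ (T.N - 1) * ‖p.2‖ ^ (T.jx c).2 / B := by gcongr
        _ ≤ kk T c * ‖p.1‖ ^ (T.N - 1) * ‖p.2‖ ^ (T.jx c).2 / ‖fz T (wc S c j p)‖ := by
            gcongr
            exact (hA p hp).2.1.le
    have h9 := pow_le_pow_left₀ (by positivity) h7 2
    simp only [hw]
    rw [hexp p hpW]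
    have h10 : ‖p.1‖ ^ (-2 * ((a : ℝ) - T.N) - 2) =
        ‖p.1‖ ^ (-2 * (a : ℝ)) * (‖p.1‖ ^ (T.N - 1)) ^ 2 := by
      have hN : ((T.N - 1 : ℕ) : ℝ) = (T.N : ℝ) - 1 := by
        rw [Nat.cast_sub T.N_pos]; simp
      rw [← Real.rpow_natCast, ← Real.rpow_natCast, ← Real.rpow_mul h5.le, ← Real.rpow_add h5, hN]
      congr 1
      push_cast
      ring
    rw [h10]
    calc _ = Real.exp (-C) * ‖p.1‖ ^ (-2 * (a : ℝ)) *
        (kk T c * (‖b‖ / 2) ^ (T.jx c).2 / B * ‖p.1‖ ^ (T.N - 1)) ^ 2 := by ring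
      _ ≤ _ := mul_le_mul_of_nonneg_left h9 (by positivity)
  refine order_L2' (z := b) (U := W) ?_ hga (w := w) ?_ hlow hL
  · filter_upwards [hAo.mem_nhds hA0] with p hp hp0
    have h2 : p.2 ≠ 0 := by
      have := (hA p hp).2.2.1
      exact norm_pos_iff.1 (by linarith)
    exact ⟨hp, (hgen p).2 ⟨hp0, h2⟩⟩
  · have hk := kk_pos hc
    positivity

end Crest.Agent.R257.ExT2_952
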