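import Crest.Agent.R257.ExTA_952
import Crest.Agent.R257.ExT2_176
import Crest.Agent.R257.ExNO_843

/-!
# Row 257, ExT (helper952): `ExTBPStmt`

`top_div` : division of the solution by `x'`;  `exTBP` : `ExTBPStmt` from the weights and the null
data.
-/

set_option autoImplicit false
set_option linter.unusedSectionVars false

noncomputable section

open Set Filter Topology MeasureTheory
open scoped ENNReal

namespace Crest.Agent.R257.ExT2_952

open Crest.AlgGeometry.Germ Crest.Agent.R257.Defs_219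
open Crest.Agent.R257.T387 Crest.Agent.R257.BP_258 Crest.Agent.R257.OrdK_82
open Crest.Agent.R257.HoT_843 Crest.Agent.R257.AJ387 Crest.Agent.R257.Gr1_157
open Crest.Agent.R257.Rot1_558 Crest.Agent.R257.Vt1_558 Crest.Agent.R257.Vt3_558
open Crest.Agent.R257.Vt4_558 Crest.Agent.R257.Vt6_558 Crest.Agent.R257.KB_82
open Crest.Agent.R257.Exf_843 Crest.Agent.R257.Wt_258 Crest.Agent.R257.ExT1_176
open Crest.Agent.R257.Tb3_941
open Polynomial (nthRootsFinset)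

variable {f : (Fin 3 → ℂ) → ℂ} {T : TB f} {S : Sh T} {U : Tub T}

/-- the order of the solution along the axis `{α = 0}` of the top edge is positive, if `a = N` -/
theorem top_pos {hG : GalPt T} (L : Lab U S) {nu : II U → ℤ} {n1 n2 : Ch T.m → Fin T.d → ℤ}
    (J : Jac L nu n1 n2) (hmono : ∀ c, T.Valid c → T.MonoC c (S.r c)) {E₀ : II U}
    {y : II U → ℝ} {g V D : (Fin 3 → ℂ) → ℂ} {Φ : (Fin 3 → ℂ) → ℝ} {ρ₀ ρ₁ C : ℝ} {a : ℕ}
    (hρ₀ : 0 < ρ₀)
    (h : HT S g V (fun x => x 1 ^ a * D x) (fun x => Φ x + a * Real.log (‖x 1‖ ^ 2)) ρ₁)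
    {i : Fin T.m} {c : Ch T.m} (hcd : c = .edge i 0 1) (hc : Ok S c)
    (hup : ∀ ξ : ℂ, ξ ^ T.N = 1 → ∀ j, ∀ p ∈ Og (S := S) (rc T ξ c) ρ₀,
      Φ (wc S (rc T ξ c) j p) ≤ yo y (L.e1 (rc T ξ c) j) * Real.log (‖p.1‖ ^ 2) +
        yo y (L.e2 (rc T ξ c) j) * Real.log (‖p.2‖ ^ 2) + C)
    (htop : ∀ ξ : ℂ, ξ ^ T.N = 1 → ∀ j,
        (L.e2 (rc T ξ c) j = some E₀ → ∃ r > 0, ∃ C' : ℝ, ∀ p ∈ AJ387.BD r r,
          T.Gen (rc T ξ c) p → ContinuousAt (D ∘ wc S (rc T ξ c) j) p ∧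
          ‖D (wc S (rc T ξ c) j p)‖ ≤ C' * (‖p.1‖ ^ (hT1 L n1 E₀ (rc T ξ c) j +
            eT L E₀ (rc T ξ c) j) * ‖p.2‖ ^ hT2 L n2 E₀ (rc T ξ c) j)) ∧
        (L.e2 (rc T ξ c) j ≠ some E₀ → ∃ r > 0, ∀ p ∈ AJ387.BD r r, T.Gen (rc T ξ c) p →
          D (wc S (rc T ξ c) j p) = 0)) :
    ∀ᶠ b in 𝓝[≠] (0 : ℂ), ∀ j : Fin T.d, ∃ (n : ℕ) (H : ℂ × ℂ → ℂ), (a : ℝ) - T.N < n ∧
      AnalyticAt ℂ H (0, b) ∧
      ∀ᶠ p in 𝓝 ((0 : ℂ), b), g (T.th c (S.ζ c j) p) = p.1 ^ n * H p := by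
  classical
  have hr := S.pos c
  have hnv : ¬ IsV c := by subst hcd; exact fun h => h
  have h0 : T.map c (0, 0) = 0 := by
    rw [T.map_eq_zero hc.1]; subst hcd; exact Or.inr rfl
  have hv0 : v1 T c = none := by subst hcd; rfl
  set δ : ℝ := (T.M : ℝ) / T.d with hδ
  have hδ0 : 0 < δ := by
    have h1 : (0 : ℝ) < T.M := by exact_mod_cast T.M_pos
    have h2 : (0 : ℝ) < T.d := by exact_mod_cast T.d_pos
    positivity
  have htend : Tendsto (fun b : ℂ => ((0 : ℂ), b)) (𝓝[≠] 0) (𝓝 ((0 : ℂ), (0 : ℂ))) := by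
    have : Continuous fun b : ℂ => ((0 : ℂ), b) := by fun_prop
    exact (this.tendsto' _ _ rfl).mono_left nhdsWithin_le_nhds
  -- small generic points
  have k1 : ∀ᶠ b in 𝓝[≠] (0 : ℂ), ∀ᶠ p in 𝓝 ((0 : ℂ), b), T.Gen c p → p ∈ Ogs S c ρ₁ :=
    htend.eventually (eventually_eventually_nhds.2
      (ogs_ev (S := S) hc.1 (p₀ := ((0 : ℂ), (0 : ℂ))) (by simpa using hr) (by simpa using hr)
        h0 h.pos))
  have k2 : ∀ᶠ b in 𝓝[≠] (0 : ℂ), ∀ j : Fin T.d,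
      AnalyticAt ℂ (fun p => g (T.th c (S.ζ c j) p)) (0, b) :=
    eventually_all.2 fun j => htend.eventually (h.an_th hc.1 j (p₀ := ((0 : ℂ), (0 : ℂ)))
      (by simpa using hr) (by simpa using hr) h0).eventually_analyticAt
  have k3 : ∀ᶠ b in 𝓝[≠] (0 : ℂ), ‖b‖ < S.r c :=
    (continuous_norm.continuousAt.eventually (gt_mem_nhds (by simpa using hr))).filter_mono
      nhdsWithin_le_nhds
  have hmin : ∀ ξ, 0 < min (S.r c) (S.r (rc T ξ c)) := fun ξ => lt_min hr (S.pos _)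
  -- the data
  have k4 : ∀ ξ ∈ nthRootsFinset T.N (1 : ℂ), ∀ j : Fin T.d, ∀ᶠ b in 𝓝[≠] (0 : ℂ),
      ∃ C', ∀ᶠ p in 𝓝 ((0 : ℂ), b), T.Gen c p →
        ContinuousAt (fun p => D (rot ξ (wc S c j p))) p ∧
        ‖D (rot ξ (wc S c j p))‖ * dn S c j p ≤ C' * ‖p.1‖ ^ (δ - 1) := by
    intro ξ hξ' j
    have hξ := root_mem hξ'
    obtain ⟨τ, hτ⟩ := exists_tau hG hξ S hc.1
    set c' : Ch T.m := rc T ξ c with hc'd
    have hc' : Ok S c' := ok_rc S hG hξ hc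
    have hr' := S.pos c'
    have hcd' : c' = .edge (sg T ξ i) 0 1 := by rw [hc'd, hcd]; rfl
    have hm := hmin ξ
    have hrt : Tendsto (fun p : ℂ × ℂ => rp T ξ c p) (𝓝 ((0 : ℂ), (0 : ℂ)))
        (𝓝 ((0 : ℂ), (0 : ℂ))) := by
      have : Continuous fun p : ℂ × ℂ => rp T ξ c p := by unfold rp; fun_prop
      exact this.tendsto' _ _ (by simp [rp])
    have e1 : ∀ᶠ p : ℂ × ℂ in 𝓝 ((0 : ℂ), (0 : ℂ)),
        p ∈ AJ387.BD (min (S.r c) (S.r c')) (min (S.r c) (S.r c')) :=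
      (isOpen_BD _ _).mem_nhds ⟨by simpa using hm, by simpa using hm⟩
    -- the equation of the rotated point
    have heq : ∀ p ∈ AJ387.BD (min (S.r c) (S.r c')) (min (S.r c) (S.r c')),
        rot ξ (wc S c j p) = wc S c' (τ j) (rp T ξ c p) := fun p hp =>
      hτ j p (by linarith [hp.1]) (by linarith [hp.2])
    have hrpc : Continuous fun p : ℂ × ℂ => rp T ξ c p := by unfold rp; fun_prop
    by_cases hE : L.e2 c' (τ j) = some E₀
    · obtain ⟨r, hr0, C', hC'⟩ := (htop ξ hξ (τ j)).1 hE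
      obtain ⟨K, hK, hbd⟩ := J.bd c' hc' (τ j)
      have e2 : ∀ᶠ p : ℂ × ℂ in 𝓝 ((0 : ℂ), (0 : ℂ)), rp T ξ c p ∈ AJ387.BD r r :=
        hrt.eventually ((isOpen_BD _ _).mem_nhds ⟨by simpa using hr0, by simpa using hr0⟩)
      filter_upwards [htend.eventually (e1.and e2).eventually_nhds,
        self_mem_nhdsWithin (a := (0 : ℂ)) (s := {0}ᶜ)] with b hb hb0
      have hb0' : b ≠ 0 := hb0
      set h2 : ℝ := hT2 L n2 E₀ c' (τ j) with hh2
      set q : ℂ × ℂ → ℝ := fun p => ‖p.2‖ ^ h2 * ‖p.2‖ ^ (-n2 c' (τ j) - 1) with hq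
      have hqc : ContinuousAt q ((0 : ℂ), b) := by
        have h1 : ContinuousAt (fun p : ℂ × ℂ => ‖p.2‖) ((0 : ℂ), b) := continuousAt_snd.norm
        have hne : ‖b‖ ≠ 0 := norm_ne_zero_iff.2 hb0'
        exact (h1.rpow_const (Or.inl hne)).mul (h1.zpow₀ _ (Or.inl hne))
      have e3 : ∀ᶠ p in 𝓝 ((0 : ℂ), b), q p < q (0, b) + 1 :=
        hqc.eventually (gt_mem_nhds (lt_add_one _))
      refine ⟨|C'| * K * (q (0, b) + 1), ?_⟩
      filter_upwards [hb, hb.eventually_nhds, e3] with p hp hp' hp3 hg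
      have hg' : T.Gen c' (rp T ξ c p) := (gen_rot hξ c p).2 hg
      obtain ⟨hc1, hc2⟩ := hC' _ hp.2 hg'
      obtain ⟨hn1, hn2⟩ := rp_norm hξ c p
      have hp1 : p.1 ≠ 0 := CDataB_250.gen_fst hg
      constructor
      · have h1 : ContinuousAt (fun p => D (wc S c' (τ j) (rp T ξ c p))) p :=
          ContinuousAt.comp (g := D ∘ wc S c' (τ j)) (f := fun p => rp T ξ c p) hc1
            hrpc.continuousAt
        refine h1.congr ?_
        filter_upwards [hp'] with x hx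
        rw [heq x hx.1]
      · have hBD2 : p ∈ AJ387.BD (2 * S.r c) (2 * S.r c) := by
          have := min_le_left (S.r c) (S.r c')
          exact ⟨by linarith [hp.1.1], by linarith [hp.1.2]⟩
        have hBD2' : p ∈ AJ387.BD (2 * S.r c') (2 * S.r c') := by
          have := min_le_right (S.r c) (S.r c')
          exact ⟨by linarith [hp.1.1], by linarith [hp.1.2]⟩
        have e4 : dn S c j p = dn S c' (τ j) (rp T ξ c p) :=
          (dn_rot hG hξ S hc.1 hBD2 hBD2' (heq p hp.1)).symm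
        have hle : ‖(rp T ξ c p).1‖ ≤ S.r c' ∧ ‖(rp T ξ c p).2‖ ≤ S.r c' := by
          rw [hn1, hn2]
          have := min_le_right (S.r c) (S.r c')
          exact ⟨by linarith [hp.1.1], by linarith [hp.1.2]⟩
        have e5 := (hbd _ hle.1 hle.2 hg').2.1
        rw [hn1, hn2] at e5 hc2
        rw [heq p hp.1, e4]
        have hpp : 0 < ‖p.1‖ := norm_pos_iff.2 hp1
        have e6 : hT1 L n1 E₀ c' (τ j) + eT L E₀ c' (τ j) = (n1 c' (τ j) : ℝ) + δ := by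
          unfold hT1 eT
          rw [if_pos hE, if_pos hE]
          have h7 : (lx T c' : ℝ) = T.M := by
            rw [hcd']; simp [lx]
          rw [h7, hδ]
          ring
        rw [e6] at hc2
        have e7 : ‖p.1‖ ^ ((n1 c' (τ j) : ℝ) + δ) * ‖p.1‖ ^ (-n1 c' (τ j) - 1) =
            ‖p.1‖ ^ (δ - 1) := by
          rw [← Real.rpow_intCast, ← Real.rpow_add hpp]
          congr 1
          push_cast
          ring
        have hdn0 : 0 ≤ dn S c' (τ j) (rp T ξ c p) := by unfold dn; positivity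
        have hcc : ‖D (wc S c' (τ j) (rp T ξ c p))‖ ≤
            |C'| * (‖p.1‖ ^ ((n1 c' (τ j) : ℝ) + δ) * ‖p.2‖ ^ h2) :=
          hc2.trans (mul_le_mul_of_nonneg_right (le_abs_self _) (by positivity))
        calc ‖D (wc S c' (τ j) (rp T ξ c p))‖ * dn S c' (τ j) (rp T ξ c p)
            ≤ (|C'| * (‖p.1‖ ^ ((n1 c' (τ j) : ℝ) + δ) * ‖p.2‖ ^ h2)) *
              (K * (‖p.1‖ ^ (-n1 c' (τ j) - 1) * ‖p.2‖ ^ (-n2 c' (τ j) - 1))) :=
              mul_le_mul hcc e5 hdn0 (by positivity)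
          _ = |C'| * K * q p * (‖p.1‖ ^ ((n1 c' (τ j) : ℝ) + δ) *
                ‖p.1‖ ^ (-n1 c' (τ j) - 1)) := by simp only [hq]; ring
          _ = |C'| * K * q p * ‖p.1‖ ^ (δ - 1) := by rw [e7]
          _ ≤ |C'| * K * (q (0, b) + 1) * ‖p.1‖ ^ (δ - 1) := by
              gcongr
    · obtain ⟨r, hr0, hC'⟩ := (htop ξ hξ (τ j)).2 hE
      have e2 : ∀ᶠ p : ℂ × ℂ in 𝓝 ((0 : ℂ), (0 : ℂ)), rp T ξ c p ∈ AJ387.BD r r :=
        hrt.eventually ((isOpen_BD _ _).mem_nhds ⟨by simpa using hr0, by simpa using hr0⟩)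
      filter_upwards [htend.eventually (e1.and e2).eventually_nhds] with b hb
      refine ⟨0, ?_⟩
      filter_upwards [hb, hb.eventually_nhds] with p hp hp' hg
      have hz : ∀ x, (x ∈ AJ387.BD (min (S.r c) (S.r c')) (min (S.r c) (S.r c')) ∧
          rp T ξ c x ∈ AJ387.BD r r) → T.Gen c x → D (rot ξ (wc S c j x)) = 0 := by
        intro x hx hgx
        rw [heq x hx.1]
        exact hC' _ hx.2 ((gen_rot hξ c x).2 hgx)
      constructor
      · refine (continuousAt_const (y := (0 : ℂ))).congr ?_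
        filter_upwards [hp', (HoT_843.isOpen_gen c).mem_nhds hg] with x hx hgx
        exact (hz x hx hgx).symm
      · rw [hz p hp hg]; simp
  -- the weights
  have k5 : ∀ ξ ∈ nthRootsFinset T.N (1 : ℂ), ∀ j : Fin T.d, ∀ᶠ b in 𝓝[≠] (0 : ℂ),
      ∃ C', ∀ᶠ p in 𝓝 ((0 : ℂ), b), T.Gen c p → Φ (rot ξ (wc S c j p)) ≤ C' := by
    intro ξ hξ' j
    have hξ := root_mem hξ'
    obtain ⟨τ, hτ⟩ := exists_tau hG hξ S hc.1
    set c' : Ch T.m := rc T ξ c with hc'd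
    have hc' : Ok S c' := ok_rc S hG hξ hc
    have hr' := S.pos c'
    have hm := hmin ξ
    have hm0 : T.map c' (0, 0) = 0 := by
      rw [T.map_eq_zero hc'.1, hc'd, hcd]; exact Or.inr rfl
    have hrt : Tendsto (fun p : ℂ × ℂ => rp T ξ c p) (𝓝 ((0 : ℂ), (0 : ℂ)))
        (𝓝 ((0 : ℂ), (0 : ℂ))) := by
      have : Continuous fun p : ℂ × ℂ => rp T ξ c p := by unfold rp; fun_prop
      exact this.tendsto' _ _ (by simp [rp])
    have e1 : ∀ᶠ p : ℂ × ℂ in 𝓝 ((0 : ℂ), (0 : ℂ)),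
        p ∈ AJ387.BD (min (S.r c) (S.r c')) (min (S.r c) (S.r c')) :=
      (isOpen_BD _ _).mem_nhds ⟨by simpa using hm, by simpa using hm⟩
    have e2 : ∀ᶠ p : ℂ × ℂ in 𝓝 ((0 : ℂ), (0 : ℂ)), T.Gen c' (rp T ξ c p) →
        rp T ξ c p ∈ Og (S := S) c' ρ₀ :=
      hrt.eventually (og_ev (S := S) hc'.1 (p₀ := ((0 : ℂ), (0 : ℂ))) (by simpa using hr')
        (by simpa using hr') (by rw [hm0]; rfl) hρ₀)
    have he1 : L.e1 c' (τ j) = none := by
      have h1 := L.v_e1 c' hc' (τ j)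
      rw [v1_rc hG hξ, hv0] at h1
      simpa using h1
    filter_upwards [htend.eventually (e1.and e2).eventually_nhds,
      self_mem_nhdsWithin (a := (0 : ℂ)) (s := {0}ᶜ)] with b hb hb0
    have hb0' : b ≠ 0 := hb0
    set q : ℂ × ℂ → ℝ := fun p => yo y (L.e2 c' (τ j)) * Real.log (‖p.2‖ ^ 2) with hq
    have hqc : ContinuousAt q ((0 : ℂ), b) :=
      continuousAt_const.mul ((continuousAt_snd.norm.pow 2).log
        (pow_ne_zero _ (norm_ne_zero_iff.2 hb0')))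
    have e3 : ∀ᶠ p in 𝓝 ((0 : ℂ), b), q p < q (0, b) + 1 :=
      hqc.eventually (gt_mem_nhds (lt_add_one _))
    refine ⟨q (0, b) + 1 + C, ?_⟩
    filter_upwards [hb, e3] with p hp hp3 hg
    have hg' : T.Gen c' (rp T ξ c p) := (gen_rot hξ c p).2 hg
    have h5 := hup ξ hξ (τ j) _ (hp.2 hg')
    rw [← hc'd, he1] at h5
    rw [hτ j p (by linarith [hp.1.1]) (by linarith [hp.1.2])]
    have hn2 := (rp_norm hξ c p).2
    have h6 : yo y (none : Option (II U)) = 0 := rfl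
    rw [h6, hn2, zero_mul, zero_add] at h5
    have h7 : yo y (L.e2 c' (τ j)) * Real.log (‖p.2‖ ^ 2) < q (0, b) + 1 := hp3
    linarith
  have k4' : ∀ᶠ b in 𝓝[≠] (0 : ℂ), ∀ ξ ∈ nthRootsFinset T.N (1 : ℂ), ∀ j : Fin T.d,
      ∃ C', ∀ᶠ p in 𝓝 ((0 : ℂ), b), T.Gen c p →
        ContinuousAt (fun p => D (rot ξ (wc S c j p))) p ∧
        ‖D (rot ξ (wc S c j p))‖ * dn S c j p ≤ C' * ‖p.1‖ ^ (δ - 1) := by
    rw [Filter.eventually_all_finset]
    exact fun ξ hξ => eventually_all.2 fun j => k4 ξ hξ j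
  have k5' : ∀ᶠ b in 𝓝[≠] (0 : ℂ), ∀ ξ ∈ nthRootsFinset T.N (1 : ℂ), ∀ j : Fin T.d,
      ∃ C', ∀ᶠ p in 𝓝 ((0 : ℂ), b), T.Gen c p → Φ (rot ξ (wc S c j p)) ≤ C' := by
    rw [Filter.eventually_all_finset]
    exact fun ξ hξ => eventually_all.2 fun j => k5 ξ hξ j
  filter_upwards [k1, k2, k3, k4', k5', self_mem_nhdsWithin (a := (0 : ℂ)) (s := {0}ᶜ)]
    with b b1 b2 b3 b4 b5 b6 j
  have hroot : ∀ {ξ : ℂ}, ξ ^ T.N = 1 → ξ ∈ nthRootsFinset T.N (1 : ℂ) := fun hξ =>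
    (Polynomial.mem_nthRootsFinset T.N_pos (1 : ℂ)).2 hξ
  obtain ⟨C₁, hC₁⟩ := unif (T := T) (P := fun ξ C' => ∀ᶠ p in 𝓝 ((0 : ℂ), b), T.Gen c p →
      Φ (rot ξ (wc S c j p)) ≤ C')
    (fun ξ C₁ C₂ hC hP => hP.mono fun p hp hg => (hp hg).trans hC)
    (fun ξ hξ => b5 ξ (hroot hξ) j)
  exact top_ord h hcd hc.1 j (off_of_mono (hmono c hc.1) ρ₁) b6 b3 b1 (b2 j) hδ0
    (fun ξ hξ => b4 ξ (hroot hξ) j) hC₁

end Crest.Agent.R257.ExT2_952
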