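import Crest.Agent.R257.RsnD_843
import Crest.Agent.R257.Hv4_174
import Crest.Agent.R257.Tb3_941
import Crest.Agent.R257.KiD_121

/-!
# Row 257, ExN (helper843), file 1: the action of the stabiliser on the ends

* `act_end1`, `act_end2` : the action of the stabiliser of a component, seen in the charts at the ends;
* `ThE` : invariant holomorphic forms; `emp` : no kills; `slope1`, `slope2`.
-/

set_option autoImplicit false
set_option linter.unusedSectionVars false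

open Polynomial Set Filter Topology Metric
open Crest.AlgGeometry.Germ Crest.Agent.R257.AJ387 Crest.Agent.R257.T387
open Crest.Agent.R257.Gr1_157 Crest.Agent.R257.HoB_843 Crest.Agent.R257.BP_258
open Crest.Agent.R257.Wt_258 Crest.Agent.R257.Cpt1_419 Crest.Agent.R257.Hv_174
open Crest.Agent.R257.Rsn_843 Crest.Agent.R257.Tb3_941 Crest.Agent.R257.Rot1_558
open Crest.Agent.R257.Vt1_558 Crest.Agent.R257.Vt4_558

noncomputable section

namespace Crest.Agent.R257.Exf_843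

variable {f : (Fin 3 → ℂ) → ℂ} {T : TB f} {S : Sh T} {U : Tub T}

/-- the component `E` carries an invariant non zero holomorphic form -/
def ThE (hG : GalPt T) (E : II U) : Prop :=
  ∃ r > 0, ∃ g : XE E → ℂ, HolX (fun x => ((covE E).p x).1) g ∧
    (∀ (γ : GE hG E) (x : XE E), chE hG E γ * g (letI := mulAct hG E; γ • x) = g x) ∧
    EndL (fun x => ((covE E).p x).1) (sp T E.1.1) r T.d g ∧ ∃ x, g x ≠ 0

lemma noTh_of {hG : GalPt T} {E : II U} (h : ¬ ThE hG E) {r : ℝ} (hr : 0 < r) :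
    letI := mulAct hG E
    NoTh (Γ := GE hG E) (fun x : XE E => ((covE E).p x).1) (chE hG E) (sp T E.1.1) r T.d := by
  intro g h1 h2 h3 x
  by_contra hne
  exact h ⟨r, hr, g, h1, h2, h3, x, hne⟩

/-! ### the action on the ends -/

lemma rm_snd_ne {ξ : ℂ} (hξ : ξ ^ T.N = 1) (c : Ch T.m) : (rm T ξ c).2 ≠ 0 := (rm_ne hξ c).2

lemma tend_rp (ξ : ℂ) (c : Ch T.m) (p₀ : ℂ × ℂ) :
    Tendsto (rp T ξ c) (𝓝 p₀) (𝓝 (rp T ξ c p₀)) := by
  have : Continuous (rp T ξ c) := by unfold rp; fun_prop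
  exact this.tendsto _

/-- the action at the finite ends -/
theorem act_end1 {hG : GalPt T} {E : II U} (γ : GE hG E) {c : Ch T.m}
    {γ₁ γ₂ : Fin T.d → ℂ → XV U E.1.1} (h1 : End1 U S c E.1.1 γ₁)
    (h2 : End1 U S (rc T (vl γ.1) c) E.1.1 γ₂) {j j' : Fin T.d}
    (hjj : ∀ p : ℂ × ℂ, ‖p.1‖ < 2 * min (S.r c) (S.r (rc T (vl γ.1) c)) →
      ‖p.2‖ < 2 * min (S.r c) (S.r (rc T (vl γ.1) c)) →
      rot (vl γ.1) (wc S c j p) = wc S (rc T (vl γ.1) c) j' (rp T (vl γ.1) c p))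
    {b : ℂ} (hb : b ∈ PDv S c) (hbm : ‖b‖ < 2 * min (S.r c) (S.r (rc T (vl γ.1) c)))
    (hb' : (rm T (vl γ.1) c).2 * b ∈ PDv S (rc T (vl γ.1) c)) :
    γ₂ j' ((rm T (vl γ.1) c).2 * b) = smv hG γ (γ₁ j b) := by
  by_contra hne
  obtain ⟨O, O', hO, hO', a1, a2, a3⟩ := t2_separation hne
  obtain ⟨s1, -, -, s2, -, -⟩ := smv_spec hG γ
  have hpre : (smv hG γ) ⁻¹' O' ∈ 𝓝 (γ₁ j b) := s1.continuousAt.preimage_mem_nhds (hO'.mem_nhds a2)
  have e1 := (h1.lim j b hb).1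
  have e2 := (h1.lim j b hb).2 _ hpre
  have ht : Tendsto (rp T (vl γ.1) c) (𝓝 ((0 : ℂ), b)) (𝓝 ((0 : ℂ), (rm T (vl γ.1) c).2 * b)) := by
    have := tend_rp (T := T) (vl γ.1) c ((0 : ℂ), b)
    simpa [rp] using this
  have e3 := ht.eventually (h2.lim j' _ hb').1
  have e4 := ht.eventually ((h2.lim j' _ hb').2 _ (hO.mem_nhds a1))
  have hm0 : 0 < 2 * min (S.r c) (S.r (rc T (vl γ.1) c)) := by
    have := lt_min (S.pos c) (S.pos (rc T (vl γ.1) c)); linarith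
  have e5 : ∀ᶠ p : ℂ × ℂ in 𝓝 ((0 : ℂ), b), ‖p.1‖ < 2 * min (S.r c) (S.r (rc T (vl γ.1) c)) :=
    continuousAt_fst.norm.eventually (gt_mem_nhds (by simpa using hm0))
  have e6 : ∀ᶠ p : ℂ × ℂ in 𝓝 ((0 : ℂ), b), ‖p.2‖ < 2 * min (S.r c) (S.r (rc T (vl γ.1) c)) :=
    continuousAt_snd.norm.eventually (gt_mem_nhds hbm)
  have hft : Tendsto (fun α : ℂ => (α, b)) (𝓝 0) (𝓝 ((0 : ℂ), b)) := by
    have : Continuous fun α : ℂ => (α, b) := by fun_prop
    exact this.tendsto 0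
  have hall : ∀ᶠ α in 𝓝 (0 : ℂ), α ≠ 0 → InT U E.1.1 (wc S c j (α, b)) ∧
      (∀ q, IsRet U E.1.1 (wc S c j (α, b)) q → smv hG γ q ∈ O') ∧
      InT U E.1.1 (wc S (rc T (vl γ.1) c) j' (rp T (vl γ.1) c (α, b))) ∧
      (∀ q, IsRet U E.1.1 (wc S (rc T (vl γ.1) c) j' (rp T (vl γ.1) c (α, b))) q → q ∈ O) ∧
      rot (vl γ.1) (wc S c j (α, b)) = wc S (rc T (vl γ.1) c) j' (rp T (vl γ.1) c (α, b)) := by
    filter_upwards [hft.eventually e1, hft.eventually e2, hft.eventually e3, hft.eventually e4,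
      hft.eventually e5, hft.eventually e6] with α q1 q2 q3 q4 q5 q6 h0
    have h0' : (rp T (vl γ.1) c (α, b)).1 ≠ 0 := mul_ne_zero (rm_ne (vl_pow γ.1) c).1 h0
    exact ⟨q1 h0, q2 h0, q3 h0', q4 h0', hjj _ q5 q6⟩
  obtain ⟨α, h0, q1, q2, q3, q4, q5⟩ := exists_ne_of_ev hall
  obtain ⟨q, hq, -⟩ := (Tb_941.retStmt U _ q1.mem).1 _ q1
  rw [← q5] at q3 q4
  exact Set.disjoint_left.1 a3 (q4 _ (s2 q _ hq q3)) (q2 q hq)

/-- the action at the ends over infinity -/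
theorem act_end2 {hG : GalPt T} {E : II U} (γ : GE hG E) {c : Ch T.m}
    {γ₁ γ₂ : Fin T.d → ℂ → XV U E.1.1} (h1 : End2 U S c E.1.1 γ₁)
    (h2 : End2 U S (rc T (vl γ.1) c) E.1.1 γ₂) {j j' : Fin T.d}
    (hjj : ∀ p : ℂ × ℂ, ‖p.1‖ < 2 * min (S.r c) (S.r (rc T (vl γ.1) c)) →
      ‖p.2‖ < 2 * min (S.r c) (S.r (rc T (vl γ.1) c)) →
      rot (vl γ.1) (wc S c j p) = wc S (rc T (vl γ.1) c) j' (rp T (vl γ.1) c p))
    {a : ℂ} (ha : a ∈ PDc S c) (ham : ‖a‖ < 2 * min (S.r c) (S.r (rc T (vl γ.1) c)))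
    (ha' : (rm T (vl γ.1) c).1 * a ∈ PDc S (rc T (vl γ.1) c)) :
    γ₂ j' ((rm T (vl γ.1) c).1 * a) = smv hG γ (γ₁ j a) := by
  by_contra hne
  obtain ⟨O, O', hO, hO', a1, a2, a3⟩ := t2_separation hne
  obtain ⟨s1, -, -, s2, -, -⟩ := smv_spec hG γ
  have hpre : (smv hG γ) ⁻¹' O' ∈ 𝓝 (γ₁ j a) := s1.continuousAt.preimage_mem_nhds (hO'.mem_nhds a2)
  have e1 := (h1.lim j a ha).1
  have e2 := (h1.lim j a ha).2 _ hpre
  have ht : Tendsto (rp T (vl γ.1) c) (𝓝 (a, (0 : ℂ))) (𝓝 ((rm T (vl γ.1) c).1 * a, (0 : ℂ))) := by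
    have := tend_rp (T := T) (vl γ.1) c (a, (0 : ℂ))
    simpa [rp] using this
  have e3 := ht.eventually (h2.lim j' _ ha').1
  have e4 := ht.eventually ((h2.lim j' _ ha').2 _ (hO.mem_nhds a1))
  have hm0 : 0 < 2 * min (S.r c) (S.r (rc T (vl γ.1) c)) := by
    have := lt_min (S.pos c) (S.pos (rc T (vl γ.1) c)); linarith
  have e5 : ∀ᶠ p : ℂ × ℂ in 𝓝 (a, (0 : ℂ)), ‖p.1‖ < 2 * min (S.r c) (S.r (rc T (vl γ.1) c)) :=
    continuousAt_fst.norm.eventually (gt_mem_nhds ham)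
  have e6 : ∀ᶠ p : ℂ × ℂ in 𝓝 (a, (0 : ℂ)), ‖p.2‖ < 2 * min (S.r c) (S.r (rc T (vl γ.1) c)) :=
    continuousAt_snd.norm.eventually (gt_mem_nhds (by simpa using hm0))
  have hft : Tendsto (fun α : ℂ => (a, α)) (𝓝 0) (𝓝 (a, (0 : ℂ))) := by
    have : Continuous fun α : ℂ => (a, α) := by fun_prop
    exact this.tendsto 0
  have hall : ∀ᶠ α in 𝓝 (0 : ℂ), α ≠ 0 → InT U E.1.1 (wc S c j (a, α)) ∧
      (∀ q, IsRet U E.1.1 (wc S c j (a, α)) q → smv hG γ q ∈ O') ∧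
      InT U E.1.1 (wc S (rc T (vl γ.1) c) j' (rp T (vl γ.1) c (a, α))) ∧
      (∀ q, IsRet U E.1.1 (wc S (rc T (vl γ.1) c) j' (rp T (vl γ.1) c (a, α))) q → q ∈ O) ∧
      rot (vl γ.1) (wc S c j (a, α)) = wc S (rc T (vl γ.1) c) j' (rp T (vl γ.1) c (a, α)) := by
    filter_upwards [hft.eventually e1, hft.eventually e2, hft.eventually e3, hft.eventually e4,
      hft.eventually e5, hft.eventually e6] with α q1 q2 q3 q4 q5 q6 h0
    have h0' : (rp T (vl γ.1) c (a, α)).2 ≠ 0 := mul_ne_zero (rm_ne (vl_pow γ.1) c).2 h0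
    exact ⟨q1 h0, q2 h0, q3 h0', q4 h0', hjj _ q5 q6⟩
  obtain ⟨α, h0, q1, q2, q3, q4, q5⟩ := exists_ne_of_ev hall
  obtain ⟨q, hq, -⟩ := (Tb_941.retStmt U _ q1.mem).1 _ q1
  rw [← q5] at q3 q4
  exact Set.disjoint_left.1 a3 (q4 _ (s2 q _ hq q3)) (q2 q hq)

/-! ### no kills -/

variable (S) in
/-- no kills -/
def emp : Kill (S := S) (∅ : Finset (Ch T.m)) where
  κ := ∅
  t := fun _ => 0
  t_pos := fun _ h => absurd h (Set.notMem_empty _)
  mem := fun _ h => absurd h (Set.notMem_empty _)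
  ex := ⟨1, one_pos, fun _ h => absurd h (Set.notMem_empty _)⟩

lemma tk_emp (c : Ch T.m) (j : Fin T.d) : tk (emp S) c j = 0 := by
  unfold tk
  exact if_neg (Set.notMem_empty _)

/-- integral slopes at the finite ends -/
def z1 (L : Lab U S) (m : II U → ℕ) (c : Ch T.m) (j : Fin T.d) : ℤ := by
  classical
  exact if IsE c then (yn m (L.e2 c j) : ℤ) - yn m (L.e1 c j) else 0

/-- integral slopes at infinity -/
def z2 (L : Lab U S) (m : II U → ℕ) (c : Ch T.m) (j : Fin T.d) : ℤ :=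
  (yn m (L.e1 c j) : ℤ) - yn m (L.e2 c j)

lemma yo_yn (m : II U → ℕ) (e : Option (II U)) : yo (fun E => (m E : ℝ)) e = yn m e := by
  cases e <;> simp [yo, yn]

lemma s1_emp (L : Lab U S) (m : II U → ℕ) (c : Ch T.m) (j : Fin T.d) :
    s1 L (fun E => (m E : ℝ)) (emp S) c j = z1 L m c j := by
  classical
  unfold s1 z1
  rw [tk_emp, add_zero, yo_yn, yo_yn]
  split_ifs <;> simp

lemma s2_emp (L : Lab U S) (m : II U → ℕ) (c : Ch T.m) (j : Fin T.d) :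
    s2 L (fun E => (m E : ℝ)) (emp S) c j = z2 L m c j := by
  unfold s2 z2
  rw [tk_emp, add_zero, yo_yn, yo_yn]
  simp

lemma yn_dvd {m : II U → ℕ} {D : ℕ} (hD : ∀ E, D ∣ m E) (e : Option (II U)) : D ∣ yn m e := by
  cases e with
  | none => exact dvd_zero _
  | some E => exact hD E

/-- the exponents are divisible by `N l` -/
lemma lx_dvd {c : Ch T.m} (hc : T.Valid c) : T.N * lx T c ∣ KiD_121.Dv T := by
  unfold KiD_121.Dv
  refine Nat.mul_dvd_mul_left _ ?_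
  cases c with
  | edge i k k' =>
    refine Nat.mul_dvd_mul_left _ ?_
    have hk : k < k' := hc.2.2.1
    refine Nat.dvd_factorial (by omega) ?_
    have h1 : k' ≤ T.top i := (T.lev i).le_max' k' hc.2.1
    have h2 : T.top i ≤ Finset.univ.sup T.top := Finset.le_sup (f := T.top) (Finset.mem_univ i)
    omega
  | leg i => exact dvd_mul_right _ _
  | vert i k w => exact one_dvd _

lemma z1_dvd (L : Lab U S) {m : II U → ℕ} (hD : ∀ E, KiD_121.Dv T ∣ m E) {c : Ch T.m}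
    (hc : T.Valid c) (j : Fin T.d) : ∃ z : ℤ, z1 L m c j = z * T.N * lx T c := by
  classical
  have h1 : ((T.N * lx T c : ℕ) : ℤ) ∣ z1 L m c j := by
    unfold z1
    split_ifs
    · refine dvd_sub ?_ ?_
      · exact Int.natCast_dvd_natCast.2 ((lx_dvd hc).trans (yn_dvd hD _))
      · exact Int.natCast_dvd_natCast.2 ((lx_dvd hc).trans (yn_dvd hD _))
    · exact dvd_zero _
  obtain ⟨z, hz⟩ := h1
  exact ⟨z, by rw [hz]; push_cast; ring⟩

lemma z2_dvd (L : Lab U S) {m : II U → ℕ} (hD : ∀ E, KiD_121.Dv T ∣ m E) {c : Ch T.m}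
    (hc : T.Valid c) (j : Fin T.d) : ∃ z : ℤ, z2 L m c j = z * T.N * lx T c := by
  have h1 : ((T.N * lx T c : ℕ) : ℤ) ∣ z2 L m c j := by
    unfold z2
    refine dvd_sub ?_ ?_
    · exact Int.natCast_dvd_natCast.2 ((lx_dvd hc).trans (yn_dvd hD _))
    · exact Int.natCast_dvd_natCast.2 ((lx_dvd hc).trans (yn_dvd hD _))
  obtain ⟨z, hz⟩ := h1
  exact ⟨z, by rw [hz]; push_cast; ring⟩

/-- the order of the stabiliser divides `N` -/
lemma card_dvd (hG : GalPt T) (E : II U) : (Fintype.card (GE hG E) : ℤ) ∣ T.N := by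
  have h1 : Fintype.card (GE hG E) ∣ Fintype.card (Ru T) := by
    have := Subgroup.card_subgroup_dvd_card (GE hG E)
    rwa [Nat.card_eq_fintype_card, Nat.card_eq_fintype_card] at this
  have h2 : Fintype.card (Ru T) = T.N := by
    rw [← Nat.card_eq_fintype_card]
    exact Complex.card_rootsOfUnity T.N
  rw [h2] at h1
  exact_mod_cast h1

end Crest.Agent.R257.Exf_843
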