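import Crest.Agent.R257.OrdB_578

/-!
# Row 257, part C, `OrdStmt` (helper578), part C: special points and charts; the branches as `Raw`

`SC v c₀ c`     : the chart `c` ends at the special point `c₀` of `v`; `exists_SC`, `SC.unique`;
`raw1`, `raw2`  : the `Raw` data of the branches.
`dg_Mx`         : the Laplacian as a sum over the sheets of the edges.
-/

set_option autoImplicit false
set_option linter.unusedSectionVars false

open Polynomial Set Filter Topology Metric
open Crest.AlgGeometry.Germ Crest.Agent.R257.AJ387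

noncomputable section

namespace Crest.Agent.R257.OrdA_578

open Crest.Agent.R257.T387 Crest.Agent.R257.OrdL_578 Crest.Agent.R257.Deg_578
open Crest.Agent.R257.OrdT_578 Crest.Agent.R257.BP_258 Crest.Agent.R257.Br_578
open Crest.Agent.R257.Gr1_157
open Crest.Agent.R257.Frm_547 (Z2 Sh1 Step Cmp cl fib Att LocBr Eqv)

variable {f : (Fin 3 → ℂ) → ℂ} {T : TB f} {U : Tub T} {S : Sh T}

/-- the index of the centre of a chart -/
def cen {m : ℕ} : Ch m → Fin m
  | .edge i _ _ => i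
  | .leg i => i
  | .vert i _ _ => i

variable (S) in
/-- the chart `c` (edge or leg) ends at the special point `c₀` of `v` -/
structure SC (v : Vtx) (c₀ : ℂ) (c : Ch T.m) : Prop where
  ok : Ok S c
  v1 : v1 T c = some v
  nv : ¬ IsV c
  co : co T (cen c) v.1 = c₀

/-! ### levels -/

theorem cons_left {i : Fin T.m} {k k₁ k' : ℕ} (h : T.Cons i k k') (h' : T.Cons i k₁ k') : k = k₁ := by
  obtain ⟨a1, a2, a3, a4⟩ := h
  obtain ⟨b1, b2, b3, b4⟩ := h'
  rcases lt_trichotomy k k₁ with h | h | h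
  · have hk1 : k₁ ∈ T.lev i := b1.resolve_left (by omega)
    rcases a4 _ hk1 with h1 | h1 <;> omega
  · exact h
  · have hk1 : k ∈ T.lev i := a1.resolve_left (by omega)
    rcases b4 _ hk1 with h1 | h1 <;> omega

theorem exists_next {i : Fin T.m} {k : ℕ} (hk : k ∈ T.lev i) (h : T.top i ≠ k) :
    ∃ k', T.Cons i k k' := by
  have hlt : k < T.top i := lt_of_le_of_ne (Finset.le_max' _ _ hk) (Ne.symm h)
  have hne : ((T.lev i).filter fun l => k < l).Nonempty :=
    ⟨T.top i, Finset.mem_filter.2 ⟨T.top_mem i, hlt⟩⟩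
  refine ⟨((T.lev i).filter fun l => k < l).min' hne, Or.inr hk, ?_, ?_, ?_⟩
  · exact (Finset.mem_filter.1 (Finset.min'_mem _ hne)).1
  · exact (Finset.mem_filter.1 (Finset.min'_mem _ hne)).2
  · intro l hl
    rcases le_or_gt l k with h1 | h1
    · exact Or.inl h1
    · exact Or.inr (Finset.min'_le _ _ (Finset.mem_filter.2 ⟨hl, h1⟩))

theorem cons_eqv {i j : Fin T.m} {k k' : ℕ} (h : T.Cons i k k') (he : Eqv T k' i j) :
    T.Cons j k k' := by
  obtain ⟨a1, a2, a3, a4⟩ := h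
  refine ⟨?_, Frm_547.lev_of_eqv T he a2, a3, ?_⟩
  · rcases a1 with h | h
    · exact Or.inl h
    · exact Or.inr (Frm_547.lev_of_eqv T (he.mono a3.le) h)
  · intro l hl
    by_cases hlk : k' ≤ l
    · exact Or.inr hlk
    · exact a4 l (Frm_547.lev_of_eqv T ((he.mono (by omega : l ≤ k')).symm) hl)

/-- equality of one more Taylor coefficient -/
theorem eqv_succ {i j : Fin T.m} {k : ℕ} (h1 : tr T i k = tr T j k) (h2 : co T i k = co T j k) :
    Eqv T (k + 1) i j := by
  rw [← Vx_331.tr_eq_iff]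
  unfold tr at h1 ⊢
  rw [Finset.sum_range_succ, Finset.sum_range_succ, h1, h2]

theorem co_of_eqv {i j : Fin T.m} {k k' : ℕ} (h : Eqv T k' i j) (hk : k < k') :
    co T i k = co T j k := by
  rw [← Vx_331.tr_eq_iff] at h
  rw [← Vx_331.coeff_tr T hk, ← Vx_331.coeff_tr T hk, h]

theorem del_lev {i j : Fin T.m} (h : i ≠ j) : T.del i j ∈ T.lev i := by
  classical
  unfold TB.lev
  exact Finset.mem_insert_of_mem (Finset.mem_image.2 ⟨j, Finset.mem_erase.2 ⟨Ne.symm h, Finset.mem_univ _⟩, rfl⟩)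

theorem eqv_succ_top {i j : Fin T.m} {k : ℕ} (h : Eqv T (k + 1) i j) (hi : T.top i = k) : i = j := by
  by_contra hne
  have h1 := h.resolve_left hne
  have h2 : T.del i j ≤ T.top i := Finset.le_max' _ _ (del_lev hne)
  omega

/-- every special point is the end of a chart -/
theorem exists_SC (S : Sh T) {v : Vtx} {c₀ : ℂ} (hc₀ : c₀ ∈ sp T v) (hv : v ∈ Vs T) :
    ∃ c, SC S v c₀ c := by
  obtain ⟨l, hl, hco⟩ := (Vx_331.mem_sp_iff T).1 hc₀
  have hvx : vx T l v.1 = v := Prod.ext rfl hl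
  have hkl : v.1 ∈ T.lev l := by
    have h1 := Vx_331.ci_vx S hv
    rw [← hvx] at h1
    have h2 : Eqv T v.1 (S.ci (vx T l v.1)) l := (Vx_331.vx_eq_iff T _ _ _).1 (by
      rw [← hvx] at hv ⊢
      exact h1)
    have h3 := Vx_331.ci_lev S hv
    rw [hvx] at h2
    exact Frm_547.lev_of_eqv T h2 h3
  by_cases htop : T.top l = v.1
  · refine ⟨.leg l, ⟨trivial, trivial⟩, ?_, fun h => h, hco.symm⟩
    show some (vx T l (T.top l)) = some v
    rw [htop, hvx]
  · obtain ⟨k', hk'⟩ := exists_next hkl htop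
    have hε : vx T l k' ∈ Vs T := (Vx_331.mem_Vs T).2 ⟨l, k', hk'.2.1, rfl⟩
    have he : Eqv T k' l (S.ci (vx T l k')) := Vx_331.ci_eqv S hk'.2.1
    have hkp : S.kp (vx T l k') = v.1 := cons_left (S.kp_cons _ hε) (cons_eqv hk' he)
    refine ⟨ec S (vx T l k'), ok_ec hε, ?_, fun h => h, ?_⟩
    · show (if S.kp (vx T l k') = 0 then none else some (vx T (S.ci (vx T l k')) (S.kp (vx T l k')))) = _
      rw [hkp, if_neg (T.lev_pos hkl).ne']
      rw [← (Vx_331.vx_eq_iff T l _ v.1).2 (he.mono hk'.2.2.1.le), hvx]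
    · show co T (S.ci (vx T l k')) v.1 = c₀
      rw [hco]
      exact (co_of_eqv he hk'.2.2.1).symm

theorem SC.tr {v : Vtx} {c₀ : ℂ} {c : Ch T.m} (h : SC S v c₀ c) : tr T (cen c) v.1 = v.2 := by
  rcases v1_cases h.ok h.v1 with ⟨l, k, k', rfl, h0, rfl, hcons⟩ | ⟨l, rfl, rfl⟩ |
    ⟨l, k, w, rfl, rfl, hk, hw⟩ <;> rfl

theorem SC.mem {v : Vtx} {c₀ : ℂ} {c : Ch T.m} (h : SC S v c₀ c) : c₀ ∈ sp T v :=
  (Vx_331.mem_sp_iff T).2 ⟨cen c, h.tr, h.co.symm⟩

theorem SC.eqv {v : Vtx} {c₀ : ℂ} {c c' : Ch T.m} (h : SC S v c₀ c) (h' : SC S v c₀ c') :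
    Eqv T (v.1 + 1) (cen c) (cen c') :=
  eqv_succ (h.tr.trans h'.tr.symm) (h.co.trans h'.co.symm)

theorem SC.cases {v : Vtx} {c₀ : ℂ} {c : Ch T.m} (h : SC S v c₀ c) :
    (∃ ε ∈ Vs T, c = ec S ε ∧ T.Cons (cen c) v.1 ε.1) ∨ (c = .leg (cen c) ∧ T.top (cen c) = v.1) := by
  rcases v1_cases h.ok h.v1 with ⟨l, k, k', rfl, h0, rfl, hcons⟩ | ⟨l, rfl, rfl⟩ |
    ⟨l, k, w, rfl, rfl, hk, hw⟩
  · left
    obtain ⟨u, hu, rfl, rfl, rfl⟩ := h.ok.2
    exact ⟨u, hu, rfl, hcons⟩
  · right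
    exact ⟨rfl, rfl⟩
  · exact absurd trivial h.nv

/-- the chart at a special point is unique -/
theorem SC.unique {v : Vtx} {c₀ : ℂ} {c c' : Ch T.m} (h : SC S v c₀ c) (h' : SC S v c₀ c') :
    c = c' := by
  have he := h.eqv h'
  rcases h.cases with ⟨ε, hε, hc, hcons⟩ | ⟨hc, htop⟩ <;>
  rcases h'.cases with ⟨ε', hε', hc', hcons'⟩ | ⟨hc', htop'⟩
  · -- two edges
    have key : ∀ {l l' : Fin T.m} {k k₁ k₂ : ℕ}, Eqv T (k + 1) l l' → T.Cons l k k₁ →
        T.Cons l' k k₂ → Eqv T k₁ l l' ∧ k₂ ≤ k₁ := by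
      intro l l' k k₁ k₂ he h1 h2
      have he1 : Eqv T k₁ l l' := by
        rcases he with he | he
        · exact Or.inl he
        · by_cases hll : l = l'
          · exact Or.inl hll
          · right
            rcases h1.2.2.2 _ (del_lev hll) with h3 | h3
            · omega
            · exact h3
      refine ⟨he1, ?_⟩
      rcases h2.2.2.2 _ (Frm_547.lev_of_eqv T he1 h1.2.1) with h3 | h3
      · have := h1.2.2.1
        omega
      · exact h3
    obtain ⟨e1, e2⟩ := key he hcons hcons'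
    obtain ⟨e3, e4⟩ := key he.symm hcons' hcons
    have e5 : ε.1 = ε'.1 := le_antisymm e4 e2
    have hε1 : vx T (cen c) ε.1 = ε := by
      have h1 : cen c = S.ci ε := by rw [hc]; rfl
      rw [h1]
      exact Vx_331.ci_vx S hε
    have hε2 : vx T (cen c') ε'.1 = ε' := by
      have h1 : cen c' = S.ci ε' := by rw [hc']; rfl
      rw [h1]
      exact Vx_331.ci_vx S hε'
    have e6 : ε = ε' := by
      rw [← hε1, ← hε2, ← e5]
      exact (Vx_331.vx_eq_iff T _ _ _).2 e1
    rw [hc, hc', e6]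
  · -- edge, leg
    exfalso
    have h1 := eqv_succ_top he.symm htop'
    rw [← h1] at hcons
    have h2 : ε.1 ≤ T.top (cen c') := Finset.le_max' _ _ hcons.2.1
    have := hcons.2.2.1
    omega
  · exfalso
    have h1 := eqv_succ_top he htop
    rw [← h1] at hcons'
    have h2 : ε'.1 ≤ T.top (cen c) := Finset.le_max' _ _ hcons'.2.1
    have := hcons'.2.2.1
    omega
  · have h1 := eqv_succ_top he htop
    rw [hc, hc', h1]

/-! ### the sum over the special points -/

open Classical in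
theorem sum_sp {v : Vtx} (hv : v ∈ Vs T) {ch : ℂ → Ch T.m}
    (hch : ∀ c₀ ∈ T.Sp (S.ci v) v.1, SC S v c₀ (ch c₀)) (F : Ch T.m → ℝ)
    (hleg : ∀ l, F (.leg l) = 0) : ∑ c₀ ∈ T.Sp (S.ci v) v.1, F (ch c₀) =
      ∑ ε ∈ Vs T, if v1 T (ec S ε) = some v then F (ec S ε) else 0 := by
  rw [← Finset.sum_filter]
  have hSC : ∀ ε ∈ (Vs T).filter (fun ε => v1 T (ec S ε) = some v),
      SC S v (co T (S.ci ε) v.1) (ec S ε) := by
    intro ε hε
    obtain ⟨h1, h2⟩ := Finset.mem_filter.1 hε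
    exact ⟨ok_ec h1, h2, fun h => h, rfl⟩
  have hinj : Set.InjOn (fun ε : Vtx => co T (S.ci ε) v.1)
      ((Vs T).filter (fun ε => v1 T (ec S ε) = some v) : Finset Vtx) := by
    intro ε hε ε' hε' hee
    have h1 := hSC ε hε
    have h2 := hSC ε' hε'
    simp only at hee
    rw [hee] at h1
    have h3 := h1.unique h2
    have m1 := (Finset.mem_filter.1 hε).1
    have m2 := (Finset.mem_filter.1 hε').1
    rw [← Vx_331.ci_vx S m1, ← Vx_331.ci_vx S m2]
    injection h3 with a1 a2 a3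
    rw [a1, a3]
  have hmem : ∀ ε ∈ (Vs T).filter (fun ε => v1 T (ec S ε) = some v),
      co T (S.ci ε) v.1 ∈ T.Sp (S.ci v) v.1 := fun ε hε =>
    (Vx_331.ci_mem_sp S hv).1 (hSC ε hε).mem
  have e1 : ∑ ε ∈ (Vs T).filter (fun ε => v1 T (ec S ε) = some v), F (ec S ε) =
      ∑ c₀ ∈ ((Vs T).filter (fun ε => v1 T (ec S ε) = some v)).image
        (fun ε : Vtx => co T (S.ci ε) v.1), F (ch c₀) := by
    rw [Finset.sum_image hinj]
    refine Finset.sum_congr rfl fun ε hε => ?_
    rw [(hch _ (hmem ε hε)).unique (hSC ε hε)]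
  rw [e1]
  symm
  refine Finset.sum_subset ?_ ?_
  · intro c₀ hc₀
    obtain ⟨ε, hε, rfl⟩ := Finset.mem_image.1 hc₀
    exact hmem ε hε
  · intro c₀ hc₀ hn
    have h1 := hch c₀ hc₀
    rcases h1.cases with ⟨ε, hε, hc, hcons⟩ | ⟨hc, htop⟩
    · exfalso
      refine hn (Finset.mem_image.2 ⟨ε, Finset.mem_filter.2 ⟨hε, ?_⟩, ?_⟩)
      · rw [← hc]
        exact h1.v1
      · have h2 := h1.co
        rw [hc] at h2
        exact h2
    · rw [hc]
      exact hleg _

/-! ### the Laplacian -/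

variable (L : Lab U S)

open Classical in
theorem sum_yo [Fintype (II U)] (x : II U → ℝ) (o : Option (II U)) :
    ∑ E', (if o = some E' then (1 : ℝ) else 0) * x E' = yo x o := by
  cases o with
  | none => simp [yo]
  | some a =>
    simp only [Option.some.injEq, ite_mul, one_mul, zero_mul, Finset.sum_ite_eq, Finset.mem_univ,
      if_true]
    rfl

open Classical in
theorem dg_Mx [Fintype (II U)] (x : II U → ℝ) (E : II U) : dg (Mx L) x E =
    ∑ v ∈ Vs T, ∑ j, cd S v * ((if L.e1 (ec S v) j = some E then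
      yo x (L.e2 (ec S v) j) - x E else 0) +
      (if L.e2 (ec S v) j = some E then yo x (L.e1 (ec S v) j) - x E else 0)) := by
  have key : ∀ (P : Prop) [Decidable P] (o : Option (II U)),
      ∑ E', (if P then ((if o = some E' then (1 : ℝ) else 0) - (if E = E' then 1 else 0)) else 0) *
        x E' = if P then yo x o - x E else 0 := by
    intro P _ o
    by_cases hP : P
    · simp only [hP, if_true, sub_mul, Finset.sum_sub_distrib]
      rw [sum_yo]
      simp
    · simp [hP]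
  unfold dg Mx
  simp only [Finset.sum_mul]
  rw [Finset.sum_comm]
  refine Finset.sum_congr rfl fun v _ => ?_
  rw [Finset.sum_comm]
  refine Finset.sum_congr rfl fun j _ => ?_
  simp only [mul_assoc, ← Finset.mul_sum, add_mul, Finset.sum_add_distrib]
  congr 2
  · convert key (L.e1 (ec S v) j = some E) (L.e2 (ec S v) j) using 1
  · convert key (L.e2 (ec S v) j = some E) (L.e1 (ec S v) j) using 1

end Crest.Agent.R257.OrdA_578
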