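import Crest.Agent.R257.Exf1_843
import Crest.Agent.R257.HvS_636
import Crest.Agent.R257.OrdC_578
import Crest.Agent.R257.EndB_636

/-!
# Row 257, ExN (helper843), file 2: the invariant zero free function on a null component

* `exists_att` : charts at the special points; `extX` : extension by `0` off a component;
* `exf_N`      : the function, from `RSNStmt`.
-/

set_option autoImplicit false
set_option linter.unusedSectionVars false

open Polynomial Set Filter Topology Metric
open Crest.AlgGeometry.Germ Crest.Agent.R257.AJ387 Crest.Agent.R257.T387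
open Crest.Agent.R257.Gr1_157 Crest.Agent.R257.HoB_843 Crest.Agent.R257.BP_258
open Crest.Agent.R257.Wt_258 Crest.Agent.R257.Cpt1_419 Crest.Agent.R257.Hv_174
open Crest.Agent.R257.Rsn_843 Crest.Agent.R257.Tb3_941 Crest.Agent.R257.Rot1_558
open Crest.Agent.R257.Vt1_558 Crest.Agent.R257.Vt4_558

noncomputable section

namespace Crest.Agent.R257.Exf_843

variable {f : (Fin 3 → ℂ) → ℂ} {T : TB f} {S : Sh T} {U : Tub T}

/-- the chart at a special point -/
lemma exists_att (S : Sh T) {v : Vtx} (hv : v ∈ Vs T) {c₀ : ℂ} (hc₀ : c₀ ∈ sp T v) :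
    ∃ c, Ok S c ∧ ¬ IsV c ∧ v1 T c = some v ∧ cx T c = c₀ := by
  obtain ⟨c, hc⟩ := OrdA_578.exists_SC S hc₀ hv
  refine ⟨c, hc.ok, hc.nv, hc.v1, ?_⟩
  have h1 := hc.v1
  have h2 := hc.co
  cases c with
  | edge i k k' =>
    simp only [v1] at h1
    split_ifs at h1 with hk
    have h3 : k = v.1 := congrArg Prod.fst (Option.some.inj h1)
    show co T i k = c₀
    rw [h3]; exact h2
  | leg i =>
    have h3 : T.top i = v.1 := congrArg Prod.fst (Option.some.inj h1)
    show co T i (T.top i) = c₀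
    rw [h3]; exact h2
  | vert i k w => exact absurd trivial hc.nv

/-! ### extension by `0` -/

/-- a point of the component -/
def mkX {E : II U} (q : XV U E.1.1) (h : (q : ConnectedComponents (XV U E.1.1)) = E.2) : XE E :=
  ⟨q, h⟩

lemma mkX_val {E : II U} {q : XV U E.1.1} (h : (q : ConnectedComponents (XV U E.1.1)) = E.2) :
    (mkX q h).1 = q := rfl

/-- the inclusion of the component -/
def vaX {E : II U} (x : XE E) : XV U E.1.1 := x.1

lemma ind_vaX (E : II U) : IsInducing (vaX : XE E → XV U E.1.1) := ⟨rfl⟩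

lemma vaX_comp {E : II U} (x : XE E) :
    (vaX x : ConnectedComponents (XV U E.1.1)) = E.2 := x.2

lemma XE_ext {E : II U} {x y : XE E} (h : vaX x = vaX y) : x = y := Subtype.ext h

open Classical in
/-- extension by `0` off the component -/
def extX {E : II U} (g : XE E → ℂ) (q : XV U E.1.1) : ℂ :=
  if h : (q : ConnectedComponents (XV U E.1.1)) = E.2 then g (mkX q h) else 0

lemma extX_of {E : II U} (g : XE E → ℂ) {q : XV U E.1.1}
    (h : (q : ConnectedComponents (XV U E.1.1)) = E.2) : extX g q = g (mkX q h) := dif_pos h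

lemma extX_va {E : II U} (g : XE E → ℂ) (x : XE E) : extX g (vaX x) = g x := extX_of g x.2

lemma extX_not {E : II U} (g : XE E → ℂ) {q : XV U E.1.1}
    (h : (q : ConnectedComponents (XV U E.1.1)) ≠ E.2) : extX g q = 0 := dif_neg h

lemma comp_sec {E : II U} {w₀ : ℂ} {ρ : ℝ} {σ : ℂ → XV U E.1.1} (hρ : 0 < ρ)
    (hσ : ContinuousOn σ (ball w₀ ρ)) {w : ℂ} (hw : w ∈ ball w₀ ρ) :
    (σ w : ConnectedComponents (XV U E.1.1)) = (σ w₀ : ConnectedComponents (XV U E.1.1)) := by
  have h1 : IsPreconnected (σ '' ball w₀ ρ) := (convex_ball w₀ ρ).isPreconnected.image σ hσ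
  have h2 := h1.subset_connectedComponent (mem_image_of_mem σ (mem_ball_self hρ))
    (mem_image_of_mem σ hw)
  rw [ConnectedComponents.coe_eq_coe']
  exact h2

lemma holX_ext {E : II U} {g : XE E → ℂ} (hg : HolX (fun x => ((covE E).p x).1) g) :
    HolX (pV U E.1.1) (extX g) := by
  classical
  intro w₀ ρ σ hρ hσ hpr
  by_cases h0 : (σ w₀ : ConnectedComponents (XV U E.1.1)) = E.2
  · have hb : ∀ w ∈ ball w₀ ρ, (σ w : ConnectedComponents (XV U E.1.1)) = E.2 := fun w hw =>
      (comp_sec hρ hσ hw).trans h0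
    set σ' : ℂ → XE E := fun w =>
      if h : (σ w : ConnectedComponents (XV U E.1.1)) = E.2 then mkX (σ w) h else mkX (σ w₀) h0
      with hσ'
    have e1 : ∀ w ∈ ball w₀ ρ, vaX (σ' w) = σ w := fun w hw => by
      simp only [hσ']
      rw [dif_pos (hb w hw)]
      rfl
    have hc : ContinuousOn σ' (ball w₀ ρ) := by
      rw [(ind_vaX E).continuousOn_iff]
      exact hσ.congr fun w hw => e1 w hw
    have h2 := hg w₀ ρ σ' hρ hc (fun w hw => by
      show pV U E.1.1 (vaX (σ' w)) = w
      rw [e1 w hw]; exact hpr w hw)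
    refine h2.congr ?_
    filter_upwards [ball_mem_nhds w₀ hρ] with w hw
    show g (σ' w) = extX g (σ w)
    rw [extX_of g (hb w hw)]
    congr 1
    exact XE_ext (e1 w hw)
  · have h1 : (fun _ : ℂ => (0 : ℂ)) =ᶠ[𝓝 w₀] extX g ∘ σ := by
      filter_upwards [ball_mem_nhds w₀ hρ] with w hw
      show 0 = extX g (σ w)
      rw [extX_not]
      rw [comp_sec hρ hσ hw]
      exact h0
    exact analyticAt_const.congr h1

/-- the fibres have at most `d` points -/
lemma fib_card (E : II U) (w : {w : ℂ // w ∉ ((sp T E.1.1 : Finset ℂ) : Set ℂ)}) :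
    ((covE E).p ⁻¹' {w}).ncard ≤ T.d := by
  classical
  obtain ⟨r, R, Z, h⟩ := Tb_941.exists_LS (U := U) E.1.2 w.2
  obtain ⟨q₀, hq₀⟩ := exists_comp E
  set g : Fin T.d → XE E := fun j =>
    if hj : (h.sg E.1.2 j w.1 : ConnectedComponents (XV U E.1.1)) = E.2
      then mkX (h.sg E.1.2 j w.1) hj else mkX q₀ hq₀ with hg
  have h1 : (covE E).p ⁻¹' {w} ⊆ g '' Set.univ := by
    intro x hx
    have hx1 : pV U E.1.1 (vaX x) = w.1 := congrArg Subtype.val (show (covE E).p x = w from hx)
    obtain ⟨j, hj⟩ := h.sg_surj E.1.2 (vaX x) (by rw [hx1]; exact mem_ball_self h.r_pos)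
    rw [hx1] at hj
    refine ⟨j, Set.mem_univ _, ?_⟩
    have h3 : (h.sg E.1.2 j w.1 : ConnectedComponents (XV U E.1.1)) = E.2 := by
      rw [hj]; exact vaX_comp x
    simp only [hg]
    rw [dif_pos h3]
    exact XE_ext hj
  have h2 : (g '' Set.univ).ncard ≤ T.d := by
    have h3 := Set.ncard_image_le (f := g) (Set.toFinite (Set.univ))
    rwa [Set.ncard_univ, Nat.card_eq_fintype_card, Fintype.card_fin] at h3
  exact (Set.ncard_le_ncard h1 (Set.toFinite _)).trans h2

end Crest.Agent.R257.Exf_843
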