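import Crest.Agent.R257.Exf2_843

/-!
# Row 257, ExN (helper843), file 3: `exf_N`, the invariant zero free function on a null component
-/

set_option autoImplicit false
set_option linter.unusedSectionVars false

open Polynomial Set Filter Topology Metric
open Crest.AlgGeometry.Germ Crest.Agent.R257.AJ387 Crest.Agent.R257.T387
open Crest.Agent.R257.Gr1_157 Crest.Agent.R257.HoB_843 Crest.Agent.R257.BP_258
open Crest.Agent.R257.Wt_258 Crest.Agent.R257.Cpt1_419 Crest.Agent.R257.Hv_174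
open Crest.Agent.R257.Rsn_843 Crest.Agent.R257.Tb3_941 Crest.Agent.R257.Rot1_558
open Crest.Agent.R257.Vt1_558 Crest.Agent.R257.Vt4_558

noncomputable section

namespace Crest.Agent.R257.Exf_843

variable {f : (Fin 3 → ℂ) → ℂ} {T : TB f} {S : Sh T} {U : Tub T}

/-- fibre sums of integral functions on the component -/
lemma cast_sum {E : II U} (mu : XE E → ℤ) (lam : XV U E.1.1 → ℝ) (w₀ : ℂ)
    (h : ∀ x : XE E, pV U E.1.1 (vaX x) = w₀ → (mu x : ℝ) = lam (vaX x)) :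
    ((∑ᶠ x ∈ {x : XE E | ((covE E).p x).1 = w₀}, mu x : ℤ) : ℝ) =
      ∑ᶠ x ∈ {x : XV U E.1.1 | pV U E.1.1 x = w₀ ∧
        (x : ConnectedComponents (XV U E.1.1)) = E.2}, lam x := by
  have hfin : {x : XE E | ((covE E).p x).1 = w₀}.Finite := by
    by_cases hw : w₀ ∈ ((sp T E.1.1 : Finset ℂ) : Set ℂ)
    · have : {x : XE E | ((covE E).p x).1 = w₀} = ∅ := by
        ext x
        simp only [Set.mem_ofPred_eq, Set.mem_empty_iff_false, iff_false]
        intro hx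
        exact ((covE E).p x).2 (by rw [hx]; exact hw)
      rw [this]; exact Set.finite_empty
    · refine ((covE E).fin ⟨w₀, hw⟩).subset fun x hx => ?_
      exact Subtype.ext hx
  have h1 := AddMonoidHom.map_finsum_mem' (s := {x : XE E | ((covE E).p x).1 = w₀})
    (f := mu) (g := Int.castAddHom ℝ) (hfin.inter_of_left _)
  have h2 : {x : XV U E.1.1 | pV U E.1.1 x = w₀ ∧
      (x : ConnectedComponents (XV U E.1.1)) = E.2} = vaX '' {x : XE E | ((covE E).p x).1 = w₀} := by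
    ext x
    constructor
    · rintro ⟨h3, h4⟩
      exact ⟨mkX x h4, h3, rfl⟩
    · rintro ⟨y, h3, rfl⟩
      exact ⟨h3, vaX_comp y⟩
  rw [h2, finsum_mem_image (fun a _ b _ hab => XE_ext hab)]
  have h3 : ((∑ᶠ x ∈ {x : XE E | ((covE E).p x).1 = w₀}, mu x : ℤ) : ℝ) =
      ∑ᶠ x ∈ {x : XE E | ((covE E).p x).1 = w₀}, ((mu x : ℤ) : ℝ) := h1
  rw [h3]
  exact finsum_mem_congr rfl fun x hx => h x hx

lemma rm_pow_norm {ξ : ℂ} (hξ : ξ ^ T.N = 1) (c : Ch T.m) (b : ℂ) :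
    ‖(rm T ξ c).2 * b‖ = ‖b‖ := by rw [norm_mul, (rm_norm hξ c).2, one_mul]

lemma rm_pow_norm1 {ξ : ℂ} (hξ : ξ ^ T.N = 1) (c : Ch T.m) (b : ℂ) :
    ‖(rm T ξ c).1 * b‖ = ‖b‖ := by rw [norm_mul, (rm_norm hξ c).1, one_mul]

lemma lx_rc (ξ : ℂ) (c : Ch T.m) : lx T (rc T ξ c) = lx T c := by
  cases c <;> rfl

/-- the exponents are invariant -/
lemma z1_rc {hG : GalPt T} {L : Lab U S} {m : II U → ℕ}
    (hm : ∀ (γ : Ru T) (E : II U), m (piH hG γ E) = m E) (γ : Ru T) {c : Ch T.m} (hc : Ok S c)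
    {j j' : Fin T.d} (hjj : ∀ p : ℂ × ℂ, ‖p.1‖ < 2 * min (S.r c) (S.r (rc T (vl γ) c)) →
      ‖p.2‖ < 2 * min (S.r c) (S.r (rc T (vl γ) c)) →
      rot (vl γ) (wc S c j p) = wc S (rc T (vl γ) c) j' (rp T (vl γ) c p)) :
    z1 L m (rc T (vl γ) c) j' = z1 L m c j ∧ z2 L m (rc T (vl γ) c) j' = z2 L m c j := by
  classical
  have h1 := lab1 hG (Tb_941.retStmt U) (vl_pow γ) L hc hjj
  have h2 := lab2 hG (Tb_941.retStmt U) (vl_pow γ) L hc hjj
  have key : ∀ e : Option (II U),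
      yn m (e.map (Vt3_558.pi hG (Tb_941.retStmt U) (vl_pow γ))) = yn m e := by
    intro e
    cases e with
    | none => rfl
    | some E => exact hm γ E
  have hE : IsE (rc T (vl γ) c) ↔ IsE c := isE_rc _ c
  unfold z1 z2
  rw [h1, h2, key, key]
  refine ⟨?_, rfl⟩
  by_cases h : IsE c
  · rw [if_pos h, if_pos (hE.2 h)]
  · rw [if_neg h, if_neg fun h' => h (hE.1 h')]

/-- small radii -/
lemma ev_small {x : ℝ} (hx : 0 < x) : ∀ᶠ r in 𝓝[>] (0 : ℝ), r < x :=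
  nhdsWithin_le_nhds (gt_mem_nhds hx)

/-- separated radii -/
lemma ev_sep (A : Finset ℂ) : ∀ᶠ r in 𝓝[>] (0 : ℝ), Wt_258.Sep A r := by
  have hinv : Tendsto (fun r : ℝ => r⁻¹) (𝓝[>] 0) atTop := tendsto_inv_nhdsGT_zero
  have h : ∀ᶠ r in 𝓝[>] (0 : ℝ), 0 < r ∧ (∀ c ∈ A, ∀ c' ∈ A, c ≠ c' → 2 * r ≤ ‖c - c'‖) ∧
      (∀ c ∈ A, ‖c‖ + 2 * r ≤ r⁻¹) := by
    refine Eventually.and self_mem_nhdsWithin (Eventually.and ?_ ?_)
    · rw [Finset.eventually_all]
      intro c hc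
      rw [Finset.eventually_all]
      intro c' hc'
      by_cases h : c = c'
      · exact Eventually.of_forall fun r h' => absurd h h'
      · have h1 : 0 < ‖c - c'‖ := norm_pos_iff.2 (sub_ne_zero.2 h)
        filter_upwards [ev_small (x := ‖c - c'‖ / 2) (by linarith)] with r hr _
        linarith
    · rw [Finset.eventually_all]
      intro c hc
      filter_upwards [ev_small (x := 1 / 2) (by norm_num), hinv.eventually_ge_atTop (‖c‖ + 1)]
        with r h1 h2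
      linarith
  exact h.mono fun r hr => ⟨hr.1, hr.2.1, hr.2.2⟩

/-- the local data of the exponents on a component -/
structure LamD (L : Lab U S) (m : II U → ℕ) (v : Vtx) (r : ℝ) (lam : XV U v → ℝ) : Prop where
  sep : Wt_258.Sep (sp T v) r
  lt1 : r < 1
  rad : ∀ c ∈ NC S, ∀ c' ∈ NC S, r < (S.r c') ^ (lx T c)
  loc : ∀ x, ((∃ c ∈ sp T v, ‖pV U v x - c‖ < r) ∨ r⁻¹ < ‖pV U v x‖) →
    ∀ᶠ x' in 𝓝 x, lam x' = lam x
  e1 : ∀ c, Ok S c → ¬ IsV c → v1 T c = some v → ∀ γ, End1 U S c v γ → ∀ j, ∀ b : ℂ, 0 < ‖b‖ →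
    ‖b‖ ^ lx T c < r → lam (γ j b) * lx T c = z1 L m c j
  e2 : ∀ c, Ok S c → v2 T c = some v → ∀ γ, End2 U S c v γ → ∀ j, ∀ b : ℂ, 0 < ‖b‖ →
    ‖b‖ ^ lx T c < r → lam (γ j b) * lx T c = z2 L m c j
  zero : ∀ x, ¬ ((∃ c ∈ sp T v, ‖pV U v x - c‖ < r) ∨ r⁻¹ < ‖pV U v x‖) → lam x = 0
  deg : ∀ (hv : v ∈ Vs T) [Fintype (II U)] (E : ConnectedComponents (XV U v)),
    (∑ c ∈ sp T v, ∑ᶠ x ∈ {x : XV U v | pV U v x = c + (r / 2 : ℝ) ∧
      (x : ConnectedComponents (XV U v)) = E}, lam x) +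
    (∑ᶠ x ∈ {x : XV U v | pV U v x = ((2 * r⁻¹ : ℝ) : ℂ) ∧
      (x : ConnectedComponents (XV U v)) = E}, lam x) = dg (Mx L) (fun E => (m E : ℝ)) ⟨⟨v, hv⟩, E⟩

variable (S) in
/-- no kills, final form -/
def empD : DKill S (∅ : Finset (Ch T.m)) where
  κ := ∅
  t := fun _ => 0
  a := fun _ => 0
  b := fun _ => 0
  t_pos := fun _ h => absurd h (Set.notMem_empty _)
  ab_pos := fun _ h => absurd h (Set.notMem_empty _)
  mem := fun _ h => absurd h (Set.notMem_empty _)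
  ex := ⟨1, one_pos, fun _ h => absurd h (Set.notMem_empty _)⟩

lemma d1_empD (L : Lab U S) (y : II U → ℝ) (c : Ch T.m) (j : Fin T.d) :
    d1 L y (empD S) c j = s1 L y (emp S) c j := by
  classical
  unfold d1 s1
  have h1 : dk1 (empD S) c j = 0 := by
    unfold dk1
    exact if_neg (Set.notMem_empty _)
  rw [h1, tk_emp]

lemma d2_empD (L : Lab U S) (y : II U → ℝ) (c : Ch T.m) (j : Fin T.d) :
    d2 L y (empD S) c j = s2 L y (emp S) c j := by
  classical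
  unfold d2 s2
  have h1 : dk2 (empD S) c j = 0 := by
    unfold dk2
    exact if_neg (Set.notMem_empty _)
  rw [h1, tk_emp]

/-- the exponents exist -/
theorem exists_lamD {L : Lab U S} (hW : LabWD L) (m : II U → ℕ) {v : Vtx} (hv : v ∈ Vs T) :
    ∃ r lam, LamD L m v r lam := by
  classical
  have hE : EndStmt L := End_636.endStmt L
  set y : II U → ℝ := fun E => (m E : ℝ) with hy
  have hP1 : ∀ c₀ : ℂ, ∃ (lam : XV U v → ℝ) (r₀ : ℝ), c₀ ∈ sp T v → 0 < r₀ ∧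
      (∀ x, ‖pV U v x - c₀‖ < r₀ → ∀ᶠ x' in 𝓝 x, lam x' = lam x) ∧
      (∀ c, Ok S c → ¬ IsV c → v1 T c = some v → cx T c = c₀ → ∀ γ, End1 U S c v γ → ∀ j,
        ∀ b : ℂ, 0 < ‖b‖ → ‖b‖ ^ lx T c < r₀ → ‖b‖ < 2 * S.r c →
        lam (γ j b) * lx T c = s1 L y (emp S) c j + 0) ∧
      (∀ w : ℂ, 0 < ‖w - c₀‖ → ‖w - c₀‖ < r₀ → ∀ E : ConnectedComponents (XV U v),
        ∑ᶠ x ∈ {x : XV U v | pV U v x = w ∧ (x : ConnectedComponents (XV U v)) = E}, lam x =
          ∑ c ∈ (NC S).filter (fun c => v1 T c = some v ∧ cx T c = c₀), ∑ j,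
            if L.e1 c j = some ⟨⟨v, hv⟩, E⟩ then (s1 L y (emp S) c j + 0) / lx T c
              else 0) := by
    intro c₀
    by_cases hc₀ : c₀ ∈ sp T v
    · obtain ⟨lam, r₀, q1, q2, q3, q4⟩ := P1 hE hW y (empD S) 0 hv hc₀
      refine ⟨lam, r₀, fun _ => ⟨q1, q2, fun c hc hn h1 h2 γ hγ j b e1 e2 e3 => ?_,
        fun w h1 h2 E => ?_⟩⟩
      · rw [q3 c hc hn h1 h2 γ hγ j b e1 e2 e3, d1_empD]
      · rw [q4 w h1 h2 E]
        simp only [d1_empD]
    · exact ⟨fun _ => 0, 0, fun h => absurd h hc₀⟩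
  choose lam₁ r₁ hP1 using hP1
  obtain ⟨lam₂, r₂, hr₂, a1, a2', a3'⟩ := P2 hE hW y (empD S) 0 hv
  have a2 : ∀ c, Ok S c → v2 T c = some v → ∀ γ, End2 U S c v γ → ∀ j,
      ∀ b : ℂ, 0 < ‖b‖ → ‖b‖ ^ lx T c < r₂ → ‖b‖ < 2 * S.r c →
      lam₂ (γ j b) * lx T c = s2 L y (emp S) c j + 0 := by
    intro c hc h1 γ hγ j b e1 e2 e3
    rw [a2' c hc h1 γ hγ j b e1 e2 e3, d2_empD]
  have a3 : ∀ w : ℂ, r₂⁻¹ < ‖w‖ → ∀ E : ConnectedComponents (XV U v),
      ∑ᶠ x ∈ {x : XV U v | pV U v x = w ∧ (x : ConnectedComponents (XV U v)) = E}, lam₂ x =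
        ∑ j, if L.e2 (ec S v) j = some ⟨⟨v, hv⟩, E⟩ then
          (s2 L y (emp S) (ec S v) j + 0) / lx T (ec S v) else 0 := by
    intro w hw E
    rw [a3' w hw E]
    simp only [d2_empD]
  have hr : ∀ᶠ r in 𝓝[>] (0 : ℝ), Wt_258.Sep (sp T v) r ∧ r < 1 ∧
      (∀ c ∈ NC S, ∀ c' ∈ NC S, r < (S.r c') ^ (lx T c)) ∧ (∀ c ∈ sp T v, r < r₁ c) ∧ r < r₂ := by
    refine (ev_sep _).and (Eventually.and (ev_small one_pos) (Eventually.and ?_
      (Eventually.and ?_ (ev_small hr₂))))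
    · rw [Finset.eventually_all]
      intro c hc
      rw [Finset.eventually_all]
      intro c' hc'
      exact ev_small (pow_pos (S.pos c') _)
    · rw [Finset.eventually_all]
      intro c hc
      exact ev_small (hP1 c hc).1
  obtain ⟨r, hs, hr1, hrad, hr3, hr4⟩ := hr.exists
  have hr0 := hs.pos
  have hri : 0 < r⁻¹ := inv_pos.2 hr0
  set lam : XV U v → ℝ := fun x => if h : ∃ c ∈ sp T v, ‖pV U v x - c‖ < r then
    lam₁ h.choose x else if r⁻¹ < ‖pV U v x‖ then lam₂ x else 0 with hlam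
  have G1 : ∀ c ∈ sp T v, ∀ x, ‖pV U v x - c‖ < r → lam x = lam₁ c x := by
    intro c hc x hx
    have hex : ∃ c ∈ sp T v, ‖pV U v x - c‖ < r := ⟨c, hc, hx⟩
    have h1 : lam x = lam₁ hex.choose x := by rw [hlam]; exact dif_pos hex
    obtain ⟨h2, h3⟩ := hex.choose_spec
    have h4 : hex.choose = c := by
      by_contra hne
      have h5 := hs.sep _ h2 c hc hne
      have h6 : ‖hex.choose - c‖ ≤ ‖pV U v x - hex.choose‖ + ‖pV U v x - c‖ := by
        have : hex.choose - c = -(pV U v x - hex.choose) + (pV U v x - c) := by ring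
        rw [this]
        exact (norm_add_le _ _).trans (by rw [norm_neg])
      linarith
    rw [h1, h4]
  have hno : ∀ x, r⁻¹ < ‖pV U v x‖ → ¬ ∃ c ∈ sp T v, ‖pV U v x - c‖ < r := by
    rintro x hx ⟨c, hc, hxc⟩
    have h1 := hs.inf c hc
    have h2 : ‖pV U v x‖ ≤ ‖pV U v x - c‖ + ‖c‖ := by
      have : pV U v x = (pV U v x - c) + c := by ring
      calc ‖pV U v x‖ = ‖(pV U v x - c) + c‖ := by rw [← this]
        _ ≤ _ := norm_add_le _ _
    linarith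
  have G2 : ∀ x, r⁻¹ < ‖pV U v x‖ → lam x = lam₂ x := by
    intro x hx
    rw [hlam]
    simp only
    rw [dif_neg (hno x hx), if_pos hx]
  have hcont := Tb_941.continuous_pV (U := U) v
  refine ⟨r, lam, hs, hr1, hrad, ?_, ?_, ?_, ?_, ?_⟩
  · rintro x (⟨c, hc, hx⟩ | hx)
    · have h1 : ∀ᶠ x' in 𝓝 x, ‖pV U v x' - c‖ < r :=
        (hcont.sub continuous_const).norm.continuousAt.eventually (gt_mem_nhds hx)
      filter_upwards [h1, (hP1 c hc).2.1 x (hx.trans (hr3 c hc))] with x' h2 h3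
      rw [G1 c hc x' h2, G1 c hc x hx, h3]
    · have h1 : ∀ᶠ x' in 𝓝 x, r⁻¹ < ‖pV U v x'‖ :=
        hcont.norm.continuousAt.eventually (lt_mem_nhds hx)
      filter_upwards [h1, a1 x (lt_trans ((inv_lt_inv₀ hr₂ hr0).2 hr4) hx)] with x' h2 h3
      rw [G2 x' h2, G2 x hx, h3]
  · intro c hc hn h1 γ hγ j b hb hbr
    have hcx := cx_mem hn h1
    have hbS : ‖b‖ < S.r c := by
      refine lt_of_pow_lt_pow_left₀ (lx T c) (S.pos c).le (hbr.trans ?_)
      exact hrad c (mem_NC.2 ⟨hc, hn⟩) c (mem_NC.2 ⟨hc, hn⟩)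
    have hb2 : ‖b‖ < 2 * S.r c := by linarith [S.pos c]
    have hbm : b ∈ PDv S c := ⟨Or.inr hb, hb2⟩
    have hpr := hγ.pr j b hbm
    have h2 : ‖pV U v (γ j b) - cx T c‖ < r := by
      rw [hpr, add_sub_cancel_left, norm_pow]; exact hbr
    rw [G1 _ hcx _ h2, (hP1 _ hcx).2.2.1 c hc hn h1 rfl γ hγ j b hb (hbr.trans (hr3 _ hcx)) hb2,
      add_zero, s1_emp]
  · intro c hc h1 γ hγ j b hb hbr
    have hn : ¬ IsV c := by
      intro hV
      cases c with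
      | edge i k k' => exact hV
      | leg i => exact hV
      | vert i k w => simp [v2] at h1
    have hbS : ‖b‖ < S.r c := by
      refine lt_of_pow_lt_pow_left₀ (lx T c) (S.pos c).le (hbr.trans ?_)
      exact hrad c (mem_NC.2 ⟨hc, hn⟩) c (mem_NC.2 ⟨hc, hn⟩)
    have hb2 : ‖b‖ < 2 * S.r c := by linarith [S.pos c]
    have hpr := hγ.pr j b ⟨hb, hb2⟩
    have h2 : r⁻¹ < ‖pV U v (γ j b)‖ := by
      rw [hpr, norm_inv, norm_pow]
      exact (inv_lt_inv₀ hr0 (pow_pos hb _)).2 hbr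
    rw [G2 _ h2, a2 c hc h1 γ hγ j b hb (hbr.trans hr4) hb2, add_zero, s2_emp]
  · intro x hx
    rw [hlam]
    simp only
    rw [dif_neg fun h => hx (Or.inl h), if_neg fun h => hx (Or.inr h)]
  · intro hv' _ E
    have n1 : ∀ c : ℂ, ‖(c + (r / 2 : ℝ) : ℂ) - c‖ = r / 2 := fun c => by
      rw [add_sub_cancel_left, Complex.norm_real, Real.norm_of_nonneg (by linarith)]
    have n2 : ‖((2 * r⁻¹ : ℝ) : ℂ)‖ = 2 * r⁻¹ := by
      rw [Complex.norm_real, Real.norm_of_nonneg (by linarith)]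
    have m1 : ∀ c ∈ sp T v, ∑ᶠ x ∈ {x : XV U v | pV U v x = c + (r / 2 : ℝ) ∧
        (x : ConnectedComponents (XV U v)) = E}, lam x =
        ∑ c' ∈ (NC S).filter (fun c' => v1 T c' = some v ∧ cx T c' = c), ∑ j,
        if L.e1 c' j = some ⟨⟨v, hv⟩, E⟩ then (s1 L y (emp S) c' j + 0) / lx T c' else 0 := by
      intro c hc
      have m2 := (hP1 c hc).2.2.2 (c + (r / 2 : ℝ)) (by rw [n1]; linarith)
        (by rw [n1]; linarith [hr3 c hc]) E
      rw [← m2]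
      refine finsum_mem_congr rfl fun x hx => ?_
      exact G1 c hc x (by rw [hx.1, n1]; linarith)
    have m3 : ∑ᶠ x ∈ {x : XV U v | pV U v x = ((2 * r⁻¹ : ℝ) : ℂ) ∧
        (x : ConnectedComponents (XV U v)) = E}, lam x =
        ∑ j, if L.e2 (ec S v) j = some ⟨⟨v, hv⟩, E⟩ then
        (s2 L y (emp S) (ec S v) j + 0) / lx T (ec S v) else 0 := by
      rw [← a3 _ (by
        rw [n2]
        have := (inv_lt_inv₀ hr₂ hr0).2 hr4
        linarith) E]
      refine finsum_mem_congr rfl fun x hx => ?_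
      exact G2 x (by rw [hx.1, n2]; linarith)
    have m4 : ∑ c ∈ sp T v, ∑ c' ∈ (NC S).filter (fun c' => v1 T c' = some v ∧ cx T c' = c), ∑ j,
        (if L.e1 c' j = some ⟨⟨v, hv⟩, E⟩ then (s1 L y (emp S) c' j + 0) / lx T c' else 0) =
        ∑ c' ∈ NC S, ∑ j,
          (if L.e1 c' j = some ⟨⟨v, hv⟩, E⟩ then (s1 L y (emp S) c' j + 0) / lx T c' else 0) := by
      simp only [Finset.sum_filter]
      rw [Finset.sum_comm]
      refine Finset.sum_congr rfl fun c' hc' => ?_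
      by_cases h1 : v1 T c' = some v
      · simp only [h1, true_and]
        rw [Finset.sum_ite_eq (sp T v) (cx T c'), if_pos (cx_mem (mem_NC.1 hc').2 h1)]
      · have h2 : ∀ j, ¬ L.e1 c' j = some ⟨⟨v, hv⟩, E⟩ := by
          intro j h
          have h3 := L.v_e1 c' (mem_NC.1 hc').1 j
          rw [h] at h3
          exact h1 h3.symm
        simp only [h1, false_and, if_false, h2, Finset.sum_const_zero]
    have m5 := HvS_636.sumE L y (emp S) (fun c hc => absurd hc (Finset.notMem_empty c))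
      ⟨⟨v, hv⟩, E⟩
    simp only [Finset.filter_empty, Finset.sum_empty, add_zero] at m5
    rw [Finset.sum_congr rfl m1, m4, m3]
    simp only [add_zero]
    exact m5

end Crest.Agent.R257.Exf_843
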