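import Crest.Agent.R257.Wt7_258

/-!
Row 257 (S0395), C-WT, helpers for (F4) (helper39): comparison of the logarithms at the points of the
axes and the clauses `ub`, `lb`, `kil` of `LA`.

* `log_bd`        : `log (|α|^(2b) + |β|^(2a))` is bounded near `p₀ ≠ 0`
* `cmp1`, `cmp2`  : `y E log |s|² = yo e1 log |α|² + yo e2 log |β|² + O(1)`
* `bounds`        : the clauses from the bounds in the tube
* `re_mem`, `bounds0` : the clauses at a killed vertex point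
-/

set_option autoImplicit false
set_option linter.unusedSectionVars false
set_option linter.unusedVariables false

open Polynomial Set Filter Topology Metric
open Crest.AlgGeometry.Germ Crest.Agent.R257.AJ387 Crest.Agent.R257.T387
open Crest.Agent.R257.Gr1_157 Crest.Agent.R257.HoB_843 Crest.Agent.R257.BP_258
open Crest.Agent.R257.Frm_547 Crest.Agent.R257.Lab_931 Crest.Agent.R257.Wt_258

noncomputable section

namespace Crest.Agent.R257.F4k_39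

variable {f : (Fin 3 → ℂ) → ℂ} {T : TB f} {U : Tub T} {S : Sh T}

/-- a function continuous at a point is bounded near it -/
theorem cont_bd {g : ℂ × ℂ → ℝ} {p₀ : ℂ × ℂ} (h : ContinuousAt g p₀) :
    ∃ C : ℝ, 0 ≤ C ∧ ∀ᶠ p in 𝓝 p₀, |g p| ≤ C := by
  refine ⟨|g p₀| + 1, by positivity, ?_⟩
  have h1 : ∀ᶠ p in 𝓝 p₀, |g p| < |g p₀| + 1 :=
    (h.abs).eventually_lt continuousAt_const (by linarith)
  exact h1.mono fun p hp => hp.le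

theorem log_bd {p₀ : ℂ × ℂ} (h : p₀ ≠ 0) (a b : ℕ) : ∃ C : ℝ, 0 ≤ C ∧ ∀ᶠ p in 𝓝 p₀,
    |Real.log (‖p.1‖ ^ (2 * b) + ‖p.2‖ ^ (2 * a))| ≤ C := by
  have hc : ContinuousAt (fun p : ℂ × ℂ => ‖p.1‖ ^ (2 * b) + ‖p.2‖ ^ (2 * a)) p₀ :=
    (continuous_fst.norm.pow _).continuousAt.add (continuous_snd.norm.pow _).continuousAt
  have hpos : 0 < ‖p₀.1‖ ^ (2 * b) + ‖p₀.2‖ ^ (2 * a) := by
    by_cases h1 : p₀.1 = 0
    · have h2 : p₀.2 ≠ 0 := fun h2 => h (Prod.ext h1 h2)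
      have := norm_pos_iff.2 h2
      positivity
    · have := norm_pos_iff.2 h1
      positivity
  exact cont_bd (g := fun p => Real.log (‖p.1‖ ^ (2 * b) + ‖p.2‖ ^ (2 * a)))
    (hc.log hpos.ne')

theorem log1_bd {p₀ : ℂ × ℂ} (h : p₀.1 ≠ 0) : ∃ C : ℝ, 0 ≤ C ∧ ∀ᶠ p in 𝓝 p₀,
    |Real.log (‖p.1‖ ^ 2)| ≤ C := by
  have hc : ContinuousAt (fun p : ℂ × ℂ => ‖p.1‖ ^ 2) p₀ := (continuous_fst.norm.pow _).continuousAt
  exact cont_bd (g := fun p => Real.log (‖p.1‖ ^ 2))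
    (hc.log (by have := norm_pos_iff.2 h; positivity))

theorem log2_bd {p₀ : ℂ × ℂ} (h : p₀.2 ≠ 0) : ∃ C : ℝ, 0 ≤ C ∧ ∀ᶠ p in 𝓝 p₀,
    |Real.log (‖p.2‖ ^ 2)| ≤ C := by
  have hc : ContinuousAt (fun p : ℂ × ℂ => ‖p.2‖ ^ 2) p₀ := (continuous_snd.norm.pow _).continuousAt
  exact cont_bd (g := fun p => Real.log (‖p.2‖ ^ 2))
    (hc.log (by have := norm_pos_iff.2 h; positivity))

variable {L : Lab U S} {y : II U → ℝ}

theorem e2_none {c : Ch T.m} (hc : Ok S c) (h : ¬ IsE c) (j : Fin T.d) : L.e2 c j = none := by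
  have h1 := L.v_e2 c hc j
  have h2 : v2 T c = none := by
    cases c with
    | edge i k k' => exact absurd trivial h
    | leg i => rfl
    | vert i k w₀ => rfl
  rw [h2] at h1
  exact Option.map_eq_none_iff.1 h1

theorem log_mul {a b : ℂ} (ha : a ≠ 0) (hb : b ≠ 0) :
    Real.log (‖a * b‖ ^ 2) = Real.log (‖a‖ ^ 2) + Real.log (‖b‖ ^ 2) := by
  have h1 := norm_pos_iff.2 ha
  have h2 := norm_pos_iff.2 hb
  rw [norm_mul, mul_pow, Real.log_mul (by positivity) (by positivity)]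

/-- comparison on the first axis -/
theorem cmp1 {c : Ch T.m} (hc : Ok S c) {j : Fin T.d} {E : II U} (hE : L.e1 c j = some E) {b : ℂ}
    (h0 : IsV c ∨ b ≠ 0) : ∃ C : ℝ, 0 ≤ C ∧ ∀ᶠ p in 𝓝 ((0 : ℂ), b), T.Gen c p →
      |y E * Real.log (‖(T.map c p).1‖ ^ 2) - (yo y (L.e1 c j) * Real.log (‖p.1‖ ^ 2) +
        yo y (L.e2 c j) * Real.log (‖p.2‖ ^ 2))| ≤ C := by
  have hy1 : yo y (L.e1 c j) = y E := by rw [hE]; rfl
  rw [hy1]
  cases c with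
  | leg i =>
    rw [e2_none hc (fun h => h) j]
    refine ⟨0, le_rfl, Eventually.of_forall fun p _ => ?_⟩
    simp [TB.map, yo]
  | vert i k w₀ =>
    rw [e2_none hc (fun h => h) j]
    refine ⟨0, le_rfl, Eventually.of_forall fun p _ => ?_⟩
    simp [TB.map, yo]
  | edge i k k' =>
    have hb : b ≠ 0 := h0.resolve_left fun h => h
    obtain ⟨C, hC, h1⟩ := log2_bd (p₀ := ((0 : ℂ), b)) hb
    refine ⟨|y E - yo y (L.e2 (.edge i k k') j)| * C, by positivity, ?_⟩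
    filter_upwards [h1] with p h2 hg
    have h3 : (T.map (.edge i k k') p).1 = p.1 * p.2 := rfl
    rw [h3, log_mul hg.1 hg.2]
    have h4 : y E * (Real.log (‖p.1‖ ^ 2) + Real.log (‖p.2‖ ^ 2)) -
        (y E * Real.log (‖p.1‖ ^ 2) + yo y (L.e2 (.edge i k k') j) * Real.log (‖p.2‖ ^ 2)) =
        (y E - yo y (L.e2 (.edge i k k') j)) * Real.log (‖p.2‖ ^ 2) := by ring
    rw [h4, abs_mul]
    exact mul_le_mul_of_nonneg_left h2 (abs_nonneg _)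

/-- comparison on the second axis -/
theorem cmp2 {c : Ch T.m} (hc : Ok S c) {j : Fin T.d} {E : II U} (hE : L.e2 c j = some E) {a : ℂ}
    (ha : a ≠ 0) : ∃ C : ℝ, 0 ≤ C ∧ ∀ᶠ p in 𝓝 (a, (0 : ℂ)), T.Gen c p →
      |y E * Real.log (‖(T.map c p).1‖ ^ 2) - (yo y (L.e1 c j) * Real.log (‖p.1‖ ^ 2) +
        yo y (L.e2 c j) * Real.log (‖p.2‖ ^ 2))| ≤ C := by
  cases c with
  | leg i =>
    rw [e2_none hc (fun h => h) j] at hE
    exact absurd hE (by simp)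
  | vert i k w₀ =>
    rw [e2_none hc (fun h => h) j] at hE
    exact absurd hE (by simp)
  | edge i k k' =>
    have hy2 : yo y (L.e2 (.edge i k k') j) = y E := by rw [hE]; rfl
    rw [hy2]
    obtain ⟨C, hC, h1⟩ := log1_bd (p₀ := (a, (0 : ℂ))) ha
    refine ⟨|y E - yo y (L.e1 (.edge i k k') j)| * C, by positivity, ?_⟩
    filter_upwards [h1] with p h2 hg
    have h3 : (T.map (.edge i k k') p).1 = p.1 * p.2 := rfl
    rw [h3, log_mul hg.1 hg.2]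
    have h4 : y E * (Real.log (‖p.1‖ ^ 2) + Real.log (‖p.2‖ ^ 2)) -
        (yo y (L.e1 (.edge i k k') j) * Real.log (‖p.1‖ ^ 2) + y E * Real.log (‖p.2‖ ^ 2)) =
        (y E - yo y (L.e1 (.edge i k k') j)) * Real.log (‖p.1‖ ^ 2) := by ring
    rw [h4, abs_mul]
    exact mul_le_mul_of_nonneg_left h2 (abs_nonneg _)

variable {F : Finset (Ch T.m)} {K : DKill S F} [Fintype (II U)] {τ₀ τ₁ : ℝ} (P : WPar L y K τ₀ τ₁)

/-- the clauses `ub`, `lb`, `kil` of `LA` -/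
structure Bd (c : Ch T.m) (j : Fin T.d) (C : ℝ) (p : ℂ × ℂ) : Prop where
  ub : P.Ψ (wc S c j p) ≤ yo y (L.e1 c j) * Real.log (‖p.1‖ ^ 2) +
    yo y (L.e2 c j) * Real.log (‖p.2‖ ^ 2) + C
  lb : K.κ = ∅ → yo y (L.e1 c j) * Real.log (‖p.1‖ ^ 2) +
    yo y (L.e2 c j) * Real.log (‖p.2‖ ^ 2) - C ≤ P.Ψ (wc S c j p)
  kil : (c, j) ∈ K.κ → ‖p.1‖ < τ₁ → ‖p.2‖ < τ₁ →
    |P.Ψ (wc S c j p) - yo y (L.e1 c j) * Real.log (‖p.1‖ ^ 2) -
      yo y (L.e2 c j) * Real.log (‖p.2‖ ^ 2) -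
      K.t (c, j) * Real.log (‖p.1‖ ^ (2 * K.b (c, j)) + ‖p.2‖ ^ (2 * K.a (c, j)))| ≤ C

variable {P}

theorem s_le {c : Ch T.m} (hc : Ok S c) {p₀ : ℂ × ℂ} (h1 : ‖p₀.1‖ ≤ S.r c) (h2 : ‖p₀.2‖ ≤ S.r c) :
    ∀ᶠ p in 𝓝 p₀, ‖(T.map c p).1‖ ^ 2 ≤ 1 := by
  have hr := S.pos c
  have hmem : p₀ ∈ BD (2 * S.r c) (2 * S.r c) :=
    ⟨lt_of_le_of_lt h1 (by linarith), lt_of_le_of_lt h2 (by linarith)⟩
  filter_upwards [(isOpen_BD _ _).mem_nhds hmem] with p hp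
  have h3 := ((S.sheets c hc.1).mem p hp).1.1
  have h4 : ‖(T.map c p).1‖ < 1 := h3
  exact pow_le_one₀ (norm_nonneg _) h4.le

theorem Bd.mono {c : Ch T.m} {j : Fin T.d} {C C' : ℝ} {p : ℂ × ℂ} (h : Bd P c j C p)
    (hC : C ≤ C') : Bd P c j C' p :=
  ⟨h.ub.trans (by linarith), fun h1 => by have := h.lb h1; linarith,
    fun h1 h2 h3 => (h.kil h1 h2 h3).trans hC⟩

/-- **the clauses from the bounds in the tube** -/
theorem bounds {c : Ch T.m} (hc : Ok S c) {j : Fin T.d} {p₀ : ℂ × ℂ} (h1 : ‖p₀.1‖ ≤ S.r c)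
    (h2 : ‖p₀.2‖ ≤ S.r c) {Y : ℝ}
    (hcmp : ∃ C : ℝ, 0 ≤ C ∧ ∀ᶠ p in 𝓝 p₀, T.Gen c p →
      |Y * Real.log (‖(T.map c p).1‖ ^ 2) - (yo y (L.e1 c j) * Real.log (‖p.1‖ ^ 2) +
        yo y (L.e2 c j) * Real.log (‖p.2‖ ^ 2))| ≤ C)
    (hub : ∃ C', ∀ᶠ p in 𝓝 p₀, T.Gen c p →
      P.Φ (wc S c j p) ≤ Y * Real.log (‖(T.map c p).1‖ ^ 2) + C')
    (hne : (c, j) ∈ K.κ → p₀ ≠ 0)
    (hlb : (K.κ = ∅ ∨ ((c, j) ∈ K.κ ∧ ‖p₀.1‖ ≤ τ₁ ∧ ‖p₀.2‖ ≤ τ₁)) →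
      ∃ C', ∀ᶠ p in 𝓝 p₀, T.Gen c p →
        Y * Real.log (‖(T.map c p).1‖ ^ 2) - C' ≤ P.Φ (wc S c j p)) :
    ∃ C, ∀ᶠ p in 𝓝 p₀, T.Gen c p → Bd P c j C p := by
  obtain ⟨C₁, hC₁, g1⟩ := hcmp
  obtain ⟨C₂, g2⟩ := hub
  have g3 : ∃ C₃, ∀ᶠ p in 𝓝 p₀, T.Gen c p →
      (K.κ = ∅ ∨ ((c, j) ∈ K.κ ∧ ‖p.1‖ < τ₁ ∧ ‖p.2‖ < τ₁)) →
      Y * Real.log (‖(T.map c p).1‖ ^ 2) - C₃ ≤ P.Φ (wc S c j p) := by
    by_cases hcase : K.κ = ∅ ∨ ((c, j) ∈ K.κ ∧ ‖p₀.1‖ ≤ τ₁ ∧ ‖p₀.2‖ ≤ τ₁)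
    · obtain ⟨C₃, h3⟩ := hlb hcase
      exact ⟨C₃, h3.mono fun p hp hg _ => hp hg⟩
    · push Not at hcase
      refine ⟨0, ?_⟩
      have h4 : ∀ᶠ p in 𝓝 p₀, (c, j) ∈ K.κ → ¬ (‖p.1‖ < τ₁ ∧ ‖p.2‖ < τ₁) := by
        by_cases hk : (c, j) ∈ K.κ
        · by_cases h5 : ‖p₀.1‖ ≤ τ₁
          · have h6 := hcase.2 hk h5
            have h7 : ∀ᶠ p in 𝓝 p₀, τ₁ < ‖p.2‖ :=
              (continuous_snd.norm.tendsto p₀).eventually (lt_mem_nhds h6)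
            exact h7.mono fun p hp _ h => by linarith [h.2]
          · have h7 : ∀ᶠ p in 𝓝 p₀, τ₁ < ‖p.1‖ :=
              (continuous_fst.norm.tendsto p₀).eventually (lt_mem_nhds (not_le.1 h5))
            exact h7.mono fun p hp _ h => by linarith [h.1]
        · exact Eventually.of_forall fun p h => absurd h hk
      filter_upwards [h4] with p h5 hg h6
      rcases h6 with h6 | ⟨h6, h7⟩
      · exact absurd h6 hcase.1.ne_empty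
      · exact absurd h7 (h5 h6)
  obtain ⟨C₃, g3⟩ := g3
  have g4 : ∃ C₄ : ℝ, 0 ≤ C₄ ∧ ∀ᶠ p in 𝓝 p₀, (c, j) ∈ K.κ →
      |K.t (c, j) * Real.log (‖p.1‖ ^ (2 * K.b (c, j)) + ‖p.2‖ ^ (2 * K.a (c, j)))| ≤ C₄ := by
    by_cases hk : (c, j) ∈ K.κ
    · obtain ⟨C₄, hC₄, h4⟩ := log_bd (hne hk) (K.a (c, j)) (K.b (c, j))
      refine ⟨|K.t (c, j)| * C₄, by positivity, ?_⟩
      filter_upwards [h4] with p h5 _
      rw [abs_mul]
      exact mul_le_mul_of_nonneg_left h5 (abs_nonneg _)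
    · exact ⟨0, le_rfl, Eventually.of_forall fun p h => absurd h hk⟩
  obtain ⟨C₄, hC₄, g4⟩ := g4
  refine ⟨C₁ + |C₂| + |C₃| + C₄ + 1, ?_⟩
  filter_upwards [g1, g2, g3, g4, s_le hc h1 h2] with p k1 k2 k3 k4 k5 hg
  have k1' := k1 hg
  have k2' := k2 hg
  rw [abs_le] at k1'
  have hΨ : P.Ψ (wc S c j p) = P.Φ (wc S c j p) + ‖(T.map c p).1‖ ^ 2 := rfl
  have hs0 : 0 ≤ ‖(T.map c p).1‖ ^ 2 := by positivity
  have a2 := le_abs_self C₂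
  have a3 := le_abs_self C₃
  have a2' := abs_nonneg C₂
  have a3' := abs_nonneg C₃
  refine ⟨?_, fun hk => ?_, fun hk hp1 hp2 => ?_⟩
  · rw [hΨ]
    linarith [k1'.1, k1'.2]
  · have k3' := k3 hg (Or.inl hk)
    rw [hΨ]
    linarith [k1'.1, k1'.2]
  · have k3' := k3 hg (Or.inr ⟨hk, hp1, hp2⟩)
    have k4' := k4 hk
    rw [abs_le] at k4'
    rw [hΨ, abs_le]
    constructor
    · linarith [k1'.1, k1'.2, k4'.1, k4'.2]
    · linarith [k1'.1, k1'.2, k4'.1, k4'.2]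

/-- the points near a killed vertex point are in the zone -/
theorem zn_mem {c : Ch T.m} {j : Fin T.d} (hE : Es K c j) (hV : IsV c) :
    ∀ᶠ p in 𝓝 (0 : ℂ × ℂ), T.Gen c p → p ∈ zn S P.τ c := by
  have hr := S.pos c
  have hτ := P.τ_pos
  have ha : 0 < ta S P.τ c := by
    unfold ta
    split_ifs
    · exact hr
    · exact hτ
  have hb : 0 < tb S P.τ c := by
    unfold tb
    split_ifs
    · exact hr
    · exact hτ
  have h1 : ∀ᶠ p in 𝓝 (0 : ℂ × ℂ), ‖p.1‖ < ta S P.τ c :=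
    (continuous_fst.norm.tendsto (0 : ℂ × ℂ)).eventually (gt_mem_nhds (by simpa using ha))
  have h2 : ∀ᶠ p in 𝓝 (0 : ℂ × ℂ), ‖p.2‖ < tb S P.τ c :=
    (continuous_snd.norm.tendsto (0 : ℂ × ℂ)).eventually (gt_mem_nhds (by simpa using hb))
  filter_upwards [h1, h2] with p h3 h4 hg
  exact ⟨h3, h4, hg⟩

/-- the edge function is a value near a killed vertex point -/
theorem re_mem {c : Ch T.m} {j : Fin T.d} (hE : Es K c j) (hV : IsV c) :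
    ∀ᶠ p in 𝓝 (0 : ℂ × ℂ), T.Gen c p → P.RE (wc S c j p) (EL L y K c j p - P.B) := by
  filter_upwards [zn_mem (P := P) hE hV] with p h1 hg
  exact ⟨c, j, p, hE, h1 hg, rfl, rfl⟩

/-- **the clauses at a killed origin** -/
theorem bounds0 {c : Ch T.m} (hc : Ok S c) {j : Fin T.d} (hk : (c, j) ∈ K.κ)
    (hΦ : ∀ᶠ p in 𝓝 (0 : ℂ × ℂ), T.Gen c p → P.Φ (wc S c j p) = EL L y K c j p - P.B) :
    ∃ C, ∀ᶠ p in 𝓝 (0 : ℂ × ℂ), T.Gen c p → Bd P c j C p := by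
  have hr := S.pos c
  have hab := K.ab_pos _ hk
  have ht := K.t_pos _ hk
  have hκ : K.κ ≠ ∅ := fun h => by rw [h] at hk; exact hk
  have hsm : ∀ᶠ p in 𝓝 (0 : ℂ × ℂ), ‖p.1‖ ^ (2 * K.b (c, j)) + ‖p.2‖ ^ (2 * K.a (c, j)) < 1 := by
    have hcont : Continuous fun p : ℂ × ℂ => ‖p.1‖ ^ (2 * K.b (c, j)) + ‖p.2‖ ^ (2 * K.a (c, j)) :=
      (continuous_fst.norm.pow _).add (continuous_snd.norm.pow _)
    refine (hcont.tendsto (0 : ℂ × ℂ)).eventually (gt_mem_nhds ?_)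
    have e1 : 2 * K.b (c, j) ≠ 0 := by omega
    have e2 : 2 * K.a (c, j) ≠ 0 := by omega
    simp [e1, e2]
  refine ⟨|P.B| + 1, ?_⟩
  filter_upwards [hΦ, hsm, s_le hc (p₀ := 0) (by simpa using hr.le) (by simpa using hr.le)]
    with p h1 h2 h3 hg
  have hΨ : P.Ψ (wc S c j p) = P.Φ (wc S c j p) + ‖(T.map c p).1‖ ^ 2 := rfl
  have hs0 : 0 ≤ ‖(T.map c p).1‖ ^ 2 := by positivity
  have htt : tt K c j = K.t (c, j) := if_pos hk
  have hEL : P.Φ (wc S c j p) = yo y (L.e1 c j) * Real.log (‖p.1‖ ^ 2) +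
      yo y (L.e2 c j) * Real.log (‖p.2‖ ^ 2) +
      K.t (c, j) * Real.log (‖p.1‖ ^ (2 * K.b (c, j)) + ‖p.2‖ ^ (2 * K.a (c, j))) - P.B := by
    rw [h1 hg, EL, htt]
  have hlog : Real.log (‖p.1‖ ^ (2 * K.b (c, j)) + ‖p.2‖ ^ (2 * K.a (c, j))) ≤ 0 :=
    Real.log_nonpos (by positivity) h2.le
  have htl : K.t (c, j) * Real.log (‖p.1‖ ^ (2 * K.b (c, j)) + ‖p.2‖ ^ (2 * K.a (c, j))) ≤ 0 :=
    mul_nonpos_of_nonneg_of_nonpos ht.le hlog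
  have aB := neg_abs_le P.B
  have aB' := le_abs_self P.B
  refine ⟨?_, fun h => absurd h hκ, fun _ _ _ => ?_⟩
  · rw [hΨ, hEL]
    linarith
  · rw [hΨ, hEL, abs_le]
    constructor <;> linarith

end Crest.Agent.R257.F4k_39
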