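import Crest.Agent.R257.FrBP9_808
import Crest.Agent.R257.KB3_82
import Crest.Agent.R257.ExH_82

/-!
R257 / FrBP10_808: `ExAllStmt` from the statements at the level of `BPDefs_258`.
-/

set_option autoImplicit false
set_option linter.unusedSectionVars false

open Polynomial Set Filter Topology Metric
open Crest.AlgGeometry.Germ

noncomputable section

namespace Crest.Agent.R257.FrBP_808

open Crest.Agent.R257.Defs_219 Crest.Agent.R257.AJ387 Crest.Agent.R257.T387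
open Crest.Agent.R257.BP_258 Crest.Agent.R257.FrmF_547
open Crest.Agent.R257.Gr1_157 Crest.Agent.R257.GrH_547
open Crest.Agent.R257.Fr_808 Crest.Agent.R257.Rot1_558
open Crest.Agent.R257.KiD_121

/-- the weights (258) -/
def WTAll : Prop := ∀ (f : E3 → ℂ) (_ : Iso f) (T : TB f) (hC : Clo T) (S : Sh T)
  (L : Lab (Tb_941.tub T hC) S), Wt_258.WTDStmt L

/-- kill orbits (558) -/
def KAll : Prop := ∀ (f : E3 → ℂ) (_ : Iso f) (T : TB f) (hC : Clo T),
  KOrbStmt (Tb_941.tub T hC) ∧ KSumStmt (Tb_941.tub T hC)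

/-- null orbits and invariant holomorphic forms (843, 176, 250) -/
def NTAll : Prop := ∀ (f : E3 → ℂ) (_ : Iso f) (T : TB f) (hC : Clo T) (hG : GalPt T) (S : Sh T)
  (L : Lab (Tb_941.tub T hC) S) (nu : II (Tb_941.tub T hC) → ℤ) (n1 n2 : Ch T.m → Fin T.d → ℤ),
  (∀ c, T.Valid c → T.MonoC c (S.r c)) → Jac L nu n1 n2 →
  Exf_843.ExNBPStmt hG L nu ∧ Exf_843.ExTBPStmt hG L nu

/-- kills at the level of the frame (121) -/
def PEAll : Prop := ∀ (f : E3 → ℂ) (_ : Iso f) (T : TB f) (hC : Clo T) (hG : GalPt T) (S : Sh T)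
  (L : Lab (Tb_941.tub T hC) S) (nu : II (Tb_941.tub T hC) → ℤ) (n1 n2 : Ch T.m → Fin T.d → ℤ),
  KillBPStmt hG (Tb_941.retStmt (Tb_941.tub T hC)) L nu n1 n2 → KOrbStmt (Tb_941.tub T hC) →
  ∀ D : FrIn L nu n1 n2, ∃ B : ℝ, Ex_121.ExP D.fr (ExF_121.GG D hG) B (Dv T) ∧
    Ex_121.ExE D.fr (ExF_121.GG D hG) B (Dv T)

theorem exAll_of (hPE : PEAll) (hW : WTAll) (hK : KAll) (hNT : NTAll) : ExAllStmt := by
  intro f hf _ T hC hG S L nu n1 n2 hM D
  have hR := Tb_941.retStmt (Tb_941.tub T hC)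
  obtain ⟨hKO, hKS⟩ := hK f hf T hC
  obtain ⟨hN, hT⟩ := hNT f hf T hC hG S L nu n1 n2 hM D.jac
  have hkill : KillBPStmt hG hR L nu n1 n2 :=
    KB_82.killBP hf hC hG hR hM (BPC_554.coverP S) L D.jac hKS (hW f hf T hC S L)
  exact ⟨hPE f hf T hC hG S L nu n1 n2 hkill hKO D,
    ⟨ExH_82.Th D hG, ExH_82.exN_of D hG hN, ExH_82.exT_of D hG hT⟩⟩

/-- **Row 257 from the open statements** -/
theorem top_of (hPE : PEAll) (hW : WTAll) (hK : KAll) (hNT : NTAll) : CLog_68.CLogStmt :=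
  clog_of_exAll (exAll_of hPE hW hK hNT)

end Crest.Agent.R257.FrBP_808
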