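import Crest.Agent.R257.FrBP10_808
import Crest.Agent.R257.ExI_121

/-!
R257 / FrBP11_808: `PEAll` (from 121's `exP`, `exE`).
-/

set_option autoImplicit false
set_option linter.unusedSectionVars false

noncomputable section

namespace Crest.Agent.R257.FrBP_808

/-- **kills at the level of the frame** -/
theorem peAll : PEAll := by
  intro f hf T hC hG S L nu n1 n2 hK hO D
  exact ⟨_, ExI_121.exP hK hO, ExI_121.exE hK hO⟩

/-- **Row 257 from the open statements** -/
theorem top_of' (hW : WTAll) (hK : KAll) (hNT : NTAll) : CLog_68.CLogStmt :=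
  top_of peAll hW hK hNT

end Crest.Agent.R257.FrBP_808
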