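import Crest.Agent.R257.K3_121
import Crest.Agent.R257.WtZ_258
import Crest.Agent.R257.ExNB_843

/-!
R257 / FrBP12_808: `WTAll`; `NTAll` from the null data and the top orders.
-/

set_option autoImplicit false
set_option linter.unusedSectionVars false

open Polynomial Set Filter Topology Metric
open Crest.AlgGeometry.Germ

noncomputable section

namespace Crest.Agent.R257.FrBP_808

open Crest.Agent.R257.Defs_219 Crest.Agent.R257.AJ387 Crest.Agent.R257.T387
open Crest.Agent.R257.BP_258 Crest.Agent.R257.FrmF_547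
open Crest.Agent.R257.Gr1_157 Crest.Agent.R257.GrH_547
open Crest.Agent.R257.Fr_808 Crest.Agent.R257.Rot1_558

/-- **the weights** (258) -/
theorem wtAll : WTAll := fun _ _ _ _ _ L => Wt_258.wtd L

/-- the null data -/
def NullAll : Prop := ∀ (f : E3 → ℂ) (_ : Iso f) (T : TB f) (hC : Clo T) (_ : GalPt T) (S : Sh T)
  (L : Lab (Tb_941.tub T hC) S) (nu : II (Tb_941.tub T hC) → ℤ) (n1 n2 : Ch T.m → Fin T.d → ℤ),
  (∀ c, T.Valid c → T.MonoC c (S.r c)) → Jac L nu n1 n2 → Exf_843.NullStmt L n1 n2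

/-- invariant holomorphic forms, from the null data -/
def ExTAll : Prop := ∀ (f : E3 → ℂ) (_ : Iso f) (T : TB f) (hC : Clo T) (hG : GalPt T) (S : Sh T)
  (L : Lab (Tb_941.tub T hC) S) (nu : II (Tb_941.tub T hC) → ℤ) (n1 n2 : Ch T.m → Fin T.d → ℤ),
  (∀ c, T.Valid c → T.MonoC c (S.r c)) → Jac L nu n1 n2 → Exf_843.NullStmt L n1 n2 →
  Exf_843.ExTBPStmt hG L nu

theorem ntAll_of (hN : NullAll) (hT : ExTAll) : NTAll := by
  intro f hf T hC hG S L nu n1 n2 hM J
  have hn := hN f hf T hC hG S L nu n1 n2 hM J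
  exact ⟨Exf_843.exNBP hf hC hG (Tb_941.retStmt (Tb_941.tub T hC)) hM (BPC_554.coverP S) L J
    (Wt_258.wtd L) hn, hT f hf T hC hG S L nu n1 n2 hM J hn⟩

/-- **Row 257 from the null data and the invariant forms** -/
theorem clog_of_nt (hN : NullAll) (hT : ExTAll) : CLog_68.CLogStmt :=
  top_of_wn wtAll (ntAll_of hN hT)

end Crest.Agent.R257.FrBP_808
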