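import Crest.Agent.R257.HoT_843
import Crest.Agent.R257.T11_387

/-!
R257 / FrBP2_808: the exponents of the residue form in the scaled charts are those of `Jac`.
-/

set_option autoImplicit false
set_option linter.unusedSectionVars false

open Polynomial Set Filter Topology Metric
open Crest.AlgGeometry.Germ

noncomputable section

namespace Crest.Agent.R257.FrBP_808

open Crest.Agent.R257.Defs_219 Crest.Agent.R257.AJ387 Crest.Agent.R257.T387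
open Crest.Agent.R257.BP_258 Crest.Agent.R257.HoE_843 Crest.Agent.R257.HoG_843
open Crest.Agent.R257.HoT_843
open Crest.Agent.R257.Fr_808 (jac2)

theorem zexp_le {a b : ℤ} {C : ℝ} (h : ∀ᶠ t in 𝓝[>] (0 : ℝ), t ^ a ≤ C * t ^ b) : b ≤ a := by
  by_contra hlt
  push Not at hlt
  obtain ⟨n, hn⟩ : ∃ n : ℕ, b - a = (n : ℤ) + 1 := ⟨(b - a - 1).toNat, by omega⟩
  have h1 : ∀ᶠ t : ℝ in 𝓝[>] (0 : ℝ), t < min 1 (1 / (|C| + 1)) :=
    Filter.Eventually.filter_mono nhdsWithin_le_nhds (eventually_lt_nhds (by positivity))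
  obtain ⟨t, ⟨h2, h3⟩, h4⟩ := ((h.and h1).and self_mem_nhdsWithin).exists
  have ht : (0 : ℝ) < t := h4
  have ht1 : t < 1 := h3.trans_le (min_le_left _ _)
  have ht2 : t < 1 / (|C| + 1) := h3.trans_le (min_le_right _ _)
  have hC : 0 < |C| + 1 := by positivity
  have e1 : t ^ b = t ^ a * t ^ (n + 1) := by
    rw [← zpow_natCast t (n + 1), ← zpow_add₀ ht.ne']
    congr 1
    push_cast
    omega
  rw [e1] at h2
  have hta : 0 < t ^ a := zpow_pos ht a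
  have e2 : 1 ≤ C * t ^ (n + 1) := by
    by_contra hc
    push Not at hc
    nlinarith
  have e3 : t ^ (n + 1) ≤ t := by
    calc t ^ (n + 1) ≤ t ^ 1 := pow_le_pow_of_le_one ht.le ht1.le (by omega)
      _ = t := pow_one t
  have e4 : C * t ^ (n + 1) ≤ |C| * t := by
    calc C * t ^ (n + 1) ≤ |C| * t ^ (n + 1) :=
          mul_le_mul_of_nonneg_right (le_abs_self C) (by positivity)
      _ ≤ |C| * t := mul_le_mul_of_nonneg_left e3 (abs_nonneg C)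
  have e5 : |C| * t < 1 := by
    rw [lt_div_iff₀ hC] at ht2
    nlinarith [abs_nonneg C]
  linarith

/-- exponents are determined by growth -/
theorem exp_eq {V : ℂ → ℂ} (hV : ContinuousAt V 0) (hV0 : V 0 ≠ 0) {a b : ℤ} {A B : ℝ}
    (hA : 0 < A)
    (h1 : ∀ t : ℝ, 0 < t → t < 1 → t ^ a * ‖V t‖ ≤ A * t ^ b)
    (h2 : ∀ t : ℝ, 0 < t → t < 1 → t ^ b ≤ B * (t ^ a * ‖V t‖)) : a = b := by
  have hpos : 0 < ‖V 0‖ := norm_pos_iff.2 hV0
  have hto : Tendsto (fun t : ℝ => (t : ℂ)) (𝓝[>] 0) (𝓝 0) := by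
    have : ContinuousAt (fun t : ℝ => (t : ℂ)) 0 := by fun_prop
    have h3 := this.tendsto
    simp only [Complex.ofReal_zero] at h3
    exact h3.mono_left nhdsWithin_le_nhds
  have e1 : ∀ᶠ t : ℝ in 𝓝[>] 0, ‖V 0‖ / 2 < ‖V t‖ :=
    hto.eventually (continuousAt_const.eventually_lt hV.norm (by linarith))
  have e2 : ∀ᶠ t : ℝ in 𝓝[>] 0, ‖V t‖ < ‖V 0‖ + 1 :=
    hto.eventually (hV.norm.eventually_lt continuousAt_const (by linarith))
  have e3 : ∀ᶠ t : ℝ in 𝓝[>] (0 : ℝ), t < 1 :=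
    Filter.Eventually.filter_mono nhdsWithin_le_nhds (eventually_lt_nhds one_pos)
  refine le_antisymm ?_ ?_
  · -- `t ^ b ≤ C t ^ a`
    refine zexp_le (C := |B| * (‖V 0‖ + 1)) ?_
    filter_upwards [e2, e3, self_mem_nhdsWithin] with t h4 h5 h6
    have ht : (0 : ℝ) < t := h6
    have hta : 0 < t ^ a := zpow_pos ht a
    calc t ^ b ≤ B * (t ^ a * ‖V t‖) := h2 t ht h5
      _ ≤ |B| * (t ^ a * (‖V 0‖ + 1)) := by
          refine mul_le_mul (le_abs_self B) ?_ (by positivity) (abs_nonneg B)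
          exact mul_le_mul_of_nonneg_left h4.le hta.le
      _ = |B| * (‖V 0‖ + 1) * t ^ a := by ring
  · refine zexp_le (C := A / (‖V 0‖ / 2)) ?_
    filter_upwards [e1, e3, self_mem_nhdsWithin] with t h4 h5 h6
    have ht : (0 : ℝ) < t := h6
    have hta : 0 < t ^ a := zpow_pos ht a
    have h7 : t ^ a * (‖V 0‖ / 2) ≤ A * t ^ b :=
      (mul_le_mul_of_nonneg_left h4.le hta.le).trans (h1 t ht h5)
    rw [div_mul_eq_mul_div, le_div_iff₀ (by positivity)]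
    exact h7

variable {f : (Fin 3 → ℂ) → ℂ} {T : TB f} {U : Tub T} {S : Sh T} {L : Lab U S}
  {nu : II U → ℤ} {n1 n2 : Ch T.m → Fin T.d → ℤ}

/-- exponent of the (exceptional) first axis of the scaled chart -/
def m1 (n1 n2 : Ch T.m → Fin T.d → ℤ) (c : Ch T.m) (j : Fin T.d) : ℤ :=
  if T.IsTop c then n2 c j else n1 c j

/-- exponent of the second axis of the scaled chart -/
def m2 (n1 n2 : Ch T.m → Fin T.d → ℤ) (c : Ch T.m) (j : Fin T.d) : ℤ :=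
  if T.IsTop c then n1 c j else n2 c j

theorem gen_of_ne (c : Ch T.m) {q : ℂ × ℂ} (h1 : q.1 ≠ 0) (h2 : q.2 ≠ 0) : T.Gen c q := by
  cases c with
  | edge i k k' => exact ⟨h1, h2⟩
  | leg i => exact ⟨h1, h2⟩
  | vert i k w₀ => exact h1

/-- two sided bound of the Jacobian of the scaled chart -/
theorem jac_bd (hJ : Jac L nu n1 n2) {c : Ch T.m} (hc : Ok S c) (j : Fin T.d) :
    ∃ A B : ℝ, 0 < A ∧ 0 < B ∧ ∀ p : ℂ × ℂ, p.1 ≠ 0 → p.2 ≠ 0 → ‖p.1‖ ≤ 1 → ‖p.2‖ ≤ 1 →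
      ‖jac2 (T.thS c (S.r c) (S.ζ c j)) p‖ ≤
        A * ‖coordDeriv f 0 (T.thS c (S.r c) (S.ζ c j) p)‖ *
          (‖p.1‖ ^ (-m1 n1 n2 c j - 1) * ‖p.2‖ ^ (-m2 n1 n2 c j - 1)) ∧
      ‖coordDeriv f 0 (T.thS c (S.r c) (S.ζ c j) p)‖ *
          (‖p.1‖ ^ (-m1 n1 n2 c j - 1) * ‖p.2‖ ^ (-m2 n1 n2 c j - 1)) ≤
        B * ‖jac2 (T.thS c (S.r c) (S.ζ c j)) p‖ := by
  obtain ⟨K, hK, hbd⟩ := hJ.bd c hc j
  set R : ℝ := S.r c with hR
  have hR0 : 0 < R := S.pos c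
  set cc : ℝ := Real.sqrt (cA T.A T.N) with hcc
  have hcc0 : 0 < cc := Real.sqrt_pos.2 (cA_pos T.N_pos)
  set D : ℝ := R ^ (-n1 c j - 1) * R ^ (-n2 c j - 1) with hD
  have hD0 : 0 < D := mul_pos (zpow_pos hR0 _) (zpow_pos hR0 _)
  refine ⟨R ^ 2 * cc * (K * D), (R ^ 2 * cc)⁻¹ * (K * D⁻¹), by positivity, by positivity, ?_⟩
  intro p hp1 hp2 hn1 hn2
  have hp : p ∈ AJ387.BD 2 2 := ⟨by linarith, by linarith⟩
  set q : ℂ × ℂ := T.sg c R p with hq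
  have hqm : q ∈ AJ387.BD (2 * R) (2 * R) := TB.sg_mem2 hR0 hp
  have hth : AnalyticAt ℂ (T.th c (S.ζ c j)) q := (S.sheets c hc.1).th_an j hqm
  have hRC : (R : ℂ) ≠ 0 := by exact_mod_cast hR0.ne'
  -- the Jacobian
  have e1 : ‖jac2 (T.thS c R (S.ζ c j)) p‖ = R ^ 2 * ‖jac2 (T.th c (S.ζ c j)) q‖ := by
    have h1 : jac2 (T.thS c R (S.ζ c j)) p = _ := T.jac2_sg c R hth.differentiableAt
    rw [h1, norm_mul]
    congr 1
    split_ifs
    · rw [norm_neg, norm_pow, Complex.norm_real, Real.norm_of_nonneg hR0.le]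
    · rw [norm_pow, Complex.norm_real, Real.norm_of_nonneg hR0.le]
  have hcd0 : ‖T.thS c R (S.ζ c j) p‖ = ‖T.th c (S.ζ c j) q‖ := rfl
  set δ : ℝ := ‖coordDeriv f 0 (T.th c (S.ζ c j) q)‖ with hδ
  have hδ' : ‖coordDeriv f 0 (T.thS c R (S.ζ c j) p)‖ = δ := rfl
  -- the conditions for `bd`
  have hq1 : q.1 ≠ 0 ∧ q.2 ≠ 0 ∧ ‖q.1‖ ≤ R ∧ ‖q.2‖ ≤ R ∧
      ‖q.1‖ ^ (-n1 c j - 1) * ‖q.2‖ ^ (-n2 c j - 1) =
        D * (‖p.1‖ ^ (-m1 n1 n2 c j - 1) * ‖p.2‖ ^ (-m2 n1 n2 c j - 1)) := by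
    have hRn : ∀ z : ℂ, ‖(R : ℂ) * z‖ = R * ‖z‖ := fun z => by
      rw [norm_mul, Complex.norm_real, Real.norm_of_nonneg hR0.le]
    rw [hq]
    unfold TB.sg m1 m2
    split_ifs
    · refine ⟨mul_ne_zero hRC hp2, mul_ne_zero hRC hp1, ?_, ?_, ?_⟩
      · simp only [hRn]; nlinarith
      · simp only [hRn]; nlinarith
      · simp only [hRn]
        rw [mul_zpow, mul_zpow, hD]
        ring
    · refine ⟨mul_ne_zero hRC hp1, mul_ne_zero hRC hp2, ?_, ?_, ?_⟩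
      · simp only [hRn]; nlinarith
      · simp only [hRn]; nlinarith
      · simp only [hRn]
        rw [mul_zpow, mul_zpow, hD]
        ring
  obtain ⟨hq1, hq2, hqn1, hqn2, hmon⟩ := hq1
  obtain ⟨h1, h2, h3⟩ := hbd q hqn1 hqn2 (gen_of_ne c hq1 hq2)
  have hδ0 : 0 < δ := norm_pos_iff.2 h1
  -- the density
  have e2 : ‖jac2 (T.th c (S.ζ c j)) q‖ = δ * (cc * dn S c j q) := by
    have h4 := den_wc S hc.1 hqm.1 hqm.2 j
    have h5 : den2 f (fun q => piW T.A T.N (wc S c j q)) q =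
        (δ ^ 2)⁻¹ * ‖jac2 (T.th c (S.ζ c j)) q‖ ^ 2 := rfl
    rw [h5] at h4
    have hdn : 0 ≤ dn S c j q := by unfold dn; positivity
    have h6 : ‖jac2 (T.th c (S.ζ c j)) q‖ ^ 2 = (δ * (cc * dn S c j q)) ^ 2 := by
      rw [mul_pow, mul_pow, hcc, Real.sq_sqrt (cA_pos T.N_pos).le, ← h4]
      field_simp
    exact (pow_left_inj₀ (norm_nonneg _) (by positivity) two_ne_zero).1 h6
  rw [hmon] at h2 h3
  set X : ℝ := ‖p.1‖ ^ (-m1 n1 n2 c j - 1) * ‖p.2‖ ^ (-m2 n1 n2 c j - 1) with hX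
  rw [e1, hδ', e2]
  constructor
  · calc R ^ 2 * (δ * (cc * dn S c j q)) = R ^ 2 * cc * δ * dn S c j q := by ring
      _ ≤ R ^ 2 * cc * δ * (K * (D * X)) := mul_le_mul_of_nonneg_left h2 (by positivity)
      _ = R ^ 2 * cc * (K * D) * δ * X := by ring
  · have h7 : X ≤ D⁻¹ * (K * dn S c j q) := by
      rw [inv_mul_eq_div, le_div_iff₀ hD0, mul_comm X D]
      exact h3
    calc δ * X ≤ δ * (D⁻¹ * (K * dn S c j q)) := mul_le_mul_of_nonneg_left h7 hδ0.le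
      _ = (R ^ 2 * cc)⁻¹ * (K * D⁻¹) * (R ^ 2 * (δ * (cc * dn S c j q))) := by
          field_simp

/-- **the residue form in the scaled charts, with the exponents of `Jac`** -/
theorem jac_thS (hf : Iso f) (hJ : Jac L nu n1 n2) {c : Ch T.m} (hc : Ok S c) (j : Fin T.d) :
    ∃ V : ℂ × ℂ → ℂ, AnalyticOnNhd ℂ V (AJ387.BD 2 2) ∧ (∀ p ∈ AJ387.BD 2 2, V p ≠ 0) ∧
      ∀ p ∈ AJ387.BD 2 2, p.1 ≠ 0 → p.2 ≠ 0 →
        coordDeriv f 0 (T.thS c (S.r c) (S.ζ c j) p) ≠ 0 ∧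
        jac2 (T.thS c (S.r c) (S.ζ c j)) p = coordDeriv f 0 (T.thS c (S.r c) (S.ζ c j) p) *
          p.1 ^ (-m1 n1 n2 c j - 1) * p.2 ^ (-m2 n1 n2 c j - 1) * V p := by
  obtain ⟨a, b, V, -, hV, hV0, h⟩ := TB.thS_jac (S.pos c) (S.sheets c hc.1) hf hc.1 j
  obtain ⟨A, B, hA, hB, hbd⟩ := jac_bd hJ hc j
  have key : ∀ p : ℂ × ℂ, p.1 ≠ 0 → p.2 ≠ 0 → ‖p.1‖ ≤ 1 → ‖p.2‖ ≤ 1 →
      ‖p.1‖ ^ a * ‖p.2‖ ^ b * ‖V p‖ ≤
        A * (‖p.1‖ ^ (-m1 n1 n2 c j - 1) * ‖p.2‖ ^ (-m2 n1 n2 c j - 1)) ∧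
      ‖p.1‖ ^ (-m1 n1 n2 c j - 1) * ‖p.2‖ ^ (-m2 n1 n2 c j - 1) ≤
        B * (‖p.1‖ ^ a * ‖p.2‖ ^ b * ‖V p‖) := by
    intro p hp1 hp2 hn1 hn2
    have hp : p ∈ AJ387.BD 2 2 := ⟨by linarith, by linarith⟩
    obtain ⟨h1, h2⟩ := h p hp hp1 hp2
    obtain ⟨h3, h4⟩ := hbd p hp1 hp2 hn1 hn2
    have hδ : 0 < ‖coordDeriv f 0 (T.thS c (S.r c) (S.ζ c j) p)‖ := norm_pos_iff.2 h1
    rw [h2, norm_mul, norm_mul, norm_mul, norm_zpow, norm_zpow] at h3 h4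
    constructor
    · refine le_of_mul_le_mul_left ?_ hδ
      calc _ = ‖coordDeriv f 0 (T.thS c (S.r c) (S.ζ c j) p)‖ * ‖p.1‖ ^ a * ‖p.2‖ ^ b * ‖V p‖ := by
            ring
        _ ≤ _ := h3
        _ = _ := by ring
    · refine le_of_mul_le_mul_left ?_ hδ
      calc _ ≤ _ := h4
        _ = _ := by ring
  have ha : a = -m1 n1 n2 c j - 1 := by
    have h0 : ((0 : ℂ), (1 : ℂ)) ∈ AJ387.BD 2 2 := ⟨by simp, by simp⟩
    have hc1 : ContinuousAt (fun z : ℂ => V (z, 1)) 0 :=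
      ContinuousAt.comp (g := V) (f := fun z : ℂ => (z, (1 : ℂ))) (x := 0) (hV _ h0).continuousAt
        (by fun_prop)
    refine exp_eq hc1 (hV0 _ h0) hA (B := B) ?_ ?_
    · intro t ht ht1
      have h1 := (key ((t : ℂ), 1) (Complex.ofReal_ne_zero.2 ht.ne') one_ne_zero
        (by rw [Complex.norm_real, Real.norm_of_nonneg ht.le]; exact ht1.le) (by simp)).1
      simpa [abs_of_pos ht] using h1
    · intro t ht ht1
      have h1 := (key ((t : ℂ), 1) (Complex.ofReal_ne_zero.2 ht.ne') one_ne_zero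
        (by rw [Complex.norm_real, Real.norm_of_nonneg ht.le]; exact ht1.le) (by simp)).2
      simpa [abs_of_pos ht] using h1
  have hb : b = -m2 n1 n2 c j - 1 := by
    have h0 : ((1 : ℂ), (0 : ℂ)) ∈ AJ387.BD 2 2 := ⟨by simp, by simp⟩
    have hc1 : ContinuousAt (fun z : ℂ => V (1, z)) 0 :=
      ContinuousAt.comp (g := V) (f := fun z : ℂ => ((1 : ℂ), z)) (x := 0) (hV _ h0).continuousAt
        (by fun_prop)
    refine exp_eq hc1 (hV0 _ h0) hA (B := B) ?_ ?_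
    · intro t ht ht1
      have h1 := (key (1, (t : ℂ)) one_ne_zero (Complex.ofReal_ne_zero.2 ht.ne') (by simp)
        (by rw [Complex.norm_real, Real.norm_of_nonneg ht.le]; exact ht1.le)).1
      simpa [abs_of_pos ht] using h1
    · intro t ht ht1
      have h1 := (key (1, (t : ℂ)) one_ne_zero (Complex.ofReal_ne_zero.2 ht.ne') (by simp)
        (by rw [Complex.norm_real, Real.norm_of_nonneg ht.le]; exact ht1.le)).2
      simpa [abs_of_pos ht] using h1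
  subst ha
  subst hb
  exact ⟨V, hV, hV0, h⟩

end Crest.Agent.R257.FrBP_808
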