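import Mathlib
import Crest.Agent.R257.T9_387

/-!
Row 257 (S0395), part C, T-frame, file 10 (helper387): coverage and finiteness of the fibres of the
scaled charts.
-/

set_option autoImplicit false
set_option linter.unusedSectionVars false

open Polynomial Set Filter Topology Metric
open Crest.AlgGeometry.Germ Crest.Agent.R257.AJ387 Crest.Agent.R257.Defs_219
open Crest.Agent.R257.T0_387 (ptL ptL_apply an_coordDeriv isolated)
open Crest.Agent.R257.Fr_808 (jac2)

noncomputable section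

namespace Crest.Agent.R257.T387

/-- `x ^ n = c` has at most `n` solutions -/
lemma encard_pow_le {n : ℕ} (hn : 0 < n) (c : ℂ) : {x : ℂ | x ^ n = c}.encard ≤ n := by
  classical
  have h0 : (X ^ n - C c : ℂ[X]) ≠ 0 := X_pow_sub_C_ne_zero hn c
  have h1 : {x : ℂ | x ^ n = c} ⊆ ((X ^ n - C c : ℂ[X]).roots.toFinset : Set ℂ) := by
    intro x hx
    rw [Finset.mem_coe, Multiset.mem_toFinset, mem_roots h0, IsRoot.def]
    simp only [eval_sub, eval_pow, eval_X, eval_C]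
    rw [sub_eq_zero]
    exact hx
  refine (Set.encard_le_encard h1).trans ?_
  rw [Set.encard_coe_eq_coe_finsetCard]
  have h2 : (X ^ n - C c : ℂ[X]).roots.toFinset.card ≤ n :=
    (Multiset.toFinset_card_le _).trans ((card_roots' _).trans (natDegree_X_pow_sub_C).le)
  exact_mod_cast h2

lemma encard_biUnion_le' {α β : Type*} [DecidableEq α] (F : Finset α) (s : α → Set β) :
    (⋃ a ∈ F, s a).encard ≤ ∑ a ∈ F, (s a).encard := by
  induction F using Finset.induction_on with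
  | empty => simp
  | insert a F ha ih =>
    rw [Finset.sum_insert ha, Finset.set_biUnion_insert]
    exact (Set.encard_union_le _ _).trans (by gcongr)

namespace TB

variable {f : (Fin 3 → ℂ) → ℂ} (T : TB f)

/-- the fibres of a chart map over nonzero points are uniformly finite -/
theorem encard_map_le {c : Ch T.m} (hc : T.Valid c) : ∃ n : ℕ, ∀ q : ℂ × ℂ, q ≠ 0 →
    {p | T.map c p = q}.encard ≤ n := by
  have hM := T.M_pos
  cases c with
  | edge i k k' =>
    have hkk : k < k' := hc.2.2.1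
    have hk' : 0 < T.M * k' := Nat.mul_pos hM (by omega)
    have hd : 0 < T.M * (k' - k) := Nat.mul_pos hM (by omega)
    refine ⟨T.M * k' + T.M * (k' - k), fun q hq => ?_⟩
    by_cases h0 : q.1 = 0
    · -- the set injects by `β`
      refine le_trans ?_ (le_trans (encard_pow_le hk' q.2) (by push_cast; exact le_self_add))
      refine Set.encard_le_encard_of_injOn (f := fun p : ℂ × ℂ => p.2) ?_ ?_
      · intro p hp
        have hp1 : p.1 * p.2 = q.1 := congrArg Prod.fst hp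
        have hp2 : T.φ i ((p.1 * p.2) ^ T.M) + p.1 ^ (T.M * k) * p.2 ^ (T.M * k') = q.2 :=
          congrArg Prod.snd hp
        rw [hp1, h0, zero_pow hM.ne', T.φ_zero, zero_add] at hp2
        have hne : q.2 ≠ 0 := fun h => hq (Prod.ext h0 h)
        have hb : p.2 ≠ 0 := by
          rintro h
          rw [h, zero_pow hk'.ne', mul_zero] at hp2
          exact hne hp2.symm
        have ha : p.1 = 0 := by
          rcases mul_eq_zero.1 (hp1.trans h0) with h | h
          · exact h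
          · exact absurd h hb
        have hk : T.M * k = 0 := by
          by_contra h
          rw [ha, zero_pow h, zero_mul] at hp2
          exact hne hp2.symm
        rw [hk, pow_zero, one_mul] at hp2
        exact hp2
      · intro p hp p' hp' h
        have hne : q.2 ≠ 0 := fun h => hq (Prod.ext h0 h)
        have aux : ∀ p : ℂ × ℂ, T.map (.edge i k k') p = q → p.1 = 0 := by
          intro p hp
          have hp1 : p.1 * p.2 = q.1 := congrArg Prod.fst hp
          have hp2 : T.φ i ((p.1 * p.2) ^ T.M) + p.1 ^ (T.M * k) * p.2 ^ (T.M * k') = q.2 :=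
            congrArg Prod.snd hp
          rw [hp1, h0, zero_pow hM.ne', T.φ_zero, zero_add] at hp2
          rcases mul_eq_zero.1 (hp1.trans h0) with h | h
          · exact h
          · rw [h, zero_pow hk'.ne', mul_zero] at hp2
            exact absurd hp2.symm hne
        exact Prod.ext ((aux p hp).trans (aux p' hp').symm) h
    · have hs : ∀ p : ℂ × ℂ, T.map (.edge i k k') p = q → p.1 * p.2 = q.1 ∧ p.1 ≠ 0 ∧ p.2 ≠ 0 ∧
          p.1 ^ (T.M * k) * p.2 ^ (T.M * k') = q.2 - T.φ i (q.1 ^ T.M) := by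
        intro p hp
        have hp1 : p.1 * p.2 = q.1 := congrArg Prod.fst hp
        have hp2 : T.φ i ((p.1 * p.2) ^ T.M) + p.1 ^ (T.M * k) * p.2 ^ (T.M * k') = q.2 :=
          congrArg Prod.snd hp
        rw [hp1] at hp2
        have h1 : p.1 ≠ 0 := fun h => h0 (by rw [← hp1, h, zero_mul])
        have h2 : p.2 ≠ 0 := fun h => h0 (by rw [← hp1, h, mul_zero])
        exact ⟨hp1, h1, h2, by rw [← hp2]; ring⟩
      refine le_trans ?_ (le_trans (encard_pow_le hd ((q.2 - T.φ i (q.1 ^ T.M)) / q.1 ^ (T.M * k)))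
        (by push_cast; exact le_add_self))
      refine Set.encard_le_encard_of_injOn (f := fun p : ℂ × ℂ => p.2) ?_ ?_
      · intro p hp
        obtain ⟨h1, h2, h3, h4⟩ := hs p hp
        show p.2 ^ (T.M * (k' - k)) = _
        rw [eq_div_iff (pow_ne_zero _ h0), ← h4, ← h1, mul_pow]
        have : T.M * k' = T.M * (k' - k) + T.M * k := by
          rw [← mul_add]; congr 1; omega
        rw [this, pow_add]
        ring
      · intro p hp p' hp' h
        obtain ⟨h1, h2, h3, h4⟩ := hs p hp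
        obtain ⟨h1', h2', h3', h4'⟩ := hs p' hp'
        have h : p.2 = p'.2 := h
        refine Prod.ext ?_ h
        have h5 : p.1 * p.2 = p'.1 * p.2 := by rw [h1, h, h1']
        exact mul_right_cancel₀ h3 h5
  | leg i =>
    have htop : T.M * T.top i ≠ 0 := mul_ne_zero hM.ne' (T.lev_pos (T.top_mem i)).ne'
    refine ⟨T.M, fun q hq => ?_⟩
    have hs : ∀ p : ℂ × ℂ, T.map (.leg i) p = q → p.1 = q.1 ∧ p.1 ≠ 0 ∧
        p.1 ^ (T.M * T.top i) * p.2 ^ T.M = q.2 - T.φ i (q.1 ^ T.M) := by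
      intro p hp
      have hp1 : (T.map (.leg i) p).1 = q.1 := congrArg Prod.fst hp
      change p.1 = q.1 at hp1
      have hp2 : (T.map (.leg i) p).2 = q.2 := congrArg Prod.snd hp
      change T.φ i (p.1 ^ T.M) + p.1 ^ (T.M * T.top i) * p.2 ^ T.M = q.2 at hp2
      have h1 : p.1 ≠ 0 := by
        intro h
        rw [h, zero_pow hM.ne', T.φ_zero, zero_pow htop, zero_mul, zero_add] at hp2
        exact hq (Prod.ext (by rw [← hp1, h]; rfl) hp2.symm)
      exact ⟨hp1, h1, by rw [← hp2, ← hp1]; ring⟩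
    refine le_trans ?_ (encard_pow_le hM ((q.2 - T.φ i (q.1 ^ T.M)) / q.1 ^ (T.M * T.top i)))
    refine Set.encard_le_encard_of_injOn (f := fun p : ℂ × ℂ => p.2) ?_ ?_
    · intro p hp
      obtain ⟨h1, h2, h3⟩ := hs p hp
      show p.2 ^ T.M = _
      rw [← h1] at h3 ⊢
      rw [eq_div_iff (pow_ne_zero _ h2), ← h3]
      ring
    · intro p hp p' hp' h
      exact Prod.ext ((hs p hp).1.trans (hs p' hp').1.symm) h
  | vert i k w₀ =>
    have hk : T.M * k ≠ 0 := mul_ne_zero hM.ne' (T.lev_pos hc.1).ne'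
    refine ⟨1, fun q hq => ?_⟩
    have hs : ∀ p : ℂ × ℂ, T.map (.vert i k w₀) p = q → p.1 = q.1 ∧ p.1 ≠ 0 ∧
        p.1 ^ (T.M * k) * (w₀ + p.2) = q.2 - T.φ i (q.1 ^ T.M) := by
      intro p hp
      have hp1 : (T.map (.vert i k w₀) p).1 = q.1 := congrArg Prod.fst hp
      change p.1 = q.1 at hp1
      have hp2 : (T.map (.vert i k w₀) p).2 = q.2 := congrArg Prod.snd hp
      change T.φ i (p.1 ^ T.M) + p.1 ^ (T.M * k) * (w₀ + p.2) = q.2 at hp2
      have h1 : p.1 ≠ 0 := by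
        intro h
        rw [h, zero_pow hM.ne', T.φ_zero, zero_pow hk, zero_mul, zero_add] at hp2
        exact hq (Prod.ext (by rw [← hp1, h]; rfl) hp2.symm)
      exact ⟨hp1, h1, by rw [← hp2, ← hp1]; ring⟩
    rw [Nat.cast_one, Set.encard_le_one_iff]
    intro p p' hp hp'
    obtain ⟨h1, h2, h3⟩ := hs p hp
    obtain ⟨h1', h2', h3'⟩ := hs p' hp'
    have h4 : p.1 = p'.1 := h1.trans h1'.symm
    refine Prod.ext h4 ?_
    have h5 : p.1 ^ (T.M * k) * (w₀ + p.2) = p.1 ^ (T.M * k) * (w₀ + p'.2) := by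
      rw [h3, h4, h3']
    exact add_left_cancel (mul_left_cancel₀ (pow_ne_zero _ h2) h5)

/-- the base point of a point of `ℂ³` -/
def bs (x : Fin 3 → ℂ) : ℂ × ℂ := T.A.symm (x 1, x 2)

lemma bs_th (c : Ch T.m) (z : ℂ × ℂ → ℂ) (p : ℂ × ℂ) :
    T.bs (T.th c z p) = ((T.map c p).1 ^ T.N, (T.map c p).2) := by
  unfold bs
  show T.A.symm (T.A ((T.map c p).1 ^ T.N, (T.map c p).2)) = _
  rw [ContinuousLinearEquiv.symm_apply_apply]

lemma eq_pt_bs (x : Fin 3 → ℂ) : x = pt (x 0) (T.A (T.bs x)) := by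
  unfold bs
  rw [ContinuousLinearEquiv.apply_symm_apply]
  funext i
  fin_cases i <;> rfl

/-- **finite fibres** -/
theorem thS_mult {c : Ch T.m} (hc : T.Valid c) {R : ℝ} {ζ : Fin T.d → ℂ × ℂ → ℂ} (hR : 0 < R)
    (hS : T.Sheets c (2 * R) ζ) : ∃ n : ℕ, ∀ (j : Fin T.d) (x : Fin 3 → ℂ), x ≠ 0 →
      {p | p ∈ BD 2 2 ∧ T.thS c R (ζ j) p = x}.encard ≤ n := by
  classical
  obtain ⟨n, hn⟩ := T.encard_map_le hc
  refine ⟨T.N * n, fun j x hx => ?_⟩
  by_cases hb : T.bs x = 0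
  · -- empty fibre
    have : {p | p ∈ BD 2 2 ∧ T.thS c R (ζ j) p = x} = ∅ := by
      ext p
      simp only [mem_ofPred_eq, mem_empty_iff_false, iff_false, not_and]
      intro hp h
      apply hx
      rw [← h, thS, hS.th_zero hc j (sg_mem2 hR hp), ← T.map_eq_zero hc]
      have h1 : T.bs (T.th c (ζ j) (T.sg c R p)) = 0 := by
        have : T.th c (ζ j) (T.sg c R p) = x := h
        rw [this, hb]
      rw [bs_th, Prod.mk_eq_zero] at h1
      exact Prod.ext (pow_eq_zero_iff T.N_pos.ne' |>.1 h1.1) h1.2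
    rw [this]
    simp
  · have hfin : {s : ℂ | s ^ T.N = (T.bs x).1}.encard ≤ T.N := encard_pow_le T.N_pos _
    have hf : {s : ℂ | s ^ T.N = (T.bs x).1}.Finite :=
      Set.finite_of_encard_le_coe hfin
    have hsub : ∀ p ∈ {p | p ∈ BD 2 2 ∧ T.thS c R (ζ j) p = x},
        T.sg c R p ∈ (⋃ s ∈ hf.toFinset, {p | T.map c p = (s, (T.bs x).2)}) := by
      rintro p ⟨hp, h⟩
      have h1 : T.bs (T.th c (ζ j) (T.sg c R p)) = T.bs x := congrArg T.bs h
      rw [bs_th] at h1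
      simp only [mem_iUnion]
      have e1 : (T.map c (T.sg c R p)).1 ^ T.N = (T.bs x).1 := by rw [← h1]
      have e2 : (T.map c (T.sg c R p)).2 = (T.bs x).2 := by rw [← h1]
      refine ⟨(T.map c (T.sg c R p)).1, ?_, ?_⟩
      · rw [Set.Finite.mem_toFinset]
        exact e1
      · exact Prod.ext rfl e2
    refine (Set.encard_le_encard_of_injOn hsub (T.sg_inj c hR).injOn).trans ?_
    refine (encard_biUnion_le' _ _).trans ?_
    have h2 : ∀ s ∈ hf.toFinset, {p | T.map c p = (s, (T.bs x).2)}.encard ≤ (n : ℕ∞) := by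
      intro s hs
      refine hn _ fun h => hb ?_
      rw [Set.Finite.mem_toFinset] at hs
      rw [Prod.mk_eq_zero] at h
      refine Prod.ext ?_ h.2
      have : s ^ T.N = (T.bs x).1 := hs
      rw [← this, h.1, zero_pow T.N_pos.ne']
      rfl
    refine (Finset.sum_le_sum h2).trans ?_
    rw [Finset.sum_const, nsmul_eq_mul]
    have h3 : (hf.toFinset.card : ℕ∞) ≤ T.N := by
      rw [← Set.encard_coe_eq_coe_finsetCard, Set.Finite.coe_toFinset]
      exact hfin
    calc (hf.toFinset.card : ℕ∞) * (n : ℕ∞) ≤ (T.N : ℕ∞) * n := by gcongr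
      _ = ((T.N * n : ℕ) : ℕ∞) := by push_cast; rfl

/-- **coverage** -/
theorem thS_cover {F : Finset (Ch T.m)} {R : Ch T.m → ℝ} {ζ : Ch T.m → Fin T.d → ℂ × ℂ → ℂ}
    (hR : ∀ c ∈ F, 0 < R c) (hS : ∀ c ∈ F, T.Sheets c (2 * R c) (ζ c))
    (hcov : ∃ ε > 0, ∀ s y : ℂ, ‖s‖ < ε → ‖y‖ < ε → (s, y) ≠ 0 →
      ∃ c ∈ F, ∃ p : ℂ × ℂ, ‖p.1‖ ≤ R c ∧ ‖p.2‖ ≤ R c ∧ T.map c p = (s, y)) :
    ∃ ρ > 0, ∀ x : Fin 3 → ℂ, x ≠ 0 → ‖x‖ < ρ → f x = 0 →
      ∃ c ∈ F, ∃ j, ∃ p : ℂ × ℂ, ‖p.1‖ ≤ 1 ∧ ‖p.2‖ ≤ 1 ∧ T.thS c (R c) (ζ c j) p = x := by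
  obtain ⟨ε, hε, hcov⟩ := hcov
  have hcont : Continuous fun x : Fin 3 → ℂ => (T.bs x, x 0) := by
    have : Continuous T.bs := T.A.symm.continuous.comp (by fun_prop)
    fun_prop
  have h0 : T.bs 0 = 0 := by
    unfold bs
    exact map_zero T.A.symm
  have hopen : IsOpen {y : (ℂ × ℂ) × ℂ | ‖y.1.1‖ < ε ^ T.N ∧ ‖y.1.2‖ < ε ∧ y.1 ∈ BD T.R T.R ∧
      ‖y.2‖ < T.rz} := by
    have c1 : Continuous fun y : (ℂ × ℂ) × ℂ => ‖y.1.1‖ := by fun_prop
    have c2 : Continuous fun y : (ℂ × ℂ) × ℂ => ‖y.1.2‖ := by fun_prop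
    have c3 : Continuous fun y : (ℂ × ℂ) × ℂ => ‖y.2‖ := by fun_prop
    exact IsOpen.inter (isOpen_lt c1 continuous_const) (IsOpen.inter
      (isOpen_lt c2 continuous_const) (IsOpen.inter
      ((isOpen_BD _ _).preimage continuous_fst) (isOpen_lt c3 continuous_const)))
  have hmem : ∀ᶠ x : Fin 3 → ℂ in 𝓝 0, (T.bs x, x 0) ∈ {y : (ℂ × ℂ) × ℂ | ‖y.1.1‖ < ε ^ T.N ∧
      ‖y.1.2‖ < ε ∧ y.1 ∈ BD T.R T.R ∧ ‖y.2‖ < T.rz} := by
    refine (hcont.tendsto 0).eventually (hopen.mem_nhds ?_)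
    rw [h0]
    refine ⟨?_, ?_, ⟨?_, ?_⟩, ?_⟩
    · simpa using pow_pos hε _
    · simpa using hε
    · simpa using T.R_pos
    · simpa using T.R_pos
    · simpa using T.rz_pos
  obtain ⟨ρ, hρ, hb⟩ := Metric.eventually_nhds_iff_ball.1 hmem
  refine ⟨ρ, hρ, fun x hx hxρ hfx => ?_⟩
  obtain ⟨h1, h2, h3, h4⟩ := hb x (by rwa [mem_ball_zero_iff])
  simp only at h1 h2 h3 h4
  -- `f x = 0`
  have h5 : (T.P (T.bs x)).eval (x 0) = 0 := by
    have h6 := T.f_eq _ h3 _ h4.le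
    rw [← T.eq_pt_bs, hfx] at h6
    exact (mul_eq_zero.1 h6.symm).resolve_left (T.v_ne _ h3 _ h4.le)
  have hbs : T.bs x ≠ 0 := by
    intro h
    rw [h, T.P_zero, eval_pow, eval_X] at h5
    apply hx
    rw [T.eq_pt_bs x, h, map_zero, pow_eq_zero_iff T.d_pos.ne' |>.1 h5]
    funext i
    fin_cases i <;> rfl
  obtain ⟨s, hs⟩ := IsAlgClosed.exists_pow_nat_eq (T.bs x).1 T.N_pos
  have hsε : ‖s‖ < ε := by
    rw [← hs, norm_pow] at h1
    exact lt_of_pow_lt_pow_left₀ _ hε.le h1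
  have hne : (s, (T.bs x).2) ≠ 0 := by
    intro h
    rw [Prod.mk_eq_zero] at h
    apply hbs
    refine Prod.ext ?_ h.2
    rw [← hs, h.1, zero_pow T.N_pos.ne']
    rfl
  obtain ⟨c, hc, p, hp1, hp2, hp⟩ := hcov s _ hsε h2 hne
  have hRc := hR c hc
  have hpB : p ∈ BD (2 * R c) (2 * R c) := ⟨by linarith, by linarith⟩
  have h6 : T.Q (T.map c p) = T.P (T.bs x) := by
    rw [hp, Q]
    simp only
    rw [hs]
  rw [← h6, (hS c hc).split p hpB, eval_prod] at h5
  obtain ⟨j, -, hj⟩ := Finset.prod_eq_zero_iff.1 h5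
  simp only [eval_sub, eval_X, eval_C] at hj
  obtain ⟨p', hp1', hp2', hp'⟩ := T.sg_surj c hRc p hp1 hp2
  refine ⟨c, hc, j, p', hp1', hp2', ?_⟩
  rw [thS, hp', T.eq_pt_bs x]
  show pt (ζ c j p) (T.A ((T.map c p).1 ^ T.N, (T.map c p).2)) = _
  rw [hp, sub_eq_zero.1 hj]
  simp only
  rw [hs]

end TB

end Crest.Agent.R257.T387
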