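import Crest.Agent.R257.FrmF2_547
import Crest.Agent.R257.LabI_387
import Crest.Agent.R257.T10_387

/-!
R257 / FrmG_547 (task C-FRAME): coverage of `{f = 0} - 0` by the sheets of one graph component.

* `adjc_of_closed` : a set of labels closed under `Mx L E E' ≠ 0` is a union of graph components;
* `frame_cover`    : for such a (non-empty) set `g`, the sheets of the canonical charts of a finite cover
                     with labels in `g` cover `{f = 0} - 0` near `0`;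
* `exists_F`       : a finite set of canonical charts with this property, for all `g`, such that every
                     label is the label of a vertex chart.
-/

set_option autoImplicit false
set_option linter.unusedSectionVars false

open Set Filter Topology Metric
open Crest.AlgGeometry.Germ Crest.Agent.R257.AJ387 Crest.Agent.R257.T387
open Crest.Agent.R257.Defs_219
open Crest.Agent.R257.FrmE_547 Crest.Agent.R257.BP_258 Crest.Agent.R257.FrmF_547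

noncomputable section

namespace Crest.Agent.R257.FrmG_547

variable {f : (Fin 3 → ℂ) → ℂ} {T : TB f} {U : Tub T} {S : Sh T} (L : Lab U S)

/-- sets of labels closed under adjacency are unions of graph components -/
theorem adjc_of_closed {g : II U → Prop} (h : ∀ E E', g E → Mx L E E' ≠ 0 → g E') :
    Adjc L g := by
  intro v hv j E E' h1 h2
  have hok : Ok S (ec S v) := LabI_387.ec_ok (S := S) hv
  have hne : E ≠ E' := by
    rintro rfl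
    have e1 := v1_of_some L hok h1
    have e2 := v2_of_some L hok h2
    have e3 : v1 T (ec S v) = v2 T (ec S v) := e1.trans e2.symm
    have hk := (S.kp_cons v hv).2.2.1
    by_cases h0 : S.kp v = 0
    · simp [ec, v1, v2, h0] at e3
    · simp only [ec, v1, v2, h0, if_false, Option.some.injEq] at e3
      have := congrArg Prod.fst e3
      simp only [vx] at this
      omega
  have hpos : 0 < Mx L E E' := by
    rw [LabI_387.Mx_eq]
    exact GrH_547.LM_pos LabI_387.hc_pos hne (h := (⟨⟨v, hv⟩, j⟩ : LabI_387.HE T))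
      (Or.inl ⟨h1, h2⟩)
  have hpos' : 0 < Mx L E' E := by
    rw [LabI_387.Mx_eq]
    exact GrH_547.LM_pos LabI_387.hc_pos hne.symm (h := (⟨⟨v, hv⟩, j⟩ : LabI_387.HE T))
      (Or.inr ⟨h1, h2⟩)
  exact ⟨fun hg => h E E' hg hpos.ne', fun hg => h E' E hg hpos'.ne'⟩

/-- **coverage by the sheets with labels in `g`** -/
theorem frame_cover (hf : Iso f) (hR : RetStmt U) {F : Finset (Ch T.m)} (hF : ∀ c ∈ F, Ok S c)
    (hcov : ∃ ε > 0, ∀ s y : ℂ, ‖s‖ < ε → ‖y‖ < ε → (s, y) ≠ 0 → ∃ c ∈ F, ∃ p : ℂ × ℂ,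
      ‖p.1‖ ≤ S.r c ∧ ‖p.2‖ ≤ S.r c ∧ T.map c p = (s, y))
    {g : II U → Prop} (h : ∀ E E', g E → Mx L E E' ≠ 0 → g E')
    {c₀ : Ch T.m} {j₀ : Fin T.d} {E₀ : II U} (hc₀ : c₀ ∈ F)
    (hE₀ : L.e1 c₀ j₀ = some E₀ ∨ L.e2 c₀ j₀ = some E₀) (hg : g E₀) :
    ∃ ρ > 0, ∀ x : Fin 3 → ℂ, x ≠ 0 → ‖x‖ < ρ → f x = 0 → ∃ c ∈ F, ∃ j,
      (∃ E, (L.e1 c j = some E ∨ L.e2 c j = some E) ∧ g E) ∧
      (∀ E, (L.e1 c j = some E ∨ L.e2 c j = some E) → g E) ∧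
      ∃ p : ℂ × ℂ, ‖p.1‖ ≤ 1 ∧ ‖p.2‖ ≤ 1 ∧ T.thS c (S.r c) (S.ζ c j) p = x := by
  have hadj := adjc_of_closed L h
  let C : Cov T :=
    { F := F
      r := S.r
      ζ := S.ζ
      valid := fun c hc => (hF c hc).1
      r_pos := fun c _ => S.pos c
      sheets := fun c hc => S.sheets c (hF c hc).1
      cov := by
        obtain ⟨ε, hε, h1⟩ := hcov
        refine ⟨ε, hε, fun s y hs hy h0 => ?_⟩
        obtain ⟨c, hc, p, a1, a2, a3⟩ := h1 s y hs hy h0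
        exact ⟨c, hc, p, ⟨a1, a2⟩, a3⟩ }
  obtain ⟨ρ, hρ, hc⟩ := cover_abs hf C (GS L g) (tie L hR hadj F hF) hc₀
    (show GS L g c₀ j₀ from ⟨E₀, hE₀, hg⟩)
  refine ⟨ρ, hρ, fun x hx0 hx hfx => ?_⟩
  obtain ⟨c, hcF, j, hG, q, hq, hqx⟩ := hc x hx0 hx hfx
  obtain ⟨p, h1, h2, h3⟩ := T.sg_surj c (S.pos c) q hq.1 hq.2
  refine ⟨c, hcF, j, hG, fun E hE => (GS_iff L hadj (hF c hcF) hE).1 hG, p, h1, h2, ?_⟩
  unfold TB.thS
  rw [h3]
  exact hqx

/-- **a finite set of canonical charts** -/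
theorem exists_F (hf : Iso f) (hR : RetStmt U) [Finite (II U)]
    (hcovP : ∃ F : Finset (Ch T.m), (∀ c ∈ F, Ok S c) ∧ ∃ ε > 0, ∀ s y : ℂ, ‖s‖ < ε → ‖y‖ < ε →
      (s, y) ≠ 0 → ∃ c ∈ F, ∃ p : ℂ × ℂ, ‖p.1‖ ≤ S.r c ∧ ‖p.2‖ ≤ S.r c ∧ T.map c p = (s, y)) :
    ∃ F : Finset (Ch T.m), (∀ c ∈ F, Ok S c) ∧
      (∀ E : II U, ∃ c ∈ F, IsV c ∧ ∃ j, L.e1 c j = some E) ∧
      (∃ ε > 0, ∀ s y : ℂ, ‖s‖ < ε → ‖y‖ < ε → (s, y) ≠ 0 → ∃ c ∈ F, ∃ p : ℂ × ℂ,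
        ‖p.1‖ ≤ S.r c ∧ ‖p.2‖ ≤ S.r c ∧ T.map c p = (s, y)) ∧
      ∀ g : II U → Prop, (∀ E E', g E → Mx L E E' ≠ 0 → g E') → (∃ E, g E) →
        ∃ ρ > 0, ∀ x : Fin 3 → ℂ, x ≠ 0 → ‖x‖ < ρ → f x = 0 → ∃ c ∈ F, ∃ j,
          (∃ E, (L.e1 c j = some E ∨ L.e2 c j = some E) ∧ g E) ∧
          (∀ E, (L.e1 c j = some E ∨ L.e2 c j = some E) → g E) ∧
          ∃ p : ℂ × ℂ, ‖p.1‖ ≤ 1 ∧ ‖p.2‖ ≤ 1 ∧ T.thS c (S.r c) (S.ζ c j) p = x := by
  classical
  have := Fintype.ofFinite (II U)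
  obtain ⟨F₀, hF₀, hcov⟩ := hcovP
  choose cv h1 h2 jv h3 using fun E : II U => LabI_387.exists_vert L E
  set F : Finset (Ch T.m) := F₀ ∪ Finset.univ.image cv with hF
  have hFok : ∀ c ∈ F, Ok S c := by
    intro c hc
    rcases Finset.mem_union.1 hc with h | h
    · exact hF₀ c h
    · obtain ⟨E, -, rfl⟩ := Finset.mem_image.1 h
      exact h1 E
  have hmem : ∀ E, cv E ∈ F := fun E =>
    Finset.mem_union_right _ (Finset.mem_image_of_mem _ (Finset.mem_univ _))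
  have hcov' : ∃ ε > 0, ∀ s y : ℂ, ‖s‖ < ε → ‖y‖ < ε → (s, y) ≠ 0 → ∃ c ∈ F, ∃ p : ℂ × ℂ,
      ‖p.1‖ ≤ S.r c ∧ ‖p.2‖ ≤ S.r c ∧ T.map c p = (s, y) := by
    obtain ⟨ε, hε, h⟩ := hcov
    refine ⟨ε, hε, fun s y a b d => ?_⟩
    obtain ⟨c, hc, p, hp⟩ := h s y a b d
    exact ⟨c, Finset.mem_union_left _ hc, p, hp⟩
  refine ⟨F, hFok, fun E => ⟨cv E, hmem E, h2 E, jv E, h3 E⟩, hcov', fun g hg ⟨E, hE⟩ => ?_⟩
  exact frame_cover L hf hR hFok hcov' hg (hmem E) (Or.inl (h3 E)) hE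

end Crest.Agent.R257.FrmG_547
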