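import Crest.Agent.R257.FrBP1_808
import Crest.Agent.R257.FrBP2_808
import Crest.Agent.R257.FrmG_547

/-!
R257 / FrBP3_808: labels and orders in the scaled charts `T.thS c (S.r c) (S.ζ c j)`.

* `l1 L c j`, `l2 L c j` : labels of the first and second axis of the scaled chart;
* `ord_thS`              : `OrdStmt` in the scaled charts.
-/

set_option autoImplicit false
set_option linter.unusedSectionVars false

open Polynomial Set Filter Topology Metric
open Crest.AlgGeometry.Germ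

noncomputable section

namespace Crest.Agent.R257.FrBP_808

open Crest.Agent.R257.Defs_219 Crest.Agent.R257.AJ387 Crest.Agent.R257.T387
open Crest.Agent.R257.BP_258 Crest.Agent.R257.FrmF_547
open Crest.Agent.R257.Gr1_157
open Crest.Agent.R257.Fr_808 (jac2)

variable {f : (Fin 3 → ℂ) → ℂ} {T : TB f} {U : Tub T} {S : Sh T} (L : Lab U S)

/-- label of the first axis of the scaled chart -/
def l1 (c : Ch T.m) (j : Fin T.d) : Option (II U) := if T.IsTop c then L.e2 c j else L.e1 c j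

/-- label of the second axis of the scaled chart -/
def l2 (c : Ch T.m) (j : Fin T.d) : Option (II U) := if T.IsTop c then none else L.e2 c j

variable {L}

theorem not_top_of_V {c : Ch T.m} (h : IsV c) : ¬ T.IsTop c := by
  cases c with
  | edge i k k' => exact absurd h (by simp [IsV])
  | leg i => simp [TB.IsTop]
  | vert i k w => simp [TB.IsTop]

theorem l1_top {c : Ch T.m} (h : T.IsTop c) (j : Fin T.d) : l1 L c j = L.e2 c j := if_pos h

theorem l1_not {c : Ch T.m} (h : ¬ T.IsTop c) (j : Fin T.d) : l1 L c j = L.e1 c j := if_neg h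

theorem l2_top {c : Ch T.m} (h : T.IsTop c) (j : Fin T.d) : l2 L c j = none := if_pos h

theorem l2_not {c : Ch T.m} (h : ¬ T.IsTop c) (j : Fin T.d) : l2 L c j = L.e2 c j := if_neg h

theorem e1_top {c : Ch T.m} (hc : Ok S c) (h : T.IsTop c) (j : Fin T.d) : L.e1 c j = none := by
  refine e1_none L hc j ?_
  cases c with
  | edge i k k' =>
    have h0 : k = 0 := h
    simp [v1, h0]
  | leg i => exact absurd h (by simp [TB.IsTop])
  | vert i k w => exact absurd h (by simp [TB.IsTop])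

theorem l1_some {c : Ch T.m} (hc : Ok S c) (j : Fin T.d) : ∃ E, l1 L c j = some E := by
  cases c with
  | edge i k k' =>
    by_cases h0 : k = 0
    · have ht : T.IsTop (.edge i k k') := h0
      rw [l1_top ht]
      obtain ⟨E, hE, -⟩ := e2_some L hc j (v := vx T i k') rfl
      exact ⟨E, hE⟩
    · have ht : ¬ T.IsTop (.edge i k k') := h0
      rw [l1_not ht]
      obtain ⟨E, hE, -⟩ := e1_some L hc j (v := vx T i k) (by simp [v1, h0])
      exact ⟨E, hE⟩
  | leg i =>
    have ht : ¬ T.IsTop (.leg i) := by simp [TB.IsTop]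
    rw [l1_not ht]
    obtain ⟨E, hE, -⟩ := e1_some L hc j (v := vx T i (T.top i)) rfl
    exact ⟨E, hE⟩
  | vert i k w =>
    have ht : ¬ T.IsTop (.vert i k w) := by simp [TB.IsTop]
    rw [l1_not ht]
    obtain ⟨E, hE, -⟩ := e1_some L hc j (v := vx T i k) rfl
    exact ⟨E, hE⟩

theorem l2_none_iff {c : Ch T.m} (hc : Ok S c) (j : Fin T.d) : l2 L c j = none ↔ T.NE c := by
  cases c with
  | edge i k k' =>
    by_cases h0 : k = 0
    · have ht : T.IsTop (.edge i k k') := h0
      rw [l2_top ht]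
      simp [TB.NE, h0]
    · have ht : ¬ T.IsTop (.edge i k k') := h0
      rw [l2_not ht]
      obtain ⟨E, hE, -⟩ := e2_some L hc j (v := vx T i k') rfl
      rw [hE]
      simp [TB.NE, h0]
  | leg i =>
    have ht : ¬ T.IsTop (.leg i) := by simp [TB.IsTop]
    rw [l2_not ht, e2_none L hc j rfl]
    simp [TB.NE]
  | vert i k w =>
    have ht : ¬ T.IsTop (.vert i k w) := by simp [TB.IsTop]
    rw [l2_not ht, e2_none L hc j rfl]
    simp [TB.NE]

theorem l1_or {c : Ch T.m} {j : Fin T.d} {E : II U} (h : l1 L c j = some E) :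
    L.e1 c j = some E ∨ L.e2 c j = some E := by
  by_cases ht : T.IsTop c
  · rw [l1_top ht] at h; exact Or.inr h
  · rw [l1_not ht] at h; exact Or.inl h

theorem l2_or {c : Ch T.m} {j : Fin T.d} {E : II U} (h : l2 L c j = some E) :
    L.e1 c j = some E ∨ L.e2 c j = some E := by
  by_cases ht : T.IsTop c
  · rw [l2_top ht] at h; exact absurd h (by simp)
  · rw [l2_not ht] at h; exact Or.inr h

variable {nu : II U → ℤ} {n1 n2 : Ch T.m → Fin T.d → ℤ}

theorem m1_eq (hJ : Jac L nu n1 n2) {c : Ch T.m} (hc : Ok S c) {j : Fin T.d} {E : II U}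
    (h : l1 L c j = some E) : m1 n1 n2 c j = nu E := by
  unfold m1
  by_cases ht : T.IsTop c
  · rw [l1_top ht] at h
    rw [if_pos ht]
    exact hJ.some2 c hc j E h
  · rw [l1_not ht] at h
    rw [if_neg ht]
    exact hJ.some1 c hc j E h

theorem m2_eq (hJ : Jac L nu n1 n2) {c : Ch T.m} (hc : Ok S c) {j : Fin T.d} {E : II U}
    (h : l2 L c j = some E) : m2 n1 n2 c j = nu E := by
  unfold m2
  by_cases ht : T.IsTop c
  · rw [l2_top ht] at h
    exact absurd h (by simp)
  · rw [l2_not ht] at h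
    rw [if_neg ht]
    exact hJ.some2 c hc j E h

theorem m2_le (hJ : Jac L nu n1 n2) {c : Ch T.m} (hc : Ok S c) {j : Fin T.d}
    (h : l2 L c j = none) : m2 n1 n2 c j ≤ -1 := by
  unfold m2
  by_cases ht : T.IsTop c
  · rw [if_pos ht]
    exact hJ.none1 c hc j (e1_top hc ht j)
  · rw [l2_not ht] at h
    rw [if_neg ht]
    exact hJ.none2 c hc j h

theorem freq_scale {P : ℂ → Prop} {R : ℝ} (hR : R ≠ 0) {z₀ : ℂ}
    (h : ∃ᶠ z in 𝓝 ((R : ℂ) * z₀), P z) : ∃ᶠ z in 𝓝 z₀, P (R * z) := by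
  have hR' : (R : ℂ) ≠ 0 := by exact_mod_cast hR
  have h1 : Tendsto (fun z : ℂ => z / R) (𝓝 ((R : ℂ) * z₀)) (𝓝 z₀) := by
    have h2 : ContinuousAt (fun z : ℂ => z / R) ((R : ℂ) * z₀) := by fun_prop
    have h3 := h2.tendsto
    rwa [mul_div_cancel_left₀ _ hR'] at h3
  refine h1.frequently (h.mono fun z hz => ?_)
  rwa [mul_div_cancel₀ _ hR']

/-- the special fibre of the scaled chart -/
def InSF (L : Lab U S) (c : Ch T.m) (j : Fin T.d) (p₀ : ℂ × ℂ) : Prop :=
  ‖p₀.1‖ ≤ 1 ∧ ‖p₀.2‖ ≤ 1 ∧ (p₀.1 = 0 ∨ (l2 L c j ≠ none ∧ p₀.2 = 0))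

/-- **orders of functions in the scaled charts** -/
theorem ord_thS [Fintype (II U)] (hO : OrdStmt L) {g : (Fin 3 → ℂ) → ℂ} (hg : AnalyticAt ℂ g 0)
    (hne : ∃ᶠ x in 𝓝 (0 : Fin 3 → ℂ), f x = 0 ∧ g x ≠ 0) :
    ∃ v : II U → ℕ, (∀ E, dg (Mx L) (fun i => (v i : ℝ)) E ≤ 0) ∧
      ∀ c, Ok S c → ∀ j, ∀ p₀ : ℂ × ℂ, InSF L c j p₀ →
        ∃ G : ℂ × ℂ → ℂ, AnalyticAt ℂ G p₀ ∧
          (∀ᶠ p in 𝓝 p₀, g (T.thS c (S.r c) (S.ζ c j) p) =
            p.1 ^ yn v (l1 L c j) * p.2 ^ yn v (l2 L c j) * G p) ∧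
          (p₀.1 = 0 → ∀ E, l1 L c j = some E → (∃ᶠ z in 𝓝 p₀.2, G (0, z) ≠ 0) ∧
            (dg (Mx L) (fun i => (v i : ℝ)) E = 0 → G p₀ ≠ 0)) ∧
          (p₀.2 = 0 → ∀ E, l2 L c j = some E → (∃ᶠ z in 𝓝 p₀.1, G (z, 0) ≠ 0) ∧
            (dg (Mx L) (fun i => (v i : ℝ)) E = 0 → G p₀ ≠ 0)) := by
  obtain ⟨v, hv, h⟩ := hO g hg hne
  refine ⟨v, hv, fun c hc j p₀ hp₀ => ?_⟩
  obtain ⟨hn1, hn2, hor⟩ := hp₀
  set R : ℝ := S.r c with hR
  have hR0 : 0 < R := S.pos c
  have hRC : (R : ℂ) ≠ 0 := by exact_mod_cast hR0.ne'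
  have hRn : ∀ z : ℂ, ‖(R : ℂ) * z‖ = R * ‖z‖ := fun z => by
    rw [norm_mul, Complex.norm_real, Real.norm_of_nonneg hR0.le]
  have hsgc : ContinuousAt (T.sg c R) p₀ := by
    have h1 : T.sg c R = fun p => T.sgL c R p := by funext p; rw [T.sgL_apply]
    rw [h1]
    exact (T.sgL c R).continuous.continuousAt
  have hsga : AnalyticAt ℂ (T.sg c R) p₀ := by
    have h1 : T.sg c R = fun p => T.sgL c R p := by funext p; rw [T.sgL_apply]
    rw [h1]
    exact (T.sgL c R).analyticAt p₀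
  by_cases ht : T.IsTop c
  · -- top edges: the coordinates are exchanged
    have hs : ∀ p, T.sg c R p = (R * p.2, R * p.1) := fun p => if_pos ht
    have hp1 : p₀.1 = 0 := by
      rcases hor with h1 | ⟨h1, -⟩
      · exact h1
      · exact absurd (l2_top ht j) h1
    obtain ⟨E, hE⟩ := l1_some (L := L) hc j
    rw [l1_top ht] at hE
    obtain ⟨G, hG, hev, -, h4⟩ := h c hc j (T.sg c R p₀)
      (by rw [hs]; simp only [hRn]; nlinarith) (by rw [hs]; simp only [hRn]; nlinarith)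
      (Or.inr ⟨by rw [hE]; simp, by rw [hs]; simp [hp1]⟩)
    have hq2 : (T.sg c R p₀).2 = 0 := by rw [hs]; simp [hp1]
    refine ⟨fun p => (R : ℂ) ^ yn v (L.e2 c j) * G (T.sg c R p),
      analyticAt_const.mul (hG.comp hsga), ?_, ?_, ?_⟩
    · filter_upwards [hsgc.eventually hev] with p hp
      have h5 : g (T.thS c R (S.ζ c j) p) = g (T.th c (S.ζ c j) (T.sg c R p)) := rfl
      rw [h5, hp, l1_top ht, l2_top ht, e1_top hc ht j, hs]
      simp only [yn, Option.elim]
      rw [hE]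
      simp only
      rw [mul_pow]
      ring
    · intro _ E' hE'
      rw [l1_top ht] at hE'
      obtain ⟨h5, h6⟩ := h4 hq2 E' hE'
      constructor
      · rw [hs] at h5
        simp only at h5
        refine (freq_scale hR0.ne' h5).mono fun z hz => ?_
        simp only [hs, mul_zero]
        exact mul_ne_zero (pow_ne_zero _ hRC) hz
      · intro hd
        exact mul_ne_zero (pow_ne_zero _ hRC) (h6 hd)
    · intro _ E' hE'
      rw [l2_top ht] at hE'
      exact absurd hE' (by simp)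
  · have hs : ∀ p, T.sg c R p = (R * p.1, R * p.2) := fun p => if_neg ht
    have hor' : (L.e1 c j ≠ none ∧ (T.sg c R p₀).1 = 0) ∨ (L.e2 c j ≠ none ∧ (T.sg c R p₀).2 = 0) := by
      rcases hor with h1 | ⟨h1, h2⟩
      · left
        obtain ⟨E, hE⟩ := l1_some (L := L) hc j
        rw [l1_not ht] at hE
        exact ⟨by rw [hE]; simp, by rw [hs]; simp [h1]⟩
      · right
        rw [l2_not ht] at h1
        exact ⟨h1, by rw [hs]; simp [h2]⟩
    obtain ⟨G, hG, hev, h3, h4⟩ := h c hc j (T.sg c R p₀)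
      (by rw [hs]; simp only [hRn]; nlinarith) (by rw [hs]; simp only [hRn]; nlinarith) hor'
    refine ⟨fun p => (R : ℂ) ^ yn v (L.e1 c j) * (R : ℂ) ^ yn v (L.e2 c j) * G (T.sg c R p),
      analyticAt_const.mul (hG.comp hsga), ?_, ?_, ?_⟩
    · filter_upwards [hsgc.eventually hev] with p hp
      have h5 : g (T.thS c R (S.ζ c j) p) = g (T.th c (S.ζ c j) (T.sg c R p)) := rfl
      rw [h5, hp, l1_not ht, l2_not ht, hs]
      simp only
      rw [mul_pow, mul_pow]
      ring
    · intro hp1 E' hE'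
      rw [l1_not ht] at hE'
      obtain ⟨h5, h6⟩ := h3 (by rw [hs]; simp [hp1]) E' hE'
      constructor
      · rw [hs] at h5
        simp only at h5
        refine (freq_scale hR0.ne' h5).mono fun z hz => ?_
        simp only [hs, mul_zero]
        exact mul_ne_zero (mul_ne_zero (pow_ne_zero _ hRC) (pow_ne_zero _ hRC)) hz
      · intro hd
        exact mul_ne_zero (mul_ne_zero (pow_ne_zero _ hRC) (pow_ne_zero _ hRC)) (h6 hd)
    · intro hp2 E' hE'
      rw [l2_not ht] at hE'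
      obtain ⟨h5, h6⟩ := h4 (by rw [hs]; simp [hp2]) E' hE'
      constructor
      · rw [hs] at h5
        simp only at h5
        refine (freq_scale hR0.ne' h5).mono fun z hz => ?_
        simp only [hs, mul_zero]
        exact mul_ne_zero (mul_ne_zero (pow_ne_zero _ hRC) (pow_ne_zero _ hRC)) hz
      · intro hd
        exact mul_ne_zero (mul_ne_zero (pow_ne_zero _ hRC) (pow_ne_zero _ hRC)) (h6 hd)

end Crest.Agent.R257.FrBP_808
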