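import Crest.Agent.R257.FrBP4_808
import Crest.Agent.R257.ExD_121

/-!
R257 / FrBP5_808: adjacency (`Ex_121.Adj`) of the frame.
-/

set_option autoImplicit false
set_option linter.unusedSectionVars false

open Polynomial Set Filter Topology Metric
open Crest.AlgGeometry.Germ

noncomputable section

namespace Crest.Agent.R257.FrBP_808

open Crest.Agent.R257.Defs_219 Crest.Agent.R257.AJ387 Crest.Agent.R257.T387
open Crest.Agent.R257.BP_258 Crest.Agent.R257.FrmF_547
open Crest.Agent.R257.Gr1_157 Crest.Agent.R257.GrH_547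

variable {f : (Fin 3 → ℂ) → ℂ} {T : TB f} {U : Tub T} {S : Sh T} {L : Lab U S}

/-- both labels of an edge sheet: different and adjacent -/
theorem edge_adj {c : Ch T.m} (hc : Ok S c) {j : Fin T.d} {E E' : II U} (h1 : L.e1 c j = some E)
    (h2 : L.e2 c j = some E') : E ≠ E' ∧ 0 < Mx L E E' := by
  have hk2 := v2_of_some L hc h2
  have hk1 := v1_of_some L hc h1
  cases c with
  | leg i => exact absurd hk2 (by simp [v2])
  | vert i k w => exact absurd hk2 (by simp [v2])
  | edge i k k' =>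
    have hkk : k < k' := hc.1.2.2.1
    have hne : E ≠ E' := by
      rintro rfl
      have h3 : v1 T (.edge i k k') = v2 T (.edge i k k') := hk1.trans hk2.symm
      by_cases h0 : k = 0
      · simp [v1, v2, h0] at h3
      · simp only [v1, v2, h0, if_false, Option.some.injEq] at h3
        have := congrArg Prod.fst h3
        simp only [vx] at this
        omega
    refine ⟨hne, ?_⟩
    obtain ⟨v, hv, he⟩ := ok_edge hc
    rw [he] at h1 h2
    rw [LabI_387.Mx_eq]
    exact LM_pos LabI_387.hc_pos hne (h := (⟨⟨v, hv⟩, j⟩ : LabI_387.HE T)) (Or.inl ⟨h1, h2⟩)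

/-- adjacent components are the labels of an edge sheet -/
theorem exists_edge {E E' : II U} (hne : E ≠ E') (hM : Mx L E E' ≠ 0) :
    ∃ v, ∃ _ : v ∈ Vs T, ∃ j, (L.e1 (ec S v) j = some E ∧ L.e2 (ec S v) j = some E') ∨
      (L.e1 (ec S v) j = some E' ∧ L.e2 (ec S v) j = some E) := by
  rw [LabI_387.Mx_eq, LM_off LabI_387.hc_pos hne] at hM
  obtain ⟨h, -, hh⟩ := Finset.exists_ne_zero_of_sum_ne_zero hM
  have h1 := right_ne_zero_of_mul hh
  have key : ∀ {o : Option (II U)} {E : II U}, dl o E ≠ 0 → o = some E := by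
    intro o E ho
    unfold dl at ho
    by_contra hcon
    rw [if_neg hcon] at ho
    exact ho rfl
  refine ⟨h.1.1, h.1.2, h.2, ?_⟩
  by_cases h2 : dl (LabI_387.ha L h) E * dl (LabI_387.hb L h) E' = 0
  · rw [h2, zero_add] at h1
    exact Or.inr ⟨key (right_ne_zero_of_mul h1), key (left_ne_zero_of_mul h1)⟩
  · exact Or.inl ⟨key (left_ne_zero_of_mul h2), key (right_ne_zero_of_mul h2)⟩

theorem Mx_rat (E E' : II U) : ∃ r : ℚ, (r : ℝ) = Mx L E E' := by
  have hcd : ∀ v, cd S v ∈ (Rat.castHom ℝ).range := fun v =>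
    ⟨1 / (T.M * (v.1 - S.kp v : ℕ) : ℚ), by simp [cd]⟩
  have h : Mx L E E' ∈ (Rat.castHom ℝ).range := by
    unfold Mx
    refine Subring.sum_mem _ fun v _ => Subring.sum_mem _ fun j _ => ?_
    refine Subring.mul_mem _ (hcd v) (Subring.add_mem _ ?_ ?_)
    · split_ifs
      all_goals
        first
        | exact Subring.sub_mem _ (Subring.one_mem _) (Subring.one_mem _)
        | exact Subring.sub_mem _ (Subring.one_mem _) (Subring.zero_mem _)
        | exact Subring.sub_mem _ (Subring.zero_mem _) (Subring.one_mem _)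
        | exact Subring.sub_mem _ (Subring.zero_mem _) (Subring.zero_mem _)
        | exact Subring.zero_mem _
    · split_ifs
      all_goals
        first
        | exact Subring.sub_mem _ (Subring.one_mem _) (Subring.one_mem _)
        | exact Subring.sub_mem _ (Subring.one_mem _) (Subring.zero_mem _)
        | exact Subring.sub_mem _ (Subring.zero_mem _) (Subring.one_mem _)
        | exact Subring.sub_mem _ (Subring.zero_mem _) (Subring.zero_mem _)
        | exact Subring.zero_mem _
  obtain ⟨r, hr⟩ := h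
  exact ⟨r, hr⟩

namespace FrIn

variable {nu : II U → ℤ} {n1 n2 : Ch T.m → Fin T.d → ℤ} [Fintype (II U)]
  (D : FrIn L nu n1 n2)

/-- an edge sheet with labels in `I0`, as a chart of the frame -/
theorem exists_K {v : Vtx} (hv : v ∈ Vs T) {j : Fin T.d} {E E' : II U}
    (h1 : L.e1 (ec S v) j = some E) (h2 : L.e2 (ec S v) j = some E') (hE : E ∈ D.I0)
    (hE' : E' ∈ D.I0) : ∃ a : D.K, D.e1 a = ⟨E, hE⟩ ∧ D.e2 a = some ⟨E', hE'⟩ := by
  have hok : Ok S (ec S v) := D.ok _ (D.edge v hv)
  have hnt : ¬ T.IsTop (ec S v) := by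
    intro ht
    rw [e1_top hok ht j] at h1
    exact absurd h1 (by simp)
  refine ⟨D.mkK (D.edge v hv) j (Or.inl h1) hE, ?_, ?_⟩
  · refine Subtype.ext (D.e1_of ?_)
    show l1 L (ec S v) j = some E
    rw [l1_not hnt]; exact h1
  · refine D.e2_of ?_ hE'
    show l2 L (ec S v) j = some E'
    rw [l2_not hnt]; exact h2

theorem adj : Ex_121.Adj D.fr where
  rat := fun i j => Mx_rat (i : D.I0).1 (j : D.I0).1
  adj := fun a i' h => by
    have h2 := D.e2_some (a := a) (E := i') h
    have hnt : ¬ T.IsTop (D.ch a) := by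
      intro ht
      rw [l2_top ht] at h2
      exact absurd h2 (by simp)
    have h1 := D.e1_spec a
    rw [l1_not hnt] at h1
    rw [l2_not hnt] at h2
    obtain ⟨h3, h4⟩ := edge_adj (D.okK a) h1 h2
    exact ⟨fun h5 => h3 (congrArg Subtype.val h5), h4.ne'⟩
  node := fun i j hij hM => by
    have hne : (i : D.I0).1 ≠ (j : D.I0).1 := fun h => hij (Subtype.ext h)
    obtain ⟨v, hv, l, h | h⟩ := exists_edge hne hM
    · obtain ⟨a, h1, h2⟩ := D.exists_K hv h.1 h.2 (i : D.I0).2 (j : D.I0).2
      exact ⟨a, Or.inl ⟨h1, h2⟩⟩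
    · obtain ⟨a, h1, h2⟩ := D.exists_K hv h.1 h.2 (j : D.I0).2 (i : D.I0).2
      exact ⟨a, Or.inr ⟨h1, h2⟩⟩

end FrIn

end Crest.Agent.R257.FrBP_808
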