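import Crest.Agent.R257.BP0_554

/-!
R257 / FrBPS_808: `Sh T` with arbitrarily small radii, for the current structure `Sh` (with the fields
`fare`, `farl`). The first part is the argument of BPS_554.
-/

set_option autoImplicit false
set_option linter.unusedSectionVars false

open Polynomial Set Filter Topology Metric
open Crest.AlgGeometry.Germ Crest.Agent.R257.AJ387 Crest.Agent.R257.T387
open Crest.Agent.R257.BP_258 Crest.Agent.R257.BP0_554

noncomputable section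

namespace Crest.Agent.R257.FrBP_808

variable {f : (Fin 3 → ℂ) → ℂ} {T : TB f}

lemma exists_parent' {i : Fin T.m} {k : ℕ} (hk : k ∈ T.lev i) : ∃ l, T.Cons i l k := by
  classical
  by_cases h : ((T.lev i).filter fun l => l < k).Nonempty
  · obtain ⟨l, hl, hmax⟩ := Finset.exists_max_image _ id h
    rw [Finset.mem_filter] at hl
    refine ⟨l, Or.inr hl.1, hk, hl.2, fun l' hl' => ?_⟩
    rcases lt_or_ge l' k with h1 | h1
    · exact Or.inl (hmax l' (Finset.mem_filter.2 ⟨hl', h1⟩))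
    · exact Or.inr h1
  · rw [Finset.not_nonempty_iff_eq_empty, Finset.filter_eq_empty_iff] at h
    exact ⟨0, Or.inl rfl, hk, TCov554.lev_pos T hk, fun l' hl' => Or.inr (not_lt.1 (h hl'))⟩

lemma mem_Vs' {v : Vtx} : v ∈ Vs T ↔ ∃ i, ∃ k ∈ T.lev i, vx T i k = v := by
  classical
  unfold Vs
  simp only [Finset.mem_biUnion, Finset.mem_univ, true_and, Finset.mem_image]

/-- small non zero numbers are not in a finite set -/
lemma small_not_mem (F : Finset ℂ) {n : ℕ} (hn : 0 < n) :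
    ∃ δ > 0, ∀ b : ℂ, b ≠ 0 → ‖b‖ ≤ δ → b ^ n ∉ F := by
  classical
  have h : ∀ᶠ b in 𝓝 (0 : ℂ), b ^ n ∉ F.erase 0 := by
    have h1 : ContinuousAt (fun b : ℂ => b ^ n) 0 := by fun_prop
    have h2 : ((F.erase 0 : Finset ℂ) : Set ℂ)ᶜ ∈ 𝓝 ((0 : ℂ) ^ n) := by
      rw [zero_pow hn.ne']
      exact (F.erase 0).finite_toSet.isClosed.isOpen_compl.mem_nhds (by simp)
    exact h1.eventually h2
  obtain ⟨δ, hδ, hb⟩ := Metric.eventually_nhds_iff_ball.1 h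
  refine ⟨δ / 2, by positivity, fun b hb0 hbn hmem => ?_⟩
  have h3 := hb b (by rw [mem_ball_zero_iff]; linarith)
  exact h3 (Finset.mem_erase.2 ⟨pow_ne_zero _ hb0, hmem⟩)

/-- large numbers are not in a finite set -/
lemma large_not_mem (F : Finset ℂ) {n : ℕ} (hn : 0 < n) :
    ∃ δ > 0, ∀ b : ℂ, b ≠ 0 → ‖b‖ ≤ δ → (b ^ n)⁻¹ ∉ F := by
  classical
  obtain ⟨δ, hδ, h⟩ := small_not_mem (F.image fun z => z⁻¹) hn
  refine ⟨δ, hδ, fun b hb0 hbn hmem => h b hb0 hbn ?_⟩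
  rw [Finset.mem_image]
  exact ⟨_, hmem, inv_inv _⟩

/-- the radii of one chart -/
lemma exists_far (c : Ch T.m) (hc : T.Valid c) : ∃ δ > 0,
    (∀ i k w₀, c = .vert i k w₀ → ∀ w, ‖w - w₀‖ ≤ 2 * δ → w ∉ T.Sp i k) ∧
    (∀ i k k', c = .edge i k k' → ∀ b : ℂ, b ≠ 0 → ‖b‖ ≤ 2 * δ →
      b ^ (T.M * (k' - k)) ∉ T.Sp i k ∧ (b ^ (T.M * (k' - k)))⁻¹ ∉ T.Sp i k') ∧
    (∀ i, c = .leg i → ∀ b : ℂ, b ≠ 0 → ‖b‖ ≤ 2 * δ → b ^ T.M ∉ T.Sp i (T.top i)) := by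
  rcases c with ⟨i, k, k'⟩ | i | ⟨i, k, w₀⟩
  · have hkk : k < k' := hc.2.2.1
    have hn : 0 < T.M * (k' - k) := Nat.mul_pos T.M_pos (by omega)
    obtain ⟨δ₁, h1, h1'⟩ := small_not_mem (T.Sp i k) hn
    obtain ⟨δ₂, h2, h2'⟩ := large_not_mem (T.Sp i k') hn
    refine ⟨min δ₁ δ₂ / 2, by positivity, by rintro _ _ _ ⟨⟩, ?_, by rintro _ ⟨⟩⟩
    rintro _ _ _ ⟨⟩ b hb0 hb
    have hb' : ‖b‖ ≤ min δ₁ δ₂ := by linarith
    exact ⟨h1' b hb0 (hb'.trans (min_le_left _ _)), h2' b hb0 (hb'.trans (min_le_right _ _))⟩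
  · obtain ⟨δ₁, h1, h1'⟩ := small_not_mem (T.Sp i (T.top i)) T.M_pos
    refine ⟨δ₁ / 2, by positivity, by rintro _ _ _ ⟨⟩, by rintro _ _ _ ⟨⟩, ?_⟩
    rintro _ ⟨⟩ b hb0 hb
    exact h1' b hb0 (by linarith)
  · have hopen : IsOpen ((T.Sp i k : Set ℂ)ᶜ) := (T.Sp i k).finite_toSet.isClosed.isOpen_compl
    obtain ⟨δ, hδ, hb⟩ := Metric.isOpen_iff.1 hopen w₀ (fun h => hc.2 h)
    refine ⟨δ / 4, by positivity, ?_, by rintro _ _ _ ⟨⟩, by rintro _ ⟨⟩⟩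
    rintro _ _ _ ⟨⟩ w hw h
    have : w ∈ ball w₀ δ := by
      rw [mem_ball, dist_eq_norm]
      linarith
    exact hb this h

/-- **C-SH** for the current structure `Sh` -/
theorem exists_Sh (hC : Clo T) (b : Ch T.m → ℝ) (hb : ∀ c, 0 < b c) :
    ∃ S : Sh T, ∀ c, S.r c ≤ b c := by
  classical
  -- centres
  have hci : ∀ v : Vtx, ∃ j : Fin T.m, v ∈ Vs T →
      (∀ s ∈ ball (0 : ℂ) T.ρ, T.φ j s = v.2.eval s) ∧ ∃ l, T.Cons j l v.1 := by
    intro v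
    by_cases hv : v ∈ Vs T
    · obtain ⟨i, k, hk, rfl⟩ := mem_Vs'.1 hv
      obtain ⟨j, hj⟩ := hC.tr_mem i k hk
      exact ⟨j, fun _ => ⟨hj, exists_parent' (lev_center hk hj)⟩⟩
    · exact ⟨⟨0, T.m_pos⟩, fun h => absurd h hv⟩
  choose ci hci using hci
  have hkp : ∀ v : Vtx, ∃ l : ℕ, v ∈ Vs T → T.Cons (ci v) l v.1 := by
    intro v
    by_cases hv : v ∈ Vs T
    · obtain ⟨l, hl⟩ := (hci v hv).2
      exact ⟨l, fun _ => hl⟩
    · exact ⟨0, fun h => absurd h hv⟩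
  choose kp hkp using hkp
  -- radii
  have hr : ∀ c : Ch T.m, ∃ (r : ℝ) (ζ : Fin T.d → ℂ × ℂ → ℂ), 0 < r ∧ r ≤ 1 / 2 ∧ r ≤ b c ∧
      (T.Valid c → T.Sheets c (2 * r) ζ) ∧
      (∀ i k w₀, c = .vert i k w₀ → T.Valid c → ∀ w, ‖w - w₀‖ ≤ 2 * r → w ∉ T.Sp i k) ∧
      (∀ i k k', c = .edge i k k' → T.Valid c → ∀ b : ℂ, b ≠ 0 → ‖b‖ ≤ 2 * r →
        b ^ (T.M * (k' - k)) ∉ T.Sp i k ∧ (b ^ (T.M * (k' - k)))⁻¹ ∉ T.Sp i k') ∧
      (∀ i, c = .leg i → ∀ b : ℂ, b ≠ 0 → ‖b‖ ≤ 2 * r → b ^ T.M ∉ T.Sp i (T.top i)) := by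
    intro c
    by_cases hc : T.Valid c
    · obtain ⟨r₀, hr₀, hs⟩ := T.sheets c hc
      obtain ⟨δ, hδ, hf1, hf2, hf3⟩ := exists_far c hc
      have hrp : 0 < min (min (r₀ / 2) δ) (min (1 / 2) (b c)) :=
        lt_min (lt_min (by positivity) hδ) (lt_min (by norm_num) (hb c))
      set r := min (min (r₀ / 2) δ) (min (1 / 2) (b c)) with hrdef
      have h1 : 2 * r ≤ r₀ := by
        have : r ≤ r₀ / 2 := (min_le_left _ _).trans (min_le_left _ _)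
        linarith
      have h2 : r ≤ δ := (min_le_left _ _).trans (min_le_right _ _)
      obtain ⟨ζ, hζ⟩ := hs (2 * r) (by positivity) h1
      exact ⟨r, ζ, hrp, (min_le_right _ _).trans (min_le_left _ _),
        (min_le_right _ _).trans (min_le_right _ _), fun _ => hζ,
        fun i k w₀ hcc _ w hw => hf1 i k w₀ hcc w (by linarith),
        fun i k k' hcc _ b hb0 hbn => hf2 i k k' hcc b hb0 (by linarith),
        fun i hcc b hb0 hbn => hf3 i hcc b hb0 (by linarith)⟩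
    · refine ⟨min (1 / 2) (b c), fun _ _ => 0, lt_min (by norm_num) (hb c), min_le_left _ _,
        min_le_right _ _, fun h => absurd h hc, fun _ _ _ _ h => absurd h hc,
        fun _ _ _ _ h => absurd h hc, ?_⟩
      rintro i rfl
      exact absurd trivial hc
  choose r ζ h1 h2 h3 h4 h5 h6 h7 using hr
  exact ⟨{ r := r, ζ := ζ, pos := h1, le := h2, sheets := h4
           far := fun i k w₀ hv w hw => h5 _ i k w₀ rfl hv w hw
           fare := fun i k k' hv b hb0 hbn => h6 _ i k k' rfl hv b hb0 hbn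
           farl := fun i b hb0 hbn => h7 _ i rfl b hb0 hbn
           ci := ci, ci_eq := fun v hv => (hci v hv).1
           kp := kp, kp_cons := hkp }, h3⟩

end Crest.Agent.R257.FrBP_808
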