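import Crest.Agent.R257.FrBP5_808
import Crest.Agent.R257.FrBPS_808
import Crest.Agent.R257.Vt8_558
import Crest.Agent.R257.OrdF_578
import Crest.Agent.R257.Lab5_931
import Crest.Agent.R257.Tb2_941
import Crest.Agent.R257.Clo_214
import Crest.Agent.R257.T0_939

/-!
R257 / FrBP6_808: existence of the input data `FrIn` of the frame.

* `CovP S`        : the statement of `BPC_554.coverP` at the radii `S.r`;
* `exists_FrIn'`  : for given `T` (closed), tubes `U`, `S`, labels `L`, from `CovP S`.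
-/

set_option autoImplicit false
set_option linter.unusedSectionVars false

open Polynomial Set Filter Topology Metric
open Crest.AlgGeometry.Germ

noncomputable section

namespace Crest.Agent.R257.FrBP_808

open Crest.Agent.R257.Defs_219 Crest.Agent.R257.AJ387 Crest.Agent.R257.T387
open Crest.Agent.R257.BP_258 Crest.Agent.R257.FrmF_547
open Crest.Agent.R257.Gr1_157 Crest.Agent.R257.GrH_547

variable {f : (Fin 3 → ℂ) → ℂ} {T : TB f}

/-- finitely many canonical charts cover, with the radii of `S` -/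
def CovP (S : Sh T) : Prop :=
  ∃ F : Finset (Ch T.m), (∀ c ∈ F, Ok S c) ∧ ∃ ε > 0, ∀ s y : ℂ, ‖s‖ < ε → ‖y‖ < ε →
    (s, y) ≠ 0 → ∃ c ∈ F, ∃ p : ℂ × ℂ, ‖p.1‖ ≤ S.r c ∧ ‖p.2‖ ≤ S.r c ∧ T.map c p = (s, y)

theorem CovP.mono {S : Sh T} (h : CovP S) (G : Finset (Ch T.m)) (hG : ∀ c ∈ G, Ok S c) :
    ∃ F : Finset (Ch T.m), G ⊆ F ∧ (∀ c ∈ F, Ok S c) ∧ ∃ ε > 0, ∀ s y : ℂ, ‖s‖ < ε → ‖y‖ < ε →
    (s, y) ≠ 0 → ∃ c ∈ F, ∃ p : ℂ × ℂ, ‖p.1‖ ≤ S.r c ∧ ‖p.2‖ ≤ S.r c ∧ T.map c p = (s, y) := by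
  classical
  obtain ⟨F₀, hF₀, ε, hε, hcov⟩ := h
  refine ⟨F₀ ∪ G, Finset.subset_union_right, ?_, ε, hε, fun s y a b d => ?_⟩
  · intro c hc
    rcases Finset.mem_union.1 hc with h | h
    · exact hF₀ c h
    · exact hG c h
  · obtain ⟨c, hc, p, hp⟩ := hcov s y a b d
    exact ⟨c, Finset.mem_union_left _ hc, p, hp⟩

theorem exists_vertex : ∃ v, v ∈ Vs T :=
  ⟨vx T ⟨0, T.m_pos⟩ 1, mem_Vs'.2 ⟨_, 1, T.one_mem_lev _, rfl⟩⟩

variable {U : Tub T} {S : Sh T}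

/-- **input data of the frame** -/
theorem exists_FrIn' [Fintype (II U)] (hf : Iso f) (hR : RetStmt U) (L : Lab U S)
    {nu : II U → ℤ} {n1 n2 : Ch T.m → Fin T.d → ℤ} (hJ : Jac L nu n1 n2) (hcovP : CovP S)
    (E₀ : II U) : ∃ D : FrIn L nu n1 n2, D.E₀ = E₀ := by
  classical
  choose cv h1 h2 jv h3 using fun E : II U => LabI_387.exists_vert L E
  obtain ⟨F, hsub, hok, hcov⟩ := hcovP.mono (Finset.univ.image cv ∪ (Vs T).image (ec S)) (by
    intro c hc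
    rcases Finset.mem_union.1 hc with h | h
    · obtain ⟨E, -, rfl⟩ := Finset.mem_image.1 h
      exact h1 E
    · obtain ⟨v, hv, rfl⟩ := Finset.mem_image.1 h
      exact LabI_387.ec_ok hv)
  have hmem : ∀ E, cv E ∈ F := fun E =>
    hsub (Finset.mem_union_left _ (Finset.mem_image_of_mem _ (Finset.mem_univ _)))
  have hedge : ∀ v ∈ Vs T, ec S v ∈ F := fun v hv =>
    hsub (Finset.mem_union_right _ (Finset.mem_image_of_mem _ hv))
  have hcl : ∀ E E', E ∈ cls (Mx L) E₀ → Mx L E E' ≠ 0 → E' ∈ cls (Mx L) E₀ :=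
    fun E E' h h' => cls_step h h'
  exact ⟨{ hf := hf, hR := hR, jac := hJ, ord := OrdA_578.ordStmt hf hR L, E₀ := E₀, F := F,
           ok := hok, vert := fun E => ⟨cv E, hmem E, h2 E, jv E, h3 E⟩, edge := hedge,
           cov := hcov
           cover := FrmG_547.frame_cover L hf hR hok hcov hcl (hmem E₀) (Or.inl (h3 E₀))
             (mem_cls E₀) }, rfl⟩

/-- **the frame exists**, with arbitrarily small radii -/
theorem exists_D' (hf : Iso f) (hC : Clo T) (hcovP : ∀ S : Sh T, CovP S) (b : Ch T.m → ℝ)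
    (hb : ∀ c, 0 < b c) : ∃ (S : Sh T) (L : Lab (Tb_941.tub T hC) S)
      (nu : II (Tb_941.tub T hC) → ℤ) (n1 n2 : Ch T.m → Fin T.d → ℤ),
      (∀ c, S.r c ≤ b c) ∧ Nonempty (FrIn L nu n1 n2) := by
  obtain ⟨S, hS⟩ := exists_Sh hC b hb
  have hR := Tb_941.retStmt (Tb_941.tub T hC)
  obtain ⟨L⟩ := Lab_931.nonempty_lab (U := Tb_941.tub T hC) S hR
  obtain ⟨nu, n1, n2, hJ⟩ := Vt8_558.jac hf hR S L
  obtain ⟨v, hv⟩ := exists_vertex (T := T)
  obtain ⟨E₀, -, -⟩ := e2_some L (LabI_387.ec_ok (S := S) hv) ⟨0, T.d_pos⟩ (v := vx T (S.ci v) v.1) rfl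
  obtain ⟨D, -⟩ := exists_FrIn' hf hR L hJ (hcovP S) E₀
  exact ⟨S, L, nu, n1, n2, hS, ⟨D⟩⟩

end Crest.Agent.R257.FrBP_808
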