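import Crest.Agent.R257.FrBP6_808
import Crest.Agent.R257.T8_387
import Crest.Agent.R257.BPC_554

/-!
R257 / FrBP7_808: existence of all data, with `MonoC` for the radii of `S`.
-/

set_option autoImplicit false
set_option linter.unusedSectionVars false

open Polynomial Set Filter Topology Metric
open Crest.AlgGeometry.Germ

noncomputable section

namespace Crest.Agent.R257.FrBP_808

open Crest.Agent.R257.Defs_219 Crest.Agent.R257.AJ387 Crest.Agent.R257.T387
open Crest.Agent.R257.BP_258 Crest.Agent.R257.FrmF_547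
open Crest.Agent.R257.Gr1_157 Crest.Agent.R257.GrH_547

variable {f : (Fin 3 → ℂ) → ℂ}

/-- a tame base with the closure property -/
theorem exists_clo (hf : Iso f) : ∃ T : TB f, Clo T := by
  obtain ⟨T₀, -⟩ := T0_939.exists_TB hf
  exact Clo_214.clo_exists T₀

variable {T : TB f}

theorem exists_monob (T : TB f) : ∃ b : Ch T.m → ℝ, (∀ c, 0 < b c) ∧
    ∀ c, T.Valid c → T.MonoC c (b c) := by
  classical
  refine ⟨fun c => if h : T.Valid c then Classical.choose (T.exists_monoC h) else 1,
    fun c => ?_, fun c hc => ?_⟩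
  · by_cases h : T.Valid c
    · simp only [h, dite_true]
      exact (Classical.choose_spec (T.exists_monoC h)).1
    · simp only [h, dite_false]
      exact one_pos
  · simp only [hc, dite_true]
    exact (Classical.choose_spec (T.exists_monoC hc)).2

theorem covP (S : Sh T) : CovP S := BPC_554.coverP S S.r S.pos

/-- **all data, with `MonoC`, radii `≤ b`** -/
theorem exists_E (hf : Iso f) (hC : Clo T) (b : Ch T.m → ℝ)
    (hb : ∀ c, 0 < b c) : ∃ (S : Sh T) (L : Lab (Tb_941.tub T hC) S)
      (nu : II (Tb_941.tub T hC) → ℤ) (n1 n2 : Ch T.m → Fin T.d → ℤ),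
      (∀ c, S.r c ≤ b c) ∧ (∀ c, T.Valid c → T.MonoC c (S.r c)) ∧ CovP S ∧
        Nonempty (FrIn L nu n1 n2) := by
  obtain ⟨b', hb', hm⟩ := exists_monob T
  obtain ⟨S, L, nu, n1, n2, hS, hD⟩ := exists_D' hf hC covP (fun c => min (b c) (b' c))
    (fun c => lt_min (hb c) (hb' c))
  exact ⟨S, L, nu, n1, n2, fun c => (hS c).trans (min_le_left _ _),
    fun c hc => (hm c hc).mono ((hS c).trans (min_le_right _ _)), covP S, hD⟩

end Crest.Agent.R257.FrBP_808
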