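import Crest.Agent.R257.FrBP8_808
import Crest.Agent.R257.T11_387
import Crest.Agent.R257.CLog_68

/-!
R257 / FrBP9_808: the charts of `D.fr` are scaled charts of `T` (`CLog_68.CR`), and the last steps
of C-LOG: `CLogStmt` from `ExAll`.
-/

set_option autoImplicit false
set_option linter.unusedSectionVars false

open Polynomial Set Filter Topology Metric
open Crest.AlgGeometry.Germ

noncomputable section

namespace Crest.Agent.R257.FrBP_808

open Crest.Agent.R257.Defs_219 Crest.Agent.R257.AJ387 Crest.Agent.R257.T387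
open Crest.Agent.R257.BP_258 Crest.Agent.R257.FrmF_547
open Crest.Agent.R257.Gr1_157 Crest.Agent.R257.GrH_547
open Crest.Agent.R257.Fr_808 Crest.Agent.R257.Rot1_558

variable {f : (Fin 3 → ℂ) → ℂ} {T : TB f}

section

variable {U : Tub T} {S : Sh T} {L : Lab U S} {nu : II U → ℤ} {n1 n2 : Ch T.m → Fin T.d → ℤ}

/-- the order of the residue form along the axis `{x' = 0}` of a top edge -/
theorem m2_top (hf : Iso f) (hJ : Jac L nu n1 n2) {c : Ch T.m} (hc : Ok S c) (j : Fin T.d)
    (hT : T.IsTop c) : m2 n1 n2 c j = -(T.N : ℤ) := by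
  obtain ⟨V, hV, hV0, h⟩ := jac_thS hf hJ hc j
  have h1 := TB.thS_top (S.pos c) (S.sheets c hc.1) hc.1 j hT hV hV0
    (fun p hp h1 h2 => (h p hp h1 h2).2)
  omega

variable [Fintype (II U)]

/-- **the charts of the frame are scaled charts of `T`** -/
theorem FrIn.cr (D : FrIn L nu n1 n2) : CLog_68.CR T D.fr := by
  intro a
  refine ⟨D.ch a, 2 * S.r (D.ch a), S.r (D.ch a), S.ζ (D.ch a), D.sh a, (D.okK a).1,
    D.sheetsK a, S.pos _, by have := S.pos (D.ch a); linarith, fun p => rfl, ?_, ?_⟩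
  · show D.e2 a = none ↔ _
    rw [D.e2_none_iff, l2_none_iff (D.okK a)]
  · intro hT
    exact (m2_top D.hf D.jac (D.okK a) (D.sh a) hT).le

end

/-- what is still wanted: the four existence statements for the frames `D.fr` -/
def ExAllStmt : Prop := ∀ (f : E3 → ℂ) (_ : Iso f) (_ : 0 < mstar f) (T : TB f) (hC : Clo T)
  (hG : GalPt T) (S : Sh T) (L : Lab (Tb_941.tub T hC) S) (nu : II (Tb_941.tub T hC) → ℤ)
  (n1 n2 : Ch T.m → Fin T.d → ℤ), (∀ c, T.Valid c → T.MonoC c (S.r c)) →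
  ∀ D : FrIn L nu n1 n2, ExAll D hG

/-- frames with base point freeness exist -/
theorem frEx_of (h : ExAllStmt) : CLog_68.FrEx := by
  intro f hf hm
  obtain ⟨T, hC⟩ := exists_clo hf
  obtain ⟨S, L, nu, n1, n2, -, hM, -, ⟨D⟩⟩ := exists_E hf hC (fun _ => 1) (fun _ => one_pos)
  exact ⟨T, D.fr, Vt1_558.galPt hC, bpf_fr D (h f hf hm T hC (Vt1_558.galPt hC) S L nu n1 n2 hM D),
    D.cr⟩

/-- **C-LOG** -/
theorem clog_of_exAll (h : ExAllStmt) : CLog_68.CLogStmt := CLog_68.clog_of (frEx_of h)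

end Crest.Agent.R257.FrBP_808
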