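import Crest.Agent.R257.IrrB_331
import Crest.Agent.R257.FrmB_547
import Crest.Agent.R257.T7_387

/-!
R257 / FrmE_547 (task C-FRAME): coverage of `{f = 0}` by one class of sheets (on (IRR)).

* `Dd T`       : `x'` times the discriminant; `Dd_iff`;
* `monFam`     : the Weierstrass polynomial over a small bidisc;
* `reg`        : `{P = 0}` is regular off the origin;
* `root_near`  : continuity of roots;
* `cover_abs`  : if `G` is a property of the sheets `(c, j)`, `c ∈ F`, with the tie property (sheets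
                 with common points arbitrarily near `0`, `s ≠ 0`, simple roots, have equivalent `G`),
                 and some sheet has `G`, then the sheets with `G` cover `{f = 0} - 0` near `0`.
-/

set_option autoImplicit false
set_option linter.unusedSectionVars false

open Polynomial Set Filter Topology Metric
open Crest.AlgGeometry.Germ Crest.Agent.R257.AJ387 Crest.Agent.R257.T387
open Crest.Agent.R257.Defs_219 Crest.Agent.R257.Irr_547
open Crest.Agent.R257.T0_387 (ptL ptL_apply pt_surj isolated)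

noncomputable section

namespace Crest.Agent.R257.FrmE_547

variable {f : (Fin 3 → ℂ) → ℂ} (T : TB f)

/-- `x'` times the discriminant of the Weierstrass polynomial -/
def Dd (q : ℂ × ℂ) : ℂ := q.1 * resultant (T.P q) (derivative (T.P q)) T.d (T.d - 1)

variable {T}

theorem res_iff {q : ℂ × ℂ} (hq : q ∈ BD T.R T.R) :
    resultant (T.P q) (derivative (T.P q)) T.d (T.d - 1) ≠ 0 ↔ (T.P q).roots.Nodup := by
  have hm := T.monic q hq
  have hd := T.deg q hq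
  have h1 : (derivative (T.P q)).natDegree = T.d - 1 := by
    rw [natDegree_derivative, hd]
  have h2 := resultant_eq_zero_iff (f := T.P q) (g := derivative (T.P q))
  rw [hd, h1] at h2
  rw [Ne, h2, nodup_roots_iff_of_splits hm.ne_zero (IsAlgClosed.splits _)]
  constructor
  · intro h
    by_contra hc
    exact h ⟨Or.inl hm.ne_zero, hc⟩
  · rintro h ⟨-, h3⟩
    exact h3 h

theorem Dd_iff {q : ℂ × ℂ} (hq : q ∈ BD T.R T.R) :
    Dd T q ≠ 0 ↔ q.1 ≠ 0 ∧ (T.P q).roots.Nodup := by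
  rw [Dd, mul_ne_zero_iff, res_iff hq]

theorem convex_BD (r r' : ℝ) : Convex ℝ (BD r r') := by
  have h1 : BD r r' = ball (0 : ℂ) r ×ˢ ball (0 : ℂ) r' := by
    ext p; simp [BD]
  rw [h1]
  exact (convex_ball _ _).prod (convex_ball _ _)

theorem exists_good {ε : ℝ} (hε : 0 < ε) (hεR : ε ≤ T.R) : ∃ q ∈ BD ε ε, Dd T q ≠ 0 := by
  have h1 : ∀ᶠ s in 𝓝[≠] (0 : ℂ), s ∈ ball (0 : ℂ) T.ρ ∧ ‖s ^ T.N₀‖ < ε ∧ s ≠ 0 := by
    have a1 : ∀ᶠ s in 𝓝[≠] (0 : ℂ), s ∈ ball (0 : ℂ) T.ρ :=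
      nhdsWithin_le_nhds (ball_mem_nhds _ T.ρ_pos)
    have a2 : ∀ᶠ s in 𝓝 (0 : ℂ), ‖s ^ T.N₀‖ < ε := by
      have : Continuous fun s : ℂ => ‖s ^ T.N₀‖ := by fun_prop
      refine (this.tendsto 0).eventually (gt_mem_nhds ?_)
      simpa [T.N₀_pos.ne'] using hε
    filter_upwards [a1, nhdsWithin_le_nhds a2, self_mem_nhdsWithin] with s b1 b2 b3
    exact ⟨b1, b2, b3⟩
  obtain ⟨s, hs1, hs2, hs3⟩ := h1.exists
  have h2 : ∀ᶠ y in 𝓝[≠] (0 : ℂ), ‖y‖ < ε ∧ ∀ i, y ≠ T.φ i s := by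
    have a1 : ∀ᶠ y in 𝓝[≠] (0 : ℂ), ‖y‖ < ε := by
      filter_upwards [nhdsWithin_le_nhds (ball_mem_nhds (0 : ℂ) hε)] with y hy
      simpa using hy
    refine a1.and (eventually_all.2 fun i => ?_)
    by_cases h : T.φ i s = 0
    · rw [h]
      exact self_mem_nhdsWithin
    · exact nhdsWithin_le_nhds (isOpen_ne.mem_nhds (Ne.symm h))
  obtain ⟨y, hy1, hy2⟩ := h2.exists
  have hmem : ((s ^ T.N₀, y) : ℂ × ℂ) ∈ BD ε ε := ⟨hs2, hy1⟩
  refine ⟨_, hmem, ?_⟩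
  rw [Dd_iff ⟨hs2.trans_le hεR, hy1.trans_le hεR⟩]
  refine ⟨pow_ne_zero _ hs3, T.nodup s hs1 y ?_ hy2⟩
  simpa using hy1.trans_le hεR

/-- the Weierstrass polynomial over a small bidisc -/
theorem monFam {ε : ℝ} (hε : 0 < ε) (hεR : ε ≤ T.R) : MonFam (BD ε ε) T.d T.P (Dd T) := by
  have hsub : ∀ q ∈ BD ε ε, q ∈ BD T.R T.R := fun q hq =>
    ⟨hq.1.trans_le hεR, hq.2.trans_le hεR⟩
  refine ⟨isOpen_BD ε ε, (convex_BD ε ε).isPreconnected, fun q hq => T.monic q (hsub q hq),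
    fun q hq => T.deg q (hsub q hq), fun k q hq => T.coeff_an k q (hsub q hq), ?_,
    exists_good hε hεR, fun q hq h => ((Dd_iff (hsub q hq)).1 h).2⟩
  intro q hq
  refine analyticAt_fst.mul ?_
  refine IrrB_331.analyticAt_resultant (fun k => T.coeff_an k q (hsub q hq)) (fun k => ?_) _ _
  simp only [coeff_derivative]
  exact (T.coeff_an (k + 1) q (hsub q hq)).mul analyticAt_const

theorem A_zero : T.A 0 = 0 := map_zero T.A

/-- `{P = 0}` is regular off the origin -/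
theorem reg (hf : Iso f) : ∀ᶠ x in 𝓝 (((0 : ℂ), (0 : ℂ)), (0 : ℂ)), (T.P x.1).eval x.2 = 0 →
    x ≠ 0 → fderiv ℂ (fun q : (ℂ × ℂ) × ℂ => (T.P q.1).eval q.2) x ≠ 0 := by
  set L : (ℂ × ℂ) × ℂ → (Fin 3 → ℂ) := fun x => ptL (T.A x.1, x.2) with hL
  let LL : (ℂ × ℂ) × ℂ →L[ℂ] (Fin 3 → ℂ) :=
    ptL.comp ((T.A.toContinuousLinearMap.comp (ContinuousLinearMap.fst ℂ (ℂ × ℂ) ℂ)).prod
      (ContinuousLinearMap.snd ℂ (ℂ × ℂ) ℂ))
  have hLL : L = fun x => LL x := rfl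
  have hL0 : L 0 = 0 := by rw [hLL]; exact map_zero LL
  have hLt : Tendsto L (𝓝 0) (𝓝 0) := by
    have := LL.continuous.tendsto 0
    rw [map_zero] at this
    exact this
  have hLs : Function.Surjective LL := by
    intro x
    refine ⟨(T.A.symm (x 1, x 2), x 0), ?_⟩
    show ptL (T.A (T.A.symm (x 1, x 2)), x 0) = x
    rw [ContinuousLinearEquiv.apply_symm_apply]
    exact pt_surj x
  have hLi : ∀ x, LL x = 0 → x = 0 := by
    intro x hx
    have h1 : ptL (T.A x.1, x.2) = 0 := hx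
    rw [ptL_apply] at h1
    have e0 := congrFun h1 0
    have e1 := congrFun h1 1
    have e2 := congrFun h1 2
    have h2 : T.A x.1 = 0 := Prod.ext e1 e2
    have h3 : x.1 = 0 := by
      apply T.A.injective
      rw [h2, map_zero]
    exact Prod.ext h3 e0
  have hnear : ∀ᶠ x in 𝓝 (0 : (ℂ × ℂ) × ℂ), x.1 ∈ BD T.R T.R ∧ ‖x.2‖ < T.rz := by
    have h1 : ∀ᶠ x in 𝓝 (0 : (ℂ × ℂ) × ℂ), x.1 ∈ BD T.R T.R := by
      refine continuousAt_fst.eventually ((isOpen_BD T.R T.R).mem_nhds ?_)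
      exact ⟨by simpa using T.R_pos, by simpa using T.R_pos⟩
    have h2 : ∀ᶠ x in 𝓝 (0 : (ℂ × ℂ) × ℂ), ‖x.2‖ < T.rz := by
      have : Continuous fun x : (ℂ × ℂ) × ℂ => ‖x.2‖ := by fun_prop
      refine (this.tendsto 0).eventually (gt_mem_nhds ?_)
      simpa using T.rz_pos
    exact h1.and h2
  have hiso := hLt.eventually (isolated hf.an hf.fin)
  show ∀ᶠ x in 𝓝 (0 : (ℂ × ℂ) × ℂ), _
  filter_upwards [hnear.eventually_nhds, hiso] with x hx hxi hP hx0 hd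
  apply hx0
  apply hLi
  apply hxi
  have hxx := hx.self_of_nhds
  have hfan : AnalyticAt ℂ f (LL x) := by
    have := T.f_an _ hxx.1 _ hxx.2.le
    rw [← ptL_apply] at this
    exact this
  have hvan : AnalyticAt ℂ T.v x := T.v_an _ hxx.1 _ hxx.2.le
  -- the Weierstrass polynomial is differentiable at `x`
  have hPan : DifferentiableAt ℂ (fun q : (ℂ × ℂ) × ℂ => (T.P q.1).eval q.2) x := by
    have h1 : (fun q : (ℂ × ℂ) × ℂ => (T.P q.1).eval q.2) =ᶠ[𝓝 x]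
        fun q => ∑ i ∈ Finset.range (T.d + 1), (T.P q.1).coeff i * q.2 ^ i := by
      filter_upwards [hx] with q hq
      rw [eval_eq_sum_range, T.deg _ hq.1]
    refine (AnalyticAt.congr ?_ h1.symm).differentiableAt
    refine Finset.analyticAt_fun_sum _ fun i _ => AnalyticAt.mul ?_ (analyticAt_snd.pow i)
    exact AnalyticAt.comp (g := fun p => (T.P p).coeff i) (f := fun q : (ℂ × ℂ) × ℂ => q.1)
      (T.coeff_an i _ hxx.1) analyticAt_fst
  have h2 : HasFDerivAt (fun q : (ℂ × ℂ) × ℂ => T.v q * (T.P q.1).eval q.2)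
      (T.v x • fderiv ℂ (fun q : (ℂ × ℂ) × ℂ => (T.P q.1).eval q.2) x +
        (T.P x.1).eval x.2 • fderiv ℂ T.v x) x :=
    (hvan.differentiableAt.hasFDerivAt).mul hPan.hasFDerivAt
  have h20 : T.v x • fderiv ℂ (fun q : (ℂ × ℂ) × ℂ => (T.P q.1).eval q.2) x +
        (T.P x.1).eval x.2 • fderiv ℂ T.v x = 0 := by
    rw [hd, hP]
    have h21 : ∀ (a : ℂ) (K : (ℂ × ℂ) × ℂ →L[ℂ] ℂ),
        a • (0 : (ℂ × ℂ) × ℂ →L[ℂ] ℂ) + (0 : ℂ) • K = 0 := fun a K => by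
      refine ContinuousLinearMap.ext fun u => ?_
      show a * 0 + 0 * K u = 0
      ring
    exact h21 _ _
  rw [h20] at h2
  have h3 : (fun q : (ℂ × ℂ) × ℂ => T.v q * (T.P q.1).eval q.2) =ᶠ[𝓝 x] fun q => f (LL q) := by
    filter_upwards [hx] with q hq
    have h4 := T.f_eq _ hq.1 _ hq.2.le
    rw [← ptL_apply] at h4
    exact h4.symm
  have h4 : fderiv ℂ (fun q => f (LL q)) x = 0 := by
    rw [← h3.fderiv_eq]
    exact h2.fderiv
  have h5 : fderiv ℂ (fun q => f (LL q)) x = (fderiv ℂ f (LL x)).comp LL := by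
    have := fderiv_comp (f := fun q => LL q) (g := f) x hfan.differentiableAt
      LL.differentiableAt
    rw [ContinuousLinearMap.fderiv] at this
    exact this
  have h6 : fderiv ℂ f (LL x) = 0 := by
    ext u
    obtain ⟨w, rfl⟩ := hLs u
    rw [h5] at h4
    have := congrArg (fun K => K w) h4
    simpa using this
  intro j
  have h7 := Crest.Agent.R257.Node_547.fderiv_apply_eq f (LL x) (Pi.single j 1)
  rw [h6] at h7
  simp only [zero_apply] at h7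
  rw [Finset.sum_eq_single j] at h7
  · show coordDeriv f j (LL x) = 0
    simpa using h7.symm
  · intro b _ hb
    rw [Pi.single_eq_of_ne hb, zero_mul]
  · intro h; exact absurd (Finset.mem_univ j) h

/-! ### continuity of roots -/

theorem norm_le_of_far {p : ℂ[X]} (hp : p.Monic) {z : ℂ} {ε : ℝ} (hε : 0 ≤ ε)
    (h : ∀ w, p.eval w = 0 → ε ≤ ‖z - w‖) : ε ^ p.natDegree ≤ ‖p.eval z‖ := by
  have h1 : ∀ m : Multiset ℂ, (∀ w ∈ m, ε ≤ ‖z - w‖) → ε ^ m.card ≤ ‖(m.map (z - ·)).prod‖ := by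
    intro m
    induction m using Multiset.induction with
    | empty => intro _; simp
    | cons a m ih =>
      intro hm
      have h2 := ih fun w hw => hm w (Multiset.mem_cons_of_mem hw)
      have h3 := hm a (Multiset.mem_cons_self a m)
      rw [Multiset.card_cons, Multiset.map_cons, Multiset.prod_cons, norm_mul, pow_succ, mul_comm]
      exact mul_le_mul h3 h2 (pow_nonneg hε _) (norm_nonneg _)
  rw [(IsAlgClosed.splits p).eval_eq_prod_roots_of_monic hp z]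
  have := h1 p.roots fun w hw => h w ((mem_roots hp.ne_zero).1 hw)
  rwa [← (IsAlgClosed.splits p).natDegree_eq_card_roots] at this

theorem root_near {q₀ : ℂ × ℂ} (hq : q₀ ∈ BD T.R T.R) {z : ℂ} (hz : (T.P q₀).eval z = 0) {ε : ℝ}
    (hε : 0 < ε) : ∀ᶠ q in 𝓝 q₀, ∃ w, (T.P q).eval w = 0 ∧ ‖z - w‖ < ε := by
  have hc : Tendsto (fun q => ∑ i ∈ Finset.range (T.d + 1), (T.P q).coeff i * z ^ i) (𝓝 q₀)
      (𝓝 (∑ i ∈ Finset.range (T.d + 1), (T.P q₀).coeff i * z ^ i)) :=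
    tendsto_finsetSum _ fun i _ => ((T.coeff_an i q₀ hq).continuousAt.tendsto).mul_const _
  rw [← T.deg q₀ hq, ← eval_eq_sum_range, hz, T.deg q₀ hq] at hc
  have h2 : 0 < ε ^ T.d := pow_pos hε _
  have h3 := hc.norm
  rw [norm_zero] at h3
  filter_upwards [h3.eventually (gt_mem_nhds h2), (isOpen_BD T.R T.R).mem_nhds hq] with q h4 h5
  by_contra hcon
  push Not at hcon
  have h6 := norm_le_of_far (T.monic q h5) hε.le hcon
  rw [T.deg q h5, eval_eq_sum_range, T.deg q h5] at h6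
  exact absurd h6 (not_le.2 h4)

/-! ### coverage -/

/-- closed bidisc -/
def CB (r : ℝ) : Set (ℂ × ℂ) := {p | ‖p.1‖ ≤ r ∧ ‖p.2‖ ≤ r}

theorem isCompact_CB (r : ℝ) : IsCompact (CB r) := by
  have h1 : CB r = closedBall (0 : ℂ) r ×ˢ closedBall (0 : ℂ) r := by
    ext p; simp [CB]
  rw [h1]
  exact (isCompact_closedBall _ _).prod (isCompact_closedBall _ _)

variable (T) in
/-- data of a finite cover -/
structure Cov where
  F : Finset (Ch T.m)
  r : Ch T.m → ℝ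
  ζ : Ch T.m → Fin T.d → ℂ × ℂ → ℂ
  valid : ∀ c ∈ F, T.Valid c
  r_pos : ∀ c ∈ F, 0 < r c
  sheets : ∀ c ∈ F, T.Sheets c (2 * r c) (ζ c)
  cov : ∃ ε > 0, ∀ s y : ℂ, ‖s‖ < ε → ‖y‖ < ε → (s, y) ≠ 0 → ∃ c ∈ F, ∃ p ∈ CB (r c),
    T.map c p = (s, y)

theorem CB_sub {r : ℝ} (hr : 0 < r) {p : ℂ × ℂ} (hp : p ∈ CB r) : p ∈ BD (2 * r) (2 * r) :=
  ⟨lt_of_le_of_lt hp.1 (by linarith), lt_of_le_of_lt hp.2 (by linarith)⟩

/-- the points of the sheets with `G` -/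
def Bs (C : Cov T) (G : Ch T.m → Fin T.d → Prop) : Set ((ℂ × ℂ) × ℂ) :=
  {x | ∃ c ∈ C.F, ∃ j, G c j ∧ ∃ p ∈ CB (C.r c), T.map c p = x.1 ∧ C.ζ c j p = x.2}

theorem isCompact_Bs (C : Cov T) (G : Ch T.m → Fin T.d → Prop) : IsCompact (Bs C G) := by
  have h1 : Bs C G = ⋃ c ∈ (C.F : Set (Ch T.m)), ⋃ j ∈ {j | G c j},
      (fun p => (T.map c p, C.ζ c j p)) '' CB (C.r c) := by
    ext ⟨q, z⟩
    simp only [Bs, mem_ofPred_eq, mem_iUnion, mem_image, Prod.mk.injEq, Finset.mem_coe,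
      exists_prop]
  rw [h1]
  refine C.F.finite_toSet.isCompact_biUnion fun c hc => (Set.toFinite _).isCompact_biUnion
    fun j _ => (isCompact_CB _).image_of_continuousOn ?_
  intro p hp
  have hp' := CB_sub (C.r_pos c hc) hp
  exact (((C.sheets c hc).map_an hp').continuousAt.prodMk
    ((C.sheets c hc).an j p hp').continuousAt).continuousWithinAt

/-- `(s, y', z) ↦ (s ^ N, y', z)` -/
def gN (N : ℕ) (x : (ℂ × ℂ) × ℂ) : (ℂ × ℂ) × ℂ := ((x.1.1 ^ N, x.1.2), x.2)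

theorem continuous_gN (N : ℕ) : Continuous (gN N) := by
  unfold gN
  fun_prop

theorem gN_open {N : ℕ} (hN : N ≠ 0) {q : (ℂ × ℂ) × ℂ} (h : q.1.1 ≠ 0) :
    𝓝 (gN N q) ≤ map (gN N) (𝓝 q) := by
  obtain ⟨⟨s, y⟩, z⟩ := q
  have h1 : map (fun s : ℂ => s ^ N) (𝓝 s) = 𝓝 (s ^ N) :=
    (hasStrictDerivAt_pow N s).map_nhds_eq
      (mul_ne_zero (by exact_mod_cast hN) (pow_ne_zero _ h))
  have h2 : map (fun p : ℂ × ℂ => (p.1 ^ N, p.2)) (𝓝 (s, y)) = 𝓝 (s ^ N, y) := by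
    rw [nhds_prod_eq, nhds_prod_eq, ← h1]
    have := Filter.prod_map_map_eq' (fun s : ℂ => s ^ N) (id : ℂ → ℂ) (𝓝 s) (𝓝 y)
    rw [Filter.map_id] at this
    exact this.symm
  have h3 : map (gN N) (𝓝 ((s, y), z)) = 𝓝 (gN N ((s, y), z)) := by
    show _ = 𝓝 ((s ^ N, y), z)
    rw [nhds_prod_eq, nhds_prod_eq (x := (s ^ N, y)), ← h2]
    have := Filter.prod_map_map_eq' (fun p : ℂ × ℂ => (p.1 ^ N, p.2)) (id : ℂ → ℂ)
      (𝓝 (s, y)) (𝓝 z)
    rw [Filter.map_id] at this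
    exact this.symm
  exact h3.ge

theorem nodup_prod {d : ℕ} {ζ : Fin d → ℂ} (h : Function.Injective ζ) :
    (∏ j, (X - C (ζ j)) : ℂ[X]).roots.Nodup := by
  have h1 : (∏ j, (X - C (ζ j)) : ℂ[X]) =
      ((Finset.univ.val.map ζ).map fun a => X - C a).prod := by
    rw [Multiset.map_map]
    rfl
  rw [h1, roots_multiset_prod_X_sub_C]
  exact Multiset.Nodup.map h Finset.univ.nodup

theorem map_zero' {c : Ch T.m} (hc : T.Valid c) : T.map c 0 = 0 := by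
  rw [T.map_eq_zero hc]
  cases c with
  | edge i k k' => exact Or.inr rfl
  | leg i => rfl
  | vert i k w => rfl

/-- **coverage by one class of sheets** -/
theorem cover_abs (hf : Iso f) (C : Cov T) (G : Ch T.m → Fin T.d → Prop)
    (tie : ∃ ε > 0, ∀ c ∈ C.F, ∀ c' ∈ C.F, ∀ j j', ∀ p ∈ CB (C.r c), ∀ p' ∈ CB (C.r c'),
      T.map c p = T.map c' p' → ‖(T.map c p).1‖ < ε → ‖(T.map c p).2‖ < ε →
      (T.map c p).1 ≠ 0 → (T.Q (T.map c p)).roots.Nodup → C.ζ c j p = C.ζ c' j' p' →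
      G c j → G c' j')
    {c₀ : Ch T.m} {j₀ : Fin T.d} (hc₀ : c₀ ∈ C.F) (hG : G c₀ j₀) :
    ∃ ρ > 0, ∀ x : Fin 3 → ℂ, x ≠ 0 → ‖x‖ < ρ → f x = 0 →
      ∃ c ∈ C.F, ∃ j, G c j ∧ ∃ p ∈ CB (C.r c), T.th c (C.ζ c j) p = x := by
  obtain ⟨εt, hεt, tie⟩ := tie
  obtain ⟨εc, hεc, hcov⟩ := C.cov
  set ε : ℝ := min εt εc with hε
  have hε0 : 0 < ε := lt_min hεt hεc
  set ε' : ℝ := min (ε ^ T.N) (min ε T.R) with hε'
  have hε'0 : 0 < ε' := lt_min (pow_pos hε0 _) (lt_min hε0 T.R_pos)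
  have hε'R : ε' ≤ T.R := (min_le_right _ _).trans (min_le_right _ _)
  have hε'ε : ε' ≤ ε := (min_le_right _ _).trans (min_le_left _ _)
  have hsmall : ∀ s : ℂ, ‖s ^ T.N‖ < ε' → ‖s‖ < ε := by
    intro s hs
    rw [norm_pow] at hs
    exact lt_of_pow_lt_pow_left₀ T.N hε0.le (hs.trans_le (min_le_left _ _))
  have MF := monFam (T := T) hε'0 hε'R
  have hsub : ∀ q ∈ BD ε' ε', q ∈ BD T.R T.R := fun q hq =>
    ⟨hq.1.trans_le hε'R, hq.2.trans_le hε'R⟩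
  set Vo : Set ((ℂ × ℂ) × ℂ) := {x | x.1 ∈ BD ε' ε' ∧ Dd T x.1 ≠ 0 ∧ (T.P x.1).eval x.2 = 0}
    with hVo
  have hsplit : ∀ q, gN T.N q ∈ Vo → q.1.1 ≠ 0 ∧ ‖q.1.1‖ < ε ∧ ‖q.1.2‖ < ε ∧
      (T.Q q.1).roots.Nodup ∧ (T.Q q.1).eval q.2 = 0 := by
    rintro ⟨⟨s, y⟩, z⟩ ⟨h1, h2, h3⟩
    have h4 := (Dd_iff (hsub _ h1)).1 h2
    exact ⟨fun h => h4.1 (by show s ^ T.N = 0; rw [show s = 0 from h, zero_pow T.N_pos.ne']),
      hsmall s h1.1, lt_of_lt_of_le h1.2 hε'ε, h4.2, h3⟩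
  have hkey : ∀ q, gN T.N q ∈ Vo → q ∈ Bs C G ∨ q ∈ Bs C fun c j => ¬ G c j := by
    intro q hq
    obtain ⟨h1, h2, h3, h4, h5⟩ := hsplit q hq
    obtain ⟨c, hc, p, hp, hpe⟩ := hcov q.1.1 q.1.2 (h2.trans_le (min_le_right _ _))
      (h3.trans_le (min_le_right _ _)) (fun h => h1 (congrArg Prod.fst h))
    have hpe' : T.map c p = q.1 := hpe
    have h6 := (Frm_547.root_iff (C.sheets c hc) (CB_sub (C.r_pos c hc) hp) (z := q.2)).1
      (by rw [hpe']; exact h5)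
    obtain ⟨j, hj⟩ := h6
    by_cases hGj : G c j
    · exact Or.inl ⟨c, hc, j, hGj, p, hp, hpe', hj⟩
    · exact Or.inr ⟨c, hc, j, hGj, p, hp, hpe', hj⟩
  have hdisj : ∀ q, gN T.N q ∈ Vo → q ∈ Bs C G → q ∉ Bs C fun c j => ¬ G c j := by
    intro q hq h1 h2
    obtain ⟨a1, a2, a3, a4, a5⟩ := hsplit q hq
    obtain ⟨c, hc, j, hGj, p, hp, hpe, hj⟩ := h1
    obtain ⟨c', hc', j', hGj', p', hp', hpe', hj'⟩ := h2
    refine hGj' (tie c hc c' hc' j j' p hp p' hp' (hpe.trans hpe'.symm) ?_ ?_ ?_ ?_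
      (hj.trans hj'.symm) hGj)
    · rw [hpe]; exact a2.trans_le (min_le_left _ _)
    · rw [hpe]; exact a3.trans_le (min_le_left _ _)
    · rw [hpe]; exact a1
    · rw [hpe]; exact a4
  have hcomp : IsClosed (gN T.N '' Bs C G) :=
    ((isCompact_Bs C G).image (continuous_gN _)).isClosed
  set A : Set ((ℂ × ℂ) × ℂ) := Vo ∩ gN T.N '' Bs C G with hA
  have hAVo : A = Vo := by
    refine IrrB_331.irr MF ⟨by simpa using hε'0, by simpa using hε'0⟩ T.P_zero (reg hf) A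
      inter_subset_left ?_ ?_ ?_
    · -- open
      rintro x ⟨hx, q, hq, rfl⟩
      have h1 : (Bs C fun c j => ¬ G c j)ᶜ ∈ 𝓝 q :=
        (isCompact_Bs C _).isClosed.isOpen_compl.mem_nhds (hdisj q hx hq)
      have h2 : gN T.N '' (Bs C fun c j => ¬ G c j)ᶜ ∈ 𝓝 (gN T.N q) :=
        gN_open T.N_pos.ne' (hsplit q hx).1 (image_mem_map h1)
      filter_upwards [h2] with y hy hyV
      obtain ⟨q', hq', rfl⟩ := hy
      exact ⟨hyV, q', (hkey q' hyV).resolve_right hq', rfl⟩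
    · -- closed
      intro x hx hxA
      have h1 : x ∉ gN T.N '' Bs C G := fun h => hxA ⟨hx, h⟩
      filter_upwards [hcomp.isOpen_compl.mem_nhds h1] with y hy hyA
      exact hy hyA.2
    · -- non-empty
      have hS := C.sheets c₀ hc₀
      have hr := C.r_pos c₀ hc₀
      have h0 : (0 : ℂ × ℂ) ∈ BD (2 * C.r c₀) (2 * C.r c₀) :=
        ⟨by simpa using hr, by simpa using hr⟩
      have hdiag : Tendsto (fun t : ℂ => ((t, t) : ℂ × ℂ)) (𝓝[≠] 0) (𝓝 (0 : ℂ × ℂ)) :=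
        ((by fun_prop : Continuous fun t : ℂ => ((t, t) : ℂ × ℂ)).tendsto 0).mono_left
          nhdsWithin_le_nhds
      have hmap : Tendsto (fun p => gN T.N (T.map c₀ p, C.ζ c₀ j₀ p)) (𝓝 (0 : ℂ × ℂ))
          (𝓝 (gN T.N (T.map c₀ 0, C.ζ c₀ j₀ 0))) :=
        ((continuous_gN T.N).tendsto _).comp
          ((hS.map_an h0).continuousAt.prodMk (hS.an j₀ 0 h0).continuousAt)
      have h1 : ∀ᶠ p in 𝓝 (0 : ℂ × ℂ), (gN T.N (T.map c₀ p, C.ζ c₀ j₀ p)).1 ∈ BD ε' ε' := by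
        refine hmap.eventually (continuousAt_fst.eventually ((isOpen_BD ε' ε').mem_nhds ?_))
        rw [map_zero' (C.valid c₀ hc₀)]
        refine ⟨?_, ?_⟩
        · show ‖(0 : ℂ) ^ T.N‖ < ε'
          rw [zero_pow T.N_pos.ne', norm_zero]; exact hε'0
        · show ‖(0 : ℂ)‖ < ε'
          rw [norm_zero]; exact hε'0
      have h2 : ∀ᶠ p in 𝓝 (0 : ℂ × ℂ), p ∈ CB (C.r c₀) := by
        have : BD (C.r c₀) (C.r c₀) ∈ 𝓝 (0 : ℂ × ℂ) :=
          (isOpen_BD _ _).mem_nhds ⟨by simpa using hr, by simpa using hr⟩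
        filter_upwards [this] with p hp
        exact ⟨hp.1.le, hp.2.le⟩
      obtain ⟨t, ⟨ht1, ht2⟩, ht0⟩ := ((hdiag.eventually (h1.and h2)).and
        self_mem_nhdsWithin).exists
      have ht0' : t ≠ 0 := ht0
      have hgen : T.Gen c₀ (t, t) := by
        cases c₀ with
        | edge i k k' => exact ⟨ht0', ht0'⟩
        | leg i => exact ⟨ht0', ht0'⟩
        | vert i k w => exact ht0'
      have hs0 : (T.map c₀ (t, t)).1 ≠ 0 := by
        cases c₀ with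
        | edge i k k' => exact mul_ne_zero ht0' ht0'
        | leg i => exact ht0'
        | vert i k w => exact ht0'
      have ht3 := CB_sub hr ht2
      have hin : gN T.N (T.map c₀ (t, t), C.ζ c₀ j₀ (t, t)) ∈ Vo := by
        refine ⟨ht1, (Dd_iff (hsub _ ht1)).2 ⟨pow_ne_zero _ hs0, ?_⟩, hS.root j₀ ht3⟩
        show (T.Q (T.map c₀ (t, t))).roots.Nodup
        rw [hS.split _ ht3]
        exact nodup_prod (hS.inj _ ht3 hgen)
      exact ⟨_, hin, _, ⟨c₀, hc₀, j₀, hG, (t, t), ht2, rfl, rfl⟩, rfl⟩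
  -- closure
  have hclos : ∀ x : (ℂ × ℂ) × ℂ, x.1 ∈ BD ε' ε' → (T.P x.1).eval x.2 = 0 →
      x ∈ gN T.N '' Bs C G := by
    rintro ⟨q, z⟩ hq hz
    simp only at hq hz
    rw [← hcomp.closure_eq]
    refine closure_mono (hAVo ▸ inter_subset_right : Vo ⊆ gN T.N '' Bs C G) ?_
    rw [Metric.mem_closure_iff]
    intro δ hδ
    have h1 := root_near (hsub q hq) hz hδ
    have h2 : ∀ᶠ q' in 𝓝 q, q' ∈ BD ε' ε' ∧ dist q q' < δ := by
      filter_upwards [(isOpen_BD ε' ε').mem_nhds hq, ball_mem_nhds q hδ] with q' a1 a2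
      exact ⟨a1, by rw [dist_comm]; exact a2⟩
    obtain ⟨q', hq', ⟨w, hw, hzw⟩, hq'B, hq'd⟩ := ((MF.freq hq).and_eventually (h1.and h2)).exists
    refine ⟨(q', w), ⟨hq'B, hq', hw⟩, ?_⟩
    rw [Prod.dist_eq, max_lt_iff]
    exact ⟨hq'd, by rw [dist_eq_norm]; exact hzw⟩
  -- conclusion
  have hAs : Tendsto (fun x : Fin 3 → ℂ => T.A.symm (x 1, x 2)) (𝓝 0) (𝓝 0) := by
    have h1 : Continuous fun x : Fin 3 → ℂ => T.A.symm (x 1, x 2) :=
      T.A.symm.continuous.comp (by fun_prop)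
    have h2 := h1.tendsto 0
    have h3 : T.A.symm ((0 : Fin 3 → ℂ) 1, (0 : Fin 3 → ℂ) 2) = 0 := by
      show T.A.symm 0 = 0
      exact map_zero _
    rwa [h3] at h2
  have hev : ∀ᶠ x : Fin 3 → ℂ in 𝓝 0, T.A.symm (x 1, x 2) ∈ BD ε' ε' ∧ ‖x 0‖ < T.rz := by
    refine (hAs.eventually ((isOpen_BD ε' ε').mem_nhds
      ⟨by simpa using hε'0, by simpa using hε'0⟩)).and ?_
    have : Continuous fun x : Fin 3 → ℂ => ‖x 0‖ := by fun_prop
    refine (this.tendsto 0).eventually (gt_mem_nhds ?_)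
    simpa using T.rz_pos
  obtain ⟨ρ, hρ, hb⟩ := Metric.eventually_nhds_iff.1 hev
  refine ⟨ρ, hρ, fun x _ hxρ hfx => ?_⟩
  obtain ⟨h1, h2⟩ := hb (by simpa using hxρ)
  set q := T.A.symm (x 1, x 2) with hq
  have hAq : T.A q = (x 1, x 2) := by rw [hq, ContinuousLinearEquiv.apply_symm_apply]
  have hx : x = pt (x 0) (T.A q) := by
    rw [hAq]
    funext i
    fin_cases i <;> rfl
  have h3 : (T.P q).eval (x 0) = 0 := by
    have h4 := T.f_eq q (hsub q h1) (x 0) h2.le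
    rw [← hx, hfx] at h4
    exact (mul_eq_zero.1 h4.symm).resolve_left (T.v_ne q (hsub q h1) (x 0) h2.le)
  obtain ⟨⟨⟨s, y⟩, z⟩, ⟨c, hc, j, hGj, p, hp, hpe, hj⟩, hge⟩ := hclos (q, x 0) h1 h3
  simp only [gN, Prod.mk.injEq] at hge hpe hj
  refine ⟨c, hc, j, hGj, p, hp, ?_⟩
  rw [hx, TB.th, TB.base, hpe, hj]
  show pt z (T.A (s ^ T.N, y)) = _
  rw [hge.1, hge.2]

end Crest.Agent.R257.FrmE_547
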