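import Crest.Agent.R257.FrmF_547

/-!
R257 / FrmF2_547 (task C-FRAME): types of the limit points, and the tie property.
-/

set_option autoImplicit false
set_option linter.unusedSectionVars false

open Polynomial Set Filter Topology Metric
open Crest.AlgGeometry.Germ Crest.Agent.R257.AJ387 Crest.Agent.R257.T387
open Crest.Agent.R257.FrmE_547 Crest.Agent.R257.Frm_547 Crest.Agent.R257.BP_258
open Crest.Agent.R257.Typ_201 (TV TL TN)

noncomputable section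

namespace Crest.Agent.R257.FrmF_547

variable {f : (Fin 3 → ℂ) → ℂ} {T : TB f}

theorem twc_edge1 (i : Fin T.m) {k k' : ℕ} (hk : k ≤ k') {p : ℂ × ℂ}
    (hp : (T.map (.edge i k k') p).1 ≠ 0) :
    Typ_201.wc T i k (T.map (.edge i k k') p) = p.2 ^ (T.M * (k' - k)) := by
  have h1 := Vx_331.wv_edge1 T i hk (p := p) hp
  have h2 := Vx_331.wv_add T i k (s := (T.map (.edge i k k') p).1)
    (y := (T.map (.edge i k k') p).2) hp
  exact add_right_cancel (h2.symm.trans h1)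

theorem twc_edge2 (i : Fin T.m) {k k' : ℕ} (hk : k ≤ k') {p : ℂ × ℂ}
    (hp : (T.map (.edge i k k') p).1 ≠ 0) :
    Typ_201.wc T i k' (T.map (.edge i k k') p) = (p.1 ^ (T.M * (k' - k)))⁻¹ := by
  have h1 := Vx_331.wv_edge2 T i hk (p := p) hp
  have h2 := Vx_331.wv_add T i k' (s := (T.map (.edge i k k') p).1)
    (y := (T.map (.edge i k k') p).2) hp
  exact add_right_cancel (h2.symm.trans h1)

theorem twc_leg (i : Fin T.m) {p : ℂ × ℂ} (hp : (T.map (.leg i) p).1 ≠ 0) :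
    Typ_201.wc T i (T.top i) (T.map (.leg i) p) = p.2 ^ T.M := by
  have h1 := Vx_331.wv_leg T i (p := p) hp
  have h2 := Vx_331.wv_add T i (T.top i) (s := (T.map (.leg i) p).1)
    (y := (T.map (.leg i) p).2) hp
  exact add_right_cancel (h2.symm.trans h1)

theorem twc_vert (i : Fin T.m) (k : ℕ) (w : ℂ) {p : ℂ × ℂ}
    (hp : (T.map (.vert i k w) p).1 ≠ 0) :
    Typ_201.wc T i k (T.map (.vert i k w) p) = w + p.2 := by
  have h1 := Vx_331.wv_vert T i k w (p := p) hp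
  have h2 := Vx_331.wv_add T i k (s := (T.map (.vert i k w) p).1)
    (y := (T.map (.vert i k w) p).2) hp
  exact add_right_cancel (h2.symm.trans h1)

variable {U : Tub T} {S : Sh T} (L : Lab U S)

/-- a limit point of vertex type -/
def VT (c : Ch T.m) (j : Fin T.d) (m : Filter (ℂ × ℂ)) : Prop :=
  ∃ (i : Fin T.m) (k : ℕ) (w₀ : ℂ) (E : II U), TV T (map (T.map c) m) i k w₀ ∧
    (L.e1 c j = some E ∨ L.e2 c j = some E) ∧ E.1.1 = vx T i k ∧
    ∀ᶠ p in m, InT U E.1.1 (BP_258.wc S c j p) ∧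
      ∀ q, IsRet U E.1.1 (BP_258.wc S c j p) q → (q : ConnectedComponents (XV U E.1.1)) = E.2

/-- the type of a limit point of the special fibre -/
theorem classify {c : Ch T.m} (hc : Ok S c) (j : Fin T.d) {p₀ : ℂ × ℂ} (hp₀ : p₀ ∈ CB (S.r c))
    {m : Filter (ℂ × ℂ)} (hm : m ≤ 𝓝 p₀) (hmC : ∀ᶠ p in m, p ∈ CB (S.r c))
    (hs : ∀ᶠ p in m, (T.map c p).1 ≠ 0) (h0 : T.map c p₀ = 0) :
    VT L c j m ∨ (∃ i, c = .leg i ∧ TL T (map (T.map c) m) i) ∨
      (∃ i k k', c = .edge i k k' ∧ TN T (map (T.map c) m) i k k') := by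
  have hr := S.pos c
  have c1 : Tendsto (fun p : ℂ × ℂ => p.1) m (𝓝 p₀.1) := (continuous_fst.tendsto p₀).mono_left hm
  have c2 : Tendsto (fun p : ℂ × ℂ => p.2) m (𝓝 p₀.2) := (continuous_snd.tendsto p₀).mono_left hm
  have hz := (T.map_eq_zero hc.1 p₀).1 h0
  -- the general vertex case, first branch
  have key1 : ∀ (i : Fin T.m) (k : ℕ) (w₀ : ℂ), v1 T c = some (vx T i k) →
      (IsV c ∨ p₀.2 ≠ 0) → p₀.1 = 0 → (∀ᶠ p in m, p.1 ≠ 0) → TV T (map (T.map c) m) i k w₀ →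
      VT L c j m := by
    intro i k w₀ hv h2 h1 hne hTV
    obtain ⟨E, hE, hEv⟩ := e1_some L hc j hv
    refine ⟨i, k, w₀, E, hTV, Or.inl hE, hEv, ?_⟩
    have hτ : ∃ τ > 0, ∀ᶠ p in m, IsV c ∨ τ ≤ ‖p.2‖ := by
      rcases h2 with h2 | h2
      · exact ⟨1, one_pos, Eventually.of_forall fun _ => Or.inl h2⟩
      · have h3 : 0 < ‖p₀.2‖ := norm_pos_iff.2 h2
        refine ⟨‖p₀.2‖ / 2, by positivity, ?_⟩
        filter_upwards [c2.norm.eventually (lt_mem_nhds (half_lt_self h3))] with p hp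
        exact Or.inr hp.le
    obtain ⟨τ, hτ0, hτ⟩ := hτ
    obtain ⟨a, ha, h⟩ := L.near1 c hc j E hE τ hτ0
    have h3 : ∀ᶠ p in m, ‖p.1‖ < a := by
      refine c1.norm.eventually (gt_mem_nhds ?_)
      rw [h1, norm_zero]; exact ha
    filter_upwards [hτ, h3, hne, hmC] with p d1 d2 d3 d4
    exact h p (norm_pos_iff.2 d3) d2 d4.2 d1
  have key2 : ∀ (i : Fin T.m) (k : ℕ) (w₀ : ℂ), v2 T c = some (vx T i k) →
      p₀.1 ≠ 0 → p₀.2 = 0 → (∀ᶠ p in m, p.2 ≠ 0) → TV T (map (T.map c) m) i k w₀ →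
      VT L c j m := by
    intro i k w₀ hv h2 h1 hne hTV
    obtain ⟨E, hE, hEv⟩ := e2_some L hc j hv
    refine ⟨i, k, w₀, E, hTV, Or.inr hE, hEv, ?_⟩
    have h3 : 0 < ‖p₀.1‖ := norm_pos_iff.2 h2
    obtain ⟨a, ha, h⟩ := L.near2 c hc j E hE (‖p₀.1‖ / 2) (by positivity)
    have h4 : ∀ᶠ p in m, ‖p.2‖ < a := by
      refine c2.norm.eventually (gt_mem_nhds ?_)
      rw [h1, norm_zero]; exact ha
    filter_upwards [c1.norm.eventually (lt_mem_nhds (half_lt_self h3)), h4, hne, hmC]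
      with p d1 d2 d3 d4
    exact h p (norm_pos_iff.2 d3) d2 d4.1 d1.le
  cases c with
  | vert i k w =>
    left
    have h1 : p₀.1 = 0 := hz
    refine key1 i k (w + p₀.2) rfl (Or.inl trivial) h1 hs ⟨hc.1.1, ?_, ?_⟩
    · rw [tendsto_map'_iff]
      refine (c2.const_add w).congr' ?_
      filter_upwards [hs] with p hp
      exact (twc_vert i k w hp).symm
    · refine S.far i k w hc.1 _ ?_
      rw [add_sub_cancel_left]
      have := hp₀.2
      linarith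
  | leg i =>
    have h1 : p₀.1 = 0 := hz
    have hT : Tendsto (Typ_201.wc T i (T.top i)) (map (T.map (.leg i)) m) (𝓝 (p₀.2 ^ T.M)) := by
      rw [tendsto_map'_iff]
      refine (c2.pow T.M).congr' ?_
      filter_upwards [hs] with p hp
      exact (twc_leg i hp).symm
    by_cases h2 : p₀.2 = 0
    · right; left
      refine ⟨i, rfl, ?_⟩
      rw [h2, zero_pow T.M_pos.ne'] at hT
      exact hT
    · left
      refine key1 i (T.top i) (p₀.2 ^ T.M) rfl (Or.inr h2) h1 hs ⟨T.top_mem i, hT, ?_⟩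
      refine S.farl i _ h2 ?_
      have := hp₀.2
      linarith
  | edge i k k' =>
    have hkk : k < k' := hc.1.2.2.1
    have hn : T.M * (k' - k) ≠ 0 := Nat.mul_ne_zero T.M_pos.ne' (by omega)
    have hne1 : ∀ᶠ p in m, p.1 ≠ 0 := hs.mono fun p hp => left_ne_zero_of_mul hp
    have hne2 : ∀ᶠ p in m, p.2 ≠ 0 := hs.mono fun p hp => right_ne_zero_of_mul hp
    have hT1 : Tendsto (Typ_201.wc T i k) (map (T.map (.edge i k k')) m)
        (𝓝 (p₀.2 ^ (T.M * (k' - k)))) := by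
      rw [tendsto_map'_iff]
      refine (c2.pow _).congr' ?_
      filter_upwards [hs] with p hp
      exact (twc_edge1 i hkk.le hp).symm
    by_cases h2 : p₀.2 = 0
    · by_cases h1 : p₀.1 = 0
      · right; right
        refine ⟨i, k, k', rfl, hc.1, ?_, ?_⟩
        · rw [h2, zero_pow hn] at hT1
          exact hT1
        · rw [tendsto_map'_iff]
          have h3 : Tendsto (fun p : ℂ × ℂ => p.1 ^ (T.M * (k' - k))) m (𝓝[≠] 0) := by
            rw [tendsto_nhdsWithin_iff]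
            constructor
            · have := c1.pow (T.M * (k' - k))
              rwa [h1, zero_pow hn] at this
            · filter_upwards [hne1] with p hp
              exact pow_ne_zero _ hp
          refine (Filter.tendsto_inv₀_nhdsNE_zero.comp h3).congr' ?_
          filter_upwards [hs] with p hp
          exact (twc_edge2 i hkk.le hp).symm
      · left
        refine key2 i k' ((p₀.1 ^ (T.M * (k' - k)))⁻¹) rfl h1 h2 hne2 ⟨hc.1.2.1, ?_, ?_⟩
        · rw [tendsto_map'_iff]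
          refine ((c1.pow _).inv₀ (pow_ne_zero _ h1)).congr' ?_
          filter_upwards [hs] with p hp
          exact (twc_edge2 i hkk.le hp).symm
        · refine (S.fare i k k' hc.1 _ h1 ?_).2
          have := hp₀.1
          linarith
    · left
      obtain ⟨hk0, h1⟩ : k ≠ 0 ∧ p₀.1 = 0 := hz.resolve_right h2
      have hlev : k ∈ T.lev i := hc.1.1.resolve_left hk0
      refine key1 i k (p₀.2 ^ (T.M * (k' - k))) (by simp [v1, hk0]) (Or.inr h2) h1 hne1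
        ⟨hlev, hT1, ?_⟩
      refine (S.fare i k k' hc.1 _ h2 ?_).1
      have := hp₀.2
      linarith

/-- the label is in `g` -/
def GS (g : II U → Prop) (c : Ch T.m) (j : Fin T.d) : Prop :=
  ∃ E, (L.e1 c j = some E ∨ L.e2 c j = some E) ∧ g E

/-- `g` is a union of graph components -/
def Adjc (g : II U → Prop) : Prop := ∀ v ∈ Vs T, ∀ j E E', L.e1 (ec S v) j = some E →
  L.e2 (ec S v) j = some E' → (g E ↔ g E')

theorem ok_edge {i : Fin T.m} {k k' : ℕ} (hc : Ok S (.edge i k k')) :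
    ∃ v ∈ Vs T, (.edge i k k' : Ch T.m) = ec S v := by
  obtain ⟨v, hv, h1, h2, h3⟩ := hc.2
  exact ⟨v, hv, by rw [h1, h2, h3]; rfl⟩

theorem g_both {g : II U → Prop} (hg : Adjc L g) {c : Ch T.m} (hc : Ok S c) {j : Fin T.d}
    {E E' : II U} (h1 : L.e1 c j = some E) (h2 : L.e2 c j = some E') : g E ↔ g E' := by
  have h3 := v2_of_some L hc h2
  cases c with
  | edge i k k' =>
    obtain ⟨v, hv, he⟩ := ok_edge hc
    rw [he] at h1 h2
    exact hg v hv j E E' h1 h2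
  | leg i => exact absurd h3 (by simp [v2])
  | vert i k w => exact absurd h3 (by simp [v2])

theorem GS_iff {g : II U → Prop} (hg : Adjc L g) {c : Ch T.m} (hc : Ok S c) {j : Fin T.d}
    {E : II U} (h : L.e1 c j = some E ∨ L.e2 c j = some E) : GS L g c j ↔ g E := by
  constructor
  · rintro ⟨E', h', hgE⟩
    rcases h with h | h <;> rcases h' with h' | h'
    · rw [h] at h'; rw [Option.some.inj h']; exact hgE
    · exact (g_both L hg hc h h').2 hgE
    · exact (g_both L hg hc h' h).1 hgE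
    · rw [h] at h'; rw [Option.some.inj h']; exact hgE
  · intro hgE
    exact ⟨E, h, hgE⟩

theorem leg_or_edge_eq {v v' : Vtx} (hv : v ∈ Vs T) (hv' : v' ∈ Vs T) (h1 : v.1 = v'.1)
    (h2 : Eqv T v.1 (S.ci v) (S.ci v')) : v = v' := by
  have e1 := Vx_331.ci_vx S hv
  have e2 := Vx_331.ci_vx S hv'
  have h3 := (Vx_331.vx_eq_iff T (S.ci v) (S.ci v') v.1).2 h2
  rw [← e1, h3, h1, e2]

/-- **the tie property**, for one pair of sheets -/
theorem tie_pair (hR : RetStmt U) {g : II U → Prop} (hg : Adjc L g) {c c' : Ch T.m} (hc : Ok S c)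
    (hc' : Ok S c') (j j' : Fin T.d) :
    ∃ ε > 0, ∀ p ∈ CB (S.r c), ∀ p' ∈ CB (S.r c'), T.map c p = T.map c' p' →
      ‖(T.map c p).1‖ < ε → ‖(T.map c p).2‖ < ε → (T.map c p).1 ≠ 0 →
      (T.Q (T.map c p)).roots.Nodup → S.ζ c j p = S.ζ c' j' p' → GS L g c j → GS L g c' j' := by
  classical
  by_contra hcon
  -- the bad pairs
  set Z : Set ((ℂ × ℂ) × (ℂ × ℂ)) := {x | x.1 ∈ CB (S.r c) ∧ x.2 ∈ CB (S.r c') ∧
    T.map c x.1 = T.map c' x.2 ∧ (T.map c x.1).1 ≠ 0 ∧ (T.Q (T.map c x.1)).roots.Nodup ∧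
    S.ζ c j x.1 = S.ζ c' j' x.2} with hZ
  have hcon' : ∀ ε > 0, (GS L g c j ∧ ¬ GS L g c' j') ∧ ∃ x ∈ Z, ‖(T.map c x.1).1‖ < ε ∧
      ‖(T.map c x.1).2‖ < ε := by
    intro ε hε
    by_contra hcon2
    apply hcon
    refine ⟨ε, hε, fun p hp p' hp' a1 a2 a3 a4 a5 a6 a7 => ?_⟩
    by_contra a8
    exact hcon2 ⟨⟨a7, a8⟩, (p, p'), ⟨hp, hp', a1, a4, a5, a6⟩, a2, a3⟩
  obtain ⟨hG, hG'⟩ := (hcon' 1 one_pos).1
  set l : Filter ((ℂ × ℂ) × (ℂ × ℂ)) := 𝓟 Z ⊓ comap (fun x => T.map c x.1) (𝓝 0) with hl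
  have hlne : l.NeBot := by
    rw [hl, inf_comm]
    refine Filter.inf_principal_neBot_iff.2 fun W hW => ?_
    obtain ⟨V, hV, hVW⟩ := mem_comap.1 hW
    obtain ⟨ε, hε, hb⟩ := Metric.mem_nhds_iff.1 hV
    obtain ⟨x, hx, h1, h2⟩ := (hcon' ε hε).2
    refine ⟨x, hVW (hb ?_), hx⟩
    rw [mem_ball, dist_zero_right, Prod.norm_def, max_lt_iff]
    exact ⟨h1, h2⟩
  have hcpt : IsCompact (CB (S.r c) ×ˢ CB (S.r c')) := (isCompact_CB _).prod (isCompact_CB _)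
  have hlle : l ≤ 𝓟 (CB (S.r c) ×ˢ CB (S.r c')) :=
    inf_le_left.trans (principal_mono.2 fun x hx => ⟨hx.1, hx.2.1⟩)
  obtain ⟨⟨p₀, p₀'⟩, hp₀, hcl⟩ := hcpt.exists_clusterPt hlle
  set l' : Filter ((ℂ × ℂ) × (ℂ × ℂ)) := 𝓝 (p₀, p₀') ⊓ l with hl'
  have : l'.NeBot := hcl
  have hZ' : ∀ᶠ x in l', x ∈ Z := by
    have : l' ≤ 𝓟 Z := inf_le_right.trans inf_le_left
    exact this (mem_principal_self Z)
  have t0 : Tendsto (fun x : (ℂ × ℂ) × (ℂ × ℂ) => T.map c x.1) l' (𝓝 0) :=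
    (tendsto_comap.mono_left (inf_le_right.trans inf_le_right))
  have t1 : Tendsto (Prod.fst : (ℂ × ℂ) × (ℂ × ℂ) → ℂ × ℂ) l' (𝓝 p₀) :=
    (continuous_fst.tendsto (p₀, p₀')).mono_left inf_le_left
  have t2 : Tendsto (Prod.snd : (ℂ × ℂ) × (ℂ × ℂ) → ℂ × ℂ) l' (𝓝 p₀') :=
    (continuous_snd.tendsto (p₀, p₀')).mono_left inf_le_left
  have t0' : Tendsto (fun x : (ℂ × ℂ) × (ℂ × ℂ) => T.map c' x.2) l' (𝓝 0) :=
    t0.congr' (hZ'.mono fun x hx => hx.2.2.1)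
  -- the limits
  have hm : T.map c p₀ = 0 := by
    have h1 := ((S.sheets c hc.1).map_an (CB_sub (S.pos c) hp₀.1)).continuousAt
    exact tendsto_nhds_unique (h1.tendsto.comp t1) t0
  have hm' : T.map c' p₀' = 0 := by
    have h1 := ((S.sheets c' hc'.1).map_an (CB_sub (S.pos c') hp₀.2)).continuousAt
    exact tendsto_nhds_unique (h1.tendsto.comp t2) t0'
  set m : Filter (ℂ × ℂ) := map Prod.fst l' with hmdef
  set m' : Filter (ℂ × ℂ) := map Prod.snd l' with hmdef'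
  -- the filter on the `(s, y')`-plane
  have hmap2 : map (T.map c') m' = map (T.map c) m := by
    rw [hmdef, hmdef', Filter.map_map, Filter.map_map]
    exact Filter.map_congr (hZ'.mono fun x hx => hx.2.2.1.symm)
  have hs0 : Tendsto (Prod.fst : ℂ × ℂ → ℂ) (map (T.map c) m) (𝓝 0) := by
    rw [hmdef, Filter.map_map, tendsto_map'_iff]
    exact (continuous_fst.tendsto (0 : ℂ × ℂ)).comp t0
  have hs1 : ∀ᶠ q in map (T.map c) m, q.1 ≠ 0 := by
    rw [hmdef, Filter.map_map, eventually_map]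
    exact hZ'.mono fun x hx => hx.2.2.2.1
  have k1 := classify L hc j hp₀.1 (m := m) t1 (hZ'.mono fun x hx => hx.1)
    (hZ'.mono fun x hx => hx.2.2.2.1) hm
  have hs2 : ∀ᶠ x in l', (T.map c' x.2).1 ≠ 0 :=
    hZ'.mono fun x hx => by rw [← hx.2.2.1]; exact hx.2.2.2.1
  have k2 := classify L hc' j' hp₀.2 (m := m') t2 (hZ'.mono fun x hx => hx.2.1) hs2 hm'
  unfold VT at k1 k2
  rw [hmap2] at k2
  -- same chart, not a vertex chart
  have hsame : c = c' → ¬ IsV c → False := by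
    rintro rfl hv
    obtain ⟨x, hx⟩ := hZ'.exists
    have h3 := lab_of_eq L hR hc hv hx.1 hx.2.2.1 hx.2.2.2.1 hx.2.2.2.2.1 hx.2.2.2.2.2
    apply hG'
    obtain ⟨E, hE, hgE⟩ := hG
    exact ⟨E, by rw [← h3.1, ← h3.2]; exact hE, hgE⟩
  rcases k1 with ⟨i, k, w, E, hV, hE, hEv, hn⟩ | ⟨i, hci, hV⟩ | ⟨i, k, k', hci, hV⟩ <;>
  rcases k2 with ⟨i', a, w', E', hV', hE', hEv', hn'⟩ | ⟨i', hci', hV'⟩ | ⟨i', a, a', hci', hV'⟩
  · -- V, V
    obtain ⟨rfl, he⟩ := Typ_201.TV_TV hs0 hs1 hV hV'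
    have hv : E.1.1 = E'.1.1 := by
      rw [hEv, hEv']
      exact (Vx_331.vx_eq_iff T i i' k).2 he
    have hn1 : ∀ᶠ x in l', InT U E.1.1 (BP_258.wc S c j x.1) ∧
      ∀ q, IsRet U E.1.1 (BP_258.wc S c j x.1) q →
        (q : ConnectedComponents (XV U E.1.1)) = E.2 := hn
    have hn2 : ∀ᶠ x in l', InT U E'.1.1 (BP_258.wc S c' j' x.2) ∧
      ∀ q, IsRet U E'.1.1 (BP_258.wc S c' j' x.2) q →
        (q : ConnectedComponents (XV U E'.1.1)) = E'.2 := hn'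
    obtain ⟨x, hx, b1, b2⟩ := (hZ'.and (hn1.and hn2)).exists
    have hw : BP_258.wc S c j x.1 = BP_258.wc S c' j' x.2 := by
      unfold BP_258.wc
      rw [hx.2.2.1, hx.2.2.2.2.2]
    have hEE : E = E' := ii_eq hR hv b1.1 b1.2 (by rw [hw]; exact b2.2)
    apply hG'
    rw [GS_iff L hg hc' hE', ← hEE]
    exact (GS_iff L hg hc hE).1 hG
  · exact Typ_201.TV_TL hs0 hs1 hV hV'
  · exact Typ_201.TV_TN hs0 hs1 hV hV'
  · exact Typ_201.TV_TL hs0 hs1 hV' hV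
  · have := Typ_201.TL_TL hs0 hs1 hV hV'
    subst this
    exact hsame (hci.trans hci'.symm) (by rw [hci]; exact id)
  · exact Typ_201.TL_TN hs0 hs1 hV hV'
  · exact Typ_201.TV_TN hs0 hs1 hV' hV
  · exact Typ_201.TL_TN hs0 hs1 hV' hV
  · obtain ⟨rfl, rfl, he⟩ := Typ_201.TN_TN hs0 hs1 hV hV'
    refine hsame ?_ (by rw [hci]; exact id)
    subst hci hci'
    obtain ⟨v, hv, h1⟩ := ok_edge hc
    obtain ⟨v', hv', h1'⟩ := ok_edge hc'
    simp only [ec, Ch.edge.injEq] at h1 h1'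
    obtain ⟨rfl, rfl, rfl⟩ := h1
    obtain ⟨rfl, h2, h3⟩ := h1'
    have := leg_or_edge_eq (S := S) hv hv' h3 he
    rw [this]

/-- **the tie property** -/
theorem tie (hR : RetStmt U) {g : II U → Prop} (hg : Adjc L g) (F : Finset (Ch T.m))
    (hF : ∀ c ∈ F, Ok S c) :
    ∃ ε > 0, ∀ c ∈ F, ∀ c' ∈ F, ∀ j j', ∀ p ∈ CB (S.r c), ∀ p' ∈ CB (S.r c'),
      T.map c p = T.map c' p' → ‖(T.map c p).1‖ < ε → ‖(T.map c p).2‖ < ε →
      (T.map c p).1 ≠ 0 → (T.Q (T.map c p)).roots.Nodup → S.ζ c j p = S.ζ c' j' p' →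
      GS L g c j → GS L g c' j' := by
  classical
  have h : ∀ x : (F × F) × (Fin T.d × Fin T.d), ∃ ε > 0, ∀ p ∈ CB (S.r x.1.1),
      ∀ p' ∈ CB (S.r x.1.2), T.map x.1.1 p = T.map x.1.2 p' →
      ‖(T.map x.1.1 p).1‖ < ε → ‖(T.map x.1.1 p).2‖ < ε → (T.map x.1.1 p).1 ≠ 0 →
      (T.Q (T.map x.1.1 p)).roots.Nodup → S.ζ x.1.1 x.2.1 p = S.ζ x.1.2 x.2.2 p' →
      GS L g x.1.1 x.2.1 → GS L g x.1.2 x.2.2 :=
    fun x => tie_pair L hR hg (hF _ x.1.1.2) (hF _ x.1.2.2) x.2.1 x.2.2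
  choose ε hε h using h
  obtain ⟨δ, hδ, hδ'⟩ : ∃ δ > 0, ∀ x, δ ≤ ε x := by
    have h1 : ∀ᶠ δ : ℝ in 𝓝[>] 0, ∀ x, δ ≤ ε x := by
      refine eventually_all.2 fun x => ?_
      exact nhdsWithin_le_nhds (eventually_le_nhds (hε x))
    obtain ⟨δ, h2, h3⟩ := (h1.and self_mem_nhdsWithin).exists
    exact ⟨δ, h3, h2⟩
  refine ⟨δ, hδ, fun c hc c' hc' j j' p hp p' hp' h1 h2 h3 => ?_⟩
  exact h ((⟨c, hc⟩, ⟨c', hc'⟩), (j, j')) p hp p' hp' h1 (h2.trans_le (hδ' _))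
    (h3.trans_le (hδ' _))

end Crest.Agent.R257.FrmF_547
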