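import Crest.Agent.R257.OtKD_331
import Crest.Agent.R273.OTX_34

/-!
# Row 257, task C-HO (helper843), file A

`XX d = {x ∈ Pd R | h x = 0, ∂₀h x ≠ 0}` as a Riemann domain over the last `n` coordinates.
* `amb` : a holomorphic function `F` on `XX d` with `∫ |F|² / |∂₀h|² < ∞` extends to a holomorphic
  function on the polydisc `Pd R`;
* `ho`  : one Hörmander step: `S`, `Φ` smooth on `XX d`, `Φ` psh and bounded above,
  `|∂̄S|² ≤ κ Levi Φ`, `∫ κ e^{-Φ} / |∂₀h|² ≤ K`, `∫ |S|² / |∂₀h|² < ∞` ⟹ there is `G` holomorphic on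
  `Pd R` with `∫ |G - S|² e^{-Φ} / |∂₀h|² ≤ 2 K`.
-/

set_option autoImplicit false
set_option linter.unusedSectionVars false

noncomputable section

open Set Filter Topology MeasureTheory ComplexConjugate
open scoped ENNReal

namespace Crest.Agent.R257.HoA_843

open Crest.Agent.R271 Crest.Agent.R271.Ho51 Crest.Agent.R273.Dir73 Crest.Agent.R273.OTA_34
open Crest.Agent.R257.OtK_331 Crest.Agent.R276.EngU_29 Crest.Agent.R273.Reg_844
open Crest.Agent.R271.W792 (lev dsq nS nT lg)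

variable {n : ℕ}

/-- the regular part of the hypersurface -/
abbrev XX (d : Dat n) : Type := Hs (MM d) 0

variable {d : Dat n}

/-- the point of `ℂ^{n+1}` -/
def vv (y : XX d) : Fin (n + 1) → ℂ := (ι y).v

lemma vv_mem (y : XX d) : vv y ∈ d.U := (ι y).mem

lemma h_vv (y : XX d) : d.h (vv y) = 0 := by
  have := ell_ι y
  rwa [ell_MM] at this

lemma d0_vv (y : XX d) : d0 d.h (vv y) ≠ 0 := (vv_mem y).2

lemma d0_pos (y : XX d) : 0 < ‖d0 d.h (vv y)‖ ^ 2 := by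
  have := norm_pos_iff.2 (d0_vv y)
  positivity

lemma cont_vv : Continuous (vv : XX d → _) := cont_v.comp continuous_ι

/-- the point of `XX d` -/
def mkX (x : Fin (n + 1) → ℂ) (hx : x ∈ d.U) (h0 : d.h x = 0) : XX d :=
  mkHs (mk x hx) (by rw [ell_MM, v_mk]; exact h0)

lemma vv_mkX (x : Fin (n + 1) → ℂ) (hx : x ∈ d.U) (h0 : d.h x = 0) : vv (mkX x hx h0) = x := rfl

lemma vv_inj {x y : XX d} (h : vv x = vv y) : x = y := Hs_ext (MM.ext h)

lemma cp_vv (y : XX d) : cp y = Fin.tail (vv y) := rfl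

/-- the exhaustion -/
def rX (d : Dat n) (y : XX d) : ℝ := rh d (ι y)

lemma sm_rX : Sm (rX d) := Sm.restr sm_rh

lemma compact_rX (c : ℝ) : IsCompact {y : XX d | rX d y ≤ c} := isCompact_sub compact_rh c

lemma levi_rX (y : XX d) (w : Fin n → ℂ) : nsq w ≤ Levi (rX d) y w := by
  have h1 : Levi (rX d) y w = Levi (rh d) (ι y) (gamL 0 w) := Levi_restr sm_rh y w
  rw [h1]
  exact (nsq_le_gamL 0 w).trans (levi_rh _ _)

/-- `log |∂₀h|²` on `XX d` -/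
def LX (d : Dat n) (y : XX d) : ℝ := L0 d (ι y)

lemma sm_LX : Sm (LX d) := Sm.restr sm_L0

lemma levi_LX (y : XX d) (w : Fin n → ℂ) : 0 ≤ Levi (LX d) y w := by
  have h1 : Levi (LX d) y w = Levi (L0 d) (ι y) (gamL 0 w) := Levi_restr sm_L0 y w
  rw [h1, W792.Levi_eq_lev sm_L0]
  exact W792.lev_lg_nonneg (fun _ => hol_d0) le_rfl pos_L0 _ _

lemma exp_LX (y : XX d) : Real.exp (-LX d y) = (‖d0 d.h (vv y)‖ ^ 2)⁻¹ := by
  have h1 : LX d y = Real.log (‖d0 d.h (vv y)‖ ^ 2) := L0_eq (ι y)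
  rw [h1, Real.exp_neg, Real.exp_log (d0_pos y)]

lemma lpsh_one {M : Type*} [TopologicalSpace M] [RDom n M] : LPsh (fun _ : M => (1 : ℝ)) := by
  refine ⟨fun _ => zero_le_one, fun δ _ => ?_⟩
  refine PSH.of_smooth (Sm.const _) fun x w => ?_
  rw [W792.lev_const]

variable [MeasurableSpace (XX d)] [BorelSpace (XX d)] {μD : Measure (XX d)}

/-- **extension to the ambient polydisc** -/
theorem amb (hμD : IsLeb μD) (h1 : ∃ x ∈ Pd d.R, d0 d.h x ≠ 0) {F : XX d → ℂ}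
    (hF : Ho51.Hol F)
    (hK : ∫⁻ y, ENNReal.ofReal (‖F y‖ ^ 2 * (‖d0 d.h (vv y)‖ ^ 2)⁻¹) ∂μD ≠ ∞) :
    ∃ G : (Fin (n + 1) → ℂ) → ℂ, DifferentiableOn ℂ G (Pd d.R) ∧ ∀ y : XX d, G (vv y) = F y := by
  let _ : MeasurableSpace (MM d) := borel _
  have : BorelSpace (MM d) := ⟨rfl⟩
  obtain ⟨μ, hμ⟩ := exists_leb (M := MM d)
  obtain ⟨f, hf, hfF⟩ := Crest.Agent.R273.OTX_34.ext_slice (a := 0) hμ sm_rh compact_rh levi_rh hF
  have h0d : DifferentiableOn ℂ (fun _ : Fin (n + 1) → ℂ => (0 : ℂ)) (Pd d.R) :=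
    differentiableOn_const 0
  obtain ⟨G, hG, hGf, hGb⟩ := ot_cont (a := 0) (Ψ := Ps d 1) (Φ := Ph d 1 (fun _ => 0) 1 0)
    (b := fun _ => 1) (K := ∫⁻ y, ENNReal.ofReal (‖F y‖ ^ 2 * (‖d0 d.h (vv y)‖ ^ 2)⁻¹) ∂μD)
    hμ hμD sm_rh compact_rh levi_rh hf (sm_Ps one_pos)
    (sm_Ph one_pos h0d one_pos)
    (fun x => by
      rw [ell_MM, Ps_eq, Real.exp_log (by positivity)]
      linarith) (levi_Ps one_pos) (fun x w => levi_Ph one_pos h0d one_pos x w)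
    lpsh_one continuous_const hK (by
      refine lintegral_mono fun y => ?_
      rw [ENNReal.ofReal_one, div_one, exp_Ph one_pos one_pos, hfF]
      apply ENNReal.ofReal_le_ofReal
      have e1 : d.h (ι y).v = 0 := h_vv y
      rw [e1]
      simp only [norm_zero]
      apply le_of_eq
      norm_num
      left
      rfl)
  obtain ⟨G', hG', hGG⟩ := Cl_step (q := 1) (G := fun _ : MM d => (1 : ℂ)) (F := fun _ => 0)
    (δ := 1) (c := 0) (r := 1) hμ h1 one_pos one_pos h0d le_rfl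
    ⟨fun _ => 1, differentiableOn_const 1, fun _ => rfl⟩ hG (by
      refine ne_top_of_le_ne_top (ENNReal.mul_ne_top ENNReal.ofReal_ne_top hK)
        (le_trans (le_of_eq ?_) hGb)
      refine lintegral_congr fun x => ?_
      congr 2
      unfold bq
      simp)
  refine ⟨G', hG', fun y => ?_⟩
  have h2 := hGG (ι y)
  have h3 := hGf (ι y) (ell_ι y)
  show G' (ι y).v = F y
  rw [← h2, h3, hfF]

/-- **one Hörmander step on the regular part of a hypersurface** -/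
theorem ho (hμD : IsLeb μD) (h1 : ∃ x ∈ Pd d.R, d0 d.h x ≠ 0) {Φ : XX d → ℝ} (hΦ : Sm Φ)
    (hΦL : ∀ y w, 0 ≤ Levi Φ y w) {C : ℝ} (hC : ∀ y, Φ y ≤ C) {S : XX d → ℂ} (hS : Sm S)
    {κ : XX d → ℝ} (hκ : ∀ y, 0 ≤ κ y)
    (hk : ∀ y (w : Fin n → ℂ), ‖∑ j, db j S y * conj (w j)‖ ^ 2 ≤ κ y * Levi Φ y w)
    {K : ℝ≥0∞} (hKt : K ≠ ∞)
    (hK : ∫⁻ y, ENNReal.ofReal (κ y * Real.exp (-Φ y) * (‖d0 d.h (vv y)‖ ^ 2)⁻¹) ∂μD ≤ K)
    (hSi : ∫⁻ y, ENNReal.ofReal (‖S y‖ ^ 2 * (‖d0 d.h (vv y)‖ ^ 2)⁻¹) ∂μD ≠ ∞) :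
    ∃ G : (Fin (n + 1) → ℂ) → ℂ, DifferentiableOn ℂ G (Pd d.R) ∧
      ∫⁻ y, ENNReal.ofReal (‖G (vv y) - S y‖ ^ 2 * Real.exp (-Φ y) *
        (‖d0 d.h (vv y)‖ ^ 2)⁻¹) ∂μD ≤ 2 * K := by
  set ψ : XX d → ℝ := fun y => Φ y + LX d y with hψ
  have hψs : Sm ψ := hΦ.add sm_LX
  have hψL : ∀ y w, Levi Φ y w ≤ Levi ψ y w := by
    intro y w
    have h2 : Levi ψ y w = Levi Φ y w + Levi (LX d) y w := Levi_add hΦ sm_LX y w
    rw [h2]
    have := levi_LX y w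
    linarith
  have hexp : ∀ y, Real.exp (-ψ y) = Real.exp (-Φ y) * (‖d0 d.h (vv y)‖ ^ 2)⁻¹ := by
    intro y
    simp only [hψ]
    rw [neg_add, Real.exp_add, exp_LX]
  obtain ⟨F, hF, hFb⟩ := engU (μ := μD) (ρ := rX d) (ψ := ψ) (G := S) (κ := κ) (b := fun _ => 1)
    (K := K) hμD sm_rX compact_rX levi_rX hψs (fun y w => (hΦL y w).trans (hψL y w)) hS
    (fun y w => (hk y w).trans (mul_le_mul_of_nonneg_left (hψL y w) (hκ y))) lpsh_one (by
      refine le_trans (le_of_eq ?_) hK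
      refine lintegral_congr fun y => ?_
      rw [ENNReal.ofReal_one, div_one, hexp, mul_assoc])
  have hFb' : ∫⁻ y, ENNReal.ofReal (‖F y - S y‖ ^ 2 * Real.exp (-Φ y) *
        (‖d0 d.h (vv y)‖ ^ 2)⁻¹) ∂μD ≤ 2 * K := by
    refine le_trans (le_of_eq ?_) hFb
    refine lintegral_congr fun y => ?_
    rw [ENNReal.ofReal_one, div_one, hexp, mul_assoc]
  have hFint : ∫⁻ y, ENNReal.ofReal (‖F y‖ ^ 2 * (‖d0 d.h (vv y)‖ ^ 2)⁻¹) ∂μD ≠ ∞ := by
    have h3 : ∀ y, ENNReal.ofReal (‖F y‖ ^ 2 * (‖d0 d.h (vv y)‖ ^ 2)⁻¹) ≤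
        ENNReal.ofReal (2 * Real.exp C) * ENNReal.ofReal (‖F y - S y‖ ^ 2 * Real.exp (-Φ y) *
        (‖d0 d.h (vv y)‖ ^ 2)⁻¹) + 2 * ENNReal.ofReal (‖S y‖ ^ 2 * (‖d0 d.h (vv y)‖ ^ 2)⁻¹) := by
      intro y
      have hd := d0_pos y
      have h4 : 1 ≤ Real.exp C * Real.exp (-Φ y) := by
        rw [← Real.exp_add]
        exact Real.one_le_exp (by have := hC y; linarith)
      have h5 : ‖F y‖ ^ 2 ≤ 2 * ‖F y - S y‖ ^ 2 + 2 * ‖S y‖ ^ 2 := by
        have h6 : ‖F y‖ ≤ ‖F y - S y‖ + ‖S y‖ := by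
          calc ‖F y‖ = ‖(F y - S y) + S y‖ := by congr 1; ring
            _ ≤ _ := norm_add_le _ _
        have h7 := norm_nonneg (F y)
        have h8 := norm_nonneg (F y - S y)
        have h9 := norm_nonneg (S y)
        nlinarith [sq_nonneg (‖F y - S y‖ - ‖S y‖)]
      rw [← ENNReal.ofReal_mul (by positivity), show (2 : ℝ≥0∞) = ENNReal.ofReal 2 by simp,
        ← ENNReal.ofReal_mul (by norm_num), ← ENNReal.ofReal_add (by positivity) (by positivity)]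
      apply ENNReal.ofReal_le_ofReal
      have h10 : 0 ≤ (‖d0 d.h (vv y)‖ ^ 2)⁻¹ := by positivity
      have h11 : 0 ≤ ‖F y - S y‖ ^ 2 := by positivity
      calc ‖F y‖ ^ 2 * (‖d0 d.h (vv y)‖ ^ 2)⁻¹
          ≤ (2 * ‖F y - S y‖ ^ 2 + 2 * ‖S y‖ ^ 2) * (‖d0 d.h (vv y)‖ ^ 2)⁻¹ :=
            mul_le_mul_of_nonneg_right h5 h10
        _ ≤ (2 * (‖F y - S y‖ ^ 2 * (Real.exp C * Real.exp (-Φ y))) + 2 * ‖S y‖ ^ 2) *
            (‖d0 d.h (vv y)‖ ^ 2)⁻¹ := by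
            apply mul_le_mul_of_nonneg_right _ h10
            have := mul_le_mul_of_nonneg_left h4 h11
            linarith
        _ = _ := by ring
    refine ne_top_of_le_ne_top ?_ (lintegral_mono h3)
    have hFs : Continuous F := (hol_of _ hF).sm.continuous
    have hm1 : Continuous fun y : XX d => (‖d0 d.h (vv y)‖ ^ 2)⁻¹ := by
      have h5 : Continuous fun y : XX d => d0 d.h (vv y) :=
        (d.cont_d0.mono fun _ h => h.1).comp_continuous cont_vv fun x => vv_mem x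
      exact (h5.norm.pow 2).inv₀ fun y => (d0_pos y).ne'
    have hm2 : Measurable fun y => ENNReal.ofReal (‖S y‖ ^ 2 * (‖d0 d.h (vv y)‖ ^ 2)⁻¹) :=
      (((hS.continuous.norm.pow 2).mul hm1).measurable).ennreal_ofReal
    rw [lintegral_add_right _ (hm2.const_mul 2), lintegral_const_mul' _ _ ENNReal.ofReal_ne_top,
      lintegral_const_mul' _ _ (by simp)]
    refine ENNReal.add_ne_top.2 ⟨ENNReal.mul_ne_top ENNReal.ofReal_ne_top
      (ne_top_of_le_ne_top (ENNReal.mul_ne_top (by simp) hKt) hFb'),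
      ENNReal.mul_ne_top (by simp) hSi⟩
  obtain ⟨G, hG, hGF⟩ := amb hμD h1 hF hFint
  refine ⟨G, hG, ?_⟩
  simp only [hGF]
  exact hFb'

end Crest.Agent.R257.HoA_843
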