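import Crest.Agent.R257.HoB_843
import Crest.Agent.R257.Area_5
import Crest.Agent.R271.Rd7_692
import Crest.Agent.R271.RExt2_747

/-!
# Row 257, task C-HO (helper843), file C

* `km Φ S y` : the least `κ` with `|∂̄S(w)|² ≤ κ Levi Φ w`, a measurable function;
* `cover_le` : `∫_M H ≤ ∑_c ∫_{O_c} g_c |det q_c'|²` for a covering of `M` by (ramified) charts;
* `dA d a`   : the hypersurface with `{a(x') = 0}` removed; `ext_a`: extension across `{a = 0}`;
* `ho_a`     : one Hörmander step on `{h = 0, ∂₀h ≠ 0, a(x') ≠ 0}`.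
-/

set_option autoImplicit false
set_option linter.unusedSectionVars false

noncomputable section

open Set Filter Topology MeasureTheory ComplexConjugate
open scoped ENNReal

namespace Crest.Agent.R257.HoC_843

open Crest.Agent.R271 Crest.Agent.R271.Ho51 Crest.Agent.R273.Dir73 Crest.Agent.R273.OTA_34
open Crest.Agent.R257.OtK_331 Crest.Agent.R276.EngU_29 Crest.Agent.R273.Reg_844
open Crest.Agent.R257.HoA_843 Crest.Agent.R257.HoB_843
open Crest.Agent.R271.W792 (lev dsq nS nT lg)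
open TopologicalSpace (denseSeq)

/-! ### the least constant -/

section kap

variable {n : ℕ} {M : Type*} [TopologicalSpace M] [RDom n M]

/-- the least constant, as an extended number -/
def kmE (Φ : M → ℝ) (S : M → ℂ) (y : M) : ℝ≥0∞ :=
  ⨆ i : ℕ, ENNReal.ofReal (‖∑ j, db j S y * conj (denseSeq (Fin n → ℂ) i j)‖ ^ 2) /
    ENNReal.ofReal (Levi Φ y (denseSeq (Fin n → ℂ) i))

/-- the least constant -/
def km (Φ : M → ℝ) (S : M → ℂ) (y : M) : ℝ := (kmE Φ S y).toReal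

variable {Φ : M → ℝ} {S : M → ℂ} {y : M} {k : ℝ}

lemma km_nonneg : 0 ≤ km Φ S y := ENNReal.toReal_nonneg

lemma kmE_le (hk0 : 0 ≤ k)
    (hk : ∀ w : Fin n → ℂ, ‖∑ j, db j S y * conj (w j)‖ ^ 2 ≤ k * Levi Φ y w) :
    kmE Φ S y ≤ ENNReal.ofReal k := by
  refine iSup_le fun i => ?_
  apply ENNReal.div_le_of_le_mul
  rw [← ENNReal.ofReal_mul hk0]
  exact ENNReal.ofReal_le_ofReal (hk _)

lemma km_le (hk0 : 0 ≤ k)
    (hk : ∀ w : Fin n → ℂ, ‖∑ j, db j S y * conj (w j)‖ ^ 2 ≤ k * Levi Φ y w) :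
    km Φ S y ≤ k := by
  have h1 := ENNReal.toReal_mono ENNReal.ofReal_ne_top (kmE_le hk0 hk)
  rwa [ENNReal.toReal_ofReal hk0] at h1

lemma cont_Levi (Φ : M → ℝ) (y : M) : Continuous fun w : Fin n → ℂ => Levi Φ y w := by
  unfold Levi; fun_prop

lemma km_spec (hk0 : 0 ≤ k)
    (hk : ∀ w : Fin n → ℂ, ‖∑ j, db j S y * conj (w j)‖ ^ 2 ≤ k * Levi Φ y w)
    (hL : ∀ w : Fin n → ℂ, 0 ≤ Levi Φ y w) (w : Fin n → ℂ) :
    ‖∑ j, db j S y * conj (w j)‖ ^ 2 ≤ km Φ S y * Levi Φ y w := by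
  have hfin : kmE Φ S y ≠ ∞ := ne_top_of_le_ne_top ENNReal.ofReal_ne_top (kmE_le hk0 hk)
  have h1 : ∀ i : ℕ, ‖∑ j, db j S y * conj (denseSeq (Fin n → ℂ) i j)‖ ^ 2 ≤
      km Φ S y * Levi Φ y (denseSeq (Fin n → ℂ) i) := by
    intro i
    have h2 : ENNReal.ofReal (‖∑ j, db j S y * conj (denseSeq (Fin n → ℂ) i j)‖ ^ 2) /
        ENNReal.ofReal (Levi Φ y (denseSeq (Fin n → ℂ) i)) ≤ kmE Φ S y :=
      le_iSup (fun i : ℕ => ENNReal.ofReal
        (‖∑ j, db j S y * conj (denseSeq (Fin n → ℂ) i j)‖ ^ 2) /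
        ENNReal.ofReal (Levi Φ y (denseSeq (Fin n → ℂ) i))) i
    rw [ENNReal.div_le_iff_le_mul (Or.inr hfin) (Or.inl ENNReal.ofReal_ne_top),
      ← ENNReal.ofReal_toReal hfin, ← ENNReal.ofReal_mul ENNReal.toReal_nonneg] at h2
    exact (ENNReal.ofReal_le_ofReal_iff (mul_nonneg km_nonneg (hL _))).1 h2
  have hcl : IsClosed {w : Fin n → ℂ | ‖∑ j, db j S y * conj (w j)‖ ^ 2 ≤
      km Φ S y * Levi Φ y w} := by
    refine isClosed_le (by fun_prop) (continuous_const.mul (cont_Levi Φ y))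
  have h3 : closure (range (denseSeq (Fin n → ℂ))) ⊆ {w : Fin n → ℂ |
      ‖∑ j, db j S y * conj (w j)‖ ^ 2 ≤ km Φ S y * Levi Φ y w} :=
    closure_minimal (by rintro _ ⟨i, rfl⟩; exact h1 i) hcl
  have h4 : w ∈ closure (range (denseSeq (Fin n → ℂ))) :=
    (TopologicalSpace.denseRange_denseSeq _) w
  exact h3 h4

lemma measurable_km [MeasurableSpace M] [BorelSpace M] (hΦ : Sm Φ) (hS : Sm S) :
    Measurable (km Φ S) := by
  apply Measurable.ennreal_toReal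
  refine Measurable.iSup fun i => ?_
  refine Measurable.div ?_ ?_
  · refine Measurable.ennreal_ofReal (Continuous.measurable ?_)
    have : ∀ j, Continuous fun y => db j S y := fun j => (hS.db j).continuous
    fun_prop
  · refine Measurable.ennreal_ofReal (Continuous.measurable ?_)
    have h1 : ∀ v u : Fin n → ℂ, Continuous fun y => D (fun y => D Φ y v) y u := fun v u =>
      ((hΦ.D.apply v).D.apply u).continuous
    have h2 : (fun y => Levi Φ y (denseSeq (Fin n → ℂ) i)) =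
        fun y => W792.lev Φ y (denseSeq (Fin n → ℂ) i) := by
      funext y; exact W792.Levi_eq_lev hΦ _ _
    rw [h2]
    unfold W792.lev
    exact ((h1 _ _).add (h1 _ _)).const_mul _

end kap

/-! ### covering -/

section cov

variable {n : ℕ} {M : Type*} [TopologicalSpace M] [RDom n M] [SecondCountableTopology M]
  [MeasurableSpace M] [BorelSpace M] {μ : Measure M}

theorem cover_le (hμ : IsLeb μ) {H : M → ℝ≥0∞} (hH : Measurable H) {ι : Type*} [Countable ι]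
    {O : ι → Set (Fin n → ℂ)} (hO : ∀ c, IsOpen (O c)) {q : ι → (Fin n → ℂ) → (Fin n → ℂ)}
    (hq : ∀ c, DifferentiableOn ℂ (q c) (O c)) {g : ι → (Fin n → ℂ) → ℝ≥0∞}
    (hg : ∀ c, Measurable (g c)) {σ : M → ι × (Fin n → ℂ)} (hσ : Function.Injective σ)
    (h1 : ∀ y, (σ y).2 ∈ O (σ y).1) (h2 : ∀ y, q (σ y).1 (σ y).2 = cp y)
    (h3 : ∀ y, H y ≤ g (σ y).1 (σ y).2) :
    ∫⁻ y, H y ∂μ ≤ ∑' c, ∫⁻ p in O c, ENNReal.ofReal (‖(fderiv ℂ (q c) p).det‖ ^ 2) * g c p := by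
  have hq1 : ∀ c, ContDiffOn ℝ 1 (q c) (O c) := fun c x hx =>
    (((R266.SCV.analyticOnNhd_of_differentiableOn (hO c) (hq c) x hx).contDiffAt
      (n := 1)).restrict_scalars ℝ).contDiffWithinAt
  have hA := fun c => Area_5.area' (volume : Measure (Fin n → ℂ)) (hO c) (hq1 c) (hg c)
  calc ∫⁻ y, H y ∂μ = ∫⁻ ζ : Fin n → ℂ, ∑' y : {y : M // cp y = ζ}, H y.1 :=
        Rd692.lintegral_eq_fibre hμ hH
    _ ≤ ∫⁻ ζ : Fin n → ℂ, ∑' c, Area_5.fs (O c) (q c) (g c) ζ := by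
        refine lintegral_mono fun ζ => ?_
        simp only [Area_5.fs_eq]
        rw [← ENNReal.tsum_sigma (fun c (x : {x // x ∈ O c ∧ q c x = ζ}) => g c x)]
        let τ : {y : M // cp y = ζ} → (Σ c, {x // x ∈ O c ∧ q c x = ζ}) := fun y =>
          ⟨(σ y.1).1, (σ y.1).2, h1 y.1, (h2 y.1).trans y.2⟩
        have hτ : Function.Injective τ := by
          intro y y' hyy
          apply Subtype.ext
          apply hσ
          have e1 : (σ y.1).1 = (σ y'.1).1 := congrArg Sigma.fst hyy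
          have e2 : (σ y.1).2 = (σ y'.1).2 :=
            congrArg (fun s : (Σ c, {x // x ∈ O c ∧ q c x = ζ}) => (s.2.1 : Fin n → ℂ)) hyy
          exact Prod.ext e1 e2
        refine le_trans (ENNReal.tsum_le_tsum fun y => h3 y.1) ?_
        exact ENNReal.tsum_comp_le_tsum_of_injective hτ
          (fun s : (Σ c, {x // x ∈ O c ∧ q c x = ζ}) => g s.1 s.2.1)
    _ = ∑' c, ∫⁻ ζ, Area_5.fs (O c) (q c) (g c) ζ := lintegral_tsum fun c => (hA c).1
    _ = _ := by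
        refine tsum_congr fun c => ?_
        rw [(hA c).2]
        refine setLIntegral_congr_fun (hO c).measurableSet fun p hp => ?_
        rw [((hq c).differentiableAt ((hO c).mem_nhds hp)).fderiv_restrictScalars ℝ,
          Bd741.abs_det_real]

end cov

/-! ### removing a hypersurface `a(x') = 0` -/

section rem

variable {n : ℕ}

lemma tail_mem {R : Fin (n + 1) → ℝ} {x : Fin (n + 1) → ℂ} (hx : x ∈ Pd R) :
    Fin.tail x ∈ Pd (Fin.tail R) := fun i => hx i.succ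

lemma diff_at {R : Fin (n + 1) → ℝ} {a : (Fin n → ℂ) → ℂ}
    (ha : DifferentiableOn ℂ a (Pd (Fin.tail R))) :
    DifferentiableOn ℂ (fun x : Fin (n + 1) → ℂ => a (Fin.tail x)) (Pd R) :=
  ha.comp (tl n).differentiable.differentiableOn fun _ hx => tail_mem hx

/-- the data with the hypersurface `a(x') = 0` removed -/
def dA (d : Dat n) (a : (Fin n → ℂ) → ℂ) (ha : DifferentiableOn ℂ a (Pd (Fin.tail d.R))) :
    Dat n where
  R := d.R
  h := fun x => a (Fin.tail x) * d.h x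
  hol := (diff_at ha).mul d.hol

variable {d : Dat n} {a : (Fin n → ℂ) → ℂ} {ha : DifferentiableOn ℂ a (Pd (Fin.tail d.R))}

lemma d0_dA {x : Fin (n + 1) → ℂ} (hx : x ∈ Pd d.R) :
    d0 (dA d a ha).h x = a (Fin.tail x) * d0 d.h x := by
  have h1 : DifferentiableAt ℂ a (Fin.tail x) :=
    ha.differentiableAt ((isOpen_Pd _).mem_nhds (tail_mem hx))
  have h2 : HasFDerivAt (fun x : Fin (n + 1) → ℂ => a (Fin.tail x))
      ((fderiv ℂ a (Fin.tail x)).comp (tl n)) x := by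
    have h3 : HasFDerivAt (tl n) (tl n) x := (tl n).hasFDerivAt
    exact HasFDerivAt.comp x (g := a) (f := tl n) h1.hasFDerivAt h3
  have h4 : HasFDerivAt d.h (fderiv ℂ d.h x) x :=
    (d.hol.differentiableAt ((isOpen_Pd _).mem_nhds hx)).hasFDerivAt
  have h5 := (h2.mul h4).fderiv
  have h6 : (tl n) (Pi.single 0 1 : Fin (n + 1) → ℂ) = 0 := by
    funext j
    rw [tl_apply]
    simp [Fin.tail]
  unfold d0
  rw [show (dA d a ha).h = fun x => a (Fin.tail x) * d.h x from rfl]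
  rw [show (fun x => a (Fin.tail x) * d.h x) =
    (fun x : Fin (n + 1) → ℂ => a (Fin.tail x)) * d.h from rfl, h5]
  simp [h6]

lemma mem_UA {x : Fin (n + 1) → ℂ} :
    x ∈ (dA d a ha).U ↔ x ∈ d.U ∧ a (Fin.tail x) ≠ 0 := by
  unfold Dat.U
  constructor
  · rintro ⟨h1, h2⟩
    have h1' : x ∈ Pd d.R := h1
    rw [d0_dA h1'] at h2
    exact ⟨⟨h1, right_ne_zero_of_mul h2⟩, left_ne_zero_of_mul h2⟩
  · rintro ⟨⟨h1, h2⟩, h3⟩
    refine ⟨h1, ?_⟩
    rw [d0_dA h1]
    exact mul_ne_zero h3 h2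

lemma vvA_mem (y : XX (dA d a ha)) : vv y ∈ d.U := (mem_UA.1 (vv_mem y)).1

lemma vvA_ne (y : XX (dA d a ha)) : a (Fin.tail (vv y)) ≠ 0 := (mem_UA.1 (vv_mem y)).2

lemma vvA_h (y : XX (dA d a ha)) : d.h (vv y) = 0 := by
  have h1 : a (Fin.tail (vv y)) * d.h (vv y) = 0 := h_vv y
  exact (mul_eq_zero.1 h1).resolve_left (vvA_ne y)

/-- points of `XX (dA d a ha)` -/
def mkA (x : Fin (n + 1) → ℂ) (hx : x ∈ d.U) (h0 : d.h x = 0) (hne : a (Fin.tail x) ≠ 0) :
    XX (dA d a ha) :=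
  mkX x (mem_UA.2 ⟨hx, hne⟩) (by
    show a (Fin.tail x) * d.h x = 0
    rw [h0, mul_zero])

lemma vv_mkA (x : Fin (n + 1) → ℂ) (hx : x ∈ d.U) (h0 : d.h x = 0) (hne : a (Fin.tail x) ≠ 0) :
    vv (mkA (ha := ha) x hx h0 hne) = x := rfl

/-- the inclusion -/
def jA (y : XX (dA d a ha)) : XX d := mkX (vv y) (vvA_mem y) (vvA_h y)

lemma vv_jA (y : XX (dA d a ha)) : vv (jA y) = vv y := rfl

lemma dA_pos (y : XX (dA d a ha)) : 0 < ‖d0 d.h (vv y)‖ ^ 2 := by
  have := norm_pos_iff.2 (vvA_mem y).2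
  positivity

/-- holomorphic functions of the ambient space restricted to `XX d` -/
lemma hol_vv {G : (Fin (n + 1) → ℂ) → ℂ} (hG : DifferentiableOn ℂ G d.U) :
    Ho51.Hol (fun y : XX d => G (vv y)) :=
  Crest.Agent.R273.Dir73.Hol.restr (hol_v hG)

/-- `{a = 0}` is a null set -/
lemma null_a {R : Fin n → ℝ} (ha : DifferentiableOn ℂ a (Pd R))
    (ha0 : ∀ p ∈ Pd R, ¬ ∀ᶠ z in 𝓝 p, a z = 0) : volume {p | p ∈ Pd R ∧ a p = 0} = 0 := by
  refine measure_null_of_locally_null _ fun p hp => ?_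
  have han : AnalyticAt ℂ a p := R266.SCV.analyticOnNhd_of_differentiableOn (isOpen_Pd R) ha p hp.1
  obtain ⟨r, hr, hae⟩ := Local821.eventually_null_zero
    (volume : Measure (Fin n → ℂ)) han (Filter.not_eventually.1 (ha0 p hp.1))
  rw [ae_restrict_iff' Metric.isOpen_ball.measurableSet, ae_iff] at hae
  refine ⟨Metric.ball p r ∩ {p | p ∈ Pd R ∧ a p = 0}, ?_, ?_⟩
  · exact inter_mem (mem_nhdsWithin_of_mem_nhds (Metric.ball_mem_nhds p hr)) self_mem_nhdsWithin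
  · refine measure_mono_null ?_ hae
    rintro z ⟨hz1, hz2, hz3⟩
    simp only [mem_ofPred_eq, Classical.not_imp, not_not]
    exact ⟨hz1, hz3⟩

lemma h1_dA (ha0 : ∀ p ∈ Pd (Fin.tail d.R), ¬ ∀ᶠ z in 𝓝 p, a z = 0)
    (h1 : ∃ x ∈ Pd d.R, d0 d.h x ≠ 0) : ∃ x ∈ Pd (dA d a ha).R, d0 (dA d a ha).h x ≠ 0 := by
  obtain ⟨x, hx, hx0⟩ := h1
  have h2 : d.U ∈ 𝓝 x := d.isOpen_U.mem_nhds ⟨hx, hx0⟩
  have h3 : ∃ᶠ p in 𝓝 (Fin.tail x), a p ≠ 0 :=
    Filter.not_eventually.1 (ha0 _ (tail_mem hx))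
  have h4 : Tendsto (fun p : Fin n → ℂ => (Fin.cons (x 0) p : Fin (n + 1) → ℂ))
      (𝓝 (Fin.tail x)) (𝓝 x) := by
    have h5 : Continuous (fun p : Fin n → ℂ => (Fin.cons (x 0) p : Fin (n + 1) → ℂ)) := by
      refine continuous_pi fun i => ?_
      refine Fin.cases ?_ (fun j => ?_) i
      · simpa using continuous_const
      · simpa using continuous_apply j
    have h6 := h5.tendsto (Fin.tail x)
    rwa [Fin.cons_self_tail] at h6
  obtain ⟨p, hp1, hp2⟩ := (h3.and_eventually (h4.eventually h2)).exists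
  have h5 : (Fin.cons (x 0) p : Fin (n + 1) → ℂ) ∈ (dA d a ha).U :=
    mem_UA.2 ⟨hp2, by rw [Fin.tail_cons]; exact hp1⟩
  exact ⟨_, h5.1, h5.2⟩

lemma cont_wA : Continuous fun y : XX (dA d a ha) => (‖d0 d.h (vv y)‖ ^ 2)⁻¹ := by
  have h5 : Continuous fun y : XX (dA d a ha) => d0 d.h (vv y) :=
    (d.cont_d0.mono fun _ h => h.1).comp_continuous cont_vv fun x => vvA_mem x
  exact (h5.norm.pow 2).inv₀ fun y => (dA_pos y).ne'

lemma hol_d0A : W792.Hol (fun x : MM (dA d a ha) => d0 d.h x.v) :=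
  hol_of _ (hol_v (d := dA d a ha) fun _ hx =>
    (d.an_d0 (mem_UA.1 hx).1.1).differentiableAt.differentiableWithinAt)

lemma pos_LA (x : MM (dA d a ha)) :
    0 < nS (fun (_ : Unit) (x : MM (dA d a ha)) => d0 d.h x.v) x + 0 := by
  have h1 : nS (fun (_ : Unit) (x : MM (dA d a ha)) => d0 d.h x.v) x = ‖d0 d.h x.v‖ ^ 2 := by
    simp [nS]
  rw [h1, add_zero]
  have := norm_pos_iff.2 (mem_UA.1 x.mem).1.2
  positivity

/-- `log |∂₀h|²` on `XX (dA d a ha)` -/
def LA (d : Dat n) (a : (Fin n → ℂ) → ℂ) (ha : DifferentiableOn ℂ a (Pd (Fin.tail d.R)))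
    (y : XX (dA d a ha)) : ℝ :=
  lg (fun (_ : Unit) (x : MM (dA d a ha)) => d0 d.h x.v) 0 (ι y)

lemma sm_LA : Sm (LA d a ha) := Sm.restr (W792.sm_lg (fun _ => hol_d0A.sm) pos_LA)

lemma levi_LA (y : XX (dA d a ha)) (w : Fin n → ℂ) : 0 ≤ Levi (LA d a ha) y w := by
  have hs : Sm (lg (fun (_ : Unit) (x : MM (dA d a ha)) => d0 d.h x.v) 0) :=
    W792.sm_lg (fun _ => hol_d0A.sm) pos_LA
  have h1 : Levi (LA d a ha) y w =
      Levi (lg (fun (_ : Unit) (x : MM (dA d a ha)) => d0 d.h x.v) 0) (ι y) (gamL 0 w) :=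
    Levi_restr hs y w
  rw [h1, W792.Levi_eq_lev hs]
  exact W792.lev_lg_nonneg (fun _ => hol_d0A) le_rfl pos_LA _ _

lemma exp_LA (y : XX (dA d a ha)) : Real.exp (-LA d a ha y) = (‖d0 d.h (vv y)‖ ^ 2)⁻¹ := by
  have h1 : LA d a ha y = Real.log (‖d0 d.h (vv y)‖ ^ 2) := by
    simp [LA, lg, nS, vv]
  rw [h1, Real.exp_neg, Real.exp_log (dA_pos y)]

variable [MeasurableSpace (XX d)] [BorelSpace (XX d)] {μ : Measure (XX d)}
  [MeasurableSpace (XX (dA d a ha))] [BorelSpace (XX (dA d a ha))] {μA : Measure (XX (dA d a ha))}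

/-- **extension across `{a = 0}` and to the ambient polydisc** -/
theorem ext_a (hμ : IsLeb μ) (hμA : IsLeb μA)
    (ha0 : ∀ p ∈ Pd (Fin.tail d.R), ¬ ∀ᶠ z in 𝓝 p, a z = 0)
    (h1 : ∃ x ∈ Pd d.R, d0 d.h x ≠ 0) {F : XX (dA d a ha) → ℂ} (hF : Ho51.Hol F)
    (hK : ∫⁻ y, ENNReal.ofReal (‖F y‖ ^ 2 * (‖d0 d.h (vv y)‖ ^ 2)⁻¹) ∂μA ≠ ∞) :
    ∃ G : (Fin (n + 1) → ℂ) → ℂ, DifferentiableOn ℂ G (Pd d.R) ∧
      ∀ y : XX (dA d a ha), G (vv y) = F y := by
  classical
  have hdaU : DifferentiableOn ℂ (fun x : Fin (n + 1) → ℂ => a (Fin.tail x)) (dA d a ha).U :=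
    (diff_at ha).mono fun _ h => h.1
  -- step 1
  have hF1 : Ho51.Hol (fun y : XX (dA d a ha) => a (Fin.tail (vv y)) * F y) := fun e he =>
    (hol_vv hdaU e he).mul (hF e he)
  obtain ⟨G1, hG1, hG1e⟩ := amb (d := dA d a ha) hμA (h1_dA ha0 h1) hF1 (by
    refine ne_of_eq_of_ne ?_ hK
    refine lintegral_congr fun y => ?_
    congr 1
    rw [d0_dA (d := d) (ha := ha) (vvA_mem y).1, norm_mul, norm_mul, mul_pow, mul_pow, mul_inv]
    have h2 := norm_ne_zero_iff.2 (vvA_ne y)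
    field_simp)
  have hG1' : ∀ (x : Fin (n + 1) → ℂ) (hx : x ∈ d.U) (h0 : d.h x = 0) (hne : a (Fin.tail x) ≠ 0),
      G1 x / a (Fin.tail x) = F (mkA x hx h0 hne) := by
    intro x hx h0 hne
    have h2 := hG1e (mkA x hx h0 hne)
    simp only [vv_mkA] at h2
    rw [h2]
    field_simp
  -- the integrand
  set H : XX (dA d a ha) → ℝ≥0∞ := fun y =>
    ENNReal.ofReal (‖F y‖ ^ 2 * (‖d0 d.h (vv y)‖ ^ 2)⁻¹) with hH
  have hHm : Measurable H := by
    have hFs : Continuous F := (hol_of _ hF).sm.continuous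
    exact ((hFs.norm.pow 2).mul cont_wA).measurable.ennreal_ofReal
  have hfib := Rd692.lintegral_eq_fibre hμA hHm
  -- step 2 : the function on `XX d`
  set N : Set (XX d) := {y | a (cp y) ≠ 0} with hN
  set f0 : XX d → ℂ := fun y => G1 (vv y) / a (cp y) with hf0
  set f2 : XX d → ℂ := fun y => limUnder (𝓝[N] y) f0 with hf2
  have hcpP : ∀ y : XX d, cp y ∈ Pd (Fin.tail d.R) := fun y =>
    show Fin.tail (vv y) ∈ _ from tail_mem (vv_mem y).1
  have hNB : ∀ y : XX d, (𝓝[N] y).NeBot := by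
    intro y
    rw [← mem_closure_iff_nhdsWithin_neBot, mem_closure_iff_frequently]
    have h2 : ∃ᶠ p in 𝓝 (cp y), a p ≠ 0 := Filter.not_eventually.1 (ha0 _ (hcpP y))
    have he := isCh_ch y
    have h3 : Tendsto (ch y).symm (𝓝 (cp y)) (𝓝 y) := by
      have := (ch y).symm.continuousAt (x := cp y) (by simpa using he.cp_mem (mem_ch y))
      rwa [ContinuousAt, he.symm_cp (mem_ch y)] at this
    refine h3.frequently ((h2.and_eventually ((ch y).open_target.mem_nhds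
      (he.cp_mem (mem_ch y)))).mono fun p hp => ?_)
    show a (cp ((ch y).symm p)) ≠ 0
    rw [he.cp_symm hp.2]
    exact hp.1
  have key : ∀ y0 : XX d, ∃ g : (Fin n → ℂ) → ℂ, DifferentiableOn ℂ g (ch y0).target ∧
      (∀ p ∈ (ch y0).target, f2 ((ch y0).symm p) = g p) ∧
      ∀ p ∈ (ch y0).target, a p ≠ 0 → g p = f0 ((ch y0).symm p) := by
    intro y0
    have he := isCh_ch y0
    set e := ch y0 with hedef
    have hcv : ∀ p ∈ e.target, Fin.tail (vv (e.symm p)) = p := fun p hp => he.cp_symm hp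
    have hpP : ∀ p ∈ e.target, p ∈ Pd (Fin.tail d.R) := by
      intro p hp
      have := hcpP (e.symm p)
      rwa [he.cp_symm hp] at this
    have hcont : ContinuousOn (fun p => ‖d0 d.h (vv (e.symm p))‖ ^ 2) e.target := by
      have h5 : Continuous fun y : XX d => ‖d0 d.h (vv y)‖ ^ 2 := by
        have h6 : Continuous fun y : XX d => d0 d.h (vv y) :=
          (d.cont_d0.mono fun _ h => h.1).comp_continuous cont_vv fun x => vv_mem x
        exact h6.norm.pow 2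
      exact h5.comp_continuousOn e.symm.continuousOn
    obtain ⟨g, hg, hgf⟩ := RExt747.riemann_ext (f := fun p => G1 (vv (e.symm p)) / a p)
      (D := a) (U := e.target) e.open_target
      (fun p hp => R266.SCV.analyticOnNhd_of_differentiableOn (isOpen_Pd _) ha p (hpP p hp))
      (fun p hp => ha0 p (hpP p hp))
      (by
        have h5 : DifferentiableOn ℂ (fun p => G1 (vv (e.symm p))) e.target :=
          hol_vv (d := d) (G := G1) (hG1.mono fun _ h => h.1) e he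
        have h6 : DifferentiableOn ℂ a (e.target ∩ {z | a z ≠ 0}) :=
          ha.mono fun p hp => hpP p hp.1
        exact ((h5.mono inter_subset_left).mul (h6.inv fun p hp => hp.2)).congr
          fun p _ => div_eq_mul_inv _ _)
      (by
        intro p0 hp0
        set B : ℝ := ‖d0 d.h (vv (e.symm p0))‖ ^ 2 + 1 with hB
        have hW : {p | p ∈ e.target ∧ ‖d0 d.h (vv (e.symm p))‖ ^ 2 < B} ∈ 𝓝 p0 := by
          have h6 : ∀ᶠ p in 𝓝 p0, ‖d0 d.h (vv (e.symm p))‖ ^ 2 < B :=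
            (hcont.continuousAt (e.open_target.mem_nhds hp0)).eventually_lt_const (by
              rw [hB]; linarith)
          filter_upwards [e.open_target.mem_nhds hp0, h6] with p hp1 hp2
          exact ⟨hp1, hp2⟩
        refine ⟨_, hW, ?_⟩
        have hB0 : 0 ≤ B := by positivity
        have hWm : MeasurableSet ({p | p ∈ e.target ∧ ‖d0 d.h (vv (e.symm p))‖ ^ 2 < B} ∩
            {z | a z ≠ 0}) := by
          have h7 : IsOpen {p | p ∈ e.target ∧ ‖d0 d.h (vv (e.symm p))‖ ^ 2 < B} :=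
            hcont.isOpen_inter_preimage e.open_target isOpen_Iio
          have h8 : IsOpen ({p | p ∈ e.target ∧ ‖d0 d.h (vv (e.symm p))‖ ^ 2 < B} ∩
            {z | a z ≠ 0}) :=
            (ha.continuousOn.mono fun p hp => hpP p hp.1).isOpen_inter_preimage h7
              (isOpen_ne : IsOpen {w : ℂ | w ≠ 0})
          exact h8.measurableSet
        refine lt_of_le_of_lt (b := ENNReal.ofReal B * ∫⁻ ζ : Fin n → ℂ,
          ∑' y : {y : XX (dA d a ha) // cp y = ζ}, H y.1) ?_ ?_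
        · rw [← lintegral_const_mul' _ _ ENNReal.ofReal_ne_top]
          refine le_trans (setLIntegral_mono' hWm (g := fun ζ => ENNReal.ofReal B *
            ∑' y : {y : XX (dA d a ha) // cp y = ζ}, H y.1) fun p hp => ?_)
            (setLIntegral_le_lintegral _ _)
          obtain ⟨⟨hp1, hp2⟩, hp3⟩ := hp
          have hp3' : a (Fin.tail (vv (e.symm p))) ≠ 0 := by rw [hcv p hp1]; exact hp3
          set y1 : XX (dA d a ha) := mkA (vv (e.symm p)) (vv_mem _) (h_vv _) hp3' with hy1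
          have h9 : H y1 ≤ ∑' y : {y : XX (dA d a ha) // cp y = p}, H y.1 :=
            ENNReal.le_tsum (f := fun y : {y : XX (dA d a ha) // cp y = p} => H y.1)
              ⟨y1, hcv p hp1⟩
          have h10 : F y1 = G1 (vv (e.symm p)) / a p := by
            rw [← hG1' _ (vv_mem _) (h_vv _) hp3', hcv p hp1]
          refine le_trans ?_ (mul_le_mul_right h9 _)
          simp only [hH, hy1, vv_mkA]
          rw [← hy1, h10, ← ENNReal.ofReal_mul hB0]
          have h11 : 0 < ‖d0 d.h (vv (e.symm p))‖ ^ 2 := d0_pos _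
          have h12 : ‖G1 (vv (e.symm p)) / a p‖ₑ ^ 2 =
              ENNReal.ofReal (‖G1 (vv (e.symm p)) / a p‖ ^ 2) := by
            rw [ENNReal.ofReal_pow (norm_nonneg _), ofReal_norm]
          rw [h12]
          apply ENNReal.ofReal_le_ofReal
          have h13 : 1 ≤ B * (‖d0 d.h (vv (e.symm p))‖ ^ 2)⁻¹ := by
            rw [← div_eq_mul_inv, one_le_div h11]
            exact hp2.le
          calc ‖G1 (vv (e.symm p)) / a p‖ ^ 2 = ‖G1 (vv (e.symm p)) / a p‖ ^ 2 * 1 := by ring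
            _ ≤ ‖G1 (vv (e.symm p)) / a p‖ ^ 2 * (B * (‖d0 d.h (vv (e.symm p))‖ ^ 2)⁻¹) :=
                mul_le_mul_of_nonneg_left h13 (by positivity)
            _ = _ := by ring
        · rw [← hfib]
          exact ENNReal.mul_lt_top ENNReal.ofReal_lt_top (lt_top_iff_ne_top.2 hK))
    refine ⟨g, hg, fun p hp => ?_, fun p hp hne => ?_⟩
    · have := hNB (e.symm p)
      have hgc : ContinuousAt g (cp (e.symm p)) := by
        rw [he.cp_symm hp]
        exact (hg.differentiableAt (e.open_target.mem_nhds hp)).continuousAt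
      have h2 : Tendsto (fun y : XX d => g (cp y)) (𝓝[N] (e.symm p)) (𝓝 (g p)) := by
        have h3 : ContinuousAt (fun y : XX d => g (cp y)) (e.symm p) :=
          ContinuousAt.comp (g := g) (f := cp) hgc cp_cont.continuousAt
        have h4 := h3.tendsto
        simp only [he.cp_symm hp] at h4
        exact h4.mono_left nhdsWithin_le_nhds
      have h3 : (fun y : XX d => g (cp y)) =ᶠ[𝓝[N] (e.symm p)] f0 := by
        filter_upwards [nhdsWithin_le_nhds (e.open_source.mem_nhds (e.map_target hp)),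
          self_mem_nhdsWithin] with y hy hy'
        have h5 := hgf (cp y) (he.cp_mem hy) hy'
        rw [he.symm_cp hy] at h5
        exact h5
      exact (h2.congr' h3).limUnder_eq
    · rw [hgf p hp hne]
      simp only [hf0]
      rw [he.cp_symm hp]
  have hf2H : Ho51.Hol f2 := by
    refine hol_of_local fun y0 => ⟨ch y0, isCh_ch y0, mem_ch y0, ?_⟩
    obtain ⟨g, hg, hg2, -⟩ := key y0
    have ht : (ch y0).target ∈ 𝓝 (cp y0) :=
      (ch y0).open_target.mem_nhds ((isCh_ch y0).cp_mem (mem_ch y0))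
    refine (hg.differentiableAt ht).congr_of_eventuallyEq ?_
    filter_upwards [ht] with p hp
    exact hg2 p hp
  have hf2v : ∀ y : XX d, ∀ hne : a (Fin.tail (vv y)) ≠ 0,
      f2 y = F (mkA (vv y) (vv_mem y) (h_vv y) hne) := by
    intro y hne
    obtain ⟨g, hg, hg2, hg3⟩ := key y
    have hm := (isCh_ch y).cp_mem (mem_ch y)
    have h2 := hg2 (cp y) hm
    have h3 := hg3 (cp y) hm hne
    rw [(isCh_ch y).symm_cp (mem_ch y)] at h2 h3
    rw [h2, h3, ← hG1' (vv y) (vv_mem y) (h_vv y) hne]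
    rfl
  -- step 3
  have hint : ∫⁻ y, ENNReal.ofReal (‖f2 y‖ ^ 2 * (‖d0 d.h (vv y)‖ ^ 2)⁻¹) ∂μ ≠ ∞ := by
    refine ne_top_of_le_ne_top hK ?_
    have hm2 : Measurable fun y : XX d =>
        ENNReal.ofReal (‖f2 y‖ ^ 2 * (‖d0 d.h (vv y)‖ ^ 2)⁻¹) := by
      have hFs : Continuous f2 := (hol_of _ hf2H).sm.continuous
      have h5 : Continuous fun y : XX d => d0 d.h (vv y) :=
        (d.cont_d0.mono fun _ h => h.1).comp_continuous cont_vv fun x => vv_mem x
      exact ((hFs.norm.pow 2).mul ((h5.norm.pow 2).inv₀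
        fun y => (d0_pos y).ne')).measurable.ennreal_ofReal
    rw [Rd692.lintegral_eq_fibre hμ hm2]
    refine le_trans ?_ hfib.ge
    refine lintegral_mono_ae ?_
    have hnull : ∀ᵐ ζ : Fin n → ℂ, ¬ (ζ ∈ Pd (Fin.tail d.R) ∧ a ζ = 0) := by
      rw [ae_iff]
      simpa only [not_not] using null_a ha ha0
    filter_upwards [hnull] with ζ hζ
    by_cases hζP : ζ ∈ Pd (Fin.tail d.R)
    · have hne : a ζ ≠ 0 := fun h => hζ ⟨hζP, h⟩
      have hne' : ∀ y : {y : XX d // cp y = ζ}, a (Fin.tail (vv y.1)) ≠ 0 := by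
        rintro ⟨y, rfl⟩
        exact hne
      let τ : {y : XX d // cp y = ζ} → {y : XX (dA d a ha) // cp y = ζ} := fun y =>
        ⟨mkA (vv y.1) (vv_mem y.1) (h_vv y.1) (hne' y), y.2⟩
      have hτ : Function.Injective τ := by
        intro y y' hyy
        apply Subtype.ext
        apply vv_inj
        exact congrArg (fun y : {y : XX (dA d a ha) // cp y = ζ} => vv y.1) hyy
      refine le_trans (le_of_eq ?_) (ENNReal.tsum_comp_le_tsum_of_injective hτ
        (fun y : {y : XX (dA d a ha) // cp y = ζ} => H y.1))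
      refine tsum_congr fun y => ?_
      simp only [hH]
      rw [hf2v y.1 (hne' y)]
      rfl
    · have : IsEmpty {y : XX d // cp y = ζ} := ⟨fun y => hζP (by
        have := hcpP y.1
        rwa [y.2] at this)⟩
      rw [tsum_empty]
      exact zero_le
  obtain ⟨G, hG, hGf⟩ := amb hμ h1 hf2H hint
  refine ⟨G, hG, fun y => ?_⟩
  have h2 := hGf (jA y)
  rw [vv_jA] at h2
  rw [h2, hf2v (jA y) (vvA_ne y)]
  rfl

/-- **one Hörmander step on `{h = 0, ∂₀h ≠ 0, a(x') ≠ 0}`** -/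
theorem ho_a (hμ : IsLeb μ) (hμA : IsLeb μA)
    (ha0 : ∀ p ∈ Pd (Fin.tail d.R), ¬ ∀ᶠ z in 𝓝 p, a z = 0)
    (h1 : ∃ x ∈ Pd d.R, d0 d.h x ≠ 0) {Φ : XX (dA d a ha) → ℝ} (hΦ : Sm Φ)
    (hΦL : ∀ y w, 0 ≤ Levi Φ y w) {C : ℝ} (hC : ∀ y, Φ y ≤ C) {S : XX (dA d a ha) → ℂ} (hS : Sm S)
    {κ : XX (dA d a ha) → ℝ} (hκ : ∀ y, 0 ≤ κ y)
    (hk : ∀ y (w : Fin n → ℂ), ‖∑ j, db j S y * conj (w j)‖ ^ 2 ≤ κ y * Levi Φ y w)
    {K : ℝ≥0∞} (hKt : K ≠ ∞)
    (hK : ∫⁻ y, ENNReal.ofReal (κ y * Real.exp (-Φ y) * (‖d0 d.h (vv y)‖ ^ 2)⁻¹) ∂μA ≤ K)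
    (hSi : ∫⁻ y, ENNReal.ofReal (‖S y‖ ^ 2 * (‖d0 d.h (vv y)‖ ^ 2)⁻¹) ∂μA ≠ ∞) :
    ∃ G : (Fin (n + 1) → ℂ) → ℂ, DifferentiableOn ℂ G (Pd d.R) ∧
      ∫⁻ y, ENNReal.ofReal (‖G (vv y) - S y‖ ^ 2 * Real.exp (-Φ y) *
        (‖d0 d.h (vv y)‖ ^ 2)⁻¹) ∂μA ≤ 2 * K := by
  set ψ : XX (dA d a ha) → ℝ := fun y => Φ y + LA d a ha y with hψ
  have hψs : Sm ψ := hΦ.add sm_LA
  have hψL : ∀ y w, Levi Φ y w ≤ Levi ψ y w := by
    intro y w
    have h2 : Levi ψ y w = Levi Φ y w + Levi (LA d a ha) y w := Levi_add hΦ sm_LA y w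
    rw [h2]
    have := levi_LA (ha := ha) y w
    linarith
  have hexp : ∀ y, Real.exp (-ψ y) = Real.exp (-Φ y) * (‖d0 d.h (vv y)‖ ^ 2)⁻¹ := by
    intro y
    simp only [hψ]
    rw [neg_add, Real.exp_add, exp_LA]
  obtain ⟨F, hF, hFb⟩ := engU (μ := μA) (ρ := rX (dA d a ha)) (ψ := ψ) (G := S) (κ := κ)
    (b := fun _ => 1)
    (K := K) hμA sm_rX compact_rX levi_rX hψs (fun y w => (hΦL y w).trans (hψL y w)) hS
    (fun y w => (hk y w).trans (mul_le_mul_of_nonneg_left (hψL y w) (hκ y))) lpsh_one (by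
      refine le_trans (le_of_eq ?_) hK
      refine lintegral_congr fun y => ?_
      rw [ENNReal.ofReal_one, div_one, hexp, mul_assoc])
  have hFb' : ∫⁻ y, ENNReal.ofReal (‖F y - S y‖ ^ 2 * Real.exp (-Φ y) *
        (‖d0 d.h (vv y)‖ ^ 2)⁻¹) ∂μA ≤ 2 * K := by
    refine le_trans (le_of_eq ?_) hFb
    refine lintegral_congr fun y => ?_
    rw [ENNReal.ofReal_one, div_one, hexp, mul_assoc]
  have hFint : ∫⁻ y, ENNReal.ofReal (‖F y‖ ^ 2 * (‖d0 d.h (vv y)‖ ^ 2)⁻¹) ∂μA ≠ ∞ := by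
    have h3 : ∀ y, ENNReal.ofReal (‖F y‖ ^ 2 * (‖d0 d.h (vv y)‖ ^ 2)⁻¹) ≤
        ENNReal.ofReal (2 * Real.exp C) * ENNReal.ofReal (‖F y - S y‖ ^ 2 * Real.exp (-Φ y) *
        (‖d0 d.h (vv y)‖ ^ 2)⁻¹) + 2 * ENNReal.ofReal (‖S y‖ ^ 2 * (‖d0 d.h (vv y)‖ ^ 2)⁻¹) := by
      intro y
      have hd := dA_pos y
      have h4 : 1 ≤ Real.exp C * Real.exp (-Φ y) := by
        rw [← Real.exp_add]
        exact Real.one_le_exp (by have := hC y; linarith)
      have h5 : ‖F y‖ ^ 2 ≤ 2 * ‖F y - S y‖ ^ 2 + 2 * ‖S y‖ ^ 2 := by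
        have h6 : ‖F y‖ ≤ ‖F y - S y‖ + ‖S y‖ := by
          calc ‖F y‖ = ‖(F y - S y) + S y‖ := by congr 1; ring
            _ ≤ _ := norm_add_le _ _
        have h7 := norm_nonneg (F y)
        have h8 := norm_nonneg (F y - S y)
        have h9 := norm_nonneg (S y)
        nlinarith [sq_nonneg (‖F y - S y‖ - ‖S y‖)]
      rw [← ENNReal.ofReal_mul (by positivity), show (2 : ℝ≥0∞) = ENNReal.ofReal 2 by simp,
        ← ENNReal.ofReal_mul (by norm_num), ← ENNReal.ofReal_add (by positivity) (by positivity)]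
      apply ENNReal.ofReal_le_ofReal
      have h10 : 0 ≤ (‖d0 d.h (vv y)‖ ^ 2)⁻¹ := by positivity
      have h11 : 0 ≤ ‖F y - S y‖ ^ 2 := by positivity
      calc ‖F y‖ ^ 2 * (‖d0 d.h (vv y)‖ ^ 2)⁻¹
          ≤ (2 * ‖F y - S y‖ ^ 2 + 2 * ‖S y‖ ^ 2) * (‖d0 d.h (vv y)‖ ^ 2)⁻¹ :=
            mul_le_mul_of_nonneg_right h5 h10
        _ ≤ (2 * (‖F y - S y‖ ^ 2 * (Real.exp C * Real.exp (-Φ y))) + 2 * ‖S y‖ ^ 2) *
            (‖d0 d.h (vv y)‖ ^ 2)⁻¹ := by
            apply mul_le_mul_of_nonneg_right _ h10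
            have := mul_le_mul_of_nonneg_left h4 h11
            linarith
        _ = _ := by ring
    refine ne_top_of_le_ne_top ?_ (lintegral_mono h3)
    have hm2 : Measurable fun y : XX (dA d a ha) =>
        ENNReal.ofReal (‖S y‖ ^ 2 * (‖d0 d.h (vv y)‖ ^ 2)⁻¹) :=
      (((hS.continuous.norm.pow 2).mul cont_wA).measurable).ennreal_ofReal
    rw [lintegral_add_right _ (hm2.const_mul 2), lintegral_const_mul' _ _ ENNReal.ofReal_ne_top,
      lintegral_const_mul' _ _ (by simp)]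
    refine ENNReal.add_ne_top.2 ⟨ENNReal.mul_ne_top ENNReal.ofReal_ne_top
      (ne_top_of_le_ne_top (ENNReal.mul_ne_top (by simp) hKt) hFb'),
      ENNReal.mul_ne_top (by simp) hSi⟩
  obtain ⟨G, hG, hGF⟩ := ext_a hμ hμA ha0 h1 hF hFint
  refine ⟨G, hG, ?_⟩
  simp only [hGF]
  exact hFb'

end rem

end Crest.Agent.R257.HoC_843
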