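import Crest.Agent.R257.HoC_843
import Crest.Agent.R257.OtKE_331

/-!
# Row 257, task C-HO (helper843), file D: the Hörmander step, everything in parametrisations

`ho_charts` : `Φ`, `S` functions on the ambient space; all hypotheses are checked in (possibly
ramified, possibly overlapping) holomorphic parametrisations `θ c : O c → {h = 0}` covering
`{h = 0, ∂₀h ≠ 0, a(x') ≠ 0}`; the conclusion is an estimate in every injective parametrisation.
-/

set_option autoImplicit false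
set_option linter.unusedSectionVars false

noncomputable section

open Set Filter Topology MeasureTheory ComplexConjugate
open scoped ENNReal

namespace Crest.Agent.R257.HoD_843

open Crest.Agent.R271 Crest.Agent.R271.Ho51 Crest.Agent.R273.Dir73 Crest.Agent.R273.OTA_34
open Crest.Agent.R257.OtK_331 Crest.Agent.R276.EngU_29 Crest.Agent.R273.Reg_844
open Crest.Agent.R257.HoA_843 Crest.Agent.R257.HoB_843 Crest.Agent.R257.HoC_843
open Crest.Agent.R271.W792 (lev dsq nS nT lg)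

variable {n : ℕ}

/-- the Jacobian of `tail ∘ θ` -/
def Jt (θ : (Fin n → ℂ) → Fin (n + 1) → ℂ) (p : Fin n → ℂ) : ℂ :=
  (fderiv ℂ (fun x => Fin.tail (θ x)) p).det

/-- the density of `|η|²` -/
def den (d : Dat n) (θ : (Fin n → ℂ) → Fin (n + 1) → ℂ) (p : Fin n → ℂ) : ℝ :=
  (‖d0 d.h (θ p)‖ ^ 2)⁻¹ * ‖Jt θ p‖ ^ 2

lemma diff_tail_comp {O : Set (Fin n → ℂ)} {θ : (Fin n → ℂ) → Fin (n + 1) → ℂ}
    (hθ : DifferentiableOn ℂ θ O) : DifferentiableOn ℂ (fun x => Fin.tail (θ x)) O :=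
  (tl n).differentiable.comp_differentiableOn hθ

variable {d : Dat n} {a : (Fin n → ℂ) → ℂ} {ha : DifferentiableOn ℂ a (Pd (Fin.tail d.R))}

lemma exists_par {O : Set (Fin n → ℂ)} (hO : IsOpen O) {θ : (Fin n → ℂ) → Fin (n + 1) → ℂ}
    (hθ : DifferentiableOn ℂ θ O) (hz : ∀ p ∈ O, d.h (θ p) = 0) {p : Fin n → ℂ} (hp : p ∈ O)
    (hJ : Jt θ p ≠ 0) : ∃ L, Par (dA d a ha) θ p L := by
  have hJ : (fderiv ℂ (fun x => Fin.tail (θ x)) p).det ≠ 0 := hJ
  refine ⟨(fderiv ℂ (fun x => Fin.tail (θ x)) p).toContinuousLinearEquivOfDetNeZero hJ, ?_, ?_, ?_⟩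
  · exact R266.SCV.analyticOnNhd_of_differentiableOn hO hθ p hp
  · filter_upwards [hO.mem_nhds hp] with x hx
    show a (Fin.tail (θ x)) * d.h (θ x) = 0
    rw [hz x hx, mul_zero]
  · rw [ContinuousLinearMap.coe_toContinuousLinearEquivOfDetNeZero]
    exact ((diff_tail_comp hθ).differentiableAt (hO.mem_nhds hp)).hasFDerivAt

/-- covering by charts, for functions on `XX (dA d a ha)` -/
lemma cover_A [MeasurableSpace (XX (dA d a ha))] [BorelSpace (XX (dA d a ha))]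
    {μA : Measure (XX (dA d a ha))} (hμA : IsLeb μA) {ι : Type*} [Countable ι]
    {O : ι → Set (Fin n → ℂ)} (hO : ∀ c, IsOpen (O c))
    {θ : ι → (Fin n → ℂ) → Fin (n + 1) → ℂ} (hθ : ∀ c, DifferentiableOn ℂ (θ c) (O c))
    (hcov : ∀ x ∈ d.U, d.h x = 0 → a (Fin.tail x) ≠ 0 → ∃ c, ∃ p ∈ O c, θ c p = x)
    {H : XX (dA d a ha) → ℝ} (hH : Measurable H) {k e : ι → (Fin n → ℂ) → ℝ}
    (hkm : ∀ c, Measurable (k c))
    (he : ∀ c, ContinuousOn (e c) (O c))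
    (hle : ∀ c, ∀ p ∈ O c, ∀ y : XX (dA d a ha), vv y = θ c p → H y ≤ k c p * e c p) :
    ∫⁻ y, ENNReal.ofReal (H y * (‖d0 d.h (vv y)‖ ^ 2)⁻¹) ∂μA ≤
      ∑' c, ∫⁻ p in O c, ENNReal.ofReal (k c p * e c p * den d (θ c) p) := by
  classical
  set O' : ι → Set (Fin n → ℂ) := fun c => O c ∩ θ c ⁻¹' (Pd d.R) with hO'
  have hO'o : ∀ c, IsOpen (O' c) := fun c =>
    (hθ c).continuousOn.isOpen_inter_preimage (hO c) (isOpen_Pd _)
  have hcov' : ∀ y : XX (dA d a ha), ∃ c, ∃ p ∈ O c, θ c p = vv y := fun y =>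
    hcov (vv y) (vvA_mem y) (vvA_h y) (vvA_ne y)
  choose c p hp hcp using hcov'
  have hd0 : ∀ c, ContinuousOn (fun p => ‖d0 d.h (θ c p)‖ ^ 2) (O' c) := fun c =>
    (d.cont_d0.comp ((hθ c).continuousOn.mono inter_subset_left) fun p hp => hp.2).norm.pow 2
  have hm1 : ∀ c, Measurable ((O' c).indicator (e c)) := fun c =>
    meas_ind (hO'o c) ((he c).mono inter_subset_left)
  have hm2 : ∀ c, Measurable ((O' c).indicator (fun p => ‖d0 d.h (θ c p)‖ ^ 2)) := fun c =>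
    meas_ind (hO'o c) (hd0 c)
  have h1 := cover_le (σ := fun y => (c y, p y)) hμA
    (H := fun y => ENNReal.ofReal (H y * (‖d0 d.h (vv y)‖ ^ 2)⁻¹))
    ((hH.mul cont_wA.measurable).ennreal_ofReal) hO'o
    (q := fun c x => Fin.tail (θ c x)) (fun c => (diff_tail_comp (hθ c)).mono inter_subset_left)
    (g := fun c p => ENNReal.ofReal (k c p * (O' c).indicator (e c) p *
      ((O' c).indicator (fun p => ‖d0 d.h (θ c p)‖ ^ 2) p)⁻¹))
    (fun c => (((hkm c).mul (hm1 c)).mul (hm2 c).inv).ennreal_ofReal)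
    (by
      intro y y' hyy
      apply vv_inj
      rw [← hcp y, ← hcp y']
      have e1 : c y = c y' := congrArg Prod.fst hyy
      have e2 : p y = p y' := congrArg Prod.snd hyy
      rw [e1, e2])
    (fun y => ⟨hp y, by
      show θ (c y) (p y) ∈ Pd d.R
      rw [hcp y]; exact (vvA_mem y).1⟩)
    (fun y => by
      show Fin.tail (θ (c y) (p y)) = Fin.tail (vv y)
      rw [hcp y])
    (fun y => by
      have hm : p y ∈ O' (c y) := ⟨hp y, by
        show θ (c y) (p y) ∈ Pd d.R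
        rw [hcp y]; exact (vvA_mem y).1⟩
      simp only
      rw [indicator_of_mem hm, indicator_of_mem hm, hcp y]
      apply ENNReal.ofReal_le_ofReal
      exact mul_le_mul_of_nonneg_right (hle _ _ (hp y) y (hcp y).symm) (by positivity))
  refine h1.trans (ENNReal.tsum_le_tsum fun c => ?_)
  refine le_trans (setLIntegral_mono' (hO'o c).measurableSet (g := fun p =>
    ENNReal.ofReal (k c p * e c p * den d (θ c) p)) fun x hx => ?_)
    (lintegral_mono_set inter_subset_left)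
  rw [indicator_of_mem hx, indicator_of_mem hx, ← ENNReal.ofReal_mul (by positivity)]
  apply ENNReal.ofReal_le_ofReal
  apply le_of_eq
  unfold den Jt
  ring

/-- fibre sums along an at most `N`-to-one map -/
lemma tsum_le_mul {α β : Type*} (s : α → β) (N : ℕ) (hN : ∀ y, {x | s x = y}.encard ≤ N)
    (g : β → ℝ≥0∞) : ∑' x, g (s x) ≤ N * ∑' y, g y := by
  classical
  have h1 : ∑' x, g (s x) = ∑' y, ∑' _ : {x // s x = y}, g y := by
    rw [← (Equiv.sigmaFiberEquiv s).tsum_eq, ENNReal.tsum_sigma']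
    refine tsum_congr fun y => tsum_congr fun x => ?_
    have : s ((Equiv.sigmaFiberEquiv s) ⟨y, x⟩) = y := x.2
    rw [this]
  rw [h1, ← ENNReal.tsum_mul_left]
  refine ENNReal.tsum_le_tsum fun y => ?_
  have h2 : ∑' _ : {x // s x = y}, g y = ({x | s x = y}.encard : ℝ≥0∞) * g y :=
    ENNReal.tsum_set_const {x | s x = y} (g y)
  rw [h2]
  gcongr
  exact_mod_cast ENat.toENNReal_le.2 (hN y)

/-- integrals in an at most `N`-to-one parametrisation -/
lemma piece_N [MeasurableSpace (XX (dA d a ha))] [BorelSpace (XX (dA d a ha))]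
    {μA : Measure (XX (dA d a ha))} (hμA : IsLeb μA) {U : Set (Fin n → ℂ)} (hU : IsOpen U)
    {τ : (Fin n → ℂ) → Fin (n + 1) → ℂ} (hτ : DifferentiableOn ℂ τ U)
    (hτU : ∀ p ∈ U, τ p ∈ d.U ∧ d.h (τ p) = 0 ∧ a (Fin.tail (τ p)) ≠ 0) {N : ℕ}
    (hN : ∀ x, {p | p ∈ U ∧ τ p = x}.encard ≤ N) {g : (Fin (n + 1) → ℂ) → ℝ}
    (hgm : Measurable fun y : XX (dA d a ha) => g (vv y))
    (hgc : ContinuousOn (fun p => g (τ p)) U) :
    ∫⁻ p in U, ENNReal.ofReal (g (τ p) * den d τ p) ≤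
      N * ∫⁻ y, ENNReal.ofReal (g (vv y) * (‖d0 d.h (vv y)‖ ^ 2)⁻¹) ∂μA := by
  classical
  have hd0 : ContinuousOn (fun p => ‖d0 d.h (τ p)‖ ^ 2) U :=
    (d.cont_d0.comp hτ.continuousOn fun p hp => (hτU p hp).1.1).norm.pow 2
  have hm1 : Measurable (U.indicator (fun p => g (τ p))) := meas_ind hU hgc
  have hm2 : Measurable (U.indicator (fun p => ‖d0 d.h (τ p)‖ ^ 2)) := meas_ind hU hd0
  set g' : (Fin n → ℂ) → ℝ≥0∞ := fun p => ENNReal.ofReal (U.indicator (fun p => g (τ p)) p *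
    (U.indicator (fun p => ‖d0 d.h (τ p)‖ ^ 2) p)⁻¹) with hg'
  have hg'm : Measurable g' := (hm1.mul hm2.inv).ennreal_ofReal
  have hqd : DifferentiableOn ℂ (fun x => Fin.tail (τ x)) U := diff_tail_comp hτ
  have hq1 : ContDiffOn ℝ 1 (fun x => Fin.tail (τ x)) U := fun x hx =>
    (((R266.SCV.analyticOnNhd_of_differentiableOn hU hqd x hx).contDiffAt
      (n := 1)).restrict_scalars ℝ).contDiffWithinAt
  have hA := (Area_5.area' (volume : Measure (Fin n → ℂ)) hU hq1 hg'm).2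
  have h1 : ∫⁻ p in U, ENNReal.ofReal (g (τ p) * den d τ p) =
      ∫⁻ x in U, ENNReal.ofReal |(fderiv ℝ (fun x => Fin.tail (τ x)) x).det| * g' x := by
    refine setLIntegral_congr_fun hU.measurableSet fun p hp => ?_
    rw [(hqd.differentiableAt (hU.mem_nhds hp)).fderiv_restrictScalars ℝ, Bd741.abs_det_real]
    simp only [hg']
    rw [indicator_of_mem hp, indicator_of_mem hp, ← ENNReal.ofReal_mul (by positivity)]
    congr 1
    unfold den Jt
    ring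
  have hHm : Measurable fun y : XX (dA d a ha) =>
      ENNReal.ofReal (g (vv y) * (‖d0 d.h (vv y)‖ ^ 2)⁻¹) :=
    (hgm.mul cont_wA.measurable).ennreal_ofReal
  rw [h1, ← hA, Rd692.lintegral_eq_fibre hμA hHm,
    ← lintegral_const_mul' _ _ (ENNReal.natCast_ne_top N)]
  refine lintegral_mono fun ζ => ?_
  simp only [Area_5.fs_eq]
  let s : {x // x ∈ U ∧ Fin.tail (τ x) = ζ} → {y : XX (dA d a ha) // cp y = ζ} := fun x =>
    ⟨mkA (τ x.1) (hτU _ x.2.1).1 (hτU _ x.2.1).2.1 (hτU _ x.2.1).2.2, x.2.2⟩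
  have h2 := tsum_le_mul s N (fun y => by
    refine le_trans ?_ (hN (vv y.1))
    rw [← (Subtype.val_injective.encard_image {x | s x = y})]
    apply Set.encard_le_encard
    rintro _ ⟨x, hx, rfl⟩
    refine ⟨x.2.1, ?_⟩
    have h3 : s x = y := hx
    rw [← h3]
    rfl) (fun y => ENNReal.ofReal (g (vv y.1) * (‖d0 d.h (vv y.1)‖ ^ 2)⁻¹))
  refine le_trans (le_of_eq ?_) h2
  refine tsum_congr fun x => ?_
  simp only [hg']
  rw [indicator_of_mem x.2.1, indicator_of_mem x.2.1]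
  rfl

/-- **one Hörmander step, in parametrisations** -/
theorem ho_charts (ha : DifferentiableOn ℂ a (Pd (Fin.tail d.R)))
    (ha0 : ∀ p ∈ Pd (Fin.tail d.R), ¬ ∀ᶠ z in 𝓝 p, a z = 0)
    (h1 : ∃ x ∈ Pd d.R, d0 d.h x ≠ 0) {ι : Type*} [Countable ι]
    {O : ι → Set (Fin n → ℂ)} (hO : ∀ c, IsOpen (O c))
    {θ : ι → (Fin n → ℂ) → Fin (n + 1) → ℂ} (hθ : ∀ c, DifferentiableOn ℂ (θ c) (O c))
    (hz : ∀ c, ∀ p ∈ O c, d.h (θ c p) = 0) (hJ : ∀ c, ∀ p ∈ O c, Jt (θ c) p ≠ 0)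
    (hcov : ∀ x ∈ d.U, d.h x = 0 → a (Fin.tail x) ≠ 0 → ∃ c, ∃ p ∈ O c, θ c p = x)
    {Φ : (Fin (n + 1) → ℂ) → ℝ} {S : (Fin (n + 1) → ℂ) → ℂ} {κ : ι → (Fin n → ℂ) → ℝ}
    (hΦ : ∀ c, ∀ p ∈ O c, ContDiffAt ℝ (⊤ : ℕ∞) (Φ ∘ θ c) p)
    (hS : ∀ c, ∀ p ∈ O c, ContDiffAt ℝ (⊤ : ℕ∞) (S ∘ θ c) p)
    (hL : ∀ c, ∀ p ∈ O c, ∀ w, 0 ≤ lvE (Φ ∘ θ c) p w)
    (hκ0 : ∀ c p, 0 ≤ κ c p) (hκm : ∀ c, Measurable (κ c))
    (hk : ∀ c, ∀ p ∈ O c, ∀ w, ‖dbE (S ∘ θ c) p w‖ ^ 2 ≤ κ c p * lvE (Φ ∘ θ c) p w)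
    {C : ℝ} (hC : ∀ c, ∀ p ∈ O c, Φ (θ c p) ≤ C) {K : ℝ≥0∞} (hKt : K ≠ ∞)
    (hK : ∑' c, ∫⁻ p in O c, ENNReal.ofReal (κ c p * Real.exp (-Φ (θ c p)) * den d (θ c) p) ≤ K)
    (hSi : ∑' c, ∫⁻ p in O c, ENNReal.ofReal (‖S (θ c p)‖ ^ 2 * den d (θ c) p) ≠ ∞) :
    ∃ G : (Fin (n + 1) → ℂ) → ℂ, DifferentiableOn ℂ G (Pd d.R) ∧
      ∀ (U : Set (Fin n → ℂ)) (τ : (Fin n → ℂ) → Fin (n + 1) → ℂ) (N : ℕ), IsOpen U →
        DifferentiableOn ℂ τ U →
        (∀ p ∈ U, τ p ∈ d.U ∧ d.h (τ p) = 0 ∧ a (Fin.tail (τ p)) ≠ 0) →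
        (∀ x, {p | p ∈ U ∧ τ p = x}.encard ≤ N) →
        ∫⁻ p in U, ENNReal.ofReal (‖G (τ p) - S (τ p)‖ ^ 2 * Real.exp (-Φ (τ p)) * den d τ p) ≤
          N * (2 * K) := by
  classical
  let _ : MeasurableSpace (XX d) := borel _
  have : BorelSpace (XX d) := ⟨rfl⟩
  let _ : MeasurableSpace (XX (dA d a ha)) := borel _
  have : BorelSpace (XX (dA d a ha)) := ⟨rfl⟩
  obtain ⟨μ, hμ⟩ := exists_leb (M := XX d)
  obtain ⟨μA, hμA⟩ := exists_leb (M := XX (dA d a ha))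
  have hcov' : ∀ y : XX (dA d a ha), ∃ c, ∃ p ∈ O c, vv y = θ c p := fun y => by
    obtain ⟨c, p, hp, h⟩ := hcov (vv y) (vvA_mem y) (vvA_h y) (vvA_ne y)
    exact ⟨c, p, hp, h.symm⟩
  set ΦX : XX (dA d a ha) → ℝ := fun y => Φ (vv y) with hΦX
  set SX : XX (dA d a ha) → ℂ := fun y => S (vv y) with hSX
  have hΦs : Sm ΦX := by
    intro y
    obtain ⟨c, p, hp, hy⟩ := hcov' y
    obtain ⟨L, hL'⟩ := exists_par (ha := ha) (hO c) (hθ c) (hz c) hp (hJ c p hp)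
    exact hL'.sm hy (hΦ c p hp)
  have hSs : Sm SX := by
    intro y
    obtain ⟨c, p, hp, hy⟩ := hcov' y
    obtain ⟨L, hL'⟩ := exists_par (ha := ha) (hO c) (hθ c) (hz c) hp (hJ c p hp)
    exact hL'.sm hy (hS c p hp)
  have hlevEq : ∀ c, ∀ p ∈ O c, ∀ y : XX (dA d a ha), vv y = θ c p → ∀ w : Fin n → ℂ, ∃ w',
      Levi ΦX y w = lvE (Φ ∘ θ c) p w' ∧
      ∑ j, Ho51.db j SX y * conj (w j) = dbE (S ∘ θ c) p w' := by
    intro c p hp y hy w
    obtain ⟨L, hL'⟩ := exists_par (ha := ha) (hO c) (hθ c) (hz c) hp (hJ c p hp)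
    refine ⟨L.symm w, ?_, ?_⟩
    · rw [hL'.lev hy hΦs, W792.Levi_eq_lev hΦs, L.apply_symm_apply]
    · rw [hL'.db hy hSs, L.apply_symm_apply]
  have hΦL : ∀ y w, 0 ≤ Levi ΦX y w := by
    intro y w
    obtain ⟨c, p, hp, hy⟩ := hcov' y
    obtain ⟨w', h2, -⟩ := hlevEq c p hp y hy w
    rw [h2]
    exact hL c p hp w'
  have hkk : ∀ c, ∀ p ∈ O c, ∀ y : XX (dA d a ha), vv y = θ c p → ∀ w : Fin n → ℂ,
      ‖∑ j, Ho51.db j SX y * conj (w j)‖ ^ 2 ≤ κ c p * Levi ΦX y w := by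
    intro c p hp y hy w
    obtain ⟨w', h2, h3⟩ := hlevEq c p hp y hy w
    rw [h2, h3]
    exact hk c p hp w'
  have hkm : ∀ y w, ‖∑ j, Ho51.db j SX y * conj (w j)‖ ^ 2 ≤ km ΦX SX y * Levi ΦX y w := by
    intro y w
    obtain ⟨c, p, hp, hy⟩ := hcov' y
    exact km_spec (hκ0 c p) (hkk c p hp y hy) (hΦL y) w
  have hΦcont : ∀ c, ContinuousOn (fun p => Φ (θ c p)) (O c) := fun c p hp =>
    (hΦ c p hp).continuousAt.continuousWithinAt
  have hScont : ∀ c, ContinuousOn (fun p => S (θ c p)) (O c) := fun c p hp =>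
    (hS c p hp).continuousAt.continuousWithinAt
  obtain ⟨G, hG, hGb⟩ := ho_a (d := d) (a := a) (ha := ha) hμ hμA ha0 h1 hΦs hΦL (C := C)
    (fun y => by
      obtain ⟨c, p, hp, hy⟩ := hcov' y
      simp only [hΦX]
      rw [hy]; exact hC c p hp) hSs (κ := km ΦX SX) (fun y => km_nonneg) hkm hKt
    (by
      refine le_trans ?_ hK
      refine cover_A (H := fun y => km ΦX SX y * Real.exp (-ΦX y)) hμA hO hθ hcov
        ((measurable_km hΦs hSs).mul (Real.continuous_exp.comp hΦs.continuous.neg).measurable)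
        (k := κ) (e := fun c p => Real.exp (-Φ (θ c p))) hκm
        (fun c => Real.continuous_exp.comp_continuousOn (hΦcont c).neg) ?_
      intro c p hp y hy
      have h2 : km ΦX SX y ≤ κ c p := km_le (hκ0 c p) (hkk c p hp y hy)
      simp only [hΦX]
      rw [hy]
      exact mul_le_mul_of_nonneg_right h2 (Real.exp_pos _).le)
    (by
      refine ne_top_of_le_ne_top hSi ?_
      have h3 := cover_A (H := fun y => ‖SX y‖ ^ 2) hμA hO hθ hcov
        (hSs.continuous.norm.pow 2).measurable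
        (k := fun _ _ => 1) (e := fun c p => ‖S (θ c p)‖ ^ 2)
        (fun _ => measurable_const)
        (fun c => (hScont c).norm.pow 2) (fun c p hp y hy => by
          simp only [hSX]
          rw [hy, one_mul])
      simpa only [one_mul] using h3)
  refine ⟨G, hG, fun U τ N hU hτ hτU hN => ?_⟩
  have hGc : Continuous fun y : XX (dA d a ha) => G (vv y) :=
    (hol_of _ (hol_vv (d := dA d a ha) (G := G) (hG.mono fun _ h => h.1))).sm.continuous
  have hgm : Continuous fun y : XX (dA d a ha) =>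
      ‖G (vv y) - S (vv y)‖ ^ 2 * Real.exp (-Φ (vv y)) :=
    ((hGc.sub hSs.continuous).norm.pow 2).mul (Real.continuous_exp.comp hΦs.continuous.neg)
  -- continuity along `τ`
  have hsc : Continuous fun p : U => (mkA (τ p.1) (hτU _ p.2).1 (hτU _ p.2).2.1
      (hτU _ p.2).2.2 : XX (dA d a ha)) := by
    rw [inducing_vv.continuous_iff]
    exact continuousOn_iff_continuous_domRestrict.1 hτ.continuousOn
  have hgc : ContinuousOn (fun p => ‖G (τ p) - S (τ p)‖ ^ 2 * Real.exp (-Φ (τ p))) U := by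
    rw [continuousOn_iff_continuous_domRestrict]
    exact hgm.comp hsc
  have h2 := piece_N (g := fun x => ‖G x - S x‖ ^ 2 * Real.exp (-Φ x)) hμA hU hτ hτU hN
    hgm.measurable hgc
  refine h2.trans ?_
  gcongr

end Crest.Agent.R257.HoD_843
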