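import Crest.Agent.R257.HoD_843
import Crest.Agent.R257.FrDefs_808
import Crest.Agent.R257.Ord_757

/-!
# Row 257, task C-HO (helper843), file E: the Hörmander step for surfaces in `ℂ³`

`ho2` : `HoD_843.ho_charts` for `n = 2` with charts `θ : ℂ × ℂ → ℂ³` and the density
`den2 f θ p = |jac2 θ p|² / |∂₀f (θ p)|²`.
-/

set_option autoImplicit false
set_option linter.unusedSectionVars false

noncomputable section

open Set Filter Topology MeasureTheory ComplexConjugate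
open scoped ENNReal

namespace Crest.Agent.R257.HoE_843

open Crest.AlgGeometry.Germ
open Crest.Agent.R271 Crest.Agent.R271.Ho51
open Crest.Agent.R257.OtK_331 Crest.Agent.R257.HoA_843 Crest.Agent.R257.HoB_843
open Crest.Agent.R257.HoC_843 Crest.Agent.R257.HoD_843 Crest.Agent.R257.Ord_757
open Crest.Agent.R257.Defs_219 Crest.Agent.R257.Fr_808

/-- the density of `|η|²` in the chart `θ` -/
def den2 (f : E3 → ℂ) (θ : ℂ × ℂ → E3) (p : ℂ × ℂ) : ℝ :=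
  (‖coordDeriv f 0 (θ p)‖ ^ 2)⁻¹ * ‖jac2 θ p‖ ^ 2

lemma Jt_e2 {θ : ℂ × ℂ → E3} {z : Fin 2 → ℂ} (hθ : DifferentiableAt ℂ θ (e2 z)) :
    Jt (n := 2) (fun x => θ (e2 x)) z = jac2 θ (e2 z) := by
  have h1 : HasFDerivAt (fun x : Fin 2 → ℂ => Fin.tail (θ (e2 x)))
      ((tl 2).comp ((fderiv ℂ θ (e2 z)).comp (e2 : (Fin 2 → ℂ) →L[ℂ] ℂ × ℂ))) z := by
    have h2 : HasFDerivAt (fun x : Fin 2 → ℂ => θ (e2 x))
        ((fderiv ℂ θ (e2 z)).comp (e2 : (Fin 2 → ℂ) →L[ℂ] ℂ × ℂ)) z :=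
      HasFDerivAt.comp z (g := θ) (f := fun x : Fin 2 → ℂ => e2 x) hθ.hasFDerivAt
        (e2 : (Fin 2 → ℂ) →L[ℂ] ℂ × ℂ).hasFDerivAt
    exact HasFDerivAt.comp z (g := tl 2) (tl 2).hasFDerivAt h2
  unfold Jt
  rw [h1.fderiv]
  set A := (tl 2).comp ((fderiv ℂ θ (e2 z)).comp (e2 : (Fin 2 → ℂ) →L[ℂ] ℂ × ℂ)) with hA
  have h3 : A.det = (LinearMap.toMatrix' (A : (Fin 2 → ℂ) →ₗ[ℂ] (Fin 2 → ℂ))).det := by
    rw [LinearMap.det_toMatrix']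
  have e0 : (e2 (Pi.single 0 1 : Fin 2 → ℂ)) = (1, 0) := by
    rw [e2_apply]; simp
  have e1 : (e2 (Pi.single 1 1 : Fin 2 → ℂ)) = (0, 1) := by
    rw [e2_apply]; simp
  have h4 : ∀ i j, LinearMap.toMatrix' (A : (Fin 2 → ℂ) →ₗ[ℂ] (Fin 2 → ℂ)) i j =
      fderiv ℂ θ (e2 z) (e2 (Pi.single j 1)) i.succ := by
    intro i j
    rw [LinearMap.toMatrix'_apply]
    rfl
  rw [h3, Matrix.det_fin_two, h4, h4, h4, h4, e0, e1]
  unfold jac2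
  show fderiv ℂ θ (e2 z) (1, 0) 1 * fderiv ℂ θ (e2 z) (0, 1) 2 -
    fderiv ℂ θ (e2 z) (0, 1) 1 * fderiv ℂ θ (e2 z) (1, 0) 2 = _
  ring

/-- the polydisc data of `f` -/
def df (f : E3 → ℂ) (R : Fin 3 → ℝ) (hf : DifferentiableOn ℂ f (Pd R)) : Dat 2 := ⟨R, f, hf⟩

lemma den_e2 {f : E3 → ℂ} {R : Fin 3 → ℝ} {hf : DifferentiableOn ℂ f (Pd R)} {θ : ℂ × ℂ → E3}
    {z : Fin 2 → ℂ} (hθ : DifferentiableAt ℂ θ (e2 z)) :
    den (df f R hf) (fun x => θ (e2 x)) z = den2 f θ (e2 z) := by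
  unfold den den2
  rw [Jt_e2 hθ]
  rfl

/-- **one Hörmander step on a surface in `ℂ³`, in parametrisations** -/
theorem ho2 {f : E3 → ℂ} {R : Fin 3 → ℝ} (hf : DifferentiableOn ℂ f (Pd R))
    {a : ℂ × ℂ → ℂ} (ha : DifferentiableOn ℂ a {q | ‖q.1‖ < R 1 ∧ ‖q.2‖ < R 2})
    (ha0 : ∃ q : ℂ × ℂ, ‖q.1‖ < R 1 ∧ ‖q.2‖ < R 2 ∧ a q ≠ 0)
    (h1 : ∃ x ∈ Pd R, coordDeriv f 0 x ≠ 0) {ι : Type*} [Countable ι]
    {O : ι → Set (ℂ × ℂ)} (hO : ∀ c, IsOpen (O c))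
    {θ : ι → ℂ × ℂ → E3} (hθ : ∀ c, DifferentiableOn ℂ (θ c) (O c))
    (hz : ∀ c, ∀ p ∈ O c, f (θ c p) = 0) (hJ : ∀ c, ∀ p ∈ O c, jac2 (θ c) p ≠ 0)
    (hcov : ∀ x ∈ Pd R, f x = 0 → coordDeriv f 0 x ≠ 0 → a (x 1, x 2) ≠ 0 →
      ∃ c, ∃ p ∈ O c, θ c p = x)
    {Φ : E3 → ℝ} {S : E3 → ℂ} {κ : ι → ℂ × ℂ → ℝ}
    (hΦ : ∀ c, ∀ p ∈ O c, ContDiffAt ℝ (⊤ : ℕ∞) (Φ ∘ θ c) p)
    (hS : ∀ c, ∀ p ∈ O c, ContDiffAt ℝ (⊤ : ℕ∞) (S ∘ θ c) p)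
    (hL : ∀ c, ∀ p ∈ O c, ∀ w, 0 ≤ lvE (Φ ∘ θ c) p w)
    (hκ0 : ∀ c p, 0 ≤ κ c p) (hκm : ∀ c, Measurable (κ c))
    (hk : ∀ c, ∀ p ∈ O c, ∀ w, ‖dbE (S ∘ θ c) p w‖ ^ 2 ≤ κ c p * lvE (Φ ∘ θ c) p w)
    {C : ℝ} (hC : ∀ c, ∀ p ∈ O c, Φ (θ c p) ≤ C) {K : ℝ≥0∞} (hKt : K ≠ ∞)
    (hK : ∑' c, ∫⁻ p in O c, ENNReal.ofReal (κ c p * Real.exp (-Φ (θ c p)) * den2 f (θ c) p) ≤ K)
    (hSi : ∑' c, ∫⁻ p in O c, ENNReal.ofReal (‖S (θ c p)‖ ^ 2 * den2 f (θ c) p) ≠ ∞) :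
    ∃ G : E3 → ℂ, DifferentiableOn ℂ G (Pd R) ∧
      ∀ (U : Set (ℂ × ℂ)) (τ : ℂ × ℂ → E3) (N : ℕ), IsOpen U → DifferentiableOn ℂ τ U →
        (∀ p ∈ U, τ p ∈ Pd R ∧ f (τ p) = 0 ∧ coordDeriv f 0 (τ p) ≠ 0 ∧ a (τ p 1, τ p 2) ≠ 0) →
        (∀ x, {p | p ∈ U ∧ τ p = x}.encard ≤ N) →
        ∫⁻ p in U, ENNReal.ofReal (‖G (τ p) - S (τ p)‖ ^ 2 * Real.exp (-Φ (τ p)) *
          den2 f τ p) ≤ N * (2 * K) := by
  set a' : (Fin 2 → ℂ) → ℂ := fun z => a (e2 z) with ha'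
  have hPd : ∀ z : Fin 2 → ℂ, z ∈ Pd (Fin.tail R) ↔ ‖(e2 z).1‖ < R 1 ∧ ‖(e2 z).2‖ < R 2 := by
    intro z
    rw [e2_apply]
    show (∀ i : Fin 2, ‖z i‖ < Fin.tail R i) ↔ _
    rw [Fin.forall_fin_two]
    rfl
  have hda : DifferentiableOn ℂ a' (Pd (Fin.tail R)) :=
    ha.comp e2.differentiable.differentiableOn fun z hz => (hPd z).1 hz
  have ha0' : ∀ p ∈ Pd (Fin.tail R), ¬ ∀ᶠ z in 𝓝 p, a' z = 0 := by
    intro p hp hev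
    obtain ⟨q, hq1, hq2, hq3⟩ := ha0
    have han : AnalyticOnNhd ℂ a' (Pd (Fin.tail R)) :=
      R266.SCV.analyticOnNhd_of_differentiableOn (isOpen_Pd _) hda
    have h2 := han.eqOn_zero_of_preconnected_of_eventuallyEq_zero
      (convex_Pd (Fin.tail R)).isPreconnected hp hev
    have h3 : e2 (e2.symm q) = q := e2.apply_symm_apply q
    have h4 : e2.symm q ∈ Pd (Fin.tail R) := by
      rw [hPd, h3]; exact ⟨hq1, hq2⟩
    have h5 := h2 h4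
    simp only [ha', h3] at h5
    exact hq3 h5
  have hdθ : ∀ c, ∀ z ∈ e2 ⁻¹' (O c), DifferentiableAt ℂ (θ c) (e2 z) := fun c z hz =>
    (hθ c).differentiableAt ((hO c).mem_nhds hz)
  have he2c : ∀ (k : WithTop ℕ∞) (z : Fin 2 → ℂ), ContDiffAt ℂ k (fun x : Fin 2 → ℂ => e2 x) z :=
    fun k z => e2.contDiff.contDiffAt
  have he2f : ∀ z : Fin 2 → ℂ, fderiv ℂ (fun x : Fin 2 → ℂ => e2 x) z =
      (e2 : (Fin 2 → ℂ) →L[ℂ] ℂ × ℂ) := fun z =>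
    (e2 : (Fin 2 → ℂ) →L[ℂ] ℂ × ℂ).hasFDerivAt.fderiv
  have he2R : ∀ z : Fin 2 → ℂ, ContDiffAt ℝ (⊤ : ℕ∞) (fun x : Fin 2 → ℂ => e2 x) z :=
    fun z => (he2c _ z).restrict_scalars ℝ
  have hlv : ∀ c, ∀ z ∈ e2 ⁻¹' (O c), ∀ w,
      lvE (Φ ∘ fun x : Fin 2 → ℂ => θ c (e2 x)) z w = lvE (Φ ∘ θ c) (e2 z) (e2 w) := by
    intro c z hz w
    have h2 := lvE_comp (T := fun x : Fin 2 → ℂ => e2 x) (u := Φ ∘ θ c) (z := z) (he2c 2 z)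
      ((hΦ c _ hz).of_le two_le_top') w
    rw [he2f] at h2
    exact h2
  have hdb : ∀ c, ∀ z ∈ e2 ⁻¹' (O c), ∀ w,
      dbE (S ∘ fun x : Fin 2 → ℂ => θ c (e2 x)) z w = dbE (S ∘ θ c) (e2 z) (e2 w) := by
    intro c z hz w
    have h2 := dbE_comp (T := fun x : Fin 2 → ℂ => e2 x) (S := S ∘ θ c) (z := z)
      ((he2c 1 z).differentiableAt (by norm_num))
      ((hS c _ hz).differentiableAt (by simp)) w
    rw [he2f] at h2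
    exact h2
  have hint : ∀ (c : ι) (F : ℂ × ℂ → ℝ), ∫⁻ z in e2 ⁻¹' (O c), ENNReal.ofReal (F (e2 z) *
      den (df f R hf) (fun x => θ c (e2 x)) z) =
      ∫⁻ p in O c, ENNReal.ofReal (F p * den2 f (θ c) p) := by
    intro c F
    rw [← lintegral_e2]
    refine setLIntegral_congr_fun ((hO c).preimage e2.continuous).measurableSet fun z hz => ?_
    rw [den_e2 (hdθ c z hz)]
  obtain ⟨G, hG, hGb⟩ := ho_charts (d := df f R hf) (a := a') hda ha0' h1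
    (O := fun c => e2 ⁻¹' (O c)) (fun c => (hO c).preimage e2.continuous)
    (θ := fun c x => θ c (e2 x))
    (fun c => (hθ c).comp e2.differentiable.differentiableOn fun z hz => hz)
    (fun c z hz' => hz c _ hz')
    (fun c z hz' => by rw [Jt_e2 (hdθ c z hz')]; exact hJ c _ hz')
    (fun x hx hx0 hxa => by
      obtain ⟨c, p, hp, hcp⟩ := hcov x hx.1 hx0 hx.2 hxa
      refine ⟨c, e2.symm p, ?_, ?_⟩
      · show e2 (e2.symm p) ∈ O c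
        rwa [e2.apply_symm_apply]
      · show θ c (e2 (e2.symm p)) = x
        rwa [e2.apply_symm_apply])
    (Φ := Φ) (S := S) (κ := fun c z => κ c (e2 z))
    (fun c z hz' => ContDiffAt.comp z (g := Φ ∘ θ c) (hΦ c _ hz') (he2R z))
    (fun c z hz' => ContDiffAt.comp z (g := S ∘ θ c) (hS c _ hz') (he2R z))
    (fun c z hz' w => by rw [hlv c z hz']; exact hL c _ hz' _)
    (fun c z => hκ0 c _) (fun c => (hκm c).comp e2.continuous.measurable)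
    (fun c z hz' w => by rw [hlv c z hz', hdb c z hz']; exact hk c _ hz' _)
    (C := C) (fun c z hz' => hC c _ hz') hKt
    (by
      refine le_trans (le_of_eq ?_) hK
      exact tsum_congr fun c => hint c (fun p => κ c p * Real.exp (-Φ (θ c p))))
    (by
      refine ne_of_eq_of_ne ?_ hSi
      exact tsum_congr fun c => hint c (fun p => ‖S (θ c p)‖ ^ 2))
  refine ⟨G, hG, fun U τ N hU hτ hτU hN => ?_⟩
  have h2 := hGb (e2 ⁻¹' U) (fun x => τ (e2 x)) N (hU.preimage e2.continuous)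
    (hτ.comp e2.differentiable.differentiableOn fun z hz => hz)
    (fun z hz' => by
      obtain ⟨b1, b2, b3, b4⟩ := hτU _ hz'
      exact ⟨⟨b1, b3⟩, b2, b4⟩)
    (fun x => by
      refine le_trans ?_ (hN x)
      rw [← (e2.injective.encard_image {p | p ∈ e2 ⁻¹' U ∧ τ (e2 p) = x})]
      apply Set.encard_le_encard
      rintro _ ⟨p, hp, rfl⟩
      exact hp)
  refine le_trans (le_of_eq ?_) h2
  rw [← lintegral_e2]
  refine setLIntegral_congr_fun (hU.preimage e2.continuous).measurableSet fun z hz' => ?_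
  rw [den_e2 (hτ.differentiableAt (hU.mem_nhds hz'))]

end Crest.Agent.R257.HoE_843
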