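import Crest.Agent.R257.HoE_843

/-!
# Row 257, task C-HO (helper843), file F: descent from `(z, s, y)` to `(z, s ^ N, y)`

`descend` : `G` holomorphic on a polydisc in `(z, s, y)` ⟹ there is `g` holomorphic on the polydisc in
`(z, x, y)` with `g (z, s^N, y) = (1/N) ∑_{ξ^N = 1} G (z, ξ s, y) / (ξ s)^(N-1)` for `s ≠ 0`.
-/

set_option autoImplicit false
set_option linter.unusedSectionVars false

noncomputable section

open Set Filter Topology MeasureTheory ComplexConjugate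
open scoped ENNReal

namespace Crest.Agent.R257.HoF_843

open Crest.Agent.R271 Crest.Agent.R271.Ho51
open Crest.Agent.R257.OtK_331 Crest.Agent.R257.Ord_757
open Crest.Agent.R257.Defs_219
open Polynomial (nthRootsFinset)

/-! ### integrals of functions of one coordinate -/

lemma lint_coord {m : ℕ} {r : Fin (m + 1) → ℝ} (i : Fin (m + 1)) {g : ℂ → ℝ≥0∞}
    (hg : Measurable g) (hfin : ∫⁻ z in Metric.ball (0 : ℂ) (r i), g z < ∞) :
    ∫⁻ x in Pd r, g (x i) < ∞ := by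
  have h1 := (volume_preserving_piFinSuccAbove (fun _ : Fin (m + 1) => ℂ) i)
  have h2 : Pd r = (MeasurableEquiv.piFinSuccAbove (fun _ : Fin (m + 1) => ℂ) i) ⁻¹'
      (Metric.ball (0 : ℂ) (r i) ×ˢ Pd (fun j => r (i.succAbove j))) := by
    ext x
    rw [mem_preimage, Set.mem_prod, mem_ball_zero_iff]
    show (∀ j, ‖x j‖ < r j) ↔ ‖x i‖ < r i ∧ ∀ j, ‖x (i.succAbove j)‖ < r (i.succAbove j)
    rw [Fin.forall_iff_succAbove i]
  rw [h2]
  have h3 := h1.setLIntegral_comp_preimage_emb (MeasurableEquiv.measurableEmbedding _)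
    (fun p : ℂ × (Fin m → ℂ) => g p.1)
    (Metric.ball (0 : ℂ) (r i) ×ˢ Pd (fun j => r (i.succAbove j)))
  refine lt_of_eq_of_lt (Eq.trans ?_ h3) ?_
  · rfl
  · rw [Measure.volume_eq_prod, ← Measure.prod_restrict,
      lintegral_prod (fun p : ℂ × (Fin m → ℂ) => g p.1)
      (hg.comp measurable_fst).aemeasurable]
    simp only [lintegral_const, Measure.restrict_apply MeasurableSet.univ, univ_inter]
    rw [lintegral_mul_const _ hg]
    exact ENNReal.mul_lt_top hfin (volume_Pd_lt _)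

/-! ### `N`-th roots -/

/-- an `N`-th root -/
def rt (N : ℕ) (x : ℂ) : ℂ :=
  if h : 0 < N then (IsAlgClosed.exists_pow_nat_eq x h).choose else 0

lemma rt_pow {N : ℕ} (hN : 0 < N) (x : ℂ) : rt N x ^ N = x := by
  unfold rt
  rw [dif_pos hN]
  exact (IsAlgClosed.exists_pow_nat_eq x hN).choose_spec

lemma norm_rt {N : ℕ} (hN : 0 < N) (x : ℂ) : ‖rt N x‖ = ‖x‖ ^ (1 / (N : ℝ)) := by
  have h1 : ‖rt N x‖ ^ N = ‖x‖ := by rw [← norm_pow, rt_pow hN]
  rw [← h1, one_div, Real.pow_rpow_inv_natCast (norm_nonneg _) hN.ne']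

/-- the average -/
def av (N : ℕ) (G : E3 → ℂ) (u : E3) : ℂ :=
  (1 / (N : ℂ)) * ∑ ξ ∈ nthRootsFinset N (1 : ℂ), G ![u 0, ξ * u 1, u 2] / (ξ * u 1) ^ (N - 1)

lemma av_inv {N : ℕ} (hN : 0 < N) (G : E3 → ℂ) (z s y ζ : ℂ) (hζ : ζ ^ N = 1) :
    av N G ![z, ζ * s, y] = av N G ![z, s, y] := by
  unfold av
  congr 1
  have hζ0 : ζ ≠ 0 := by
    rintro rfl
    rw [zero_pow hN.ne'] at hζ
    exact zero_ne_one hζ
  refine Finset.sum_bij' (fun ξ _ => ξ * ζ) (fun ξ _ => ξ * ζ⁻¹) ?_ ?_ ?_ ?_ ?_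
  · intro ξ hξ
    rw [Polynomial.mem_nthRootsFinset hN] at hξ ⊢
    rw [mul_pow, hξ, hζ, one_mul]
  · intro ξ hξ
    rw [Polynomial.mem_nthRootsFinset hN] at hξ ⊢
    rw [mul_pow, hξ, inv_pow, hζ, inv_one, one_mul]
  · intro ξ _
    field_simp
  · intro ξ _
    field_simp
  · intro ξ _
    simp [mul_assoc]

lemma norm_root {N : ℕ} (hN : 0 < N) {ξ : ℂ} (hξ : ξ ^ N = 1) : ‖ξ‖ = 1 := by
  have h1 : ‖ξ‖ ^ N = 1 := by rw [← norm_pow, hξ, norm_one]
  exact (pow_eq_one_iff_of_nonneg (norm_nonneg _) hN.ne').1 h1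

/-- two roots differ by a root of unity -/
lemma av_root {N : ℕ} (hN : 0 < N) (G : E3 → ℂ) (z y : ℂ) {s t : ℂ} (h : s ^ N = t ^ N)
    (hs : s ≠ 0) : av N G ![z, t, y] = av N G ![z, s, y] := by
  have h1 : (t / s) ^ N = 1 := by
    rw [div_pow, ← h, div_self (pow_ne_zero _ hs)]
  have h2 := av_inv hN G z s y (t / s) h1
  rwa [div_mul_cancel₀ _ hs] at h2

/-- `(z, s, y)` -/
lemma eta3 (u : E3) : ![u 0, u 1, u 2] = u := by
  funext i; fin_cases i <;> rfl

lemma vec_mem {R : Fin 3 → ℝ} {z s y : ℂ} :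
    (![z, s, y] : E3) ∈ Pd R ↔ ‖z‖ < R 0 ∧ ‖s‖ < R 1 ∧ ‖y‖ < R 2 := by
  show (∀ i : Fin 3, ‖(![z, s, y] : E3) i‖ < R i) ↔ _
  rw [Fin.forall_fin_succ, Fin.forall_fin_two]
  rfl

lemma mem_Pd3 {R : Fin 3 → ℝ} {u : E3} : u ∈ Pd R ↔ ‖u 0‖ < R 0 ∧ ‖u 1‖ < R 1 ∧ ‖u 2‖ < R 2 := by
  rw [← eta3 u, vec_mem]
  rfl

lemma diff_vec {f g h : E3 → ℂ} {u : E3} (hf : DifferentiableAt ℂ f u)
    (hg : DifferentiableAt ℂ g u) (hh : DifferentiableAt ℂ h u) :
    DifferentiableAt ℂ (fun x => (![f x, g x, h x] : E3)) u := by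
  rw [differentiableAt_pi]
  intro i
  fin_cases i
  · exact hf
  · exact hg
  · exact hh

lemma diff_co (i : Fin 3) (u : E3) : DifferentiableAt ℂ (fun x : E3 => x i) u :=
  (differentiable_apply i).differentiableAt

lemma diff_av {N : ℕ} (hN : 0 < N) {R : Fin 3 → ℝ} {G : E3 → ℂ} (hG : DifferentiableOn ℂ G (Pd R))
    {u : E3} (hu : u ∈ Pd R) (h1 : u 1 ≠ 0) : DifferentiableAt ℂ (av N G) u := by
  unfold av
  refine DifferentiableAt.const_mul ?_ _
  refine DifferentiableAt.fun_sum fun ξ hξ => ?_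
  rw [Polynomial.mem_nthRootsFinset hN] at hξ
  have hξ1 := norm_root hN hξ
  have hξ0 : ξ ≠ 0 := norm_ne_zero_iff.1 (by rw [hξ1]; exact one_ne_zero)
  rw [mem_Pd3] at hu
  have h2 : (![u 0, ξ * u 1, u 2] : E3) ∈ Pd R := by
    rw [vec_mem, norm_mul, hξ1, one_mul]
    exact hu
  have h3 : DifferentiableAt ℂ G ![u 0, ξ * u 1, u 2] :=
    hG.differentiableAt ((isOpen_Pd R).mem_nhds h2)
  have h4 : DifferentiableAt ℂ (fun u : E3 => (![u 0, ξ * u 1, u 2] : E3)) u :=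
    diff_vec (diff_co 0 u) ((diff_co 1 u).const_mul ξ) (diff_co 2 u)
  have h5 : DifferentiableAt ℂ (fun u : E3 => G ![u 0, ξ * u 1, u 2]) u :=
    DifferentiableAt.comp u (g := G) (f := fun u : E3 => (![u 0, ξ * u 1, u 2] : E3)) h3 h4
  have h6 : DifferentiableAt ℂ (fun u : E3 => (ξ * u 1) ^ (N - 1)) u :=
    ((diff_co 1 u).const_mul ξ).pow _
  have h7 := h5.mul (h6.inv (pow_ne_zero _ (mul_ne_zero hξ0 h1)))
  refine h7.congr_of_eventuallyEq (Eventually.of_forall fun x => ?_)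
  simp [div_eq_mul_inv]

/-- the radii downstairs -/
def Rd (N : ℕ) (R : Fin 3 → ℝ) : Fin 3 → ℝ := ![R 0, R 1 ^ N, R 2]

/-- the descended function off `x 1 = 0` -/
def g0 (N : ℕ) (G : E3 → ℂ) (x : E3) : ℂ := av N G ![x 0, rt N (x 1), x 2]

lemma rt_lt {N : ℕ} (hN : 0 < N) {r : ℝ} (hr : 0 ≤ r) {x : ℂ} (h : ‖x‖ < r ^ N) : ‖rt N x‖ < r := by
  have h1 : ‖rt N x‖ ^ N < r ^ N := by rw [← norm_pow, rt_pow hN]; exact h
  exact lt_of_pow_lt_pow_left₀ N hr h1

lemma diff_g0 {N : ℕ} (hN : 0 < N) {R : Fin 3 → ℝ} (hR : ∀ i, 0 < R i) {G : E3 → ℂ}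
    (hG : DifferentiableOn ℂ G (Pd R)) {x : E3} (hx : x ∈ Pd (Rd N R)) (h1 : x 1 ≠ 0) :
    DifferentiableAt ℂ (g0 N G) x := by
  rw [mem_Pd3] at hx
  obtain ⟨hx0, hx1, hx2⟩ := hx
  have hs0 : rt N (x 1) ≠ 0 := by
    intro h
    have := rt_pow hN (x 1)
    rw [h, zero_pow hN.ne'] at this
    exact h1 this.symm
  -- local root
  have hst : HasStrictDerivAt (fun s : ℂ => s ^ N) ((N : ℂ) * rt N (x 1) ^ (N - 1))
      (rt N (x 1)) := hasStrictDerivAt_pow N _
  have hne : (N : ℂ) * rt N (x 1) ^ (N - 1) ≠ 0 :=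
    mul_ne_zero (by exact_mod_cast hN.ne') (pow_ne_zero _ hs0)
  set r := hst.localInverse _ _ _ hne with hr
  have hr1 : HasStrictDerivAt r ((N : ℂ) * rt N (x 1) ^ (N - 1))⁻¹ ((rt N (x 1)) ^ N) :=
    hst.to_localInverse hne
  have hr2 : r ((rt N (x 1)) ^ N) = rt N (x 1) :=
    (hst.hasStrictFDerivAt_equiv hne).localInverse_apply_image
  have hr3 : ∀ᶠ y in 𝓝 ((rt N (x 1)) ^ N), r y ^ N = y :=
    (hst.hasStrictFDerivAt_equiv hne).eventually_right_inverse
  rw [rt_pow hN] at hr1 hr2 hr3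
  have hmem : (![x 0, r (x 1), x 2] : E3) ∈ Pd R := by
    rw [vec_mem, hr2]
    exact ⟨hx0, rt_lt hN (hR 1).le hx1, hx2⟩
  have hd : DifferentiableAt ℂ (fun y : E3 => av N G ![y 0, r (y 1), y 2]) x := by
    have h2 : DifferentiableAt ℂ (fun y : E3 => (![y 0, r (y 1), y 2] : E3)) x :=
      diff_vec (diff_co 0 x)
        (DifferentiableAt.comp x (g := r) (f := fun y : E3 => y 1)
          hr1.hasDerivAt.differentiableAt (diff_co 1 x)) (diff_co 2 x)
    refine DifferentiableAt.comp x (g := av N G) (f := fun y : E3 => (![y 0, r (y 1), y 2] : E3))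
      (diff_av hN hG hmem ?_) h2
    show r (x 1) ≠ 0
    rw [hr2]; exact hs0
  refine hd.congr_of_eventuallyEq ?_
  have hc : ContinuousAt (fun y : E3 => y 1) x := (continuous_apply 1).continuousAt
  filter_upwards [hc.eventually hr3, hc.eventually_ne h1] with y hy1 hy2
  refine av_root hN G (y 0) (y 2) ?_ ?_
  · rw [hy1, rt_pow hN]
  · intro h
    rw [h, zero_pow hN.ne'] at hy1
    exact hy2 hy1.symm

/-- **descent** -/
theorem descend {N : ℕ} (hN : 0 < N) {R : Fin 3 → ℝ} (hR : ∀ i, 0 < R i) {G : E3 → ℂ}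
    (hG : DifferentiableOn ℂ G (Pd R)) :
    ∃ g : E3 → ℂ, DifferentiableOn ℂ g (Pd (Rd N R)) ∧
      ∀ u ∈ Pd R, u 1 ≠ 0 → g ![u 0, u 1 ^ N, u 2] = av N G u := by
  obtain ⟨g, hg, hge⟩ := RExt747.riemann_ext (f := g0 N G) (D := fun x : E3 => x 1)
    (U := Pd (Rd N R)) (isOpen_Pd _)
    (fun x _ => (ContinuousLinearMap.proj (R := ℂ) (φ := fun _ : Fin 3 => ℂ) 1).analyticAt x)
    (by
      intro a _ hev
      have h1 : Tendsto (fun t : ℂ => a + t • (Pi.single 1 1 : E3)) (𝓝 0) (𝓝 a) := by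
        have : Continuous fun t : ℂ => a + t • (Pi.single 1 1 : E3) := by fun_prop
        simpa using this.tendsto 0
      have h2 : ∀ᶠ t : ℂ in 𝓝 0, a 1 + t = 0 := by
        filter_upwards [h1.eventually hev] with t ht
        simpa using ht
      have h3 : ∀ᶠ t : ℂ in 𝓝[≠] 0, a 1 + t = 0 := h2.filter_mono nhdsWithin_le_nhds
      have h4 : a 1 = 0 := by simpa using h2.self_of_nhds
      obtain ⟨t, ht1, ht2⟩ := (h3.and self_mem_nhdsWithin).exists
      rw [h4, zero_add] at ht1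
      exact ht2 ht1)
    (fun x hx => (diff_g0 hN hR hG hx.1 hx.2).differentiableWithinAt)
    (by
      intro a ha
      rw [mem_Pd3] at ha
      obtain ⟨ha0, ha1, ha2⟩ := ha
      have ha1' : ‖a 1‖ < R 1 ^ N := ha1
      obtain ⟨r0, hr0, hr0'⟩ := exists_between ha0
      obtain ⟨r1, hr1, hr1'⟩ := exists_between ha1'
      obtain ⟨r2, hr2, hr2'⟩ := exists_between ha2
      have hr1p : 0 < r1 := (norm_nonneg _).trans_lt hr1
      set Kc : Set E3 := {u | ∀ i, ‖u i‖ ≤ (![r0, r1 ^ (1 / (N : ℝ)), r2] : Fin 3 → ℝ) i} with hKc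
      have hKcc : IsCompact Kc := by
        have : Kc = Set.pi univ fun i => Metric.closedBall (0 : ℂ)
            ((![r0, r1 ^ (1 / (N : ℝ)), r2] : Fin 3 → ℝ) i) := by
          ext u; simp [hKc, Set.mem_pi]
        rw [this]
        exact isCompact_univ_pi fun i => isCompact_closedBall _ _
      have hr1R : r1 ^ (1 / (N : ℝ)) < R 1 := by
        have h2 : r1 ^ (1 / (N : ℝ)) < (R 1 ^ N) ^ (1 / (N : ℝ)) :=
          Real.rpow_lt_rpow hr1p.le hr1' (by positivity)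
        rw [one_div] at h2 ⊢
        rwa [Real.pow_rpow_inv_natCast (hR 1).le hN.ne'] at h2
      have hKcP : Kc ⊆ Pd R := by
        intro u hu
        rw [mem_Pd3]
        exact ⟨(hu 0).trans_lt hr0', (hu 1).trans_lt hr1R, (hu 2).trans_lt hr2'⟩
      obtain ⟨B, hB⟩ := (hKcc.image_of_continuousOn
        (hG.continuousOn.mono hKcP).norm).bddAbove
      have hB' : ∀ u ∈ Kc, ‖G u‖ ≤ |B| := fun u hu =>
        (hB ⟨u, hu, rfl⟩).trans (le_abs_self _)
      refine ⟨Pd ![r0, r1, r2], (isOpen_Pd _).mem_nhds ?_, ?_⟩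
      · rw [mem_Pd3]
        exact ⟨hr0, hr1, hr2⟩
      · have hpt : ∀ x ∈ Pd ![r0, r1, r2] ∩ {z : E3 | z 1 ≠ 0},
            ‖g0 N G x‖ₑ ^ 2 ≤ ENNReal.ofReal (|B| ^ 2) *
              ENNReal.ofReal (‖x 1‖ ^ (2 * (1 / (N : ℝ)) - 2)) := by
          rintro x ⟨hx, hx1⟩
          have hx1' : x 1 ≠ 0 := hx1
          rw [mem_Pd3] at hx
          obtain ⟨c0, c1, c2⟩ := hx
          have c1' : ‖x 1‖ < r1 := c1
          have hpos : 0 < ‖x 1‖ := norm_pos_iff.2 hx1'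
          have hrtn : ‖rt N (x 1)‖ ≤ r1 ^ (1 / (N : ℝ)) := by
            rw [norm_rt hN]
            exact Real.rpow_le_rpow (norm_nonneg _) c1'.le (by positivity)
          have hrt0 : 0 < ‖rt N (x 1)‖ := by
            rw [norm_rt hN]; positivity
          have hcard : ((nthRootsFinset N (1 : ℂ)).card : ℝ) ≤ N := by
            rw [(Complex.isPrimitiveRoot_exp N hN.ne').card_nthRootsFinset]
          have h2 : ‖g0 N G x‖ ≤ |B| / ‖rt N (x 1)‖ ^ (N - 1) := by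
            unfold g0 av
            rw [norm_mul, norm_div, norm_one, Complex.norm_natCast]
            have h3 : ‖∑ ξ ∈ nthRootsFinset N (1 : ℂ), G ![(![x 0, rt N (x 1), x 2] : E3) 0,
                ξ * (![x 0, rt N (x 1), x 2] : E3) 1, (![x 0, rt N (x 1), x 2] : E3) 2] /
                (ξ * (![x 0, rt N (x 1), x 2] : E3) 1) ^ (N - 1)‖ ≤
                ∑ ξ ∈ nthRootsFinset N (1 : ℂ), |B| / ‖rt N (x 1)‖ ^ (N - 1) := by
              refine (norm_sum_le _ _).trans (Finset.sum_le_sum fun ξ hξ => ?_)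
              rw [Polynomial.mem_nthRootsFinset hN] at hξ
              have hξ1 := norm_root hN hξ
              rw [norm_div, norm_pow, norm_mul, hξ1, one_mul]
              show ‖G ![x 0, ξ * rt N (x 1), x 2]‖ / ‖rt N (x 1)‖ ^ (N - 1) ≤ _
              gcongr
              apply hB'
              intro i
              fin_cases i
              · exact c0.le
              · show ‖ξ * rt N (x 1)‖ ≤ _
                rw [norm_mul, hξ1, one_mul]
                exact hrtn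
              · exact c2.le
            rw [Finset.sum_const, nsmul_eq_mul] at h3
            have hNp : (0 : ℝ) < N := by exact_mod_cast hN
            calc 1 / (N : ℝ) * ‖_‖ ≤ 1 / (N : ℝ) *
                  (((nthRootsFinset N (1 : ℂ)).card : ℝ) * (|B| / ‖rt N (x 1)‖ ^ (N - 1))) := by
                    gcongr
              _ ≤ 1 / (N : ℝ) * ((N : ℝ) * (|B| / ‖rt N (x 1)‖ ^ (N - 1))) := by gcongr
              _ = _ := by field_simp
          have h4 : (‖rt N (x 1)‖ ^ (N - 1)) ^ 2 = ‖x 1‖ ^ (2 - 2 * (1 / (N : ℝ))) := by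
            rw [norm_rt hN, ← pow_mul, ← Real.rpow_natCast, ← Real.rpow_mul (norm_nonneg _)]
            congr 1
            have hNp : (0 : ℝ) < N := by exact_mod_cast hN
            rw [Nat.cast_mul, Nat.cast_sub hN]
            push_cast
            field_simp
          have h5 : ‖g0 N G x‖ ^ 2 ≤ |B| ^ 2 * ‖x 1‖ ^ (2 * (1 / (N : ℝ)) - 2) := by
            calc ‖g0 N G x‖ ^ 2 ≤ (|B| / ‖rt N (x 1)‖ ^ (N - 1)) ^ 2 := by gcongr
              _ = |B| ^ 2 * (‖x 1‖ ^ (2 - 2 * (1 / (N : ℝ))))⁻¹ := by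
                  rw [div_pow, h4, div_eq_mul_inv]
              _ = _ := by
                  rw [← Real.rpow_neg (norm_nonneg _)]
                  congr 2
                  ring
          have h6 : ‖g0 N G x‖ₑ ^ 2 = ENNReal.ofReal (‖g0 N G x‖ ^ 2) := by
            rw [ENNReal.ofReal_pow (norm_nonneg _), ofReal_norm]
          rw [h6, ← ENNReal.ofReal_mul (by positivity)]
          exact ENNReal.ofReal_le_ofReal h5
        have hms : MeasurableSet (Pd ![r0, r1, r2] ∩ {z : E3 | z 1 ≠ 0}) :=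
          ((isOpen_Pd _).inter (isOpen_ne.preimage (continuous_apply 1))).measurableSet
        refine lt_of_le_of_lt (setLIntegral_mono' hms hpt) ?_
        rw [lintegral_const_mul' _ _ ENNReal.ofReal_ne_top]
        refine ENNReal.mul_lt_top ENNReal.ofReal_lt_top ?_
        refine lt_of_le_of_lt (lintegral_mono_set inter_subset_left) ?_
        refine lint_coord (r := ![r0, r1, r2]) 1
          (g := fun z => ENNReal.ofReal (‖z‖ ^ (2 * (1 / (N : ℝ)) - 2))) ?_ ?_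
        · fun_prop
        · exact int1 (by positivity) r1)
  refine ⟨g, hg, fun u hu h1 => ?_⟩
  have hu' := mem_Pd3.1 hu
  have h2 : (![u 0, u 1 ^ N, u 2] : E3) ∈ Pd (Rd N R) := by
    rw [vec_mem]
    refine ⟨hu'.1, ?_, hu'.2.2⟩
    show ‖u 1 ^ N‖ < R 1 ^ N
    rw [norm_pow]
    exact pow_lt_pow_left₀ hu'.2.1 (norm_nonneg _) hN.ne'
  rw [hge _ h2 (pow_ne_zero _ h1)]
  show av N G ![u 0, rt N (u 1 ^ N), u 2] = av N G u
  rw [av_root hN G (u 0) (u 2) (s := u 1) (rt_pow hN _).symm h1, eta3]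

end Crest.Agent.R257.HoF_843
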