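import Crest.Agent.R257.HoF_843

/-!
# Row 257, task C-HO (helper843), file G: the Hörmander step upstairs, on
`W = {(z, s, y') | f (z, A (s^N, y')) = 0}`, and the function downstairs

`hoW` : `S`, `Φ` functions on `W` (no invariance), all hypotheses in parametrisations of `W`, all
integrals for `|η|²` of `{f = 0}`; output: `g` holomorphic near `0 ∈ ℂ³` and `v` with
`g (z, A (s^N, y')) = (1/N) ∑_{ξ^N = 1} (S + v) (z, ξ s, y')` and `∫ |v|² e^{-Φ} |η|² ≤ 2 K`.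
-/

set_option autoImplicit false
set_option linter.unusedSectionVars false

noncomputable section

open Set Filter Topology MeasureTheory ComplexConjugate
open scoped ENNReal

namespace Crest.Agent.R257.HoG_843

open Crest.AlgGeometry.Germ
open Crest.Agent.R271 Crest.Agent.R271.Ho51
open Crest.Agent.R257.OtK_331 Crest.Agent.R257.HoB_843 Crest.Agent.R257.HoE_843
open Crest.Agent.R257.HoF_843
open Crest.Agent.R257.Defs_219 Crest.Agent.R257.Fr_808
open Polynomial (nthRootsFinset)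

/-- `(z, s, y') ↦ (z, A (s^N, y'))` -/
def piW (A : (ℂ × ℂ) ≃L[ℂ] (ℂ × ℂ)) (N : ℕ) (u : E3) : E3 :=
  ![u 0, (A (u 1 ^ N, u 2)).1, (A (u 1 ^ N, u 2)).2]

/-- `f` upstairs -/
def hW (f : E3 → ℂ) (A : (ℂ × ℂ) ≃L[ℂ] (ℂ × ℂ)) (N : ℕ) (u : E3) : ℂ := f (piW A N u)

/-- the determinant of `A` -/
def dt (A : (ℂ × ℂ) ≃L[ℂ] (ℂ × ℂ)) : ℂ :=
  (A (1, 0)).1 * (A (0, 1)).2 - (A (1, 0)).2 * (A (0, 1)).1

variable {f : E3 → ℂ} {A : (ℂ × ℂ) ≃L[ℂ] (ℂ × ℂ)} {N : ℕ}

lemma A_eq (A : (ℂ × ℂ) ≃L[ℂ] (ℂ × ℂ)) (x y : ℂ) :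
    A (x, y) = (x * (A (1, 0)).1 + y * (A (0, 1)).1, x * (A (1, 0)).2 + y * (A (0, 1)).2) := by
  have h1 : ((x, y) : ℂ × ℂ) = x • ((1, 0) : ℂ × ℂ) + y • ((0, 1) : ℂ × ℂ) := by
    simp
  conv_lhs => rw [h1, map_add, map_smul, map_smul]
  ext <;> simp

lemma dt_ne (A : (ℂ × ℂ) ≃L[ℂ] (ℂ × ℂ)) : dt A ≠ 0 := by
  intro h
  unfold dt at h
  have h1 : A ((A (0, 1)).2, -(A (1, 0)).2) = 0 := by
    rw [A_eq]
    refine Prod.ext ?_ ?_
    · simp only [Prod.fst_zero]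
      linear_combination h
    · simp only [Prod.snd_zero]
      ring
  have h2 : A ((A (0, 1)).1, -(A (1, 0)).1) = 0 := by
    rw [A_eq]
    refine Prod.ext ?_ ?_
    · simp only [Prod.fst_zero]
      ring
    · simp only [Prod.snd_zero]
      linear_combination -h
  have h3 := (map_eq_zero_iff A A.injective).1 h1
  have h4 := (map_eq_zero_iff A A.injective).1 h2
  have e4 := congrArg (fun q : ℂ × ℂ => q.1) h4
  have e3 := congrArg (fun q : ℂ × ℂ => q.1) h3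
  have h5 : A (0, 1) = 0 := Prod.ext e4 e3
  have h6 := (map_eq_zero_iff A A.injective).1 h5
  exact one_ne_zero (congrArg Prod.snd h6)

/-- components of `piW` -/
lemma piW_eq (u : E3) : piW A N u = ![u 0, u 1 ^ N * (A (1, 0)).1 + u 2 * (A (0, 1)).1,
    u 1 ^ N * (A (1, 0)).2 + u 2 * (A (0, 1)).2] := by
  unfold piW
  rw [A_eq]

lemma piW0 (u : E3) : piW A N u 0 = u 0 := rfl

/-- derivative of `piW ∘ θ` -/
lemma fd_piW {E : Type*} [NormedAddCommGroup E] [NormedSpace ℂ E] {θ : E → E3} {p : E}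
    (hθ : DifferentiableAt ℂ θ p) :
    DifferentiableAt ℂ (fun p => piW A N (θ p)) p ∧ ∀ w,
      fderiv ℂ (fun p => piW A N (θ p)) p w 0 = fderiv ℂ θ p w 0 ∧
      fderiv ℂ (fun p => piW A N (θ p)) p w 1 =
        (N * θ p 1 ^ (N - 1) * fderiv ℂ θ p w 1) * (A (1, 0)).1 +
          fderiv ℂ θ p w 2 * (A (0, 1)).1 ∧
      fderiv ℂ (fun p => piW A N (θ p)) p w 2 =
        (N * θ p 1 ^ (N - 1) * fderiv ℂ θ p w 1) * (A (1, 0)).2 +
          fderiv ℂ θ p w 2 * (A (0, 1)).2 := by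
  have hc : ∀ i : Fin 3, HasFDerivAt (fun p => θ p i)
      ((ContinuousLinearMap.proj (R := ℂ) (φ := fun _ : Fin 3 => ℂ) i).comp (fderiv ℂ θ p)) p :=
    fun i => (hasFDerivAt_pi'.1 hθ.hasFDerivAt) i
  have hp1 : HasFDerivAt (fun p => θ p 1 ^ N) ((N * θ p 1 ^ (N - 1)) •
      ((ContinuousLinearMap.proj (R := ℂ) (φ := fun _ : Fin 3 => ℂ) 1).comp (fderiv ℂ θ p))) p :=
    (hasDerivAt_pow N (θ p 1)).comp_hasFDerivAt p (hc 1)
  have hk : ∀ b c : ℂ, HasFDerivAt (fun p => θ p 1 ^ N * b + θ p 2 * c)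
      (b • ((N * θ p 1 ^ (N - 1)) •
        ((ContinuousLinearMap.proj (R := ℂ) (φ := fun _ : Fin 3 => ℂ) 1).comp (fderiv ℂ θ p))) +
        c • ((ContinuousLinearMap.proj (R := ℂ) (φ := fun _ : Fin 3 => ℂ) 2).comp
          (fderiv ℂ θ p))) p := fun b c => (hp1.mul_const b).add ((hc 2).mul_const c)
  set L : Fin 3 → (E →L[ℂ] ℂ) := ![(ContinuousLinearMap.proj (R := ℂ)
      (φ := fun _ : Fin 3 => ℂ) 0).comp (fderiv ℂ θ p),
    (A (1, 0)).1 • ((N * θ p 1 ^ (N - 1)) •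
        ((ContinuousLinearMap.proj (R := ℂ) (φ := fun _ : Fin 3 => ℂ) 1).comp (fderiv ℂ θ p))) +
        (A (0, 1)).1 • ((ContinuousLinearMap.proj (R := ℂ) (φ := fun _ : Fin 3 => ℂ) 2).comp
          (fderiv ℂ θ p)),
    (A (1, 0)).2 • ((N * θ p 1 ^ (N - 1)) •
        ((ContinuousLinearMap.proj (R := ℂ) (φ := fun _ : Fin 3 => ℂ) 1).comp (fderiv ℂ θ p))) +
        (A (0, 1)).2 • ((ContinuousLinearMap.proj (R := ℂ) (φ := fun _ : Fin 3 => ℂ) 2).comp
          (fderiv ℂ θ p))] with hL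
  have h1 : HasFDerivAt (fun p => piW A N (θ p)) (ContinuousLinearMap.pi L) p := by
    rw [hasFDerivAt_pi]
    intro i
    fin_cases i
    · exact hc 0
    · exact (hk (A (1, 0)).1 (A (0, 1)).1).congr_of_eventuallyEq
        (Eventually.of_forall fun q => by
          show piW A N (θ q) 1 = _
          rw [piW_eq]; rfl)
    · exact (hk (A (1, 0)).2 (A (0, 1)).2).congr_of_eventuallyEq
        (Eventually.of_forall fun q => by
          show piW A N (θ q) 2 = _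
          rw [piW_eq]; rfl)
  refine ⟨h1.differentiableAt, fun w => ?_⟩
  rw [h1.fderiv]
  refine ⟨rfl, ?_, ?_⟩
  · show L 1 w = _
    simp only [hL, Matrix.cons_val_one, Matrix.cons_val_zero, _root_.add_apply,
      _root_.smul_apply, ContinuousLinearMap.comp_apply, ContinuousLinearMap.proj_apply,
      smul_eq_mul]
    ring
  · show L 2 w = _
    simp only [hL, Matrix.cons_val, _root_.add_apply,
      _root_.smul_apply, ContinuousLinearMap.comp_apply, ContinuousLinearMap.proj_apply,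
      smul_eq_mul]
    ring

lemma jac2_piW {θ : ℂ × ℂ → E3} {p : ℂ × ℂ} (hθ : DifferentiableAt ℂ θ p) :
    jac2 (fun p => piW A N (θ p)) p = dt A * (N * θ p 1 ^ (N - 1)) * jac2 θ p := by
  obtain ⟨-, h⟩ := fd_piW (A := A) (N := N) hθ
  unfold jac2 dt
  rw [(h (1, 0)).2.1, (h (1, 0)).2.2, (h (0, 1)).2.1, (h (0, 1)).2.2]
  ring

lemma diff_piW (u : E3) : DifferentiableAt ℂ (piW A N) u :=
  (fd_piW (A := A) (N := N) (θ := fun u : E3 => u) differentiableAt_id).1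

lemma cd_hW {u : E3} (hf : DifferentiableAt ℂ f (piW A N u)) :
    coordDeriv (hW f A N) 0 u = coordDeriv f 0 (piW A N u) := by
  have h1 : HasFDerivAt (hW f A N) ((fderiv ℂ f (piW A N u)).comp (fderiv ℂ (piW A N) u)) u :=
    HasFDerivAt.comp u (g := f) (f := piW A N) hf.hasFDerivAt (diff_piW u).hasFDerivAt
  unfold coordDeriv
  rw [h1.fderiv, ContinuousLinearMap.comp_apply]
  congr 1
  obtain ⟨-, h⟩ := fd_piW (A := A) (N := N) (θ := fun u : E3 => u) (p := u) differentiableAt_id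
  obtain ⟨e0, e1, e2⟩ := h (Pi.single 0 1)
  have hid : fderiv ℂ (fun u : E3 => u) u = ContinuousLinearMap.id ℂ E3 := fderiv_id
  rw [hid] at e0 e1 e2
  funext i
  fin_cases i
  · exact e0
  · refine e1.trans ?_
    simp
  · refine e2.trans ?_
    simp

/-- the constant -/
def cA (A : (ℂ × ℂ) ≃L[ℂ] (ℂ × ℂ)) (N : ℕ) : ℝ := (‖dt A‖ * N) ^ 2

lemma cA_pos (hN : 0 < N) : 0 < cA A N := by
  unfold cA
  have := norm_pos_iff.2 (dt_ne A)
  have h2 : (0 : ℝ) < N := by exact_mod_cast hN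
  positivity

lemma den_piW {θ : ℂ × ℂ → E3} {p : ℂ × ℂ} (hθ : DifferentiableAt ℂ θ p)
    (hf : DifferentiableAt ℂ f (piW A N (θ p))) :
    den2 f (fun p => piW A N (θ p)) p =
      cA A N * ((‖θ p 1‖ ^ (N - 1)) ^ 2 * den2 (hW f A N) θ p) := by
  unfold den2 cA
  rw [jac2_piW hθ, cd_hW hf, norm_mul, norm_mul, norm_mul, norm_pow, Complex.norm_natCast]
  ring

end Crest.Agent.R257.HoG_843
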