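import Crest.Agent.R257.KB1_82
import Crest.Agent.R257.CDataC_250

/-!
# Row 257 (S0395), part C, task (K1) KILL-BP (helper82), file 2: the Hörmander step with kill data

* `WTF`       : the weights with kills (direction `(a, b)`), the consumed form;
* `kill_core` : weights + data + Hörmander step.
-/

set_option autoImplicit false
set_option linter.unusedSectionVars false

noncomputable section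

open Set Filter Topology MeasureTheory
open scoped ENNReal

namespace Crest.Agent.R257.KB_82

open Crest.AlgGeometry.Germ
open Crest.Agent.R257.T387 Crest.Agent.R257.BP_258 Crest.Agent.R257.OrdK_82
open Crest.Agent.R257.HoT_843 Crest.Agent.R257.AJ387
open Crest.Agent.R257.HoB_843 Crest.Agent.R257.CDataB_250 Crest.Agent.R257.CDataC_250
open Polynomial (nthRootsFinset)

variable {f : (Fin 3 → ℂ) → ℂ} {T : TB f} {U : Tub T} {S : Sh T}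

/-- the weight with kills -/
structure WTF (L : Lab U S) (y : II U → ℝ) (F : Finset (Ch T.m)) (κ : Set (Ch T.m × Fin T.d))
    (t : Ch T.m × Fin T.d → ℝ) (a b : Ch T.m × Fin T.d → ℕ) (τ₀ τ₁ : ℝ)
    (Φ : (Fin 3 → ℂ) → ℝ) (ρ₀ C c₀ : ℝ) : Prop where
  ρ_pos : 0 < ρ₀
  c_pos : 0 < c₀
  sm : ∀ c ∈ F, ∀ j, ∀ p ∈ Og (S := S) c ρ₀, ContDiffAt ℝ (⊤ : ℕ∞) (Φ ∘ wc S c j) p
  psh : ∀ c ∈ F, ∀ j, ∀ p ∈ Og (S := S) c ρ₀, ∀ w, 0 ≤ lvE (Φ ∘ wc S c j) p w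
  le : ∀ c ∈ F, ∀ j, ∀ p ∈ Og (S := S) c ρ₀, Φ (wc S c j p) ≤ C
  up : ∀ c ∈ F, ∀ j, ∀ p ∈ Og (S := S) c ρ₀, Φ (wc S c j p) ≤
    yo y (L.e1 c j) * Real.log (‖p.1‖ ^ 2) + yo y (L.e2 c j) * Real.log (‖p.2‖ ^ 2) + C
  kl : ∀ c ∈ F, ∀ j, (c, j) ∈ κ → ∀ p ∈ Og (S := S) c ρ₀, p ∈ BD τ₁ τ₁ →
    |Φ (wc S c j p) - yo y (L.e1 c j) * Real.log (‖p.1‖ ^ 2) -
      yo y (L.e2 c j) * Real.log (‖p.2‖ ^ 2) -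
      t (c, j) * Real.log (‖p.1‖ ^ (2 * b (c, j)) + ‖p.2‖ ^ (2 * a (c, j)))| ≤ C
  st1 : ∀ c ∈ F, ∀ j, (c, j) ∈ κ → ∀ p ∈ Og (S := S) c ρ₀, p ∈ BD τ₁ τ₁ → L.e1 c j ≠ none →
    τ₀ ≤ ‖p.2‖ → ∀ w, c₀ * (‖w.1‖ ^ 2 + ‖w.2‖ ^ 2) ≤ lvE (Φ ∘ wc S c j) p w
  st2 : ∀ c ∈ F, ∀ j, (c, j) ∈ κ → ∀ p ∈ Og (S := S) c ρ₀, p ∈ BD τ₁ τ₁ → L.e2 c j ≠ none →
    τ₀ ≤ ‖p.1‖ → ∀ w, c₀ * (‖w.1‖ ^ 2 + ‖w.2‖ ^ 2) ≤ lvE (Φ ∘ wc S c j) p w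

/-- the kink is bounded below away from the origin -/
theorem kink_low {t τ₀ : ℝ} (ht : 0 ≤ t) (h0 : 0 < τ₀) (h1 : τ₀ ≤ 1) (a b : ℕ) {x y : ℝ}
    (hx : 0 ≤ x) (hy : 0 ≤ y) (h : τ₀ ≤ x ∨ τ₀ ≤ y) :
    t * Real.log (τ₀ ^ (2 * b + 2 * a)) ≤ t * Real.log (x ^ (2 * b) + y ^ (2 * a)) := by
  refine mul_le_mul_of_nonneg_left (Real.log_le_log (by positivity) ?_) ht
  rcases h with h | h
  · calc τ₀ ^ (2 * b + 2 * a) ≤ τ₀ ^ (2 * b) :=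
        pow_le_pow_of_le_one h0.le h1 (Nat.le_add_right _ _)
      _ ≤ x ^ (2 * b) := pow_le_pow_left₀ h0.le h _
      _ ≤ x ^ (2 * b) + y ^ (2 * a) := le_add_of_nonneg_right (by positivity)
  · calc τ₀ ^ (2 * b + 2 * a) ≤ τ₀ ^ (2 * a) :=
        pow_le_pow_of_le_one h0.le h1 (Nat.le_add_left _ _)
      _ ≤ y ^ (2 * a) := pow_le_pow_left₀ h0.le h _
      _ ≤ x ^ (2 * b) + y ^ (2 * a) := le_add_of_nonneg_left (by positivity)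

theorem WTF.wtk {L : Lab U S} {y : II U → ℝ} {F : Finset (Ch T.m)} {κ : Set (Ch T.m × Fin T.d)}
    {t : Ch T.m × Fin T.d → ℝ} {a b : Ch T.m × Fin T.d → ℕ} {τ₀ τ₁ : ℝ}
    {Φ : (Fin 3 → ℂ) → ℝ} {ρ₀ C c₀ : ℝ} (h : WTF L y F κ t a b τ₀ τ₁ Φ ρ₀ C c₀)
    (ht : ∀ q ∈ κ, 0 ≤ t q) (h0 : 0 < τ₀) (h1 : τ₀ ≤ 1) :
    ∃ C', WTk L y F κ τ₀ τ₁ Φ ρ₀ C' c₀ := by
  classical
  set B : Finset (Ch T.m × Fin T.d) := F ×ˢ Finset.univ with hB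
  obtain ⟨M, hM⟩ := (B.image fun q => -(t q * Real.log (τ₀ ^ (2 * b q + 2 * a q)))).bddAbove
  refine ⟨C + M, h.ρ_pos, h.c_pos, h.psh, fun c hc j hk p hp hp' hor => ?_, h.st1, h.st2⟩
  have e1 := (abs_le.1 (h.kl c hc j hk p hp hp')).1
  have e2 := kink_low (ht _ hk) h0 h1 (a (c, j)) (b (c, j)) (norm_nonneg p.1) (norm_nonneg p.2) hor
  have e3 : -(t (c, j) * Real.log (τ₀ ^ (2 * b (c, j) + 2 * a (c, j)))) ≤ M :=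
    hM (Finset.mem_coe.2 (Finset.mem_image.2 ⟨(c, j), Finset.mem_product.2
      ⟨hc, Finset.mem_univ _⟩, rfl⟩))
  linarith

/-- **weights + data + Hörmander step** -/
theorem kill_core (hC : Clo T) (L : Lab U S) {nu : II U → ℤ}
    {n1 n2 : Ch T.m → Fin T.d → ℤ} (J : Jac L nu n1 n2) {y : II U → ℝ}
    {F : Finset (Ch T.m)} (hF : ∀ c ∈ F, Ok S c)
    (hcov : ∃ ε > 0, ∀ s y : ℂ, ‖s‖ < ε → ‖y‖ < ε → (s, y) ≠ 0 → ∃ c ∈ F, ∃ p : ℂ × ℂ,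
      ‖p.1‖ < S.r c ∧ ‖p.2‖ < S.r c ∧ T.map c p = (s, y))
    {κs : Set (Ch T.m × Fin T.d)} (hκF : ∀ q ∈ κs, q.1 ∈ F)
    (hex₀ : ∃ r > 0, ∀ q ∈ κs, ∀ q' ∈ κs, ∀ p p', p ∈ BD r r → p' ∈ BD r r → T.Gen q.1 p →
      T.Gen q'.1 p' → wc S q.1 q.2 p = wc S q'.1 q'.2 p' → q'.1 = q.1)
    {m₁ m₂ : ℕ} (hd : ∀ q ∈ κs, Dv T q.1 m₁ m₂)
    (hn1 : ∀ q ∈ κs, n1 q.1 q.2 < m₁) (hn2 : ∀ q ∈ κs, n2 q.1 q.2 < m₂)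
    (hy1 : ∀ q ∈ κs, L.e1 q.1 q.2 ≠ none → yo y (L.e1 q.1 q.2) + n1 q.1 q.2 < m₁)
    (hy2 : ∀ q ∈ κs, L.e2 q.1 q.2 ≠ none → yo y (L.e2 q.1 q.2) + n2 q.1 q.2 < m₂)
    {t : Ch T.m × Fin T.d → ℝ} (ht : ∀ q ∈ κs, 0 ≤ t q) {a b : Ch T.m × Fin T.d → ℕ}
    {r₀ : ℝ} (hr₀ : 0 < r₀) {τ₁ : ℝ} (hτ₁ : 0 < τ₁)
    (hW : ∀ τ₀ > 0, τ₀ < τ₁ → ∃ Φ ρ₀ C c₀, WTF L y F κs t a b τ₀ τ₁ Φ ρ₀ C c₀) :
    ∃ (g V D : (Fin 3 → ℂ) → ℂ) (Φ : (Fin 3 → ℂ) → ℝ) (ρ₀ ρ₁ C τ : ℝ), 0 < τ ∧ 0 < ρ₀ ∧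
      HT S g V D Φ ρ₁ ∧
      (∀ c ∈ F, ∀ j, ∀ p ∈ Og (S := S) c ρ₀, Φ (wc S c j p) ≤
        yo y (L.e1 c j) * Real.log (‖p.1‖ ^ 2) + yo y (L.e2 c j) * Real.log (‖p.2‖ ^ 2) + C) ∧
      (∀ c ∈ F, ∀ j, (c, j) ∈ κs → ∀ p ∈ Og (S := S) c ρ₀, p ∈ BD τ τ →
        Φ (wc S c j p) ≤ yo y (L.e1 c j) * Real.log (‖p.1‖ ^ 2) +
          yo y (L.e2 c j) * Real.log (‖p.2‖ ^ 2) +
          t (c, j) * Real.log (‖p.1‖ ^ (2 * b (c, j)) + ‖p.2‖ ^ (2 * a (c, j))) + C) ∧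
      (∀ q ∈ κs, ∀ p ∈ BD τ τ, T.Gen q.1 p → D (wc S q.1 q.2 p) = p.1 ^ m₁ * p.2 ^ m₂) ∧
      (∀ x, D x ≠ 0 → ∃ q ∈ κs, ∃ p ∈ BD r₀ r₀, T.Gen q.1 p ∧ x = wc S q.1 q.2 p) := by
  -- `τ₁' ≤ 1`
  set τ₂ : ℝ := min τ₁ 1 with hτ₂
  have hτ₂0 : 0 < τ₂ := lt_min hτ₁ one_pos
  obtain ⟨τ, hτ0, hτ1, hdat⟩ := kill_data L J hF κs hκF hex₀ (fun _ => m₁) (fun _ => m₂) hd hn1 hn2
    hy1 hy2 hr₀ hτ₂0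
  have hττ₁ : τ < τ₁ := hτ1.trans_le (min_le_left _ _)
  have hτ1' : τ ≤ 1 := hτ1.le.trans (min_le_right _ _)
  obtain ⟨Φ, ρ₀, C, c₀, hw⟩ := hW τ hτ0 hττ₁
  obtain ⟨C', hk⟩ := hw.wtk ht hτ0 hτ1'
  have hk2 : WTk L y F κs τ τ₂ Φ ρ₀ C' c₀ := by
    have hsub : ∀ p : ℂ × ℂ, p ∈ BD τ₂ τ₂ → p ∈ BD τ₁ τ₁ := fun p hp =>
      ⟨hp.1.trans_le (min_le_left _ _), hp.2.trans_le (min_le_left _ _)⟩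
    exact ⟨hk.ρ_pos, hk.c_pos, hk.psh, fun c hc j hj p hp hp' => hk.lo c hc j hj p hp (hsub p hp'),
      fun c hc j hj p hp hp' => hk.st1 c hc j hj p hp (hsub p hp'),
      fun c hc j hj p hp hp' => hk.st2 c hc j hj p hp (hsub p hp')⟩
  obtain ⟨ρ, hρ0, hρ, D, O, κ, hA, hD1, hD2⟩ := hdat Φ ρ₀ C' c₀ hk2
  have hO : ∀ c ∈ F, ∀ j, O c j ⊆ Og (S := S) c ρ := fun c hc j p hp => (hA.sub c hc j p hp).1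
  have hOg : ∀ c : Ch T.m, Og (S := S) c ρ ⊆ Og (S := S) c ρ₀ := fun c p hp =>
    ⟨hp.1, hp.2.1, hp.2.2.1, hp.2.2.2.trans_le hρ⟩
  have hv : ∀ c ∈ F, T.Valid c := fun c hc => (hF c hc).1
  obtain ⟨g, V, ρ₁, h1, h2⟩ := HT.of_hoT (hoT S hv hρ0 hC.gal hA.op hO
    (cov_of S hv hρ0 hcov hA.cov) (Φ := Φ) (D := D) (κ := κ)
    (fun c hc j p hp => hw.sm c hc j p (hOg c (hO c hc j hp))) hA.sm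
    (fun c hc j p hp w => hw.psh c hc j p (hOg c (hO c hc j hp)) w)
    (fun c hc j p => hA.nn c j p) (fun c hc j => hA.me c j) hA.db
    (fun c hc j p hp => hw.le c hc j p (hOg c (hO c hc j hp))) hA.iK hA.iD)
  refine ⟨g, V, D, Φ, ρ₀, ρ₁, C, τ, hτ0, hw.ρ_pos, h2, hw.up, fun c hc j hj p hp hp' => ?_,
    hD1, hD2⟩
  have := (abs_le.1 (hw.kl c hc j hj p hp ⟨hp'.1.trans hττ₁, hp'.2.trans hττ₁⟩)).2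
  linarith

end Crest.Agent.R257.KB_82
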