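import Crest.Agent.R257.KlE_540
import Crest.Agent.R257.OtKE_331
import Crest.Agent.R271.Bd_741
import Crest.Agent.R271.Montel_297

/-!
R257 / KlF_540: LEMMA NK (criterion for non-klt germs).  `NKW f`: in no analytic coordinates and for
no positive weights `w` with `∑ w ≤ 1` has `f` weight `≥ 1`.  `nk : Iso f → Klt f → NKW f`.
-/

set_option autoImplicit false

open Topology Filter MeasureTheory Set
open scoped ENNReal Real
open Crest.AlgGeometry.Germ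

noncomputable section

namespace Crest.Agent.R257.KlF_540

open Crest.Agent.R257.Defs_219 Crest.Agent.R257.KlC_540 Crest.Agent.R257.KlD_540
open Crest.Agent.R257.KlE_540
open Crest.Agent.R257.OtK_331 (Pd Dat Sh d0 C0)

/-- no analytic coordinates and positive weights with sum `≤ 1` in which `f` has weight `≥ 1` -/
def NKW (f : E3 → ℂ) : Prop := ∀ (Ψ : E3 → E3) (w : Fin 3 → ℝ) (K : ℝ), AnalyticAt ℂ Ψ 0 →
  Ψ 0 = 0 → Function.Bijective (fderiv ℂ Ψ 0) → (∀ i, 0 < w i) → ∑ i, w i ≤ 1 →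
  ¬ ∀ᶠ s in 𝓝[>] (0 : ℝ), ∀ X : E3, (∀ i, ‖X i‖ ≤ s ^ (w i)) → ‖f (Ψ X)‖ ≤ K * s

/-- the anisotropic dilation -/
def dil (w : Fin 3 → ℝ) (s : ℝ) : E3 →L[ℂ] E3 :=
  ContinuousLinearMap.pi fun i => ((s ^ (w i) : ℝ) : ℂ) • ContinuousLinearMap.proj i

theorem dil_apply (w : Fin 3 → ℝ) (s : ℝ) (Y : E3) (i : Fin 3) :
    dil w s Y i = ((s ^ (w i) : ℝ) : ℂ) * Y i := by
  simp [dil]

theorem dil_det (w : Fin 3 → ℝ) {s : ℝ} (hs : 0 < s) :
    (dil w s).det = ((s ^ (∑ i, w i) : ℝ) : ℂ) := by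
  have h1 : (dil w s : E3 →ₗ[ℂ] E3) =
      Matrix.toLin' (Matrix.diagonal fun i => ((s ^ (w i) : ℝ) : ℂ)) := by
    apply LinearMap.ext
    intro Y
    funext i
    rw [Matrix.toLin'_apply, Matrix.mulVec_diagonal]
    exact dil_apply w s Y i
  unfold ContinuousLinearMap.det
  rw [h1, LinearMap.det_toLin', Matrix.det_diagonal, ← Complex.ofReal_prod,
    ← Real.rpow_sum_of_pos hs]

/-- small sheet integrals -/
theorem sheet_small {f : E3 → ℂ} {r : ℝ} (hr : 0 < r) (hJ : Jint 1 (fun _ => r) f (fun _ => 1) < ∞)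
    {κ : ℝ≥0∞} (hκ : 0 < κ) : ∃ δ : ℝ, 0 < δ ∧ δ < r ∧ ∀ d : Dat 2, d.h = f →
      d.R = (fun _ => δ) →
      Sh d (fun x => ENNReal.ofReal (‖(1 : ℂ)‖ ^ (2 * (1 : ℝ)) * (‖d0 d.h x‖ ^ 2)⁻¹)) < κ := by
  set g : (Fin 2 → ℂ) → ℝ≥0∞ := fun x' => ∑' z : {z : ℂ // ‖z‖ < r ∧ f (Fin.cons z x') = 0 ∧
        coordDeriv f 0 (Fin.cons z x') ≠ 0},
      ENNReal.ofReal (‖(1 : ℂ)‖ ^ ((2 : ℝ) / 1) / ‖coordDeriv f 0 (Fin.cons z.1 x')‖ ^ 2) with hg
  have h1 : ∫⁻ x' in {x' : Fin 2 → ℂ | ∀ i, ‖x' i‖ < r}, g x' ≠ ∞ := ne_of_lt hJ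
  have hvol : Tendsto (fun δ : ℝ => volume.restrict {x' : Fin 2 → ℂ | ∀ i, ‖x' i‖ < r}
      (Metric.ball (0 : Fin 2 → ℂ) δ)) (𝓝[>] 0) (𝓝 0) := by
    refine tendsto_of_tendsto_of_tendsto_of_le_of_le' tendsto_const_nhds
      (h := fun δ => volume (Metric.ball (0 : Fin 2 → ℂ) δ)) ?_
      (Eventually.of_forall fun _ => zero_le)
      (Eventually.of_forall fun δ => Measure.restrict_apply_le _ _)
    have h2 : Tendsto (fun δ : ℝ => ENNReal.ofReal (δ ^ (Module.finrank ℝ (Fin 2 → ℂ))) *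
        volume (Metric.ball (0 : Fin 2 → ℂ) 1)) (𝓝[>] 0) (𝓝 0) := by
      have h3 : Tendsto (fun δ : ℝ => ENNReal.ofReal (δ ^ (Module.finrank ℝ (Fin 2 → ℂ))))
          (𝓝[>] 0) (𝓝 (ENNReal.ofReal ((0 : ℝ) ^ (Module.finrank ℝ (Fin 2 → ℂ))))) :=
        ENNReal.tendsto_ofReal (((continuous_pow _).tendsto 0).mono_left nhdsWithin_le_nhds)
      have h4 : (0 : ℝ) ^ (Module.finrank ℝ (Fin 2 → ℂ)) = 0 :=
        zero_pow Module.finrank_pos.ne'
      rw [h4, ENNReal.ofReal_zero] at h3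
      have h5 := ENNReal.Tendsto.mul_const h3 (b := volume (Metric.ball (0 : Fin 2 → ℂ) 1))
        (Or.inr measure_ball_lt_top.ne)
      rwa [zero_mul] at h5
    refine h2.congr' ?_
    filter_upwards [self_mem_nhdsWithin] with δ hδ
    exact (Measure.addHaar_ball volume (0 : Fin 2 → ℂ) (le_of_lt hδ)).symm
  have h6 := tendsto_setLIntegral_zero h1 hvol
  obtain ⟨δ, hδκ, hδr, hδ0⟩ := ((h6.eventually (gt_mem_nhds hκ)).and
    ((eventually_nhdsWithin_of_eventually_nhds (gt_mem_nhds hr)).and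
      self_mem_nhdsWithin)).exists
  refine ⟨δ, hδ0, hδr, fun d hdh hdR => lt_of_le_of_lt ?_ hδκ⟩
  have hbox : MeasurableSet {x' : Fin 2 → ℂ | ∀ i, ‖x' i‖ < r} := by
    have : {x' : Fin 2 → ℂ | ∀ i, ‖x' i‖ < r} = Metric.ball 0 r := by
      ext x'
      rw [mem_ball_zero_iff, pi_norm_lt_iff hr]
      rfl
    rw [this]
    exact Metric.isOpen_ball.measurableSet
  rw [Measure.restrict_restrict Metric.isOpen_ball.measurableSet,
    ← lintegral_indicator (Metric.isOpen_ball.measurableSet.inter hbox)]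
  unfold Sh
  refine lintegral_mono fun x' => ?_
  by_cases hx' : ∀ i, ‖x' i‖ < δ
  · have hmem : x' ∈ Metric.ball (0 : Fin 2 → ℂ) δ ∩ {x' : Fin 2 → ℂ | ∀ i, ‖x' i‖ < r} := by
      refine ⟨?_, fun i => (hx' i).trans hδr⟩
      rw [mem_ball_zero_iff, pi_norm_lt_iff hδ0]
      exact hx'
    rw [indicator_of_mem hmem]
    simp only [hg]
    have h7 : {z : ℂ | (Fin.cons z x' : E3) ∈ d.U ∧ d.h (Fin.cons z x') = 0} ⊆
        {z : ℂ | ‖z‖ < r ∧ f (Fin.cons z x') = 0 ∧ coordDeriv f 0 (Fin.cons z x') ≠ 0} := by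
      rintro z ⟨⟨hz1, hz2⟩, hz3⟩
      rw [hdh] at hz2 hz3
      have hz4 : ‖z‖ < δ := by
        have := hz1 0
        rw [hdR] at this
        simpa using this
      exact ⟨hz4.trans hδr, hz3, hz2⟩
    have h8 := ENNReal.tsum_mono_subtype (fun z : ℂ =>
      ENNReal.ofReal (‖(1 : ℂ)‖ ^ ((2 : ℝ) / 1) / ‖coordDeriv f 0 (Fin.cons z x')‖ ^ 2)) h7
    refine le_trans (le_of_eq ?_) h8
    have key : ∀ z : ℂ, ‖(1 : ℂ)‖ ^ (2 * (1 : ℝ)) * (‖d0 d.h (Fin.cons z x' : E3)‖ ^ 2)⁻¹ =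
        ‖(1 : ℂ)‖ ^ ((2 : ℝ) / 1) / ‖coordDeriv f 0 (Fin.cons z x')‖ ^ 2 := by
      intro z
      rw [hdh, div_eq_mul_inv]
      congr 1
      simp
    exact tsum_congr fun z => congrArg ENNReal.ofReal (key z.1)
  · have : IsEmpty {z : ℂ // (Fin.cons z x' : E3) ∈ d.U ∧ d.h (Fin.cons z x') = 0} := by
      refine ⟨fun z => hx' fun i => ?_⟩
      have := z.2.1.1 i.succ
      rw [hdR] at this
      simpa using this
    rw [tsum_empty]
    exact zero_le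

/-- mean value inequality in small distorted polydiscs -/
theorem mean_distorted {Ψ : E3 → E3} {w : Fin 3 → ℝ} {s c : ℝ} (hs : 0 < s)
    {N : Set E3} (hN : IsOpen N) (hΨ : AnalyticOnNhd ℂ Ψ N) (hinj : InjOn Ψ N)
    (hdet : ∀ x ∈ N, c ≤ ‖(fderiv ℂ Ψ x).det‖ ^ 2) (h0 : Ψ 0 = 0)
    (hmaps : ∀ Y ∈ Metric.closedBall (0 : E3) 1, dil w s Y ∈ N) {D : Set E3} (hD : IsOpen D)
    {G : E3 → ℂ} (hG : DifferentiableOn ℂ G D)
    (hmD : ∀ Y ∈ Metric.closedBall (0 : E3) 1, Ψ (dil w s Y) ∈ D) :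
    ENNReal.ofReal (c * s ^ (2 * ∑ i, w i)) *
      (volume (Metric.closedBall (0 : E3) 1) * ‖G 0‖ₑ ^ 2) ≤
      ∫⁻ x in (fun Y => Ψ (dil w s Y)) '' Metric.closedBall (0 : E3) 1, ‖G x‖ₑ ^ 2 := by
  set Θ : E3 → E3 := fun Y => Ψ (dil w s Y) with hΘ
  set B := Metric.closedBall (0 : E3) 1 with hB
  have hder : ∀ Y ∈ B, HasFDerivAt Θ ((fderiv ℂ Ψ (dil w s Y)).comp (dil w s)) Y := fun Y hY =>
    ((hΨ _ (hmaps Y hY)).differentiableAt.hasFDerivAt).comp Y (dil w s).hasFDerivAt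
  have hinjΘ : InjOn Θ B := by
    intro Y hY Y' hY' h
    have h1 := hinj (hmaps Y hY) (hmaps Y' hY') h
    funext i
    have h2 := congrFun h1 i
    rw [dil_apply, dil_apply] at h2
    have h3 : ((s ^ (w i) : ℝ) : ℂ) ≠ 0 := by
      exact_mod_cast (Real.rpow_pos_of_pos hs _).ne'
    exact mul_left_cancel₀ h3 h2
  rw [lintegral_image_eq_lintegral_abs_det_fderiv_mul volume
    Metric.isClosed_closedBall.measurableSet
    (fun Y hY => ((hder Y hY).restrictScalars ℝ).hasFDerivWithinAt) hinjΘ]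
  have hdetΘ : ∀ Y ∈ B, c * s ^ (2 * ∑ i, w i) ≤
      |(((fderiv ℂ Ψ (dil w s Y)).comp (dil w s)).restrictScalars ℝ).det| := by
    intro Y hY
    rw [Crest.Agent.R271.Bd741.abs_det_real]
    have h1 : ((fderiv ℂ Ψ (dil w s Y)).comp (dil w s)).det =
        (fderiv ℂ Ψ (dil w s Y)).det * (dil w s).det := by
      unfold ContinuousLinearMap.det
      exact LinearMap.det_comp _ _
    rw [h1, norm_mul, mul_pow, dil_det w hs, Complex.norm_real, Real.norm_eq_abs, sq_abs]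
    have h2 : (s ^ (∑ i, w i)) ^ 2 = s ^ (2 * ∑ i, w i) := by
      rw [← Real.rpow_natCast, ← Real.rpow_mul hs.le]
      congr 1; push_cast; ring
    rw [h2]
    exact mul_le_mul_of_nonneg_right (hdet _ (hmaps Y hY)) (Real.rpow_nonneg hs.le _)
  -- the open set
  set O : Set E3 := dil w s ⁻¹' (N ∩ Ψ ⁻¹' D) with hO
  have hOo : IsOpen O := by
    have : IsOpen (N ∩ Ψ ⁻¹' D) := hΨ.continuousOn.isOpen_inter_preimage hN hD
    exact this.preimage (dil w s).continuous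
  have hGΘ : DifferentiableOn ℂ (fun Y => G (Θ Y)) O := by
    intro Y hY
    have h1 : DifferentiableAt ℂ G (Θ Y) := hG.differentiableAt (hD.mem_nhds hY.2)
    have h2 : DifferentiableAt ℂ Θ Y := by
      have h3 : DifferentiableAt ℂ Ψ (dil w s Y) := (hΨ _ hY.1).differentiableAt
      exact h3.comp Y (dil w s).differentiableAt
    exact (h1.comp Y h2).differentiableWithinAt
  have hmv := Crest.Agent.R271.Montel297.volume_mul_enorm_sq_le (x := (0 : E3)) (r := 1) hOo hGΘ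
    (fun Y hY => ⟨hmaps Y hY, hmD Y hY⟩)
  have hΘ0 : Θ 0 = 0 := by simp only [hΘ, map_zero, h0]
  rw [hΘ0] at hmv
  calc ENNReal.ofReal (c * s ^ (2 * ∑ i, w i)) * (volume B * ‖G 0‖ₑ ^ 2)
      ≤ ENNReal.ofReal (c * s ^ (2 * ∑ i, w i)) * ∫⁻ Y in B, ‖G (Θ Y)‖ₑ ^ 2 := by gcongr
    _ = ∫⁻ Y in B, ENNReal.ofReal (c * s ^ (2 * ∑ i, w i)) * ‖G (Θ Y)‖ₑ ^ 2 := by
        rw [lintegral_const_mul' _ _ ENNReal.ofReal_ne_top]
    _ ≤ _ := by
        refine lintegral_mono_ae ?_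
        filter_upwards [ae_restrict_mem Metric.isClosed_closedBall.measurableSet] with Y hY
        gcongr
        exact hdetΘ Y hY

/-- **LEMMA NK** -/
theorem nk {f : E3 → ℂ} (hf : Iso f) (hk : Klt f) : NKW f := by
  intro Ψ w K hΨ hΨ0 hΨb hw hw1 hev
  -- radius for the sheets and analyticity
  obtain ⟨r₁, hr₁, hJ⟩ := hk
  obtain ⟨r₂, hr₂, hfan⟩ := hf.an.exists_ball_analyticOnNhd
  set r : ℝ := min r₁ r₂ with hr
  have hr0 : 0 < r := lt_min hr₁ hr₂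
  -- the neighbourhood `N` for `Ψ`
  set e : E3 ≃L[ℂ] E3 := ContinuousLinearEquiv.ofBijective (fderiv ℂ Ψ 0)
    (LinearMap.ker_eq_bot.2 hΨb.1) (LinearMap.range_eq_top.2 hΨb.2) with he
  have hstrict : HasStrictFDerivAt Ψ (e : E3 →L[ℂ] E3) 0 := by
    have h1 : (e : E3 →L[ℂ] E3) = fderiv ℂ Ψ 0 := by
      ext x; rfl
    rw [h1]
    exact hΨ.hasStrictFDerivAt
  have hdet0 : (fderiv ℂ Ψ 0).det ≠ 0 := by
    have h1 : (e : E3 →L[ℂ] E3) = fderiv ℂ Ψ 0 := by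
      ext x; rfl
    rw [← h1]
    intro h2
    have h3 : LinearMap.det (e.toLinearEquiv : E3 →ₗ[ℂ] E3) ≠ 0 :=
      (LinearEquiv.isUnit_det' e.toLinearEquiv).ne_zero
    exact h3 h2
  obtain ⟨r₃, hr₃, hΨan⟩ := hΨ.exists_ball_analyticOnNhd
  set c : ℝ := ‖(fderiv ℂ Ψ 0).det‖ ^ 2 / 2 with hc
  have hc0 : 0 < c := by
    have := norm_pos_iff.2 hdet0
    positivity
  have hdetc : ∀ᶠ x in 𝓝 (0 : E3), c < ‖(fderiv ℂ Ψ x).det‖ ^ 2 := by
    have h1 : ContinuousAt (fun x => ‖(fderiv ℂ Ψ x).det‖ ^ 2) 0 := by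
      have h2 : ContinuousAt (fun x => fderiv ℂ Ψ x) 0 := hΨ.fderiv.continuousAt
      have h3 : ContinuousAt (fun L : E3 →L[ℂ] E3 => L.det) (fderiv ℂ Ψ 0) :=
        ContinuousLinearMap.continuous_det.continuousAt
      exact (ContinuousAt.comp (g := fun L : E3 →L[ℂ] E3 => L.det)
        (f := fun x => fderiv ℂ Ψ x) h3 h2).norm.pow 2
    refine h1.eventually (lt_mem_nhds ?_)
    have := norm_pos_iff.2 hdet0
    have h4 : 0 < ‖(fderiv ℂ Ψ 0).det‖ ^ 2 := by positivity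
    rw [hc]; linarith
  obtain ⟨T, hT, hTinj⟩ : ∃ T ∈ 𝓝 (0 : E3), InjOn Ψ T :=
    ⟨(hstrict.toOpenPartialHomeomorph Ψ).source,
      (hstrict.toOpenPartialHomeomorph Ψ).open_source.mem_nhds
        hstrict.mem_toOpenPartialHomeomorph_source, by
      have := (hstrict.toOpenPartialHomeomorph Ψ).injOn
      rwa [hstrict.toOpenPartialHomeomorph_coe] at this⟩
  obtain ⟨ρ, hρ, hball⟩ := Metric.eventually_nhds_iff_ball.1
    (((hΨ.eventually_analyticAt).and hdetc).and (eventually_mem_set.2 hT))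
  set N : Set E3 := Metric.ball 0 ρ with hN
  -- constants
  have hC0 := Crest.Agent.R257.OtK_331.C0_nonneg
  set v : ℝ := (volume : Measure E3).real (Metric.closedBall 0 1) with hv
  have hvfin : (volume : Measure E3) (Metric.closedBall 0 1) ≠ ∞ :=
    measure_closedBall_lt_top.ne
  have hv0 : 0 < v := by
    rw [hv]
    exact ENNReal.toReal_pos (Metric.measure_closedBall_pos volume _ one_pos).ne' hvfin
  have hvE : (volume : Measure E3) (Metric.closedBall 0 1) = ENNReal.ofReal v := by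
    rw [hv, Measure.real, ENNReal.ofReal_toReal hvfin]
  set κ : ℝ := c * v / (2 * ((K ^ 2 + 1) ^ 2 * (C0 + 1))) with hκ
  have hκ0 : 0 < κ := by positivity
  have hJr : Jint 1 (fun _ => r) f (fun _ => 1) < ∞ := by
    refine lt_of_le_of_lt ?_ hJ
    unfold Jint
    refine (lintegral_mono_set (s := {x' : Fin 2 → ℂ | ∀ i, ‖x' i‖ < r})
      (t := {x' : Fin 2 → ℂ | ∀ i, ‖x' i‖ < r₁}) (fun x' hx' i =>
      (hx' i).trans_le (min_le_left _ _))).trans ?_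
    refine lintegral_mono fun x' => ?_
    exact ENNReal.tsum_mono_subtype (fun z : ℂ =>
      ENNReal.ofReal (‖(1 : ℂ)‖ ^ ((2 : ℝ) / 1) / ‖coordDeriv f 0 (Fin.cons z x')‖ ^ 2))
      (s := {z : ℂ | ‖z‖ < r ∧ f (Fin.cons z x') = 0 ∧ coordDeriv f 0 (Fin.cons z x') ≠ 0})
      (t := {z : ℂ | ‖z‖ < r₁ ∧ f (Fin.cons z x') = 0 ∧ coordDeriv f 0 (Fin.cons z x') ≠ 0})
      (fun z hz => ⟨hz.1.trans_le (min_le_left _ _), hz.2⟩)
  obtain ⟨δ, hδ0, hδr, hδ⟩ := sheet_small hr0 hJr (κ := ENNReal.ofReal κ)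
    (ENNReal.ofReal_pos.2 hκ0)
  have hPd : Pd (fun _ : Fin 3 => δ) = Metric.ball (0 : E3) δ := by
    ext x
    rw [mem_ball_zero_iff, pi_norm_lt_iff hδ0]
    rfl
  have hfδ : DifferentiableOn ℂ f (Pd (fun _ : Fin 3 => δ)) := by
    rw [hPd]
    intro x hx
    exact (hfan x (Metric.ball_subset_ball (hδr.le.trans (min_le_right _ _))
      hx)).differentiableAt.differentiableWithinAt
  set d : Dat 2 := ⟨fun _ => δ, f, hfδ⟩ with hd
  have hSh := hδ d rfl rfl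
  -- choice of `s`
  have hdil0 : Tendsto (fun s : ℝ => ‖dil w s‖) (𝓝[>] 0) (𝓝 0) := by
    have h1 : Tendsto (fun s : ℝ => dil w s) (𝓝[>] 0) (𝓝 0) := by
      have h2 : ∀ i, Tendsto (fun s : ℝ => ((s ^ (w i) : ℝ) : ℂ)) (𝓝[>] 0) (𝓝 0) := by
        intro i
        have h3 : Tendsto (fun s : ℝ => s ^ (w i)) (𝓝 0) (𝓝 ((0 : ℝ) ^ (w i))) :=
          (Real.continuousAt_rpow_const 0 (w i) (Or.inr (hw i).le)).tendsto
        rw [Real.zero_rpow (hw i).ne'] at h3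
        have h4 : Tendsto (fun s : ℝ => ((s ^ (w i) : ℝ) : ℂ)) (𝓝 0) (𝓝 ((0 : ℝ) : ℂ)) :=
          (Complex.continuous_ofReal.tendsto (0 : ℝ)).comp h3
        rw [Complex.ofReal_zero] at h4
        exact h4.mono_left nhdsWithin_le_nhds
      have h5 : ∀ s : ℝ, dil w s = ∑ i : Fin 3, ((s ^ (w i) : ℝ) : ℂ) •
          ((ContinuousLinearMap.proj (R := ℂ) (φ := fun _ : Fin 3 => ℂ) i).smulRight
            (Pi.single i (1 : ℂ) : E3)) := by
        intro s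
        ext Y i
        rw [dil_apply]
        simp [Finset.sum_apply, Pi.single_apply]
      have h6 : Tendsto (fun s : ℝ => ∑ i : Fin 3, ((s ^ (w i) : ℝ) : ℂ) •
          ((ContinuousLinearMap.proj (R := ℂ) (φ := fun _ : Fin 3 => ℂ) i).smulRight
            (Pi.single i (1 : ℂ) : E3))) (𝓝[>] 0) (𝓝 (∑ i : Fin 3, (0 : ℂ) •
          ((ContinuousLinearMap.proj (R := ℂ) (φ := fun _ : Fin 3 => ℂ) i).smulRight
            (Pi.single i (1 : ℂ) : E3)))) :=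
        tendsto_finsetSum _ fun i _ => (h2 i).smul_const _
      have h7 : (∑ i : Fin 3, (0 : ℂ) •
          ((ContinuousLinearMap.proj (R := ℂ) (φ := fun _ : Fin 3 => ℂ) i).smulRight
            (Pi.single i (1 : ℂ) : E3))) = 0 := Finset.sum_eq_zero fun i _ => by
          ext Y j
          simp
      rw [h7] at h6
      exact h6.congr fun s => (h5 s).symm
    simpa using h1.norm
  -- `Ψ` maps a small ball into the ball of radius `δ`
  obtain ⟨ρ', hρ', hball'⟩ := Metric.eventually_nhds_iff_ball.1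
    (hΨ.continuousAt.eventually (show ∀ᶠ y in 𝓝 (Ψ 0), y ∈ Metric.ball (0 : E3) δ by
      rw [hΨ0]; exact Metric.ball_mem_nhds 0 hδ0))
  have hmin : 0 < min ρ ρ' := lt_min hρ hρ'
  obtain ⟨s, ⟨hs1, hs2⟩, hs3, hs4⟩ := (((hdil0.eventually (gt_mem_nhds hmin)).and hev).and
    ((eventually_nhdsWithin_of_eventually_nhds (gt_mem_nhds (zero_lt_one' ℝ))).and
      self_mem_nhdsWithin)).exists
  have hs0 : 0 < s := hs4
  have hs3 : s < 1 := hs3
  have hdilm : ∀ Y ∈ Metric.closedBall (0 : E3) 1, ‖dil w s Y‖ < min ρ ρ' := by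
    intro Y hY
    have h1 : ‖Y‖ ≤ 1 := by simpa using hY
    calc ‖dil w s Y‖ ≤ ‖dil w s‖ * ‖Y‖ := (dil w s).le_opNorm Y
      _ ≤ ‖dil w s‖ * 1 := mul_le_mul_of_nonneg_left h1 (norm_nonneg _)
      _ < _ := by rw [mul_one]; exact hs1
  -- OT extension
  have hK' : ENNReal.ofReal (C0 * (s ^ 2)⁻¹) *
      Sh d (fun x => ENNReal.ofReal (‖(1 : ℂ)‖ ^ (2 * (1 : ℝ)) * (‖d0 d.h x‖ ^ 2)⁻¹)) <
      ENNReal.ofReal ((C0 + 1) * (s ^ 2)⁻¹ * κ) := by
    have h1 : ENNReal.ofReal ((C0 + 1) * (s ^ 2)⁻¹ * κ) =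
        ENNReal.ofReal ((C0 + 1) * (s ^ 2)⁻¹) * ENNReal.ofReal κ :=
      ENNReal.ofReal_mul (by positivity)
    rw [h1]
    have h2 : ENNReal.ofReal (C0 * (s ^ 2)⁻¹) ≤ ENNReal.ofReal ((C0 + 1) * (s ^ 2)⁻¹) := by
      apply ENNReal.ofReal_le_ofReal
      have : 0 < (s ^ 2)⁻¹ := by positivity
      nlinarith
    have h3 : ENNReal.ofReal ((C0 + 1) * (s ^ 2)⁻¹) ≠ 0 := by
      rw [Ne, ENNReal.ofReal_eq_zero, not_le]
      positivity
    calc _ ≤ ENNReal.ofReal ((C0 + 1) * (s ^ 2)⁻¹) *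
        Sh d (fun x => ENNReal.ofReal (‖(1 : ℂ)‖ ^ (2 * (1 : ℝ)) * (‖d0 d.h x‖ ^ 2)⁻¹)) := by
          gcongr
      _ < _ := ENNReal.mul_lt_mul_right h3 ENNReal.ofReal_ne_top hSh
  obtain ⟨G, hG, hG1, hG2⟩ := Crest.Agent.R257.OtK_331.d3 d (q := 1) one_pos le_rfl hs0
    (G0 := fun _ => (1 : ℂ)) (differentiableOn_const _) ⟨1, fun x _ => by simp⟩
    (K := Sh d (fun x => ENNReal.ofReal (‖(1 : ℂ)‖ ^ (2 * (1 : ℝ)) * (‖d0 d.h x‖ ^ 2)⁻¹)))
    (ne_top_of_lt hSh) le_rfl hK'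
  have hG' : DifferentiableOn ℂ G (Metric.ball 0 δ) := by
    have := hG
    rw [show d.R = fun _ : Fin 3 => δ from rfl, hPd] at this
    exact this
  -- `G 0 = 1`
  have hG0 : G 0 = 1 := by
    have h1 : ContinuousAt G 0 :=
      (hG'.differentiableAt (Metric.ball_mem_nhds 0 hδ0)).continuousAt
    by_contra hne
    have h2 : ∀ᶠ x in 𝓝 (0 : E3), G x ≠ 1 := h1.eventually_ne hne
    obtain ⟨x, ⟨hx1, hx2⟩, hx3, hx4⟩ := ((frequently_reg hf).and_eventually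
      (h2.and (Metric.ball_mem_nhds (0 : E3) hδ0))).exists
    refine hx3 (hG1 x ⟨?_, hx2⟩ hx1)
    rw [show d.R = fun _ : Fin 3 => δ from rfl, hPd]
    exact hx4
  -- the mean value inequality
  have hmean := mean_distorted (w := w) (s := s) (c := c) hs0 (N := N) Metric.isOpen_ball
    (fun x hx => (hball x hx).1.1) (hTinj.mono fun x hx => (hball x hx).2)
    (fun x hx => (hball x hx).1.2.le) hΨ0
    (fun Y hY => by
      rw [hN, mem_ball_zero_iff]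
      exact (hdilm Y hY).trans_le (min_le_left _ _))
    (D := Metric.ball 0 δ) Metric.isOpen_ball hG'
    (fun Y hY => hball' _ (by
      rw [mem_ball_zero_iff]
      exact (hdilm Y hY).trans_le (min_le_right _ _)))
  rw [hG0, hvE] at hmean
  -- the upper bound
  have hup : ∫⁻ x in (fun Y => Ψ (dil w s Y)) '' Metric.closedBall (0 : E3) 1, ‖G x‖ₑ ^ 2 ≤
      ENNReal.ofReal ((K ^ 2 + 1) ^ 2 * s ^ 4) * ENNReal.ofReal ((C0 + 1) * (s ^ 2)⁻¹ * κ) := by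
    have hsub : (fun Y => Ψ (dil w s Y)) '' Metric.closedBall (0 : E3) 1 ⊆
        Pd (fun _ : Fin 3 => δ) := by
      rintro _ ⟨Y, hY, rfl⟩
      rw [hPd]
      exact hball' _ (by
        rw [mem_ball_zero_iff]
        exact (hdilm Y hY).trans_le (min_le_right _ _))
    calc _ ≤ ∫⁻ x in (fun Y => Ψ (dil w s Y)) '' Metric.closedBall (0 : E3) 1,
          ENNReal.ofReal ((K ^ 2 + 1) ^ 2 * s ^ 4) *
            ENNReal.ofReal (‖G x‖ ^ (2 * (1 : ℝ)) * ((‖d.h x‖ ^ 2 + s ^ 2) ^ 2)⁻¹) := by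
          have hcont : ContinuousOn (fun Y => Ψ (dil w s Y)) (Metric.closedBall (0 : E3) 1) := by
            intro Y hY
            have h1 : ContinuousAt Ψ (dil w s Y) := (hball _ (by
              rw [mem_ball_zero_iff]
              exact (hdilm Y hY).trans_le (min_le_left _ _))).1.1.continuousAt
            exact (ContinuousAt.comp h1 (dil w s).continuous.continuousAt).continuousWithinAt
          have hms : MeasurableSet ((fun Y => Ψ (dil w s Y)) '' Metric.closedBall (0 : E3) 1) :=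
            ((isCompact_closedBall (0 : E3) 1).image_of_continuousOn hcont).measurableSet
          refine lintegral_mono_ae ?_
          filter_upwards [ae_restrict_mem hms] with x hx
          obtain ⟨Y, hY, rfl⟩ := hx
          have hfx : ‖f (Ψ (dil w s Y))‖ ≤ K * s := by
            refine hs2 _ fun i => ?_
            rw [dil_apply, norm_mul, Complex.norm_real, Real.norm_eq_abs,
              abs_of_nonneg (Real.rpow_nonneg hs0.le _)]
            have h1 : ‖Y i‖ ≤ 1 := (norm_le_pi_norm Y i).trans (by simpa using hY)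
            nlinarith [Real.rpow_nonneg hs0.le (w i)]
          rw [← ENNReal.ofReal_mul (by positivity), ← ofReal_norm,
            ← ENNReal.ofReal_pow (norm_nonneg _)]
          apply ENNReal.ofReal_le_ofReal
          change ‖G (Ψ (dil w s Y))‖ ^ 2 ≤ (K ^ 2 + 1) ^ 2 * s ^ 4 *
            (‖G (Ψ (dil w s Y))‖ ^ (2 * (1 : ℝ)) *
              ((‖f (Ψ (dil w s Y))‖ ^ 2 + s ^ 2) ^ 2)⁻¹)
          have h2 : ‖G (Ψ (dil w s Y))‖ ^ (2 * (1 : ℝ)) = ‖G (Ψ (dil w s Y))‖ ^ 2 := by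
            rw [mul_one]; exact Real.rpow_two _
          rw [h2]
          have h3 : (‖f (Ψ (dil w s Y))‖ ^ 2 + s ^ 2) ^ 2 ≤ (K ^ 2 + 1) ^ 2 * s ^ 4 := by
            have h4 : ‖f (Ψ (dil w s Y))‖ ^ 2 ≤ (K * s) ^ 2 :=
              pow_le_pow_left₀ (norm_nonneg _) hfx 2
            have h5 : ‖f (Ψ (dil w s Y))‖ ^ 2 + s ^ 2 ≤ (K ^ 2 + 1) * s ^ 2 := by nlinarith
            calc (‖f (Ψ (dil w s Y))‖ ^ 2 + s ^ 2) ^ 2 ≤ ((K ^ 2 + 1) * s ^ 2) ^ 2 :=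
                  pow_le_pow_left₀ (by positivity) h5 2
              _ = _ := by ring
          have h6 : 0 < (‖f (Ψ (dil w s Y))‖ ^ 2 + s ^ 2) ^ 2 := by positivity
          have h7 : 1 ≤ (K ^ 2 + 1) ^ 2 * s ^ 4 *
              ((‖f (Ψ (dil w s Y))‖ ^ 2 + s ^ 2) ^ 2)⁻¹ := by
            rw [← div_eq_mul_inv, one_le_div h6]
            exact h3
          calc ‖G (Ψ (dil w s Y))‖ ^ 2 = 1 * ‖G (Ψ (dil w s Y))‖ ^ 2 := (one_mul _).symm
            _ ≤ ((K ^ 2 + 1) ^ 2 * s ^ 4 *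
              ((‖f (Ψ (dil w s Y))‖ ^ 2 + s ^ 2) ^ 2)⁻¹) * ‖G (Ψ (dil w s Y))‖ ^ 2 :=
                mul_le_mul_of_nonneg_right h7 (by positivity)
            _ = _ := by ring
      _ = ENNReal.ofReal ((K ^ 2 + 1) ^ 2 * s ^ 4) *
          ∫⁻ x in (fun Y => Ψ (dil w s Y)) '' Metric.closedBall (0 : E3) 1,
            ENNReal.ofReal (‖G x‖ ^ (2 * (1 : ℝ)) * ((‖d.h x‖ ^ 2 + s ^ 2) ^ 2)⁻¹) :=
          lintegral_const_mul' _ _ ENNReal.ofReal_ne_top
      _ ≤ ENNReal.ofReal ((K ^ 2 + 1) ^ 2 * s ^ 4) *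
          ∫⁻ x in Pd d.R,
            ENNReal.ofReal (‖G x‖ ^ (2 * (1 : ℝ)) * ((‖d.h x‖ ^ 2 + s ^ 2) ^ 2)⁻¹) := by
          gcongr
      _ ≤ _ := by gcongr
  have hfinal := hmean.trans hup
  have e1 : ENNReal.ofReal (c * s ^ (2 * ∑ i, w i)) * (ENNReal.ofReal v * ‖(1 : ℂ)‖ₑ ^ 2) =
      ENNReal.ofReal (c * s ^ (2 * ∑ i, w i) * v) := by
    rw [show ‖(1 : ℂ)‖ₑ = 1 by simp, one_pow, mul_one, ← ENNReal.ofReal_mul]
    positivity
  rw [e1, ← ENNReal.ofReal_mul (by positivity), ENNReal.ofReal_le_ofReal_iff (by positivity)]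
    at hfinal
  have e2 : s ^ 2 ≤ s ^ (2 * ∑ i, w i) := by
    rw [← Real.rpow_two]
    exact Real.rpow_le_rpow_of_exponent_ge hs0 hs3.le (by linarith)
  have e3 : (K ^ 2 + 1) ^ 2 * s ^ 4 * ((C0 + 1) * (s ^ 2)⁻¹ * κ) = c * v / 2 * s ^ 2 := by
    rw [hκ]
    field_simp
  rw [e3] at hfinal
  have e4 : c * v * s ^ 2 ≤ c * s ^ (2 * ∑ i, w i) * v := by
    calc c * v * s ^ 2 ≤ c * v * s ^ (2 * ∑ i, w i) :=
          mul_le_mul_of_nonneg_left e2 (by positivity)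
      _ = _ := by ring
  have e5 : 0 < c * v * s ^ 2 := by positivity
  nlinarith

end Crest.Agent.R257.KlF_540
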