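import Crest.Agent.R257.KlF_540
import Crest.Agent.R257.KlG_540
import Crest.Agent.R257.Cor1_788
import Crest.Agent.R257.SkelV2_952

/-!
R257 / KlH_540: **`KltStmt`** of `KED_952` from K2 (for germs satisfying `NKW`).
-/

set_option autoImplicit false

open Topology Filter MeasureTheory Set
open scoped ENNReal Real
open Crest.AlgGeometry.Germ
open Crest.Agent.R275.Loc2879 hiding AA
open Crest.Agent.R257.UI939

noncomputable section

namespace Crest.Agent.R257.KlH_540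

open Crest.Agent.R257.Defs_219 Crest.Agent.R257.KlE_540 Crest.Agent.R257.KlF_540
open Crest.Agent.R257.KlG_540

/-- K2, integral free [405]: a germ without weights `≥ 1` has an Euler field with divergence
`≥ 1 + 1/(30 + 2 μ)` -/
def K2NStmt : Prop := ∀ f : E3 → ℂ, Iso f → NKW f → ∃ a : Fin 3 → E3 → ℂ,
  (∀ j, AnalyticAt ℂ (a j) 0) ∧ (∀ᶠ x in 𝓝 0, f x = ∑ j, a j x * coordDeriv f j x) ∧
  1 + 1 / (30 + 2 * (col (par f) : ℝ)) ≤ (∑ j, coordDeriv (a j) j 0).re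

theorem mem_of_field {f : E3 → ℂ} (hf : AnalyticAt ℂ f 0) {a : Fin 3 → E3 → ℂ}
    (ha : ∀ j, AnalyticAt ℂ (a j) 0) (he : ∀ᶠ x in 𝓝 0, f x = ∑ j, a j x * coordDeriv f j x) :
    (gz f : BB 3) ∈ Idl (0 : E3) (fun j x => coordDeriv f j x) := by
  have hpa : ∀ j, AnalyticAt ℂ (fun x => coordDeriv f j x) 0 := fun j => an_coordDeriv hf j
  rw [mem_Idl hpa, gz_eq hf]
  refine ⟨fun j => gm (a j) (ha j), ?_⟩
  obtain ⟨h, e⟩ := exists_sum_gm' Finset.univ a (fun j x => coordDeriv f j x) ha hpa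
  rw [e, gm_eq_gm]
  exact he

theorem grad_zero (F : E3 × ℂ → ℂ) (t : ℂ) (j : Fin 3) :
    grad F j ((0 : E3), t) = coordDeriv (fun x => F (x, t)) j 0 := rfl

/-- the general statement -/
theorem klt_limit (K2 : K2NStmt) {G : E3 × ℂ → ℂ} (hG : AnalyticAt ℂ G 0) {μ : ℕ}
    (hiso : ∀ᶠ t in 𝓝 (0 : ℂ), Iso (sl G t)) (hmu : ∀ᶠ t in 𝓝 (0 : ℂ), col (par (sl G t)) = μ)
    (hfr : ∃ᶠ t in 𝓝[≠] (0 : ℂ), InJ 1 (sl G t) fun _ => 1) :
    ∃ a : Fin 3 → E3 → ℂ, (∀ j, AnalyticAt ℂ (a j) 0) ∧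
      (∀ᶠ x in 𝓝 0, sl G 0 x = ∑ j, a j x * coordDeriv (sl G 0) j x) ∧
      1 + 1 / (30 + 2 * (μ : ℝ)) ≤ (∑ j, coordDeriv (a j) j 0).re := by
  have hga : ∀ j : Fin 3, AnalyticAt ℂ (grad G j) 0 := fun j => an_grad hG j
  -- the dimension
  have hdim : ∀ᶠ t in 𝓝 (0 : ℂ),
      Module.Finite ℂ (BB 3 ⧸ Idl (0 : E3) (fun j x => grad G j (x, t))) ∧
      dimQ (0 : E3) (fun j x => grad G j (x, t)) = μ := by
    filter_upwards [hiso, hmu] with t h1 h2
    have hpa : ∀ j, AnalyticAt ℂ (par (sl G t) j) 0 := fun j => an_coordDeriv h1.an j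
    exact ⟨(colFin_iff hpa).1 h1.fin, by rw [← h2, col_eq hpa]; rfl⟩
  -- fields at the klt parameters
  have hK : ∃ᶠ t in 𝓝[≠] (0 : ℂ), Iso (sl G t) ∧ col (par (sl G t)) = μ ∧
      ∃ a : Fin 3 → E3 → ℂ, (∀ j, AnalyticAt ℂ (a j) 0) ∧
      (∀ᶠ x in 𝓝 0, sl G t x = ∑ j, a j x * coordDeriv (sl G t) j x) ∧
      1 + 1 / (30 + 2 * (μ : ℝ)) ≤ (∑ j, coordDeriv (a j) j 0).re := by
    refine (hfr.and_eventually ((hiso.and hmu).filter_mono nhdsWithin_le_nhds)).mono ?_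
    rintro t ⟨h1, h2, h3⟩
    obtain ⟨a, k1, k2, k3⟩ := K2 _ h2 (nk h2 h1)
    rw [h3] at k3
    exact ⟨h2, h3, a, k1, k2, k3⟩
  have hmem : ∃ᶠ t in 𝓝[≠] (0 : ℂ), (gz (fun x => G (x, t)) : BB 3) ∈
      Idl (0 : E3) (fun j x => grad G j (x, t)) := by
    refine hK.mono ?_
    rintro t ⟨h1, h2, a, k1, k2, k3⟩
    exact mem_of_field (f := fun x => G (x, t)) h1.an k1 k2
  obtain ⟨a, ha, hae⟩ := Cor1_788.memU (κ := Fin 3) (grad G) hga μ hdim G hG hmem
  -- slices of the global field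
  have hat : ∀ᶠ t in 𝓝 (0 : ℂ), ∀ j, AnalyticAt ℂ (a j) (0, t) :=
    tendsto_0t.eventually (Filter.eventually_all.2 fun j => (ha j).eventually_analyticAt)
  have haet : ∀ᶠ t in 𝓝 (0 : ℂ), ∀ᶠ x in 𝓝 (0 : E3),
      sl G t x = ∑ j, a j (x, t) * coordDeriv (sl G t) j x := by
    filter_upwards [tendsto_0t.eventually (eventually_eventually_nhds.2 hae)] with t ht
    have h1 : Tendsto (fun x : E3 => (x, t)) (𝓝 0) (𝓝 (0, t)) :=
      (by fun_prop : Continuous (fun x : E3 => (x, t))).tendsto' _ _ rfl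
    exact h1.eventually ht
  set τ : ℂ → ℂ := fun t => ∑ j, grad (a j) j ((0 : E3), t) with hτ
  have hτc : ContinuousAt τ 0 := by
    have h1 : ∀ j, ContinuousAt (fun t : ℂ => grad (a j) j ((0 : E3), t)) 0 := by
      intro j
      have h2 : ContinuousAt (grad (a j) j) ((0 : E3), (0 : ℂ)) := (an_grad (ha j) j).continuousAt
      exact ContinuousAt.comp (g := grad (a j) j) (f := fun t : ℂ => ((0 : E3), t)) h2
        (by fun_prop : Continuous (fun t : ℂ => ((0 : E3), t))).continuousAt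
    exact tendsto_finsetSum _ fun j _ => h1 j
  have hge : ∃ᶠ t in 𝓝[≠] (0 : ℂ), 1 + 1 / (30 + 2 * (μ : ℝ)) ≤ (τ t).re := by
    refine (hK.and_eventually ((hat.and haet).filter_mono nhdsWithin_le_nhds)).mono ?_
    rintro t ⟨⟨h1, h2, b, k1, k2, k3⟩, h4, h5⟩
    have h6 : τ t = ∑ j, coordDeriv (b j) j 0 := by
      refine Eq.trans ?_ (trace_unique h1.an h1.crit h1.fin
        (a := fun j x => a j (x, t)) (fun j => an_slice (h4 j)) k1 h5 k2)
      exact Finset.sum_congr rfl fun j _ => grad_zero (a j) t j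
    rw [h6]
    exact k3
  have h0 : 1 + 1 / (30 + 2 * (μ : ℝ)) ≤ (τ 0).re := by
    have h1 : Tendsto (fun t => (τ t).re) (𝓝[≠] 0) (𝓝 (τ 0).re) :=
      (Complex.continuous_re.continuousAt.comp hτc).tendsto.mono_left nhdsWithin_le_nhds
    by_contra hcon
    push Not at hcon
    have h2 := h1.eventually (gt_mem_nhds hcon)
    obtain ⟨t, h3, h4⟩ := (hge.and_eventually h2).exists
    exact absurd h3 (not_le.2 h4)
  have h7 : τ 0 = ∑ j, coordDeriv (fun x => a j (x, 0)) j 0 :=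
    Finset.sum_congr rfl fun j _ => grad_zero (a j) 0 j
  rw [h7] at h0
  exact ⟨fun j x => a j (x, 0), fun j => an_slice (hat.self_of_nhds j), haet.self_of_nhds, h0⟩

theorem kltStmt_of (K2 : K2NStmt) : KED_952.KltStmt := by
  intro G μ d R r c₀ e P c hG hfr
  have hR : ∀ᶠ t in 𝓝 (0 : ℂ), ‖t‖ < R := by
    filter_upwards [Metric.ball_mem_nhds (0 : ℂ) hG.R_pos] with t ht
    simpa using ht
  have hiso0 : Iso (sl G 0) := SkelV_952.iso_gfam hG (by simpa using hG.R_pos)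
  obtain ⟨a, h1, h2, h3⟩ := klt_limit K2 (μ := μ)
    (SkelV_952.an_gfam hG 0 (by simpa using hG.R_pos))
    (by filter_upwards [hR] with t ht using SkelV_952.iso_gfam hG ht)
    (by filter_upwards [hR] with t ht using hG.mu t ht) hfr
  refine KlD_540.klt_of_field hiso0.an (isolated' hiso0.an hiso0.fin) h1 h2 ?_
  have : (0 : ℝ) < 1 / (30 + 2 * (μ : ℝ)) := by positivity
  linarith

end Crest.Agent.R257.KlH_540
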