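import Crest.Agent.R257.Kol1_101
import Crest.Agent.R257.Kol2_101
import Crest.Agent.R273.ExpI3_772

/-!
# Row 257 (S0395), UP0 (helper101), Kolodziej's estimate in dimension two

* `moment` : `∫ (b - ψ)^m ≤ C` for the admissible `ψ`
* `level`  : `∫ h_s⁴ F ≤ C (∫ h_s F)^(4/3)`
* `kol`    : `K + ∂∂̄φ > 0`, `(K + ∂∂̄φ)² = F K²`, `‖F‖_q ≤ K₁`, `max φ = 0` implies `-φ ≤ C`
-/

set_option autoImplicit false
set_option linter.unusedSectionVars false

open Set Filter Topology Complex MeasureTheory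
open scoped ContDiff Matrix ComplexConjugate ComplexOrder ENNReal

namespace Crest.Agent.R257.Kol3_101

open Crest.Agent.R275 Crest.Agent.R275.Geo Crest.Agent.R275.Core144 Crest.Agent.R275.EDR890
open Crest.Agent.R275.GC293
open Crest.Agent.R273 Crest.Agent.R273.Defs_333 Crest.Agent.R273.Hess_333
open Crest.Agent.R273.HessB_333 Crest.Agent.R273.HM_333 Crest.Agent.R273.Kah_333
open Crest.Agent.R273.Vol_333 Crest.Agent.R273.Vm_333
open Crest.Agent.R273.YauDefs_635 Crest.Agent.R273.YauMax_635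
open Crest.Agent.R273.FIb0_597 Crest.Agent.R273.TLs_201
open Crest.Agent.R257.Kol1_101 Crest.Agent.R257.Kol2_101

noncomputable section

variable {M : Type} [TopologicalSpace M] [T2Space M] [CompactSpace M] [ConnectedSpace M]
  {A : Atl 2 M} [Fintype A.ι] [MeasurableSpace M] [BorelSpace M] {L : LB A}

/-- admissible functions -/
structure Adm (H : HM L) (ψ : M → ℝ) : Prop where
  sm : A.Sm ψ
  psd : ∀ i, ∀ x ∈ (A.e i).source, (cur H i x + hsf A ψ i x).PosSemidef
  le : ∀ x, ψ x ≤ 0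
  zero : ∃ x, ψ x = 0

/-- exponential integrability -/
theorem exp_adm (h : HM (KB A)⁻¹) (H : HM L) : ∃ η : ℝ, 0 < η ∧ ∃ C : ℝ, 0 ≤ C ∧ ∀ v, Adm H v →
    ∫ x, Real.exp (-(η * v x)) ∂(vm h) ≤ C := by
  obtain ⟨η, C, hη, hC, hE⟩ := ExpI3_772.exp_psh h H
  refine ⟨η, hη, C, hC, fun v hv => (hE v ⟨hv.sm, fun i z hz w => ?_, hv.le, hv.zero⟩).2⟩
  have hx := (A.e i).map_target hz
  have h1 := hv.psd i _ hx
  have e1 : cur H i ((A.e i).symm z) = hess (H.wt i) z := cur_read H i hz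
  have e2 : hsf A v i ((A.e i).symm z) = hess (fun z => v ((A.e i).symm z)) z := hsf_read v i hz
  have h3 : (hess (pot H v i) z).PosSemidef := by
    have h4 : hess (pot H v i) z = cur H i ((A.e i).symm z) + hsf A v i ((A.e i).symm z) := by
      rw [e1, e2]
      exact hess_add (wt_contDiffAt H i hz) (sm_contDiffAt hv.sm i hz)
    rw [h4]
    exact h1
  exact lev_nonneg_of_posSemidef (YauMax_635.pot_contDiffAt H hv.sm i hz) h3 w

theorem rpow_le_exp {m η t : ℝ} (hm : 0 < m) (hη : 0 < η) (ht : 0 ≤ t) :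
    t ^ m ≤ (m / η) ^ m * Real.exp (η * t) := by
  have h1 : η * t / m ≤ Real.exp (η * t / m) := by
    have := Real.add_one_le_exp (η * t / m)
    linarith
  have h2 : (η * t / m) ^ m ≤ Real.exp (η * t / m) ^ m :=
    Real.rpow_le_rpow (by positivity) h1 hm.le
  have h3 : Real.exp (η * t / m) ^ m = Real.exp (η * t) := by
    rw [← Real.exp_mul]
    congr 1
    field_simp
  have h4 : t = (m / η) * (η * t / m) := by field_simp
  calc t ^ m = ((m / η) * (η * t / m)) ^ m := by rw [← h4]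
    _ = (m / η) ^ m * (η * t / m) ^ m := Real.mul_rpow (by positivity) (by positivity)
    _ ≤ (m / η) ^ m * Real.exp (η * t) := by
      rw [← h3]
      exact mul_le_mul_of_nonneg_left h2 (by positivity)

/-- moments of the admissible functions -/
theorem moment (h : HM (KB A)⁻¹) (H : HM L) {m b : ℝ} (hm : 0 < m) (hb : 0 ≤ b) :
    ∃ C : ℝ, 0 < C ∧ ∀ ψ, Adm H ψ → ∫ x, (b - ψ x) ^ m ∂(vm h) ≤ C := by
  obtain ⟨η, hη, C, hC, hE⟩ := exp_adm h H
  have hfin : IsFiniteMeasure (vm h) := isFinite_vm h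
  refine ⟨(m / η) ^ m * Real.exp (η * b) * C + 1, by positivity, fun ψ hψ => ?_⟩
  have hc : Continuous ψ := continuous_of_sm hψ.sm
  have hexp : Continuous fun x => Real.exp (-(η * ψ x)) :=
    Real.continuous_exp.comp (hc.const_mul η).neg
  have hpw : Continuous fun x => (b - ψ x) ^ m :=
    (continuous_const.sub hc).rpow_const fun x => Or.inr hm.le
  have h2 := hE ψ hψ
  calc ∫ x, (b - ψ x) ^ m ∂(vm h)
      ≤ ∫ x, (m / η) ^ m * Real.exp (η * b) * Real.exp (-(η * ψ x)) ∂(vm h) := by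
        refine integral_mono (int_cont hpw) ((int_cont hexp).const_mul _) fun x => ?_
        have h4 := rpow_le_exp hm hη (show 0 ≤ b - ψ x by linarith [hψ.le x])
        refine h4.trans (le_of_eq ?_)
        rw [mul_assoc, ← Real.exp_add]
        congr 2
        ring
    _ = (m / η) ^ m * Real.exp (η * b) * ∫ x, Real.exp (-(η * ψ x)) ∂(vm h) :=
        integral_const_mul _ _
    _ ≤ (m / η) ^ m * Real.exp (η * b) * C :=
        mul_le_mul_of_nonneg_left h2 (by positivity)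
    _ ≤ _ := by linarith

/-- smooth approximation of the positive part -/
def sp (δ t : ℝ) : ℝ := (t + Real.sqrt (t ^ 2 + δ ^ 2)) / 2

theorem sp_pos {δ t : ℝ} (hδ : 0 < δ) : 0 < sp δ t := by
  unfold sp
  have h1 : |t| < Real.sqrt (t ^ 2 + δ ^ 2) := by
    rw [← Real.sqrt_sq_eq_abs]
    exact Real.sqrt_lt_sqrt (sq_nonneg _) (by nlinarith [sq_pos_of_pos hδ])
  have h2 := neg_abs_le t
  linarith

theorem le_sp {δ t : ℝ} (hδ : 0 < δ) : t ≤ sp δ t := by
  unfold sp
  have h1 : |t| ≤ Real.sqrt (t ^ 2 + δ ^ 2) := by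
    rw [← Real.sqrt_sq_eq_abs]
    exact Real.sqrt_le_sqrt (by nlinarith [sq_nonneg δ])
  have h2 := le_abs_self t
  linarith

theorem sp_le {δ t : ℝ} (hδ : 0 < δ) : sp δ t ≤ max t 0 + δ := by
  unfold sp
  have h1 : Real.sqrt (t ^ 2 + δ ^ 2) ≤ |t| + δ := by
    rw [Real.sqrt_le_left (by positivity)]
    have := abs_nonneg t
    nlinarith [sq_abs t]
  rcases le_total 0 t with h | h
  · rw [max_eq_left h]
    rw [abs_of_nonneg h] at h1
    linarith
  · rw [max_eq_right h]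
    rw [abs_of_nonpos h] at h1
    linarith

theorem sp_sm {δ : ℝ} (hδ : 0 < δ) : ContDiff ℝ ∞ (sp δ) := by
  unfold sp
  refine ContDiff.div_const (contDiff_id.add ?_) _
  refine ContDiff.sqrt ((contDiff_id.pow 2).add contDiff_const) fun t => ?_
  positivity

theorem adm_of {H : HM L} {w : M → ℝ} {K' : Kah A} (hw : A.Sm w)
    (hg : ∀ i, ∀ x ∈ (A.e i).source, K'.g i x = cur H i x + hsf A w i x) :
    ∃ B : ℝ, Adm H (fun x => w x - B) ∧
      ∀ i, ∀ x ∈ (A.e i).source, K'.g i x = cur H i x + hsf A (fun x => w x - B) i x := by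
  have hc := continuous_of_sm hw
  obtain ⟨x₀, -, hx₀⟩ := isCompact_univ.exists_isMaxOn (univ_nonempty (α := M)) hc.continuousOn
  have hs : A.Sm (fun x => w x - w x₀) := fun i => (hw i).sub contDiffOn_const
  have e : ∀ i, ∀ x ∈ (A.e i).source, hsf A (fun x => w x - w x₀) i x = hsf A w i x :=
    fun i x hx => hsf_sub_const hw _ hx
  refine ⟨w x₀, ⟨hs, fun i x hx => ?_, fun x => ?_, ⟨x₀, sub_self _⟩⟩, fun i x hx => ?_⟩
  · rw [e i x hx, ← hg i x hx]
    exact (K'.pos i x hx).posSemidef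
  · have : w x ≤ w x₀ := hx₀ (mem_univ x)
    show w x - w x₀ ≤ 0
    linarith
  · rw [e i x hx]; exact hg i x hx

theorem dtM_cur {H : HM L} (hH : H.Pos) (x : M) : dtM (volK (kah H hH)) (cur H) x = 1 := by
  have hx := mem_ch A x
  unfold dtM
  exact div_self ((volK (kah H hH)).pos _ x hx).ne'

/-- Hölder's inequality for continuous nonnegative functions -/
theorem holder {μ : Measure M} [IsFiniteMeasure μ] {f g : M → ℝ} (hf : Continuous f)
    (hg : Continuous g) (hf0 : ∀ x, 0 ≤ f x) (hg0 : ∀ x, 0 ≤ g x) {p q : ℝ}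
    (hpq : p.HolderConjugate q) :
    ∫ x, f x * g x ∂μ ≤ (∫ x, f x ^ p ∂μ) ^ (1 / p) * (∫ x, g x ^ q ∂μ) ^ (1 / q) :=
  integral_mul_le_Lp_mul_Lq_of_nonneg hpq (Eventually.of_forall hf0) (Eventually.of_forall hg0)
    (memLp_cont hf _) (memLp_cont hg _)

/-- **Kolodziej's estimate** -/
theorem kol (hY : YauStmt) (hG : GoodA A) (P : Part A) {H : HM L} (hH : H.Pos) {q K₁ : ℝ} (hq : 1 < q) :
    ∃ C : ℝ, ∀ (F φ : M → ℝ) (K' : Kah A), A.Sm F → (∀ x, 0 < F x) →
      ∫ x, F x ^ q ∂(vm (volK (kah H hH))) ≤ K₁ →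
      ∫ x, F x ∂(vm (volK (kah H hH))) = (vm (volK (kah H hH))).real univ →
      Adm H φ → (∀ i, ∀ x ∈ (A.e i).source, K'.g i x = cur H i x + hsf A φ i x) →
      (∀ x, dtM (volK (kah H hH)) K'.g x = F x) → ∀ x, - φ x ≤ C := by
  set K : Kah A := kah H hH with hK
  set h : HM (KB A)⁻¹ := volK K with hh'
  set μ : Measure M := vm h with hμ
  have hfin : IsFiniteMeasure μ := isFinite_vm h
  have hpos : μ.IsOpenPosMeasure := isOpenPos_vm h
  set V : ℝ := μ.real univ with hV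
  have hV0 : 0 < V := by
    rw [hV, measureReal_def]
    exact ENNReal.toReal_pos (isOpen_univ.measure_pos μ univ_nonempty).ne' (measure_ne_top _ _)
  -- the conjugate exponent
  set q' : ℝ := q / (q - 1) with hq'
  have hpq : q.HolderConjugate q' := Real.HolderConjugate.conjExponent hq
  have hq0 : 0 < q := by linarith
  have hq'0 : 0 < q' := hpq.symm.pos
  set K₂ : ℝ := max K₁ 0 ^ (1 / q) with hK₂
  have hK₂0 : 0 ≤ K₂ := by positivity
  obtain ⟨C₁, hC₁, hm₁⟩ := moment h H (m := q') (b := 0) hq'0 le_rfl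
  set a₁ : ℝ := (K₂ * C₁ ^ (1 / q')) / V + 1 with ha₁
  have ha₁0 : 0 < a₁ := by positivity
  obtain ⟨C₂, hC₂, hm₂⟩ := moment h H (m := 8 * q' / 3) (b := 2 / 3 * a₁) (by positivity)
    (by positivity)
  set C₃ : ℝ := K₂ * ((9 / 4 : ℝ) ^ ((4 : ℝ) / 3) * C₂ ^ (1 / q')) + 1 with hC₃
  have hC₃0 : 0 < C₃ := by positivity
  refine ⟨2 ^ 9 * (C₃ * V⁻¹ ^ ((4 : ℝ) / 3)) ^ ((3 : ℝ) / 8) * V ^ ((1 : ℝ) / 8), ?_⟩
  intro F φ K' hF hF0 hFq hFV hφ hg hdt
  have hFc : Continuous F := continuous_of_sm hF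
  have hφc : Continuous φ := continuous_of_sm hφ.sm
  have hFq' : (∫ x, F x ^ q ∂μ) ^ (1 / q) ≤ K₂ :=
    Real.rpow_le_rpow (integral_nonneg fun x => Real.rpow_nonneg (hF0 x).le _)
      (hFq.trans (le_max_left _ _)) (by positivity)
  have hhol : ∀ g : M → ℝ, Continuous g → (∀ x, 0 ≤ g x) →
      ∫ x, g x * F x ∂μ ≤ K₂ * (∫ x, g x ^ q' ∂μ) ^ (1 / q') := by
    intro g hg hg0
    have h1 := holder (μ := μ) hFc hg (fun x => (hF0 x).le) hg0 hpq
    calc ∫ x, g x * F x ∂μ = ∫ x, F x * g x ∂μ := by simp only [mul_comm]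
      _ ≤ _ := h1.trans (mul_le_mul_of_nonneg_right hFq' (Real.rpow_nonneg
        (integral_nonneg fun x => Real.rpow_nonneg (hg0 x) _) _))
  refine dg_int hφc hFc hF0 (by positivity) hV0 hFV.le fun s hs => ?_
  have hhc := hh_cont hφc s
  set as : ℝ := ∫ x, hh φ s x * F x ∂μ with has
  have has0 : 0 ≤ as := integral_nonneg fun x => mul_nonneg (hh_nonneg _ _ _) (hF0 x).le
  -- bound of `as`
  have has1 : as ≤ K₂ * C₁ ^ (1 / q') := by
    have h1 : as ≤ ∫ x, (0 - φ x) * F x ∂μ := by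
      refine integral_mono (int_cont (hhc.mul hFc))
        (int_cont ((continuous_const.sub hφc).mul hFc)) fun x => ?_
      refine mul_le_mul_of_nonneg_right ?_ (hF0 x).le
      have := hφ.le x
      unfold hh
      exact max_le (by linarith) (by linarith)
    refine h1.trans ((hhol _ (continuous_const.sub hφc) fun x => by
      have := hφ.le x
      show 0 ≤ 0 - φ x
      linarith).trans ?_)
    refine mul_le_mul_of_nonneg_left (Real.rpow_le_rpow (integral_nonneg fun x =>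
      Real.rpow_nonneg ?_ _) (hm₁ φ hφ) (by positivity)) hK₂0
    have := hφ.le x
    show 0 ≤ 0 - φ x
    linarith
  -- the estimate with `δ`
  have key : ∀ δ : ℝ, 0 < δ → δ ≤ 1 →
      ∫ x, hh φ s x ^ 4 * F x ∂μ ≤ C₃ * (as / V + δ) ^ ((4 : ℝ) / 3) := by
    intro δ hδ hδ1
    set E : M → ℝ := fun x => sp δ (- φ x - s) with hE
    have hEs : A.Sm E := fun i =>
      (sp_sm hδ).comp_contDiffOn ((hφ.sm i).neg.sub contDiffOn_const)
    have hE0 : ∀ x, 0 < E x := fun x => sp_pos hδ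
    have hEc : Continuous E := continuous_of_sm hEs
    have hEFs : A.Sm (fun x => E x * F x) := fun i => (hEs i).mul (hF i)
    obtain ⟨w, K2, c, hw, hg2, hd2, hc2⟩ := exists_F hY hG P hH h
      (F := fun x => E x * F x) hEFs fun x => mul_pos (hE0 x) (hF0 x)
    obtain ⟨B, hψ, hgψ⟩ := adm_of hw hg2
    set ψ : M → ℝ := fun x => w x - B with hψd
    set I : ℝ := ∫ x, E x * F x ∂μ with hI
    have hVI : Real.exp c * I = V := by
      have h1 : ∫ x, dtM h (cur H) x ∂μ = V := by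
        simp only [hh', hK, dtM_cur hH]
        rw [integral_const, smul_eq_mul, mul_one]
      rw [hI, hc2]
      exact h1
    set a : ℝ := I / V with ha
    have hI0 : 0 < I := by
      have := Real.exp_pos c
      by_contra hcon
      push Not at hcon
      nlinarith
    have ha0 : 0 < a := div_pos hI0 hV0
    have hca : Real.exp c = 1 / a := by
      rw [ha, one_div_div, eq_div_iff hI0.ne']
      exact hVI
    have haa : a ≤ as / V + δ := by
      have h1 : I ≤ as + δ * V := by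
        have h2 : I ≤ ∫ x, (hh φ s x * F x + δ * F x) ∂μ := by
          refine integral_mono (int_cont (hEc.mul hFc))
            (int_cont ((hhc.mul hFc).add (continuous_const.mul hFc))) fun x => ?_
          have h3 : E x ≤ hh φ s x + δ := sp_le hδ
          simp only
          nlinarith [hF0 x]
        have h4 : ∫ x, (hh φ s x * F x + δ * F x) ∂μ = as + δ * V := by
          rw [has, ← hFV, ← integral_const_mul]
          exact integral_add (int_cont (hhc.mul hFc)) ((int_cont hFc).const_mul δ)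
        rw [h4] at h2
        exact h2
      rw [ha, div_add' _ _ _ hV0.ne']
      gcongr
    have haa1 : a ≤ a₁ := by
      refine haa.trans ?_
      rw [ha₁]
      gcongr
    set ε : ℝ := (9 / 4 * a) ^ ((1 : ℝ) / 3) with hε
    have hε0 : 0 < ε := by positivity
    have hε3 : ε ^ 3 = 9 / 4 * a := by
      rw [hε, ← Real.rpow_natCast, ← Real.rpow_mul (by positivity)]
      norm_num
    have hε4 : ε ^ 4 = (9 / 4 : ℝ) ^ ((4 : ℝ) / 3) * a ^ ((4 : ℝ) / 3) := by
      rw [hε, ← Real.rpow_natCast, ← Real.rpow_mul (by positivity),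
        ← Real.mul_rpow (by positivity) ha0.le]
      norm_num
    have hcmp := gpt (F := F) (E := E) K K' K2 hφ.sm hψ.sm hg hgψ ha0 hε0 hε3 hF0 (s := s)
      (fun i x hx => by
        have h1 := hdt x
        rw [dtM_eq h (tf_kah K') hx] at h1
        have h2 : h.w i x = (K.g i x).det.re := rfl
        rw [h2, div_eq_iff (by rw [← h2]; exact (h.pos i x hx).ne')] at h1
        exact h1)
      (fun i x hx => by
        have h1 := hd2 x
        rw [dtM_eq h (tf_kah K2) hx, hca] at h1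
        have h2 : h.w i x = (K.g i x).det.re := rfl
        rw [h2, div_eq_iff (by rw [← h2]; exact (h.pos i x hx).ne')] at h1
        exact h1)
      (fun x => le_sp hδ) hψ.le
    -- integrate
    have hb0 : ∀ x, 0 ≤ 2 / 3 * a - ψ x := fun x => by
      have := hψ.le x
      have : ψ x ≤ 0 := this
      linarith
    have hb1 : ∀ x, 0 ≤ 2 / 3 * a₁ - ψ x := fun x => by
      have : ψ x ≤ 0 := hψ.le x
      linarith
    have hψc : Continuous ψ := continuous_of_sm hψ.sm
    have hpt : ∀ x, hh φ s x ^ 4 ≤ ε ^ 4 * (2 / 3 * a₁ - ψ x) ^ ((8 : ℝ) / 3) := by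
      intro x
      have h1 : hh φ s x ≤ ε * (2 / 3 * a₁ - ψ x) ^ ((2 : ℝ) / 3) := by
        unfold hh
        refine max_le ((hcmp x).trans ?_) (mul_nonneg hε0.le (Real.rpow_nonneg (hb1 x) _))
        refine mul_le_mul_of_nonneg_left (Real.rpow_le_rpow (hb0 x) (by linarith) (by norm_num))
          hε0.le
      calc hh φ s x ^ 4 ≤ (ε * (2 / 3 * a₁ - ψ x) ^ ((2 : ℝ) / 3)) ^ 4 :=
            pow_le_pow_left₀ (hh_nonneg _ _ _) h1 4
        _ = _ := by
            rw [mul_pow, ← Real.rpow_natCast ((2 / 3 * a₁ - ψ x) ^ ((2 : ℝ) / 3)) 4,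
              ← Real.rpow_mul (hb1 x)]
            norm_num
    have hgc : Continuous fun x => ε ^ 4 * (2 / 3 * a₁ - ψ x) ^ ((8 : ℝ) / 3) :=
      continuous_const.mul ((continuous_const.sub hψc).rpow_const fun x => Or.inr (by norm_num))
    have hg0 : ∀ x, 0 ≤ ε ^ 4 * (2 / 3 * a₁ - ψ x) ^ ((8 : ℝ) / 3) := fun x =>
      mul_nonneg (by positivity) (Real.rpow_nonneg (hb1 x) _)
    have s1 : ∫ x, hh φ s x ^ 4 * F x ∂μ ≤
        ∫ x, (ε ^ 4 * (2 / 3 * a₁ - ψ x) ^ ((8 : ℝ) / 3)) * F x ∂μ :=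
      integral_mono (int_cont ((hhc.pow 4).mul hFc)) (int_cont (hgc.mul hFc)) fun x =>
        mul_le_mul_of_nonneg_right (hpt x) (hF0 x).le
    have s2 := hhol _ hgc hg0
    have e1 : ∀ x, (ε ^ 4 * (2 / 3 * a₁ - ψ x) ^ ((8 : ℝ) / 3)) ^ q' =
        (ε ^ 4) ^ q' * (2 / 3 * a₁ - ψ x) ^ (8 * q' / 3) := by
      intro x
      rw [Real.mul_rpow (by positivity) (Real.rpow_nonneg (hb1 x) _), ← Real.rpow_mul (hb1 x)]
      congr 2
      ring
    simp only [e1] at s2
    rw [integral_const_mul, Real.mul_rpow (by positivity) (integral_nonneg fun x =>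
      Real.rpow_nonneg (hb1 x) _), ← Real.rpow_mul (by positivity),
      mul_one_div_cancel hq'0.ne', Real.rpow_one] at s2
    have s3 : (∫ x, (2 / 3 * a₁ - ψ x) ^ (8 * q' / 3) ∂μ) ^ (1 / q') ≤ C₂ ^ (1 / q') :=
      Real.rpow_le_rpow (integral_nonneg fun x => Real.rpow_nonneg (hb1 x) _) (hm₂ ψ hψ)
        (by positivity)
    have s4 : a ^ ((4 : ℝ) / 3) ≤ (as / V + δ) ^ ((4 : ℝ) / 3) :=
      Real.rpow_le_rpow ha0.le haa (by norm_num)
    have hR0 : 0 ≤ (as / V + δ) ^ ((4 : ℝ) / 3) := by positivity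
    calc ∫ x, hh φ s x ^ 4 * F x ∂μ
        ≤ K₂ * (ε ^ 4 * (∫ x, (2 / 3 * a₁ - ψ x) ^ (8 * q' / 3) ∂μ) ^ (1 / q')) := s1.trans s2
      _ ≤ K₂ * (ε ^ 4 * C₂ ^ (1 / q')) := by gcongr
      _ = K₂ * ((9 / 4 : ℝ) ^ ((4 : ℝ) / 3) * C₂ ^ (1 / q')) * a ^ ((4 : ℝ) / 3) := by
          rw [hε4]; ring
      _ ≤ K₂ * ((9 / 4 : ℝ) ^ ((4 : ℝ) / 3) * C₂ ^ (1 / q')) * (as / V + δ) ^ ((4 : ℝ) / 3) := by
          gcongr
      _ ≤ C₃ * (as / V + δ) ^ ((4 : ℝ) / 3) := by
          rw [hC₃, add_mul]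
          linarith
  -- let `δ → 0`
  have hlim : Tendsto (fun δ : ℝ => C₃ * (as / V + δ) ^ ((4 : ℝ) / 3)) (𝓝[>] 0)
      (𝓝 (C₃ * (as / V) ^ ((4 : ℝ) / 3))) := by
    have h1 : Continuous fun δ : ℝ => C₃ * (as / V + δ) ^ ((4 : ℝ) / 3) :=
      continuous_const.mul ((continuous_const.add continuous_id).rpow_const fun x =>
        Or.inr (by norm_num))
    have h2 := (h1.tendsto 0).mono_left (nhdsWithin_le_nhds (s := Ioi (0 : ℝ)))
    simpa using h2
  have h1 : ∫ x, hh φ s x ^ 4 * F x ∂μ ≤ C₃ * (as / V) ^ ((4 : ℝ) / 3) := by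
    refine ge_of_tendsto hlim ?_
    filter_upwards [Ioc_mem_nhdsGT (show (0 : ℝ) < 1 by norm_num)] with δ hδ
    exact key δ hδ.1 hδ.2
  refine h1.trans (le_of_eq ?_)
  rw [div_eq_mul_inv, Real.mul_rpow has0 (by positivity)]
  ring

end

end Crest.Agent.R257.Kol3_101
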