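import Crest.Agent.R257.N2K_328
import Crest.Agent.R257.Sh14_297

/-!
Row 257 (S0395), leaf LC-N2, file L (helper328): `N2Stmt` (plane curves, unconditional).
-/

set_option autoImplicit false

open Set Filter Topology
open Crest.Agent.R257.Defs_219 Crest.Agent.R257.LCDefs_472

noncomputable section

namespace Crest.Agent.R257.N2_328

theorem ot2Stmt : OT2Stmt := by
  intro F g p hp hF _ _ hfin hreg hg hJ
  exact Sh_297.otN (n := 1) le_rfl hp hF hfin hreg hg hJ

/-- **`μ`-constant families `x_0² + q(y, z, t)`** -/
theorem n2Stmt : N2Stmt := n2Stmt_of ot2Stmt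

end Crest.Agent.R257.N2_328
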