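import Crest.Agent.R257.LCTopA_472
import Crest.Agent.R257.LCf_472
import Crest.Agent.R257.P8e_472
import Crest.Agent.R257.LcTop_980
import Crest.Agent.R257.Rig6_20
import Crest.Agent.R257.N2L_328
import Crest.Agent.R257.Flag3D_799
import Crest.Agent.R257.Line3_648
import Crest.Agent.R257.NodeB_547
import Crest.Agent.R257.Mu8_799

/-!
R257 / LCTop_472: the log canonical case, `LCStmt` of Defs_219, proved.
-/

set_option autoImplicit false

noncomputable section

namespace Crest.Agent.R257.LCTop_472

open Crest.Agent.R257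

theorem p8Stmt : LCDefs_472.P8Stmt :=
  P8e_472.p8_of fun _ hf h1 h2 hfin => Mu8_799.mu_ge_eight hf h1 h2 hfin

theorem m3Stmt : LCDefs_472.M3Stmt := m3_of Node_547.node Line_648.lineStmt p8Stmt

/-- **the log canonical case** -/
theorem lcStmt : Defs_219.LCStmt :=
  lc_of LcTop_980.pos Rig20.ra_stmt m3Stmt Flag3_799.flag3Stmt N2_328.n2Stmt LCf_472.splitStmt

end Crest.Agent.R257.LCTop_472
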