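import Mathlib
import Crest.Agent.R276.Lq_464

/-!
Row 257 (S0395), leaf LC-POS (helper980), part 1: mean value inequality for `‖G‖ ^ q` on
anisotropic polydiscs `x + A (polydisc of radii ρ)`, `A` a fixed linear isomorphism, with the
constant independent of `ρ`.
-/

set_option autoImplicit false

open MeasureTheory Metric Set Filter Topology
open scoped ENNReal Real NNReal

noncomputable section

namespace Crest.Agent.R257.LcP1_980

variable {n : ℕ}

/-- diagonal scaling -/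
def dg (ρ : Fin n → ℝ) : (Fin n → ℂ) →ₗ[ℂ] (Fin n → ℂ) where
  toFun X := fun i => (ρ i : ℂ) * X i
  map_add' X Y := by ext i; simp [mul_add]
  map_smul' c X := by ext i; simp; ring

@[simp] theorem dg_apply (ρ : Fin n → ℝ) (X : Fin n → ℂ) (i : Fin n) :
    dg ρ X i = (ρ i : ℂ) * X i := rfl

theorem dg_inj {ρ : Fin n → ℝ} (hρ : ∀ i, 0 < ρ i) : Function.Injective (dg ρ) := by
  intro X Y h
  ext i
  have := congrFun h i
  simp only [dg_apply] at this
  exact mul_left_cancel₀ (by exact_mod_cast (hρ i).ne') this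

theorem dg_image {ρ : Fin n → ℝ} (hρ : ∀ i, 0 < ρ i) :
    dg ρ '' (ball (0 : Fin n → ℂ) 1) = Set.pi univ fun i => ball (0 : ℂ) (ρ i) := by
  ext Y
  constructor
  · rintro ⟨X, hX, rfl⟩
    intro i _
    have h1 : ‖X i‖ < 1 := (norm_le_pi_norm X i).trans_lt (by simpa using hX)
    simp only [dg_apply, mem_ball_zero_iff, norm_mul, Complex.norm_real, Real.norm_eq_abs,
      abs_of_pos (hρ i)]
    exact mul_lt_of_lt_one_right (hρ i) h1
  · intro hY
    refine ⟨fun i => (ρ i : ℂ)⁻¹ * Y i, ?_, ?_⟩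
    · rw [mem_ball_zero_iff, pi_norm_lt_iff one_pos]
      intro i
      have h1 : ‖Y i‖ < ρ i := by simpa using hY i (mem_univ i)
      rw [norm_mul, norm_inv, Complex.norm_real, Real.norm_eq_abs, abs_of_pos (hρ i),
        inv_mul_lt_one₀ (hρ i)]
      exact h1
    · ext i
      simp only [dg_apply]
      rw [← mul_assoc, mul_inv_cancel₀ (by exact_mod_cast (hρ i).ne'), one_mul]

/-- a linear injective map scales the volume -/
theorem map_vol (L : (Fin n → ℂ) →ₗ[ℂ] (Fin n → ℂ)) (hL : Function.Injective L) :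
    ∃ c : ℝ≥0, 0 < c ∧ Measure.map L volume = (c : ℝ≥0∞) • (volume : Measure (Fin n → ℂ)) := by
  have hdet : LinearMap.det (L.restrictScalars ℝ) ≠ 0 := by
    have h1 : Function.Injective (L.restrictScalars ℝ) := hL
    have h2 : IsUnit (L.restrictScalars ℝ) :=
      (LinearMap.isUnit_iff_ker_eq_bot _).2 (LinearMap.ker_eq_bot.2 h1)
    exact (h2.map LinearMap.det).ne_zero
  refine ⟨Real.toNNReal |(LinearMap.det (L.restrictScalars ℝ))⁻¹|, ?_, ?_⟩
  · rw [Real.toNNReal_pos]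
    exact abs_pos.2 (inv_ne_zero hdet)
  · have := Measure.map_linearMap_addHaar_eq_smul_addHaar
      (μ := (volume : Measure (Fin n → ℂ))) hdet
    rw [LinearMap.coe_restrictScalars] at this
    rw [this]; rfl

theorem isHomeo (L : (Fin n → ℂ) →ₗ[ℂ] (Fin n → ℂ)) (hL : Function.Injective L) :
    MeasurableEmbedding L := by
  have h := (LinearEquiv.ofBijective L ⟨hL, LinearMap.injective_iff_surjective.1 hL⟩)
  have e : (Fin n → ℂ) ≃L[ℂ] (Fin n → ℂ) :=
    (LinearEquiv.ofBijective L ⟨hL, LinearMap.injective_iff_surjective.1 hL⟩).toContinuousLinearEquiv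
  have h2 : MeasurableEmbedding
      ((LinearEquiv.ofBijective L
        ⟨hL, LinearMap.injective_iff_surjective.1 hL⟩).toContinuousLinearEquiv) :=
    (LinearEquiv.ofBijective L
      ⟨hL, LinearMap.injective_iff_surjective.1 hL⟩).toContinuousLinearEquiv.toHomeomorph.measurableEmbedding
  exact h2

/-- the constant for the diagonal scaling -/
theorem map_dg {ρ : Fin n → ℝ} (hρ : ∀ i, 0 < ρ i) :
    Measure.map (dg ρ) volume =
      (∏ i, ENNReal.ofReal (ρ i ^ 2))⁻¹ • (volume : Measure (Fin n → ℂ)) := by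
  obtain ⟨c, hc, h⟩ := map_vol (dg ρ) (dg_inj hρ)
  rw [h]
  congr 1
  have hme := isHomeo (dg ρ) (dg_inj hρ)
  have h1 : Measure.map (dg ρ) volume (dg ρ '' ball (0 : Fin n → ℂ) 1) =
      volume (ball (0 : Fin n → ℂ) 1) := by
    rw [hme.map_apply, preimage_image_eq _ (dg_inj hρ)]
  rw [h, dg_image hρ, Measure.smul_apply, smul_eq_mul, volume_pi_pi, volume_pi_ball _ one_pos] at h1
  have h2 : ∀ i, volume (ball (0 : ℂ) (ρ i)) = ENNReal.ofReal (ρ i ^ 2) * volume (ball (0 : ℂ) 1) := by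
    intro i
    rw [Complex.volume_ball, Complex.volume_ball, ENNReal.ofReal_pow (hρ i).le]
    simp
  have h3 : (∏ i : Fin n, volume (ball ((0 : Fin n → ℂ) i) 1)) = ∏ i : Fin n, volume (ball (0 : ℂ) 1) := rfl
  rw [Finset.prod_congr rfl fun i _ => h2 i, Finset.prod_mul_distrib, h3] at h1
  set V := ∏ i : Fin n, volume (ball (0 : ℂ) 1) with hV
  have hV0 : V ≠ 0 := by
    rw [hV, Finset.prod_ne_zero_iff]
    intro i _
    exact (measure_ball_pos volume (0 : ℂ) one_pos).ne'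
  have hVt : V ≠ ∞ := by
    rw [hV]
    exact ENNReal.prod_ne_top fun i _ => measure_ball_lt_top.ne
  set P := ∏ i, ENNReal.ofReal (ρ i ^ 2) with hP
  rw [← mul_assoc] at h1
  have h4 : (c : ℝ≥0∞) * P = 1 := by
    have := congrArg (· * V⁻¹) h1
    simpa [mul_assoc, ENNReal.mul_inv_cancel hV0 hVt] using this
  exact ENNReal.eq_inv_of_mul_eq_one_left h4

/-- the anisotropic polydisc around `x` -/
def box (A : (Fin n → ℂ) →ₗ[ℂ] (Fin n → ℂ)) (x : Fin n → ℂ) (ρ : Fin n → ℝ) :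
    Set (Fin n → ℂ) :=
  {y | ∃ X : Fin n → ℂ, (∀ i, ‖X i‖ < ρ i) ∧ y = x + A X}

theorem isOpen_box (A : (Fin n → ℂ) →ₗ[ℂ] (Fin n → ℂ)) (hA : Function.Injective A)
    (x : Fin n → ℂ) {ρ : Fin n → ℝ} (hρ : ∀ i, 0 < ρ i) : IsOpen (box A x ρ) := by
  set L : (Fin n → ℂ) →ₗ[ℂ] (Fin n → ℂ) := A.comp (dg ρ) with hLdef
  have hLi : Function.Injective L := hA.comp (dg_inj hρ)
  have : box A x ρ = (fun y => x + y) '' (L '' ball (0 : Fin n → ℂ) 1) := by
    ext y
    constructor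
    · intro hy
      obtain ⟨X, hX, rfl⟩ := hy
      have h4 : X ∈ dg ρ '' ball (0 : Fin n → ℂ) 1 := by
        rw [dg_image hρ]
        intro i _
        simpa using hX i
      obtain ⟨Z, hZ, rfl⟩ := h4
      exact ⟨L Z, ⟨Z, hZ, rfl⟩, rfl⟩
    · rintro ⟨_, ⟨Z, hZ, rfl⟩, rfl⟩
      refine ⟨dg ρ Z, ?_, rfl⟩
      have h4 : dg ρ Z ∈ dg ρ '' ball (0 : Fin n → ℂ) 1 := ⟨Z, hZ, rfl⟩
      rw [dg_image hρ] at h4
      intro i
      simpa using h4 i (mem_univ i)
  rw [this]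
  have hLo : IsOpenMap L :=
    LinearMap.isOpenMap_of_finiteDimensional L (LinearMap.injective_iff_surjective.1 hLi)
  exact (Homeomorph.addLeft x).isOpenMap _ (hLo _ isOpen_ball)

/-- MEAN VALUE INEQUALITY ON ANISOTROPIC POLYDISCS -/
theorem wsubmean (A : (Fin n → ℂ) →ₗ[ℂ] (Fin n → ℂ)) (hA : Function.Injective A) :
    ∃ K : ℝ≥0, ∀ (D : Set (Fin n → ℂ)) (G : (Fin n → ℂ) → ℂ) (x : Fin n → ℂ) (ρ : Fin n → ℝ)
      (q : ℝ), IsOpen D → DifferentiableOn ℂ G D → (∀ i, 0 < ρ i) → 0 < q →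
      (∀ X : Fin n → ℂ, (∀ i, ‖X i‖ ≤ ρ i) → x + A X ∈ D) →
      (∏ i, ENNReal.ofReal (ρ i ^ 2)) * ‖G x‖ₑ ^ q ≤
        K * ∫⁻ y in box A x ρ, ‖G y‖ₑ ^ q := by
  obtain ⟨c, hc, hmA⟩ := map_vol A hA
  set V := volume (ball (0 : Fin n → ℂ) 1) with hV
  have hV0 : V ≠ 0 := (measure_ball_pos volume (0 : Fin n → ℂ) one_pos).ne'
  have hVt : V ≠ ∞ := measure_ball_lt_top.ne
  refine ⟨V.toNNReal⁻¹ * c, ?_⟩
  intro D G x ρ q hD hG hρ hq hsub
  set L : (Fin n → ℂ) →ₗ[ℂ] (Fin n → ℂ) := A.comp (dg ρ) with hLdef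
  have hLi : Function.Injective L := hA.comp (dg_inj hρ)
  have hLc : Continuous L := LinearMap.continuous_of_finiteDimensional L
  have hAc : Continuous A := LinearMap.continuous_of_finiteDimensional A
  have hdc : Continuous (dg ρ) := LinearMap.continuous_of_finiteDimensional (dg ρ)
  have hL : MeasurableEmbedding L := isHomeo L hLi
  set P := ∏ i, ENNReal.ofReal (ρ i ^ 2) with hP
  have hP0 : P ≠ 0 := by
    rw [hP, Finset.prod_ne_zero_iff]
    intro i _
    have := hρ i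
    simp only [ne_eq, ENNReal.ofReal_eq_zero, not_le]
    positivity
  have hPt : P ≠ ∞ := by
    rw [hP]; exact ENNReal.prod_ne_top fun i _ => ENNReal.ofReal_ne_top
  have hmL : Measure.map L volume = (P⁻¹ * c) • (volume : Measure (Fin n → ℂ)) := by
    have h1 : Measure.map L volume = Measure.map A (Measure.map (dg ρ) volume) := by
      rw [Measure.map_map hAc.measurable hdc.measurable]; rfl
    rw [h1, map_dg hρ, Measure.map_smul, hmA, smul_smul]
  -- the function on the unit polydisc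
  set D' : Set (Fin n → ℂ) := {X | x + L X ∈ D} with hD'
  have hD'o : IsOpen D' := hD.preimage (by fun_prop)
  have hLd : Differentiable ℂ (fun X => x + L X) := by
    have := (LinearMap.toContinuousLinearMap L).differentiable
    exact (differentiable_const x).add this
  have hH : DifferentiableOn ℂ (fun X => G (x + L X)) D' :=
    hG.comp hLd.differentiableOn (fun X hX => hX)
  have hcb : closedBall (0 : Fin n → ℂ) 1 ⊆ D' := by
    intro X hX
    have hX' : ‖X‖ ≤ 1 := by simpa using hX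
    apply hsub (dg ρ X)
    intro i
    rw [dg_apply, norm_mul, Complex.norm_real, Real.norm_eq_abs, abs_of_pos (hρ i)]
    exact mul_le_of_le_one_right (hρ i).le ((norm_le_pi_norm X i).trans hX')
  have h1 := Crest.Agent.R276.Lq_464.submean hD'o hH hcb hq
  simp only [map_zero, add_zero] at h1
  rw [← hV] at h1
  -- change of variables
  set S : Set (Fin n → ℂ) := box A x ρ with hS
  have hmemS : ∀ X, x + L X ∈ S ↔ X ∈ ball (0 : Fin n → ℂ) 1 := by
    intro X
    constructor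
    · rintro ⟨Y, hY, hYX⟩
      have h2 : L X = A Y := add_left_cancel hYX
      have h3 : dg ρ X = Y := hA h2
      have h4 : Y ∈ dg ρ '' ball (0 : Fin n → ℂ) 1 := by
        rw [dg_image hρ]
        intro i _
        simpa using hY i
      obtain ⟨Z, hZ, hZY⟩ := h4
      have : X = Z := dg_inj hρ (by rw [h3, hZY])
      rw [this]; exact hZ
    · intro hX
      refine ⟨dg ρ X, ?_, rfl⟩
      have h4 : dg ρ X ∈ dg ρ '' ball (0 : Fin n → ℂ) 1 := ⟨X, hX, rfl⟩
      rw [dg_image hρ] at h4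
      intro i
      simpa using h4 i (mem_univ i)
  have hSo : IsOpen S := isOpen_box A hA x hρ
  have h2 : ∫⁻ X in ball (0 : Fin n → ℂ) 1, ‖G (x + L X)‖ₑ ^ q =
      ∫⁻ X, S.indicator (fun y => ‖G y‖ₑ ^ q) (x + L X) := by
    rw [← lintegral_indicator isOpen_ball.measurableSet]
    apply lintegral_congr
    intro X
    by_cases hX : X ∈ ball (0 : Fin n → ℂ) 1
    · rw [indicator_of_mem hX, indicator_of_mem ((hmemS X).2 hX)]
    · rw [indicator_of_notMem hX, indicator_of_notMem (fun h => hX ((hmemS X).1 h))]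
  have h3 : ∫⁻ X, S.indicator (fun y => ‖G y‖ₑ ^ q) (x + L X) =
      (P⁻¹ * c) * ∫⁻ y in S, ‖G y‖ₑ ^ q := by
    have h4 : ∫⁻ X, S.indicator (fun y => ‖G y‖ₑ ^ q) (x + L X) =
        ∫⁻ Y, S.indicator (fun y => ‖G y‖ₑ ^ q) (x + Y) ∂(Measure.map L volume) := by
      rw [hL.lintegral_map]
    rw [h4, hmL, lintegral_smul_measure, lintegral_add_left_eq_self
      (fun y => S.indicator (fun y => ‖G y‖ₑ ^ q) y) x, lintegral_indicator hSo.measurableSet,
      smul_eq_mul]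
  rw [h2, h3] at h1
  have hcoe : ((V.toNNReal⁻¹ * c : ℝ≥0) : ℝ≥0∞) = V⁻¹ * c := by
    rw [ENNReal.coe_mul, ENNReal.coe_inv, ENNReal.coe_toNNReal hVt]
    intro h
    rcases (ENNReal.toNNReal_eq_zero_iff V).1 h with h | h
    · exact hV0 h
    · exact hVt h
  rw [hcoe]
  calc P * ‖G x‖ₑ ^ q = P * (V⁻¹ * (V * ‖G x‖ₑ ^ q)) := by
        rw [← mul_assoc V⁻¹, ENNReal.inv_mul_cancel hV0 hVt, one_mul]
    _ ≤ P * (V⁻¹ * ((P⁻¹ * c) * ∫⁻ y in S, ‖G y‖ₑ ^ q)) := by gcongr
    _ = (P * P⁻¹) * (V⁻¹ * c * ∫⁻ y in S, ‖G y‖ₑ ^ q) := by ring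
    _ = V⁻¹ * c * ∫⁻ y in S, ‖G y‖ₑ ^ q := by rw [ENNReal.mul_inv_cancel hP0 hPt, one_mul]

end Crest.Agent.R257.LcP1_980
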