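import Crest.Agent.R257.LcxA_759
import Crest.Agent.R257.LcN_980

/-!
R257 / LcxB_759 (helper759): Taylor's formula for plane germs with the coefficients `cf`, uniqueness.
-/

set_option autoImplicit false
set_option linter.unusedSimpArgs false

open Topology Filter Set Asymptotics
open scoped Nat
open Crest.AlgGeometry.Germ

noncomputable section

namespace Crest.Agent.R257.LcxB_759

open Crest.Agent.R257.Defs_219 Crest.Agent.R257.LCDefs_472 Crest.Agent.R257.LcxDefs_759
open Crest.Agent.R257.LcxA_759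
open Finset.HasAntidiagonal (antidiagonal)

/-- the homogeneous part of degree `m` of the Taylor series at `x` -/
def hp (m : ℕ) (f : (Fin 2 → ℂ) → ℂ) (x y : Fin 2 → ℂ) : ℂ :=
  ∑ a ∈ antidiagonal m, y 0 ^ a.1 * y 1 ^ a.2 * nd 1 a.2 (nd 0 a.1 f) x

theorem sum_shift (m : ℕ) (g : ℕ → ℕ → ℂ) :
    (∑ a ∈ antidiagonal m, ((a.1 : ℂ) + 1) * g (a.1 + 1) a.2) +
      (∑ a ∈ antidiagonal m, ((a.2 : ℂ) + 1) * g a.1 (a.2 + 1)) =
    (m + 1) * ∑ a ∈ antidiagonal (m + 1), g a.1 a.2 := by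
  have k1 : (m + 1 : ℂ) * (∑ a ∈ antidiagonal (m + 1), g a.1 a.2) =
      (∑ a ∈ antidiagonal (m + 1), (a.1 : ℂ) * g a.1 a.2) +
      ∑ a ∈ antidiagonal (m + 1), ((a.2 : ℂ) * g a.1 a.2) := by
    rw [Finset.mul_sum, ← Finset.sum_add_distrib]
    refine Finset.sum_congr rfl fun a ha => ?_
    have : (a.1 : ℂ) + a.2 = m + 1 := by
      have := Finset.HasAntidiagonal.mem_antidiagonal.1 ha
      exact_mod_cast this
    rw [← this]; ring
  rw [k1]
  congr 1
  · rw [Finset.Nat.sum_antidiagonal_succ]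
    simp
  · rw [Finset.Nat.sum_antidiagonal_succ']
    simp

theorem hp_succ {f : (Fin 2 → ℂ) → ℂ} {x : Fin 2 → ℂ} (hf : AnalyticAt ℂ f x) (m : ℕ)
    (y : Fin 2 → ℂ) : y 0 * hp m (coordDeriv f 0) x y + y 1 * hp m (coordDeriv f 1) x y =
      (m + 1) * hp (m + 1) f x y := by
  have e0 : ∀ a b, nd 1 b (nd 0 a (coordDeriv f 0)) x =
      ((a : ℂ) + 1) * nd 1 b (nd 0 (a + 1) f) x := fun a b => by
    rw [(nd_congr (nd_cd hf 0 a) 1 b).self_of_nhds,
      (nd_const_mul (an_nd hf 0 (a + 1)) _ 1 b).self_of_nhds]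
  have e1 : ∀ a b, nd 1 b (nd 0 a (coordDeriv f 1)) x =
      ((b : ℂ) + 1) * nd 1 (b + 1) (nd 0 a f) x := fun a b => by
    rw [(nd_congr (nd_cd_comm hf 0 1 a) 1 b).self_of_nhds, (nd_cd (an_nd hf 0 a) 1 b).self_of_nhds]
  unfold hp
  rw [← sum_shift m fun a b => y 0 ^ a * y 1 ^ b * nd 1 b (nd 0 a f) x, Finset.mul_sum,
    Finset.mul_sum]
  congr 1
  · refine Finset.sum_congr rfl fun a _ => ?_
    rw [e0]; ring
  · refine Finset.sum_congr rfl fun a _ => ?_
    rw [e1]; ring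

theorem iter_hp {x : Fin 2 → ℂ} (y : Fin 2 → ℂ) (m : ℕ) : ∀ f : (Fin 2 → ℂ) → ℂ,
    AnalyticAt ℂ f x → iteratedFDeriv ℂ m f x (fun _ => y) = (m ! : ℂ) * hp m f x y := by
  induction m with
  | zero =>
    intro f hf
    rw [iteratedFDeriv_zero_apply]
    simp [hp, nd]
  | succ m ih =>
    intro f hf
    rw [LcN_980.iter_succ hf, Fin.sum_univ_two, ih _ (an_cd hf 0), ih _ (an_cd hf 1)]
    have := hp_succ hf m y
    rw [Nat.factorial_succ]
    push_cast
    linear_combination (m ! : ℂ) * this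

theorem triangle (n : ℕ) (g : ℕ → ℕ → ℂ) :
    ∑ m ∈ Finset.range n, ∑ a ∈ antidiagonal m, g a.1 a.2 =
      ∑ i ∈ Finset.range n, ∑ j ∈ Finset.range (n - i), g i j := by
  induction n with
  | zero => simp
  | succ n ih =>
    rw [Finset.sum_range_succ, ih, Finset.sum_range_succ (fun i =>
      ∑ j ∈ Finset.range (n + 1 - i), g i j) n, Finset.Nat.sum_antidiagonal_eq_sum_range_succ
      (fun i j => g i j) n, Finset.sum_range_succ (fun k => g k (n - k)) n]
    have h1 : ∀ i ∈ Finset.range n, ∑ j ∈ Finset.range (n + 1 - i), g i j =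
        ∑ j ∈ Finset.range (n - i), g i j + g i (n - i) := by
      intro i hi
      have h2 : n + 1 - i = (n - i) + 1 := by
        have := Finset.mem_range.1 hi
        omega
      rw [h2, Finset.sum_range_succ]
    rw [Finset.sum_congr rfl h1, Finset.sum_add_distrib]
    have h3 : n + 1 - n = 1 := by omega
    rw [h3]
    simp
    ring

/-- **Taylor's formula** -/
theorem tay_cf {g : (Fin 2 → ℂ) → ℂ} (hg : AnalyticAt ℂ g 0) (n : ℕ) : Tay n g (cf g) := by
  obtain ⟨p, hp'⟩ := id hg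
  obtain ⟨r, hr⟩ := id hp'
  have q : ∀ m y, p m (fun _ => y) = hp m g 0 y := fun m y => by
    have h1 := hr.factorial_smul y m
    rw [iter_hp y m g hg] at h1
    have h2 : (m ! : ℂ) ≠ 0 := by exact_mod_cast Nat.factorial_ne_zero m
    have h3 : (m ! : ℂ) * p m (fun _ => y) = (m ! : ℂ) * hp m g 0 y := by
      rw [← h1]; simp
    exact mul_left_cancel₀ h2 h3
  have := hp'.isBigO_sub_partialSum_pow (n + 1)
  unfold Tay
  refine this.congr_left fun y => ?_
  rw [zero_add, FormalMultilinearSeries.partialSum]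
  simp only [q]
  congr 1
  unfold hp
  rw [triangle (n + 1) fun a b => y 0 ^ a * y 1 ^ b * nd 1 b (nd 0 a g) 0]
  refine Finset.sum_congr rfl fun i _ => Finset.sum_congr rfl fun j _ => ?_
  unfold cf
  ring

/-- a polynomial of degree `≤ n` which is `O(s^(n+1))` vanishes -/
theorem poly_zero (n : ℕ) : ∀ q : ℕ → ℂ,
    (fun s : ℂ => ∑ m ∈ Finset.range (n + 1), q m * s ^ m) =O[𝓝[≠] 0] (fun s : ℂ => s ^ (n + 1)) →
    ∀ m ≤ n, q m = 0 := by
  induction n with
  | zero =>
    intro q h m hm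
    obtain rfl : m = 0 := by omega
    have h1 : Tendsto (fun s : ℂ => s ^ (0 + 1)) (𝓝[≠] 0) (𝓝 0) := by
      have : Continuous fun s : ℂ => s ^ (0 + 1) := by fun_prop
      exact (this.tendsto' 0 0 (by simp)).mono_left nhdsWithin_le_nhds
    have h2 := h.trans_tendsto h1
    simp only [zero_add, Finset.sum_range_one, pow_zero, mul_one] at h2
    exact tendsto_nhds_unique tendsto_const_nhds h2
  | succ n ih =>
    intro q h
    have h0 : q 0 = 0 := by
      have h1 : Tendsto (fun s : ℂ => s ^ (n + 1 + 1)) (𝓝[≠] 0) (𝓝 0) := by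
        have : Continuous fun s : ℂ => s ^ (n + 1 + 1) := by fun_prop
        exact (this.tendsto' 0 0 (by simp)).mono_left nhdsWithin_le_nhds
      have h2 := h.trans_tendsto h1
      have h3 : Tendsto (fun s : ℂ => ∑ m ∈ Finset.range (n + 1 + 1), q m * s ^ m) (𝓝[≠] 0)
          (𝓝 (q 0)) := by
        have : Continuous fun s : ℂ => ∑ m ∈ Finset.range (n + 1 + 1), q m * s ^ m := by fun_prop
        refine (this.tendsto' 0 _ ?_).mono_left nhdsWithin_le_nhds
        rw [Finset.sum_range_succ']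
        simp
      exact tendsto_nhds_unique h3 h2
    have h4 : (fun s : ℂ => ∑ m ∈ Finset.range (n + 1), q (m + 1) * s ^ m) =O[𝓝[≠] 0]
        (fun s : ℂ => s ^ (n + 1)) := by
      obtain ⟨C, hC⟩ := h.bound
      refine IsBigO.of_bound C ?_
      filter_upwards [hC, self_mem_nhdsWithin] with s hs hs0
      have hs0' : s ≠ 0 := hs0
      have e1 : ∑ m ∈ Finset.range (n + 1 + 1), q m * s ^ m =
          s * ∑ m ∈ Finset.range (n + 1), q (m + 1) * s ^ m := by
        rw [Finset.sum_range_succ', h0, zero_mul, add_zero, Finset.mul_sum]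
        refine Finset.sum_congr rfl fun m _ => ?_
        ring
      rw [e1, norm_mul, pow_succ, norm_mul] at hs
      have h5 : 0 < ‖s‖ := norm_pos_iff.2 hs0'
      have h6 : ‖s‖ * ‖∑ m ∈ Finset.range (n + 1), q (m + 1) * s ^ m‖ ≤
          ‖s‖ * (C * ‖s ^ (n + 1)‖) := by
        refine hs.trans (le_of_eq ?_)
        ring
      exact le_of_mul_le_mul_left h6 h5
    have h7 := ih (fun m => q (m + 1)) h4
    intro m hm
    rcases Nat.eq_zero_or_pos m with rfl | hm0
    · exact h0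
    · obtain ⟨k, rfl⟩ : ∃ k, m = k + 1 := ⟨m - 1, by omega⟩
      exact h7 k (by omega)

/-- **uniqueness** of the Taylor polynomial -/
theorem cf_unique {g : (Fin 2 → ℂ) → ℂ} (hg : AnalyticAt ℂ g 0) {n : ℕ} {c : ℕ → ℕ → ℂ}
    (h : Tay n g c) {i j : ℕ} (hij : i + j ≤ n) : c i j = cf g i j := by
  have h1 : (fun p : Fin 2 → ℂ => ∑ i ∈ Finset.range (n + 1), ∑ j ∈ Finset.range (n + 1 - i),
      (c i j - cf g i j) * p 0 ^ i * p 1 ^ j) =O[𝓝 0] fun p : Fin 2 → ℂ => ‖p‖ ^ (n + 1) := by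
    have h2 := (tay_cf hg n).sub h
    refine h2.congr_left fun p => ?_
    have e : ∀ i j : ℕ, (c i j - cf g i j) * p 0 ^ i * p 1 ^ j =
        c i j * p 0 ^ i * p 1 ^ j - cf g i j * p 0 ^ i * p 1 ^ j := fun i j => by ring
    simp only [e, Finset.sum_sub_distrib]
    ring
  set d : ℕ → ℕ → ℂ := fun i j => c i j - cf g i j with hd
  -- homogeneous parts vanish
  have h3 : ∀ m ≤ n, ∀ p : Fin 2 → ℂ, ∑ a ∈ antidiagonal m, d a.1 a.2 * p 0 ^ a.1 * p 1 ^ a.2 = 0 := by
    intro m hm p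
    have h4 : Tendsto (fun s : ℂ => s • p) (𝓝[≠] 0) (𝓝 0) := by
      have : Continuous fun s : ℂ => s • p := by fun_prop
      exact (this.tendsto' 0 0 (by simp)).mono_left nhdsWithin_le_nhds
    have h5 := h1.comp_tendsto h4
    refine poly_zero n (fun m => ∑ a ∈ antidiagonal m, d a.1 a.2 * p 0 ^ a.1 * p 1 ^ a.2) ?_ m hm
    have h6 : (fun s : ℂ => ‖s • p‖ ^ (n + 1)) =O[𝓝[≠] 0] (fun s : ℂ => s ^ (n + 1)) := by
      refine IsBigO.of_bound (‖p‖ ^ (n + 1)) (Eventually.of_forall fun s => ?_)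
      rw [norm_smul, mul_pow, norm_mul, norm_pow, norm_pow, norm_norm, norm_norm, norm_pow]
      exact le_of_eq (by ring)
    refine (h5.trans h6).congr_left fun s => ?_
    simp only [Function.comp]
    rw [← triangle (n + 1) fun i j => (c i j - cf g i j) * (s • p) 0 ^ i * (s • p) 1 ^ j]
    refine Finset.sum_congr rfl fun m _ => ?_
    rw [Finset.sum_mul]
    refine Finset.sum_congr rfl fun a ha => ?_
    have : a.1 + a.2 = m := Finset.HasAntidiagonal.mem_antidiagonal.1 ha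
    simp only [Pi.smul_apply, smul_eq_mul, hd, mul_pow]
    rw [← this, pow_add]
    ring
  have h7 : ∀ m ≤ n, ∀ k ≤ m, d k (m - k) = 0 := by
    intro m hm
    refine poly_zero m (fun k => d k (m - k)) ?_
    have : (fun s : ℂ => ∑ k ∈ Finset.range (m + 1), d k (m - k) * s ^ k) = fun _ => 0 := by
      funext s
      have h8 := h3 m hm ![s, 1]
      rw [Finset.Nat.sum_antidiagonal_eq_sum_range_succ
        (fun i j => d i j * (![s, 1] : Fin 2 → ℂ) 0 ^ i * (![s, 1] : Fin 2 → ℂ) 1 ^ j) m] at h8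
      simpa using h8
    rw [this]
    exact isBigO_zero _ _
  have h9 := h7 (i + j) hij i (by omega)
  rw [show i + j - i = j by omega] at h9
  exact sub_eq_zero.1 h9

end Crest.Agent.R257.LcxB_759
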