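import Crest.Agent.R257.LcxW_759
import Crest.Agent.R257.LcxS2_759
import Crest.Agent.R257.LcTop_980
import Crest.Agent.R257.RtD_838
import Crest.Agent.R257.Ev5_838
import Crest.Agent.R257.Cub3_89
import Crest.Agent.R257.Rig6_20
import Crest.Agent.R257.LCTopA_472
import Crest.Agent.R257.LCa_472

/-!
R257 / LcxG_759 (helper759): `μ`-constant families with frequently log canonical, non klt germs;
the case of multiplicity `3` (`caseA`).
-/

set_option autoImplicit false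

open Topology Filter Set Asymptotics
open Matrix hiding col
open Crest.AlgGeometry.Germ

noncomputable section

namespace Crest.Agent.R257.LcxG_759

open Crest.Agent.R257.Defs_219 Crest.Agent.R257.LCDefs_472 Crest.Agent.R257.LcxDefs_759
open Crest.Agent.R257.LcxA_759 Crest.Agent.R257.LcxD_759 Crest.Agent.R257.LcxS_759
open Crest.Agent.R257.LcxL_759
open Crest.Agent.R257.EVa_929 (TB)

/-- a log canonical, non klt germ, in some linear coordinates -/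
def Bad (g : E3 → ℂ) : Prop := ∃ (f : E3 → ℂ) (A : E3 ≃L[ℂ] E3), LC0 f ∧ g = fun x => f (A x)

theorem bad_lin {g : E3 → ℂ} (hB : Bad g) {M : Matrix (Fin 3) (Fin 3) ℂ} (hM : M.det ≠ 0) :
    Bad fun x => g (M.mulVec x) := by
  obtain ⟨f, A, hf, rfl⟩ := hB
  exact ⟨f, (me M hM).trans A, hf, rfl⟩

theorem exists_mat (A : E3 ≃L[ℂ] E3) : ∃ L : Matrix (Fin 3) (Fin 3) ℂ, L.det ≠ 0 ∧
    ∀ x, A x = L.mulVec x := by
  refine ⟨LinearMap.toMatrix' (A.toLinearEquiv : E3 →ₗ[ℂ] E3), ?_, fun x => ?_⟩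
  · rw [LinearMap.det_toMatrix']
    exact (LinearEquiv.isUnit_det' A.toLinearEquiv).ne_zero
  · exact (LinearMap.toMatrix'_mulVec _ x).symm

theorem H2_zero_lin {g : E3 → ℂ} (hg : AnalyticAt ℂ g 0) {L : Matrix (Fin 3) (Fin 3) ℂ}
    (h2 : ∀ i j, H2 g i j = 0) (i j : Fin 3) : H2 (fun x => g (L.mulVec x)) i j = 0 := by
  rw [H2_lin hg]
  simp [h2]

theorem comp_inv {f : E3 → ℂ} {L : Matrix (Fin 3) (Fin 3) ℂ} (hL : L.det ≠ 0) :
    (fun x => (fun x => f (L.mulVec x)) (L⁻¹.mulVec x)) = f := by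
  funext x
  show f (L.mulVec (L⁻¹.mulVec x)) = f x
  rw [mulVec_surj hL]

theorem det_inv_ne {L : Matrix (Fin 3) (Fin 3) ℂ} (hL : L.det ≠ 0) : L⁻¹.det ≠ 0 := by
  rw [Matrix.det_nonsing_inv]
  intro h
  rw [Ring.inverse_eq_inv', inv_eq_zero] at h
  exact hL h

theorem bad_nodal {g : E3 → ℂ} (hB : Bad g) (h2 : ∀ i j, H2 g i j = 0) : Nodal g := by
  obtain ⟨f, A, hf, rfl⟩ := hB
  obtain ⟨L, hL, hA⟩ := exists_mat A
  simp only [hA] at h2 ⊢
  have ha : AnalyticAt ℂ (fun x => f (L.mulVec x)) 0 := an_lin0 L hf.iso.an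
  have hf2 : ∀ i j, H2 f i j = 0 := by
    intro i j
    have := H2_zero_lin ha (L := L⁻¹) h2 i j
    rwa [comp_inv hL] at this
  have hN : Nodal f := by
    by_contra hcon
    exact hf.lc (LcTop_980.pos f hf.iso hf2 hcon)
  refine nodal_lin ha (det_inv_ne hL) ?_
  rw [comp_inv hL]
  exact hN

theorem col_lin {f : E3 → ℂ} (hf : AnalyticAt ℂ f 0) (A : E3 ≃L[ℂ] E3) :
    col (par fun x => f (A x)) = col (par f) := by
  obtain ⟨L, hL, hA⟩ := exists_mat A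
  have h1 : (fun x => f (A x)) = fun x => f (L.mulVec x) := funext fun x => by rw [hA]
  rw [h1]
  exact (LCa_472.par_comp (f := fun x => f (L.mulVec x)) (g := f) (θ := ml L) hf
    ((ml L).analyticAt 0) (map_zero _) (by
      rw [(ml L).fderiv]
      intro x y hxy
      have : L.mulVec (x - y) = 0 := by
        have h4 : ml L (x - y) = 0 := by rw [map_sub, hxy, sub_self]
        exact h4
      exact sub_eq_zero.1 (mulVec_inj hL this))
    (an_lin0 L hf) (Eventually.of_forall fun x => rfl)).2.symm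

theorem fr0 {P : ℂ → Prop} (h : ∃ᶠ t in 𝓝[≠] (0 : ℂ), P t) {Q : ℂ → Prop}
    (hQ : ∀ᶠ t in 𝓝 (0 : ℂ), Q t) : ∃ᶠ t in 𝓝[≠] (0 : ℂ), P t ∧ Q t :=
  h.and_eventually (hQ.filter_mono nhdsWithin_le_nhds)

/-- the germs of a family are good on a fixed ball -/
theorem good_fam {F : E3 × ℂ → ℂ} {μ : ℕ} (hF : Fam F μ) :
    ∃ r C : ℝ, ∀ᶠ t in 𝓝 (0 : ℂ), Good (sl F t) r C := by
  have hi0 : ∀ᶠ x in 𝓝 (0 : E3), (∀ i, coordDeriv (sl F 0) i x = 0) → x = 0 := by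
    have h1 : Tendsto (fun x : E3 => (x, (0 : ℂ))) (𝓝 0) (𝓝 (0, 0)) :=
      (Continuous.prodMk_left (0 : ℂ)).tendsto' _ _ rfl
    exact h1.eventually hF.iso
  obtain ⟨r₀, hr₀, hrt⟩ := RtD_838.rt hF.an hF.an hi0
  obtain ⟨ρ, hρ, hb⟩ := Metric.eventually_nhds_iff_ball.1
    (hF.an.eventually_analyticAt.and hF.iso)
  set r : ℝ := min (r₀ / 2) (ρ / 2) with hr
  have hr0 : 0 < r := by positivity
  obtain ⟨δ, hδ, C, hC⟩ := hrt r hr0 (by
    have : r ≤ r₀ / 2 := min_le_left _ _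
    linarith)
  have hq : ∀ (x : E3) (t : ℂ), ‖x‖ ≤ r → ‖t‖ < ρ → (x, t) ∈ Metric.ball ((0 : E3), (0 : ℂ)) ρ := by
    intro x t hx ht
    rw [Metric.mem_ball, ← Prod.zero_eq_mk, dist_zero_right, Prod.norm_def]
    refine max_lt ?_ ht
    have : r ≤ ρ / 2 := min_le_right _ _
    show ‖x‖ < ρ
    linarith
  refine ⟨r, C, ?_⟩
  filter_upwards [Metric.ball_mem_nhds (0 : ℂ) hρ, Metric.ball_mem_nhds (0 : ℂ) hδ, hF.zero,
    hF.crit] with t h1 h2 h3 h4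
  rw [mem_ball_zero_iff] at h1 h2
  refine ⟨hr0, fun x hx => (hb _ (hq x t hx h1)).1.comp (g := F) (f := fun x : E3 => (x, t))
    (analyticAt_id.prod analyticAt_const), h3, h4,
    fun x hx hcr => (hb _ (hq x t hx h1)).2 hcr, δ, hδ, fun y hy hne Z hZ => ?_⟩
  exact hC t y h2 hy Z hZ fun x hx => hne x ((hZ x).1 hx).1 ((hZ x).1 hx).2

theorem an_H3 {F : E3 × ℂ → ℂ} (hF : AnalyticAt ℂ F (0, 0)) (i j k : Fin 3) :
    AnalyticAt ℂ (fun t : ℂ => H3 (sl F t) i j k) 0 := by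
  have h1 := Skel_219.analyticAt_pd hF i
  have h2 := Skel_219.analyticAt_pd h1 j
  have h3 := Skel_219.analyticAt_pd h2 k
  have h4 : AnalyticAt ℂ (fun t : ℂ => ((0, t) : E3 × ℂ)) 0 :=
    analyticAt_const.prod analyticAt_id
  exact AnalyticAt.fun_comp (f := fun t : ℂ => ((0, t) : E3 × ℂ))
    (g := fun q : E3 × ℂ => coordDeriv (sl (fun q : E3 × ℂ => coordDeriv
      (sl (fun q : E3 × ℂ => coordDeriv (sl F q.2) i q.1) q.2) j q.1) q.2) k q.1) h3 h4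

theorem cont_S {F : E3 × ℂ → ℂ} (hF : AnalyticAt ℂ F (0, 0)) :
    ContinuousAt (fun t : ℂ => S (H3 (sl F t))) 0 := by
  have h : ∀ i j k, ContinuousAt (fun t : ℂ => H3 (sl F t) i j k) 0 := fun i j k =>
    (an_H3 hF i j k).continuousAt
  have h1 : ContinuousAt (fun t : ℂ => H3 (sl F t)) 0 :=
    continuousAt_pi.2 fun i => continuousAt_pi.2 fun j => continuousAt_pi.2 fun k => h i j k
  have h2 : Continuous S := by
    unfold S
    fun_prop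
  exact h2.continuousAt.comp h1

theorem S_zero {F : E3 × ℂ → ℂ} {μ : ℕ} (hF : Fam F μ) (hN : ¬ Nodal (sl F 0)) :
    S (H3 (sl F 0)) = 0 := by
  have ha : AnalyticAt ℂ (sl F 0) 0 := (ev_an_sl hF.an).self_of_nhds
  unfold Nodal at hN
  push Not at hN
  obtain ⟨v, u, hv, hvv, hvu, huv⟩ := hN
  exact S_null (sym_H3 ha) hv huv hvv hvu

/-- **multiplicity three** -/
theorem caseA {F : E3 × ℂ → ℂ} {μ : ℕ} (hF : Fam F μ) (hμ : 10 ≤ μ)
    (h2 : ∀ᶠ t in 𝓝 (0 : ℂ), ∀ i j, H2 (sl F t) i j = 0) (hN : ¬ Nodal (sl F 0))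
    (hB : ∃ᶠ t in 𝓝[≠] (0 : ℂ), Bad (sl F t)) : False := by
  obtain ⟨r, C, hG⟩ := good_fam hF
  obtain ⟨k, hk, hnod⟩ := Ev5_838.nodalStmt
  have hS : ∀ᶠ t in 𝓝 (0 : ℂ), (k * C) ^ 2 * ‖S (H3 (sl F t))‖ < 1 := by
    have h1 : ContinuousAt (fun t : ℂ => (k * C) ^ 2 * ‖S (H3 (sl F t))‖) 0 :=
      continuousAt_const.mul (cont_S hF.an).norm
    have h3 : (k * C) ^ 2 * ‖S (H3 (sl F 0))‖ < 1 := by
      rw [S_zero hF hN]; simp
    exact h1.tendsto.eventually_lt_const h3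
  obtain ⟨t, hb, h2t, hGt, hfin, hSt⟩ :=
    (fr0 hB (h2.and (hG.and (hF.fin.and hS)))).exists
  have hnt := bad_nodal hb h2t
  have ha : AnalyticAt ℂ (sl F t) 0 := hGt.an 0 (by simpa using hGt.r_pos.le)
  by_cases hs : ∃ v : E3, v ≠ 0 ∧ ∀ w, D3 (sl F t) v v w = 0
  · obtain ⟨L, a, b, hL, hdet⟩ := hnod (sl F t) r C hGt h2t hnt hs
    have h4 : S (H3 (sl F t)) = - L.det ^ 4 := S_of_nrm (sym_H3 ha) (a := a) (b := b) hL
    rw [h4, norm_neg, norm_pow] at hSt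
    have h5 : 1 ≤ (k * C * ‖L.det‖ ^ 2) ^ 2 := one_le_pow₀ hdet
    have h6 : (k * C * ‖L.det‖ ^ 2) ^ 2 = (k * C) ^ 2 * ‖L.det‖ ^ 4 := by ring
    linarith
  · push Not at hs
    have h4 := Cub3_89.p8Mu (sl F t) ha hGt.zero hGt.crit0 h2t hs
    rw [hfin.2] at h4
    omega

/-- the situation to be excluded -/
structure Ctx (F : E3 × ℂ → ℂ) (μ : ℕ) : Prop where
  fam : Fam F μ
  mu : 10 ≤ μ
  h2 : ∀ i j, H2 (sl F 0) i j = 0
  nn : ¬ Nodal (sl F 0)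
  bad : ∃ᶠ t in 𝓝[≠] (0 : ℂ), Bad (sl F t)

variable {F : E3 × ℂ → ℂ} {μ : ℕ}

theorem Ctx.ch (h : Ctx F μ) {M : ℂ → Matrix (Fin 3) (Fin 3) ℂ}
    (hM : ∀ i j, AnalyticAt ℂ (fun t => M t i j) 0) (h0 : (M 0).det ≠ 0) :
    Ctx (LcxL_759.ch M F) μ where
  fam := fam_ch hM h0 h.fam
  mu := h.mu
  h2 i j := by
    rw [sl_ch]
    exact H2_zero_lin (ev_an_sl h.fam.an).self_of_nhds h.h2 i j
  nn hN := by
    rw [sl_ch] at hN
    exact h.nn (nodal_lin (ev_an_sl h.fam.an).self_of_nhds h0 hN)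
  bad := by
    refine (fr0 h.bad (det_ne hM h0)).mono fun t ht => ?_
    rw [sl_ch]
    exact bad_lin ht.1 ht.2

end Crest.Agent.R257.LcxG_759
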