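import Crest.Agent.R257.LcxG_759
import Crest.Agent.R257.Cl2F_475

/-!
R257 / LcxH_759 (helper759): corank 2 in the assembly of `PosStmt3`: normal forms of the 2-jet and of
the cubic part of `w` in the family.
-/

set_option autoImplicit false

open Topology Filter Set Asymptotics
open Matrix hiding col
open Crest.AlgGeometry.Germ

noncomputable section

namespace Crest.Agent.R257.LcxG_759

open Crest.Agent.R257.Defs_219 Crest.Agent.R257.LCDefs_472 Crest.Agent.R257.LcxDefs_759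
open Crest.Agent.R257.LcxA_759 Crest.Agent.R257.LcxD_759 Crest.Agent.R257.LcxS_759
open Crest.Agent.R257.LcxL_759

variable {F : E3 × ℂ → ℂ} {μ : ℕ}

theorem ev_of_fr {u v : ℂ → ℂ} (hu : AnalyticAt ℂ u 0) (hv : AnalyticAt ℂ v 0)
    (h : ∃ᶠ t in 𝓝[≠] (0 : ℂ), u t = v t) : ∀ᶠ t in 𝓝 (0 : ℂ), u t = v t :=
  (hu.frequently_eq_iff_eventually_eq hv).1 h

theorem ev_of_ne {u v : ℂ → ℂ} (hu : AnalyticAt ℂ u 0) (hv : AnalyticAt ℂ v 0)
    (h : ∀ᶠ t in 𝓝[≠] (0 : ℂ), u t = v t) : ∀ᶠ t in 𝓝 (0 : ℂ), u t = v t :=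
  ev_of_fr hu hv h.frequently

/-- the leading matrix of the second derivatives -/
theorem Ctx.lead (h : Ctx F μ) : ∃ (a : ℕ) (T : Fin 3 → Fin 3 → ℂ → ℂ),
    (∀ i j, AnalyticAt ℂ (T i j) 0) ∧ (∀ᶠ t in 𝓝 (0 : ℂ), ∀ i j, H2 (sl F t) i j = t ^ a * T i j t) ∧
    (∀ᶠ t in 𝓝 (0 : ℂ), ∀ i j k l, T i j t * T k l t = T i l t * T k j t) ∧
    (∀ᶠ t in 𝓝 (0 : ℂ), ∀ i j, T i j t = T j i t) ∧ ∃ i, T i i 0 ≠ 0 := by
  rcases LCTop_472.exists_lead (fun (k : Fin 3 × Fin 3) t => H2 (sl F t) k.1 k.2)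
    (fun k => LCTop_472.analyticAt_H2 h.fam.an k.1 k.2) with h0 | ⟨a, T, hT, hTe, k, hk⟩
  · exact (caseA h.fam h.mu (h0.mono fun t ht i j => ht (i, j)) h.nn h.bad).elim
  · have hTe' : ∀ᶠ t in 𝓝 (0 : ℂ), ∀ i j, H2 (sl F t) i j = t ^ a * T (i, j) t := by
      filter_upwards [hTe] with t ht i j
      exact ht (i, j)
    have key : ∀ᶠ t in 𝓝[≠] (0 : ℂ), (∀ i j k l, T (i, j) t * T (k, l) t = T (i, l) t * T (k, j) t)
        ∧ ∀ i j, T (i, j) t = T (j, i) t := by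
      filter_upwards [(hTe'.and (Rig20.ra_stmt F μ h.fam h.h2)).filter_mono nhdsWithin_le_nhds,
        self_mem_nhdsWithin] with t ht h0
      obtain ⟨h1, l, hl⟩ := ht
      have hta : t ^ a ≠ 0 := pow_ne_zero _ h0
      have e : ∀ i j, T (i, j) t = l i * l j / t ^ a := fun i j => by
        rw [← hl, h1]
        field_simp
      constructor
      · intro i j k m
        simp only [e]
        ring
      · intro i j
        simp only [e]
        ring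
    have k1 : ∀ᶠ t in 𝓝 (0 : ℂ), ∀ i j k l, T (i, j) t * T (k, l) t = T (i, l) t * T (k, j) t :=
      eventually_all.2 fun i => eventually_all.2 fun j => eventually_all.2 fun k =>
        eventually_all.2 fun l => ev_of_ne ((hT _).mul (hT _)) ((hT _).mul (hT _))
          (key.mono fun t ht => ht.1 i j k l)
    have k2 : ∀ᶠ t in 𝓝 (0 : ℂ), ∀ i j, T (i, j) t = T (j, i) t :=
      eventually_all.2 fun i => eventually_all.2 fun j => ev_of_ne (hT _) (hT _)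
          (key.mono fun t ht => ht.2 i j)
    refine ⟨a, fun i j => T (i, j), fun i j => hT _, hTe', k1, k2, k.1, fun h0 => hk ?_⟩
    have h1 := k1.self_of_nhds k.1 k.2 k.2 k.1
    have h2 := k2.self_of_nhds k.1 k.2
    rw [show (k.1, k.2) = k from rfl] at h1 h2
    have h3 : T (k.1, k.1) 0 = 0 := h0
    rw [h3, zero_mul, ← h2] at h1
    exact mul_self_eq_zero.1 h1

/-- second derivatives `H2 · 0 0` only -/
structure Ctx2 (F : E3 × ℂ → ℂ) (μ : ℕ) : Prop extends Ctx F μ where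
  hz : ∀ᶠ t in 𝓝 (0 : ℂ), ∀ i j, i ≠ 0 ∨ j ≠ 0 → H2 (sl F t) i j = 0
  hn : ∀ᶠ t in 𝓝[≠] (0 : ℂ), H2 (sl F t) 0 0 ≠ 0

/-- the change of coordinates for `i0` -/
def M1 (i0 : Fin 3) (L : Fin 3 → ℂ → ℂ) (t : ℂ) : Matrix (Fin 3) (Fin 3) ℂ := fun i a =>
  (if i = i0 + a then 1 else 0) - if a = 0 then 0 else if i = i0 then L (i0 + a) t else 0

theorem M1_sum (i0 : Fin 3) (L : Fin 3 → ℂ → ℂ) (t : ℂ) (hL : L i0 t = 1) (i : Fin 3) :
    ∑ a, M1 i0 L t a i * L a t = if i = 0 then 1 else 0 := by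
  rw [Fin.sum_univ_three]
  fin_cases i0 <;> fin_cases i <;> simp_all [M1]

theorem Ctx.ctx2 (h : Ctx F μ) : ∃ F', Ctx2 F' μ := by
  obtain ⟨a, T, hT, hTe, hR, hS, i0, hi0⟩ := h.lead
  set L : Fin 3 → ℂ → ℂ := fun j t => T i0 j t / T i0 i0 t with hL
  have hLa : ∀ j, AnalyticAt ℂ (L j) 0 := fun j => (hT i0 j).div (hT i0 i0) hi0
  have hM : ∀ i j, AnalyticAt ℂ (fun t => M1 i0 L t i j) 0 := by
    intro i j
    unfold M1
    refine AnalyticAt.sub analyticAt_const ?_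
    split_ifs
    · exact analyticAt_const
    · exact hLa _
    · exact analyticAt_const
  have hdet : (M1 i0 L 0).det ≠ 0 := by
    rw [Matrix.det_fin_three]
    fin_cases i0 <;> simp [M1]
  have hne : ∀ᶠ t in 𝓝 (0 : ℂ), T i0 i0 t ≠ 0 := (hT i0 i0).continuousAt.eventually_ne hi0
  have key : ∀ᶠ t in 𝓝 (0 : ℂ), ∀ i j, H2 (sl (LcxL_759.ch (M1 i0 L) F) t) i j =
      t ^ a * T i0 i0 t * ((if i = 0 then 1 else 0) * if j = 0 then 1 else 0) := by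
    filter_upwards [hTe, hR, hS, hne, ev_an_sl h.fam.an] with t h1 h2 h3 h4 h5 i j
    have hLi : L i0 t = 1 := by simp only [hL]; field_simp
    have hp : ∀ i j, T i j t = T i0 i0 t * (L i t * L j t) := by
      intro i j
      have e1 := h2 i0 i0 i j
      have e2 := h3 i i0
      simp only [hL]
      field_simp
      rw [e2] at e1
      linear_combination e1
    rw [sl_ch, H2_lin h5, ← M1_sum i0 L t hLi i, ← M1_sum i0 L t hLi j, Finset.sum_mul_sum,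
      Finset.mul_sum]
    refine Finset.sum_congr rfl fun k _ => ?_
    rw [Finset.mul_sum]
    refine Finset.sum_congr rfl fun l _ => ?_
    rw [h1, hp]
    ring
  refine ⟨LcxL_759.ch (M1 i0 L) F, h.ch hM hdet, ?_, ?_⟩
  · filter_upwards [key] with t ht i j hij
    rw [ht]
    rcases hij with h' | h'
    · rw [if_neg h']; ring
    · rw [if_neg h']; ring
  · filter_upwards [(key.and hne).filter_mono nhdsWithin_le_nhds, self_mem_nhdsWithin] with t ht h0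
    rw [ht.1]
    simp only [if_true, mul_one]
    exact mul_ne_zero (pow_ne_zero _ h0) ht.2

/-- coordinate changes fixing `x_0` -/
theorem Ctx2.ch (h : Ctx2 F μ) {M : ℂ → Matrix (Fin 3) (Fin 3) ℂ}
    (hM : ∀ i j, AnalyticAt ℂ (fun t => M t i j) 0) (h0 : (M 0).det ≠ 0)
    (h00 : ∀ t, M t 0 0 = 1) (h01 : ∀ t, M t 0 1 = 0) (h02 : ∀ t, M t 0 2 = 0) :
    Ctx2 (LcxL_759.ch M F) μ := by
  have key : ∀ᶠ t in 𝓝 (0 : ℂ), ∀ i j, H2 (sl (LcxL_759.ch M F) t) i j =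
      M t 0 i * M t 0 j * H2 (sl F t) 0 0 := by
    filter_upwards [h.hz, ev_an_sl h.fam.an] with t h1 h2 i j
    rw [sl_ch, H2_lin h2]
    simp only [Fin.sum_univ_three]
    rw [h1 0 1 (by decide), h1 0 2 (by decide), h1 1 0 (by decide), h1 1 1 (by decide),
      h1 1 2 (by decide), h1 2 0 (by decide), h1 2 1 (by decide), h1 2 2 (by decide)]
    ring
  refine ⟨h.toCtx.ch hM h0, ?_, ?_⟩
  · filter_upwards [key] with t ht i j hij
    rw [ht]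
    have hz : ∀ k : Fin 3, k ≠ 0 → M t 0 k = 0 := by
      intro k hk
      fin_cases k
      · exact absurd rfl hk
      · exact h01 t
      · exact h02 t
    rcases hij with h' | h'
    · rw [hz i h']; ring
    · rw [hz j h']; ring
  · filter_upwards [key.filter_mono nhdsWithin_le_nhds, h.hn] with t ht h1
    rw [ht, h00]
    simpa using h1

/-- the decomposition of the family -/
structure DD (F U : E3 × ℂ → ℂ) (V W : (Fin 2 → ℂ) × ℂ → ℂ) : Prop extends DF F U V W where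
  v0 : ∀ᶠ t in 𝓝 (0 : ℂ), ∀ i j, i + j ≤ 1 → cf (sl V t) i j = 0
  w0 : ∀ᶠ t in 𝓝 (0 : ℂ), ∀ i j, i + j ≤ 2 → cf (sl W t) i j = 0
  u0 : sl U 0 0 = 0
  un : ∀ᶠ t in 𝓝[≠] (0 : ℂ), sl U t 0 ≠ 0

theorem Ctx2.dd (h : Ctx2 F μ) : ∃ U V W, DD F U V W := by
  obtain ⟨U, V, W, hD⟩ := exists_DF h.fam.an
  refine ⟨U, V, W, hD, ?_, ?_, ?_, ?_⟩
  · filter_upwards [hD.dq, h.fam.crit, h.hz] with t h1 h2 h3 i j hij
    rcases (by omega : (i = 0 ∧ j = 0) ∨ (i = 1 ∧ j = 0) ∨ (i = 0 ∧ j = 1)) with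
      ⟨rfl, rfl⟩ | ⟨rfl, rfl⟩ | ⟨rfl, rfl⟩
    · rw [← h1.c0]; exact h2 0
    · rw [← h1.h01]; exact h3 0 1 (by decide)
    · rw [← h1.h02]; exact h3 0 2 (by decide)
  · filter_upwards [hD.dq, h.fam.crit, h.fam.zero, h.hz] with t h1 h2 h3 h4 i j hij
    rcases (by omega : (i = 0 ∧ j = 0) ∨ (i = 1 ∧ j = 0) ∨ (i = 0 ∧ j = 1) ∨ (i = 2 ∧ j = 0) ∨
      (i = 1 ∧ j = 1) ∨ (i = 0 ∧ j = 2)) with
      ⟨rfl, rfl⟩ | ⟨rfl, rfl⟩ | ⟨rfl, rfl⟩ | ⟨rfl, rfl⟩ | ⟨rfl, rfl⟩ | ⟨rfl, rfl⟩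
    · rw [← h1.z]; exact h3
    · rw [← h1.c1]; exact h2 1
    · rw [← h1.c2]; exact h2 2
    · have := h1.h11
      rw [h4 1 1 (by decide)] at this
      linear_combination -this / 2
    · rw [← h1.h12]; exact h4 1 2 (by decide)
    · have := h1.h22
      rw [h4 2 2 (by decide)] at this
      linear_combination -this / 2
  · have := hD.dq.self_of_nhds.h00
    rw [h.h2] at this
    linear_combination -this / 2
  · filter_upwards [hD.dq.filter_mono nhdsWithin_le_nhds, h.hn] with t h1 h2 h3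
    rw [h1.h00, h3, mul_zero] at h2
    exact h2 rfl

theorem DD.dcp {U : E3 × ℂ → ℂ} {V W : (Fin 2 → ℂ) × ℂ → ℂ} (h : DD F U V W) :
    ∀ᶠ t in 𝓝[≠] (0 : ℂ), Dcp (sl F t) (sl U t) (sl V t) (sl W t) := by
  filter_upwards [(h.dq.and (h.v0.and h.w0)).filter_mono nhdsWithin_le_nhds, h.un] with t h1 h2
  exact ⟨h1.1.au, h1.1.av, h1.1.aw, h1.1.eq, h2, h1.2.1, h1.2.2⟩

theorem Dcp.dq {g u : E3 → ℂ} {v w : (Fin 2 → ℂ) → ℂ} (h : Dcp g u v w) : Dq g u v w :=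
  ⟨h.au, h.av, h.aw, h.eq⟩

/-- the cubic part of `w` is a cube, identically in the family -/
theorem Ctx2.cube (h : Ctx2 F μ) : ∀ᶠ t in 𝓝 (0 : ℂ),
    H3 (sl F t) 1 1 2 * H3 (sl F t) 1 1 2 = H3 (sl F t) 1 1 1 * H3 (sl F t) 1 2 2 ∧
    H3 (sl F t) 1 2 2 * H3 (sl F t) 1 2 2 = H3 (sl F t) 1 1 2 * H3 (sl F t) 2 2 2 ∧
    H3 (sl F t) 1 1 2 * H3 (sl F t) 1 2 2 = H3 (sl F t) 1 1 1 * H3 (sl F t) 2 2 2 := by
  obtain ⟨U, V, W, hD⟩ := h.dd
  have key : ∃ᶠ t in 𝓝[≠] (0 : ℂ),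
      H3 (sl F t) 1 1 2 * H3 (sl F t) 1 1 2 = H3 (sl F t) 1 1 1 * H3 (sl F t) 1 2 2 ∧
      H3 (sl F t) 1 2 2 * H3 (sl F t) 1 2 2 = H3 (sl F t) 1 1 2 * H3 (sl F t) 2 2 2 ∧
      H3 (sl F t) 1 1 2 * H3 (sl F t) 1 2 2 = H3 (sl F t) 1 1 1 * H3 (sl F t) 2 2 2 := by
    refine (h.bad.and_eventually hD.dcp).mono ?_
    rintro t ⟨⟨f, A, hf, hg⟩, h1⟩
    have h2 := Cl2F_475.cubeStmt f A (sl U t) (sl V t) (sl W t) hf (hg ▸ h1)
    have h3 := Dcp.dq h1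
    rw [h3.h111, h3.h112, h3.h122, h3.h222]
    obtain ⟨e1, e2, e3⟩ := h2
    refine ⟨?_, ?_, ?_⟩
    · linear_combination 4 * e1
    · linear_combination 4 * e2
    · linear_combination 4 * e3
  have ha : ∀ i j k, AnalyticAt ℂ (fun t : ℂ => H3 (sl F t) i j k) 0 := an_H3 h.fam.an
  have k1 := ev_of_fr ((ha 1 1 2).mul (ha 1 1 2)) ((ha 1 1 1).mul (ha 1 2 2))
    (key.mono fun t ht => ht.1)
  have k2 := ev_of_fr ((ha 1 2 2).mul (ha 1 2 2)) ((ha 1 1 2).mul (ha 2 2 2))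
    (key.mono fun t ht => ht.2.1)
  have k3 := ev_of_fr ((ha 1 1 2).mul (ha 1 2 2)) ((ha 1 1 1).mul (ha 2 2 2))
    (key.mono fun t ht => ht.2.2)
  filter_upwards [k1, k2, k3] with t h1 h2 h3
  exact ⟨h1, h2, h3⟩

/-- the cubic part of `w` is `κ y³`, `κ ≠ 0` for `t ≠ 0` -/
structure Ctx3 (F : E3 × ℂ → ℂ) (μ : ℕ) : Prop extends Ctx2 F μ where
  c1 : ∀ᶠ t in 𝓝 (0 : ℂ), H3 (sl F t) 1 1 2 = 0 ∧ H3 (sl F t) 1 2 2 = 0 ∧ H3 (sl F t) 2 2 2 = 0
  c0 : ∀ᶠ t in 𝓝[≠] (0 : ℂ), H3 (sl F t) 1 1 1 ≠ 0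

/-- `y ↦ y - m z` -/
def M2 (m : ℂ → ℂ) (t : ℂ) : Matrix (Fin 3) (Fin 3) ℂ := !![1, 0, 0; 0, 1, -m t; 0, 0, 1]

/-- `y ↔ z` -/
def M3 (_ : ℂ) : Matrix (Fin 3) (Fin 3) ℂ := !![1, 0, 0; 0, 0, 1; 0, 1, 0]

theorem an_M2 {m : ℂ → ℂ} (hm : AnalyticAt ℂ m 0) (i j : Fin 3) :
    AnalyticAt ℂ (fun t => M2 m t i j) 0 := by
  fin_cases i <;> fin_cases j <;> simp [M2] <;> first | exact analyticAt_const | exact hm.neg

theorem an_M3 (i j : Fin 3) : AnalyticAt ℂ (fun t => M3 t i j) 0 := analyticAt_const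

/-- a leading coefficient of `w_3` at `y³` -/
def Ld (F : E3 × ℂ → ℂ) : Prop := ∃ (n : ℕ) (A B : ℂ → ℂ), AnalyticAt ℂ A 0 ∧ AnalyticAt ℂ B 0 ∧
  A 0 ≠ 0 ∧ (∀ᶠ t in 𝓝 (0 : ℂ), H3 (sl F t) 1 1 1 = t ^ n * A t) ∧
  (∀ᶠ t in 𝓝 (0 : ℂ), H3 (sl F t) 1 1 2 = t ^ n * B t)

theorem Ctx2.ctx3 (h : Ctx2 F μ) (hl : Ld F) : ∃ F', Ctx3 F' μ := by
  obtain ⟨n, A, B, hA, hB, hA0, h1, h2⟩ := hl
  set m : ℂ → ℂ := fun t => B t / A t with hm
  have hma : AnalyticAt ℂ m 0 := hB.div hA hA0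
  have h3 := h.ch (M := M2 m) (an_M2 hma) (by rw [Matrix.det_fin_three]; simp [M2])
    (fun t => by simp [M2]) (fun t => by simp [M2]) (fun t => by simp [M2])
  have hne : ∀ᶠ t in 𝓝 (0 : ℂ), A t ≠ 0 := hA.continuousAt.eventually_ne hA0
  have key : ∀ᶠ t in 𝓝[≠] (0 : ℂ), H3 (sl (LcxL_759.ch (M2 m) F) t) 1 1 1 ≠ 0 ∧
      H3 (sl (LcxL_759.ch (M2 m) F) t) 1 1 2 = 0 ∧ H3 (sl (LcxL_759.ch (M2 m) F) t) 1 2 2 = 0 ∧
      H3 (sl (LcxL_759.ch (M2 m) F) t) 2 2 2 = 0 := by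
    filter_upwards [(h1.and (h2.and (hne.and (h.cube.and (ev_an_sl h.fam.an))))).filter_mono
      nhdsWithin_le_nhds, self_mem_nhdsWithin] with t ht h0
    obtain ⟨e1, e2, e3, ⟨c1, c2, c3⟩, han⟩ := ht
    have hs := sym_H3 han
    have ht0 : t ^ n ≠ 0 := pow_ne_zero _ h0
    have hT : H3 (sl F t) 1 1 1 ≠ 0 := by rw [e1]; exact mul_ne_zero ht0 e3
    have hb : H3 (sl F t) 1 1 2 = m t * H3 (sl F t) 1 1 1 := by
      rw [e1, e2]; simp only [hm]; field_simp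
    have hc : H3 (sl F t) 1 2 2 = m t ^ 2 * H3 (sl F t) 1 1 1 := by
      rw [hb] at c1
      have : H3 (sl F t) 1 1 1 * (m t ^ 2 * H3 (sl F t) 1 1 1 - H3 (sl F t) 1 2 2) = 0 := by
        linear_combination c1
      have := (mul_eq_zero.1 this).resolve_left hT
      linear_combination -this
    have hd : H3 (sl F t) 2 2 2 = m t ^ 3 * H3 (sl F t) 1 1 1 := by
      rw [hb, hc] at c3
      have : H3 (sl F t) 1 1 1 * (m t ^ 3 * H3 (sl F t) 1 1 1 - H3 (sl F t) 2 2 2) = 0 := by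
        linear_combination c3
      have := (mul_eq_zero.1 this).resolve_left hT
      linear_combination -this
    have s1 : H3 (sl F t) 1 2 1 = H3 (sl F t) 1 1 2 := (hs.s23 1 1 2).symm
    have s2 : H3 (sl F t) 2 1 1 = H3 (sl F t) 1 1 2 := by rw [hs.s12 2 1 1, s1]
    have s3 : H3 (sl F t) 2 1 2 = H3 (sl F t) 1 2 2 := hs.s12 2 1 2
    have s4 : H3 (sl F t) 2 2 1 = H3 (sl F t) 1 2 2 := by rw [hs.s23 2 2 1, s3]
    rw [sl_ch, H3_lin han]
    unfold act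
    simp only [Fin.sum_univ_three, M2, s1, s2, s3, s4]
    simp only [Matrix.of_apply, Matrix.cons_val', Matrix.cons_val_zero, Matrix.cons_val_one,
      Matrix.cons_val, Matrix.cons_val_fin_one, mul_zero, zero_mul, add_zero, zero_add, mul_one]
    rw [hb, hc, hd]
    refine ⟨hT, ?_, ?_, ?_⟩ <;> ring
  have ha : ∀ i j k, AnalyticAt ℂ (fun t : ℂ => H3 (sl (LcxL_759.ch (M2 m) F) t) i j k) 0 :=
    an_H3 h3.fam.an
  refine ⟨LcxL_759.ch (M2 m) F, h3, ?_, key.mono fun t ht => ht.1⟩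
  filter_upwards [ev_of_ne (ha 1 1 2) analyticAt_const (key.mono fun t ht => ht.2.1),
    ev_of_ne (ha 1 2 2) analyticAt_const (key.mono fun t ht => ht.2.2.1),
    ev_of_ne (ha 2 2 2) analyticAt_const (key.mono fun t ht => ht.2.2.2)] with t h1 h2 h3
  exact ⟨h1, h2, h3⟩

/-- **dichotomy** of the cubic part of `w` -/
theorem Ctx2.tri (h : Ctx2 F μ) : (∀ᶠ t in 𝓝 (0 : ℂ), H3 (sl F t) 1 1 1 = 0 ∧
    H3 (sl F t) 1 1 2 = 0 ∧ H3 (sl F t) 1 2 2 = 0 ∧ H3 (sl F t) 2 2 2 = 0) ∨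
    ∃ F', Ctx3 F' μ := by
  have ha : ∀ i j k, AnalyticAt ℂ (fun t : ℂ => H3 (sl F t) i j k) 0 := an_H3 h.fam.an
  rcases LCTop_472.exists_lead (![fun t => H3 (sl F t) 1 1 1, fun t => H3 (sl F t) 1 1 2,
    fun t => H3 (sl F t) 1 2 2, fun t => H3 (sl F t) 2 2 2] : Fin 4 → ℂ → ℂ) (by
      intro k; fin_cases k
      · exact ha 1 1 1
      · exact ha 1 1 2
      · exact ha 1 2 2
      · exact ha 2 2 2) with h0 | ⟨n, T, hT, hTe, k, hk⟩
  · left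
    filter_upwards [h0] with t ht
    exact ⟨ht 0, ht 1, ht 2, ht 3⟩
  · right
    have hq : ∀ᶠ t in 𝓝 (0 : ℂ), T 1 t * T 1 t = T 0 t * T 2 t ∧ T 2 t * T 2 t = T 1 t * T 3 t := by
      have h1 : ∀ᶠ t in 𝓝[≠] (0 : ℂ), T 1 t * T 1 t = T 0 t * T 2 t ∧
          T 2 t * T 2 t = T 1 t * T 3 t := by
        filter_upwards [(hTe.and h.cube).filter_mono nhdsWithin_le_nhds, self_mem_nhdsWithin]
          with t ht h0
        have ht0 : t ^ n * t ^ n ≠ 0 := mul_ne_zero (pow_ne_zero _ h0) (pow_ne_zero _ h0)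
        have e0 : H3 (sl F t) 1 1 1 = t ^ n * T 0 t := ht.1 0
        have e1 : H3 (sl F t) 1 1 2 = t ^ n * T 1 t := ht.1 1
        have e2 : H3 (sl F t) 1 2 2 = t ^ n * T 2 t := ht.1 2
        have e3 : H3 (sl F t) 2 2 2 = t ^ n * T 3 t := ht.1 3
        obtain ⟨-, c1, c2, -⟩ := ht
        rw [e0, e1, e2] at c1
        rw [e1, e2, e3] at c2
        constructor
        · apply mul_left_cancel₀ ht0
          linear_combination c1
        · apply mul_left_cancel₀ ht0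
          linear_combination c2
      filter_upwards [ev_of_ne ((hT 1).mul (hT 1)) ((hT 0).mul (hT 2)) (h1.mono fun t ht => ht.1),
        ev_of_ne ((hT 2).mul (hT 2)) ((hT 1).mul (hT 3)) (h1.mono fun t ht => ht.2)] with t a b
      exact ⟨a, b⟩
    obtain ⟨q1, q2⟩ := hq.self_of_nhds
    by_cases hA : T 0 0 = 0
    · -- exchange `y` and `z`
      have h1 : T 1 0 = 0 := by
        rw [hA, zero_mul] at q1
        exact mul_self_eq_zero.1 q1
      have h2 : T 2 0 = 0 := by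
        rw [h1, zero_mul] at q2
        exact mul_self_eq_zero.1 q2
      have h3 : T 3 0 ≠ 0 := by
        fin_cases k
        · exact absurd hA hk
        · exact absurd h1 hk
        · exact absurd h2 hk
        · exact hk
      have h4 := h.ch (M := M3) an_M3 (by rw [Matrix.det_fin_three]; simp [M3])
        (fun t => by simp [M3]) (fun t => by simp [M3]) (fun t => by simp [M3])
      refine h4.ctx3 ⟨n, T 3, T 2, hT 3, hT 2, h3, ?_, ?_⟩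
      · filter_upwards [hTe, ev_an_sl h.fam.an] with t ht han
        have e3 : H3 (sl F t) 2 2 2 = t ^ n * T 3 t := ht 3
        rw [sl_ch, H3_lin han, ← e3]
        unfold act
        simp [Fin.sum_univ_three, M3]
      · filter_upwards [hTe, ev_an_sl h.fam.an] with t ht han
        have e2 : H3 (sl F t) 1 2 2 = t ^ n * T 2 t := ht 2
        have hs := sym_H3 han
        have s3 : H3 (sl F t) 2 1 2 = H3 (sl F t) 1 2 2 := hs.s12 2 1 2
        have s4 : H3 (sl F t) 2 2 1 = H3 (sl F t) 1 2 2 := by rw [hs.s23 2 2 1, s3]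
        rw [sl_ch, H3_lin han, ← e2, ← s4]
        unfold act
        simp [Fin.sum_univ_three, M3]
    · refine h.ctx3 ⟨n, T 0, T 1, hT 0, hT 1, hA, ?_, ?_⟩
      · filter_upwards [hTe] with t ht
        exact ht 0
      · filter_upwards [hTe] with t ht
        exact ht 1

end Crest.Agent.R257.LcxG_759
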