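import Crest.Agent.R257.LcxH_759
import Crest.Agent.R257.KlI_540
import Crest.Agent.R257.SkelV2_952
import Crest.Agent.R257.Skel2_219

/-!
R257 / LcxT_759 (helper759): **`PosStmt3`** of `Skel2_219` from `QuartStmt` and `SextStmt`.
-/

set_option autoImplicit false

open Topology Filter Set Asymptotics
open Matrix hiding col
open Crest.AlgGeometry.Germ

noncomputable section

namespace Crest.Agent.R257.LcxG_759

open Crest.Agent.R257.Defs_219 Crest.Agent.R257.LCDefs_472 Crest.Agent.R257.LcxDefs_759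
open Crest.Agent.R257.LcxA_759 Crest.Agent.R257.LcxD_759 Crest.Agent.R257.LcxS_759
open Crest.Agent.R257.LcxL_759

variable {F : E3 × ℂ → ℂ} {μ : ℕ}

/-! ### coefficients of the discriminant at `t = 0` -/

section coef
variable {g u : E3 → ℂ} {v w : (Fin 2 → ℂ) → ℂ}

theorem us (hu : u 0 = 0) (hw : ∀ i j, i + j ≤ 3 → cf w i j = 0) {i j : ℕ} (hij : i + j ≤ 4) :
    (∑ a ∈ Finset.HasAntidiagonal.antidiagonal i, ∑ b ∈ Finset.HasAntidiagonal.antidiagonal j,
        cf (fun p : Fin 2 → ℂ => u (Fin.cons 0 p)) a.1 b.1 * cf w a.2 b.2) = 0 := by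
  refine Finset.sum_eq_zero fun a ha => Finset.sum_eq_zero fun b hb => ?_
  rw [Finset.HasAntidiagonal.mem_antidiagonal] at ha hb
  by_cases h0 : a.1 = 0 ∧ b.1 = 0
  · rw [h0.1, h0.2, cf_u00, hu, zero_mul]
  · rw [hw a.2 b.2 (by omega), mul_zero]

theorem d4 (hD : Dq g u v w) (hu : u 0 = 0) (hv : ∀ i j, i + j ≤ 1 → cf v i j = 0)
    (hw : ∀ i j, i + j ≤ 3 → cf w i j = 0) :
    12 * cf (Dsc u v w) 4 0 * cf (Dsc u v w) 0 4 -
      3 * cf (Dsc u v w) 3 1 * cf (Dsc u v w) 1 3 + cf (Dsc u v w) 2 2 ^ 2 =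
    (cf v 1 1 ^ 2 - 4 * cf v 2 0 * cf v 0 2) ^ 2 := by
  have h00 := hv 0 0 (by norm_num)
  have h10 := hv 1 0 (by norm_num)
  have h01 := hv 0 1 (by norm_num)
  simp only [cf_dsc hD.au hD.av hD.aw, us hu hw (by norm_num : 4 + 0 ≤ 4),
    us hu hw (by norm_num : 0 + 4 ≤ 4), us hu hw (by norm_num : 3 + 1 ≤ 4),
    us hu hw (by norm_num : 1 + 3 ≤ 4), us hu hw (by norm_num : 2 + 2 ≤ 4)]
  simp only [Finset.Nat.sum_antidiagonal_eq_sum_range_succ_mk, Finset.sum_range_succ,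
    Finset.sum_range_zero, h00, h10, h01]
  norm_num [h00, h10, h01]
  ring

section
variable (hD : Dq g u v w) (hu : u 0 = 0) (hv : ∀ i j, i + j ≤ 1 → cf v i j = 0)
  (hw : ∀ i j, i + j ≤ 2 → cf w i j = 0) (h21 : cf w 2 1 = 0) (h12 : cf w 1 2 = 0)
  (h03 : cf w 0 3 = 0)
include hD hu hv hw h21 h12 h03

theorem e04 : cf (Dsc u v w) 0 4 = - cf v 0 2 ^ 2 := by
  have h00 := hv 0 0 (by norm_num)
  have h10 := hv 1 0 (by norm_num)
  have h01 := hv 0 1 (by norm_num)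
  have w00 := hw 0 0 (by norm_num)
  have w10 := hw 1 0 (by norm_num)
  have w01 := hw 0 1 (by norm_num)
  have w20 := hw 2 0 (by norm_num)
  have w11 := hw 1 1 (by norm_num)
  have w02 := hw 0 2 (by norm_num)
  simp only [cf_dsc hD.au hD.av hD.aw]
  simp only [Finset.Nat.sum_antidiagonal_eq_sum_range_succ_mk, Finset.sum_range_succ,
    Finset.sum_range_zero, h00, h10, h01]
  norm_num [h00, h10, h01, w00, w10, w01, w20, w11, w02, h21, h12, h03, cf_u00, hu]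
  try ring

theorem e05 : cf (Dsc u v w) 0 5 = 4 * (coordDeriv u 2 0 * cf w 0 4) - 2 * cf v 0 2 * cf v 0 3 := by
  have h00 := hv 0 0 (by norm_num)
  have h10 := hv 1 0 (by norm_num)
  have h01 := hv 0 1 (by norm_num)
  have w00 := hw 0 0 (by norm_num)
  have w10 := hw 1 0 (by norm_num)
  have w01 := hw 0 1 (by norm_num)
  have w20 := hw 2 0 (by norm_num)
  have w11 := hw 1 1 (by norm_num)
  have w02 := hw 0 2 (by norm_num)
  simp only [cf_dsc hD.au hD.av hD.aw]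
  simp only [Finset.Nat.sum_antidiagonal_eq_sum_range_succ_mk, Finset.sum_range_succ,
    Finset.sum_range_zero, h00, h10, h01]
  norm_num [h00, h10, h01, w00, w10, w01, w20, w11, w02, h21, h12, h03, cf_u00, hu,
    cf_u01 hD.au]
  try ring

theorem e22 : cf (Dsc u v w) 2 2 = - cf v 1 1 ^ 2 - 2 * cf v 2 0 * cf v 0 2 := by
  have h00 := hv 0 0 (by norm_num)
  have h10 := hv 1 0 (by norm_num)
  have h01 := hv 0 1 (by norm_num)
  have w00 := hw 0 0 (by norm_num)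
  have w10 := hw 1 0 (by norm_num)
  have w01 := hw 0 1 (by norm_num)
  have w20 := hw 2 0 (by norm_num)
  have w11 := hw 1 1 (by norm_num)
  have w02 := hw 0 2 (by norm_num)
  simp only [cf_dsc hD.au hD.av hD.aw]
  simp only [Finset.Nat.sum_antidiagonal_eq_sum_range_succ_mk, Finset.sum_range_succ,
    Finset.sum_range_zero, h00, h10, h01]
  norm_num [h00, h10, h01, w00, w10, w01, w20, w11, w02, h21, h12, h03, cf_u00, hu]
  try ring

theorem e30 : cf (Dsc u v w) 3 0 = 0 := by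
  have h00 := hv 0 0 (by norm_num)
  have h10 := hv 1 0 (by norm_num)
  have h01 := hv 0 1 (by norm_num)
  have w00 := hw 0 0 (by norm_num)
  have w10 := hw 1 0 (by norm_num)
  have w01 := hw 0 1 (by norm_num)
  have w20 := hw 2 0 (by norm_num)
  have w11 := hw 1 1 (by norm_num)
  have w02 := hw 0 2 (by norm_num)
  simp only [cf_dsc hD.au hD.av hD.aw]
  simp only [Finset.Nat.sum_antidiagonal_eq_sum_range_succ_mk, Finset.sum_range_succ,
    Finset.sum_range_zero, h00, h10, h01]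
  norm_num [h00, h10, h01, w00, w10, w01, w20, w11, w02, h21, h12, h03, cf_u00, hu]

end

/-- node at `e_2` -/
theorem nodal2 (hD : Dq g u v w) (h21 : cf w 2 1 = 0) (h12 : cf w 1 2 = 0) (h03 : cf w 0 3 = 0)
    (h02 : cf v 0 2 = 0) (h11 : cf v 1 1 ≠ 0) : Nodal g := by
  have hs := sym_H3 hD.an
  have t022 : H3 g 0 2 2 = 0 := by rw [hD.h022, h02, mul_zero]
  have t122 : H3 g 1 2 2 = 0 := by rw [hD.h122, h12, mul_zero]
  have t222 : H3 g 2 2 2 = 0 := by rw [hD.h222, h03, mul_zero]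
  have t112 : H3 g 1 1 2 = 0 := by rw [hD.h112, h21, mul_zero]
  have t012 : H3 g 0 1 2 = cf v 1 1 := hD.h012
  have s220 : H3 g 2 2 0 = 0 := by rw [hs.s23, hs.s12, t022]
  have s221 : H3 g 2 2 1 = 0 := by rw [hs.s23, hs.s12, t122]
  have s202 : H3 g 2 0 2 = 0 := by rw [hs.s12, t022]
  have s212 : H3 g 2 1 2 = 0 := by rw [hs.s12, t122]
  have s211 : H3 g 2 1 1 = 0 := by rw [hs.s12, hs.s23, t112]
  have s201 : H3 g 2 0 1 = cf v 1 1 := by rw [hs.s12, hs.s23, t012]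
  have s210 : H3 g 2 1 0 = cf v 1 1 := by rw [hs.s23, s201]
  refine nodal_of_node hs (p := ![0, 0, 1]) (fun h => ?_) (fun x => ?_) (fun x hx => ?_)
  · have := congrFun h 2
    simp at this
  · simp [ev, Fin.sum_univ_three, s220, s221, t222]
  · have a1 := hx ![0, 1, 0]
    have a0 := hx ![1, 0, 0]
    simp [ev, Fin.sum_univ_three, s201, s211, s221] at a1
    have x0 : x 0 = 0 := a1.resolve_left h11
    simp [ev, Fin.sum_univ_three, s210, s220, x0] at a0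
    have x1 : x 1 = 0 := a0.resolve_left h11
    refine ⟨x 2, ?_⟩
    funext i
    fin_cases i <;> simp [x0, x1]

/-- a binary quadratic form has a zero -/
theorem exists_zero (a b c : ℂ) : ∃ y z : ℂ, (y ≠ 0 ∨ z ≠ 0) ∧ a * y ^ 2 + b * y * z + c * z ^ 2 = 0 := by
  by_cases ha : a = 0
  · exact ⟨1, 0, Or.inl one_ne_zero, by rw [ha]; ring⟩
  · obtain ⟨s, hs⟩ := IsAlgClosed.exists_eq_mul_self (b ^ 2 - 4 * a * c)
    refine ⟨(-b + s) / (2 * a), 1, Or.inr one_ne_zero, ?_⟩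
    field_simp
    linear_combination -hs

/-- node on the line `x_0 = 0` -/
theorem nodal1 (hD : Dq g u v w) (h30 : cf w 3 0 = 0) (h21 : cf w 2 1 = 0) (h12 : cf w 1 2 = 0)
    (h03 : cf w 0 3 = 0) (hd : cf v 1 1 ^ 2 - 4 * cf v 2 0 * cf v 0 2 ≠ 0) : Nodal g := by
  have hs := sym_H3 hD.an
  obtain ⟨y, z, hyz, hq⟩ := exists_zero (cf v 2 0) (cf v 1 1) (cf v 0 2)
  have t111 : H3 g 1 1 1 = 0 := by rw [hD.h111, h30, mul_zero]
  have t112 : H3 g 1 1 2 = 0 := by rw [hD.h112, h21, mul_zero]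
  have t122 : H3 g 1 2 2 = 0 := by rw [hD.h122, h12, mul_zero]
  have t222 : H3 g 2 2 2 = 0 := by rw [hD.h222, h03, mul_zero]
  have t121 : H3 g 1 2 1 = 0 := by rw [hs.s23, t112]
  have t211 : H3 g 2 1 1 = 0 := by rw [hs.s12, t121]
  have t212 : H3 g 2 1 2 = 0 := by rw [hs.s12, t122]
  have t221 : H3 g 2 2 1 = 0 := by rw [hs.s23, t212]
  have t110 : H3 g 1 1 0 = 2 * cf v 2 0 := by rw [hs.s23, hs.s12, hD.h011]
  have t120 : H3 g 1 2 0 = cf v 1 1 := by rw [hs.s23, hs.s12, hD.h012]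
  have t210 : H3 g 2 1 0 = cf v 1 1 := by rw [hs.s12, t120]
  have t220 : H3 g 2 2 0 = 2 * cf v 0 2 := by rw [hs.s23, hs.s12, hD.h022]
  have t101 : H3 g 1 0 1 = 2 * cf v 2 0 := by rw [hs.s12, hD.h011]
  have t102 : H3 g 1 0 2 = cf v 1 1 := by rw [hs.s12, hD.h012]
  have t201 : H3 g 2 0 1 = cf v 1 1 := by rw [hs.s23, t210]
  have t202 : H3 g 2 0 2 = 2 * cf v 0 2 := by rw [hs.s12, hD.h022]
  refine nodal_of_node hs (p := ![0, y, z]) (fun h => ?_) (fun x => ?_) (fun x hx => ?_)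
  · have h1 := congrFun h 1
    have h2 := congrFun h 2
    simp at h1 h2
    rcases hyz with h' | h'
    · exact h' h1
    · exact h' h2
  · simp only [ev, Fin.sum_univ_three, Matrix.cons_val_zero, Matrix.cons_val_one, Matrix.cons_val,
      t111, t112, t121, t122, t211, t212, t221, t222, t110, t120, t210, t220]
    linear_combination 2 * x 0 * hq
  · have a1 := hx ![0, 1, 0]
    have a2 := hx ![0, 0, 1]
    have a0 := hx ![1, 0, 0]
    simp only [ev, Fin.sum_univ_three, Matrix.cons_val_zero, Matrix.cons_val_one, Matrix.cons_val,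
      t111, t112, t121, t122, t211, t212, t221, t222, t101, t102, t201, t202, t110, t120, t210,
      t220] at a0 a1 a2
    have b1 : (2 * cf v 2 0 * y + cf v 1 1 * z) * x 0 = 0 := by linear_combination a1
    have b2 : (cf v 1 1 * y + 2 * cf v 0 2 * z) * x 0 = 0 := by linear_combination a2
    have hPQ : 2 * cf v 2 0 * y + cf v 1 1 * z ≠ 0 ∨ cf v 1 1 * y + 2 * cf v 0 2 * z ≠ 0 := by
      by_contra hcon
      push Not at hcon
      obtain ⟨hP, hQ⟩ := hcon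
      have c1 : (cf v 1 1 ^ 2 - 4 * cf v 2 0 * cf v 0 2) * y = 0 := by
        linear_combination cf v 1 1 * hQ - 2 * cf v 0 2 * hP
      have c2 : (cf v 1 1 ^ 2 - 4 * cf v 2 0 * cf v 0 2) * z = 0 := by
        linear_combination cf v 1 1 * hP - 2 * cf v 2 0 * hQ
      rcases hyz with h' | h'
      · exact h' ((mul_eq_zero.1 c1).resolve_left hd)
      · exact h' ((mul_eq_zero.1 c2).resolve_left hd)
    have x0 : x 0 = 0 := by
      rcases hPQ with h' | h'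
      · exact (mul_eq_zero.1 b1).resolve_left h'
      · exact (mul_eq_zero.1 b2).resolve_left h'
    rw [x0] at a0
    have b0 : (2 * cf v 2 0 * y + cf v 1 1 * z) * x 1 +
        (cf v 1 1 * y + 2 * cf v 0 2 * z) * x 2 = 0 := by linear_combination a0
    have b3 : (2 * cf v 2 0 * y + cf v 1 1 * z) * y +
        (cf v 1 1 * y + 2 * cf v 0 2 * z) * z = 0 := by linear_combination 2 * hq
    have b4 : x 1 * z - x 2 * y = 0 := by
      rcases hPQ with h' | h'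
      · have : (2 * cf v 2 0 * y + cf v 1 1 * z) * (x 1 * z - x 2 * y) = 0 := by
          linear_combination z * b0 - x 2 * b3
        exact (mul_eq_zero.1 this).resolve_left h'
      · have : (cf v 1 1 * y + 2 * cf v 0 2 * z) * (x 1 * z - x 2 * y) = 0 := by
          linear_combination x 1 * b3 - y * b0
        exact (mul_eq_zero.1 this).resolve_left h'
    rcases hyz with h' | h'
    · refine ⟨x 1 / y, ?_⟩
      funext i
      fin_cases i
      · simp [x0]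
      · simp only [Pi.smul_apply, smul_eq_mul]
        show x 1 = x 1 / y * y
        field_simp
      · simp only [Pi.smul_apply, smul_eq_mul]
        show x 2 = x 1 / y * z
        field_simp
        linear_combination -b4
    · refine ⟨x 2 / z, ?_⟩
      funext i
      fin_cases i
      · simp [x0]
      · simp only [Pi.smul_apply, smul_eq_mul]
        show x 1 = x 2 / z * y
        field_simp
        linear_combination b4
      · simp only [Pi.smul_apply, smul_eq_mul]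
        show x 2 = x 2 / z * z
        field_simp

end coef

/-! ### the two cases -/

theorem cont_cf {Q : (Fin 2 → ℂ) × ℂ → ℂ} (hQ : AnalyticAt ℂ Q (0, 0)) (i j : ℕ) :
    ContinuousAt (fun t : ℂ => cf (sl Q t) i j) 0 := (an_cf hQ i j).continuousAt

theorem Bad.col {g : E3 → ℂ} {f : E3 → ℂ} {A : E3 ≃L[ℂ] E3} (hf : LC0 f)
    (hg : g = fun x => f (A x)) : Defs_219.col (par f) = Defs_219.col (par g) := by
  rw [hg, col_lin hf.iso.an A]

/-- the cubic part of `w` vanishes -/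
theorem caseB1 (quart : QuartStmt) (h : Ctx2 F μ) (h0 : ∀ᶠ t in 𝓝 (0 : ℂ), H3 (sl F t) 1 1 1 = 0 ∧
    H3 (sl F t) 1 1 2 = 0 ∧ H3 (sl F t) 1 2 2 = 0 ∧ H3 (sl F t) 2 2 2 = 0) : False := by
  obtain ⟨U, V, W, hD⟩ := h.dd
  obtain ⟨r, C, hG⟩ := good_fam h.fam
  obtain ⟨k, hk, hq⟩ := quart
  have hw3 : ∀ᶠ t in 𝓝 (0 : ℂ), cf (sl W t) 3 0 = 0 ∧ cf (sl W t) 2 1 = 0 ∧ cf (sl W t) 1 2 = 0 ∧
      cf (sl W t) 0 3 = 0 := by
    filter_upwards [h0, hD.dq] with t h1 h2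
    obtain ⟨a1, a2, a3, a4⟩ := h1
    rw [h2.h111] at a1
    rw [h2.h112] at a2
    rw [h2.h122] at a3
    rw [h2.h222] at a4
    exact ⟨by linear_combination a1 / 6, by linear_combination a2 / 2, by linear_combination a3 / 2,
      by linear_combination a4 / 6⟩
  have hc := cont_cf (an_DscF hD.toDF)
  have hI : ContinuousAt (fun t : ℂ => k * C ^ 2 * ‖12 * cf (sl (DscF U V W) t) 4 0 *
      cf (sl (DscF U V W) t) 0 4 - 3 * cf (sl (DscF U V W) t) 3 1 * cf (sl (DscF U V W) t) 1 3 +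
      cf (sl (DscF U V W) t) 2 2 ^ 2‖) 0 :=
    continuousAt_const.mul ((((continuousAt_const.mul (hc 4 0)).mul (hc 0 4)).sub
      ((continuousAt_const.mul (hc 3 1)).mul (hc 1 3))).add ((hc 2 2).pow 2)).norm
  -- the value at `0`
  have hDq := hD.dq.self_of_nhds
  obtain ⟨w30, w21, w12, w03⟩ := hw3.self_of_nhds
  have hw : ∀ i j, i + j ≤ 3 → cf (sl W 0) i j = 0 := by
    intro i j hij
    rcases (by omega : i + j ≤ 2 ∨ (i = 3 ∧ j = 0) ∨ (i = 2 ∧ j = 1) ∨ (i = 1 ∧ j = 2) ∨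
      (i = 0 ∧ j = 3)) with h' | ⟨rfl, rfl⟩ | ⟨rfl, rfl⟩ | ⟨rfl, rfl⟩ | ⟨rfl, rfl⟩
    · exact hD.w0.self_of_nhds i j h'
    · exact w30
    · exact w21
    · exact w12
    · exact w03
  have hv := d4 hDq hD.u0 hD.v0.self_of_nhds hw
  by_cases hd : cf (sl V 0) 1 1 ^ 2 - 4 * cf (sl V 0) 2 0 * cf (sl V 0) 0 2 = 0
  · rw [hd] at hv
    have hlt : k * C ^ 2 * ‖12 * cf (sl (DscF U V W) 0) 4 0 *
      cf (sl (DscF U V W) 0) 0 4 - 3 * cf (sl (DscF U V W) 0) 3 1 * cf (sl (DscF U V W) 0) 1 3 +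
      cf (sl (DscF U V W) 0) 2 2 ^ 2‖ < 1 := by
      rw [sl_DscF, hv]
      simp
    have hev := hI.tendsto.eventually_lt_const hlt
    obtain ⟨t, ⟨hbt, hdt⟩, hGt, hwt, het, hfin⟩ := (fr0 (h.bad.and_eventually hD.dcp)
      (hG.and (hw3.and (hev.and h.fam.fin)))).exists
    obtain ⟨f, A, hf, hg⟩ := hbt
    have hcol := Bad.col hf hg
    rcases hq f A (sl U t) (sl V t) (sl W t) r C hf (hg ▸ hdt) (hg ▸ hGt) (fun i j hij => by
      rcases (by omega : (i = 3 ∧ j = 0) ∨ (i = 2 ∧ j = 1) ∨ (i = 1 ∧ j = 2) ∨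
        (i = 0 ∧ j = 3)) with ⟨rfl, rfl⟩ | ⟨rfl, rfl⟩ | ⟨rfl, rfl⟩ | ⟨rfl, rfl⟩
      · exact hwt.1
      · exact hwt.2.1
      · exact hwt.2.2.1
      · exact hwt.2.2.2) with h1 | h1
    · have := h.mu
      rw [hcol, hfin.2] at h1
      omega
    · rw [sl_DscF] at het
      linarith
  · exact h.nn (nodal1 hDq w30 w21 w12 w03 hd)

/-- the cubic part of `w` is `κ y³` -/
theorem caseB2 (sext : SextStmt) (h : Ctx3 F μ) : False := by
  obtain ⟨U, V, W, hD⟩ := h.toCtx2.dd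
  obtain ⟨r, C, hG⟩ := good_fam h.fam
  obtain ⟨k, hk, hq⟩ := sext
  have hw3 : ∀ᶠ t in 𝓝 (0 : ℂ), cf (sl W t) 2 1 = 0 ∧ cf (sl W t) 1 2 = 0 ∧
      cf (sl W t) 0 3 = 0 := by
    filter_upwards [h.c1, hD.dq] with t h1 h2
    obtain ⟨a2, a3, a4⟩ := h1
    rw [h2.h112] at a2
    rw [h2.h122] at a3
    rw [h2.h222] at a4
    exact ⟨by linear_combination a2 / 2, by linear_combination a3 / 2,
      by linear_combination a4 / 6⟩
  have hw30 : ∀ᶠ t in 𝓝[≠] (0 : ℂ), cf (sl W t) 3 0 ≠ 0 := by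
    filter_upwards [h.c0, hD.dq.filter_mono nhdsWithin_le_nhds] with t h1 h2 h3
    rw [h2.h111, h3, mul_zero] at h1
    exact h1 rfl
  have ha := an_cf (an_DscF hD.toDF)
  have hc := cont_cf (an_DscF hD.toDF)
  have hfr : ∃ᶠ t in 𝓝[≠] (0 : ℂ), (cf (sl (DscF U V W) t) 0 4 = 0 ∧
      cf (sl (DscF U V W) t) 0 5 = 0) ∧ (μ ≤ 10 ∨ 1 ≤ k * C ^ 2 * ‖cf (sl (DscF U V W) t) 2 2 ^ 2 -
        3 * cf (sl (DscF U V W) t) 3 0 * cf (sl (DscF U V W) t) 1 4‖) := by
    refine (fr0 (h.bad.and_eventually (hD.dcp.and hw30)) (hG.and (hw3.and h.fam.fin))).mono ?_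
    rintro t ⟨⟨⟨f, A, hf, hg⟩, hdt, hw30t⟩, hGt, ⟨a1, a2, a3⟩, hfin⟩
    have hcol := Bad.col hf hg
    obtain ⟨⟨b1, b2, b3⟩, b4⟩ := hq f A (sl U t) (sl V t) (sl W t) r C hf (hg ▸ hdt) (hg ▸ hGt)
      hw30t a1 a2 a3
    rw [hcol, hfin.2] at b4
    exact ⟨⟨b1, b3⟩, b4⟩
  have z04 := (ev_of_fr (ha 0 4) analyticAt_const (hfr.mono fun t ht => ht.1.1)).self_of_nhds
  have z05 := (ev_of_fr (ha 0 5) analyticAt_const (hfr.mono fun t ht => ht.1.2)).self_of_nhds
  have hDq := hD.dq.self_of_nhds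
  obtain ⟨w21, w12, w03⟩ := hw3.self_of_nhds
  have hv0 := hD.v0.self_of_nhds
  have hw0 := hD.w0.self_of_nhds
  rw [sl_DscF, e04 hDq hD.u0 hv0 hw0 w21 w12 w03] at z04
  have v02 : cf (sl V 0) 0 2 = 0 := by
    have : cf (sl V 0) 0 2 ^ 2 = 0 := by linear_combination -z04
    exact pow_eq_zero_iff (two_ne_zero) |>.1 this
  rw [sl_DscF, e05 hDq hD.u0 hv0 hw0 w21 w12 w03, v02] at z05
  have z05' : coordDeriv (sl U 0) 2 0 * cf (sl W 0) 0 4 = 0 := by linear_combination z05 / 4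
  by_cases v11 : cf (sl V 0) 1 1 = 0
  · have hfin := h.fam.fin.self_of_nhds
    have h11 : 11 ≤ μ := by
      rw [← hfin.2]
      rcases mul_eq_zero.1 z05' with h' | h'
      · exact LcxW_759.mu11_3 hDq.an hfin.1
          (LcxW_759.w3 hDq hD.u0 h' hv0 v11 v02 hw0 w21 w12 w03)
      · exact LcxW_759.mu11_2 hDq.an hfin.1
          (LcxW_759.w2 hDq hD.u0 hv0 v11 v02 hw0 w21 w12 w03 h')
    have hJ : ContinuousAt (fun t : ℂ => k * C ^ 2 * ‖cf (sl (DscF U V W) t) 2 2 ^ 2 -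
        3 * cf (sl (DscF U V W) t) 3 0 * cf (sl (DscF U V W) t) 1 4‖) 0 :=
      continuousAt_const.mul (((hc 2 2).pow 2).sub
        ((continuousAt_const.mul (hc 3 0)).mul (hc 1 4))).norm
    have hlt : k * C ^ 2 * ‖cf (sl (DscF U V W) 0) 2 2 ^ 2 -
        3 * cf (sl (DscF U V W) 0) 3 0 * cf (sl (DscF U V W) 0) 1 4‖ < 1 := by
      rw [sl_DscF, e22 hDq hD.u0 hv0 hw0 w21 w12 w03, e30 hDq hD.u0 hv0 hw0 w21 w12 w03, v11, v02]
      simp
    obtain ⟨t, ⟨-, h1 | h1⟩, h2⟩ := (fr0 hfr (hJ.tendsto.eventually_lt_const hlt)).exists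
    · omega
    · linarith
  · exact h.nn (nodal2 hDq w21 w12 w03 v02 v11)

/-- the situation of the context does not exist -/
theorem not_ctx (quart : QuartStmt) (sext : SextStmt) (h : Ctx F μ) : False := by
  obtain ⟨F', h'⟩ := h.ctx2
  rcases h'.tri with h0 | ⟨F'', h''⟩
  · exact caseB1 quart h' h0
  · exact caseB2 sext h''

/-- in a `μ`-constant family over a germ of multiplicity `≥ 3` with non nodal cubic there are no
log canonical, non klt germs -/
theorem lcx (quart : QuartStmt) (sext : SextStmt) (hF : Fam F μ) (h2 : ∀ i j, H2 (sl F 0) i j = 0)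
    (hN : ¬ Nodal (sl F 0)) : ∀ᶠ t in 𝓝[≠] (0 : ℂ), ¬ Bad (sl F t) := by
  rw [← not_frequently]
  intro hB
  have hfin := hF.fin.self_of_nhds
  have h10 : 10 ≤ μ := by
    rw [← hfin.2]
    exact LcxW_759.mu10 (ev_an_sl hF.an).self_of_nhds hfin.1 hF.zero.self_of_nhds
      hF.crit.self_of_nhds h2 hN
  exact not_ctx quart sext ⟨hF, h10, h2, hN, hB⟩

theorem posStmt3_of (quart : QuartStmt) (sext : SextStmt) : Skel2_219.PosStmt3 := by
  intro G μ d R r c₀ e P c hG h2 hN hpos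
  have hF := LCTop_472.fam_of_gfam hG
  have hk0 : ¬ InJ 1 (sl G 0) fun _ => 1 := fun h => hpos.ne'
    (KlI_540.kltMStmt _ (SkelV_952.iso_gfam hG (by simpa using hG.R_pos)) h)
  have hkt : ∀ᶠ t in 𝓝[≠] (0 : ℂ), ¬ InJ 1 (sl G t) fun _ => 1 := by
    have : ¬ ∃ᶠ t in 𝓝[≠] (0 : ℂ), InJ 1 (sl G t) fun _ => 1 := fun h =>
      hk0 (KlI_540.kltStmt G μ d R r c₀ e P c hG h)
    exact not_frequently.1 this
  filter_upwards [lcx quart sext hF h2 hN, hkt,
    (Metric.ball_mem_nhds (0 : ℂ) hG.R_pos : _) |> mem_nhdsWithin_of_mem_nhds] with t h1 h3 h4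
  by_contra hcon
  have hiso : Iso (sl G t) := SkelV_952.iso_gfam hG (by simpa using h4)
  exact h1 ⟨sl G t, ContinuousLinearEquiv.refl ℂ E3, ⟨hiso, h3, hcon⟩, rfl⟩

end Crest.Agent.R257.LcxG_759
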