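import Crest.Agent.R257.LcxT_759
import Crest.Agent.R257.EVj_929
import Crest.Agent.R257.EVl_929

/-!
R257 / LcxZ_759 (helper759): **`PosStmt3`** of `Skel2_219`, unconditionally.
-/

set_option autoImplicit false

open Topology Filter
open Crest.AlgGeometry.Germ

noncomputable section

namespace Crest.Agent.R257.LcxZ_759

open Crest.Agent.R257.Defs_219 Crest.Agent.R257.LCDefs_472

theorem posStmt3 : Skel2_219.PosStmt3 :=
  LcxG_759.posStmt3_of EVj_929.quartStmt EVl_929.sextStmt

/-- near a germ of multiplicity `≥ 3` with non nodal cubic, a `μ`-constant family has no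
log canonical, non klt members -/
theorem lcx {F : E3 × ℂ → ℂ} {μ : ℕ} (hF : Fam F μ) (h2 : ∀ i j, H2 (sl F 0) i j = 0)
    (hN : ¬ Nodal (sl F 0)) : ∀ᶠ t in 𝓝[≠] (0 : ℂ), ¬ LcxG_759.Bad (sl F t) :=
  LcxG_759.lcx EVj_929.quartStmt EVl_929.sextStmt hF h2 hN

end Crest.Agent.R257.LcxZ_759
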