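import Crest.Agent.R257.IrrB_331
import Crest.Agent.R257.Sh9_297
import Crest.Agent.R257.T0_387

/-!
R257 / NV1_287 (leaf NVS of C-ORDS): the discriminant family of the Weierstrass polynomial of `TB f`.

* `Dc T`     : the discriminant of `T.P`;  `Dc_iff` : `Dc T q ≠ 0 ↔ (T.P q).roots.Nodup`
* `monFam`   : `MonFam (BD R' R') T.d T.P (Dc T)`
* `hreg`     : the hypersurface is regular off the origin
* `root_near`, `graph`, `ident` : continuity of the roots, local graph, identity theorem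
-/

set_option autoImplicit false
set_option linter.unusedSectionVars false

open Polynomial Set Filter Topology Metric
open Crest.AlgGeometry.Germ Crest.Agent.R257.AJ387 Crest.Agent.R257.T387 Crest.Agent.R257.Sh_297
open Crest.Agent.R257.Irr_547 Crest.Agent.R257.Defs_219

noncomputable section

namespace Crest.Agent.R257.NV_287

/-- roots depend continuously on the parameter (existence near a given root) -/
theorem root_near {Δ : Set (ℂ × ℂ)} {d : ℕ} {P : ℂ × ℂ → ℂ[X]} {D : ℂ × ℂ → ℂ}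
    (F : MonFam Δ d P D) {q₀ : ℂ × ℂ} {z₀ : ℂ} (hq : q₀ ∈ Δ)
    (hz : (P q₀).eval z₀ = 0) {η : ℝ} (hη : 0 < η) :
    ∀ᶠ q in 𝓝 q₀, ∃ z, ‖z - z₀‖ < η ∧ (P q).eval z = 0 := by
  have hΔ : ∀ᶠ q in 𝓝 q₀, q ∈ Δ := F.op.mem_nhds hq
  have hcont : ContinuousAt (fun q => ∑ i ∈ Finset.range (d + 1), (P q).coeff i * z₀ ^ i) q₀ := by
    refine tendsto_finsetSum _ fun i _ => ?_
    exact ((F.an i q₀ hq).continuousAt.mul continuousAt_const)
  have hev : ∀ q ∈ Δ, (P q).eval z₀ = ∑ i ∈ Finset.range (d + 1), (P q).coeff i * z₀ ^ i := by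
    intro q hq
    rw [eval_eq_sum_range' (n := d + 1) (by rw [F.deg q hq]; omega)]
  have h1 : ∀ᶠ q in 𝓝 q₀, ‖(P q).eval z₀‖ < η ^ d := by
    have h2 := hcont.norm.tendsto
    rw [← hev q₀ hq, hz, norm_zero] at h2
    filter_upwards [h2.eventually (gt_mem_nhds (pow_pos hη d)), hΔ] with q h3 h4
    rw [hev q h4]
    exact h3
  filter_upwards [h1, hΔ] with q h2 h3
  by_contra hcon
  push Not at hcon
  have h4 := (IsAlgClosed.splits (P q)).eval_eq_prod_roots_of_monic (F.monic q h3) z₀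
  have h5 : η ^ (Multiset.card (P q).roots) ≤ ‖((P q).roots.map (fun a => z₀ - a)).prod‖ := by
    have h6 : ∀ s : Multiset ℂ, (∀ z ∈ s, (P q).eval z = 0) →
        η ^ (Multiset.card s) ≤ ‖(s.map (fun a => z₀ - a)).prod‖ := by
      intro s
      induction s using Multiset.induction_on with
      | empty => intro _; simp
      | cons a s ih =>
        intro hs
        rw [Multiset.card_cons, Multiset.map_cons, Multiset.prod_cons, norm_mul, pow_succ, mul_comm]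
        refine mul_le_mul ?_ (ih fun z hz => hs z (Multiset.mem_cons_of_mem hz)) (by positivity)
          (norm_nonneg _)
        have h7 : (P q).eval a = 0 := hs a (Multiset.mem_cons_self a s)
        by_contra h8
        push Not at h8
        rw [← norm_neg, neg_sub] at h8
        exact hcon a h8 h7
    exact h6 _ fun z hz => (mem_roots (F.monic q h3).ne_zero).1 hz
  have h6 : Multiset.card (P q).roots = d := by
    rw [← F.deg q h3]
    exact ((IsAlgClosed.splits (P q)).natDegree_eq_card_roots).symm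
  rw [← h4, h6] at h5
  exact absurd h2 (not_lt.2 h5)

variable {f : (Fin 3 → ℂ) → ℂ} (T : TB f)

/-- the discriminant of the Weierstrass polynomial -/
def Dc (q : ℂ × ℂ) : ℂ := Dsc (fun j q => (T.P q).coeff j) T.d q

theorem Wp_eq {q : ℂ × ℂ} (hq : q ∈ BD T.R T.R) :
    Wp (fun j q => (T.P q).coeff j) T.d q = T.P q := by
  ext n
  rw [coeff_Wp]
  split_ifs with h
  · rfl
  · symm
    apply coeff_eq_zero_of_natDegree_lt
    rw [T.deg q hq]
    omega

theorem coeff_d {q : ℂ × ℂ} (hq : q ∈ BD T.R T.R) : (T.P q).coeff T.d = 1 := by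
  have := (T.monic q hq).coeff_natDegree
  rwa [T.deg q hq] at this

theorem Dc_iff {q : ℂ × ℂ} (hq : q ∈ BD T.R T.R) : Dc T q ≠ 0 ↔ (T.P q).roots.Nodup := by
  constructor
  · intro h
    have := nodup_of_Dsc (w := fun j q => (T.P q).coeff j) (d := T.d) (y := q) (coeff_d T hq) h
    rwa [Wp_eq T hq] at this
  · intro h
    refine (Dsc_ne_zero_iff (w := fun j q => (T.P q).coeff j) (d := T.d) (y := q)
      (coeff_d T hq)).2 fun z hz => ?_
    rw [← eval_Wp, Wp_eq T hq] at hz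
    rw [Wp_eq T hq]
    exact derivative_ne_of_nodup (T.monic q hq).ne_zero h hz

theorem BD_conn (r : ℝ) : IsPreconnected (BD r r) := by
  have : BD r r = ball (0 : ℂ) r ×ˢ ball (0 : ℂ) r := by
    ext p; simp [BD]
  rw [this]
  exact ((convex_ball _ _).prod (convex_ball _ _)).isPreconnected

theorem BD_le {r r' : ℝ} (h : r ≤ r') {q : ℂ × ℂ} (hq : q ∈ BD r r) : q ∈ BD r' r' :=
  ⟨hq.1.trans_le h, hq.2.trans_le h⟩

theorem monFam {R' : ℝ} (h0 : 0 < R') (hle : R' ≤ T.R) :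
    MonFam (BD R' R') T.d T.P (Dc T) where
  op := isOpen_BD _ _
  conn := BD_conn R'
  monic q hq := T.monic q (BD_le hle hq)
  deg q hq := T.deg q (BD_le hle hq)
  an k q hq := T.coeff_an k q (BD_le hle hq)
  hD q hq := Dsc_analytic fun j => T.coeff_an j q (BD_le hle hq)
  Dne := by
    have h1 : ((R' / 2 : ℝ) : ℂ) ∈ ball (0 : ℂ) R' := by
      rw [mem_ball, dist_zero_right, Complex.norm_real, Real.norm_of_nonneg (by linarith)]
      linarith
    have h2 : ((R' / 2 : ℝ) : ℂ) ≠ 0 := by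
      rw [Complex.ofReal_ne_zero]; linarith
    have h3 := T.nodup 0 (mem_ball_self T.ρ_pos) _ (ball_subset_ball hle h1)
      (fun i => by rw [T.φ_zero]; exact h2)
    rw [zero_pow T.N₀_pos.ne'] at h3
    have h4 : ((0 : ℂ), ((R' / 2 : ℝ) : ℂ)) ∈ BD R' R' := ⟨by simpa using h0, by simpa using h1⟩
    exact ⟨_, h4, (Dc_iff T (BD_le hle h4)).2 h3⟩
  nodup q hq h := (Dc_iff T (BD_le hle hq)).1 h

/-- `(q, z) ↦ pt z (A q)` -/
def LL : (ℂ × ℂ) × ℂ →L[ℂ] (Fin 3 → ℂ) :=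
  T0_387.ptL.comp ((T.A.toContinuousLinearMap.comp (ContinuousLinearMap.fst ℂ (ℂ × ℂ) ℂ)).prod
    (ContinuousLinearMap.snd ℂ (ℂ × ℂ) ℂ))

theorem LL_apply (x : (ℂ × ℂ) × ℂ) : LL T x = pt x.2 (T.A x.1) := by
  show T0_387.ptL (T.A x.1, x.2) = _
  rw [T0_387.ptL_apply]

theorem LL_surj (e : Fin 3 → ℂ) : LL T (T.A.symm (e 1, e 2), e 0) = e := by
  rw [LL_apply]
  show pt (e 0) (T.A (T.A.symm (e 1, e 2))) = e
  rw [ContinuousLinearEquiv.apply_symm_apply]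
  funext i
  fin_cases i <;> rfl

theorem LL_inj {x y : (ℂ × ℂ) × ℂ} (h : LL T x = LL T y) : x = y := by
  rw [LL_apply, LL_apply] at h
  have h0 : x.2 = y.2 := congrFun h 0
  have h1 : (T.A x.1).1 = (T.A y.1).1 := congrFun h 1
  have h2 : (T.A x.1).2 = (T.A y.1).2 := congrFun h 2
  exact Prod.ext (T.A.injective (Prod.ext h1 h2)) h0

theorem near_dom : ∀ᶠ x in 𝓝 (((0 : ℂ), (0 : ℂ)), (0 : ℂ)), x.1 ∈ BD T.R T.R ∧ ‖x.2‖ ≤ T.rz := by
  have h1 : ∀ᶠ x in 𝓝 (((0 : ℂ), (0 : ℂ)), (0 : ℂ)), x.1 ∈ BD T.R T.R :=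
    continuous_fst.continuousAt.eventually ((isOpen_BD T.R T.R).mem_nhds
      ⟨by simpa using T.R_pos, by simpa using T.R_pos⟩)
  have h2 : ∀ᶠ x in 𝓝 (((0 : ℂ), (0 : ℂ)), (0 : ℂ)), ‖x.2‖ < T.rz := by
    have : Continuous fun x : (ℂ × ℂ) × ℂ => ‖x.2‖ := by fun_prop
    exact this.continuousAt.eventually (gt_mem_nhds (by simpa using T.rz_pos))
  filter_upwards [h1, h2] with x a b using ⟨a, b.le⟩

theorem eval_an {x : (ℂ × ℂ) × ℂ} (hx : x.1 ∈ BD T.R T.R) :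
    AnalyticAt ℂ (fun q : (ℂ × ℂ) × ℂ => (T.P q.1).eval q.2) x := by
  have h1 : AnalyticAt ℂ (fun q : (ℂ × ℂ) × ℂ =>
      ∑ i ∈ Finset.range (T.d + 1), (T.P q.1).coeff i * q.2 ^ i) x := by
    refine Finset.analyticAt_fun_sum _ fun i _ => ?_
    refine AnalyticAt.mul ?_ (analyticAt_snd.pow i)
    exact AnalyticAt.comp (g := fun p => (T.P p).coeff i) (f := fun q : (ℂ × ℂ) × ℂ => q.1)
      (T.coeff_an i _ hx) analyticAt_fst
  refine h1.congr ?_
  filter_upwards [continuous_fst.continuousAt.eventually ((isOpen_BD T.R T.R).mem_nhds hx)]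
    with q hq
  rw [eval_eq_sum_range' (n := T.d + 1) (by rw [T.deg _ hq]; omega)]

/-- regularity off the origin -/
theorem hreg (hf : Iso f) : ∀ᶠ x in 𝓝 (((0 : ℂ), (0 : ℂ)), (0 : ℂ)),
    (T.P x.1).eval x.2 = 0 → x ≠ 0 →
      fderiv ℂ (fun q : (ℂ × ℂ) × ℂ => (T.P q.1).eval q.2) x ≠ 0 := by
  have hL0 : Tendsto (LL T) (𝓝 (((0 : ℂ), (0 : ℂ)), (0 : ℂ))) (𝓝 0) := by
    have := (LL T).continuous.tendsto (((0 : ℂ), (0 : ℂ)), (0 : ℂ))
    have h0 : LL T (((0 : ℂ), (0 : ℂ)), (0 : ℂ)) = 0 := map_zero (LL T)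
    rwa [h0] at this
  filter_upwards [(near_dom T).eventually_nhds, hL0.eventually (T0_387.isolated hf.an hf.fin),
    near_dom T] with x h1 h2 h3 hx hx0 hcon
  obtain ⟨h3a, h3b⟩ := h3
  apply hx0
  have hv : AnalyticAt ℂ T.v x := T.v_an x.1 h3a x.2 h3b
  have hP := eval_an T h3a
  have hfx : AnalyticAt ℂ f (LL T x) := by rw [LL_apply]; exact T.f_an x.1 h3a x.2 h3b
  have e1 : (fun y => f (LL T y)) =ᶠ[𝓝 x] fun y => T.v y * (T.P y.1).eval y.2 := by
    filter_upwards [h1] with y hy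
    rw [LL_apply, T.f_eq y.1 hy.1 y.2 hy.2]
  have e2 : HasFDerivAt (fun y => T.v y * (T.P y.1).eval y.2)
      (T.v x • fderiv ℂ (fun q : (ℂ × ℂ) × ℂ => (T.P q.1).eval q.2) x +
        (T.P x.1).eval x.2 • fderiv ℂ T.v x) x :=
    hv.differentiableAt.hasFDerivAt.mul hP.differentiableAt.hasFDerivAt
  have e2' : T.v x • fderiv ℂ (fun q : (ℂ × ℂ) × ℂ => (T.P q.1).eval q.2) x +
      (T.P x.1).eval x.2 • fderiv ℂ T.v x = 0 := by
    rw [hcon, hx]
    ext <;> simp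
  rw [e2'] at e2
  have e3 : HasFDerivAt (fun y => f (LL T y)) ((fderiv ℂ f (LL T x)).comp (LL T)) x :=
    hfx.differentiableAt.hasFDerivAt.comp x (LL T).hasFDerivAt
  have e4 : (fderiv ℂ f (LL T x)).comp (LL T) = 0 :=
    e3.unique (e2.congr_of_eventuallyEq e1)
  have e5 : ∀ j, coordDeriv f j (LL T x) = 0 := by
    intro j
    have h5 := congrArg (fun l => l (T.A.symm ((Pi.single j 1 : Fin 3 → ℂ) 1,
      (Pi.single j 1 : Fin 3 → ℂ) 2), (Pi.single j 1 : Fin 3 → ℂ) 0)) e4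
    simp only [ContinuousLinearMap.comp_apply, LL_surj] at h5
    exact h5
  have h6 := h2 e5
  exact LL_inj T (h6.trans (map_zero (LL T)).symm)

variable {Δ : Set (ℂ × ℂ)} {d : ℕ} {P : ℂ × ℂ → ℂ[X]} {D : ℂ × ℂ → ℂ}

/-- local graph of the regular part -/
theorem graph (F : MonFam Δ d P D) {x : (ℂ × ℂ) × ℂ} (hx : x ∈ IrrB_331.Vo Δ P D) :
    ∃ ψ : ℂ × ℂ → ℂ, AnalyticAt ℂ ψ x.1 ∧ ψ x.1 = x.2 ∧
      (∀ᶠ p in 𝓝 x.1, (p, ψ p) ∈ IrrB_331.Vo Δ P D) ∧
      ∀ᶠ y in 𝓝 x, y ∈ IrrB_331.Vo Δ P D → y.2 = ψ y.1 := by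
  classical
  obtain ⟨hx1, hx2, hx3⟩ := hx
  obtain ⟨φ, hφ, hev⟩ := F.loc hx1 hx2
  have hne0 := (F.monic _ hx1).ne_zero
  have hx2r : x.2 ∈ (P x.1).roots.toFinset := Multiset.mem_toFinset.2 ((mem_roots hne0).2 hx3)
  have hΔ1 : ∀ᶠ p in 𝓝 x.1, p ∈ Δ := F.op.mem_nhds hx1
  have hΔ : ∀ᶠ p in 𝓝 x.1, p ∈ Δ ∧ D p ≠ 0 :=
    hΔ1.and ((F.hD _ hx1).continuousAt.eventually_ne hx2)
  refine ⟨φ x.2, (hφ _ hx2r).1, (hφ _ hx2r).2, ?_, ?_⟩
  · filter_upwards [hΔ, hev] with p h1 h2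
    refine ⟨h1.1, h1.2, ?_⟩
    have h3 : φ x.2 p ∈ (P p).roots.toFinset := by
      rw [h2.1]; exact Finset.mem_image_of_mem _ hx2r
    exact (mem_roots (F.monic p h1.1).ne_zero).1 (Multiset.mem_toFinset.1 h3)
  · have h4 : ∀ z ∈ (P x.1).roots.toFinset, z ≠ x.2 →
        ∀ᶠ y : (ℂ × ℂ) × ℂ in 𝓝 x, φ z y.1 ≠ y.2 := by
      intro z hz hzx
      have h5 : Tendsto (fun y : (ℂ × ℂ) × ℂ => φ z y.1 - y.2) (𝓝 x) (𝓝 (z - x.2)) := by
        have h6 : ContinuousAt (fun y : (ℂ × ℂ) × ℂ => φ z y.1) x :=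
          ContinuousAt.comp (f := fun y : (ℂ × ℂ) × ℂ => y.1) (g := φ z)
            (hφ z hz).1.continuousAt continuousAt_fst
        have h7 : Tendsto (fun y : (ℂ × ℂ) × ℂ => φ z y.1 - y.2) (𝓝 x) (𝓝 (φ z x.1 - x.2)) :=
          (h6.sub continuousAt_snd).tendsto
        rwa [(hφ z hz).2] at h7
      filter_upwards [h5.eventually_ne (sub_ne_zero.2 hzx)] with y hy h8
      exact hy (sub_eq_zero.2 h8)
    have h5 : ∀ᶠ y : (ℂ × ℂ) × ℂ in 𝓝 x, ∀ z ∈ (P x.1).roots.toFinset, z ≠ x.2 → φ z y.1 ≠ y.2 := by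
      refine (Finset.eventually_all _).2 fun z hz => ?_
      by_cases h : z = x.2
      · exact Eventually.of_forall fun y h' => absurd h h'
      · filter_upwards [h4 z hz h] with y hy _ using hy
    filter_upwards [h5, continuous_fst.continuousAt.eventually hev] with y h6 h7 h8
    have h9 : y.2 ∈ (P y.1).roots.toFinset :=
      Multiset.mem_toFinset.2 ((mem_roots (F.monic _ h8.1).ne_zero).2 h8.2.2)
    rw [h7.1] at h9
    obtain ⟨z, hz, hzy⟩ := Finset.mem_image.1 h9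
    by_cases h : z = x.2
    · rw [← hzy, h]
    · exact absurd hzy (h6 z hz h)

/-- **identity theorem on the irreducible hypersurface** -/
theorem ident (F : MonFam Δ d P D) (h0 : ((0 : ℂ), (0 : ℂ)) ∈ Δ) (hP : P (0, 0) = X ^ d)
    (hreg : ∀ᶠ x in 𝓝 (((0 : ℂ), (0 : ℂ)), (0 : ℂ)), (P x.1).eval x.2 = 0 → x ≠ 0 →
      fderiv ℂ (fun q : (ℂ × ℂ) × ℂ => (P q.1).eval q.2) x ≠ 0)
    {G : (ℂ × ℂ) × ℂ → ℂ} (hG : ∀ x ∈ IrrB_331.Vo Δ P D, AnalyticAt ℂ G x)
    {x : (ℂ × ℂ) × ℂ} (hx : x ∈ IrrB_331.Vo Δ P D)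
    (hz : ∀ᶠ y in 𝓝 x, y ∈ IrrB_331.Vo Δ P D → G y = 0) :
    ∀ y ∈ IrrB_331.Vo Δ P D, G y = 0 := by
  set A : Set ((ℂ × ℂ) × ℂ) := {x | x ∈ IrrB_331.Vo Δ P D ∧
    ∀ᶠ y in 𝓝 x, y ∈ IrrB_331.Vo Δ P D → G y = 0} with hA
  have h1 := IrrB_331.irr F h0 hP hreg A (fun x hx => hx.1) ?_ ?_ ⟨x, hx, hz⟩
  · intro y hy
    have h2 : y ∈ A := by rw [h1]; exact hy
    exact h2.2.self_of_nhds hy
  · rintro x ⟨hxV, hxe⟩
    filter_upwards [hxe.eventually_nhds] with y hy hyV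
    exact ⟨hyV, hy⟩
  · intro x hxV hxA
    by_contra hcon
    have hfr : ∃ᶠ y in 𝓝 x, y ∈ A := by
      intro h
      exact hcon h
    apply hxA
    refine ⟨hxV, ?_⟩
    obtain ⟨ψ, hψ, hψx, hψV, hgr⟩ := graph F hxV
    -- `G` on the graph
    have hg : AnalyticAt ℂ (fun p => G (p, ψ p)) x.1 := by
      have h3 : AnalyticAt ℂ G (x.1, ψ x.1) := by rw [hψx]; exact hG x hxV
      exact AnalyticAt.comp (g := G) (f := fun p => (p, ψ p)) h3 (analyticAt_id.prod hψ)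
    obtain ⟨r, hr, hball⟩ := Metric.eventually_nhds_iff_ball.1
      (hg.eventually_analyticAt.and (hψV.eventually_nhds.and hψ.eventually_analyticAt))
    have hxn : ∀ᶠ y : (ℂ × ℂ) × ℂ in 𝓝 x, y.1 ∈ ball x.1 r :=
      continuous_fst.continuousAt.eventually (ball_mem_nhds _ hr)
    obtain ⟨y, hyA, hyb, hyg⟩ := (hfr.and_eventually (hxn.and hgr)).exists
    have hy2 : y.2 = ψ y.1 := hyg hyA.1
    have h4 : ∀ᶠ p in 𝓝 y.1, G (p, ψ p) = 0 := by
      have hc : Tendsto (fun p => (p, ψ p)) (𝓝 y.1) (𝓝 y) := by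
        have h5 : ContinuousAt (fun p => (p, ψ p)) y.1 :=
          continuousAt_id.prodMk (hball _ hyb).2.2.continuousAt
        have h6 := h5.tendsto
        rwa [← hy2] at h6
      filter_upwards [hc.eventually hyA.2, (hball _ hyb).2.1] with p h5 h6
      exact h5 h6
    have h5 : EqOn (fun p => G (p, ψ p)) 0 (ball x.1 r) := by
      have han : AnalyticOnNhd ℂ (fun p => G (p, ψ p)) (ball x.1 r) := fun p hp => (hball p hp).1
      exact han.eqOn_zero_of_preconnected_of_eventuallyEq_zero (convex_ball _ _).isPreconnected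
        hyb h4
    filter_upwards [hxn, hgr] with y' h6 h7 h8
    have h9 := h5 h6
    simp only [Pi.zero_apply] at h9
    have h10 : y' = (y'.1, ψ y'.1) := Prod.ext rfl (h7 h8)
    rw [h10]
    exact h9

end Crest.Agent.R257.NV_287
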