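import Crest.Agent.R257.OrdL_578
import Crest.Agent.R257.T0_939
import Crest.Agent.R257.FrmB_547
import Crest.Agent.R257.CLogDefs_68

/-!
# Row 257, C-LOG-NV (helper790), part 1: the nearest branch vector field

`V φ i (t,y) = (t, t φ_i'(t))`; `Adm φ F`: `‖dF(V_i)‖ ≤ C ‖F‖` near `0` when `φ_i(t)` is a nearest
branch to `y`.
-/

set_option autoImplicit false
set_option linter.unusedSectionVars false

open Set Filter Topology Complex Metric Polynomial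

noncomputable section

namespace Crest.Agent.R257.NV_790

open Crest.Agent.R257.Sh_297

/-- the logarithmic derivative of an analytic function of one variable -/
theorem logd {g : ℂ → ℂ} (hg : AnalyticAt ℂ g 0) :
    ∃ k : ℕ, ∀ ε : ℝ, 0 < ε → ∀ᶠ t in 𝓝 (0 : ℂ), ‖t * deriv g t - k * g t‖ ≤ ε * ‖g t‖ := by
  by_cases htop : analyticOrderAt g 0 = ⊤
  · rw [analyticOrderAt_eq_top] at htop
    refine ⟨0, fun ε hε => ?_⟩
    filter_upwards [htop, htop.eventually_nhds] with t h1 h2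
    have h3 : deriv g t = 0 := by
      have : g =ᶠ[𝓝 t] fun _ => (0 : ℂ) := h2
      rw [this.deriv_eq, deriv_const]
    rw [h1, h3]
    simp
  · obtain ⟨k, hk⟩ := ENat.ne_top_iff_exists.1 htop
    obtain ⟨u, hu, hu0, he⟩ := (hg.analyticOrderAt_eq_natCast).1 hk.symm
    refine ⟨k, fun ε hε => ?_⟩
    have h1 : ContinuousAt (fun t : ℂ => ‖t * deriv u t‖) 0 :=
      (continuousAt_id.mul hu.deriv.continuousAt).norm
    have h2 : ContinuousAt (fun t : ℂ => ε * ‖u t‖) 0 := continuousAt_const.mul hu.continuousAt.norm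
    have h3 : ∀ᶠ t in 𝓝 (0 : ℂ), ‖t * deriv u t‖ < ε * ‖u t‖ := by
      refine h1.eventually_lt h2 ?_
      simp only [zero_mul, norm_zero]
      positivity
    filter_upwards [h3, he, he.eventually_nhds, hu.eventually_analyticAt] with t h4 h5 h6 h7
    have h8 : g =ᶠ[𝓝 t] fun s => s ^ k * u s := by
      filter_upwards [h6] with s hs
      rw [hs, sub_zero, smul_eq_mul]
    have h9 : HasDerivAt (fun s : ℂ => s ^ k * u s) ((k : ℂ) * t ^ (k - 1) * u t + t ^ k * deriv u t) t :=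
      (hasDerivAt_pow k t).mul h7.differentiableAt.hasDerivAt
    rw [h8.deriv_eq, h9.deriv, h5, sub_zero, smul_eq_mul]
    have h10 : t * ((k : ℂ) * t ^ (k - 1) * u t + t ^ k * deriv u t) - k * (t ^ k * u t) =
        t ^ k * (t * deriv u t) := by
      rcases Nat.eq_zero_or_pos k with h | h
      · subst h; simp
      · obtain ⟨k', rfl⟩ : ∃ k', k = k' + 1 := ⟨k - 1, by omega⟩
        simp only [Nat.add_sub_cancel]
        ring
    rw [h10, norm_mul, norm_mul (t ^ k) (u t)]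
    calc ‖t ^ k‖ * ‖t * deriv u t‖ ≤ ‖t ^ k‖ * (ε * ‖u t‖) :=
          mul_le_mul_of_nonneg_left h4.le (norm_nonneg _)
      _ = ε * (‖t ^ k‖ * ‖u t‖) := by ring

variable {ι : Type*} [Fintype ι]

/-- `φ i` is a nearest branch -/
def Near (φ : ι → ℂ → ℂ) (p : ℂ × ℂ) (i : ι) : Prop := ∀ l, ‖p.2 - φ i p.1‖ ≤ ‖p.2 - φ l p.1‖

/-- the branch vector field -/
def V (φ : ι → ℂ → ℂ) (i : ι) (p : ℂ × ℂ) : ℂ × ℂ := (p.1, p.1 * deriv (φ i) p.1)

/-- `‖dF(V_i)‖ ≤ C ‖F‖` if `i` is nearest -/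
def Adm (φ : ι → ℂ → ℂ) (F : ℂ × ℂ → ℂ) : Prop :=
  AnalyticAt ℂ F 0 ∧ ∃ C : ℝ, 0 ≤ C ∧ ∀ᶠ p in 𝓝 (0 : ℂ × ℂ), ∀ i, Near φ p i →
    ‖fderiv ℂ F p (V φ i p)‖ ≤ C * ‖F p‖

variable {φ : ι → ℂ → ℂ}

theorem Adm.mul {F G : ℂ × ℂ → ℂ} (hF : Adm φ F) (hG : Adm φ G) : Adm φ fun p => F p * G p := by
  obtain ⟨hFa, C, hC, hF⟩ := hF
  obtain ⟨hGa, D, hD, hG⟩ := hG
  refine ⟨hFa.mul hGa, C + D, by positivity, ?_⟩
  filter_upwards [hF, hG, hFa.eventually_analyticAt, hGa.eventually_analyticAt] with p h1 h2 h3 h4 i hi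
  have h5 := h3.differentiableAt.hasFDerivAt.mul h4.differentiableAt.hasFDerivAt
  have h6 : fderiv ℂ (fun p => F p * G p) p = F p • fderiv ℂ G p + G p • fderiv ℂ F p := h5.fderiv
  rw [h6]
  simp only [ContinuousLinearMap.add_apply, ContinuousLinearMap.smul_apply, smul_eq_mul]
  refine (norm_add_le _ _).trans ?_
  rw [norm_mul, norm_mul, norm_mul]
  have h7 := mul_le_mul_of_nonneg_left (h2 i hi) (norm_nonneg (F p))
  have h8 := mul_le_mul_of_nonneg_left (h1 i hi) (norm_nonneg (G p))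
  nlinarith

theorem Adm.congr {F G : ℂ × ℂ → ℂ} (hF : Adm φ F) (h : ∀ᶠ p in 𝓝 (0 : ℂ × ℂ), F p = G p) : Adm φ G := by
  obtain ⟨hFa, C, hC, hF⟩ := hF
  refine ⟨hFa.congr h, C, hC, ?_⟩
  filter_upwards [hF, h, h.eventually_nhds] with p h1 h2 h3 i hi
  have h4 : G =ᶠ[𝓝 p] F := by
    filter_upwards [h3] with x hx using hx.symm
  rw [h4.fderiv_eq, ← h2]
  exact h1 i hi

theorem Adm.zero {F : ℂ × ℂ → ℂ} (h : ∀ᶠ p in 𝓝 (0 : ℂ × ℂ), F p = 0) : Adm φ F := by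
  have h1 : Adm φ fun _ => (0 : ℂ) := by
    refine ⟨analyticAt_const, 0, le_rfl, Eventually.of_forall fun p i _ => ?_⟩
    simp
  refine h1.congr ?_
  filter_upwards [h] with p hp using hp.symm

theorem an_V (hφ : ∀ i, AnalyticAt ℂ (φ i) 0) (i : ι) : ContinuousAt (V φ i) (0 : ℂ × ℂ) := by
  have h1 : ContinuousAt (fun p : ℂ × ℂ => deriv (φ i) p.1) (0 : ℂ × ℂ) :=
    ContinuousAt.comp (f := Prod.fst) (g := deriv (φ i)) (x := (0 : ℂ × ℂ))
      (hφ i).deriv.continuousAt continuousAt_fst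
  exact continuousAt_fst.prodMk (continuousAt_fst.mul h1)

theorem Adm.unit (hφ : ∀ i, AnalyticAt ℂ (φ i) 0) {F : ℂ × ℂ → ℂ} (hF : AnalyticAt ℂ F 0)
    (h0 : F 0 ≠ 0) : Adm φ F := by
  refine ⟨hF, 1, zero_le_one, ?_⟩
  have h1 : ∀ i, ∀ᶠ p in 𝓝 (0 : ℂ × ℂ), ‖fderiv ℂ F p (V φ i p)‖ < ‖F p‖ := by
    intro i
    have h2 : ContinuousAt (fun p => fderiv ℂ F p (V φ i p)) 0 :=
      hF.fderiv.continuousAt.clm_apply (an_V hφ i)
    refine h2.norm.eventually_lt hF.continuousAt.norm ?_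
    have h3 : V φ i (0 : ℂ × ℂ) = 0 := by
      simp [V]
    rw [h3, map_zero, norm_zero]
    exact norm_pos_iff.2 h0
  filter_upwards [eventually_all.2 h1] with p hp i _
  rw [one_mul]
  exact (hp i).le

theorem Adm.fst : Adm φ fun p => p.1 := by
  refine ⟨analyticAt_fst, 1, zero_le_one, Eventually.of_forall fun p i _ => ?_⟩
  have h1 : fderiv ℂ (fun p : ℂ × ℂ => p.1) p = ContinuousLinearMap.fst ℂ ℂ ℂ := fderiv_fst
  rw [h1]
  simp [V]

theorem Adm.pow {F : ℂ × ℂ → ℂ} (hφ : ∀ i, AnalyticAt ℂ (φ i) 0) (hF : Adm φ F) (n : ℕ) :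
    Adm φ fun p => F p ^ n := by
  induction n with
  | zero =>
    simp only [pow_zero]
    exact Adm.unit hφ analyticAt_const one_ne_zero
  | succ n ih =>
    simp only [pow_succ]
    exact ih.mul hF

theorem Adm.lin (hφ : ∀ i, AnalyticAt ℂ (φ i) 0) (l : ι) : Adm φ fun p => p.2 - φ l p.1 := by
  have hcomp : ∀ i, AnalyticAt ℂ (fun p : ℂ × ℂ => φ i p.1) 0 := fun i =>
    AnalyticAt.comp (g := φ i) (f := Prod.fst) (x := (0 : ℂ × ℂ)) (hφ i) analyticAt_fst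
  refine ⟨analyticAt_snd.sub (hcomp l), ?_⟩
  have h1 : ∀ i, ∃ C : ℝ, 0 ≤ C ∧ ∀ᶠ t in 𝓝 (0 : ℂ),
      ‖t * deriv (φ i) t - t * deriv (φ l) t‖ ≤ C * ‖φ i t - φ l t‖ := by
    intro i
    obtain ⟨k, hk⟩ := logd (g := fun t => φ i t - φ l t) ((hφ i).sub (hφ l))
    refine ⟨k + 1, by positivity, ?_⟩
    filter_upwards [hk 1 one_pos, (hφ i).eventually_analyticAt, (hφ l).eventually_analyticAt] with
      t h2 h3 h4
    have h5 : deriv (fun t => φ i t - φ l t) t = deriv (φ i) t - deriv (φ l) t :=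
      deriv_fun_sub h3.differentiableAt h4.differentiableAt
    rw [h5] at h2
    have h6 : t * deriv (φ i) t - t * deriv (φ l) t =
        (t * (deriv (φ i) t - deriv (φ l) t) - k * (φ i t - φ l t)) + k * (φ i t - φ l t) := by ring
    rw [h6]
    refine (norm_add_le _ _).trans ?_
    have h7 : ‖(k : ℂ) * (φ i t - φ l t)‖ = k * ‖φ i t - φ l t‖ := by
      rw [norm_mul, Complex.norm_natCast]
    rw [h7]
    linarith
  choose C hC0 hC using h1
  refine ⟨2 * ∑ i, C i, by positivity [Finset.sum_nonneg fun i (_ : i ∈ Finset.univ) => hC0 i], ?_⟩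
  have hfst : Tendsto (Prod.fst : ℂ × ℂ → ℂ) (𝓝 0) (𝓝 0) := continuous_fst.tendsto' _ _ rfl
  filter_upwards [hfst.eventually (eventually_all.2 hC), hfst.eventually (hφ l).eventually_analyticAt]
    with p h2 h3 i hi
  have h4 : HasFDerivAt (fun p : ℂ × ℂ => φ l p.1)
      ((deriv (φ l) p.1) • ContinuousLinearMap.fst ℂ ℂ ℂ) p := by
    have h5 : HasDerivAt (φ l) (deriv (φ l) p.1) p.1 := h3.differentiableAt.hasDerivAt
    exact h5.comp_hasFDerivAt p hasFDerivAt_fst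
  have h6 : fderiv ℂ (fun p : ℂ × ℂ => p.2 - φ l p.1) p =
      ContinuousLinearMap.snd ℂ ℂ ℂ - (deriv (φ l) p.1) • ContinuousLinearMap.fst ℂ ℂ ℂ :=
    (hasFDerivAt_snd.sub h4).fderiv
  rw [h6]
  simp only [ContinuousLinearMap.sub_apply, ContinuousLinearMap.smul_apply,
    ContinuousLinearMap.coe_snd', ContinuousLinearMap.coe_fst', V, smul_eq_mul]
  have h7 : p.1 * deriv (φ i) p.1 - deriv (φ l) p.1 * p.1 =
      p.1 * deriv (φ i) p.1 - p.1 * deriv (φ l) p.1 := by ring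
  rw [h7]
  have h8 : ‖φ i p.1 - φ l p.1‖ ≤ 2 * ‖p.2 - φ l p.1‖ := by
    have h9 : φ i p.1 - φ l p.1 = (p.2 - φ l p.1) - (p.2 - φ i p.1) := by ring
    rw [h9]
    refine (norm_sub_le _ _).trans ?_
    linarith [hi l]
  have h9 : C i ≤ ∑ i, C i := Finset.single_le_sum (fun i _ => hC0 i) (Finset.mem_univ i)
  calc ‖p.1 * deriv (φ i) p.1 - p.1 * deriv (φ l) p.1‖ ≤ C i * ‖φ i p.1 - φ l p.1‖ := h2 i
    _ ≤ (∑ i, C i) * (2 * ‖p.2 - φ l p.1‖) :=
        mul_le_mul h9 h8 (norm_nonneg _) ((hC0 i).trans h9)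
    _ = 2 * (∑ i, C i) * ‖p.2 - φ l p.1‖ := by ring

end Crest.Agent.R257.NV_790
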