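import Crest.Agent.R257.NV1_790

/-!
# Row 257, C-LOG-NV (helper790), part 2: analytic functions with zeros on the branches are `Adm`
-/

set_option autoImplicit false
set_option linter.unusedSectionVars false

open Set Filter Topology Complex Metric Polynomial

noncomputable section

namespace Crest.Agent.R257.NV_790

open Crest.Agent.R257.Sh_297

variable {ι : Type*} [Fintype ι] {φ : ι → ℂ → ℂ}

/-- if `F(0,·)` vanishes to positive finite order and the zeros of `F` lie on the branches, one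
branch lies in the zero set -/
theorem exists_branch_zero (hφ : ∀ i, AnalyticAt ℂ (φ i) 0) (hφ0 : ∀ i, φ i 0 = 0)
    {F : ℂ × ℂ → ℂ} (hF : AnalyticAt ℂ F 0) {d : ℕ} (hd : 0 < d)
    (hord : analyticOrderAt (fun y => F (0, y)) 0 = d)
    (hz : ∀ᶠ p in 𝓝 (0 : ℂ × ℂ), F p = 0 → ∃ i, p.2 = φ i p.1) :
    ∃ i, ∀ᶠ t in 𝓝 (0 : ℂ), F (t, φ i t) = 0 := by
  classical
  obtain ⟨w, v, hwa, hw1, hw0, hwz, hv, hv0, hFe⟩ := exists_wpoly (y₀ := (0 : ℂ)) (F := F) hF hord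
  have hFe' : ∀ᶠ p in 𝓝 (0 : ℂ × ℂ), F p = v p * Wf w d p.1 p.2 := hFe
  obtain ⟨ε, hε, hεb⟩ := Metric.eventually_nhds_iff_ball.1 (hFe'.and hz)
  have hWm : ∀ x, (Wp w d x).Monic := fun x => by
    refine monic_of_natDegree_le_of_coeff_eq_one d (degree_Wp_le w d x) ?_
    rw [coeff_Wp, if_pos (Nat.lt_succ_self d), hw1]
  have hWn : ∀ x, (Wp w d x).natDegree = d := fun x => by
    refine le_antisymm (degree_Wp_le w d x) (le_natDegree_of_ne_zero ?_)
    rw [coeff_Wp, if_pos (Nat.lt_succ_self d), hw1]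
    exact one_ne_zero
  set ρ : ℝ := ε / 2 with hρdef
  have hρ : 0 < ρ := by positivity
  have hw2 : ∀ᶠ y in 𝓝 (0 : ℂ), (∀ j ∈ Finset.range d, ‖w j y‖ < ρ ^ (d - j) / (d + 1)) ∧
      y ∈ ball (0 : ℂ) ε := by
    refine ((Finset.eventually_all _).2 fun j hj => ?_).and (ball_mem_nhds _ hε)
    rw [Finset.mem_range] at hj
    refine (hwa j).continuousAt.norm.tendsto.eventually (gt_mem_nhds ?_)
    rw [hw0 j hj, norm_zero]
    positivity
  have h1 : ∀ᶠ t in 𝓝 (0 : ℂ), ∏ i, F (t, φ i t) = 0 := by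
    filter_upwards [hw2] with t ht
    obtain ⟨z, hz⟩ := IsAlgClosed.exists_root (Wp w d t) (by
      rw [degree_eq_natDegree (hWm t).ne_zero, hWn]
      exact_mod_cast hd.ne')
    have hz' : Wf w d t z = 0 := by
      rw [← eval_Wp]; exact hz
    have hzρ : ‖z‖ < ρ := root_bound (hw1 t) hρ (fun j hj => ht.1 j (Finset.mem_range.2 hj)) hz'
    have hm : ((t, z) : ℂ × ℂ) ∈ ball (0 : ℂ × ℂ) ε := by
      rw [mem_ball, Prod.dist_eq, max_lt_iff]
      refine ⟨ht.2, ?_⟩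
      show dist z 0 < ε
      rw [dist_zero_right]
      linarith
    obtain ⟨h2, h3⟩ := hεb _ hm
    have h4 : F (t, z) = 0 := by
      rw [h2]
      show v (t, z) * Wf w d t z = 0
      rw [hz', mul_zero]
    obtain ⟨i, hi⟩ := h3 h4
    refine Finset.prod_eq_zero (Finset.mem_univ i) ?_
    have hi' : z = φ i t := hi
    rw [← hi']
    exact h4
  obtain ⟨i, -, hi⟩ := Crest.Agent.R257.Frm_547.prod_ev Finset.univ (g := fun i t => F (t, φ i t))
    (fun i _ => by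
      refine AnalyticAt.comp (g := F) (f := fun t : ℂ => (t, φ i t)) ?_
        (analyticAt_id.prod (hφ i))
      rw [hφ0 i]
      exact hF) h1
  exact ⟨i, hi⟩

/-- division by a branch -/
theorem exists_div_branch {f : ℂ → ℂ} (hf : AnalyticAt ℂ f 0) (hf0 : f 0 = 0)
    {F : ℂ × ℂ → ℂ} (hF : AnalyticAt ℂ F 0) (h0 : ∀ᶠ t in 𝓝 (0 : ℂ), F (t, f t) = 0) :
    ∃ F₁ : ℂ × ℂ → ℂ, AnalyticAt ℂ F₁ 0 ∧ ∀ᶠ p in 𝓝 (0 : ℂ × ℂ), F p = (p.2 - f p.1) * F₁ p := by
  have hfs : AnalyticAt ℂ (fun q : ℂ × ℂ => f q.2) (0 : ℂ × ℂ) :=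
    AnalyticAt.comp (g := f) (f := Prod.snd) (x := (0 : ℂ × ℂ)) hf analyticAt_snd
  have hff : AnalyticAt ℂ (fun q : ℂ × ℂ => f q.1) (0 : ℂ × ℂ) :=
    AnalyticAt.comp (g := f) (f := Prod.fst) (x := (0 : ℂ × ℂ)) hf analyticAt_fst
  have h1 : AnalyticAt ℂ (fun q : ℂ × ℂ => F (q.2, q.1 + f q.2)) (0, 0) := by
    refine AnalyticAt.comp (g := F) (f := fun q : ℂ × ℂ => (q.2, q.1 + f q.2)) (x := (0 : ℂ × ℂ)) ?_
      (analyticAt_snd.prod (analyticAt_fst.add hfs))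
    have h2 : ((0 : ℂ × ℂ).2, (0 : ℂ × ℂ).1 + f (0 : ℂ × ℂ).2) = (0 : ℂ × ℂ) := by
      simp [hf0]
    rw [h2]
    exact hF
  obtain ⟨G, hG, hGe⟩ := OrdL_578.exists_div h1 (by
    filter_upwards [h0] with t ht
    simpa using ht)
  have hmap : AnalyticAt ℂ (fun p : ℂ × ℂ => (p.2 - f p.1, p.1)) (0 : ℂ × ℂ) :=
    (analyticAt_snd.sub hff).prod analyticAt_fst
  have hmap0 : ((0 : ℂ × ℂ).2 - f (0 : ℂ × ℂ).1, (0 : ℂ × ℂ).1) = ((0 : ℂ), (0 : ℂ)) := by
    simp [hf0]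
  have ht : Tendsto (fun p : ℂ × ℂ => (p.2 - f p.1, p.1)) (𝓝 (0 : ℂ × ℂ)) (𝓝 ((0 : ℂ), (0 : ℂ))) := by
    have := hmap.continuousAt.tendsto
    rwa [hmap0] at this
  refine ⟨fun p => G (p.2 - f p.1, p.1), ?_, ?_⟩
  · refine AnalyticAt.comp (g := G) (f := fun p : ℂ × ℂ => (p.2 - f p.1, p.1)) (x := (0 : ℂ × ℂ)) ?_ hmap
    rw [hmap0]
    exact hG
  · filter_upwards [ht.eventually hGe] with p hp
    simpa using hp

/-- **the class `Adm` contains all functions with zeros on the branches** -/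
theorem adm_of_zeros (hφ : ∀ i, AnalyticAt ℂ (φ i) 0) (hφ0 : ∀ i, φ i 0 = 0) (d : ℕ) :
    ∀ F : ℂ × ℂ → ℂ, AnalyticAt ℂ F 0 → analyticOrderAt (fun y => F (0, y)) 0 = d →
    (∀ᶠ p in 𝓝 (0 : ℂ × ℂ), F p = 0 → ∃ i, p.2 = φ i p.1) → Adm φ F := by
  have hax : ∀ {F : ℂ × ℂ → ℂ}, AnalyticAt ℂ F 0 → AnalyticAt ℂ (fun y => F (0, y)) (0 : ℂ) :=
    fun {F} hF => AnalyticAt.comp (g := F) (f := fun y : ℂ => ((0 : ℂ), y)) (x := (0 : ℂ)) hF
      (analyticAt_const.prod analyticAt_id)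
  induction d with
  | zero =>
    intro F hF hord _
    refine Adm.unit hφ hF ?_
    have h2 : (fun y : ℂ => F (0, y)) 0 ≠ 0 := (hax hF).analyticOrderAt_eq_zero.1 (by simpa using hord)
    exact h2
  | succ d ih =>
    intro F hF hord hz
    obtain ⟨i, hi⟩ := exists_branch_zero hφ hφ0 hF (Nat.succ_pos d) hord hz
    obtain ⟨F₁, hF₁, he⟩ := exists_div_branch (hφ i) (hφ0 i) hF hi
    have h1 : Adm φ F₁ := by
      refine ih F₁ hF₁ ?_ ?_
      · have h2 : (fun y => F (0, y)) =ᶠ[𝓝 (0 : ℂ)] (fun y => y) * fun y => F₁ (0, y) := by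
          have h3 : Tendsto (fun y : ℂ => ((0 : ℂ), y)) (𝓝 0) (𝓝 (0 : ℂ × ℂ)) :=
            (by fun_prop : Continuous fun y : ℂ => ((0 : ℂ), y)).tendsto' _ _ rfl
          filter_upwards [h3.eventually he] with y hy
          rw [hy]
          simp [hφ0 i]
        rw [analyticOrderAt_congr h2, analyticOrderAt_mul (by exact analyticAt_id) (hax hF₁)] at hord
        have h4 : analyticOrderAt (fun y : ℂ => y) 0 = 1 := by
          have := (analyticAt_id (𝕜 := ℂ) (z := (0 : ℂ))).analyticOrderAt_eq_natCast (n := 1)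
          rw [show ((1 : ℕ) : ℕ∞) = 1 from rfl] at this
          refine this.2 ⟨fun _ => 1, analyticAt_const, one_ne_zero, ?_⟩
          exact Eventually.of_forall fun z => by simp
        rw [h4] at hord
        have h5 : (1 : ℕ∞) + analyticOrderAt (fun y => F₁ (0, y)) 0 = 1 + (d : ℕ∞) := by
          rw [hord]; push_cast; ring
        exact ENat.add_right_injective_of_ne_top (n := 1) (by simp) h5
      · filter_upwards [he, hz] with p h3 h4 h5
        exact h4 (by rw [h3, h5, mul_zero])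
    refine ((Adm.lin hφ i).mul h1).congr ?_
    filter_upwards [he] with p hp using hp.symm

end Crest.Agent.R257.NV_790
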