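import Crest.Agent.R257.NV2_790

/-!
# Row 257, C-LOG-NV (helper790), part 3: `NVStmt`
-/

set_option autoImplicit false
set_option linter.unusedSectionVars false

open Set Filter Topology Complex Metric Polynomial

noncomputable section

namespace Crest.Agent.R257.NV_790

open Crest.Agent.R257.Sh_297

section G

variable {ι : Type*} [Fintype ι] {φ : ι → ℂ → ℂ}

/-- Leibniz -/
theorem fd_mul {F G : ℂ × ℂ → ℂ} {p : ℂ × ℂ} (hF : DifferentiableAt ℂ F p)
    (hG : DifferentiableAt ℂ G p) (v : ℂ × ℂ) :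
    fderiv ℂ (fun p => F p * G p) p v = F p * fderiv ℂ G p v + G p * fderiv ℂ F p v := by
  have h6 : fderiv ℂ (fun p => F p * G p) p = F p • fderiv ℂ G p + G p • fderiv ℂ F p :=
    (hF.hasFDerivAt.mul hG.hasFDerivAt).fderiv
  rw [h6]
  rfl

theorem fd_fst (M : ℕ) (p v : ℂ × ℂ) :
    fderiv ℂ (fun p : ℂ × ℂ => p.1 ^ M) p v = M * p.1 ^ (M - 1) * v.1 := by
  have h1 : HasFDerivAt (fun p : ℂ × ℂ => p.1 ^ M)
      (((M : ℂ) * p.1 ^ (M - 1)) • ContinuousLinearMap.fst ℂ ℂ ℂ) p :=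
    (hasDerivAt_pow M p.1).comp_hasFDerivAt p hasFDerivAt_fst
  rw [h1.fderiv]
  rfl

theorem fd_snd (M : ℕ) (b : ℂ) (p v : ℂ × ℂ) :
    fderiv ℂ (fun p : ℂ × ℂ => (b + p.2) ^ M) p v = M * (b + p.2) ^ (M - 1) * v.2 := by
  have h0 : HasFDerivAt (fun p : ℂ × ℂ => b + p.2) (ContinuousLinearMap.snd ℂ ℂ ℂ) p :=
    hasFDerivAt_snd.const_add b
  have h1 : HasFDerivAt (fun p : ℂ × ℂ => (b + p.2) ^ M)
      (((M : ℂ) * (b + p.2) ^ (M - 1)) • ContinuousLinearMap.snd ℂ ℂ ℂ) p :=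
    (hasDerivAt_pow M (b + p.2)).comp_hasFDerivAt p h0
  rw [h1.fderiv]
  rfl

theorem small_unit (hφ : ∀ i, AnalyticAt ℂ (φ i) 0) {u : ℂ × ℂ → ℂ} (hu : AnalyticAt ℂ u 0)
    (h0 : u 0 ≠ 0) {ε : ℝ} (hε : 0 < ε) :
    ∀ᶠ p in 𝓝 (0 : ℂ × ℂ), ∀ i, ‖fderiv ℂ u p (V φ i p)‖ ≤ ε * ‖u p‖ := by
  have h1 : ∀ i, ∀ᶠ p in 𝓝 (0 : ℂ × ℂ), ‖fderiv ℂ u p (V φ i p)‖ < ε * ‖u p‖ := by
    intro i
    have h2 : ContinuousAt (fun p => fderiv ℂ u p (V φ i p)) 0 :=
      hu.fderiv.continuousAt.clm_apply (an_V hφ i)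
    refine h2.norm.eventually_lt (continuousAt_const.mul hu.continuousAt.norm) ?_
    have h3 : V φ i (0 : ℂ × ℂ) = 0 := by
      simp [V]
    rw [h3, map_zero, norm_zero]
    have := norm_pos_iff.2 h0
    positivity
  filter_upwards [eventually_all.2 h1] with p hp i
  exact (hp i).le

/-- the lower bound for `t ^ M (b + y) ^ n u` -/
theorem lower (hφ : ∀ i, AnalyticAt ℂ (φ i) 0) {o : ι} (ho : ∀ t, φ o t = 0)
    {u : ℂ × ℂ → ℂ} (hu : AnalyticAt ℂ u 0) (hu0 : u 0 ≠ 0) {M n : ℕ} (hM : 0 < M) {b : ℂ}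
    (hb : n = 0 ∨ b = 0) :
    ∀ᶠ p in 𝓝 (0 : ℂ × ℂ), ∀ i, Near φ p i →
      1 / 2 * ‖p.1 ^ M * (b + p.2) ^ n * u p‖ ≤
        ‖fderiv ℂ (fun p : ℂ × ℂ => p.1 ^ M * (b + p.2) ^ n * u p) p (V φ i p)‖ := by
  have h1 : ∀ i, ∃ k : ℕ, ∀ ε : ℝ, 0 < ε → ∀ᶠ t in 𝓝 (0 : ℂ),
      ‖t * deriv (φ i) t - k * φ i t‖ ≤ ε * ‖φ i t‖ := fun i => logd (hφ i)
  choose k hk using h1
  have hfst : Tendsto (Prod.fst : ℂ × ℂ → ℂ) (𝓝 0) (𝓝 0) := continuous_fst.tendsto' _ _ rfl
  have hε : (0 : ℝ) < 1 / (8 * (n + 1)) := by positivity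
  filter_upwards [small_unit hφ hu hu0 (ε := 1 / 4) (by norm_num), hu.eventually_analyticAt,
    hu.continuousAt.eventually_ne hu0, hfst.eventually (eventually_all.2 fun i => hk i _ hε)]
    with p h2 h3 h4 h5 i hi
  have hd1 : DifferentiableAt ℂ (fun p : ℂ × ℂ => p.1 ^ M) p := by fun_prop
  have hd2 : DifferentiableAt ℂ (fun p : ℂ × ℂ => (b + p.2) ^ n) p := by fun_prop
  have h6 : fderiv ℂ (fun p : ℂ × ℂ => p.1 ^ M * (b + p.2) ^ n * u p) p (V φ i p) =
      p.1 ^ M * (M * (b + p.2) ^ n * u p + n * (b + p.2) ^ (n - 1) * (p.1 * deriv (φ i) p.1) * u p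
        + (b + p.2) ^ n * fderiv ℂ u p (V φ i p)) := by
    have hd12 : DifferentiableAt ℂ (fun p : ℂ × ℂ => p.1 ^ M * (b + p.2) ^ n) p := hd1.mul hd2
    rw [fd_mul hd12 h3.differentiableAt, fd_mul hd1 hd2, fd_fst, fd_snd]
    obtain ⟨M', rfl⟩ : ∃ M', M = M' + 1 := ⟨M - 1, by omega⟩
    simp only [V, Nat.add_sub_cancel]
    ring
  rw [h6, mul_assoc, norm_mul (p.1 ^ M), norm_mul (p.1 ^ M), ← mul_assoc, mul_comm (1 / 2 : ℝ), mul_assoc]
  refine mul_le_mul_of_nonneg_left ?_ (norm_nonneg _)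
  have hM1 : (1 : ℝ) ≤ M := by exact_mod_cast hM
  have hupos : 0 < ‖u p‖ := norm_pos_iff.2 h4
  rcases Nat.eq_zero_or_pos n with hn | hn
  · subst hn
    simp only [pow_zero, mul_one, one_mul, Nat.cast_zero, zero_mul, add_zero]
    have h7 := h2 i
    have h8 : ‖(M : ℂ) * u p‖ = M * ‖u p‖ := by rw [norm_mul, Complex.norm_natCast]
    have h9 := norm_sub_le_norm_add ((M : ℂ) * u p) (fderiv ℂ u p (V φ i p))
    rw [h8] at h9
    nlinarith
  · have hb0 : b = 0 := by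
      rcases hb with h | h
      · omega
      · exact h
    subst hb0
    simp only [zero_add]
    by_cases hy : p.2 = 0
    · have h7 : p.2 ^ n = 0 := by rw [hy, zero_pow hn.ne']
      rw [h7, zero_mul, norm_zero, mul_zero]
      exact norm_nonneg _
    · -- the main case
      set y := p.2 with hydef
      set t := p.1 with htdef
      have h7 : ‖y - φ i t‖ ≤ ‖y‖ := by
        have := hi o
        rwa [ho, sub_zero] at this
      have h8 : ‖φ i t‖ ≤ 2 * ‖y‖ := by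
        have h9 : φ i t = y - (y - φ i t) := by ring
        rw [h9]
        refine (norm_sub_le _ _).trans ?_
        linarith
      have hy0 : 0 < ‖y‖ := norm_pos_iff.2 hy
      set r : ℂ := φ i t / y with hr
      have h9 : ‖1 - r‖ ≤ 1 := by
        have h10 : 1 - r = (y - φ i t) / y := by
          rw [hr]; field_simp
        rw [h10, norm_div]
        exact div_le_one_of_le₀ h7 (norm_nonneg _)
      have h10 : 0 ≤ r.re := by
        have h11 := Complex.re_le_norm (1 - r)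
        simp only [Complex.sub_re, Complex.one_re] at h11
        linarith
      set δ : ℂ := (t * deriv (φ i) t - k i * φ i t) / y with hδ
      have h11 : ‖δ‖ ≤ 1 / (4 * (n + 1)) := by
        rw [hδ, norm_div, div_le_iff₀ hy0]
        refine (h5 i).trans ?_
        calc 1 / (8 * ((n : ℝ) + 1)) * ‖φ i t‖ ≤ 1 / (8 * ((n : ℝ) + 1)) * (2 * ‖y‖) :=
              mul_le_mul_of_nonneg_left h8 hε.le
          _ = 1 / (4 * ((n : ℝ) + 1)) * ‖y‖ := by field_simp; ring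
      set τ : ℂ := fderiv ℂ u p (V φ i p) / u p with hτ
      have h12 : ‖τ‖ ≤ 1 / 4 := by
        rw [hτ, norm_div, div_le_iff₀ hupos]
        exact h2 i
      have h13 : (M * y ^ n * u p + n * y ^ (n - 1) * (t * deriv (φ i) t) * u p
          + y ^ n * fderiv ℂ u p (V φ i p)) = (y ^ n * u p) * (M + n * (k i) * r + n * δ + τ) := by
        rw [hτ, hδ, hr]
        obtain ⟨n', rfl⟩ : ∃ n', n = n' + 1 := ⟨n - 1, by omega⟩
        simp only [Nat.add_sub_cancel]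
        field_simp
        ring
      rw [h13, norm_mul (y ^ n * u p)]
      rw [mul_comm (1 / 2 : ℝ)]
      refine mul_le_mul_of_nonneg_left ?_ (norm_nonneg _)
      have h14 := Complex.re_le_norm (M + n * (k i) * r + n * δ + τ)
      have h15 : ((M : ℂ) + n * (k i) * r + n * δ + τ).re = M + n * k i * r.re + n * δ.re + τ.re := by
        simp [Complex.add_re, Complex.mul_re]
      rw [h15] at h14
      have h16 : -‖τ‖ ≤ τ.re := by
        have := Complex.abs_re_le_norm τ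
        exact (abs_le.1 this).1
      have h17 : -‖δ‖ ≤ δ.re := by
        have := Complex.abs_re_le_norm δ
        exact (abs_le.1 this).1
      have h18 : (0 : ℝ) ≤ n * k i * r.re := by positivity
      have h19 : (n : ℝ) * ‖δ‖ ≤ 1 / 4 := by
        calc (n : ℝ) * ‖δ‖ ≤ n * (1 / (4 * (n + 1))) :=
              mul_le_mul_of_nonneg_left h11 (Nat.cast_nonneg _)
          _ ≤ 1 / 4 := by
              rw [mul_one_div, div_le_div_iff₀ (by positivity) (by norm_num)]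
              linarith
      have h20 : -(n * ‖δ‖) ≤ n * δ.re := by
        have := mul_le_mul_of_nonneg_left h17 (Nat.cast_nonneg n : (0 : ℝ) ≤ n)
        linarith
      linarith

end G

end Crest.Agent.R257.NV_790
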