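import Mathlib
import Crest.Agent.R257.Cor_547

/-!
Row 257 (S0395), null data, pieces (P4) and (P6) (helper547): the corners.

* `sepr`    : the corner zones of different charts are disjoint;
* `no_core` : no retraction in the core near a corner;
* `same`    : equal points of two corner zones: same chart, same norms, same labels.
-/

set_option autoImplicit false
set_option linter.unusedSectionVars false

open Polynomial Set Filter Topology Metric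
open Crest.AlgGeometry.Germ Crest.Agent.R257.AJ387 Crest.Agent.R257.T387
open Crest.Agent.R257.Gr1_157 Crest.Agent.R257.HoB_843 Crest.Agent.R257.BP_258
open Crest.Agent.R257.Frm_547 Crest.Agent.R257.Lab_931 Crest.Agent.R257.Wt_258
open Crest.Agent.R257.Cor_547

noncomputable section

namespace Crest.Agent.R257.Nc_547

variable {f : (Fin 3 → ℂ) → ℂ} {T : TB f} {U : Tub T} {S : Sh T}

lemma mem_CS {c : Ch T.m} (hc : Ok S c) (hV : ¬ IsV c) : c ∈ CS S ∅ := ⟨hc, fun h => absurd h hV⟩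

lemma of_CS {c : Ch T.m} (h : c ∈ CS S ∅) : Ok S c ∧ ¬ IsV c :=
  ⟨h.1, fun hV => absurd (h.2 hV) (Finset.notMem_empty _)⟩

/-- (P4) **the corner zones of different charts are disjoint** -/
theorem sepr (S : Sh T) : ∃ r₀ > 0, ∀ c c' : Ch T.m, Ok S c → Ok S c' → ¬ IsV c → ¬ IsV c' →
    c ≠ c' → ∀ p ∈ BD r₀ r₀, ∀ p' ∈ BD r₀ r₀, T.Gen c p → T.Gen c' p' →
      T.map c p ≠ T.map c' p' := by
  have hfin : ((CS S ∅) ×ˢ (CS S ∅)).Finite := (finite_CS (S := S) ∅).prod (finite_CS ∅)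
  have h1 : ∀ᶠ r : ℝ in 𝓝[>] 0, ∀ x ∈ (CS S ∅) ×ˢ (CS S ∅), x.1 ≠ x.2 → ∀ p ∈ BD r r,
      ∀ p' ∈ BD r r, T.Gen x.1 p → T.Gen x.2 p' → T.map x.1 p ≠ T.map x.2 p' := by
    rw [Filter.eventually_all_finite hfin]
    rintro ⟨c, c'⟩ ⟨hc, hc'⟩
    by_cases hne : c = c'
    · exact Eventually.of_forall fun r h => absurd hne h
    obtain ⟨r, hr, h⟩ := Sep_547.sep (of_CS hc).1 (of_CS hc').1 hne
    filter_upwards [Ioo_mem_nhdsGT hr] with s hs _ p hp p' hp' hg hg'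
    exact h p ⟨hp.1.trans hs.2, hp.2.trans hs.2⟩ p' ⟨hp'.1.trans hs.2, hp'.2.trans hs.2⟩ hg hg'
  obtain ⟨r₀, h2, h3⟩ := (h1.and self_mem_nhdsWithin).exists
  exact ⟨r₀, h3, fun c c' hc hc' hV hV' hne => h2 (c, c') ⟨mem_CS hc hV, mem_CS hc' hV'⟩ hne⟩

/-- the radii of the non vertex charts are bounded below -/
theorem exists_rad (S : Sh T) : ∃ r₀ > 0, ∀ c : Ch T.m, Ok S c → ¬ IsV c → r₀ < S.r c := by
  have h1 : ∀ᶠ r : ℝ in 𝓝[>] 0, ∀ c ∈ CS S ∅, r < S.r c := by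
    rw [Filter.eventually_all_finite (finite_CS (S := S) ∅)]
    intro c _
    filter_upwards [Ioo_mem_nhdsGT (S.pos c)] with s hs
    exact hs.2
  obtain ⟨r₀, h2, h3⟩ := (h1.and self_mem_nhdsWithin).exists
  exact ⟨r₀, h3, fun c hc hV => h2 c (mem_CS hc hV)⟩

/-- the points of two corner zones -/
theorem same (L : Lab U S) {r₀ : ℝ} (hr₀ : ∀ c : Ch T.m, Ok S c → ¬ IsV c → r₀ ≤ S.r c)
    (hsep : ∀ c c' : Ch T.m, Ok S c → Ok S c' → ¬ IsV c → ¬ IsV c' →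
      c ≠ c' → ∀ p ∈ BD r₀ r₀, ∀ p' ∈ BD r₀ r₀, T.Gen c p → T.Gen c' p' →
      T.map c p ≠ T.map c' p') {c c' : Ch T.m} (hc : Ok S c) (hc' : Ok S c') (hV : ¬ IsV c)
    (hV' : ¬ IsV c') {j j' : Fin T.d} {p p' : ℂ × ℂ} (hp : p ∈ BD r₀ r₀) (hp' : p' ∈ BD r₀ r₀)
    (hg : T.Gen c p) (hg' : T.Gen c' p') (h : wc S c' j' p' = wc S c j p) :
    c' = c ∧ ‖p'.1‖ = ‖p.1‖ ∧ ‖p'.2‖ = ‖p.2‖ ∧ L.e1 c j' = L.e1 c j ∧ L.e2 c j' = L.e2 c j := by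
  have hm : T.map c' p' = T.map c p := Prod.ext (congrFun h 1) (congrFun h 2)
  obtain rfl : c' = c := by
    by_contra hne
    exact hsep c' c hc' hc hV' hV hne p' hp' p hp hg' hg hm
  have hr := S.pos c'
  have hb : ∀ q ∈ BD r₀ r₀, q ∈ BD (2 * S.r c') (2 * S.r c') := fun q hq =>
    ⟨by have := hq.1; have := hr₀ c' hc hV; linarith,
      by have := hq.2; have := hr₀ c' hc hV; linarith⟩
  obtain ⟨e1, e2, -, -⟩ := LwD_89.pers hc (hb _ hp') hg' h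
  obtain ⟨l1, l2⟩ := LwD_89.labWD L c' hc j' j p' p (hb _ hp') (hb _ hp) hg' hg h
  exact ⟨rfl, e1, e2, l1, l2⟩

/-- **no retraction in the core near a corner** -/
theorem no_core {κ : ℝ} (hκ : 0 < κ) {c : Ch T.m} (hc : T.Valid c) (hV : ¬ IsV c) (j : Fin T.d) :
    ∀ᶠ p in 𝓝 (0 : ℂ × ℂ), T.Gen c p → ∀ v, ∀ q, IsRet U v (wc S c j p) q →
      ¬ (‖pV U v q‖ < κ⁻¹ ∧ ∀ c' ∈ sp T v, κ < ‖pV U v q - c'‖) := by
  have hp₀ : ((0 : ℂ × ℂ) = 0 ∧ ¬ IsV c) ∨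
      (v1 T c = none ∧ (0 : ℂ × ℂ).1 = 0 ∧ ‖(0 : ℂ × ℂ).2‖ ≤ S.r c) := Or.inl ⟨rfl, hV⟩
  by_contra hcon
  set A : Set (ℂ × ℂ) := {p | T.Gen c p ∧ ∃ v, ∃ q, IsRet U v (wc S c j p) q ∧
    (‖pV U v q‖ < κ⁻¹ ∧ ∀ c' ∈ sp T v, κ < ‖pV U v q - c'‖)} with hA
  have hfr : ∃ᶠ p in 𝓝 (0 : ℂ × ℂ), p ∈ A := by
    intro hA'
    refine hcon ?_
    filter_upwards [hA'] with p hp hz v q hq hq'
    exact hp ⟨hz, v, q, hq, hq'⟩
  have hne : (𝓝 (0 : ℂ × ℂ) ⊓ 𝓟 A).NeBot := Filter.frequently_mem_iff_neBot.1 hfr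
  obtain ⟨𝒰, h𝒰⟩ := Ultrafilter.exists_le (𝓝 (0 : ℂ × ℂ) ⊓ 𝓟 A)
  have hU1 : (𝒰 : Filter (ℂ × ℂ)) ≤ 𝓝 0 := h𝒰.trans inf_le_left
  have hU2 : A ∈ (𝒰 : Filter (ℂ × ℂ)) := h𝒰 (mem_inf_of_right (mem_principal_self _))
  have hg : ∀ᶠ p in (𝒰 : Filter (ℂ × ℂ)), T.Gen c p := by
    filter_upwards [hU2] with p hp
    exact hp.1
  have hv : ∃ v ∈ (Vs T : Set Vtx), {p | ∃ q, IsRet U v (wc S c j p) q ∧
      (‖pV U v q‖ < κ⁻¹ ∧ ∀ c' ∈ sp T v, κ < ‖pV U v q - c'‖)} ∈ 𝒰 := by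
    rw [← Ultrafilter.finite_biUnion_mem_iff (Vs T).finite_toSet]
    refine Filter.mem_of_superset (f := (𝒰 : Filter (ℂ × ℂ))) hU2 ?_
    rintro p ⟨-, v, q, hq, hq'⟩
    exact mem_biUnion (x := v) hq.1.mem ⟨q, hq, hq'⟩
  obtain ⟨v, hv, hev⟩ := hv
  obtain ⟨d1, d2⟩ := data (S := S) hc hp₀ hU1 hg
  have lne : (Filter.map (T.map c) (𝒰 : Filter (ℂ × ℂ))).NeBot := by infer_instance
  have hKV : KV T (Filter.map (T.map c) (𝒰 : Filter (ℂ × ℂ))) := by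
    have hcomp : IsCompact (closedBall (0 : ℂ) κ⁻¹ ∩ ⋂ c' ∈ sp T v, {w : ℂ | κ ≤ ‖w - c'‖}) := by
      refine (isCompact_closedBall _ _).inter_right ?_
      refine isClosed_biInter fun c' _ => isClosed_le continuous_const ?_
      fun_prop
    obtain ⟨w, hw, hle⟩ := hcomp.ultrafilter_le_nhds (𝒰.map fun p => wv T v (T.map c p)) (by
      rw [le_principal_iff]
      show ∀ᶠ p in (𝒰 : Filter (ℂ × ℂ)), wv T v (T.map c p) ∈ _
      filter_upwards [show _ ∈ (𝒰 : Filter (ℂ × ℂ)) from hev] with p hp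
      obtain ⟨q, hq, hq'⟩ := hp
      have h3 : pV U v q = wv T v (T.map c p) := hq.2.1
      rw [← h3]
      refine ⟨mem_closedBall_zero_iff.2 hq'.1.le, ?_⟩
      rw [mem_iInter₂]
      exact fun c' hc' => (hq'.2 c' hc').le)
    refine ⟨v, hv, w, fun hsp => ?_, ?_⟩
    · have h4 := mem_iInter₂.1 hw.2 w hsp
      have h5 : κ ≤ ‖w - w‖ := h4
      rw [sub_self, norm_zero] at h5
      exact absurd h5 (not_le.2 hκ)
    · rw [tendsto_map'_iff]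
      exact hle
  rcases mine hc hp₀ hU1 hg with ⟨h1, h2⟩ | ⟨h1, h2⟩
  · exact KV_OT d1 d2 hKV h1 h2
  · exact KV_KT d1 d2 hKV h2

end Crest.Agent.R257.Nc_547
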