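import Mathlib
import Crest.Agent.R257.Nc_547
import Crest.Agent.R257.ExND_843
import Crest.Agent.R257.CDataA_250

/-!
Row 257 (S0395), null data, piece (P6) (helper547), part 2: the local estimates of holomorphic data.
-/

set_option autoImplicit false
set_option linter.unusedSectionVars false

open Polynomial Set Filter Topology Metric
open Crest.AlgGeometry.Germ Crest.Agent.R257.AJ387 Crest.Agent.R257.T387
open Crest.Agent.R257.Gr1_157 Crest.Agent.R257.HoB_843 Crest.Agent.R257.BP_258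
open Crest.Agent.R257.Frm_547 Crest.Agent.R257.Lab_931 Crest.Agent.R257.Wt_258
open Crest.Agent.R257.Cor_547 Crest.Agent.R257.Exf_843 Crest.Agent.R257.Rsn_843

noncomputable section

namespace Crest.Agent.R257.Nc_547

variable {f : (Fin 3 → ℂ) → ℂ} {T : TB f} {U : Tub T} {S : Sh T}

def StZ (L : Lab U S) (τ : ℝ) (c : Ch T.m) (j : Fin T.d) (p : ℂ × ℂ) : Prop :=
  (L.e1 c j ≠ none ∧ (IsV c ∨ τ ≤ ‖p.2‖)) ∨ (L.e2 c j ≠ none ∧ τ ≤ ‖p.1‖)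

open Classical in
def LocN (L : Lab U S) (n1 n2 : Ch T.m → Fin T.d → ℤ) (y : II U → ℝ) (a : ℕ)
    (D : (Fin 3 → ℂ) → ℂ) (c : Ch T.m) (j : Fin T.d) (p₀ : ℂ × ℂ) : Prop :=
  ∃ τ C x1 x2 z1 z2 : ℝ, 0 < τ ∧ 0 ≤ C ∧
    (p₀.1 = 0 → (n1 c j : ℝ) < x1 + a ∧ yo y (L.e1 c j) + n1 c j < z1) ∧
    (p₀.2 = 0 → (n2 c j : ℝ) < x2 + (if IsE c then (a : ℝ) else 0) ∧
      yo y (L.e2 c j) + n2 c j < z2) ∧
    ∀ᶠ p in 𝓝 p₀, T.Gen c p → ContDiffAt ℝ (⊤ : ℕ∞) (D ∘ wc S c j) p ∧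
      ‖D (wc S c j p)‖ ≤ C * (‖p.1‖ ^ x1 * ‖p.2‖ ^ x2) ∧
      (∀ w, ‖dbE (D ∘ wc S c j) p w‖ ≤ C * (‖p.1‖ ^ z1 * ‖p.2‖ ^ z2) * ‖w‖) ∧
      (StZ L τ c j p ∨ ∀ w, dbE (D ∘ wc S c j) p w = 0)

variable {L : Lab U S} {n1 n2 : Ch T.m → Fin T.d → ℤ} {y : II U → ℝ} {a : ℕ}
  {D : (Fin 3 → ℂ) → ℂ}

open Classical in
/-- holomorphic data -/
theorem locN_hol {c : Ch T.m} {j : Fin T.d} {p₀ : ℂ × ℂ} {G : ℂ × ℂ → ℂ} {C x1 x2 : ℝ}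
    (hD : ∀ᶠ p in 𝓝 p₀, T.Gen c p → D (wc S c j p) = G p)
    (hG : ∀ᶠ p in 𝓝 p₀, T.Gen c p → AnalyticAt ℂ G p)
    (hb : ∀ᶠ p in 𝓝 p₀, T.Gen c p → ‖G p‖ ≤ C * (‖p.1‖ ^ x1 * ‖p.2‖ ^ x2))
    (h1 : p₀.1 = 0 → (n1 c j : ℝ) < x1 + a)
    (h2 : p₀.2 = 0 → (n2 c j : ℝ) < x2 + (if IsE c then (a : ℝ) else 0)) :
    LocN L n1 n2 y a D c j p₀ := by
  refine ⟨1, |C|, x1, x2, yo y (L.e1 c j) + n1 c j + 1, yo y (L.e2 c j) + n2 c j + 1, one_pos,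
    abs_nonneg _, fun h => ⟨h1 h, lt_add_one _⟩, fun h => ⟨h2 h, lt_add_one _⟩, ?_⟩
  filter_upwards [hD.eventually_nhds, hG, hb] with p e1 e2 e3 hg
  have e4 : (D ∘ wc S c j) =ᶠ[𝓝 p] G := by
    filter_upwards [e1, (CDataB_250.isOpen_Gen c).mem_nhds hg] with q h3 h4
    exact h3 h4
  have e5 : ∀ w, dbE (D ∘ wc S c j) p w = 0 := fun w => by
    rw [dbE_congr e4, CDataA_250.dbE_hol (e2 hg).differentiableAt]
  have h6 : 0 ≤ ‖p.1‖ ^ x1 * ‖p.2‖ ^ x2 := by positivity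
  refine ⟨?_, ?_, fun w => ?_, Or.inr e5⟩
  · exact ((e2 hg).contDiffAt.restrict_scalars ℝ).congr_of_eventuallyEq e4
  · have h5 : D (wc S c j p) = G p := e4.self_of_nhds
    rw [h5]
    exact (e3 hg).trans (mul_le_mul_of_nonneg_right (le_abs_self C) h6)
  · rw [e5, norm_zero]
    positivity

open Classical in
/-- no data -/
theorem locN_zero {c : Ch T.m} {j : Fin T.d} {p₀ : ℂ × ℂ}
    (hD : ∀ᶠ p in 𝓝 p₀, T.Gen c p → D (wc S c j p) = 0) : LocN L n1 n2 y a D c j p₀ := by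
  refine locN_hol (G := fun _ => 0) (C := 0) (x1 := (n1 c j : ℝ) - a + 1)
    (x2 := (n2 c j : ℝ) - (if IsE c then (a : ℝ) else 0) + 1) hD
    (Eventually.of_forall fun p _ => analyticAt_const)
    (Eventually.of_forall fun p _ => by rw [norm_zero, zero_mul]) (fun _ => ?_) fun _ => ?_
  · linarith
  · linarith

end Crest.Agent.R257.Nc_547
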