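import Mathlib
import Crest.Agent.R257.Nc2_547
import Crest.Agent.R257.Nd1_980

/-!
Row 257 (S0395), null data, piece (P6) (helper547), part 3: the estimates at a corner, from the local
form `D = H * fX (γ j β)` resp. `D = H * fX (γ j α)` of the data.
-/

set_option autoImplicit false
set_option linter.unusedSectionVars false

open Polynomial Set Filter Topology Metric
open Crest.AlgGeometry.Germ Crest.Agent.R257.AJ387 Crest.Agent.R257.T387
open Crest.Agent.R257.Gr1_157 Crest.Agent.R257.HoB_843 Crest.Agent.R257.BP_258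
open Crest.Agent.R257.Frm_547 Crest.Agent.R257.Lab_931 Crest.Agent.R257.Wt_258
open Crest.Agent.R257.Cor_547 Crest.Agent.R257.Exf_843 Crest.Agent.R257.Rsn_843
open Crest.Agent.R257.Nd_980

noncomputable section

namespace Crest.Agent.R257.Nc_547

variable {f : (Fin 3 → ℂ) → ℂ} {T : TB f} {U : Tub T} {S : Sh T}
variable {L : Lab U S} {n1 n2 : Ch T.m → Fin T.d → ℤ} {y : II U → ℝ} {a : ℕ}
  {D : (Fin 3 → ℂ) → ℂ} {E₀ : II U} {fX : XV U E₀.1.1 → ℂ} {H : (Fin 3 → ℂ) → ℂ}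
  {h1 h2 e : Ch T.m → Fin T.d → ℝ}

lemma v1_of_e1 (L : Lab U S) {c : Ch T.m} (hc : Ok S c) {j : Fin T.d} {E : II U}
    (h : L.e1 c j = some E) : v1 T c = some E.1.1 := by
  rw [← L.v_e1 c hc j, h]; rfl

lemma v2_of_e2 (L : Lab U S) {c : Ch T.m} (hc : Ok S c) {j : Fin T.d} {E : II U}
    (h : L.e2 c j = some E) : v2 T c = some E.1.1 := by
  rw [← L.v_e2 c hc j, h]; rfl

lemma near0 {r : ℝ} (hr : 0 < r) : ∀ᶠ p in 𝓝 (0 : ℂ × ℂ), ‖p.1‖ < r ∧ ‖p.2‖ < r := by
  have h1 : BD r r ∈ 𝓝 (0 : ℂ × ℂ) := (isOpen_BD r r).mem_nhds ⟨by simpa using hr, by simpa using hr⟩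
  exact h1

open Classical in
/-- **the corner of a chart with first axis in `E₀`** -/
theorem corner1 (hR : RetStmt U) (hd : NDat L n1 n2 E₀ y a fX H h1 h2 e) {c : Ch T.m}
    (hc : Ok S c) (hV : ¬ IsV c) {j : Fin T.d} (he : L.e1 c j = some E₀)
    {γ : Fin T.d → ℂ → XV U E₀.1.1} (hγ : End1 U S c E₀.1.1 γ)
    (hD : ∀ᶠ p in 𝓝 (0 : ℂ × ℂ), T.Gen c p →
      D (wc S c j p) = H (wc S c j p) * fX (γ j p.2)) :
    LocN L n1 n2 y a D c j 0 := by
  have hv := v1_of_e1 L hc he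
  obtain ⟨C, hC, hH⟩ := hd.Hbd c hc j (Or.inl he)
  obtain ⟨C', r', hC', hr', hf⟩ := hd.f1 c hc hV hv γ hγ j he
  have hr := S.pos c
  refine locN_hol (G := fun p => H (wc S c j p) * fX (γ j p.2)) (C := C * C') (x1 := h1 c j)
    (x2 := h2 c j + e c j) hD ?_ ?_ (fun _ => ?_) fun _ => ?_
  · filter_upwards [near0 hr] with p hp hg
    have hp2 := CDataB_250.mem2 (S := S) hp.1.le hp.2.le
    have hg2 : p.2 ≠ 0 := gen_snd hg hV
    have a1 : AnalyticAt ℂ (fun p : ℂ × ℂ => fX (γ j p.2)) p :=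
      AnalyticAt.comp (g := fun β => fX (γ j β)) (f := Prod.snd) (x := p)
        (end1_an hR hc hv hγ hd.hol j ⟨Or.inr (norm_pos_iff.2 hg2), hp2.2⟩) analyticAt_snd
    exact (hd.Han c hc j p hp2.1 hp2.2 hg).mul a1
  · filter_upwards [near0 hr, near0 hr'] with p hp hp' hg
    have hg1 : 0 < ‖p.1‖ := norm_pos_iff.2 (gen_fst hg)
    have hg2 : 0 < ‖p.2‖ := norm_pos_iff.2 (gen_snd hg hV)
    have b1 := hH p hp.1.le hp.2.le hg
    have b2 := hf p.2 hg2 hp'.2
    rw [norm_mul, Real.rpow_add hg2]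
    calc ‖H (wc S c j p)‖ * ‖fX (γ j p.2)‖
        ≤ (C * (‖p.1‖ ^ h1 c j * ‖p.2‖ ^ h2 c j)) * (C' * ‖p.2‖ ^ e c j) :=
          mul_le_mul b1 b2 (norm_nonneg _) (by positivity)
      _ = _ := by ring
  · exact hd.nearD1 c hc j he
  · cases hE2 : L.e2 c j with
    | none =>
      have h3 := hd.leg c hc hV j he hE2
      split_ifs
      · have : (0 : ℝ) ≤ a := Nat.cast_nonneg a
        linarith
      · linarith
    | some E =>
      have h3 := (hd.far2 c hc j he E hE2).2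
      have h4 := v2_of_e2 L hc hE2
      have h5 : IsE c := by
        cases c with
        | edge i k k' => trivial
        | leg i => simp [v2] at h4
        | vert i k w₀ => simp [v2] at h4
      rw [if_pos h5]
      exact h3

open Classical in
/-- **the corner of a chart with second axis in `E₀`** -/
theorem corner2 (hR : RetStmt U) (hd : NDat L n1 n2 E₀ y a fX H h1 h2 e) {c : Ch T.m}
    (hc : Ok S c) {j : Fin T.d} (he : L.e2 c j = some E₀)
    {γ : Fin T.d → ℂ → XV U E₀.1.1} (hγ : End2 U S c E₀.1.1 γ)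
    (hD : ∀ᶠ p in 𝓝 (0 : ℂ × ℂ), T.Gen c p →
      D (wc S c j p) = H (wc S c j p) * fX (γ j p.1)) :
    LocN L n1 n2 y a D c j 0 := by
  have hv := v2_of_e2 L hc he
  obtain ⟨C, hC, hH⟩ := hd.Hbd c hc j (Or.inr he)
  obtain ⟨C', r', hC', hr', hf⟩ := hd.f2 c hc hv γ hγ j he
  have hr := S.pos c
  have hE : IsE c := by
    cases c with
    | edge i k k' => trivial
    | leg i => simp [v2] at hv
    | vert i k w₀ => simp [v2] at hv
  have ha : (0 : ℝ) ≤ a := Nat.cast_nonneg a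
  refine locN_hol (G := fun p => H (wc S c j p) * fX (γ j p.1)) (C := C * C')
    (x1 := h1 c j + e c j) (x2 := h2 c j) hD ?_ ?_ (fun _ => ?_) fun _ => ?_
  · filter_upwards [near0 hr] with p hp hg
    have hp2 := CDataB_250.mem2 (S := S) hp.1.le hp.2.le
    have hg1 : p.1 ≠ 0 := gen_fst hg
    have a1 : AnalyticAt ℂ (fun p : ℂ × ℂ => fX (γ j p.1)) p :=
      AnalyticAt.comp (g := fun β => fX (γ j β)) (f := Prod.fst) (x := p)
        (end2_an hR hc hv hγ hd.hol j ⟨norm_pos_iff.2 hg1, hp2.1⟩) analyticAt_fst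
    exact (hd.Han c hc j p hp2.1 hp2.2 hg).mul a1
  · filter_upwards [near0 hr, near0 hr'] with p hp hp' hg
    have hg1 : 0 < ‖p.1‖ := norm_pos_iff.2 (gen_fst hg)
    have b1 := hH p hp.1.le hp.2.le hg
    have b2 := hf p.1 hg1 hp'.1
    rw [norm_mul, Real.rpow_add hg1]
    calc ‖H (wc S c j p)‖ * ‖fX (γ j p.1)‖
        ≤ (C * (‖p.1‖ ^ h1 c j * ‖p.2‖ ^ h2 c j)) * (C' * ‖p.1‖ ^ e c j) :=
          mul_le_mul b1 b2 (norm_nonneg _) (by positivity)
      _ = _ := by ring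
  · cases hE1 : L.e1 c j with
    | none =>
      have h3 := hd.top c hc j he hE1
      linarith
    | some E => exact (hd.far1 c hc j he E hE1).2
  · rw [if_pos hE]
    exact hd.nearD2 c hc j he

end Crest.Agent.R257.Nc_547
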