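import Mathlib
import Crest.Agent.R257.ExND_843

/-!
Row 257 (S0395), NULL DATA (helper938, after 980, 121, 808): the definition of `D = H * G`.

`v := E₀.1.1`, `t` the radius of the corner zones, `κ` the size of the core.
* `Core U v κ`, `fr` : `fX` at the retraction, if it is in the core, else `0`;
* `NPar L E₀ F` : the parameters (`γ1, γ2` the ends, `t`, `κ`, separation of the zones seen in `F`);
* `NPar.form1`, `NPar.form2` : the values in the zones of the charts with `e1 = E₀`, `e2 = E₀`;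
* `NPar.G` : the global function.
-/

set_option autoImplicit false
set_option linter.unusedSectionVars false
set_option linter.unusedVariables false

open Polynomial Set Filter Topology Metric
open Crest.AlgGeometry.Germ Crest.Agent.R257.AJ387 Crest.Agent.R257.T387
open Crest.Agent.R257.Gr1_157 Crest.Agent.R257.HoB_843 Crest.Agent.R257.BP_258
open Crest.Agent.R257.Wt_258 Crest.Agent.R257.Rsn_843 Crest.Agent.R257.Exf_843
open Crest.Agent.R257.CDataA_250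

noncomputable section

namespace Crest.Agent.R257.Nu_938

variable {f : (Fin 3 → ℂ) → ℂ} {T : TB f} {S : Sh T} {U : Tub T}

/-- the core of the curve over `v` -/
def Core (U : Tub T) (v : Vtx) (κ : ℝ) : Set (XV U v) :=
  {q | ‖pV U v q‖ < κ⁻¹ ∧ ∀ c' ∈ sp T v, κ < ‖pV U v q - c'‖}

open Classical in
/-- `fX` at the retraction, if it is in the core -/
def fr (U : Tub T) (v : Vtx) (κ : ℝ) (fX : XV U v → ℂ) (x : Fin 3 → ℂ) : ℂ :=
  if h : ∃ q, IsRet U v x q ∧ q ∈ Core U v κ then fX h.choose else 0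

/-- the points of `{s = 0, y' = 0}` in the closed bidisc of a chart -/
def Zc (S : Sh T) (c : Ch T.m) : Set (ℂ × ℂ) :=
  {p₀ | ‖p₀.1‖ ≤ S.r c ∧ ‖p₀.2‖ ≤ S.r c ∧ T.map c p₀ = 0}

/-- the parameters of the null data; `t` depends on `F`: no chart `c ∈ F` sees the corner zone of
another chart -/
structure NPar (L : Lab U S) (E₀ : II U) (F : Finset (Ch T.m)) where
  γ1 : Ch T.m → Fin T.d → ℂ → XV U E₀.1.1
  γ2 : Ch T.m → Fin T.d → ℂ → XV U E₀.1.1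
  t : ℝ
  κ : ℝ
  t_pos : 0 < t
  κ_pos : 0 < κ
  hF : ∀ c ∈ F, Ok S c
  end1 : ∀ c, Ok S c → v1 T c = some E₀.1.1 → End1 U S c E₀.1.1 (γ1 c) ∧
    ∀ j, ∀ b ∈ PDv S c, L.e1 c j = some (lab U E₀.1 (γ1 c j b))
  end2 : ∀ c, Ok S c → v2 T c = some E₀.1.1 → End2 U S c E₀.1.1 (γ2 c) ∧
    ∀ j, ∀ a ∈ PDc S c, L.e2 c j = some (lab U E₀.1 (γ2 c j a))
  t_r : ∀ c, Ok S c → ¬ IsV c → 2 * t < S.r c
  sep : ∀ c ∈ F, ∀ j, ∀ p₀ ∈ Zc S c, ∀ᶠ p in 𝓝 p₀, T.Gen c p →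
    ∀ c' j' p', Ok S c' → ¬ IsV c' → p' ∈ BD (2 * t) (2 * t) → T.Gen c' p' →
      wc S c j p = wc S c' j' p' → c' = c
  core1 : ∀ c ∈ F, v1 T c = some E₀.1.1 → ∀ j, ∀ b : ℂ, ‖b‖ ≤ S.r c → (IsV c ∨ t ≤ ‖b‖) →
    γ1 c j b ∈ Core U E₀.1.1 κ
  core2 : ∀ c ∈ F, v2 T c = some E₀.1.1 → ∀ j, ∀ a : ℂ, ‖a‖ ≤ S.r c → t ≤ ‖a‖ →
    γ2 c j a ∈ Core U E₀.1.1 κ

namespace NPar

variable {L : Lab U S} {E₀ : II U} {F : Finset (Ch T.m)} (P : NPar L E₀ F)
  (fX : XV U E₀.1.1 → ℂ)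

/-- the cut-off function: `1` for `‖z‖ ≤ t`, `0` for `‖z‖ ≥ 2 t` -/
def χ (z : ℂ) : ℂ := (ct P.t (2 * P.t) z : ℂ)

/-- zone of a chart with `e1 = E₀` (edge or leg): interpolation in `β`, cut-off in `α` -/
def form1 (c : Ch T.m) (j : Fin T.d) (p : ℂ × ℂ) : ℂ :=
  P.χ p.1 * (P.χ p.2 * fX (P.γ1 c j p.2) +
    (1 - P.χ p.2) * fr U E₀.1.1 P.κ fX (wc S c j p))

/-- zone of a chart with `e2 = E₀` (edge): cut-off in `β` -/
def form2 (c : Ch T.m) (j : Fin T.d) (p : ℂ × ℂ) : ℂ := P.χ p.2 * fX (P.γ2 c j p.1)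

open Classical in
/-- the value in the zone -/
def form (c : Ch T.m) (j : Fin T.d) (p : ℂ × ℂ) : ℂ :=
  if L.e1 c j = some E₀ then P.form1 fX c j p else P.form2 fX c j p

/-- `x` is a point of a corner zone -/
structure Rep (x : Fin 3 → ℂ) (z : (Ch T.m × Fin T.d) × (ℂ × ℂ)) : Prop where
  ok : Ok S z.1.1
  nV : ¬ IsV z.1.1
  lab : L.e1 z.1.1 z.1.2 = some E₀ ∨ L.e2 z.1.1 z.1.2 = some E₀
  mem : z.2 ∈ BD (2 * P.t) (2 * P.t)
  gen : T.Gen z.1.1 z.2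
  eq : wc S z.1.1 z.1.2 z.2 = x

open Classical in
/-- **the global function** -/
def G (x : Fin 3 → ℂ) : ℂ :=
  if h : ∃ z, P.Rep x z then P.form fX h.choose.1.1 h.choose.1.2 h.choose.2
  else fr U E₀.1.1 P.κ fX x

/-- **the data** -/
def D (H : (Fin 3 → ℂ) → ℂ) (x : Fin 3 → ℂ) : ℂ := H x * P.G fX x

end NPar

/-! ### basic facts -/

lemma ret_uniq (hR : RetStmt U) {v : Vtx} {x : Fin 3 → ℂ} {q q' : XV U v} (h : IsRet U v x q)
    (h' : IsRet U v x q') : q = q' := ((hR v h.1.mem).1 x h.1).unique h h'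

/-- value of `fr` in the core -/
lemma fr_eq (hR : RetStmt U) {v : Vtx} {κ : ℝ} (fX : XV U v → ℂ) {x : Fin 3 → ℂ} {q : XV U v}
    (h : IsRet U v x q) (hq : q ∈ Core U v κ) : fr U v κ fX x = fX q := by
  have h1 : ∃ q, IsRet U v x q ∧ q ∈ Core U v κ := ⟨q, h, hq⟩
  unfold fr
  rw [dif_pos h1, ret_uniq hR h1.choose_spec.1 h]

/-- value of `fr` off the core -/
lemma fr_zero {v : Vtx} {κ : ℝ} (fX : XV U v → ℂ) {x : Fin 3 → ℂ}
    (h : ∀ q, IsRet U v x q → q ∉ Core U v κ) : fr U v κ fX x = 0 := by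
  unfold fr
  rw [dif_neg]
  rintro ⟨q, h1, h2⟩
  exact h q h1 h2

/-- `fr` is `fX` of the retraction or `0` -/
lemma fr_cases (hR : RetStmt U) {v : Vtx} (κ : ℝ) (fX : XV U v → ℂ) {x : Fin 3 → ℂ} {q : XV U v}
    (h : IsRet U v x q) : fr U v κ fX x = fX q ∨ fr U v κ fX x = 0 := by
  by_cases hq : q ∈ Core U v κ
  · exact Or.inl (fr_eq hR fX h hq)
  · exact Or.inr (fr_zero fX fun q' h' => by rw [ret_uniq hR h' h]; exact hq)

end Crest.Agent.R257.Nu_938
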