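import Mathlib
import Crest.Agent.R257.Nc_547
import Crest.Agent.R257.NuD_938

/-!
Row 257 (S0395), null data, piece (Q2) (helper547): no chart sees the corner zone of another chart
(`sep_zone`); `fr = 0` near a corner (`fr_corner`).
-/

set_option autoImplicit false
set_option linter.unusedSectionVars false

open Polynomial Set Filter Topology Metric
open Crest.AlgGeometry.Germ Crest.Agent.R257.AJ387 Crest.Agent.R257.T387
open Crest.Agent.R257.Gr1_157 Crest.Agent.R257.HoB_843 Crest.Agent.R257.BP_258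
open Crest.Agent.R257.Frm_547 Crest.Agent.R257.Lab_931 Crest.Agent.R257.Wt_258
open Crest.Agent.R257.Cor_547 Crest.Agent.R257.Nu_938

noncomputable section

namespace Crest.Agent.R257.Nc_547

variable {f : (Fin 3 → ℂ) → ℂ} {T : TB f} {U : Tub T} {S : Sh T}

/-- **the kinds**, at a given limit -/
theorem kinds' {c : Ch T.m} (hc : T.Valid c) {ps : ℂ × ℂ} (hp1 : ‖ps.1‖ ≤ S.r c)
    (hp2 : ‖ps.2‖ ≤ S.r c) {m : Filter (ℂ × ℂ)} (hle : m ≤ 𝓝 ps) (hg : ∀ᶠ p in m, T.Gen c p)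
    (hs0 : (T.map c ps).1 = 0) :
    KV T (Filter.map (T.map c) m) ∨ (¬ IsV c ∧ Sep_547.OT c (Filter.map (T.map c) m)) ∨
      (v1 T c = none ∧ KT (Filter.map (T.map c) m)) := by
  have hBD : ps ∈ BD (2 * S.r c) (2 * S.r c) := ⟨lt_two_r S hp1, lt_two_r S hp2⟩
  have hBDn : BD (2 * S.r c) (2 * S.r c) ∈ 𝓝 ps := (isOpen_BD _ _).mem_nhds hBD
  have hmc : ContinuousAt (T.map c) ps := cont_at hc hp1 hp2
  have axis1 : ∀ {v' : Vtx}, v1 T c = some v' → ps.1 = 0 → (IsV c ∨ ps.2 ≠ 0) →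
      KV T (Filter.map (T.map c) m) := by
    intro v' hv' h10 h20
    have e : ps = (0, ps.2) := Prod.ext h10 rfl
    refine ⟨v', v1_mem hc hv', W1 c (0, ps.2), W1_zero S hc hv' hp2 h20, ?_⟩
    rw [tendsto_map'_iff]
    have h2 : Tendsto (W1 c) m (𝓝 (W1 c ps)) :=
      ((W1_cont S hc).continuousAt hBDn).tendsto.mono_left hle
    rw [e] at h2
    refine h2.congr' ?_
    filter_upwards [hg] with p hp
    exact (W1_eq hc hv' hp).symm
  have axis2 : ∀ {v' : Vtx}, v2 T c = some v' → ps.2 = 0 → ps.1 ≠ 0 →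
      KV T (Filter.map (T.map c) m) := by
    intro v' hv' h20 h10
    have e : ps = (ps.1, 0) := Prod.ext rfl h20
    refine ⟨v', v2_mem hc hv', W2 c (ps.1, 0), W2_zero S hc hv' hp1 h10, ?_⟩
    rw [tendsto_map'_iff]
    have h2 : Tendsto (W2 c) m (𝓝 (W2 c ps)) := by
      refine ((W2_cont S hc).continuousAt ?_).tendsto.mono_left hle
      exact Filter.inter_mem hBDn ((isOpen_ne_fun continuous_fst continuous_const).mem_nhds h10)
    rw [e] at h2
    refine h2.congr' ?_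
    filter_upwards [hg] with p hp
    exact (W2_eq hc hv' hp).symm
  have orig : ps.1 = 0 → ps.2 = 0 → Sep_547.OT c (Filter.map (T.map c) m) := by
    intro h10 h20
    have e : ps = 0 := Prod.ext h10 h20
    exact Sep_547.origin_type hc (e ▸ hle) hg
  cases c with
  | vert i k w₀ => exact Or.inl (axis1 (v' := vx T i k) rfl hs0 (Or.inl trivial))
  | leg i =>
    have h10 : ps.1 = 0 := hs0
    by_cases h20 : ps.2 = 0
    · exact Or.inr (Or.inl ⟨id, orig h10 h20⟩)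
    · exact Or.inl (axis1 (v' := vx T i (T.top i)) rfl h10 (Or.inr h20))
  | edge i k k' =>
    have hs0' : ps.1 * ps.2 = 0 := hs0
    by_cases h10 : ps.1 = 0
    · by_cases h20 : ps.2 = 0
      · exact Or.inr (Or.inl ⟨id, orig h10 h20⟩)
      · by_cases hk0 : k = 0
        · refine Or.inr (Or.inr ⟨by simp [v1, hk0], (T.map (.edge i k k') ps).2,
            top_snd (by simp [v1, hk0]) h10 h20, ?_⟩)
          rw [tendsto_map'_iff]
          exact hmc.snd.tendsto.mono_left hle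
        · exact Or.inl (axis1 (v' := vx T i k) (by simp [v1, hk0]) h10 (Or.inr h20))
    · have h20 : ps.2 = 0 := (mul_eq_zero.1 hs0').resolve_left h10
      exact Or.inl (axis2 (v' := vx T i k') rfl h20 h10)

lemma isCompact_Zc {c : Ch T.m} (hc : T.Valid c) : IsCompact (Zc S c) := by
  have hK : IsCompact (closedBall (0 : ℂ) (S.r c) ×ˢ closedBall (0 : ℂ) (S.r c)) :=
    (isCompact_closedBall _ _).prod (isCompact_closedBall _ _)
  have e : Zc S c = (closedBall (0 : ℂ) (S.r c) ×ˢ closedBall (0 : ℂ) (S.r c)) ∩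
      (T.map c) ⁻¹' {0} := by
    ext p
    simp only [Zc, mem_ofPred_eq, mem_inter_iff, mem_prod, mem_closedBall_zero_iff, mem_preimage,
      mem_singleton_iff, and_assoc]
  rw [e]
  refine hK.of_isClosed_subset ?_ inter_subset_left
  refine ContinuousOn.preimage_isClosed_of_isClosed ?_ hK.isClosed isClosed_singleton
  intro p hp
  exact (cont_at hc (mem_closedBall_zero_iff.1 hp.1)
    (mem_closedBall_zero_iff.1 hp.2)).continuousWithinAt

/-- one pair of charts -/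
theorem sep_pair {c c' : Ch T.m} (hc : Ok S c) (hc' : Ok S c') (hV' : ¬ IsV c') (hne : c' ≠ c) :
    ∃ ε > 0, ∀ p₀ ∈ Zc S c, ∀ p, dist p p₀ < ε → ∀ p' ∈ BD ε ε, T.Gen c p → T.Gen c' p' →
      T.map c p ≠ T.map c' p' := by
  by_contra hcon
  push Not at hcon
  choose p₀ hp₀ p hp p' hp' hg hg' hm using fun n : ℕ => hcon (1 / ((n : ℝ) + 1)) (by positivity)
  obtain ⟨ps, hps, φ, hφ, hlim⟩ := (isCompact_Zc (S := S) hc.1).tendsto_subseq hp₀
  have h0 : Tendsto (fun n : ℕ => 1 / ((n : ℝ) + 1)) atTop (𝓝 0) :=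
    tendsto_one_div_add_atTop_nhds_zero_nat
  have h0φ := h0.comp hφ.tendsto_atTop
  have hplim : Tendsto (fun n => p (φ n)) atTop (𝓝 ps) := by
    refine (tendsto_iff_dist_tendsto_zero).2 ?_
    have h1 := (tendsto_iff_dist_tendsto_zero.1 hlim)
    have h2 := h0φ.add h1
    rw [add_zero] at h2
    refine squeeze_zero (fun _ => dist_nonneg) (fun n => ?_) h2
    exact (dist_triangle _ (p₀ (φ n)) _).trans (add_le_add (hp (φ n)).le le_rfl)
  have hplim' : Tendsto (fun n => p' (φ n)) atTop (𝓝 0) := by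
    rw [tendsto_zero_iff_norm_tendsto_zero]
    refine squeeze_zero (fun _ => norm_nonneg _) (fun n => ?_) h0φ
    rw [Prod.norm_def]
    exact max_le (hp' (φ n)).1.le (hp' (φ n)).2.le
  have hmap : Filter.map (T.map c') (Filter.map (fun n => p' (φ n)) atTop) =
      Filter.map (T.map c) (Filter.map (fun n => p (φ n)) atTop) := by
    rw [Filter.map_map, Filter.map_map]
    exact Filter.map_congr (Eventually.of_forall fun n => (hm (φ n)).symm)
  have g1 : ∀ᶠ q in Filter.map (fun n => p (φ n)) atTop, T.Gen c q :=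
    eventually_map.2 (Eventually.of_forall fun n => hg (φ n))
  have g2 : ∀ᶠ q in Filter.map (fun n => p' (φ n)) atTop, T.Gen c' q :=
    eventually_map.2 (Eventually.of_forall fun n => hg' (φ n))
  have hO : Sep_547.OT c' (Filter.map (T.map c) (Filter.map (fun n => p (φ n)) atTop)) := by
    rw [← hmap]
    exact Sep_547.origin_type hc'.1 hplim' g2
  obtain ⟨d1, d2⟩ := data (S := S) hc'.1 (Or.inl ⟨rfl, hV'⟩) hplim' g2
  rw [hmap] at d1 d2
  have lne : (Filter.map (T.map c) (Filter.map (fun n => p (φ n)) atTop)).NeBot := by infer_instance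
  have hs0 : (T.map c ps).1 = 0 := by rw [hps.2.2]; rfl
  rcases kinds' hc.1 hps.1 hps.2.1 hplim g1 hs0 with k | ⟨-, k⟩ | ⟨-, k⟩
  · exact KV_OT d1 d2 k hV' hO
  · exact hne (Sep_547.eq_of_type hc' hc d1 d2 hO k)
  · exact OT_KT d1 d2 hV' hO k

/-- **(Q2)** no chart of `F` sees the corner zone of another chart -/
theorem sep_zone {F : Finset (Ch T.m)} (hF : ∀ c ∈ F, Ok S c) :
    ∃ t₀ > 0, ∀ t : ℝ, 0 < t → t ≤ t₀ → ∀ c ∈ F, ∀ j, ∀ p₀ ∈ Zc S c, ∀ᶠ p in 𝓝 p₀, T.Gen c p →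
      ∀ c' j' p', Ok S c' → ¬ IsV c' → p' ∈ BD (2 * t) (2 * t) → T.Gen c' p' →
        wc S c j p = wc S c' j' p' → c' = c := by
  have hfin : ((F : Set (Ch T.m)) ×ˢ (CS S ∅)).Finite := F.finite_toSet.prod (finite_CS ∅)
  have h1 : ∀ᶠ t : ℝ in 𝓝[>] 0, ∀ x ∈ (F : Set (Ch T.m)) ×ˢ (CS S ∅), x.2 ≠ x.1 →
      ∃ ε > 0, 2 * t ≤ ε ∧ ∀ p₀ ∈ Zc S x.1, ∀ p, dist p p₀ < ε → ∀ p' ∈ BD ε ε, T.Gen x.1 p →
        T.Gen x.2 p' → T.map x.1 p ≠ T.map x.2 p' := by
    rw [Filter.eventually_all_finite hfin]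
    rintro ⟨c, c'⟩ ⟨hc, hc'⟩
    by_cases hne : c' = c
    · exact Eventually.of_forall fun r h => absurd hne h
    obtain ⟨ε, hε, h⟩ := sep_pair (hF c hc) (of_CS hc').1 (of_CS hc').2 hne
    filter_upwards [Ioo_mem_nhdsGT (show (0 : ℝ) < ε / 2 by positivity)] with t ht _
    exact ⟨ε, hε, by have := ht.2; linarith, h⟩
  obtain ⟨t₀, ht₀, hsub⟩ := mem_nhdsGT_iff_exists_Ioc_subset.1 h1
  refine ⟨t₀, ht₀, fun t ht htt c hc j p₀ hp₀ => ?_⟩
  have h2 := hsub ⟨ht, htt⟩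
  by_cases hcon : ∀ᶠ p in 𝓝 p₀, T.Gen c p →
      ∀ c' j' p', Ok S c' → ¬ IsV c' → p' ∈ BD (2 * t) (2 * t) → T.Gen c' p' →
        wc S c j p = wc S c' j' p' → c' = c
  · exact hcon
  exfalso
  -- all pairs at once
  have h3 : ∀ᶠ p in 𝓝 p₀, ∀ c' ∈ CS S ∅, c' ≠ c → ∀ p' ∈ BD (2 * t) (2 * t), T.Gen c p →
      T.Gen c' p' → T.map c p ≠ T.map c' p' := by
    rw [Filter.eventually_all_finite (finite_CS (S := S) ∅)]
    intro c' hc'
    by_cases hne : c' = c
    · exact Eventually.of_forall fun p h => absurd hne h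
    obtain ⟨ε, hε, hte, h⟩ := h2 (c, c') ⟨hc, hc'⟩ hne
    filter_upwards [ball_mem_nhds p₀ hε] with p hp _ p' hp' hg hg'
    exact h p₀ hp₀ p hp p' ⟨hp'.1.trans_le hte, hp'.2.trans_le hte⟩ hg hg'
  refine hcon ?_
  filter_upwards [h3] with p hp hg c' j' p' hok hV hp' hg' heq
  by_contra hne
  exact hp c' (mem_CS hok hV) hne p' hp' hg hg' (Prod.ext (congrFun heq 1) (congrFun heq 2))

/-- **(Q2)** `fr = 0` near a corner -/
theorem fr_corner {κ : ℝ} (hκ : 0 < κ) {c : Ch T.m} (hc : Ok S c) (hV : ¬ IsV c) (j : Fin T.d)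
    (v : Vtx) (fX : XV U v → ℂ) :
    ∀ᶠ p in 𝓝 (0 : ℂ × ℂ), T.Gen c p → fr U v κ fX (wc S c j p) = 0 := by
  filter_upwards [no_core hκ hc.1 hV j] with p hp hg
  exact fr_zero fX fun q hq hcore => hp hg v q hq hcore

end Crest.Agent.R257.Nc_547
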