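import Crest.Agent.R257.Nd1_980
import Crest.Agent.R257.NuD_938

/-!
# Row 257 (S0395), NULL DATA (helper980), file 2: piece (Q1) over the literal definitions of `NuD_938`

* `fr_V`, `fr_A2`, `fr_A1` : the function `fr` near the axes of the charts over `E₀`;
* `an1`, `an2` : holomorphy along the ends;
* `gam_eq` : the ends depend only on the point of `W`.
-/

set_option autoImplicit false
set_option linter.unusedSectionVars false
set_option linter.unusedVariables false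

open Polynomial Set Filter Topology Metric
open Crest.AlgGeometry.Germ Crest.Agent.R257.AJ387 Crest.Agent.R257.T387
open Crest.Agent.R257.Gr1_157 Crest.Agent.R257.HoB_843 Crest.Agent.R257.BP_258
open Crest.Agent.R257.Wt_258 Crest.Agent.R257.Rsn_843 Crest.Agent.R257.Exf_843
open Crest.Agent.R257.CDataA_250 Crest.Agent.R257.Nu_938 Crest.Agent.R257.Lab_931

noncomputable section

namespace Crest.Agent.R257.Nd_980

variable {f : (Fin 3 → ℂ) → ℂ} {T : TB f} {S : Sh T} {U : Tub T}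

lemma core_open (v : Vtx) (κ : ℝ) : IsOpen (Core U v κ) := by
  have h : Core U v κ = {q | ‖pV U v q‖ < κ⁻¹} ∩ ⋂ c' ∈ sp T v, {q | κ < ‖pV U v q - c'‖} := by
    ext q
    simp [Core]
  rw [h]
  refine (isOpen_lt (pV_cont v).norm continuous_const).inter ?_
  exact isOpen_biInter_finset fun c' _ =>
    isOpen_lt continuous_const ((pV_cont v).sub continuous_const).norm

variable {L : Lab U S} {E₀ : II U} {F : Finset (Ch T.m)} (P : NPar L E₀ F)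
  {fX : XV U E₀.1.1 → ℂ}

include P in
theorem fr_V (hR : RetStmt U) {c : Ch T.m} (hc : c ∈ F) (hV : IsV c)
    (hv : v1 T c = some E₀.1.1) (j : Fin T.d) {b : ℂ} (hb : ‖b‖ ≤ S.r c) :
    ∀ᶠ p in 𝓝 ((0 : ℂ), b), T.Gen c p →
      fr U E₀.1.1 P.κ fX (wc S c j p) = fX (P.γ1 c j p.2) := by
  have hok := P.hF c hc
  have hr := S.pos c
  obtain ⟨hγ, -⟩ := P.end1 c hok hv
  have hbP : b ∈ PDv S c := ⟨Or.inl hV, by linarith⟩
  have hcont : ContinuousAt (P.γ1 c j) b := (hγ.cont j).continuousAt ((PDv_open c).mem_nhds hbP)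
  have h2 : Tendsto (fun p : ℂ × ℂ => p.2) (𝓝 ((0 : ℂ), b)) (𝓝 b) := continuous_snd.tendsto _
  have hC : ∀ᶠ β in 𝓝 b, P.γ1 c j β ∈ Core U E₀.1.1 P.κ :=
    hcont.tendsto.eventually ((core_open E₀.1.1 P.κ).mem_nhds
      (P.core1 c hc hv j b hb (Or.inl hV)))
  filter_upwards [ret_vert hR hok hV hv hγ hbP j, h2.eventually hC] with p e1 e2 hg
  exact fr_eq hR fX (e1 (gen_fst hg)) e2

include P in
theorem fr_A2 (hR : RetStmt U) {c : Ch T.m} (hc : c ∈ F) (hv : v2 T c = some E₀.1.1)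
    (j : Fin T.d) {a : ℂ} (ha : ‖a‖ ≤ S.r c) (hta : P.t ≤ ‖a‖) :
    ∀ᶠ p in 𝓝 (a, (0 : ℂ)), T.Gen c p →
      fr U E₀.1.1 P.κ fX (wc S c j p) = fX (P.γ2 c j p.1) := by
  have hok := P.hF c hc
  have hr := S.pos c
  obtain ⟨hγ, -⟩ := P.end2 c hok hv
  have haP : a ∈ PDc S c := ⟨P.t_pos.trans_le hta, by linarith⟩
  have hcont : ContinuousAt (P.γ2 c j) a := (hγ.cont j).continuousAt ((PDc_open c).mem_nhds haP)
  have h2 : Tendsto (fun p : ℂ × ℂ => p.1) (𝓝 (a, (0 : ℂ))) (𝓝 a) := continuous_fst.tendsto _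
  have hC : ∀ᶠ α in 𝓝 a, P.γ2 c j α ∈ Core U E₀.1.1 P.κ :=
    hcont.tendsto.eventually ((core_open E₀.1.1 P.κ).mem_nhds (P.core2 c hc hv j a ha hta))
  filter_upwards [ret_ax2 hR hok hv hγ haP j, h2.eventually hC] with p e1 e2 hg
  exact fr_eq hR fX (e1 (gen_snd_E (isV_v2 hv) hg)) e2

include P in
theorem fr_A1 (hR : RetStmt U) (hf : HolX (pV U E₀.1.1) fX) {c : Ch T.m} (hc : c ∈ F)
    (hV : ¬ IsV c) (hv : v1 T c = some E₀.1.1) (j : Fin T.d) {b : ℂ} (hb : ‖b‖ ≤ S.r c)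
    (htb : P.t ≤ ‖b‖) : ∃ Gh : ℂ × ℂ → ℂ, AnalyticAt ℂ Gh ((0 : ℂ), b) ∧ ∃ C : ℝ, 0 < C ∧
    ∀ᶠ p in 𝓝 ((0 : ℂ), b), (T.Gen c p → fr U E₀.1.1 P.κ fX (wc S c j p) = Gh p) ∧
      ‖Gh p - fX (P.γ1 c j p.2)‖ ≤ C * ‖p.1‖ := by
  have hok := P.hF c hc
  have hr := S.pos c
  obtain ⟨hγ, -⟩ := P.end1 c hok hv
  have hbP : b ∈ PDv S c := ⟨Or.inr (P.t_pos.trans_le htb), by linarith⟩
  obtain ⟨Gh, C, hC, hG, hev⟩ := diff1 hR hok hv hγ hf j hbP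
  refine ⟨Gh, hG, C, hC, ?_⟩
  have hl := (hγ.lim j b hbP).2 _ ((core_open E₀.1.1 P.κ).mem_nhds
    (P.core1 c hc hv j b hb (Or.inr htb)))
  filter_upwards [hev, hl] with p e1 e2
  refine ⟨fun hg => ?_, e1.2⟩
  obtain ⟨e3, e4⟩ := e1.1 hg
  obtain ⟨q, hq, -⟩ := (hR E₀.1.1 e3.mem).1 _ e3
  rw [fr_eq hR fX hq (e2 (gen_fst hg) q hq), e4 q hq]

include P in
theorem an1 (hR : RetStmt U) (hf : HolX (pV U E₀.1.1) fX) {c : Ch T.m} (hc : Ok S c)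
    (hv : v1 T c = some E₀.1.1) (j : Fin T.d) {b : ℂ} (hb : b ∈ PDv S c) :
    AnalyticAt ℂ (fun z => fX (P.γ1 c j z)) b :=
  end1_an hR hc hv (P.end1 c hc hv).1 hf j hb

include P in
theorem an2 (hR : RetStmt U) (hf : HolX (pV U E₀.1.1) fX) {c : Ch T.m} (hc : Ok S c)
    (hv : v2 T c = some E₀.1.1) (j : Fin T.d) {a : ℂ} (ha : a ∈ PDc S c) :
    AnalyticAt ℂ (fun z => fX (P.γ2 c j z)) a :=
  end2_an hR hc hv (P.end2 c hc hv).1 hf j ha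

/-- points of one chart with the same image -/
theorem same (hR : RetStmt U) (L : Lab U S) {c : Ch T.m} (hc : Ok S c) {j j' : Fin T.d}
    {p p' : ℂ × ℂ} (hp : p ∈ BD (2 * S.r c) (2 * S.r c)) (hg : T.Gen c p)
    (h : wc S c j p = wc S c j' p') : ‖p'.1‖ = ‖p.1‖ ∧ ‖p'.2‖ = ‖p.2‖ ∧ T.Gen c p' ∧
      L.e1 c j' = L.e1 c j ∧ L.e2 c j' = L.e2 c j := by
  obtain ⟨μ, ω, hμ, hω, hpp, hw⟩ := rot_eq hc hp hg h
  have n1 : ‖p'.1‖ = ‖p.1‖ := by rw [hpp]; simp [hμ]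
  have n2 : ‖p'.2‖ = ‖p.2‖ := by rw [hpp]; simp [hω]
  have hl := FrmF_547.lab_eq L hR hc (R := fun q => (μ * q.1, ω * q.2)) (j := j) (j' := j')
    (fun q => ⟨by simp [hμ], by simp [hω]⟩) hw
  exact ⟨n1, n2, gen_norm n1.symm n2.symm hg, hl.1.symm, hl.2.symm⟩

include P in
theorem gam_eq1 (hR : RetStmt U) {c : Ch T.m} (hc : Ok S c) (hv : v1 T c = some E₀.1.1)
    {j j' : Fin T.d} {p p' : ℂ × ℂ} (hp : p ∈ BD (2 * S.r c) (2 * S.r c)) (hg : T.Gen c p)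
    (h : wc S c j p = wc S c j' p') : P.γ1 c j p.2 = P.γ1 c j' p'.2 :=
  gam1_eq hR hc hv (P.end1 c hc hv).1 hp hg h

include P in
theorem gam_eq2 (hR : RetStmt U) {c : Ch T.m} (hc : Ok S c) (hv : v2 T c = some E₀.1.1)
    {j j' : Fin T.d} {p p' : ℂ × ℂ} (hp : p ∈ BD (2 * S.r c) (2 * S.r c)) (hg : T.Gen c p)
    (h : wc S c j p = wc S c j' p') : P.γ2 c j p.1 = P.γ2 c j' p'.1 :=
  gam2_eq hR hc hv (P.end2 c hc hv).1 hp hg h

end Crest.Agent.R257.Nd_980
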