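import Mathlib
import Crest.Agent.R257.CDataA_250

/-!
Row 257, NULL DATA (helper472): the interpolation lemma.  `A`, `B` holomorphic near `p₀`, `A = B`
on `{p.1 = 0}` near `p₀`, `χ` smooth real: `G = χ B + (1 - χ) A` is smooth, bounded and
`‖∂̄ G‖ ≤ C ‖p.1‖`; with a holomorphic factor `H` of growth `‖p.1‖ ^ h`.
-/

set_option autoImplicit false
set_option linter.unusedSectionVars false

noncomputable section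

open Set Filter Topology Metric
open Crest.Agent.R257.HoB_843 Crest.Agent.R257.CDataA_250

namespace Crest.Agent.R257.Nin_472

/-- interpolation -/
def itp (χ : ℂ × ℂ → ℝ) (A B : ℂ × ℂ → ℂ) (p : ℂ × ℂ) : ℂ :=
  (χ p : ℂ) * B p + (1 - (χ p : ℂ)) * A p

lemma itp_eq (χ : ℂ × ℂ → ℝ) (A B : ℂ × ℂ → ℂ) :
    itp χ A B = fun p => A p + (B p - A p) * (χ p : ℂ) := by
  funext p; unfold itp; ring

/-- a holomorphic function which vanishes on `{p.1 = 0}` near `p₀ = (0, b)` is `O(p.1)` -/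
lemma lip1 {E : ℂ × ℂ → ℂ} {b : ℂ} (hE : AnalyticAt ℂ E ((0 : ℂ), b))
    (h0 : ∀ᶠ p in 𝓝 ((0 : ℂ), b), p.1 = 0 → E p = 0) :
    ∃ C : ℝ, 0 ≤ C ∧ ∀ᶠ p in 𝓝 ((0 : ℂ), b), ‖E p‖ ≤ C * ‖p.1‖ := by
  obtain ⟨C, hC, s, hs, hlip⟩ : ∃ C : ℝ, 0 ≤ C ∧ ∃ s ∈ 𝓝 ((0 : ℂ), b), ∀ x ∈ s, ∀ y ∈ s,
      ‖E x - E y‖ ≤ C * ‖x - y‖ := by
    have h1 : HasStrictFDerivAt E (fderiv ℂ E ((0 : ℂ), b)) ((0 : ℂ), b) := hE.hasStrictFDerivAt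
    obtain ⟨K, s, hs, hl⟩ := h1.exists_lipschitzOnWith
    exact ⟨K, K.2, s, hs, fun x hx y hy => by
      have := hl.dist_le_mul x hx y hy
      rwa [dist_eq_norm, dist_eq_norm] at this⟩
  refine ⟨C, hC, ?_⟩
  have hπ : Tendsto (fun p : ℂ × ℂ => ((0 : ℂ), p.2)) (𝓝 ((0 : ℂ), b)) (𝓝 ((0 : ℂ), b)) := by
    have : ContinuousAt (fun p : ℂ × ℂ => ((0 : ℂ), p.2)) ((0 : ℂ), b) := by fun_prop
    exact this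
  filter_upwards [hs, hπ.eventually hs, hπ.eventually h0] with p h1 h2 h3
  have h4 : E ((0 : ℂ), p.2) = 0 := h3 rfl
  have h5 := hlip p h1 _ h2
  rw [h4, sub_zero] at h5
  refine h5.trans (mul_le_mul_of_nonneg_left ?_ hC)
  have : p - ((0 : ℂ), p.2) = (p.1, 0) := by ext <;> simp
  rw [this, Prod.norm_def]
  simp

/-- the same on the second axis -/
lemma lip2 {E : ℂ × ℂ → ℂ} {a : ℂ} (hE : AnalyticAt ℂ E (a, (0 : ℂ)))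
    (h0 : ∀ᶠ p in 𝓝 (a, (0 : ℂ)), p.2 = 0 → E p = 0) :
    ∃ C : ℝ, 0 ≤ C ∧ ∀ᶠ p in 𝓝 (a, (0 : ℂ)), ‖E p‖ ≤ C * ‖p.2‖ := by
  obtain ⟨C, hC, s, hs, hlip⟩ : ∃ C : ℝ, 0 ≤ C ∧ ∃ s ∈ 𝓝 (a, (0 : ℂ)), ∀ x ∈ s, ∀ y ∈ s,
      ‖E x - E y‖ ≤ C * ‖x - y‖ := by
    have h1 : HasStrictFDerivAt E (fderiv ℂ E (a, (0 : ℂ))) (a, (0 : ℂ)) := hE.hasStrictFDerivAt
    obtain ⟨K, s, hs, hl⟩ := h1.exists_lipschitzOnWith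
    exact ⟨K, K.2, s, hs, fun x hx y hy => by
      have := hl.dist_le_mul x hx y hy
      rwa [dist_eq_norm, dist_eq_norm] at this⟩
  refine ⟨C, hC, ?_⟩
  have hπ : Tendsto (fun p : ℂ × ℂ => (p.1, (0 : ℂ))) (𝓝 (a, (0 : ℂ))) (𝓝 (a, (0 : ℂ))) := by
    have : ContinuousAt (fun p : ℂ × ℂ => (p.1, (0 : ℂ))) (a, (0 : ℂ)) := by fun_prop
    exact this
  filter_upwards [hs, hπ.eventually hs, hπ.eventually h0] with p h1 h2 h3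
  have h4 : E (p.1, (0 : ℂ)) = 0 := h3 rfl
  have h5 := hlip p h1 _ h2
  rw [h4, sub_zero] at h5
  refine h5.trans (mul_le_mul_of_nonneg_left ?_ hC)
  have : p - (p.1, (0 : ℂ)) = (0, p.2) := by ext <;> simp
  rw [this, Prod.norm_def]
  simp

lemma itp_smooth {χ : ℂ × ℂ → ℝ} {A B : ℂ × ℂ → ℂ} {p : ℂ × ℂ}
    (hχ : ContDiffAt ℝ (⊤ : ℕ∞) χ p) (hA : AnalyticAt ℂ A p) (hB : AnalyticAt ℂ B p) :
    ContDiffAt ℝ (⊤ : ℕ∞) (itp χ A B) p := by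
  have h1 : ContDiffAt ℝ (⊤ : ℕ∞) A p := (hA.contDiffAt (n := (⊤ : ℕ∞))).restrict_scalars ℝ
  have h2 : ContDiffAt ℝ (⊤ : ℕ∞) B p := (hB.contDiffAt (n := (⊤ : ℕ∞))).restrict_scalars ℝ
  have h3 : ContDiffAt ℝ (⊤ : ℕ∞) (fun p => (χ p : ℂ)) p :=
    Complex.ofRealCLM.contDiff.contDiffAt.comp p hχ
  rw [itp_eq]
  exact h1.add ((h2.sub h1).mul h3)

/-- `∂̄` of the interpolation -/
lemma itp_db {χ : ℂ × ℂ → ℝ} {A B : ℂ × ℂ → ℂ} {p : ℂ × ℂ} (hχ : DifferentiableAt ℝ χ p)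
    (hA : AnalyticAt ℂ A p) (hB : AnalyticAt ℂ B p) (w : ℂ × ℂ) :
    dbE (itp χ A B) p w = (B p - A p) * dbE (fun q => (χ q : ℂ)) p w := by
  have hAd := hA.differentiableAt
  have hBd := hB.differentiableAt
  have h0 : DifferentiableAt ℝ (fun q => (χ q : ℂ)) p :=
    Complex.ofRealCLM.differentiableAt.comp p hχ
  have h1 : DifferentiableAt ℝ (fun q => (B q - A q) * (χ q : ℂ)) p :=
    ((hBd.sub hAd).restrictScalars ℝ).mul h0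
  rw [itp_eq, dbE_add (hAd.restrictScalars ℝ) h1, dbE_hol hAd, zero_add]
  exact HoH_843.dbE_mul (hBd.sub hAd) h0 w

lemma itp_db_le {χ : ℂ × ℂ → ℝ} {A B : ℂ × ℂ → ℂ} {p : ℂ × ℂ} (hχ : DifferentiableAt ℝ χ p)
    (hA : AnalyticAt ℂ A p) (hB : AnalyticAt ℂ B p) (w : ℂ × ℂ) :
    ‖dbE (itp χ A B) p w‖ ≤ ‖B p - A p‖ * (‖fderiv ℝ χ p‖ * ‖w‖) := by
  rw [itp_db hχ hA hB, norm_mul]
  exact mul_le_mul_of_nonneg_left (norm_dbE_le hχ w) (norm_nonneg _)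

lemma dbE_ofReal_zero {χ : ℂ × ℂ → ℝ} {p : ℂ × ℂ} (hχ : DifferentiableAt ℝ χ p)
    (h0 : fderiv ℝ χ p = 0) (w : ℂ × ℂ) : dbE (fun q => (χ q : ℂ)) p w = 0 := by
  have h1 := norm_dbE_le hχ w
  rw [h0, norm_zero, zero_mul] at h1
  exact norm_le_zero_iff.1 h1

/-- powers of the second coordinate near `(0, b)` -/
lemma pw2 {b : ℂ} {h : ℝ} (hb : b ≠ 0 ∨ h = 0) :
    ∃ C : ℝ, 0 ≤ C ∧ ∀ᶠ p in 𝓝 ((0 : ℂ), b), ‖p.2‖ ^ h ≤ C := by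
  rcases hb with hb | rfl
  · have h1 : ContinuousAt (fun p : ℂ × ℂ => ‖p.2‖ ^ h) ((0 : ℂ), b) :=
      continuousAt_snd.norm.rpow_const (Or.inl (norm_ne_zero_iff.2 hb))
    exact ⟨‖b‖ ^ h + 1, by positivity, h1.eventually (ge_mem_nhds (lt_add_one _))⟩
  · exact ⟨1, zero_le_one, Eventually.of_forall fun p => by rw [Real.rpow_zero]⟩

/-- powers of the first coordinate near `(a, 0)` -/
lemma pw1 {a : ℂ} {h : ℝ} (ha : a ≠ 0 ∨ h = 0) :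
    ∃ C : ℝ, 0 ≤ C ∧ ∀ᶠ p in 𝓝 (a, (0 : ℂ)), ‖p.1‖ ^ h ≤ C := by
  rcases ha with ha | rfl
  · have h1 : ContinuousAt (fun p : ℂ × ℂ => ‖p.1‖ ^ h) (a, (0 : ℂ)) :=
      continuousAt_fst.norm.rpow_const (Or.inl (norm_ne_zero_iff.2 ha))
    exact ⟨‖a‖ ^ h + 1, by positivity, h1.eventually (ge_mem_nhds (lt_add_one _))⟩
  · exact ⟨1, zero_le_one, Eventually.of_forall fun p => by rw [Real.rpow_zero]⟩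

/-- **interpolation, general form** near `p₀`, `N p` the small quantity (`‖p.1‖` or `‖p.2‖`),
`M p` the bound of `H` -/
theorem itp_gen {χ : ℂ × ℂ → ℝ} {A B Hw Dw : ℂ × ℂ → ℂ} {p₀ : ℂ × ℂ} {Gn : Set (ℂ × ℂ)}
    (hGn : IsOpen Gn) (hχ : ContDiff ℝ (⊤ : ℕ∞) χ)
    (hA : AnalyticAt ℂ A p₀) (hB : AnalyticAt ℂ B p₀) {N M : ℂ × ℂ → ℝ}
    (hN : ∀ p, 0 ≤ N p) (hM : ∀ p, 0 ≤ M p)
    (hAB : ∃ C, ∀ᶠ p in 𝓝 p₀, p ∈ Gn → ‖B p - A p‖ ≤ C * N p)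
    (hH : ∀ᶠ p in 𝓝 p₀, p ∈ Gn → AnalyticAt ℂ Hw p)
    (hHb : ∃ C, ∀ᶠ p in 𝓝 p₀, p ∈ Gn → ‖Hw p‖ ≤ C * M p)
    (hD : ∀ᶠ p in 𝓝 p₀, p ∈ Gn → Dw p = Hw p * itp χ A B p) :
    ∃ C : ℝ, 0 ≤ C ∧ ∀ᶠ p in 𝓝 p₀, p ∈ Gn →
      ContDiffAt ℝ (⊤ : ℕ∞) Dw p ∧ ‖Dw p‖ ≤ C * M p ∧
      (∀ w, ‖dbE Dw p w‖ ≤ C * (M p * N p) * ‖w‖) ∧
      (fderiv ℝ χ p = 0 → ∀ w, dbE Dw p w = 0) := by
  obtain ⟨C₁, h1⟩ := hAB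
  obtain ⟨C₂, h2⟩ := hHb
  set K₁ : ℝ := ‖fderiv ℝ χ p₀‖ + 1 with hK₁
  set K₂ : ℝ := ‖itp χ A B p₀‖ + 1 with hK₂
  have hK₁0 : 0 ≤ K₁ := by positivity
  have hK₂0 : 0 ≤ K₂ := by positivity
  have h3 : ∀ᶠ p in 𝓝 p₀, ‖fderiv ℝ χ p‖ ≤ K₁ := by
    have h3 : ContinuousAt (fderiv ℝ χ) p₀ := (hχ.continuous_fderiv (by simp)).continuousAt
    exact h3.norm.eventually (ge_mem_nhds (lt_add_one _))
  have h4 : ∀ᶠ p in 𝓝 p₀, ‖itp χ A B p‖ ≤ K₂ := by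
    have h6 : ContinuousAt (itp χ A B) p₀ := (itp_smooth hχ.contDiffAt hA hB).continuousAt
    exact h6.norm.eventually (ge_mem_nhds (lt_add_one _))
  refine ⟨max (|C₂| * K₂) (|C₂| * |C₁| * K₁), le_max_of_le_left (by positivity), ?_⟩
  filter_upwards [h1, h2, h3, h4, hH, hA.eventually_analyticAt, hB.eventually_analyticAt,
    hD.eventually_nhds] with p g1 g2 g3 g4 g5 g6 g7 g8 hp
  have e1 : Dw =ᶠ[𝓝 p] fun p => Hw p * itp χ A B p := by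
    filter_upwards [g8, hGn.mem_nhds hp] with p' k1 k2
    exact k1 k2
  have hs := itp_smooth hχ.contDiffAt g6 g7
  have hχd : DifferentiableAt ℝ χ p := (hχ.differentiable (by simp)) p
  have hHs : ContDiffAt ℝ (⊤ : ℕ∞) Hw p :=
    ((g5 hp).contDiffAt (n := (⊤ : ℕ∞))).restrict_scalars ℝ
  have hHn : ‖Hw p‖ ≤ |C₂| * M p := (g2 hp).trans
    (mul_le_mul_of_nonneg_right (le_abs_self _) (hM p))
  have hBA : ‖B p - A p‖ ≤ |C₁| * N p := (g1 hp).trans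
    (mul_le_mul_of_nonneg_right (le_abs_self _) (hN p))
  have hdb : ∀ w, dbE Dw p w = Hw p * dbE (itp χ A B) p w := by
    intro w
    rw [dbE_congr e1]
    exact HoH_843.dbE_mul (g5 hp).differentiableAt (hs.differentiableAt (by simp)) w
  have h5 : Dw p = Hw p * itp χ A B p := e1.self_of_nhds
  refine ⟨(hHs.mul hs).congr_of_eventuallyEq e1, ?_, ?_, ?_⟩
  · rw [h5, norm_mul]
    calc ‖Hw p‖ * ‖itp χ A B p‖ ≤ (|C₂| * M p) * K₂ :=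
          mul_le_mul hHn g4 (norm_nonneg _) (mul_nonneg (abs_nonneg _) (hM p))
      _ = |C₂| * K₂ * M p := by ring
      _ ≤ _ := mul_le_mul_of_nonneg_right (le_max_left _ _) (hM p)
  · intro w
    rw [hdb, norm_mul]
    have h6 : ‖dbE (itp χ A B) p w‖ ≤ |C₁| * N p * (K₁ * ‖w‖) :=
      (itp_db_le hχd g6 g7 w).trans (mul_le_mul hBA (mul_le_mul_of_nonneg_right g3 (norm_nonneg _))
        (by positivity) (mul_nonneg (abs_nonneg _) (hN p)))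
    calc ‖Hw p‖ * ‖dbE (itp χ A B) p w‖ ≤ (|C₂| * M p) * (|C₁| * N p * (K₁ * ‖w‖)) :=
          mul_le_mul hHn h6 (norm_nonneg _) (mul_nonneg (abs_nonneg _) (hM p))
      _ = |C₂| * |C₁| * K₁ * (M p * N p) * ‖w‖ := by ring
      _ ≤ _ := by
        refine mul_le_mul_of_nonneg_right ?_ (norm_nonneg _)
        exact mul_le_mul_of_nonneg_right (le_max_right _ _) (mul_nonneg (hM p) (hN p))
  · intro h0 w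
    rw [hdb, itp_db hχd g6 g7, dbE_ofReal_zero hχd h0, mul_zero, mul_zero]

/-- **first axis**, exponents `h`, `h'` of `H`; `b ≠ 0` or `h' = 0` -/
theorem loc1 {χ : ℂ × ℂ → ℝ} {A B Hw Dw : ℂ × ℂ → ℂ} {b : ℂ} {Gn : Set (ℂ × ℂ)} {h h' : ℝ}
    (hb : b ≠ 0 ∨ h' = 0) (hGn : IsOpen Gn) (hG1 : ∀ p ∈ Gn, p.1 ≠ 0)
    (hχ : ContDiff ℝ (⊤ : ℕ∞) χ)
    (hA : AnalyticAt ℂ A ((0 : ℂ), b)) (hB : AnalyticAt ℂ B ((0 : ℂ), b))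
    (hAB : ∃ C, ∀ᶠ p in 𝓝 ((0 : ℂ), b), p ∈ Gn → ‖B p - A p‖ ≤ C * ‖p.1‖)
    (hH : ∀ᶠ p in 𝓝 ((0 : ℂ), b), p ∈ Gn → AnalyticAt ℂ Hw p)
    (hHb : ∃ C, ∀ᶠ p in 𝓝 ((0 : ℂ), b), p ∈ Gn → ‖Hw p‖ ≤ C * (‖p.1‖ ^ h * ‖p.2‖ ^ h'))
    (hD : ∀ᶠ p in 𝓝 ((0 : ℂ), b), p ∈ Gn → Dw p = Hw p * itp χ A B p) :
    ∃ C : ℝ, 0 ≤ C ∧ ∀ᶠ p in 𝓝 ((0 : ℂ), b), p ∈ Gn →
      ContDiffAt ℝ (⊤ : ℕ∞) Dw p ∧ ‖Dw p‖ ≤ C * (‖p.1‖ ^ h * ‖p.2‖ ^ (0 : ℝ)) ∧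
      (∀ w, ‖dbE Dw p w‖ ≤ C * (‖p.1‖ ^ (h + 1) * ‖p.2‖ ^ (0 : ℝ)) * ‖w‖) ∧
      (fderiv ℝ χ p = 0 → ∀ w, dbE Dw p w = 0) := by
  obtain ⟨C₁, h1⟩ := hHb
  obtain ⟨C₂, hC₂, h2⟩ := pw2 hb
  obtain ⟨C, hC, h3⟩ := itp_gen hGn hχ hA hB (N := fun p => ‖p.1‖) (M := fun p => ‖p.1‖ ^ h)
    (fun _ => norm_nonneg _) (fun _ => by positivity) hAB hH (by
      refine ⟨|C₁| * C₂, ?_⟩
      filter_upwards [h1, h2] with p g1 g2 hp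
      calc ‖Hw p‖ ≤ C₁ * (‖p.1‖ ^ h * ‖p.2‖ ^ h') := g1 hp
        _ ≤ |C₁| * (‖p.1‖ ^ h * ‖p.2‖ ^ h') :=
          mul_le_mul_of_nonneg_right (le_abs_self _) (by positivity)
        _ ≤ |C₁| * (‖p.1‖ ^ h * C₂) := by gcongr
        _ = _ := by ring) hD
  refine ⟨C, hC, ?_⟩
  filter_upwards [h3] with p g3 hp
  obtain ⟨k1, k2, k3, k4⟩ := g3 hp
  refine ⟨k1, by rw [Real.rpow_zero, mul_one]; exact k2, fun w => ?_, k4⟩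
  rw [Real.rpow_zero, mul_one, Real.rpow_add (norm_pos_iff.2 (hG1 p hp)), Real.rpow_one]
  exact k3 w

/-- **second axis** -/
theorem loc2 {χ : ℂ × ℂ → ℝ} {A B Hw Dw : ℂ × ℂ → ℂ} {a : ℂ} {Gn : Set (ℂ × ℂ)} {h h' : ℝ}
    (ha : a ≠ 0 ∨ h = 0) (hGn : IsOpen Gn) (hG2 : ∀ p ∈ Gn, p.2 ≠ 0)
    (hχ : ContDiff ℝ (⊤ : ℕ∞) χ)
    (hA : AnalyticAt ℂ A (a, (0 : ℂ))) (hB : AnalyticAt ℂ B (a, (0 : ℂ)))
    (hAB : ∃ C, ∀ᶠ p in 𝓝 (a, (0 : ℂ)), p ∈ Gn → ‖B p - A p‖ ≤ C * ‖p.2‖)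
    (hH : ∀ᶠ p in 𝓝 (a, (0 : ℂ)), p ∈ Gn → AnalyticAt ℂ Hw p)
    (hHb : ∃ C, ∀ᶠ p in 𝓝 (a, (0 : ℂ)), p ∈ Gn → ‖Hw p‖ ≤ C * (‖p.1‖ ^ h * ‖p.2‖ ^ h'))
    (hD : ∀ᶠ p in 𝓝 (a, (0 : ℂ)), p ∈ Gn → Dw p = Hw p * itp χ A B p) :
    ∃ C : ℝ, 0 ≤ C ∧ ∀ᶠ p in 𝓝 (a, (0 : ℂ)), p ∈ Gn →
      ContDiffAt ℝ (⊤ : ℕ∞) Dw p ∧ ‖Dw p‖ ≤ C * (‖p.1‖ ^ (0 : ℝ) * ‖p.2‖ ^ h') ∧
      (∀ w, ‖dbE Dw p w‖ ≤ C * (‖p.1‖ ^ (0 : ℝ) * ‖p.2‖ ^ (h' + 1)) * ‖w‖) ∧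
      (fderiv ℝ χ p = 0 → ∀ w, dbE Dw p w = 0) := by
  obtain ⟨C₁, h1⟩ := hHb
  obtain ⟨C₂, hC₂, h2⟩ := pw1 ha
  obtain ⟨C, hC, h3⟩ := itp_gen hGn hχ hA hB (N := fun p => ‖p.2‖) (M := fun p => ‖p.2‖ ^ h')
    (fun _ => norm_nonneg _) (fun _ => by positivity) hAB hH (by
      refine ⟨|C₁| * C₂, ?_⟩
      filter_upwards [h1, h2] with p g1 g2 hp
      calc ‖Hw p‖ ≤ C₁ * (‖p.1‖ ^ h * ‖p.2‖ ^ h') := g1 hp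
        _ ≤ |C₁| * (‖p.1‖ ^ h * ‖p.2‖ ^ h') :=
          mul_le_mul_of_nonneg_right (le_abs_self _) (by positivity)
        _ ≤ |C₁| * (C₂ * ‖p.2‖ ^ h') := by gcongr
        _ = _ := by ring) hD
  refine ⟨C, hC, ?_⟩
  filter_upwards [h3] with p g3 hp
  obtain ⟨k1, k2, k3, k4⟩ := g3 hp
  refine ⟨k1, by rw [Real.rpow_zero, one_mul]; exact k2, fun w => ?_, k4⟩
  rw [Real.rpow_zero, one_mul, Real.rpow_add (norm_pos_iff.2 (hG2 p hp)), Real.rpow_one]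
  exact k3 w

/-- the interpolation with a constant cut-off: `B` -/
lemma itp_one {χ : ℂ × ℂ → ℝ} {A B : ℂ × ℂ → ℂ} {p : ℂ × ℂ} (h : χ p = 1) :
    itp χ A B p = B p := by unfold itp; rw [h]; simp

lemma itp_zero {χ : ℂ × ℂ → ℝ} {A B : ℂ × ℂ → ℂ} {p : ℂ × ℂ} (h : χ p = 0) :
    itp χ A B p = A p := by unfold itp; rw [h]; simp

/-- the cut-off of the second variable -/
def θ2 (b1 b2 : ℝ) (p : ℂ × ℂ) : ℝ := ct b1 b2 p.2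

/-- the cut-off of the first variable -/
def θ1 (b1 b2 : ℝ) (p : ℂ × ℂ) : ℝ := ct b1 b2 p.1

lemma θ2_smooth {b1 b2 : ℝ} : ContDiff ℝ (⊤ : ℕ∞) (θ2 b1 b2) := ct_smooth.comp contDiff_snd

lemma θ1_smooth {b1 b2 : ℝ} : ContDiff ℝ (⊤ : ℕ∞) (θ1 b1 b2) := ct_smooth.comp contDiff_fst

lemma θ2_fderiv_zero {b1 b2 : ℝ} (h1 : 0 < b1) (h2 : b1 < b2) {p : ℂ × ℂ}
    (h : ‖p.2‖ < b1 ∨ b2 < ‖p.2‖) : fderiv ℝ (θ2 b1 b2) p = 0 := by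
  have h3 : HasFDerivAt (θ2 b1 b2) ((fderiv ℝ (ct b1 b2) p.2).comp
      (ContinuousLinearMap.snd ℝ ℂ ℂ)) p :=
    ((ct_smooth.differentiable (by simp)) p.2).hasFDerivAt.comp p hasFDerivAt_snd
  rw [h3.fderiv, ct_fderiv_zero h1 h2 h, ContinuousLinearMap.zero_comp]

lemma θ1_fderiv_zero {b1 b2 : ℝ} (h1 : 0 < b1) (h2 : b1 < b2) {p : ℂ × ℂ}
    (h : ‖p.1‖ < b1 ∨ b2 < ‖p.1‖) : fderiv ℝ (θ1 b1 b2) p = 0 := by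
  have h3 : HasFDerivAt (θ1 b1 b2) ((fderiv ℝ (ct b1 b2) p.1).comp
      (ContinuousLinearMap.fst ℝ ℂ ℂ)) p :=
    ((ct_smooth.differentiable (by simp)) p.1).hasFDerivAt.comp p hasFDerivAt_fst
  rw [h3.fderiv, ct_fderiv_zero h1 h2 h, ContinuousLinearMap.zero_comp]

end Crest.Agent.R257.Nin_472
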