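import Crest.Agent.R257.ExNC_843

/-!
Row 257 (S0395), **null data, assembly** (helper121).

* `StZ`, `LocN`  : the local statement about the data `D` at a point of a chart over the origin;
* `adm_of_loc`   : compactness, integrals, `Adm`.
-/

set_option autoImplicit false
set_option linter.unusedSectionVars false

open Polynomial Set Filter Topology Metric MeasureTheory
open scoped ENNReal
open Crest.AlgGeometry.Germ Crest.Agent.R257.AJ387 Crest.Agent.R257.T387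
open Crest.Agent.R257.Gr1_157 Crest.Agent.R257.HoB_843 Crest.Agent.R257.BP_258
open Crest.Agent.R257.Exf_843

noncomputable section

namespace Crest.Agent.R257.NuA_121

variable {f : (Fin 3 → ℂ) → ℂ} {T : TB f} {S : Sh T} {U : Tub T}

/-- the strict zone -/
def StZ (L : Lab U S) (τ : ℝ) (c : Ch T.m) (j : Fin T.d) (p : ℂ × ℂ) : Prop :=
  (L.e1 c j ≠ none ∧ (IsV c ∨ τ ≤ ‖p.2‖)) ∨ (L.e2 c j ≠ none ∧ τ ≤ ‖p.1‖)

lemma StZ.mono {L : Lab U S} {τ τ' : ℝ} {c : Ch T.m} {j : Fin T.d} {p : ℂ × ℂ}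
    (h : StZ L τ c j p) (hτ : τ' ≤ τ) : StZ L τ' c j p := by
  rcases h with ⟨h1, h2⟩ | ⟨h1, h2⟩
  · exact Or.inl ⟨h1, h2.imp_right fun h => hτ.trans h⟩
  · exact Or.inr ⟨h1, hτ.trans h2⟩

open Classical in
/-- exponent of the second coordinate in `s ^ a` -/
def ea (a : ℕ) (c : Ch T.m) : ℝ := if IsE c then (a : ℝ) else 0

/-- **the local statement** -/
def LocN (L : Lab U S) (n1 n2 : Ch T.m → Fin T.d → ℤ) (y : II U → ℝ) (a : ℕ)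
    (D : (Fin 3 → ℂ) → ℂ) (c : Ch T.m) (j : Fin T.d) (p₀ : ℂ × ℂ) : Prop :=
  ∃ τ C x1 x2 z1 z2 : ℝ, 0 < τ ∧ 0 ≤ C ∧
    (p₀.1 = 0 → (n1 c j : ℝ) < x1 + a ∧ yo y (L.e1 c j) + n1 c j < z1) ∧
    (p₀.2 = 0 → (n2 c j : ℝ) < x2 + ea a c ∧ yo y (L.e2 c j) + n2 c j < z2) ∧
    ∀ᶠ p in 𝓝 p₀, ‖p.1‖ < S.r c → ‖p.2‖ < S.r c → T.Gen c p →
      ContDiffAt ℝ (⊤ : ℕ∞) (D ∘ wc S c j) p ∧
      ‖D (wc S c j p)‖ ≤ C * (‖p.1‖ ^ x1 * ‖p.2‖ ^ x2) ∧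
      (∀ w, ‖dbE (D ∘ wc S c j) p w‖ ≤ C * (‖p.1‖ ^ z1 * ‖p.2‖ ^ z2) * ‖w‖) ∧
      (StZ L τ c j p ∨ ∀ w, dbE (D ∘ wc S c j) p w = 0)

/-! ### `∂̄` -/

/-- `|∂̄|²` -/
def nb (F : ℂ × ℂ → ℂ) (p : ℂ × ℂ) : ℝ := ‖dbE F p (1, 0)‖ ^ 2 + ‖dbE F p (0, 1)‖ ^ 2

lemma nb_nonneg (F : ℂ × ℂ → ℂ) (p : ℂ × ℂ) : 0 ≤ nb F p := by unfold nb; positivity

lemma dbE_add_w (F : ℂ × ℂ → ℂ) (p w w' : ℂ × ℂ) :
    dbE F p (w + w') = dbE F p w + dbE F p w' := by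
  unfold dbE
  rw [smul_add, map_add, map_add]
  ring

lemma dbE_smul_w (F : ℂ × ℂ → ℂ) (p w : ℂ × ℂ) (l : ℂ) :
    dbE F p (l • w) = (starRingEnd ℂ) l * dbE F p w := by
  have e1 : l • w = l.re • w + l.im • (Complex.I • w) := by
    conv_lhs => rw [← Complex.re_add_im l]
    rw [add_smul, mul_smul]
    rfl
  have e2 : Complex.I • (l • w) = l.re • (Complex.I • w) - l.im • w := by
    have : Complex.I • (l • w) = (Complex.I * l) • w := smul_smul _ _ _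
    rw [this]
    have h3 : Complex.I * l = l.re * Complex.I - l.im := by
      conv_lhs => rw [← Complex.re_add_im l]
      have := Complex.I_mul_I
      linear_combination (l.im : ℂ) * this
    rw [h3, sub_smul, mul_smul]
    rfl
  unfold dbE
  have hs : ∀ (r : ℝ) (v : ℂ × ℂ), fderiv ℝ F p (r • v) = r • fderiv ℝ F p v :=
    fun r v => map_smul _ r v
  rw [e2, e1, map_add, map_sub, hs, hs, hs, hs]
  have h4 : (starRingEnd ℂ) l = l.re - l.im * Complex.I := by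
    apply Complex.ext <;> simp
  rw [h4]
  simp only [Complex.real_smul]
  have := Complex.I_mul_I
  linear_combination (1 / 2 * (l.im : ℂ) * (fderiv ℝ F p (Complex.I • w))) * this

lemma dbE_sq_le (F : ℂ × ℂ → ℂ) (p w : ℂ × ℂ) :
    ‖dbE F p w‖ ^ 2 ≤ nb F p * (‖w.1‖ ^ 2 + ‖w.2‖ ^ 2) := by
  have e : w = w.1 • ((1, 0) : ℂ × ℂ) + w.2 • ((0, 1) : ℂ × ℂ) := by
    ext <;> simp
  have h1 : ‖dbE F p w‖ ≤ ‖w.1‖ * ‖dbE F p (1, 0)‖ + ‖w.2‖ * ‖dbE F p (0, 1)‖ := by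
    conv_lhs => rw [e]
    rw [dbE_add_w, dbE_smul_w, dbE_smul_w]
    refine (norm_add_le _ _).trans (le_of_eq ?_)
    rw [norm_mul, norm_mul, RCLike.norm_conj, RCLike.norm_conj]
  have h2 : ‖dbE F p w‖ ^ 2 ≤
      (‖w.1‖ * ‖dbE F p (1, 0)‖ + ‖w.2‖ * ‖dbE F p (0, 1)‖) ^ 2 :=
    pow_le_pow_left₀ (norm_nonneg _) h1 2
  refine h2.trans ?_
  unfold nb
  nlinarith [sq_nonneg (‖w.1‖ * ‖dbE F p (0, 1)‖ - ‖w.2‖ * ‖dbE F p (1, 0)‖)]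

lemma nb_cont {F : ℂ × ℂ → ℂ} {p : ℂ × ℂ} (hF : ContDiffAt ℝ (⊤ : ℕ∞) F p) :
    ContinuousAt (nb F) p := by
  have h1 : ContinuousAt (fderiv ℝ F) p :=
    (hF.fderiv_right (m := 0) (by simp)).continuousAt
  have h2 : ∀ w : ℂ × ℂ, ContinuousAt (fun q => dbE F q w) p := fun w => by
    unfold dbE
    exact continuousAt_const.mul ((h1.clm_apply continuousAt_const).add
      (continuousAt_const.mul (h1.clm_apply continuousAt_const)))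
  unfold nb
  exact ((h2 _).norm.pow 2).add ((h2 _).norm.pow 2)

/-! ### the region -/

variable (S) in
/-- the generic points of the open bidisc over the bidisc of radius `δ` -/
def Zc (c : Ch T.m) (δ : ℝ) : Set (ℂ × ℂ) :=
  {p | (‖p.1‖ < S.r c ∧ ‖p.2‖ < S.r c) ∧ T.Gen c p ∧ ‖(T.map c p).1‖ < δ ∧ ‖(T.map c p).2‖ < δ}

lemma Zc_mono {c : Ch T.m} {δ δ' : ℝ} (h : δ' ≤ δ) : Zc S c δ' ⊆ Zc S c δ :=
  fun _ hp => ⟨hp.1, hp.2.1, hp.2.2.1.trans_le h, hp.2.2.2.trans_le h⟩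

variable (S) in
/-- the generic points of the open bidisc -/
def Bc (c : Ch T.m) : Set (ℂ × ℂ) := {p | (‖p.1‖ < S.r c ∧ ‖p.2‖ < S.r c) ∧ T.Gen c p}

lemma isOpen_Bc (c : Ch T.m) : IsOpen (Bc S c) :=
  ((isOpen_lt continuous_fst.norm continuous_const).inter
    (isOpen_lt continuous_snd.norm continuous_const)).inter (CDataB_250.isOpen_Gen c)

lemma Bc_mem {c : Ch T.m} {p : ℂ × ℂ} (h : p ∈ Bc S c) : p ∈ BD (2 * S.r c) (2 * S.r c) :=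
  CDataB_250.mem2 h.1.1.le h.1.2.le

/-- continuity of the map on the closed bidisc -/
lemma map_cont {c : Ch T.m} (hc : T.Valid c) {p : ℂ × ℂ} (h1 : ‖p.1‖ ≤ S.r c)
    (h2 : ‖p.2‖ ≤ S.r c) : ContinuousAt (T.map c) p :=
  ((S.sheets c hc).map_an (CDataB_250.mem2 h1 h2)).continuousAt

/-! ### local statements on sets -/

variable (L : Lab U S) (y : II U → ℝ) (a : ℕ) (D : (Fin 3 → ℂ) → ℂ)

/-- the statement on a set -/
structure QN (c : Ch T.m) (j : Fin T.d) (τ : ℝ) (A : Set (ℂ × ℂ)) : Prop where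
  sm : ∀ p ∈ A, ContDiffAt ℝ (⊤ : ℕ∞) (D ∘ wc S c j) p ∧
    (StZ L τ c j p ∨ ∀ w, dbE (D ∘ wc S c j) p w = 0)
  iD : ∫⁻ p in A, ENNReal.ofReal (‖(wc S c j p) 1 ^ a * D (wc S c j p)‖ ^ 2 *
    dn S c j p ^ 2) ≠ ∞
  iK : ∫⁻ p in A, ENNReal.ofReal (nb (D ∘ wc S c j) p *
    (‖p.1‖ ^ (-2 * yo y (L.e1 c j)) * ‖p.2‖ ^ (-2 * yo y (L.e2 c j))) * dn S c j p ^ 2) ≠ ∞

variable {L y a D}

lemma QN.mono {c : Ch T.m} {j : Fin T.d} {τ τ' : ℝ} {A A' : Set (ℂ × ℂ)}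
    (h : QN L y a D c j τ A) (hτ : τ' ≤ τ) (hA : A' ⊆ A) : QN L y a D c j τ' A' where
  sm p hp := ⟨(h.sm p (hA hp)).1, (h.sm p (hA hp)).2.imp_left fun h => h.mono hτ⟩
  iD := ne_top_of_le_ne_top h.iD (lintegral_mono_set hA)
  iK := ne_top_of_le_ne_top h.iK (lintegral_mono_set hA)

lemma QN.union {c : Ch T.m} {j : Fin T.d} {τ : ℝ} {A A' : Set (ℂ × ℂ)}
    (h : QN L y a D c j τ A) (h' : QN L y a D c j τ A') : QN L y a D c j τ (A ∪ A') where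
  sm p hp := hp.elim (h.sm p) (h'.sm p)
  iD := ne_top_of_le_ne_top (ENNReal.add_ne_top.2 ⟨h.iD, h'.iD⟩) (lintegral_union_le _ _ _)
  iK := ne_top_of_le_ne_top (ENNReal.add_ne_top.2 ⟨h.iK, h'.iK⟩) (lintegral_union_le _ _ _)

lemma QN.empty (c : Ch T.m) (j : Fin T.d) : QN L y a D c j 1 ∅ where
  sm p hp := hp.elim
  iD := by simp
  iK := by simp

/-! ### exponents -/

/-- change of the exponent away from zero -/
lemma ex_bd (z₀ : ℂ) {g : ℝ} (hg : z₀ = 0 → 0 < g) : ∃ e : ℝ, 0 < e ∧ ∃ C : ℝ, 0 ≤ C ∧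
    ∀ᶠ z in 𝓝 z₀, z ≠ 0 → ‖z‖ ^ (2 * g - 2) ≤ C * ‖z‖ ^ (2 * e - 2) := by
  by_cases h0 : z₀ = 0
  · exact ⟨g, hg h0, 1, zero_le_one, Eventually.of_forall fun z _ => by rw [one_mul]⟩
  · refine ⟨1, one_pos, ‖z₀‖ ^ (2 * g - 2) + 1, by positivity, ?_⟩
    have h1 : ContinuousAt (fun z : ℂ => ‖z‖ ^ (2 * g - 2)) z₀ :=
      continuous_norm.continuousAt.rpow_const (Or.inl (norm_ne_zero_iff.2 h0))
    filter_upwards [h1.eventually (gt_mem_nhds (lt_add_one _))] with z hz _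
    have : (2 * (1 : ℝ) - 2) = 0 := by norm_num
    rw [this, Real.rpow_zero, mul_one]
    exact hz.le

lemma norm_s (c : Ch T.m) (a : ℕ) (p : ℂ × ℂ) :
    ‖(T.map c p).1‖ ^ a = ‖p.1‖ ^ a * ‖p.2‖ ^ (ea a c) := by
  cases c with
  | edge i k k' =>
    have : ea a (Ch.edge i k k') = (a : ℝ) := if_pos trivial
    rw [this, Real.rpow_natCast]
    show ‖p.1 * p.2‖ ^ a = _
    rw [norm_mul, mul_pow]
  | leg i =>
    have : ea a (Ch.leg i) = 0 := if_neg id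
    rw [this, Real.rpow_zero, mul_one]
    rfl
  | vert i k w =>
    have : ea a (Ch.vert i k w) = 0 := if_neg id
    rw [this, Real.rpow_zero, mul_one]
    rfl

lemma pw1 {u : ℝ} (hu : 0 < u) (a : ℕ) (x : ℝ) (n : ℤ) :
    (u ^ a * u ^ x) ^ 2 * (u ^ (-n - 1)) ^ 2 = u ^ (2 * (x + a - n) - 2) := by
  rw [← Real.rpow_natCast u a, ← Real.rpow_intCast u (-n - 1), ← Real.rpow_natCast _ 2,
    ← Real.rpow_natCast _ 2, ← Real.rpow_add hu, ← Real.rpow_mul hu.le, ← Real.rpow_mul hu.le,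
    ← Real.rpow_add hu]
  congr 1
  push_cast
  ring

lemma pw2 {u : ℝ} (hu : 0 < u) (t x : ℝ) (n : ℤ) :
    (u ^ t * u ^ x) ^ 2 * (u ^ (-n - 1)) ^ 2 = u ^ (2 * (x + t - n) - 2) := by
  rw [← Real.rpow_intCast u (-n - 1), ← Real.rpow_natCast _ 2,
    ← Real.rpow_natCast _ 2, ← Real.rpow_add hu, ← Real.rpow_mul hu.le, ← Real.rpow_mul hu.le,
    ← Real.rpow_add hu]
  congr 1
  push_cast
  ring

lemma pw3 {u : ℝ} (hu : 0 < u) (z y : ℝ) (n : ℤ) :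
    (u ^ z) ^ 2 * u ^ (-2 * y) * (u ^ (-n - 1)) ^ 2 = u ^ (2 * (z - y - n) - 2) := by
  rw [← Real.rpow_intCast u (-n - 1), ← Real.rpow_natCast _ 2,
    ← Real.rpow_natCast _ 2, ← Real.rpow_mul hu.le, ← Real.rpow_mul hu.le,
    ← Real.rpow_add hu, ← Real.rpow_add hu]
  congr 1
  push_cast
  ring

lemma nb_le {F : ℂ × ℂ → ℂ} {p : ℂ × ℂ} {B : ℝ} (h : ∀ w, ‖dbE F p w‖ ≤ B * ‖w‖) :
    nb F p ≤ 2 * B ^ 2 := by
  have h1 := h (1, 0)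
  have h2 := h (0, 1)
  have e1 : ‖((1, 0) : ℂ × ℂ)‖ = 1 := by simp [Prod.norm_def]
  have e2 : ‖((0, 1) : ℂ × ℂ)‖ = 1 := by simp [Prod.norm_def]
  rw [e1, mul_one] at h1
  rw [e2, mul_one] at h2
  unfold nb
  nlinarith [norm_nonneg (dbE F p (1, 0)), norm_nonneg (dbE F p (0, 1))]

lemma dn_nonneg (c : Ch T.m) (j : Fin T.d) (p : ℂ × ℂ) : 0 ≤ dn S c j p := by
  unfold dn; positivity

/-- **local integrability** -/
theorem loc_QN {nu : II U → ℤ} {n1 n2 : Ch T.m → Fin T.d → ℤ} (J : Jac L nu n1 n2) {c : Ch T.m}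
    (hc : Ok S c) (j : Fin T.d) {p₀ : ℂ × ℂ} (h : LocN L n1 n2 y a D c j p₀) :
    ∃ τ : ℝ, 0 < τ ∧ ∃ N : Set (ℂ × ℂ), IsOpen N ∧ p₀ ∈ N ∧
      QN L y a D c j τ (N ∩ Bc S c) := by
  obtain ⟨τ, C, x1, x2, z1, z2, hτ, hC, hx, hz, hev⟩ := h
  obtain ⟨K, hK, hJ⟩ := J.bd c hc j
  obtain ⟨g1, hg1, G1, hG1, b1⟩ := ex_bd p₀.1 (g := x1 + a - n1 c j)
    (fun h => by linarith [(hx h).1])
  obtain ⟨g2, hg2, G2, hG2, b2⟩ := ex_bd p₀.2 (g := x2 + ea a c - n2 c j)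
    (fun h => by linarith [(hz h).1])
  obtain ⟨k1, hk1, K1, hK1, d1⟩ := ex_bd p₀.1 (g := z1 - yo y (L.e1 c j) - n1 c j)
    (fun h => by linarith [(hx h).2])
  obtain ⟨k2, hk2, K2, hK2, d2⟩ := ex_bd p₀.2 (g := z2 - yo y (L.e2 c j) - n2 c j)
    (fun h => by linarith [(hz h).2])
  have c1 : Tendsto Prod.fst (𝓝 p₀) (𝓝 p₀.1) := continuousAt_fst
  have c2 : Tendsto Prod.snd (𝓝 p₀) (𝓝 p₀.2) := continuousAt_snd
  obtain ⟨N, hN, hNo, hp₀⟩ := _root_.eventually_nhds_iff.1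
    (hev.and ((c1.eventually (b1.and d1)).and (c2.eventually (b2.and d2))))
  have hA : MeasurableSet (N ∩ Bc S c) := (hNo.inter (isOpen_Bc c)).measurableSet
  have hAR : ∀ p ∈ N ∩ Bc S c, ‖p.1‖ < S.r c ∧ ‖p.2‖ < S.r c := fun p hp => hp.2.1
  refine ⟨τ, hτ, N, hNo, hp₀, ⟨fun p hp => ?_, ?_, ?_⟩⟩
  · obtain ⟨e1, -⟩ := hN p hp.1
    obtain ⟨e2, -, -, e3⟩ := e1 hp.2.1.1 hp.2.1.2 hp.2.2
    exact ⟨e2, e3⟩
  · refine CDataA_250.fin_int hA hAR hg1 hg2 (C := C ^ 2 * K ^ 2 * G1 * G2) (by positivity)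
      fun p hp hp1 hp2 => ?_
    obtain ⟨e1, ⟨e2, -⟩, ⟨e3, -⟩⟩ := hN p hp.1
    obtain ⟨-, e4, -, -⟩ := e1 hp.2.1.1 hp.2.1.2 hp.2.2
    obtain ⟨-, e5, -⟩ := hJ p hp.2.1.1.le hp.2.1.2.le hp.2.2
    have hu : 0 < ‖p.1‖ := norm_pos_iff.2 hp1
    have hv : 0 < ‖p.2‖ := norm_pos_iff.2 hp2
    have f1 : ‖(wc S c j p) 1 ^ a * D (wc S c j p)‖ ≤
        (‖p.1‖ ^ a * ‖p.2‖ ^ (ea a c)) * (C * (‖p.1‖ ^ x1 * ‖p.2‖ ^ x2)) := by
      rw [norm_mul, norm_pow, wc1, norm_s]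
      exact mul_le_mul_of_nonneg_left e4 (by positivity)
    have f2 : ‖(wc S c j p) 1 ^ a * D (wc S c j p)‖ ^ 2 ≤
        ((‖p.1‖ ^ a * ‖p.2‖ ^ (ea a c)) * (C * (‖p.1‖ ^ x1 * ‖p.2‖ ^ x2))) ^ 2 :=
      pow_le_pow_left₀ (norm_nonneg _) f1 2
    have f3 : dn S c j p ^ 2 ≤ (K * (‖p.1‖ ^ (-n1 c j - 1) * ‖p.2‖ ^ (-n2 c j - 1))) ^ 2 :=
      pow_le_pow_left₀ (dn_nonneg c j p) e5 2
    calc ‖(wc S c j p) 1 ^ a * D (wc S c j p)‖ ^ 2 * dn S c j p ^ 2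
        ≤ ((‖p.1‖ ^ a * ‖p.2‖ ^ (ea a c)) * (C * (‖p.1‖ ^ x1 * ‖p.2‖ ^ x2))) ^ 2 *
          (K * (‖p.1‖ ^ (-n1 c j - 1) * ‖p.2‖ ^ (-n2 c j - 1))) ^ 2 := by gcongr
      _ = C ^ 2 * K ^ 2 * (((‖p.1‖ ^ a * ‖p.1‖ ^ x1) ^ 2 * (‖p.1‖ ^ (-n1 c j - 1)) ^ 2) *
          ((‖p.2‖ ^ (ea a c) * ‖p.2‖ ^ x2) ^ 2 * (‖p.2‖ ^ (-n2 c j - 1)) ^ 2)) := by ring
      _ = C ^ 2 * K ^ 2 * (‖p.1‖ ^ (2 * (x1 + a - n1 c j) - 2) *
          ‖p.2‖ ^ (2 * (x2 + ea a c - n2 c j) - 2)) := by rw [pw1 hu, pw2 hv]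
      _ ≤ C ^ 2 * K ^ 2 * ((G1 * ‖p.1‖ ^ (2 * g1 - 2)) * (G2 * ‖p.2‖ ^ (2 * g2 - 2))) := by
          have := e2 hp1
          have := e3 hp2
          gcongr
      _ = _ := by ring
  · refine CDataA_250.fin_int hA hAR hk1 hk2 (C := 2 * C ^ 2 * K ^ 2 * K1 * K2) (by positivity)
      fun p hp hp1 hp2 => ?_
    obtain ⟨e1, ⟨-, e2⟩, ⟨-, e3⟩⟩ := hN p hp.1
    obtain ⟨-, -, e4, -⟩ := e1 hp.2.1.1 hp.2.1.2 hp.2.2
    obtain ⟨-, e5, -⟩ := hJ p hp.2.1.1.le hp.2.1.2.le hp.2.2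
    have hu : 0 < ‖p.1‖ := norm_pos_iff.2 hp1
    have hv : 0 < ‖p.2‖ := norm_pos_iff.2 hp2
    have f2 := nb_le e4
    have f3 : dn S c j p ^ 2 ≤ (K * (‖p.1‖ ^ (-n1 c j - 1) * ‖p.2‖ ^ (-n2 c j - 1))) ^ 2 :=
      pow_le_pow_left₀ (dn_nonneg c j p) e5 2
    calc nb (D ∘ wc S c j) p *
          (‖p.1‖ ^ (-2 * yo y (L.e1 c j)) * ‖p.2‖ ^ (-2 * yo y (L.e2 c j))) * dn S c j p ^ 2
        ≤ (2 * (C * (‖p.1‖ ^ z1 * ‖p.2‖ ^ z2)) ^ 2) *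
          (‖p.1‖ ^ (-2 * yo y (L.e1 c j)) * ‖p.2‖ ^ (-2 * yo y (L.e2 c j))) *
          (K * (‖p.1‖ ^ (-n1 c j - 1) * ‖p.2‖ ^ (-n2 c j - 1))) ^ 2 := by gcongr
      _ = 2 * C ^ 2 * K ^ 2 * (((‖p.1‖ ^ z1) ^ 2 * ‖p.1‖ ^ (-2 * yo y (L.e1 c j)) *
          (‖p.1‖ ^ (-n1 c j - 1)) ^ 2) * ((‖p.2‖ ^ z2) ^ 2 * ‖p.2‖ ^ (-2 * yo y (L.e2 c j)) *
          (‖p.2‖ ^ (-n2 c j - 1)) ^ 2)) := by ring
      _ = 2 * C ^ 2 * K ^ 2 * (‖p.1‖ ^ (2 * (z1 - yo y (L.e1 c j) - n1 c j) - 2) *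
          ‖p.2‖ ^ (2 * (z2 - yo y (L.e2 c j) - n2 c j) - 2)) := by rw [pw3 hu, pw3 hv]
      _ ≤ 2 * C ^ 2 * K ^ 2 *
          ((K1 * ‖p.1‖ ^ (2 * k1 - 2)) * (K2 * ‖p.2‖ ^ (2 * k2 - 2))) := by
          have := e2 hp1
          have := e3 hp2
          gcongr
      _ = _ := by ring

/-! ### compactness -/

variable (S) in
/-- the points over the origin -/
def K0 (c : Ch T.m) : Set (ℂ × ℂ) := {p | (‖p.1‖ ≤ S.r c ∧ ‖p.2‖ ≤ S.r c) ∧ T.map c p = 0}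

variable (S) in
/-- the closed bidisc -/
def CBc (c : Ch T.m) : Set (ℂ × ℂ) := {p | ‖p.1‖ ≤ S.r c ∧ ‖p.2‖ ≤ S.r c}

lemma CBc_cpt (c : Ch T.m) : IsCompact (CBc S c) := by
  have : CBc S c = closedBall (0 : ℂ) (S.r c) ×ˢ closedBall (0 : ℂ) (S.r c) := by
    ext p; simp [CBc]
  rw [this]
  exact (isCompact_closedBall _ _).prod (isCompact_closedBall _ _)

lemma map_contOn {c : Ch T.m} (hc : T.Valid c) : ContinuousOn (T.map c) (CBc S c) :=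
  fun _ hp => (map_cont hc hp.1 hp.2).continuousWithinAt

lemma K0_cpt {c : Ch T.m} (hc : T.Valid c) : IsCompact (K0 S c) := by
  have h1 : K0 S c = CBc S c ∩ T.map c ⁻¹' {0} := rfl
  rw [h1]
  exact (CBc_cpt c).of_isClosed_subset
    ((map_contOn hc).preimage_isClosed_of_isClosed (CBc_cpt c).isClosed isClosed_singleton)
    inter_subset_left

/-- the tube lemma -/
lemma tube {c : Ch T.m} (hc : T.Valid c) {N : Set (ℂ × ℂ)} (hN : IsOpen N) (h : K0 S c ⊆ N) :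
    ∃ δ : ℝ, 0 < δ ∧ Zc S c δ ⊆ N := by
  have h1 : IsCompact (CBc S c \ N) := (CBc_cpt c).diff hN
  rcases (CBc S c \ N).eq_empty_or_nonempty with he | hne
  · refine ⟨1, one_pos, fun p hp => ?_⟩
    by_contra hn
    have : p ∈ CBc S c \ N := ⟨⟨hp.1.1.le, hp.1.2.le⟩, hn⟩
    rw [he] at this
    exact this
  · obtain ⟨p₀, hp₀, hmin⟩ := h1.exists_isMinOn hne
      ((map_contOn (S := S) hc).norm.mono sdiff_subset)
    refine ⟨‖T.map c p₀‖, ?_, fun p hp => ?_⟩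
    · rw [norm_pos_iff]
      exact fun h0 => hp₀.2 (h ⟨hp₀.1, h0⟩)
    · by_contra hn
      have h2 := hmin (⟨⟨hp.1.1.le, hp.1.2.le⟩, hn⟩ : p ∈ CBc S c \ N)
      simp only [Set.mem_ofPred_eq] at h2
      have h3 : ‖T.map c p‖ < ‖T.map c p₀‖ := by
        rw [Prod.norm_def (T.map c p)]
        exact max_lt hp.2.2.1 hp.2.2.2
      exact absurd h2 (not_le.2 h3)

/-- the statement on one chart -/
theorem one_QN {nu : II U → ℤ} {n1 n2 : Ch T.m → Fin T.d → ℤ} (J : Jac L nu n1 n2) {c : Ch T.m}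
    (hc : Ok S c) (j : Fin T.d) (h : ∀ p₀ : ℂ × ℂ, ‖p₀.1‖ ≤ S.r c → ‖p₀.2‖ ≤ S.r c →
      T.map c p₀ = 0 → LocN L n1 n2 y a D c j p₀) :
    ∃ δ : ℝ, 0 < δ ∧ QN L y a D c j δ (Zc S c δ) := by
  have key : ∃ N : Set (ℂ × ℂ), IsOpen N ∧ K0 S c ⊆ N ∧
      ∃ τ : ℝ, 0 < τ ∧ QN L y a D c j τ (N ∩ Bc S c) := by
    refine (K0_cpt hc.1).induction_on (p := fun A => ∃ N : Set (ℂ × ℂ), IsOpen N ∧ A ⊆ N ∧
      ∃ τ : ℝ, 0 < τ ∧ QN L y a D c j τ (N ∩ Bc S c)) ?_ ?_ ?_ ?_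
    · refine ⟨∅, isOpen_empty, subset_rfl, 1, one_pos, ?_⟩
      rw [empty_inter]
      exact QN.empty c j
    · rintro A A' hA ⟨N, h1, h2, h3⟩
      exact ⟨N, h1, hA.trans h2, h3⟩
    · rintro A A' ⟨N, h1, h2, τ, h3, h4⟩ ⟨N', h1', h2', τ', h3', h4'⟩
      refine ⟨N ∪ N', h1.union h1', union_subset_union h2 h2', min τ τ', lt_min h3 h3', ?_⟩
      rw [union_inter_distrib_right]
      exact (h4.mono (min_le_left _ _) subset_rfl).union (h4'.mono (min_le_right _ _) subset_rfl)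
    · intro p₀ hp₀
      obtain ⟨τ, h3, N, h1, h2, h4⟩ := loc_QN J hc j (h p₀ hp₀.1.1 hp₀.1.2 hp₀.2)
      exact ⟨N, mem_nhdsWithin_of_mem_nhds (h1.mem_nhds h2), N, h1, subset_rfl, τ, h3, h4⟩
  obtain ⟨N, h1, h2, τ, h3, h4⟩ := key
  obtain ⟨δ, h5, h6⟩ := tube hc.1 h1 h2
  refine ⟨min τ δ, lt_min h3 h5, h4.mono (min_le_left _ _) fun p hp => ⟨?_, hp.1, hp.2.1⟩⟩
  exact h6 (Zc_mono (min_le_right _ _) hp)

/-- uniform constants -/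
theorem all_QN {nu : II U → ℤ} {n1 n2 : Ch T.m → Fin T.d → ℤ} (J : Jac L nu n1 n2)
    {F : Finset (Ch T.m)} (hF : ∀ c ∈ F, Ok S c)
    (h : ∀ c ∈ F, ∀ j, ∀ p₀ : ℂ × ℂ, ‖p₀.1‖ ≤ S.r c → ‖p₀.2‖ ≤ S.r c →
      T.map c p₀ = 0 → LocN L n1 n2 y a D c j p₀) :
    ∃ δ : ℝ, 0 < δ ∧ ∀ c ∈ F, ∀ j, QN L y a D c j δ (Zc S c δ) := by
  have h1 : ∀ᶠ δ in 𝓝[>] (0 : ℝ), ∀ c ∈ F, ∀ j, QN L y a D c j δ (Zc S c δ) := by
    rw [Filter.eventually_all_finset]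
    intro c hc
    rw [eventually_all]
    intro j
    obtain ⟨δ, h2, h3⟩ := one_QN J (hF c hc) j (h c hc j)
    filter_upwards [Ioo_mem_nhdsGT h2] with δ' hδ'
    exact h3.mono hδ'.2.le (Zc_mono hδ'.2.le)
  obtain ⟨δ, h2, h3⟩ := (h1.and self_mem_nhdsWithin).exists
  exact ⟨δ, h3, h2⟩

/-! ### the result -/

open Classical in
variable (S) in
/-- the open sets -/
def OO (F : Finset (Ch T.m)) (ρ : ℝ) (c : Ch T.m) (_ : Fin T.d) : Set (ℂ × ℂ) :=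
  if c ∈ F then Zc S c ρ else ∅

variable (D) in
/-- the bound -/
def kk (F : Finset (Ch T.m)) (ρ c₀ : ℝ) (a : ℕ) (c : Ch T.m) (j : Fin T.d) : ℂ × ℂ → ℝ :=
  (OO S F ρ c j).indicator fun p =>
    (‖(T.map c p).1‖ ^ a) ^ 2 * nb (D ∘ wc S c j) p / c₀

lemma isOpen_Zc {c : Ch T.m} (hc : T.Valid c) (δ : ℝ) : IsOpen (Zc S c δ) := by
  rw [isOpen_iff_mem_nhds]
  intro p hp
  have h1 : Bc S c ∈ 𝓝 p := (isOpen_Bc c).mem_nhds ⟨hp.1, hp.2.1⟩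
  have h2 := map_cont (S := S) hc hp.1.1.le hp.1.2.le
  filter_upwards [h1, h2.fst.norm.eventually (gt_mem_nhds hp.2.2.1),
    h2.snd.norm.eventually (gt_mem_nhds hp.2.2.2)] with q q1 q2 q3 using ⟨q1.1, q1.2, q2, q3⟩

/-- **ASSEMBLY**: admissible data from the local statements -/
theorem adm_of_loc {nu : II U → ℤ} {n1 n2 : Ch T.m → Fin T.d → ℤ} (J : Jac L nu n1 n2)
    {F : Finset (Ch T.m)} (hF : ∀ c ∈ F, Ok S c)
    (h : ∀ c ∈ F, ∀ j, ∀ p₀ : ℂ × ℂ, ‖p₀.1‖ ≤ S.r c → ‖p₀.2‖ ≤ S.r c →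
      T.map c p₀ = 0 → LocN L n1 n2 y a D c j p₀) :
    ∀ τ₁ > 0, ∃ τ₀ > 0, τ₀ < τ₁ ∧ ∀ (Φ : (Fin 3 → ℂ) → ℝ) (ρ₀ C c₀ : ℝ),
      WT0 L y F τ₀ Φ ρ₀ C c₀ → ∃ (ρ : ℝ) (O : Ch T.m → Fin T.d → Set (ℂ × ℂ))
        (κ : Ch T.m → Fin T.d → ℂ × ℂ → ℝ), 0 < ρ ∧ ρ ≤ ρ₀ ∧
        CDataB_250.Adm S F (fun x => Φ x + a * Real.log (‖x 1‖ ^ 2)) ρ
          (fun x => x 1 ^ a * D x) O κ := by
  classical
  intro τ₁ hτ₁
  obtain ⟨δ, hδ, hQ⟩ := all_QN J hF h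
  refine ⟨min δ (τ₁ / 2), lt_min hδ (by linarith), (min_le_right _ _).trans_lt (by linarith),
    fun Φ ρ₀ C c₀ W => ?_⟩
  have hρ₀ := W.ρ_pos
  have hc₀ := W.c_pos
  set ρ := min δ ρ₀ with hρ
  have hρ0 : 0 < ρ := lt_min hδ hρ₀
  have hO : ∀ c ∈ F, ∀ j, OO S F ρ c j = Zc S c ρ := fun c hc j => if_pos hc
  have hOQ : ∀ c ∈ F, ∀ j, QN L y a D c j (min δ (τ₁ / 2)) (OO S F ρ c j) := fun c hc j => by
    rw [hO c hc j]
    exact (hQ c hc j).mono (min_le_left _ _) (Zc_mono (min_le_left _ _))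
  have hOg : ∀ c ∈ F, ∀ j, ∀ p ∈ OO S F ρ c j, p ∈ Og (S := S) c ρ ∧ ‖(T.map c p).2‖ < ρ := by
    intro c hc j p hp
    rw [hO c hc j] at hp
    exact ⟨⟨hp.1.1, hp.1.2, hp.2.1, hp.2.2.1⟩, hp.2.2.2⟩
  have hOg0 : ∀ c ∈ F, ∀ j, ∀ p ∈ OO S F ρ c j, p ∈ Og (S := S) c ρ₀ := fun c hc j p hp =>
    CDataB_250.Og_mono (min_le_right _ _) (hOg c hc j p hp).1
  have hmem : ∀ c ∈ F, ∀ j, ∀ p ∈ OO S F ρ c j, p ∈ BD (2 * S.r c) (2 * S.r c) ∧ T.Gen c p :=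
    fun c hc j p hp => ⟨CDataB_250.Og_mem2 (hOg c hc j p hp).1, (hOg c hc j p hp).1.2.2.1⟩
  have hfun : ∀ c j, ((fun x : Fin 3 → ℂ => x 1 ^ a * D x) ∘ wc S c j) =
      fun q => (T.map c q).1 ^ a * (D ∘ wc S c j) q := fun c j => rfl
  have hs : ∀ c ∈ F, ∀ j, ∀ p ∈ OO S F ρ c j, AnalyticAt ℂ (fun q => (T.map c q).1 ^ a) p :=
    fun c hc j p hp => (an_s (hF c hc).1 (hmem c hc j p hp).1).pow a
  have hdb : ∀ c ∈ F, ∀ j, ∀ p ∈ OO S F ρ c j, ∀ w,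
      dbE ((fun x : Fin 3 → ℂ => x 1 ^ a * D x) ∘ wc S c j) p w =
        (T.map c p).1 ^ a * dbE (D ∘ wc S c j) p w := by
    intro c hc j p hp w
    rw [hfun]
    exact HoH_843.dbE_mul (hs c hc j p hp).differentiableAt
      (((hOQ c hc j).sm p hp).1.differentiableAt (by simp)) w
  refine ⟨ρ, OO S F ρ, kk (S := S) D F ρ c₀ a, hρ0, min_le_right _ _, ?_⟩
  refine ⟨?_, hOg, ?_, ?_, ?_, ?_, ?_, ?_, ?_⟩
  · -- open
    intro c hc j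
    rw [hO c hc j]
    exact isOpen_Zc (hF c hc).1 ρ
  · -- cover
    intro c hc j p hp hy _
    refine ⟨c, hc, j, p, ?_, rfl⟩
    rw [hO c hc j]
    exact ⟨⟨hp.1, hp.2.1⟩, hp.2.2.1, hp.2.2.2, hy⟩
  · -- smooth
    intro c hc j p hp
    rw [hfun]
    have h1 : ContDiffAt ℝ (⊤ : ℕ∞) (fun q => (T.map c q).1 ^ a) p :=
      ((hs c hc j p hp).contDiffAt (n := ((⊤ : ℕ∞) : WithTop ℕ∞))).restrict_scalars ℝ
    exact h1.mul ((hOQ c hc j).sm p hp).1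
  · -- nonneg
    intro c j p
    unfold kk
    refine indicator_nonneg (fun p _ => ?_) p
    have := nb_nonneg (D ∘ wc S c j) p
    positivity
  · -- measurable
    intro c j
    unfold kk
    by_cases hc : c ∈ F
    · refine HoH_843.meas_ind (by rw [hO c hc j]; exact isOpen_Zc (hF c hc).1 ρ) ?_
      intro p hp
      refine ContinuousAt.continuousWithinAt ?_
      have h1 : ContinuousAt (fun q => (T.map c q).1) p :=
        (an_s (hF c hc).1 (hmem c hc j p hp).1).continuousAt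
      exact (((h1.norm.pow a).pow 2).mul (nb_cont ((hOQ c hc j).sm p hp).1)).div_const _
    · have : OO S F ρ c j = ∅ := if_neg hc
      rw [this, indicator_empty]
      exact measurable_const
  · -- the inequality
    intro c hc j p hp w
    have hk : kk (S := S) D F ρ c₀ a c j p =
        (‖(T.map c p).1‖ ^ a) ^ 2 * nb (D ∘ wc S c j) p / c₀ := indicator_of_mem hp _
    rw [hdb c hc j p hp w, hk, norm_mul, norm_pow, mul_pow]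
    obtain ⟨s1, s2⟩ := shift_sm (hF c hc).1 j (hmem c hc j p hp).1 (hmem c hc j p hp).2 a
      (W.sm c hc j p (hOg0 c hc j p hp))
    rw [s2 w]
    have h0 := nb_nonneg (D ∘ wc S c j) p
    rcases ((hOQ c hc j).sm p hp).2 with hz | hz
    · have h1 : c₀ * (‖w.1‖ ^ 2 + ‖w.2‖ ^ 2) ≤ lvE (Φ ∘ wc S c j) p w := by
        rcases hz with ⟨z1, z2⟩ | ⟨z1, z2⟩
        · exact W.st1 c hc j p (hOg0 c hc j p hp) z1 z2 w
        · exact W.st2 c hc j p (hOg0 c hc j p hp) z1 z2 w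
      have h2 := dbE_sq_le (D ∘ wc S c j) p w
      calc (‖(T.map c p).1‖ ^ a) ^ 2 * ‖dbE (D ∘ wc S c j) p w‖ ^ 2
          ≤ (‖(T.map c p).1‖ ^ a) ^ 2 *
            (nb (D ∘ wc S c j) p * (‖w.1‖ ^ 2 + ‖w.2‖ ^ 2)) := by gcongr
        _ = (‖(T.map c p).1‖ ^ a) ^ 2 * nb (D ∘ wc S c j) p / c₀ *
            (c₀ * (‖w.1‖ ^ 2 + ‖w.2‖ ^ 2)) := by field_simp
        _ ≤ _ := mul_le_mul_of_nonneg_left h1 (by positivity)
    · rw [hz w, norm_zero]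
      have h1 := W.psh c hc j p (hOg0 c hc j p hp) w
      have : 0 ≤ (‖(T.map c p).1‖ ^ a) ^ 2 * nb (D ∘ wc S c j) p / c₀ *
        lvE (Φ ∘ wc S c j) p w := mul_nonneg (by positivity) h1
      simpa using this
  · -- first integral
    intro c hc j
    have hi := (hOQ c hc j).iK
    have h1 : ∫⁻ p in OO S F ρ c j, ENNReal.ofReal (kk (S := S) D F ρ c₀ a c j p *
        Real.exp (-(Φ (wc S c j p) + a * Real.log (‖(wc S c j p) 1‖ ^ 2))) * dn S c j p ^ 2) ≤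
        ∫⁻ p in OO S F ρ c j, ENNReal.ofReal (Real.exp C / c₀) *
          ENNReal.ofReal (nb (D ∘ wc S c j) p *
            (‖p.1‖ ^ (-2 * yo y (L.e1 c j)) * ‖p.2‖ ^ (-2 * yo y (L.e2 c j))) *
            dn S c j p ^ 2) := by
      refine lintegral_mono_ae ?_
      have hOm : MeasurableSet (OO S F ρ c j) := by
        rw [hO c hc j]; exact (isOpen_Zc (hF c hc).1 ρ).measurableSet
      filter_upwards [ae_restrict_mem hOm, ae_restrict_of_ae CDataA_250.ae_ne1,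
        ae_restrict_of_ae CDataA_250.ae_ne2] with p hp hp1 hp2
      rw [← ENNReal.ofReal_mul (by positivity)]
      refine ENNReal.ofReal_le_ofReal ?_
      have hk : kk (S := S) D F ρ c₀ a c j p =
        (‖(T.map c p).1‖ ^ a) ^ 2 * nb (D ∘ wc S c j) p / c₀ := indicator_of_mem hp _
      have hu : 0 < ‖p.1‖ := norm_pos_iff.2 hp1
      have hv : 0 < ‖p.2‖ := norm_pos_iff.2 hp2
      have hsn : 0 < ‖(T.map c p).1‖ :=
        norm_pos_iff.2 (CDataB_250.sc_ne (hmem c hc j p hp).2)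
      have e1 : Real.exp (-(a * Real.log (‖(T.map c p).1‖ ^ 2))) *
          (‖(T.map c p).1‖ ^ a) ^ 2 = 1 := by
        rw [CDataA_250.exp_log_sq hsn, ← Real.rpow_natCast ‖(T.map c p).1‖ a,
          ← Real.rpow_natCast _ 2, ← Real.rpow_mul hsn.le, ← Real.rpow_add hsn]
        have : (-2 * (a : ℝ) + a * (2 : ℕ)) = 0 := by push_cast; ring
        rw [this, Real.rpow_zero]
      have e2 : Real.exp (-Φ (wc S c j p)) ≤ Real.exp C *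
          (‖p.1‖ ^ (-2 * yo y (L.e1 c j)) * ‖p.2‖ ^ (-2 * yo y (L.e2 c j))) := by
        have h3 := W.lo c hc j p (hOg0 c hc j p hp)
        have h4 : Real.exp (-Φ (wc S c j p)) ≤ Real.exp (C +
            (-(yo y (L.e1 c j) * Real.log (‖p.1‖ ^ 2)) +
            -(yo y (L.e2 c j) * Real.log (‖p.2‖ ^ 2)))) := Real.exp_le_exp.2 (by linarith)
        rwa [Real.exp_add, Real.exp_add, CDataA_250.exp_log_sq hu,
          CDataA_250.exp_log_sq hv] at h4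
      have h0 := nb_nonneg (D ∘ wc S c j) p
      rw [hk, neg_add, Real.exp_add, wc1]
      calc (‖(T.map c p).1‖ ^ a) ^ 2 * nb (D ∘ wc S c j) p / c₀ *
            (Real.exp (-Φ (wc S c j p)) *
              Real.exp (-(a * Real.log (‖(T.map c p).1‖ ^ 2)))) * dn S c j p ^ 2
          = (Real.exp (-(a * Real.log (‖(T.map c p).1‖ ^ 2))) *
          (‖(T.map c p).1‖ ^ a) ^ 2) * (nb (D ∘ wc S c j) p / c₀ *
            Real.exp (-Φ (wc S c j p)) * dn S c j p ^ 2) := by ring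
        _ = nb (D ∘ wc S c j) p / c₀ * Real.exp (-Φ (wc S c j p)) * dn S c j p ^ 2 := by
            rw [e1, one_mul]
        _ ≤ nb (D ∘ wc S c j) p / c₀ * (Real.exp C *
          (‖p.1‖ ^ (-2 * yo y (L.e1 c j)) * ‖p.2‖ ^ (-2 * yo y (L.e2 c j)))) *
            dn S c j p ^ 2 := by gcongr
        _ = _ := by ring
    refine ne_top_of_le_ne_top ?_ h1
    rw [lintegral_const_mul' _ _ ENNReal.ofReal_ne_top]
    exact ENNReal.mul_ne_top ENNReal.ofReal_ne_top hi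
  · -- second integral
    intro c hc j
    exact (hOQ c hc j).iD

end Crest.Agent.R257.NuA_121
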