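import Crest.Agent.R257.NuD_938
import Crest.Agent.R257.NuA_121
import Crest.Agent.R257.Nd2_980

/-!
# Row 257 (S0395), NULL DATA, far axes (helper82)

* `cut_bd`, `core`, `two` : calculus: `K q * (φ (B q) * χ (A q))` with `A B = s`, `B → 0`;
* `far2`, `far1` : the data near the points of the far axis of an edge of `E₀`.
-/

set_option autoImplicit false
set_option linter.unusedSectionVars false
set_option linter.unusedVariables false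

open Polynomial Set Filter Topology Metric
open Crest.AlgGeometry.Germ Crest.Agent.R257.AJ387 Crest.Agent.R257.T387
open Crest.Agent.R257.Gr1_157 Crest.Agent.R257.HoB_843 Crest.Agent.R257.BP_258
open Crest.Agent.R257.Frm_547 Crest.Agent.R257.Lab_931 Crest.Agent.R257.Wt_258
open Crest.Agent.R257.CDataA_250 Crest.Agent.R257.Rsn_843 Crest.Agent.R257.Exf_843
open Crest.Agent.R257.Nu_938

noncomputable section

namespace Crest.Agent.R257.NuF_82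

/-! ### calculus -/

lemma cut_sm {u : ℂ × ℂ → ℂ} {q : ℂ × ℂ} (hu : AnalyticAt ℂ u q) (a b : ℝ) :
    ContDiffAt ℝ (⊤ : ℕ∞) (fun q => ct a b (u q)) q :=
  (ct_smooth (a := a) (b := b)).contDiffAt.comp q ((hu.contDiffAt (n := (⊤ : ℕ∞))).restrict_scalars ℝ)

lemma cut_smC {u : ℂ × ℂ → ℂ} {q : ℂ × ℂ} (hu : AnalyticAt ℂ u q) (a b : ℝ) :
    ContDiffAt ℝ (⊤ : ℕ∞) (fun q => (ct a b (u q) : ℂ)) q :=
  Complex.ofRealCLM.contDiff.contDiffAt.comp q (cut_sm hu a b)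

/-- the derivative of a cut-off function near a point -/
theorem cut_bd {q₁ : ℂ × ℂ} {u : ℂ × ℂ → ℂ} (hu : AnalyticAt ℂ u q₁) (a b : ℝ) :
    ∃ M : ℝ, 0 ≤ M ∧ ∀ᶠ q in 𝓝 q₁, ContDiffAt ℝ (⊤ : ℕ∞) (fun q => (ct a b (u q) : ℂ)) q ∧
      ∀ w, ‖dbE (fun q => (ct a b (u q) : ℂ)) q w‖ ≤ M * ‖w‖ := by
  have h1 : ContDiffAt ℝ 1 (fun q => ct a b (u q)) q₁ := (cut_sm hu a b).of_le (by norm_cast)
  obtain ⟨K, t, ht, hL⟩ := h1.exists_lipschitzOnWith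
  refine ⟨K, K.2, ?_⟩
  have h2 : ∀ᶠ q in 𝓝 q₁, t ∈ 𝓝 q := eventually_mem_nhds_iff.2 ht
  filter_upwards [h2, hu.eventually_analyticAt] with q hq hq2
  refine ⟨cut_smC hq2 a b, fun w => ?_⟩
  have h3 : DifferentiableAt ℝ (fun q => ct a b (u q)) q :=
    (cut_sm hq2 a b).differentiableAt (by simp)
  refine (norm_dbE_le h3 w).trans ?_
  exact mul_le_mul_of_nonneg_right (norm_fderiv_le_of_lipschitzOn ℝ hq hL) (norm_nonneg _)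

/-- **the cut-off model** -/
theorem core {l : Filter (ℂ × ℂ)} {q₁ : ℂ × ℂ} (hl : l ≤ 𝓝 q₁) {u : ℂ × ℂ → ℂ}
    (hu : AnalyticAt ℂ u q₁) (a b : ℝ) {K Ψ : ℂ × ℂ → ℂ} {N : ℂ × ℂ → ℝ}
    (hK : ∀ᶠ q in l, AnalyticAt ℂ K q) {C : ℝ} (hC : 0 ≤ C) (hKb : ∀ᶠ q in l, ‖K q‖ ≤ C * N q)
    (hΨ : ∀ᶠ q in l, Ψ =ᶠ[𝓝 q] fun q => K q * (ct a b (u q) : ℂ)) :
    ∃ C' : ℝ, 0 ≤ C' ∧ ∀ᶠ q in l, ContDiffAt ℝ (⊤ : ℕ∞) Ψ q ∧ ‖Ψ q‖ ≤ C' * N q ∧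
      (∀ w, ‖dbE Ψ q w‖ ≤ C' * N q * ‖w‖) ∧
      (‖u q‖ < a → 0 < a → a < b → ∀ w, dbE Ψ q w = 0) := by
  obtain ⟨M, hM, hMb⟩ := cut_bd hu a b
  refine ⟨C * (1 + M), by positivity, ?_⟩
  filter_upwards [hK, hKb, hΨ, hMb.filter_mono hl, hu.eventually_analyticAt.filter_mono hl]
    with q h1 h2 h3 h4 h10
  have hN : 0 ≤ C * N q := (norm_nonneg _).trans h2
  have hdb : ∀ w, dbE Ψ q w = K q * dbE (fun q => (ct a b (u q) : ℂ)) q w := fun w => by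
    rw [dbE_congr h3, HoH_843.dbE_mul h1.differentiableAt (h4.1.differentiableAt (by simp)) w]
  refine ⟨?_, ?_, fun w => ?_, fun hua ha hab w => ?_⟩
  · exact ((((h1.contDiffAt (n := (⊤ : ℕ∞))).restrict_scalars ℝ)).mul h4.1).congr_of_eventuallyEq h3
  · have h5 : Ψ q = K q * (ct a b (u q) : ℂ) := h3.eq_of_nhds
    rw [h5, norm_mul, Complex.norm_real, Real.norm_of_nonneg (ct_nonneg _)]
    have h6 : ‖K q‖ * ct a b (u q) ≤ ‖K q‖ := mul_le_of_le_one_right (norm_nonneg _) (ct_le_one _)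
    nlinarith
  · rw [hdb, norm_mul]
    have h6 := h4.2 w
    have h7 : ‖K q‖ * ‖dbE (fun q => (ct a b (u q) : ℂ)) q w‖ ≤ (C * N q) * (M * ‖w‖) :=
      mul_le_mul h2 h6 (norm_nonneg _) hN
    have h8 : 0 ≤ C * N q * ‖w‖ := mul_nonneg hN (norm_nonneg _)
    nlinarith
  · have h6 : (fun q => (ct a b (u q) : ℂ)) =ᶠ[𝓝 q] fun _ => (1 : ℂ) := by
      have h7 : ∀ᶠ q' in 𝓝 q, ‖u q'‖ < a :=
        h10.continuousAt.norm.eventually_lt continuousAt_const hua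
      filter_upwards [h7] with q' hq'
      rw [ct_one ha hab hq'.le, Complex.ofReal_one]
    rw [hdb, dbE_congr h6, dbE_hol (differentiableAt_const _) w, mul_zero]

variable {f : (Fin 3 → ℂ) → ℂ} {T : TB f} {U : Tub T} {S : Sh T}

lemma isE_of_v2 {c : Ch T.m} {v : Vtx} (h : v2 T c = some v) : IsE c := by
  cases c with
  | edge i k k' => trivial
  | leg i => simp [v2] at h
  | vert i k w₀ => simp [v2] at h

lemma gen_E {c : Ch T.m} (h : IsE c) {p : ℂ × ℂ} (hg : T.Gen c p) : p.1 ≠ 0 ∧ p.2 ≠ 0 := by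
  cases c with
  | edge i k k' => exact hg
  | leg i => exact absurd h (by simp [IsE])
  | vert i k w₀ => exact absurd h (by simp [IsE])

lemma gen_open (c : Ch T.m) : IsOpen {p | T.Gen c p} := CDataB_250.isOpen_Gen c

/-- the generic points of the open bidisc -/
def Gn (S : Sh T) (c : Ch T.m) : Set (ℂ × ℂ) := {p | ‖p.1‖ < S.r c ∧ ‖p.2‖ < S.r c ∧ T.Gen c p}

lemma Gn_open (c : Ch T.m) : IsOpen (Gn S c) :=
  (isOpen_lt continuous_fst.norm continuous_const).inter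
    ((isOpen_lt continuous_snd.norm continuous_const).inter (gen_open c))

/-- germs at the generic points -/
lemma ev_germ {c : Ch T.m} {p₀ : ℂ × ℂ} {u w : ℂ × ℂ → ℂ}
    (h : ∀ᶠ p in 𝓝 p₀, p ∈ Gn S c → u p = w p) :
    ∀ᶠ p in 𝓝 p₀ ⊓ 𝓟 (Gn S c), u =ᶠ[𝓝 p] w := by
  have h1 : ∀ᶠ p in 𝓝[Gn S c] p₀, u p = w p := by
    rw [eventually_nhdsWithin_iff]
    exact h
  have h2 := eventually_eventually_nhdsWithin.2 h1
  filter_upwards [h2, mem_inf_of_right (mem_principal_self _)] with q h4 h5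
  have h6 : 𝓝[Gn S c] q = 𝓝 q := (Gn_open c).nhdsWithin_eq h5
  rw [h6] at h4
  exact h4

lemma rpow_near {z : ℂ × ℂ → ℂ} {p₀ : ℂ × ℂ} (hz : ContinuousAt z p₀) (h0 : z p₀ ≠ 0) (x : ℝ) :
    ∃ m : ℝ, 0 ≤ m ∧ ∀ᶠ p in 𝓝 p₀, ‖z p‖ ^ x ≤ m := by
  have h1 : ContinuousAt (fun p => ‖z p‖ ^ x) p₀ :=
    hz.norm.rpow_const (Or.inl (norm_ne_zero_iff.2 h0))
  refine ⟨‖z p₀‖ ^ x + 1, by positivity, ?_⟩
  exact (h1.eventually_lt continuousAt_const (by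
    show ‖z p₀‖ ^ x < ‖z p₀‖ ^ x + 1
    linarith)).mono fun p hp => le_of_lt hp

variable {L : Lab U S} {n1 n2 : Ch T.m → Fin T.d → ℤ} {E₀ : II U} {y : II U → ℝ} {a : ℕ}
  {fX : XV U E₀.1.1 → ℂ} {H : (Fin 3 → ℂ) → ℂ} {h1 h2 e : Ch T.m → Fin T.d → ℝ}
  {F : Finset (Ch T.m)}

lemma e1_v1 {c : Ch T.m} (hc : Ok S c) {j : Fin T.d} {E : II U} (h : L.e1 c j = some E) :
    v1 T c = some E.1.1 := by
  have := L.v_e1 c hc j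
  rw [h] at this
  exact this.symm

lemma e2_v2 {c : Ch T.m} (hc : Ok S c) {j : Fin T.d} {E : II U} (h : L.e2 c j = some E) :
    v2 T c = some E.1.1 := by
  have := L.v_e2 c hc j
  rw [h] at this
  exact this.symm

/-- **form F3 near `(0, b)`**, `e2 = E₀` -/
theorem body1 (P : NPar L E₀ F) (hR : RetStmt U) (hd : NDat L n1 n2 E₀ y a fX H h1 h2 e)
    {c : Ch T.m} (hc : c ∈ F) {j : Fin T.d} (he : L.e2 c j = some E₀) {b : ℂ} (h0 : b ≠ 0)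
    (hG : ∀ᶠ p in 𝓝 ((0 : ℂ), b), p ∈ Gn S c →
      P.G fX (wc S c j p) = P.χ p.2 * fX (P.γ2 c j p.1)) :
    ∃ C : ℝ, 0 ≤ C ∧ ∀ᶠ p in 𝓝 ((0 : ℂ), b), p ∈ Gn S c →
      ContDiffAt ℝ (⊤ : ℕ∞) (P.D fX H ∘ wc S c j) p ∧
      ‖P.D fX H (wc S c j p)‖ ≤ C * (‖p.1‖ ^ (h1 c j + e c j) * ‖p.2‖ ^ (0 : ℝ)) ∧
      (∀ w, ‖dbE (P.D fX H ∘ wc S c j) p w‖ ≤
        C * (‖p.1‖ ^ (h1 c j + e c j) * ‖p.2‖ ^ (0 : ℝ)) * ‖w‖) ∧
      (‖p.2‖ < P.t → ∀ w, dbE (P.D fX H ∘ wc S c j) p w = 0) := by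
  have hOk := P.hF c hc
  have hv := e2_v2 hOk he
  have hr := S.pos c
  have hE := isE_of_v2 hv
  obtain ⟨hγ, hlab⟩ := P.end2 c hOk hv
  obtain ⟨C, hC, hHb⟩ := hd.Hbd c hOk j (Or.inr he)
  obtain ⟨C', r', hC', hr', hfb⟩ := hd.f2 c hOk hv _ hγ j he
  obtain ⟨m, hm, hmb⟩ := rpow_near (z := Prod.snd) (p₀ := ((0 : ℂ), b)) continuousAt_snd h0 (h2 c j)
  have hsm : ∀ᶠ p : ℂ × ℂ in 𝓝 ((0 : ℂ), b), ‖p.1‖ < r' :=
    continuous_fst.norm.continuousAt.eventually_lt continuousAt_const (by simpa using hr')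
  have hmem : ∀ᶠ p in 𝓝 ((0 : ℂ), b) ⊓ 𝓟 (Gn S c), p ∈ Gn S c :=
    mem_inf_of_right (mem_principal_self _)
  have hK1 : ∀ᶠ p in 𝓝 ((0 : ℂ), b) ⊓ 𝓟 (Gn S c), AnalyticAt ℂ (fun p => H (wc S c j p) * fX (P.γ2 c j p.1)) p := by
    filter_upwards [hmem] with p hg
    refine AnalyticAt.mul (hd.Han c hOk j p (by linarith [hg.1]) (by linarith [hg.2.1]) hg.2.2) ?_
    refine AnalyticAt.comp (g := fun z => fX (P.γ2 c j z)) (f := Prod.fst) ?_ analyticAt_fst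
    exact Nd_980.an2 P hR hd.hol hOk hv j
      ⟨norm_pos_iff.2 (gen_E hE hg.2.2).1, by linarith [hg.1]⟩
  have hK2 : ∀ᶠ p in 𝓝 ((0 : ℂ), b) ⊓ 𝓟 (Gn S c), ‖H (wc S c j p) * fX (P.γ2 c j p.1)‖ ≤ C * C' * m * (‖p.1‖ ^ (h1 c j + e c j) * ‖p.2‖ ^ (0 : ℝ)) := by
    filter_upwards [hmem, hsm.filter_mono inf_le_left, hmb.filter_mono inf_le_left]
      with p hg hp1 hp2
    have hp0 : 0 < ‖p.1‖ := norm_pos_iff.2 (gen_E hE hg.2.2).1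
    have b1 := hHb p hg.1.le hg.2.1.le hg.2.2
    have b2 := hfb p.1 hp0 hp1
    rw [norm_mul, Real.rpow_zero, mul_one, Real.rpow_add hp0]
    calc ‖H (wc S c j p)‖ * ‖fX (P.γ2 c j p.1)‖
        ≤ (C * (‖p.1‖ ^ h1 c j * ‖p.2‖ ^ h2 c j)) * (C' * ‖p.1‖ ^ e c j) :=
          mul_le_mul b1 b2 (norm_nonneg _) (by positivity)
      _ ≤ (C * (‖p.1‖ ^ h1 c j * m)) * (C' * ‖p.1‖ ^ e c j) := by gcongr
      _ = _ := by ring
  have hK3 : ∀ᶠ p in 𝓝 ((0 : ℂ), b) ⊓ 𝓟 (Gn S c), (P.D fX H ∘ wc S c j) =ᶠ[𝓝 p]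
      fun p => H (wc S c j p) * fX (P.γ2 c j p.1) * (ct P.t (2 * P.t) (p.2) : ℂ) := by
    refine ev_germ ?_
    filter_upwards [hG] with p hp hg
    show H (wc S c j p) * P.G fX (wc S c j p) = _
    rw [hp hg]
    simp only [NPar.χ]
    ring
  obtain ⟨C₁, hC₁, hfin⟩ := core (l := 𝓝 ((0 : ℂ), b) ⊓ 𝓟 (Gn S c)) (q₁ := ((0 : ℂ), b))
    inf_le_left (u := Prod.snd) analyticAt_snd P.t (2 * P.t)
    (K := fun p => H (wc S c j p) * fX (P.γ2 c j p.1)) (Ψ := P.D fX H ∘ wc S c j)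
    (N := fun p => ‖p.1‖ ^ (h1 c j + e c j) * ‖p.2‖ ^ (0 : ℝ)) (C := C * C' * m) hK1 (by positivity)
    hK2 hK3
  refine ⟨C₁, hC₁, ?_⟩
  rw [eventually_inf_principal] at hfin
  filter_upwards [hfin] with p hp hg
  obtain ⟨a1, a2, a3, a4⟩ := hp hg
  exact ⟨a1, a2, a3, fun h => a4 h P.t_pos (by linarith [P.t_pos])⟩

/-- **form F6 near `(a', 0)`**, `e1 = E₀` -/
theorem body2 (P : NPar L E₀ F) (hR : RetStmt U) (hd : NDat L n1 n2 E₀ y a fX H h1 h2 e)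
    {c : Ch T.m} (hc : c ∈ F) {j : Fin T.d} (he : L.e1 c j = some E₀) (hE : IsE c) {a' : ℂ}
    (h0 : a' ≠ 0)
    (hG : ∀ᶠ p in 𝓝 (a', (0 : ℂ)), p ∈ Gn S c →
      P.G fX (wc S c j p) = P.χ p.1 * fX (P.γ1 c j p.2)) :
    ∃ C : ℝ, 0 ≤ C ∧ ∀ᶠ p in 𝓝 (a', (0 : ℂ)), p ∈ Gn S c →
      ContDiffAt ℝ (⊤ : ℕ∞) (P.D fX H ∘ wc S c j) p ∧
      ‖P.D fX H (wc S c j p)‖ ≤ C * (‖p.1‖ ^ (0 : ℝ) * ‖p.2‖ ^ (h2 c j + e c j)) ∧
      (∀ w, ‖dbE (P.D fX H ∘ wc S c j) p w‖ ≤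
        C * (‖p.1‖ ^ (0 : ℝ) * ‖p.2‖ ^ (h2 c j + e c j)) * ‖w‖) ∧
      (‖p.1‖ < P.t → ∀ w, dbE (P.D fX H ∘ wc S c j) p w = 0) := by
  have hOk := P.hF c hc
  have hv := e1_v1 hOk he
  have hr := S.pos c
  have hnV : ¬ IsV c := by
    intro h
    cases c with
    | edge i k k' => exact h
    | leg i => exact h
    | vert i k w₀ => exact hE
  obtain ⟨hγ, hlab⟩ := P.end1 c hOk hv
  obtain ⟨C, hC, hHb⟩ := hd.Hbd c hOk j (Or.inl he)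
  obtain ⟨C', r', hC', hr', hfb⟩ := hd.f1 c hOk hnV hv _ hγ j he
  obtain ⟨m, hm, hmb⟩ := rpow_near (z := Prod.fst) (p₀ := (a', (0 : ℂ))) continuousAt_fst h0 (h1 c j)
  have hsm : ∀ᶠ p : ℂ × ℂ in 𝓝 (a', (0 : ℂ)), ‖p.2‖ < r' :=
    continuous_snd.norm.continuousAt.eventually_lt continuousAt_const (by simpa using hr')
  have hmem : ∀ᶠ p in 𝓝 (a', (0 : ℂ)) ⊓ 𝓟 (Gn S c), p ∈ Gn S c :=
    mem_inf_of_right (mem_principal_self _)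
  have hK1 : ∀ᶠ p in 𝓝 (a', (0 : ℂ)) ⊓ 𝓟 (Gn S c), AnalyticAt ℂ (fun p => H (wc S c j p) * fX (P.γ1 c j p.2)) p := by
    filter_upwards [hmem] with p hg
    refine AnalyticAt.mul (hd.Han c hOk j p (by linarith [hg.1]) (by linarith [hg.2.1]) hg.2.2) ?_
    refine AnalyticAt.comp (g := fun z => fX (P.γ1 c j z)) (f := Prod.snd) ?_ analyticAt_snd
    exact Nd_980.an1 P hR hd.hol hOk hv j
      ⟨Or.inr (norm_pos_iff.2 (gen_E hE hg.2.2).2), by linarith [hg.2.1]⟩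
  have hK2 : ∀ᶠ p in 𝓝 (a', (0 : ℂ)) ⊓ 𝓟 (Gn S c), ‖H (wc S c j p) * fX (P.γ1 c j p.2)‖ ≤ C * C' * m * (‖p.1‖ ^ (0 : ℝ) * ‖p.2‖ ^ (h2 c j + e c j)) := by
    filter_upwards [hmem, hsm.filter_mono inf_le_left, hmb.filter_mono inf_le_left]
      with p hg hp1 hp2
    have hp0 : 0 < ‖p.2‖ := norm_pos_iff.2 (gen_E hE hg.2.2).2
    have b1 := hHb p hg.1.le hg.2.1.le hg.2.2
    have b2 := hfb p.2 hp0 hp1
    rw [norm_mul, Real.rpow_zero, one_mul, Real.rpow_add hp0]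
    calc ‖H (wc S c j p)‖ * ‖fX (P.γ1 c j p.2)‖
        ≤ (C * (‖p.1‖ ^ h1 c j * ‖p.2‖ ^ h2 c j)) * (C' * ‖p.2‖ ^ e c j) :=
          mul_le_mul b1 b2 (norm_nonneg _) (by positivity)
      _ ≤ (C * (m * ‖p.2‖ ^ h2 c j)) * (C' * ‖p.2‖ ^ e c j) := by gcongr
      _ = _ := by ring
  have hK3 : ∀ᶠ p in 𝓝 (a', (0 : ℂ)) ⊓ 𝓟 (Gn S c), (P.D fX H ∘ wc S c j) =ᶠ[𝓝 p]
      fun p => H (wc S c j p) * fX (P.γ1 c j p.2) * (ct P.t (2 * P.t) (p.1) : ℂ) := by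
    refine ev_germ ?_
    filter_upwards [hG] with p hp hg
    show H (wc S c j p) * P.G fX (wc S c j p) = _
    rw [hp hg]
    simp only [NPar.χ]
    ring
  obtain ⟨C₁, hC₁, hfin⟩ := core (l := 𝓝 (a', (0 : ℂ)) ⊓ 𝓟 (Gn S c)) (q₁ := (a', (0 : ℂ)))
    inf_le_left (u := Prod.fst) analyticAt_fst P.t (2 * P.t)
    (K := fun p => H (wc S c j p) * fX (P.γ1 c j p.2)) (Ψ := P.D fX H ∘ wc S c j)
    (N := fun p => ‖p.1‖ ^ (0 : ℝ) * ‖p.2‖ ^ (h2 c j + e c j)) (C := C * C' * m) hK1 (by positivity)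
    hK2 hK3
  refine ⟨C₁, hC₁, ?_⟩
  rw [eventually_inf_principal] at hfin
  filter_upwards [hfin] with p hp hg
  obtain ⟨a1, a2, a3, a4⟩ := hp hg
  exact ⟨a1, a2, a3, fun h => a4 h P.t_pos (by linarith [P.t_pos])⟩

/-- **LocN at `(0, b)`**, `e2 = E₀` -/
theorem loc_far1 (P : NPar L E₀ F) (hR : RetStmt U) (hd : NDat L n1 n2 E₀ y a fX H h1 h2 e)
    {c : Ch T.m} (hc : c ∈ F) {j : Fin T.d} (he : L.e2 c j = some E₀) (he1 : L.e1 c j ≠ none)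
    {b : ℂ} (h0 : b ≠ 0)
    (hG : ∀ᶠ p in 𝓝 ((0 : ℂ), b), T.Gen c p →
      P.G fX (wc S c j p) = P.χ p.2 * fX (P.γ2 c j p.1)) :
    NuA_121.LocN L n1 n2 y a (P.D fX H) c j ((0 : ℂ), b) := by
  obtain ⟨C, hC, h⟩ := body1 P hR hd hc he h0 (hG.mono fun p hp hg => hp hg.2.2)
  obtain ⟨E, hE⟩ := Option.ne_none_iff_exists'.1 he1
  have hf := hd.far1 c (P.hF c hc) j he E hE
  refine ⟨P.t, C, h1 c j + e c j, 0, h1 c j + e c j, 0, P.t_pos, hC, fun _ => ⟨hf.2, ?_⟩,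
    fun h2 => absurd h2 h0, ?_⟩
  · rw [hE]
    exact hf.1
  · filter_upwards [h] with p hp a1 a2 a3
    obtain ⟨b1, b2, b3, b4⟩ := hp ⟨a1, a2, a3⟩
    refine ⟨b1, b2, b3, ?_⟩
    by_cases ht : P.t ≤ ‖p.2‖
    · exact Or.inl (Or.inl ⟨he1, Or.inr ht⟩)
    · exact Or.inr (b4 (not_le.1 ht))

/-- **LocN at `(a', 0)`**, `e1 = E₀` -/
theorem loc_far2 (P : NPar L E₀ F) (hR : RetStmt U) (hd : NDat L n1 n2 E₀ y a fX H h1 h2 e)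
    {c : Ch T.m} (hc : c ∈ F) {j : Fin T.d} (he : L.e1 c j = some E₀) (he2 : L.e2 c j ≠ none)
    {a' : ℂ} (h0 : a' ≠ 0)
    (hG : ∀ᶠ p in 𝓝 (a', (0 : ℂ)), T.Gen c p →
      P.G fX (wc S c j p) = P.χ p.1 * fX (P.γ1 c j p.2)) :
    NuA_121.LocN L n1 n2 y a (P.D fX H) c j (a', (0 : ℂ)) := by
  obtain ⟨E, hE⟩ := Option.ne_none_iff_exists'.1 he2
  have hIsE : IsE c := isE_of_v2 (e2_v2 (P.hF c hc) hE)
  obtain ⟨C, hC, h⟩ := body2 P hR hd hc he hIsE h0 (hG.mono fun p hp hg => hp hg.2.2)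
  have hf := hd.far2 c (P.hF c hc) j he E hE
  refine ⟨P.t, C, 0, h2 c j + e c j, 0, h2 c j + e c j, P.t_pos, hC, fun h2 => absurd h2 h0,
    fun _ => ⟨?_, ?_⟩, ?_⟩
  · rw [NuA_121.ea, if_pos hIsE]
    exact hf.2
  · rw [hE]
    exact hf.1
  · filter_upwards [h] with p hp a1 a2 a3
    obtain ⟨b1, b2, b3, b4⟩ := hp ⟨a1, a2, a3⟩
    refine ⟨b1, b2, b3, ?_⟩
    by_cases ht : P.t ≤ ‖p.1‖
    · exact Or.inl (Or.inr ⟨he2, ht⟩)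
    · exact Or.inr (b4 (not_le.1 ht))

end Crest.Agent.R257.NuF_82
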