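import Mathlib
import Crest.Agent.R257.NuD_938
import Crest.Agent.R257.Nd1_980
import Crest.Agent.R257.FrmF_547

/-!
Row 257 (S0395), NULL DATA, (Q4) (helper938): the global function `G` in the charts `c ∈ F`.

* `G_in`, `G_out` : `G` in the own zone, and off the zones;
* `F0a`, `F0b`, `F0c`, `F1`, `F2`, `F3`, `F4`, `F5`, `F6`, `F7` : the local forms.
-/

set_option autoImplicit false
set_option linter.unusedSectionVars false
set_option linter.unusedVariables false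

open Polynomial Set Filter Topology Metric
open Crest.AlgGeometry.Germ Crest.Agent.R257.AJ387 Crest.Agent.R257.T387
open Crest.Agent.R257.Gr1_157 Crest.Agent.R257.HoB_843 Crest.Agent.R257.BP_258
open Crest.Agent.R257.Wt_258 Crest.Agent.R257.Rsn_843 Crest.Agent.R257.Exf_843
open Crest.Agent.R257.CDataA_250 Crest.Agent.R257.Lab_931

noncomputable section

namespace Crest.Agent.R257.Nu_938

variable {f : (Fin 3 → ℂ) → ℂ} {T : TB f} {S : Sh T} {U : Tub T}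

lemma Core_open {v : Vtx} (κ : ℝ) : IsOpen (Core U v κ) := by
  have hc : Continuous (pV U v) := continuous_fst.comp continuous_subtype_val
  have e : Core U v κ = {q | ‖pV U v q‖ < κ⁻¹} ∩ ⋂ c' ∈ sp T v, {q | κ < ‖pV U v q - c'‖} := by
    ext q
    simp [Core]
  rw [e]
  refine (isOpen_lt hc.norm continuous_const).inter ?_
  exact isOpen_biInter_finset fun c' _ => isOpen_lt continuous_const (hc.sub continuous_const).norm

variable {L : Lab U S} {E₀ : II U}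

lemma v1_of {c : Ch T.m} (hc : Ok S c) {j : Fin T.d} (h : L.e1 c j = some E₀) :
    v1 T c = some E₀.1.1 := by
  have := L.v_e1 c hc j
  rw [h] at this
  exact this.symm

lemma v2_of {c : Ch T.m} (hc : Ok S c) {j : Fin T.d} (h : L.e2 c j = some E₀) :
    v2 T c = some E₀.1.1 := by
  have := L.v_e2 c hc j
  rw [h] at this
  exact this.symm

/-- the two axes of a chart belong to different vertices -/
lemma not_both {c : Ch T.m} (hc : T.Valid c) {v : Vtx} (h1 : v1 T c = some v)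
    (h2 : v2 T c = some v) : False := by
  cases c with
  | edge i k k' =>
    have hkk : k < k' := hc.2.2.1
    simp only [v1] at h1
    split_ifs at h1 with h0
    have e1 := congrArg Prod.fst (Option.some.inj h1)
    have e2 := congrArg Prod.fst (Option.some.inj h2)
    simp only [vx] at e1 e2
    omega
  | leg i => simp [v2] at h2
  | vert i k w => simp [v2] at h2

lemma not_both_lab {c : Ch T.m} (hc : Ok S c) {j j' : Fin T.d} (h1 : L.e1 c j = some E₀)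
    (h2 : L.e2 c j' = some E₀) : False := not_both hc.1 (v1_of hc h1) (v2_of hc h2)

/-- the relation between two representations in one chart -/
theorem same (hR : RetStmt U) {c : Ch T.m} (hc : Ok S c) {j j' : Fin T.d} {p p' : ℂ × ℂ}
    (hp : p ∈ BD (2 * S.r c) (2 * S.r c)) (hg : T.Gen c p) (h : wc S c j p = wc S c j' p') :
    ‖p'.1‖ = ‖p.1‖ ∧ ‖p'.2‖ = ‖p.2‖ ∧ L.e1 c j = L.e1 c j' ∧ L.e2 c j = L.e2 c j' := by
  obtain ⟨μ, ω, hμ, hω, hpp, hw⟩ := Nd_980.rot_eq hc hp hg h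
  have hl := FrmF_547.lab_eq L hR hc (j := j) (j' := j') (R := fun q => (μ * q.1, ω * q.2))
    (fun q => ⟨by simp [hμ], by simp [hω]⟩) hw
  exact ⟨by rw [hpp]; simp [hμ], by rw [hpp]; simp [hω], hl.1, hl.2⟩

lemma Zc_BD {c : Ch T.m} {p₀ : ℂ × ℂ} (h : p₀ ∈ Zc S c) :
    ∀ᶠ p in 𝓝 p₀, p ∈ BD (2 * S.r c) (2 * S.r c) := by
  have hr := S.pos c
  exact (isOpen_BD _ _).mem_nhds ⟨lt_of_le_of_lt h.1 (by linarith), lt_of_le_of_lt h.2.1 (by linarith)⟩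

variable {F : Finset (Ch T.m)} (P : NPar L E₀ F) (fX : XV U E₀.1.1 → ℂ)

namespace NPar

lemma χ_congr {z z' : ℂ} (h : ‖z‖ = ‖z'‖) : P.χ z = P.χ z' := by
  unfold NPar.χ
  rw [ct_congr h]

lemma χ_one {z : ℂ} (h : ‖z‖ ≤ P.t) : P.χ z = 1 := by
  unfold NPar.χ
  rw [ct_one P.t_pos (by linarith [P.t_pos]) h, Complex.ofReal_one]

lemma χ_zero {z : ℂ} (h : 2 * P.t ≤ ‖z‖) : P.χ z = 0 := by
  unfold NPar.χ
  rw [ct_zero P.t_pos (by linarith [P.t_pos]) h, Complex.ofReal_zero]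

/-- `form` does not depend on the representation -/
theorem form_wd (hR : RetStmt U) {c : Ch T.m} (hc : Ok S c) {j j' : Fin T.d} {p p' : ℂ × ℂ}
    (hp : p ∈ BD (2 * S.r c) (2 * S.r c)) (hg : T.Gen c p) (h : wc S c j p = wc S c j' p')
    (hl : L.e1 c j = some E₀ ∨ L.e2 c j = some E₀) : P.form fX c j' p' = P.form fX c j p := by
  obtain ⟨n1, n2, l1, l2⟩ := same (L := L) hR hc hp hg h
  unfold NPar.form
  rw [← l1]
  by_cases he : L.e1 c j = some E₀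
  · rw [if_pos he, if_pos he]
    unfold NPar.form1
    rw [Nd_980.gam1_eq hR hc (v1_of hc he) (P.end1 c hc (v1_of hc he)).1 hp hg h, P.χ_congr n1,
      P.χ_congr n2, h]
  · have he2 : L.e2 c j = some E₀ := hl.resolve_left he
    rw [if_neg he, if_neg he]
    unfold NPar.form2
    rw [Nd_980.gam2_eq hR hc (v2_of hc he2) (P.end2 c hc (v2_of hc he2)).1 hp hg h, P.χ_congr n2]

/-- **`G` in the own zone** -/
theorem G_in (hR : RetStmt U) {c : Ch T.m} (hc : c ∈ F) (j : Fin T.d) {p₀ : ℂ × ℂ}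
    (hp₀ : p₀ ∈ Zc S c) (hV : ¬ IsV c) (hl : L.e1 c j = some E₀ ∨ L.e2 c j = some E₀) :
    ∀ᶠ p in 𝓝 p₀, T.Gen c p → p ∈ BD (2 * P.t) (2 * P.t) →
      P.G fX (wc S c j p) = P.form fX c j p := by
  filter_upwards [P.sep c hc j p₀ hp₀, Zc_BD hp₀] with p hs hB hg hm
  have hok := P.hF c hc
  have h : ∃ z, P.Rep (wc S c j p) z := ⟨((c, j), p), ⟨hok, hV, hl, hm, hg, rfl⟩⟩
  unfold NPar.G
  rw [dif_pos h]
  have hz := h.choose_spec
  generalize h.choose = z at hz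
  obtain ⟨⟨c', j'⟩, p'⟩ := z
  have e1 : c' = c := hs hg c' j' p' hz.ok hz.nV hz.mem hz.gen hz.eq.symm
  subst e1
  exact P.form_wd fX hR hok hB hg hz.eq.symm hl

/-- **`G` off the zones** -/
theorem G_out (hR : RetStmt U) {c : Ch T.m} (hc : c ∈ F) (j : Fin T.d) {p₀ : ℂ × ℂ}
    (hp₀ : p₀ ∈ Zc S c) :
    ∀ᶠ p in 𝓝 p₀, T.Gen c p → (IsV c ∨ (L.e1 c j ≠ some E₀ ∧ L.e2 c j ≠ some E₀) ∨
      p ∉ BD (2 * P.t) (2 * P.t)) → P.G fX (wc S c j p) = fr U E₀.1.1 P.κ fX (wc S c j p) := by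
  filter_upwards [P.sep c hc j p₀ hp₀, Zc_BD hp₀] with p hs hB hg hm
  have hok := P.hF c hc
  unfold NPar.G
  rw [dif_neg]
  rintro ⟨⟨⟨c', j'⟩, p'⟩, hz⟩
  have e1 : c' = c := hs hg c' j' p' hz.ok hz.nV hz.mem hz.gen hz.eq.symm
  subst e1
  obtain ⟨n1, n2, l1, l2⟩ := same (L := L) hR hok hB hg hz.eq.symm
  rcases hm with h | ⟨h1, h2⟩ | h
  · exact hz.nV h
  · rcases hz.lab with h | h
    · exact h1 (l1.trans h)
    · exact h2 (l2.trans h)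
  · refine h ⟨?_, ?_⟩
    · show ‖p.1‖ < 2 * P.t
      rw [← n1]; exact hz.mem.1
    · show ‖p.2‖ < 2 * P.t
      rw [← n2]; exact hz.mem.2

end NPar

/-! ### literal hypotheses of 547 (no_core), 39 (fr_ne1, fr_ne2) -/

/-- `fr = 0` near the corners -/
def NoCore (S : Sh T) (E₀ : II U) (κ : ℝ) (fX : XV U E₀.1.1 → ℂ) : Prop :=
  ∀ c, Ok S c → ¬ IsV c → ∀ j, ∀ᶠ p in 𝓝 ((0 : ℂ), (0 : ℂ)), T.Gen c p →
    fr U E₀.1.1 κ fX (wc S c j p) = 0

/-- `fr = 0` near the first axis, if it is not in `E₀` -/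
def FrNe1 (L : Lab U S) (E₀ : II U) (κ : ℝ) (fX : XV U E₀.1.1 → ℂ) : Prop :=
  ∀ c, Ok S c → v1 T c ≠ none → ∀ j, L.e1 c j ≠ some E₀ → ∀ b : ℂ, ‖b‖ ≤ S.r c →
    (IsV c ∨ b ≠ 0) → ∀ᶠ p in 𝓝 ((0 : ℂ), b), T.Gen c p → fr U E₀.1.1 κ fX (wc S c j p) = 0

/-- `fr = 0` near the second axis, if it is not in `E₀` -/
def FrNe2 (L : Lab U S) (E₀ : II U) (κ : ℝ) (fX : XV U E₀.1.1 → ℂ) : Prop :=
  ∀ c, Ok S c → v2 T c ≠ none → ∀ j, L.e2 c j ≠ some E₀ → ∀ a : ℂ, ‖a‖ ≤ S.r c → a ≠ 0 →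
    ∀ᶠ p in 𝓝 (a, (0 : ℂ)), T.Gen c p → fr U E₀.1.1 κ fX (wc S c j p) = 0

/-! ### `fr` on the axes in `E₀` -/

section frv

variable {P fX}

variable (P fX) in
/-- `fr` in the vertex charts of `v₀` -/
theorem fr_V (hR : RetStmt U) {c : Ch T.m} (hc : c ∈ F) (hV : IsV c) (hv : v1 T c = some E₀.1.1)
    (j : Fin T.d) {b : ℂ} (hb : ‖b‖ ≤ S.r c) :
    ∀ᶠ p in 𝓝 ((0 : ℂ), b), T.Gen c p →
      fr U E₀.1.1 P.κ fX (wc S c j p) = fX (P.γ1 c j p.2) := by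
  have hok := P.hF c hc
  have hb' : b ∈ PDv S c := ⟨Or.inl hV, lt_two_r S hb⟩
  have hγ := (P.end1 c hok hv).1
  have hcont : ContinuousAt (P.γ1 c j) b := (hγ.cont j).continuousAt ((Nd_980.PDv_open c).mem_nhds hb')
  have h2 : Tendsto (fun p : ℂ × ℂ => p.2) (𝓝 ((0 : ℂ), b)) (𝓝 b) := continuous_snd.tendsto _
  have h3 : ∀ᶠ β in 𝓝 b, P.γ1 c j β ∈ Core U E₀.1.1 P.κ :=
    hcont.tendsto.eventually ((Core_open P.κ).mem_nhds (P.core1 c hc hv j b hb (Or.inl hV)))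
  filter_upwards [Nd_980.ret_vert hR hok hV hv hγ hb' j, h2.eventually h3] with p e1 e2 hg
  exact fr_eq hR fX (e1 (gen_fst hg)) e2

variable (P fX) in
/-- `fr` near the second axis of the parent edge of `v₀`, off the zone -/
theorem fr_A2 (hR : RetStmt U) {c : Ch T.m} (hc : c ∈ F) (hv : v2 T c = some E₀.1.1)
    (j : Fin T.d) {a : ℂ} (ha : ‖a‖ ≤ S.r c) (ht : P.t ≤ ‖a‖) :
    ∀ᶠ p in 𝓝 (a, (0 : ℂ)), T.Gen c p →
      fr U E₀.1.1 P.κ fX (wc S c j p) = fX (P.γ2 c j p.1) := by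
  have hok := P.hF c hc
  have ha' : a ∈ PDc S c := ⟨P.t_pos.trans_le ht, lt_two_r S ha⟩
  have hγ := (P.end2 c hok hv).1
  have hcont : ContinuousAt (P.γ2 c j) a := (hγ.cont j).continuousAt ((Nd_980.PDc_open c).mem_nhds ha')
  have h2 : Tendsto (fun p : ℂ × ℂ => p.1) (𝓝 (a, (0 : ℂ))) (𝓝 a) := continuous_fst.tendsto _
  have h3 : ∀ᶠ α in 𝓝 a, P.γ2 c j α ∈ Core U E₀.1.1 P.κ :=
    hcont.tendsto.eventually ((Core_open P.κ).mem_nhds (P.core2 c hc hv j a ha ht))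
  filter_upwards [Nd_980.ret_ax2 hR hok hv hγ ha' j, h2.eventually h3] with p e1 e2 hg
  exact fr_eq hR fX (e1 (gen_snd_E (isV_v2 hv) hg)) e2

variable (P fX) in
/-- `fr` near the first axis, off the zone: the interpolation error -/
theorem fr_A1 (hR : RetStmt U) {c : Ch T.m} (hc : c ∈ F) (hv : v1 T c = some E₀.1.1)
    (hf : HolX (pV U E₀.1.1) fX) (j : Fin T.d) {b : ℂ} (hb : ‖b‖ ≤ S.r c) (ht : P.t ≤ ‖b‖) :
    ∃ (Gh : ℂ × ℂ → ℂ) (C : ℝ), 0 < C ∧ AnalyticAt ℂ Gh ((0 : ℂ), b) ∧ ∀ᶠ p in 𝓝 ((0 : ℂ), b),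
      (T.Gen c p → fr U E₀.1.1 P.κ fX (wc S c j p) = Gh p) ∧
      ‖Gh p - fX (P.γ1 c j p.2)‖ ≤ C * ‖p.1‖ := by
  have hok := P.hF c hc
  have hb' : b ∈ PDv S c := ⟨Or.inr (P.t_pos.trans_le ht), lt_two_r S hb⟩
  have hγ := (P.end1 c hok hv).1
  obtain ⟨Gh, C, hC, hG, h⟩ := Nd_980.diff1 hR hok hv hγ hf j hb'
  refine ⟨Gh, C, hC, hG, ?_⟩
  have hcore : P.γ1 c j b ∈ Core U E₀.1.1 P.κ := P.core1 c hc hv j b hb (Or.inr ht)
  have h3 := (hγ.lim j b hb').2 _ ((Core_open P.κ).mem_nhds hcore)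
  filter_upwards [h, h3] with p e1 e2
  refine ⟨fun hg => ?_, e1.2⟩
  obtain ⟨hI, hq⟩ := e1.1 hg
  obtain ⟨q, hq', -⟩ := (hR E₀.1.1 hI.mem).1 _ hI
  rw [fr_eq hR fX hq' (e2 (gen_fst hg) q hq'), hq q hq']

end frv

/-! ### the local forms -/

lemma near_lt {g : ℂ × ℂ → ℂ} (hg : Continuous g) {p₀ : ℂ × ℂ} {r : ℝ} (h : ‖g p₀‖ < r) :
    ∀ᶠ p in 𝓝 p₀, ‖g p‖ < r := (hg.norm.tendsto p₀).eventually_lt_const h

variable {P fX}

section forms

variable (hR : RetStmt U) {c : Ch T.m} (hc : c ∈ F) (j : Fin T.d)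

include hR hc in
variable (P fX) in
/-- corner, `e1 = E₀` -/
theorem F0a (hV : ¬ IsV c) (h0 : ((0 : ℂ), (0 : ℂ)) ∈ Zc S c) (he : L.e1 c j = some E₀) :
    ∀ᶠ p in 𝓝 ((0 : ℂ), (0 : ℂ)), T.Gen c p → P.G fX (wc S c j p) = fX (P.γ1 c j p.2) := by
  have ht := P.t_pos
  filter_upwards [P.G_in fX hR hc j h0 hV (Or.inl he),
    near_lt continuous_fst (p₀ := ((0 : ℂ), (0 : ℂ))) (r := P.t) (by simpa using ht),
    near_lt continuous_snd (p₀ := ((0 : ℂ), (0 : ℂ))) (r := P.t) (by simpa using ht)]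
    with p e1 e2 e3 hg
  rw [e1 hg ⟨by show ‖p.1‖ < _; linarith, by show ‖p.2‖ < _; linarith⟩]
  unfold NPar.form
  rw [if_pos he]
  unfold NPar.form1
  rw [P.χ_one e2.le, P.χ_one e3.le]
  ring

include hR hc in
variable (P fX) in
/-- corner, `e2 = E₀` -/
theorem F0b (hV : ¬ IsV c) (h0 : ((0 : ℂ), (0 : ℂ)) ∈ Zc S c) (he : L.e2 c j = some E₀) :
    ∀ᶠ p in 𝓝 ((0 : ℂ), (0 : ℂ)), T.Gen c p → P.G fX (wc S c j p) = fX (P.γ2 c j p.1) := by
  have ht := P.t_pos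
  have he1 : L.e1 c j ≠ some E₀ := fun h => not_both_lab (P.hF c hc) h he
  filter_upwards [P.G_in fX hR hc j h0 hV (Or.inr he),
    near_lt continuous_fst (p₀ := ((0 : ℂ), (0 : ℂ))) (r := P.t) (by simpa using ht),
    near_lt continuous_snd (p₀ := ((0 : ℂ), (0 : ℂ))) (r := P.t) (by simpa using ht)]
    with p e1 e2 e3 hg
  rw [e1 hg ⟨by show ‖p.1‖ < _; linarith, by show ‖p.2‖ < _; linarith⟩]
  unfold NPar.form
  rw [if_neg he1]
  unfold NPar.form2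
  rw [P.χ_one e3.le, one_mul]

include hR hc in
variable (P fX) in
/-- corner, neither -/
theorem F0c (hV : ¬ IsV c) (h0 : ((0 : ℂ), (0 : ℂ)) ∈ Zc S c) (he1 : L.e1 c j ≠ some E₀)
    (he2 : L.e2 c j ≠ some E₀) (hN : NoCore S E₀ P.κ fX) :
    ∀ᶠ p in 𝓝 ((0 : ℂ), (0 : ℂ)), T.Gen c p → P.G fX (wc S c j p) = 0 := by
  filter_upwards [P.G_out fX hR hc j h0, hN c (P.hF c hc) hV j] with p e1 e2 hg
  rw [e1 hg (Or.inr (Or.inl ⟨he1, he2⟩)), e2 hg]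

include hR hc in
variable (P fX) in
/-- vertex charts, `e1 = E₀` -/
theorem F1 (hV : IsV c) (he : L.e1 c j = some E₀) {b : ℂ} (hb : ‖b‖ ≤ S.r c)
    (h0 : ((0 : ℂ), b) ∈ Zc S c) :
    ∀ᶠ p in 𝓝 ((0 : ℂ), b), T.Gen c p → P.G fX (wc S c j p) = fX (P.γ1 c j p.2) := by
  filter_upwards [P.G_out fX hR hc j h0, fr_V P fX hR hc hV (v1_of (P.hF c hc) he) j hb]
    with p e1 e2 hg
  rw [e1 hg (Or.inl hV), e2 hg]

include hR hc in
variable (P fX) in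
/-- first axis, `e1 = E₀`: the interpolation -/
theorem F2 (hV : ¬ IsV c) (he : L.e1 c j = some E₀) {b : ℂ} (h0 : ((0 : ℂ), b) ∈ Zc S c) :
    ∀ᶠ p in 𝓝 ((0 : ℂ), b), T.Gen c p → P.G fX (wc S c j p) =
      P.χ p.2 * fX (P.γ1 c j p.2) + (1 - P.χ p.2) * fr U E₀.1.1 P.κ fX (wc S c j p) := by
  have ht := P.t_pos
  filter_upwards [P.G_in fX hR hc j h0 hV (Or.inl he), P.G_out fX hR hc j h0,
    near_lt continuous_fst (p₀ := ((0 : ℂ), b)) (r := P.t) (by simpa using ht)] with p e1 e2 e3 hg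
  by_cases hm : ‖p.2‖ < 2 * P.t
  · rw [e1 hg ⟨by show ‖p.1‖ < _; linarith, hm⟩]
    unfold NPar.form
    rw [if_pos he]
    unfold NPar.form1
    rw [P.χ_one e3.le, one_mul]
  · rw [e2 hg (Or.inr (Or.inr fun h => hm h.2)), P.χ_zero (not_lt.1 hm)]
    ring

include hR hc in
variable (P fX) in
/-- first axis in the zone, `e1 = E₀` -/
theorem F2' (hV : ¬ IsV c) (he : L.e1 c j = some E₀) {b : ℂ} (h0 : ((0 : ℂ), b) ∈ Zc S c)
    (hb : ‖b‖ < P.t) :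
    ∀ᶠ p in 𝓝 ((0 : ℂ), b), T.Gen c p → P.G fX (wc S c j p) = fX (P.γ1 c j p.2) := by
  filter_upwards [F2 P fX hR hc j hV he h0, near_lt continuous_snd (p₀ := ((0 : ℂ), b)) hb]
    with p e1 e2 hg
  rw [e1 hg, P.χ_one e2.le]
  ring

include hR hc in
variable (P fX) in
/-- first axis, `e2 = E₀` -/
theorem F3 (he : L.e2 c j = some E₀) {b : ℂ} (hb : ‖b‖ ≤ S.r c) (hb0 : b ≠ 0)
    (h0 : ((0 : ℂ), b) ∈ Zc S c) (hv : v1 T c ≠ none) (hN : FrNe1 L E₀ P.κ fX) :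
    ∀ᶠ p in 𝓝 ((0 : ℂ), b), T.Gen c p →
      P.G fX (wc S c j p) = P.χ p.2 * fX (P.γ2 c j p.1) := by
  have ht := P.t_pos
  have hok := P.hF c hc
  have he1 : L.e1 c j ≠ some E₀ := fun h => not_both_lab hok h he
  have hE : IsE c := isV_v2 (v2_of hok he)
  have hV : ¬ IsV c := by
    intro h
    cases c with
    | edge i k k' => exact h
    | leg i => exact h
    | vert i k w => exact hE
  filter_upwards [P.G_in fX hR hc j h0 hV (Or.inr he), P.G_out fX hR hc j h0,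
    near_lt continuous_fst (p₀ := ((0 : ℂ), b)) (r := P.t) (by simpa using ht),
    hN c hok hv j he1 b hb (Or.inr hb0)] with p e1 e2 e3 e4 hg
  by_cases hm : ‖p.2‖ < 2 * P.t
  · rw [e1 hg ⟨by show ‖p.1‖ < _; linarith, hm⟩]
    unfold NPar.form
    rw [if_neg he1]
    rfl
  · rw [e2 hg (Or.inr (Or.inr fun h => hm h.2)), P.χ_zero (not_lt.1 hm), zero_mul, e4 hg]

include hR hc in
variable (P fX) in
/-- first axis, neither -/
theorem F4 (he1 : L.e1 c j ≠ some E₀) (he2 : L.e2 c j ≠ some E₀) {b : ℂ} (hb : ‖b‖ ≤ S.r c)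
    (hb0 : IsV c ∨ b ≠ 0) (h0 : ((0 : ℂ), b) ∈ Zc S c) (hv : v1 T c ≠ none)
    (hN : FrNe1 L E₀ P.κ fX) :
    ∀ᶠ p in 𝓝 ((0 : ℂ), b), T.Gen c p → P.G fX (wc S c j p) = 0 := by
  filter_upwards [P.G_out fX hR hc j h0, hN c (P.hF c hc) hv j he1 b hb hb0] with p e1 e2 hg
  rw [e1 hg (Or.inr (Or.inl ⟨he1, he2⟩)), e2 hg]

include hR hc in
variable (P fX) in
/-- second axis, `e2 = E₀` -/
theorem F5 (he : L.e2 c j = some E₀) {a : ℂ} (ha : ‖a‖ ≤ S.r c) (h0 : (a, (0 : ℂ)) ∈ Zc S c) :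
    ∀ᶠ p in 𝓝 (a, (0 : ℂ)), T.Gen c p → P.G fX (wc S c j p) = fX (P.γ2 c j p.1) := by
  have ht := P.t_pos
  have hok := P.hF c hc
  have he1 : L.e1 c j ≠ some E₀ := fun h => not_both_lab hok h he
  have hE : IsE c := isV_v2 (v2_of hok he)
  have hV : ¬ IsV c := by
    intro h
    cases c with
    | edge i k k' => exact h
    | leg i => exact h
    | vert i k w => exact hE
  have k2 := near_lt continuous_snd (p₀ := (a, (0 : ℂ))) (r := P.t) (by simpa using ht)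
  by_cases hm : ‖a‖ < 2 * P.t
  · filter_upwards [P.G_in fX hR hc j h0 hV (Or.inr he), k2,
      near_lt continuous_fst (p₀ := (a, (0 : ℂ))) (r := 2 * P.t) hm] with p e1 e2 e3 hg
    rw [e1 hg ⟨e3, by show ‖p.2‖ < _; linarith⟩]
    unfold NPar.form
    rw [if_neg he1]
    unfold NPar.form2
    rw [P.χ_one e2.le, one_mul]
  · have k5 := fr_A2 P fX hR hc (v2_of hok he) j ha (by linarith [not_lt.1 hm])
    filter_upwards [P.G_in fX hR hc j h0 hV (Or.inr he), P.G_out fX hR hc j h0, k2, k5]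
      with p e1 e2 e3 e5 hg
    by_cases hB : p ∈ BD (2 * P.t) (2 * P.t)
    · rw [e1 hg hB]
      unfold NPar.form
      rw [if_neg he1]
      unfold NPar.form2
      rw [P.χ_one e3.le, one_mul]
    · rw [e2 hg (Or.inr (Or.inr hB)), e5 hg]

include hR hc in
variable (P fX) in
/-- second axis, `e1 = E₀` -/
theorem F6 (he : L.e1 c j = some E₀) (hv : v2 T c ≠ none) {a : ℂ} (ha : ‖a‖ ≤ S.r c)
    (ha0 : a ≠ 0) (h0 : (a, (0 : ℂ)) ∈ Zc S c) (hN : FrNe2 L E₀ P.κ fX) :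
    ∀ᶠ p in 𝓝 (a, (0 : ℂ)), T.Gen c p →
      P.G fX (wc S c j p) = P.χ p.1 * fX (P.γ1 c j p.2) := by
  have ht := P.t_pos
  have hok := P.hF c hc
  have he2 : L.e2 c j ≠ some E₀ := fun h => not_both_lab hok he h
  obtain ⟨v, hv'⟩ := Option.ne_none_iff_exists'.1 hv
  have hE : IsE c := isV_v2 hv'
  have hV : ¬ IsV c := by
    intro h
    cases c with
    | edge i k k' => exact h
    | leg i => exact h
    | vert i k w => exact hE
  filter_upwards [P.G_in fX hR hc j h0 hV (Or.inl he), P.G_out fX hR hc j h0,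
    near_lt continuous_snd (p₀ := (a, (0 : ℂ))) (r := P.t) (by simpa using ht),
    hN c hok hv j he2 a ha ha0] with p e1 e2 e3 e4 hg
  by_cases hm : ‖p.1‖ < 2 * P.t
  · rw [e1 hg ⟨hm, by show ‖p.2‖ < _; linarith⟩]
    unfold NPar.form
    rw [if_pos he]
    unfold NPar.form1
    rw [P.χ_one e3.le]
    ring
  · rw [e2 hg (Or.inr (Or.inr fun h => hm h.1)), P.χ_zero (not_lt.1 hm), zero_mul, e4 hg]

include hR hc in
variable (P fX) in
/-- second axis, neither -/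
theorem F7 (he1 : L.e1 c j ≠ some E₀) (he2 : L.e2 c j ≠ some E₀) (hv : v2 T c ≠ none) {a : ℂ}
    (ha : ‖a‖ ≤ S.r c) (ha0 : a ≠ 0) (h0 : (a, (0 : ℂ)) ∈ Zc S c) (hN : FrNe2 L E₀ P.κ fX) :
    ∀ᶠ p in 𝓝 (a, (0 : ℂ)), T.Gen c p → P.G fX (wc S c j p) = 0 := by
  filter_upwards [P.G_out fX hR hc j h0, hN c (P.hF c hc) hv j he2 a ha ha0] with p e1 e2 hg
  rw [e1 hg (Or.inr (Or.inl ⟨he1, he2⟩)), e2 hg]

end forms

end Crest.Agent.R257.Nu_938
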