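import Mathlib
import Crest.Agent.R257.NuA_121
import Crest.Agent.R257.Nd2_980
import Crest.Agent.R257.Nin_472

/-!
Row 257, NULL DATA (helper472), piece (L2) of 938: `LocN` at `(0, b)`, `t ≤ ‖b‖`, edges and legs,
label `e1 = E₀`: interpolation between the retraction and the end.
-/

set_option autoImplicit false
set_option linter.unusedSectionVars false
set_option linter.unusedVariables false

open Polynomial Set Filter Topology Metric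
open Crest.AlgGeometry.Germ Crest.Agent.R257.AJ387 Crest.Agent.R257.T387
open Crest.Agent.R257.Gr1_157 Crest.Agent.R257.HoB_843 Crest.Agent.R257.BP_258
open Crest.Agent.R257.Wt_258 Crest.Agent.R257.Rsn_843 Crest.Agent.R257.Exf_843
open Crest.Agent.R257.CDataA_250 Crest.Agent.R257.CDataB_250 Crest.Agent.R257.Nu_938
open Crest.Agent.R257.Nin_472

noncomputable section

namespace Crest.Agent.R257.NuL2_472

variable {f : (Fin 3 → ℂ) → ℂ} {T : TB f} {S : Sh T} {U : Tub T}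

/-- the open set of the points which count -/
def Gn (S : Sh T) (c : Ch T.m) : Set (ℂ × ℂ) := {p | ‖p.1‖ < S.r c ∧ ‖p.2‖ < S.r c ∧ T.Gen c p}

lemma isOpen_Gn (c : Ch T.m) : IsOpen (Gn S c) :=
  (isOpen_lt continuous_fst.norm continuous_const).inter
    ((isOpen_lt continuous_snd.norm continuous_const).inter (isOpen_Gen c))

/-- analyticity of `H` at the points which count -/
lemma H_an {L : Lab U S} {n1 n2 : Ch T.m → Fin T.d → ℤ} {E₀ : II U} {y : II U → ℝ} {a : ℕ}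
    {fX : XV U E₀.1.1 → ℂ} {H : (Fin 3 → ℂ) → ℂ} {h1 h2 e : Ch T.m → Fin T.d → ℝ}
    (hd : NDat L n1 n2 E₀ y a fX H h1 h2 e) {c : Ch T.m} (hc : Ok S c) (j : Fin T.d)
    {p : ℂ × ℂ} (hp : p ∈ Gn S c) : AnalyticAt ℂ (H ∘ wc S c j) p := by
  have := S.pos c
  exact hd.Han c hc j p (by linarith [hp.1]) (by linarith [hp.2.1]) hp.2.2

/-- **the local estimate (L2)** -/
theorem L2core {L : Lab U S} {n1 n2 : Ch T.m → Fin T.d → ℤ} {E₀ : II U} {y : II U → ℝ} {a : ℕ}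
    {fX : XV U E₀.1.1 → ℂ} {H : (Fin 3 → ℂ) → ℂ} {h1 h2 e : Ch T.m → Fin T.d → ℝ}
    (hd : NDat L n1 n2 E₀ y a fX H h1 h2 e) {F : Finset (Ch T.m)} (P : NPar L E₀ F)
    {c : Ch T.m} (hc : Ok S c) {j : Fin T.d} (he : L.e1 c j = some E₀) {b : ℂ}
    (htb : P.t ≤ ‖b‖)
    (hfr : ∃ Gh : ℂ × ℂ → ℂ, AnalyticAt ℂ Gh ((0 : ℂ), b) ∧ ∃ C : ℝ,
      ∀ᶠ p in 𝓝 ((0 : ℂ), b), T.Gen c p → fr U E₀.1.1 P.κ fX (wc S c j p) = Gh p ∧
        ‖Gh p - fX (P.γ1 c j p.2)‖ ≤ C * ‖p.1‖)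
    (han : AnalyticAt ℂ (fun z => fX (P.γ1 c j z)) b)
    (hG : ∀ᶠ p in 𝓝 ((0 : ℂ), b), T.Gen c p → P.G fX (wc S c j p) =
      P.χ p.2 * fX (P.γ1 c j p.2) + (1 - P.χ p.2) * fr U E₀.1.1 P.κ fX (wc S c j p)) :
    ∃ C : ℝ, 0 ≤ C ∧ ∀ᶠ p in 𝓝 ((0 : ℂ), b), ‖p.1‖ < S.r c → ‖p.2‖ < S.r c → T.Gen c p →
      ContDiffAt ℝ (⊤ : ℕ∞) (P.D fX H ∘ wc S c j) p ∧
      ‖P.D fX H (wc S c j p)‖ ≤ C * (‖p.1‖ ^ h1 c j * ‖p.2‖ ^ (0 : ℝ)) ∧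
      (∀ w, ‖dbE (P.D fX H ∘ wc S c j) p w‖ ≤
        C * (‖p.1‖ ^ (h1 c j + 1) * ‖p.2‖ ^ (0 : ℝ)) * ‖w‖) ∧
      (P.t ≤ ‖p.2‖ ∨ ∀ w, dbE (P.D fX H ∘ wc S c j) p w = 0) := by
  obtain ⟨Gh, hGh, C₁, h1'⟩ := hfr
  have ht := P.t_pos
  have hb : b ≠ 0 := norm_pos_iff.1 (ht.trans_le htb)
  have hB : AnalyticAt ℂ (fun p : ℂ × ℂ => fX (P.γ1 c j p.2)) ((0 : ℂ), b) :=
    AnalyticAt.comp (g := fun z => fX (P.γ1 c j z)) (f := fun p : ℂ × ℂ => p.2) han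
      analyticAt_snd
  obtain ⟨C₂, hC₂, hbd⟩ := hd.Hbd c hc j (Or.inl he)
  obtain ⟨C, hC, h3⟩ := loc1 (χ := θ2 P.t (2 * P.t)) (A := Gh)
    (B := fun p => fX (P.γ1 c j p.2)) (Hw := H ∘ wc S c j) (Dw := P.D fX H ∘ wc S c j)
    (b := b) (Gn := Gn S c) (h := h1 c j) (h' := h2 c j) (Or.inl hb) (isOpen_Gn c)
    (fun p hp => CDataB_250.gen_fst hp.2.2) θ2_smooth hGh hB
    ⟨C₁, by
      filter_upwards [h1'] with p g1 hp
      rw [norm_sub_rev]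
      exact (g1 hp.2.2).2⟩
    (Eventually.of_forall fun p hp => H_an hd hc j hp)
    ⟨C₂, Eventually.of_forall fun p hp => hbd p hp.1.le hp.2.1.le hp.2.2⟩
    (by
      filter_upwards [h1', hG] with p g1 g2 hp
      show H (wc S c j p) * P.G fX (wc S c j p) = _
      rw [g2 hp.2.2, (g1 hp.2.2).1]
      rfl)
  refine ⟨C, hC, ?_⟩
  filter_upwards [h3] with p g3 k1 k2 k3
  obtain ⟨m1, m2, m3, m4⟩ := g3 ⟨k1, k2, k3⟩
  refine ⟨m1, m2, m3, ?_⟩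
  rcases le_or_gt P.t ‖p.2‖ with h | h
  · exact Or.inl h
  · exact Or.inr (m4 (θ2_fderiv_zero ht (by linarith) (Or.inl h)))

/-- **(L2)**: `LocN` at `(0, b)`, `t ≤ ‖b‖ ≤ r`, edges and legs with `e1 = E₀` -/
theorem L2 {L : Lab U S} {n1 n2 : Ch T.m → Fin T.d → ℤ} {E₀ : II U} {y : II U → ℝ} {a : ℕ}
    {fX : XV U E₀.1.1 → ℂ} {H : (Fin 3 → ℂ) → ℂ} {h1 h2 e : Ch T.m → Fin T.d → ℝ}
    (hd : NDat L n1 n2 E₀ y a fX H h1 h2 e) (hR : RetStmt U) {F : Finset (Ch T.m)}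
    (P : NPar L E₀ F) {c : Ch T.m} (hc : c ∈ F) (hV : ¬ IsV c) {j : Fin T.d}
    (he : L.e1 c j = some E₀) {b : ℂ} (hb : ‖b‖ ≤ S.r c) (htb : P.t ≤ ‖b‖)
    (hG : ∀ᶠ p in 𝓝 ((0 : ℂ), b), T.Gen c p → P.G fX (wc S c j p) =
      P.χ p.2 * fX (P.γ1 c j p.2) + (1 - P.χ p.2) * fr U E₀.1.1 P.κ fX (wc S c j p)) :
    NuA_121.LocN L n1 n2 y a (P.D fX H) c j ((0 : ℂ), b) := by
  have hok := P.hF c hc
  have ht := P.t_pos
  have hr := S.pos c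
  have hb0 : b ≠ 0 := norm_pos_iff.1 (ht.trans_le htb)
  have hv : v1 T c = some E₀.1.1 := by
    have h := L.v_e1 c hok j
    rw [he] at h
    exact h.symm
  obtain ⟨Gh, hGh, C₁, -, h3⟩ := Nd_980.fr_A1 P hR hd.hol hc hV hv j hb htb
  have hbP : b ∈ PDv S c := ⟨Or.inr (norm_pos_iff.2 hb0), by linarith⟩
  have han := Nd_980.an1 P hR hd.hol hok hv j hbP
  obtain ⟨C, hC, h4⟩ := L2core hd P hok he htb
    ⟨Gh, hGh, C₁, h3.mono fun p hp hg => ⟨hp.1 hg, hp.2⟩⟩ han hG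
  refine ⟨P.t, C, h1 c j, 0, h1 c j + 1, 0, ht, hC, fun _ => ⟨hd.nearD1 c hok j he, ?_⟩,
    fun h => absurd h hb0, ?_⟩
  · rw [he]
    exact hd.near1 c hok j he
  · filter_upwards [h4] with p g k1 k2 k3
    obtain ⟨m1, m2, m3, m4⟩ := g k1 k2 k3
    refine ⟨m1, m2, m3, m4.imp_left fun h => Or.inl ⟨by rw [he]; simp, Or.inr h⟩⟩

end Crest.Agent.R257.NuL2_472
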