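import Crest.Agent.R257.NuD_938
import Crest.Agent.R257.NuA_121
import Crest.Agent.R257.Nin_472
import Crest.Agent.R257.Nd1_980

/-!
Row 257 (S0395), NULL DATA (helper68): the pieces (L0), (L1) of the plan of helper938:
`LocN` at a point near which `G = 0`, resp. `G = fX (γ1 c j p.2)`, resp. `G = fX (γ2 c j p.1)`.
In all cases `D` is holomorphic near the point.
-/

set_option autoImplicit false
set_option linter.unusedSectionVars false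
set_option linter.unusedVariables false

open Polynomial Set Filter Topology Metric
open Crest.AlgGeometry.Germ Crest.Agent.R257.AJ387 Crest.Agent.R257.T387
open Crest.Agent.R257.Gr1_157 Crest.Agent.R257.HoB_843 Crest.Agent.R257.BP_258
open Crest.Agent.R257.Wt_258 Crest.Agent.R257.Rsn_843 Crest.Agent.R257.Exf_843
open Crest.Agent.R257.CDataA_250 Crest.Agent.R257.NuA_121

noncomputable section

namespace Crest.Agent.R257.NuL_68

variable {f : (Fin 3 → ℂ) → ℂ} {T : TB f} {S : Sh T} {U : Tub T} {L : Lab U S}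
  {nu : II U → ℤ} {n1 n2 : Ch T.m → Fin T.d → ℤ} {y : II U → ℝ} {a : ℕ}

variable (S) in
/-- the generic points of the open bidisc (a property) -/
def Gn (c : Ch T.m) (p : ℂ × ℂ) : Prop := ‖p.1‖ < S.r c ∧ ‖p.2‖ < S.r c ∧ T.Gen c p

lemma isOpen_Gn (c : Ch T.m) : IsOpen {p | Gn S c p} :=
  (isOpen_lt continuous_fst.norm continuous_const).inter
    ((isOpen_lt continuous_snd.norm continuous_const).inter (CDataB_250.isOpen_Gen c))

/-- **the holomorphic case** -/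
theorem loc_hol {D : (Fin 3 → ℂ) → ℂ} {c : Ch T.m} {j : Fin T.d} {p₀ : ℂ × ℂ} {x1 x2 : ℝ}
    (hx1 : p₀.1 = 0 → (n1 c j : ℝ) < x1 + a) (hx2 : p₀.2 = 0 → (n2 c j : ℝ) < x2 + ea a c)
    (hA : ∀ᶠ p in 𝓝 p₀, Gn S c p → AnalyticAt ℂ (D ∘ wc S c j) p)
    (hB : ∃ C, ∀ᶠ p in 𝓝 p₀, Gn S c p → ‖D (wc S c j p)‖ ≤ C * (‖p.1‖ ^ x1 * ‖p.2‖ ^ x2)) :
    LocN L n1 n2 y a D c j p₀ := by
  obtain ⟨C, hC⟩ := hB
  refine ⟨1, max C 0, x1, x2, yo y (L.e1 c j) + n1 c j + 1, yo y (L.e2 c j) + n2 c j + 1,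
    one_pos, le_max_right _ _, fun h => ⟨hx1 h, lt_add_one _⟩, fun h => ⟨hx2 h, lt_add_one _⟩, ?_⟩
  filter_upwards [hA, hC] with p h1 h2 hp1 hp2 hg
  have h3 := h1 ⟨hp1, hp2, hg⟩
  have h4 : ∀ w, dbE (D ∘ wc S c j) p w = 0 := fun w => dbE_hol h3.differentiableAt w
  refine ⟨(h3.contDiffAt (n := (⊤ : ℕ∞))).restrict_scalars ℝ, ?_, fun w => ?_, Or.inr h4⟩
  · exact (h2 ⟨hp1, hp2, hg⟩).trans (mul_le_mul_of_nonneg_right (le_max_left _ _) (by positivity))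
  · rw [h4 w, norm_zero]
    positivity

/-- **(L0)** `D = 0` near the point -/
theorem loc_zero {D : (Fin 3 → ℂ) → ℂ} {c : Ch T.m} {j : Fin T.d} {p₀ : ℂ × ℂ}
    (h : ∀ᶠ p in 𝓝 p₀, Gn S c p → D (wc S c j p) = 0) : LocN L n1 n2 y a D c j p₀ := by
  refine loc_hol (x1 := n1 c j - a + 1) (x2 := n2 c j - ea a c + 1) (fun _ => by linarith)
    (fun _ => by linarith) ?_ ⟨0, ?_⟩
  · filter_upwards [h.eventually_nhds] with p h1 hp
    have h2 : (D ∘ wc S c j) =ᶠ[𝓝 p] fun _ => 0 := by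
      filter_upwards [h1, (isOpen_Gn c).mem_nhds hp] with q h3 h4
      exact h3 h4
    exact analyticAt_const.congr h2.symm
  · filter_upwards [h] with p h1 hp
    rw [h1 hp, norm_zero, zero_mul]

/-- `G = 0` near the point -/
theorem loc_G0 {G H : (Fin 3 → ℂ) → ℂ} {c : Ch T.m} {j : Fin T.d} {p₀ : ℂ × ℂ}
    (h : ∀ᶠ p in 𝓝 p₀, Gn S c p → G (wc S c j p) = 0) :
    LocN L n1 n2 y a (fun x => H x * G x) c j p₀ := by
  refine loc_zero ?_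
  filter_upwards [h] with p h1 hp
  rw [h1 hp, mul_zero]

section data

variable {E₀ : II U} {fX : XV U E₀.1.1 → ℂ} {H : (Fin 3 → ℂ) → ℂ}
  {h1 h2 e : Ch T.m → Fin T.d → ℝ}

lemma v1_of {c : Ch T.m} (hc : Ok S c) {j : Fin T.d} (he : L.e1 c j = some E₀) :
    v1 T c = some E₀.1.1 := by
  rw [← L.v_e1 c hc j, he]; rfl

lemma v2_of {c : Ch T.m} (hc : Ok S c) {j : Fin T.d} (he : L.e2 c j = some E₀) :
    v2 T c = some E₀.1.1 := by
  rw [← L.v_e2 c hc j, he]; rfl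

lemma isE_of {c : Ch T.m} (hc : Ok S c) {j : Fin T.d} {E : II U} (he : L.e2 c j = some E) :
    IsE c := by
  have h : v2 T c = some E.1.1 := v2_of hc he
  cases c with
  | edge i k k' => trivial
  | leg i => cases h
  | vert i k w => cases h

lemma not_isV_of {c : Ch T.m} (h : IsE c) : ¬ IsV c := by
  cases c with
  | edge i k k' => exact id
  | leg i => exact absurd h id
  | vert i k w => exact absurd h id

lemma ea_E {c : Ch T.m} (h : IsE c) : ea a c = a := if_pos h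

lemma ea_nonneg (c : Ch T.m) : 0 ≤ ea a c := by
  unfold ea; split_ifs <;> simp

lemma Gn_lt2 {c : Ch T.m} {p : ℂ × ℂ} (hp : Gn S c p) :
    ‖p.1‖ < 2 * S.r c ∧ ‖p.2‖ < 2 * S.r c := by
  have := S.pos c
  exact ⟨by linarith [hp.1], by linarith [hp.2.1]⟩

/-- analyticity of `H * g` from the local form -/
lemma an_of (hd : NDat L n1 n2 E₀ y a fX H h1 h2 e) {G : (Fin 3 → ℂ) → ℂ} {c : Ch T.m}
    (hc : Ok S c) {j : Fin T.d} {p₀ : ℂ × ℂ} {g : ℂ × ℂ → ℂ}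
    (hg : ∀ᶠ p in 𝓝 p₀, Gn S c p → AnalyticAt ℂ g p)
    (hG : ∀ᶠ p in 𝓝 p₀, Gn S c p → G (wc S c j p) = g p) :
    ∀ᶠ p in 𝓝 p₀, Gn S c p → AnalyticAt ℂ ((fun x => H x * G x) ∘ wc S c j) p := by
  filter_upwards [hg, hG.eventually_nhds] with p k1 k2 hp
  have e1 : ((fun x => H x * G x) ∘ wc S c j) =ᶠ[𝓝 p] fun q => (H ∘ wc S c j) q * g q := by
    filter_upwards [k2, (isOpen_Gn c).mem_nhds hp] with q k3 k4
    simp only [Function.comp_apply]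
    rw [k3 k4]
  exact ((hd.Han c hc j p (Gn_lt2 hp).1 (Gn_lt2 hp).2 hp.2.2).mul (k1 hp)).congr e1.symm

/-- **(L1), first axis, off the corner**: `e1 = E₀`, `IsV c` or `b ≠ 0` -/
theorem loc_g1 (hR : RetStmt U) (J : Jac L nu n1 n2)
    (hd : NDat L n1 n2 E₀ y a fX H h1 h2 e) {G : (Fin 3 → ℂ) → ℂ} {c : Ch T.m} (hc : Ok S c)
    {j : Fin T.d} (he : L.e1 c j = some E₀) {γ : Fin T.d → ℂ → XV U E₀.1.1}
    (hγ : End1 U S c E₀.1.1 γ) {b : ℂ} (hb : IsV c ∨ b ≠ 0) (hbr : ‖b‖ ≤ S.r c)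
    (hG : ∀ᶠ p in 𝓝 ((0 : ℂ), b), Gn S c p → G (wc S c j p) = fX (γ j p.2)) :
    LocN L n1 n2 y a (fun x => H x * G x) c j ((0 : ℂ), b) := by
  have hv := v1_of hc he
  have hbP : b ∈ PDv S c :=
    ⟨hb.imp_right fun h => norm_pos_iff.2 h, by linarith [S.pos c]⟩
  have hγa := Nd_980.end1_an hR hc hv hγ hd.hol j hbP
  have t2 : Tendsto (fun p : ℂ × ℂ => p.2) (𝓝 ((0 : ℂ), b)) (𝓝 b) := continuousAt_snd
  have hcase : b ≠ 0 ∨ h2 c j = 0 := by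
    rcases hb with hb | hb
    · exact Or.inr (hd.h2V c hc hb j)
    · exact Or.inl hb
  refine loc_hol (x1 := h1 c j) (x2 := 0) (fun _ => ?_) (fun h0 => ?_) ?_ ?_
  · exact hd.nearD1 c hc j he
  · have hV : IsV c := by
      rcases hb with hb | hb
      · exact hb
      · exact absurd h0 hb
    rw [J.vert c hc hV j]
    push_cast
    linarith [ea_nonneg (a := a) c]
  · refine an_of hd hc (g := fun p => fX (γ j p.2)) ?_ hG
    filter_upwards [t2.eventually hγa.eventually_analyticAt] with p hp _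
    exact hp.fun_comp_of_eq analyticAt_snd rfl
  · obtain ⟨C, hC, hH⟩ := hd.Hbd c hc j (Or.inl he)
    obtain ⟨C', hC', hp2⟩ := Nin_472.pw2 hcase
    have h5 : ∀ᶠ p in 𝓝 ((0 : ℂ), b), ‖fX (γ j p.2)‖ ≤ ‖fX (γ j b)‖ + 1 :=
      (t2.eventually (hγa.continuousAt.norm.eventually (ge_mem_nhds (lt_add_one _))))
    refine ⟨C * C' * (‖fX (γ j b)‖ + 1), ?_⟩
    filter_upwards [hG, hp2, h5] with p k1 k2 k3 hp
    rw [k1 hp, norm_mul, Real.rpow_zero, mul_one]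
    calc ‖H (wc S c j p)‖ * ‖fX (γ j p.2)‖
        ≤ (C * (‖p.1‖ ^ h1 c j * ‖p.2‖ ^ h2 c j)) * (‖fX (γ j b)‖ + 1) :=
          mul_le_mul (hH p hp.1.le hp.2.1.le hp.2.2) k3 (norm_nonneg _) (by positivity)
      _ ≤ (C * (‖p.1‖ ^ h1 c j * C')) * (‖fX (γ j b)‖ + 1) := by gcongr
      _ = _ := by ring

/-- **(L1), the corner**, `e1 = E₀` (edges and legs) -/
theorem loc_c1 (hR : RetStmt U) (hd : NDat L n1 n2 E₀ y a fX H h1 h2 e)
    {G : (Fin 3 → ℂ) → ℂ} {c : Ch T.m} (hc : Ok S c) (hV : ¬ IsV c)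
    {j : Fin T.d} (he : L.e1 c j = some E₀) {γ : Fin T.d → ℂ → XV U E₀.1.1}
    (hγ : End1 U S c E₀.1.1 γ)
    (hG : ∀ᶠ p in 𝓝 ((0 : ℂ), (0 : ℂ)), Gn S c p → G (wc S c j p) = fX (γ j p.2)) :
    LocN L n1 n2 y a (fun x => H x * G x) c j ((0 : ℂ), (0 : ℂ)) := by
  have hv := v1_of hc he
  refine loc_hol (x1 := h1 c j) (x2 := h2 c j + e c j) (fun _ => hd.nearD1 c hc j he)
    (fun h0 => ?_) ?_ ?_
  · rcases hE : L.e2 c j with _ | E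
    · exact (hd.leg c hc hV j he hE).trans_le (by linarith [ea_nonneg (a := a) c])
    · rw [ea_E (isE_of hc hE)]
      exact (hd.far2 c hc j he E hE).2
  · refine an_of hd hc (g := fun p => fX (γ j p.2)) (Eventually.of_forall fun p hp => ?_) hG
    have hbP : p.2 ∈ PDv S c :=
      ⟨Or.inr (norm_pos_iff.2 (gen_snd hp.2.2 hV)), (Gn_lt2 hp).2⟩
    exact (Nd_980.end1_an hR hc hv hγ hd.hol j hbP).fun_comp_of_eq analyticAt_snd rfl
  · obtain ⟨C, hC, hH⟩ := hd.Hbd c hc j (Or.inl he)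
    obtain ⟨C', r', hC', hr', hf⟩ := hd.f1 c hc hV hv γ hγ j he
    have h5 : ∀ᶠ p in 𝓝 ((0 : ℂ), (0 : ℂ)), ‖p.2‖ < r' := by
      have : ContinuousAt (fun p : ℂ × ℂ => ‖p.2‖) ((0 : ℂ), (0 : ℂ)) := by fun_prop
      exact this.eventually (gt_mem_nhds (by simpa using hr'))
    refine ⟨C * C', ?_⟩
    filter_upwards [hG, h5] with p k1 k2 hp
    have hp2 : 0 < ‖p.2‖ := norm_pos_iff.2 (gen_snd hp.2.2 hV)
    rw [k1 hp, norm_mul, Real.rpow_add hp2]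
    calc ‖H (wc S c j p)‖ * ‖fX (γ j p.2)‖
        ≤ (C * (‖p.1‖ ^ h1 c j * ‖p.2‖ ^ h2 c j)) * (C' * ‖p.2‖ ^ e c j) :=
          mul_le_mul (hH p hp.1.le hp.2.1.le hp.2.2) (hf p.2 hp2 k2) (norm_nonneg _)
            (by positivity)
      _ = _ := by ring

/-- **(L1), second axis, off the corner**: `e2 = E₀`, `a' ≠ 0` -/
theorem loc_g2 (hR : RetStmt U)
    (hd : NDat L n1 n2 E₀ y a fX H h1 h2 e) {G : (Fin 3 → ℂ) → ℂ} {c : Ch T.m} (hc : Ok S c)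
    {j : Fin T.d} (he : L.e2 c j = some E₀) {γ : Fin T.d → ℂ → XV U E₀.1.1}
    (hγ : End2 U S c E₀.1.1 γ) {b : ℂ} (hb : b ≠ 0) (hbr : ‖b‖ ≤ S.r c)
    (hG : ∀ᶠ p in 𝓝 (b, (0 : ℂ)), Gn S c p → G (wc S c j p) = fX (γ j p.1)) :
    LocN L n1 n2 y a (fun x => H x * G x) c j (b, (0 : ℂ)) := by
  have hv := v2_of hc he
  have hbP : b ∈ PDc S c := ⟨norm_pos_iff.2 hb, by linarith [S.pos c]⟩
  have hγa := Nd_980.end2_an hR hc hv hγ hd.hol j hbP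
  have t2 : Tendsto (fun p : ℂ × ℂ => p.1) (𝓝 (b, (0 : ℂ))) (𝓝 b) := continuousAt_fst
  refine loc_hol (x1 := 0) (x2 := h2 c j) (fun h0 => absurd h0 hb) (fun h0 => ?_) ?_ ?_
  · rw [ea_E (isE_of hc he)]
    exact hd.nearD2 c hc j he
  · refine an_of hd hc (g := fun p => fX (γ j p.1)) ?_ hG
    filter_upwards [t2.eventually hγa.eventually_analyticAt] with p hp _
    exact hp.fun_comp_of_eq analyticAt_fst rfl
  · obtain ⟨C, hC, hH⟩ := hd.Hbd c hc j (Or.inr he)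
    obtain ⟨C', hC', hp2⟩ := Nin_472.pw1 (a := b) (h := h1 c j) (Or.inl hb)
    have h5 : ∀ᶠ p in 𝓝 (b, (0 : ℂ)), ‖fX (γ j p.1)‖ ≤ ‖fX (γ j b)‖ + 1 :=
      (t2.eventually (hγa.continuousAt.norm.eventually (ge_mem_nhds (lt_add_one _))))
    refine ⟨C * C' * (‖fX (γ j b)‖ + 1), ?_⟩
    filter_upwards [hG, hp2, h5] with p k1 k2 k3 hp
    rw [k1 hp, norm_mul, Real.rpow_zero, one_mul]
    calc ‖H (wc S c j p)‖ * ‖fX (γ j p.1)‖
        ≤ (C * (‖p.1‖ ^ h1 c j * ‖p.2‖ ^ h2 c j)) * (‖fX (γ j b)‖ + 1) :=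
          mul_le_mul (hH p hp.1.le hp.2.1.le hp.2.2) k3 (norm_nonneg _) (by positivity)
      _ ≤ (C * (C' * ‖p.2‖ ^ h2 c j)) * (‖fX (γ j b)‖ + 1) := by gcongr
      _ = _ := by ring

/-- **(L1), the corner**, `e2 = E₀` -/
theorem loc_c2 (hR : RetStmt U) (hd : NDat L n1 n2 E₀ y a fX H h1 h2 e)
    {G : (Fin 3 → ℂ) → ℂ} {c : Ch T.m} (hc : Ok S c)
    {j : Fin T.d} (he : L.e2 c j = some E₀) {γ : Fin T.d → ℂ → XV U E₀.1.1}
    (hγ : End2 U S c E₀.1.1 γ)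
    (hG : ∀ᶠ p in 𝓝 ((0 : ℂ), (0 : ℂ)), Gn S c p → G (wc S c j p) = fX (γ j p.1)) :
    LocN L n1 n2 y a (fun x => H x * G x) c j ((0 : ℂ), (0 : ℂ)) := by
  have hv := v2_of hc he
  have hE := isE_of hc he
  refine loc_hol (x1 := h1 c j + e c j) (x2 := h2 c j) (fun h0 => ?_) (fun h0 => ?_) ?_ ?_
  · rcases hE1 : L.e1 c j with _ | E
    · exact (hd.top c hc j he hE1).trans_le (by
        have : (0 : ℝ) ≤ a := Nat.cast_nonneg _
        linarith)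
    · exact (hd.far1 c hc j he E hE1).2
  · rw [ea_E hE]
    exact hd.nearD2 c hc j he
  · refine an_of hd hc (g := fun p => fX (γ j p.1)) (Eventually.of_forall fun p hp => ?_) hG
    have hbP : p.1 ∈ PDc S c :=
      ⟨norm_pos_iff.2 (CDataB_250.gen_fst hp.2.2), (Gn_lt2 hp).1⟩
    exact (Nd_980.end2_an hR hc hv hγ hd.hol j hbP).fun_comp_of_eq analyticAt_fst rfl
  · obtain ⟨C, hC, hH⟩ := hd.Hbd c hc j (Or.inr he)
    obtain ⟨C', r', hC', hr', hf⟩ := hd.f2 c hc hv γ hγ j he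
    have h5 : ∀ᶠ p in 𝓝 ((0 : ℂ), (0 : ℂ)), ‖p.1‖ < r' := by
      have : ContinuousAt (fun p : ℂ × ℂ => ‖p.1‖) ((0 : ℂ), (0 : ℂ)) := by fun_prop
      exact this.eventually (gt_mem_nhds (by simpa using hr'))
    refine ⟨C * C', ?_⟩
    filter_upwards [hG, h5] with p k1 k2 hp
    have hp1 : 0 < ‖p.1‖ := norm_pos_iff.2 (CDataB_250.gen_fst hp.2.2)
    rw [k1 hp, norm_mul, Real.rpow_add hp1]
    calc ‖H (wc S c j p)‖ * ‖fX (γ j p.1)‖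
        ≤ (C * (‖p.1‖ ^ h1 c j * ‖p.2‖ ^ h2 c j)) * (C' * ‖p.1‖ ^ e c j) :=
          mul_le_mul (hH p hp.1.le hp.2.1.le hp.2.2) (hf p.1 hp1 k2) (norm_nonneg _)
            (by positivity)
      _ = _ := by ring

/-! ### the forms over `NPar` -/

open Crest.Agent.R257.Nu_938

variable {F : Finset (Ch T.m)} (P : NPar L E₀ F)

/-- (L0) over `NPar` -/
theorem P_zero {c : Ch T.m} {j : Fin T.d} {p₀ : ℂ × ℂ}
    (h : ∀ᶠ p in 𝓝 p₀, ‖p.1‖ < S.r c → ‖p.2‖ < S.r c → T.Gen c p → P.G fX (wc S c j p) = 0) :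
    LocN L n1 n2 y a (P.D fX H) c j p₀ :=
  loc_G0 (G := P.G fX) (H := H) (h.mono fun p hp hg => hp hg.1 hg.2.1 hg.2.2)

/-- (L1) first axis, `IsV c` or `b ≠ 0` -/
theorem P_g1 (hR : RetStmt U) (J : Jac L nu n1 n2) (hd : NDat L n1 n2 E₀ y a fX H h1 h2 e)
    {c : Ch T.m} (hc : Ok S c) {j : Fin T.d} (he : L.e1 c j = some E₀) {b : ℂ}
    (hb : IsV c ∨ b ≠ 0) (hbr : ‖b‖ ≤ S.r c)
    (hG : ∀ᶠ p in 𝓝 ((0 : ℂ), b), ‖p.1‖ < S.r c → ‖p.2‖ < S.r c → T.Gen c p →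
      P.G fX (wc S c j p) = fX (P.γ1 c j p.2)) :
    LocN L n1 n2 y a (P.D fX H) c j ((0 : ℂ), b) :=
  loc_g1 hR J hd hc he (P.end1 c hc (v1_of hc he)).1 hb hbr (G := P.G fX)
    (hG.mono fun p hp hg => hp hg.1 hg.2.1 hg.2.2)

/-- (L1) the corner, `e1 = E₀` (all charts) -/
theorem P_c1 (hR : RetStmt U) (J : Jac L nu n1 n2) (hd : NDat L n1 n2 E₀ y a fX H h1 h2 e)
    {c : Ch T.m} (hc : Ok S c) {j : Fin T.d} (he : L.e1 c j = some E₀)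
    (hG : ∀ᶠ p in 𝓝 ((0 : ℂ), (0 : ℂ)), ‖p.1‖ < S.r c → ‖p.2‖ < S.r c → T.Gen c p →
      P.G fX (wc S c j p) = fX (P.γ1 c j p.2)) :
    LocN L n1 n2 y a (P.D fX H) c j ((0 : ℂ), (0 : ℂ)) := by
  by_cases hV : IsV c
  · exact P_g1 P hR J hd hc he (Or.inl hV) (by rw [norm_zero]; exact (S.pos c).le) hG
  · exact loc_c1 hR hd hc hV he (P.end1 c hc (v1_of hc he)).1 (G := P.G fX)
      (hG.mono fun p hp hg => hp hg.1 hg.2.1 hg.2.2)

/-- (L1) second axis, `b ≠ 0` -/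
theorem P_g2 (hR : RetStmt U) (hd : NDat L n1 n2 E₀ y a fX H h1 h2 e)
    {c : Ch T.m} (hc : Ok S c) {j : Fin T.d} (he : L.e2 c j = some E₀) {b : ℂ}
    (hb : b ≠ 0) (hbr : ‖b‖ ≤ S.r c)
    (hG : ∀ᶠ p in 𝓝 (b, (0 : ℂ)), ‖p.1‖ < S.r c → ‖p.2‖ < S.r c → T.Gen c p →
      P.G fX (wc S c j p) = fX (P.γ2 c j p.1)) :
    LocN L n1 n2 y a (P.D fX H) c j (b, (0 : ℂ)) :=
  loc_g2 hR hd hc he (P.end2 c hc (v2_of hc he)).1 hb hbr (G := P.G fX)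
    (hG.mono fun p hp hg => hp hg.1 hg.2.1 hg.2.2)

/-- (L1) the corner, `e2 = E₀` -/
theorem P_c2 (hR : RetStmt U) (hd : NDat L n1 n2 E₀ y a fX H h1 h2 e)
    {c : Ch T.m} (hc : Ok S c) {j : Fin T.d} (he : L.e2 c j = some E₀)
    (hG : ∀ᶠ p in 𝓝 ((0 : ℂ), (0 : ℂ)), ‖p.1‖ < S.r c → ‖p.2‖ < S.r c → T.Gen c p →
      P.G fX (wc S c j p) = fX (P.γ2 c j p.1)) :
    LocN L n1 n2 y a (P.D fX H) c j ((0 : ℂ), (0 : ℂ)) :=
  loc_c2 hR hd hc he (P.end2 c hc (v2_of hc he)).1 (G := P.G fX)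
    (hG.mono fun p hp hg => hp hg.1 hg.2.1 hg.2.2)

/-- (L1) the second axis, all points -/
theorem P_all2 (hR : RetStmt U) (hd : NDat L n1 n2 E₀ y a fX H h1 h2 e)
    {c : Ch T.m} (hc : Ok S c) {j : Fin T.d} (he : L.e2 c j = some E₀) {b : ℂ}
    (hbr : ‖b‖ ≤ S.r c)
    (hG : ∀ᶠ p in 𝓝 (b, (0 : ℂ)), ‖p.1‖ < S.r c → ‖p.2‖ < S.r c → T.Gen c p →
      P.G fX (wc S c j p) = fX (P.γ2 c j p.1)) :
    LocN L n1 n2 y a (P.D fX H) c j (b, (0 : ℂ)) := by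
  by_cases hb : b = 0
  · subst hb
    exact P_c2 P hR hd hc he hG
  · exact P_g2 P hR hd hc he hb hbr hG

/-- (L1) the first axis, all points -/
theorem P_all1 (hR : RetStmt U) (J : Jac L nu n1 n2) (hd : NDat L n1 n2 E₀ y a fX H h1 h2 e)
    {c : Ch T.m} (hc : Ok S c) {j : Fin T.d} (he : L.e1 c j = some E₀) {b : ℂ}
    (hbr : ‖b‖ ≤ S.r c)
    (hG : ∀ᶠ p in 𝓝 ((0 : ℂ), b), ‖p.1‖ < S.r c → ‖p.2‖ < S.r c → T.Gen c p →
      P.G fX (wc S c j p) = fX (P.γ1 c j p.2)) :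
    LocN L n1 n2 y a (P.D fX H) c j ((0 : ℂ), b) := by
  by_cases hb : b = 0
  · subst hb
    exact P_c1 P hR J hd hc he hG
  · exact P_g1 P hR J hd hc he (Or.inr hb) hbr hG

end data

end Crest.Agent.R257.NuL_68
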