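import Crest.Agent.R257.Nc_547
import Crest.Agent.R257.ExND_843
import Crest.Agent.R257.EndB_636

/-!
# Row 257 (S0395), NULL DATA, piece (P9), part 1 (helper808): the test points

* `exists_PT`, `exists_Core` : the parameters (`r₀`, `κ` small for the test charts of `F'`);
* `kinds'`   : the limit points of a sheet, with the axis;
* `no_zone`  : near a test point, no point of a corner zone;
* `no_core'` : near a test point over another vertex, no retraction in the core.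
-/

set_option autoImplicit false
set_option linter.unusedSectionVars false

open Polynomial Set Filter Topology Metric
open Crest.AlgGeometry.Germ Crest.Agent.R257.AJ387 Crest.Agent.R257.T387
open Crest.Agent.R257.Gr1_157 Crest.Agent.R257.HoB_843 Crest.Agent.R257.BP_258
open Crest.Agent.R257.Frm_547 Crest.Agent.R257.Lab_931 Crest.Agent.R257.Wt_258
open Crest.Agent.R257.Cor_547 Crest.Agent.R257.End_636
open Crest.Agent.R257.Typ_201 (TV TL TN)

noncomputable section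

namespace Crest.Agent.R257.NuO_808

variable {f : (Fin 3 → ℂ) → ℂ} {T : TB f} {U : Tub T} {S : Sh T}

lemma lx_ne {c : Ch T.m} (hc : T.Valid c) : lx T c ≠ 0 := by
  cases c with
  | edge i k k' =>
    have hkk : k < k' := hc.2.2.1
    exact mul_ne_zero T.M_pos.ne' (by omega)
  | leg i => exact T.M_pos.ne'
  | vert i k w₀ => exact one_ne_zero

/-- the centre of a chart which is no vertex chart is special -/
lemma cx_mem {c : Ch T.m} (hV : ¬ IsV c) {v : Vtx} (hv : v1 T c = some v) :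
    cx T c ∈ sp T v := by
  classical
  cases c with
  | edge i k k' =>
    simp only [v1] at hv
    split_ifs at hv with hk0
    obtain rfl := Option.some.inj hv
    simp only [cx, sp, Finset.mem_image, Finset.mem_filter, Finset.mem_univ, true_and]
    exact ⟨i, rfl, rfl⟩
  | leg i =>
    simp only [v1] at hv
    obtain rfl := Option.some.inj hv
    simp only [cx, sp, Finset.mem_image, Finset.mem_filter, Finset.mem_univ, true_and]
    exact ⟨i, rfl, rfl⟩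
  | vert i k w₀ => exact absurd trivial hV

/-- the centre of a vertex chart is not special -/
lemma cx_nsp {c : Ch T.m} (hc : Ok S c) (hV : IsV c) {v : Vtx} (hv : v1 T c = some v) :
    cx T c ∉ sp T v := by
  have h := W1_zero S hc.1 hv (b := 0) (by simpa using (S.pos c).le) (Or.inl hV)
  rwa [W1_axis hc, zero_pow (lx_ne hc.1), add_zero] at h

/-- `r₁` is small for the vertex chart `c` -/
def PT (S : Sh T) (r₁ : ℝ) (c : Ch T.m) : Prop := ∀ c' : Ch T.m, Ok S c' → ¬ IsV c' →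
  (v1 T c' = v1 T c → ∀ b : ℂ, ‖b‖ ≤ r₁ → cx T c' + b ^ lx T c' ≠ cx T c) ∧
  (v2 T c' = v1 T c → ∀ a : ℂ, a ≠ 0 → ‖a‖ ≤ r₁ → (a ^ lx T c')⁻¹ ≠ cx T c)

lemma PT.mono {r r₁ : ℝ} {c : Ch T.m} (h : PT S r₁ c) (hr : r ≤ r₁) : PT S r c :=
  fun c' hc' hV' => ⟨fun e b hb => (h c' hc' hV').1 e b (hb.trans hr),
    fun e a ha hb => (h c' hc' hV').2 e a ha (hb.trans hr)⟩

theorem exists_PT (S : Sh T) (F' : Finset (Ch T.m)) (hF' : ∀ c ∈ F', Ok S c) :
    ∀ᶠ r : ℝ in 𝓝[>] 0, ∀ c ∈ F', IsV c → PT S r c := by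
  have h1 : ∀ᶠ r : ℝ in 𝓝[>] 0, ∀ x ∈ (F' : Set (Ch T.m)) ×ˢ (CS S ∅), IsV x.1 →
      (v1 T x.2 = v1 T x.1 → ∀ b : ℂ, ‖b‖ ≤ r → cx T x.2 + b ^ lx T x.2 ≠ cx T x.1) ∧
      (v2 T x.2 = v1 T x.1 → ∀ a : ℂ, a ≠ 0 → ‖a‖ ≤ r → (a ^ lx T x.2)⁻¹ ≠ cx T x.1) := by
    rw [Filter.eventually_all_finite (F'.finite_toSet.prod (finite_CS ∅))]
    rintro ⟨c, c'⟩ ⟨hcF, hc'⟩
    have hc : Ok S c := hF' c hcF
    have hl : lx T c' ≠ 0 := lx_ne hc'.1.1
    by_cases hV : IsV c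
    swap
    · exact Eventually.of_forall fun r h => absurd h hV
    have hV' : ¬ IsV c' := fun h => absurd (hc'.2 h) (Finset.notMem_empty _)
    have ev : ∀ {P : ℂ → Prop}, (∀ᶠ b in 𝓝 (0 : ℂ), P b) →
        ∀ᶠ r : ℝ in 𝓝[>] 0, ∀ b : ℂ, ‖b‖ ≤ r → P b := by
      intro P hP
      obtain ⟨ε, hε, h⟩ := Metric.eventually_nhds_iff.1 hP
      filter_upwards [Ioo_mem_nhdsGT hε] with r hr b hb
      exact h (by rw [dist_zero_right]; exact hb.trans_lt hr.2)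
    have e1 : v1 T c' = v1 T c → ∀ᶠ b : ℂ in 𝓝 0, cx T c' + b ^ lx T c' ≠ cx T c := by
      intro he
      obtain ⟨v, hv⟩ : ∃ v, v1 T c = some v := by
        cases c with
        | edge i k k' => exact absurd hV (by simp [IsV])
        | leg i => exact absurd hV (by simp [IsV])
        | vert i k w₀ => exact ⟨_, rfl⟩
      have hc2 : Continuous fun b : ℂ => cx T c' + b ^ lx T c' := by fun_prop
      refine hc2.continuousAt.eventually_ne ?_
      rw [zero_pow hl, add_zero]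
      intro h
      refine cx_nsp hc hV hv ?_
      rw [← h]
      exact cx_mem hV' (he.trans hv)
    have e2 : ∀ᶠ a : ℂ in 𝓝 0, a ≠ 0 → (a ^ lx T c')⁻¹ ≠ cx T c := by
      have hc2 : Continuous fun a : ℂ => a ^ lx T c' * cx T c := by fun_prop
      have h3 : ∀ᶠ a : ℂ in 𝓝 0, a ^ lx T c' * cx T c ≠ 1 := by
        refine hc2.continuousAt.eventually_ne ?_
        rw [zero_pow hl, zero_mul]
        exact zero_ne_one
      filter_upwards [h3] with a ha h0 h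
      refine ha ?_
      rw [← h, mul_inv_cancel₀ (pow_ne_zero _ h0)]
    by_cases he : v1 T c' = v1 T c
    · filter_upwards [ev (e1 he), ev e2] with r h3 h4 _
      exact ⟨fun _ => h3, fun _ a h0 ha => h4 a ha h0⟩
    · filter_upwards [ev e2] with r h4 _
      exact ⟨fun h => absurd h he, fun _ a h0 ha => h4 a ha h0⟩
  filter_upwards [h1] with r hr c hc hV c' hc' hV'
  exact hr (c, c') ⟨hc, Nc_547.mem_CS hc' hV'⟩ hV

/-- the centres of the test charts are in the core -/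
theorem exists_Core (S : Sh T) (F' : Finset (Ch T.m)) (hF' : ∀ c ∈ F', Ok S c) :
    ∀ᶠ κ : ℝ in 𝓝[>] 0, ∀ c ∈ F', IsV c → ∀ v, v1 T c = some v →
      ‖cx T c‖ < κ⁻¹ ∧ ∀ c' ∈ sp T v, κ < ‖cx T c - c'‖ := by
  rw [Filter.eventually_all_finset]
  intro c hcF
  have hc : Ok S c := hF' c hcF
  by_cases hV : IsV c
  swap
  · exact Eventually.of_forall fun r h => absurd h hV
  obtain ⟨v, hv⟩ : ∃ v, v1 T c = some v := by
    cases c with
    | edge i k k' => exact absurd hV (by simp [IsV])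
    | leg i => exact absurd hV (by simp [IsV])
    | vert i k w₀ => exact ⟨_, rfl⟩
  have h1 : ∀ᶠ κ : ℝ in 𝓝[>] 0, ‖cx T c‖ < κ⁻¹ :=
    tendsto_inv_nhdsGT_zero.eventually (eventually_gt_atTop _)
  have h2 : ∀ᶠ κ : ℝ in 𝓝[>] 0, ∀ c' ∈ sp T v, κ < ‖cx T c - c'‖ := by
    rw [Filter.eventually_all_finset]
    intro c' hc'
    have h3 : 0 < ‖cx T c - c'‖ := by
      rw [norm_pos_iff, sub_ne_zero]
      rintro rfl
      exact cx_nsp hc hV hv hc'
    filter_upwards [Ioo_mem_nhdsGT h3] with κ hκ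
    exact hκ.2
  filter_upwards [h1, h2] with κ e1 e2 _ v' hv'
  obtain rfl : v = v' := Option.some.inj (hv.symm.trans hv')
  exact ⟨e1, e2⟩

/-- **the limit points of a sheet** (`Cor_547.kinds` with the axis) -/
theorem kinds' {c : Ch T.m} (hc : T.Valid c) {r₀ : ℝ} (hr₀ : r₀ ≤ S.r c) (𝒰 : Ultrafilter (ℂ × ℂ))
    (hb : ∀ᶠ p in (𝒰 : Filter (ℂ × ℂ)), ‖p.1‖ ≤ r₀ ∧ ‖p.2‖ ≤ r₀ ∧ T.Gen c p)
    (hs : Tendsto (fun p => (T.map c p).1) (𝒰 : Filter (ℂ × ℂ)) (𝓝 0)) :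
    (∃ v' b, v1 T c = some v' ∧ ‖b‖ ≤ r₀ ∧ W1 c (0, b) ∉ sp T v' ∧
      Tendsto (wv T v') (Filter.map (T.map c) (𝒰 : Filter (ℂ × ℂ))) (𝓝 (W1 c (0, b)))) ∨
    (∃ v' a, v2 T c = some v' ∧ a ≠ 0 ∧ ‖a‖ ≤ r₀ ∧ W2 c (a, 0) ∉ sp T v' ∧
      Tendsto (wv T v') (Filter.map (T.map c) (𝒰 : Filter (ℂ × ℂ))) (𝓝 (W2 c (a, 0)))) ∨
    (¬ IsV c ∧ Sep_547.OT c (Filter.map (T.map c) (𝒰 : Filter (ℂ × ℂ)))) ∨
      (v1 T c = none ∧ KT (Filter.map (T.map c) (𝒰 : Filter (ℂ × ℂ)))) := by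
  have hK : IsCompact (closedBall (0 : ℂ) r₀ ×ˢ closedBall (0 : ℂ) r₀) :=
    (isCompact_closedBall _ _).prod (isCompact_closedBall _ _)
  obtain ⟨ps, hps, hle⟩ := hK.ultrafilter_le_nhds 𝒰 (by
    rw [le_principal_iff]
    filter_upwards [hb] with p hp
    exact ⟨mem_closedBall_zero_iff.2 hp.1, mem_closedBall_zero_iff.2 hp.2.1⟩)
  have hp1' : ‖ps.1‖ ≤ r₀ := mem_closedBall_zero_iff.1 hps.1
  have hp2' : ‖ps.2‖ ≤ r₀ := mem_closedBall_zero_iff.1 hps.2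
  have hp1 : ‖ps.1‖ ≤ S.r c := hp1'.trans hr₀
  have hp2 : ‖ps.2‖ ≤ S.r c := hp2'.trans hr₀
  have hBD : ps ∈ BD (2 * S.r c) (2 * S.r c) := ⟨lt_two_r S hp1, lt_two_r S hp2⟩
  have hBDn : BD (2 * S.r c) (2 * S.r c) ∈ 𝓝 ps := (isOpen_BD _ _).mem_nhds hBD
  have hmc : ContinuousAt (T.map c) ps := cont_at hc hp1 hp2
  have hs0 : (T.map c ps).1 = 0 :=
    tendsto_nhds_unique ((hmc.fst.tendsto).mono_left hle) hs
  have axis1 : ∀ {v' : Vtx}, v1 T c = some v' → ps.1 = 0 → (IsV c ∨ ps.2 ≠ 0) →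
      ∃ v' b, v1 T c = some v' ∧ ‖b‖ ≤ r₀ ∧ W1 c (0, b) ∉ sp T v' ∧
      Tendsto (wv T v') (Filter.map (T.map c) (𝒰 : Filter (ℂ × ℂ))) (𝓝 (W1 c (0, b))) := by
    intro v' hv' h10 h20
    have e : ps = (0, ps.2) := Prod.ext h10 rfl
    refine ⟨v', ps.2, hv', hp2', W1_zero S hc hv' hp2 h20, ?_⟩
    rw [tendsto_map'_iff]
    have h2 : Tendsto (W1 c) (𝒰 : Filter (ℂ × ℂ)) (𝓝 (W1 c ps)) :=
      ((W1_cont S hc).continuousAt hBDn).tendsto.mono_left hle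
    rw [e] at h2
    refine h2.congr' ?_
    filter_upwards [hb] with p hp
    exact (W1_eq hc hv' hp.2.2).symm
  have axis2 : ∀ {v' : Vtx}, v2 T c = some v' → ps.2 = 0 → ps.1 ≠ 0 →
      ∃ v' a, v2 T c = some v' ∧ a ≠ 0 ∧ ‖a‖ ≤ r₀ ∧ W2 c (a, 0) ∉ sp T v' ∧
      Tendsto (wv T v') (Filter.map (T.map c) (𝒰 : Filter (ℂ × ℂ))) (𝓝 (W2 c (a, 0))) := by
    intro v' hv' h20 h10
    have e : ps = (ps.1, 0) := Prod.ext rfl h20
    refine ⟨v', ps.1, hv', h10, hp1', W2_zero S hc hv' hp1 h10, ?_⟩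
    rw [tendsto_map'_iff]
    have h2 : Tendsto (W2 c) (𝒰 : Filter (ℂ × ℂ)) (𝓝 (W2 c ps)) := by
      refine ((W2_cont S hc).continuousAt ?_).tendsto.mono_left hle
      exact Filter.inter_mem hBDn ((isOpen_ne_fun continuous_fst continuous_const).mem_nhds h10)
    rw [e] at h2
    refine h2.congr' ?_
    filter_upwards [hb] with p hp
    exact (W2_eq hc hv' hp.2.2).symm
  have orig : ps.1 = 0 → ps.2 = 0 → Sep_547.OT c (Filter.map (T.map c) (𝒰 : Filter (ℂ × ℂ))) := by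
    intro h10 h20
    have e : ps = 0 := Prod.ext h10 h20
    exact Sep_547.origin_type hc (e ▸ hle) (hb.mono fun p hp => hp.2.2)
  cases c with
  | vert i k w₀ => exact Or.inl (axis1 (v' := vx T i k) rfl hs0 (Or.inl trivial))
  | leg i =>
    have h10 : ps.1 = 0 := hs0
    by_cases h20 : ps.2 = 0
    · exact Or.inr (Or.inr (Or.inl ⟨id, orig h10 h20⟩))
    · exact Or.inl (axis1 (v' := vx T i (T.top i)) rfl h10 (Or.inr h20))
  | edge i k k' =>
    have hs0' : ps.1 * ps.2 = 0 := hs0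
    by_cases h10 : ps.1 = 0
    · by_cases h20 : ps.2 = 0
      · exact Or.inr (Or.inr (Or.inl ⟨id, orig h10 h20⟩))
      · by_cases hk0 : k = 0
        · refine Or.inr (Or.inr (Or.inr ⟨by simp [v1, hk0], (T.map (.edge i k k') ps).2,
            top_snd (by simp [v1, hk0]) h10 h20, ?_⟩))
          rw [tendsto_map'_iff]
          exact hmc.snd.tendsto.mono_left hle
        · exact Or.inl (axis1 (v' := vx T i k) (by simp [v1, hk0]) h10 (Or.inr h20))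
    · have h20 : ps.2 = 0 := (mul_eq_zero.1 hs0').resolve_left h10
      exact Or.inr (Or.inl (axis2 (v' := vx T i k') rfl h20 h10))

/-- the type of the origin of a vertex chart, in the coordinate `w` -/
lemma vert_lim {c : Ch T.m} (hc : Ok S c) {v : Vtx} (hv : v1 T c = some v)
    {m : Filter (ℂ × ℂ)} (hm : m ≤ 𝓝 0) (hg : ∀ᶠ p in m, T.Gen c p) :
    Tendsto (wv T v) (Filter.map (T.map c) m) (𝓝 (cx T c)) := by
  rw [tendsto_map'_iff]
  have hBDn : BD (2 * S.r c) (2 * S.r c) ∈ 𝓝 (0 : ℂ × ℂ) :=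
    (isOpen_BD _ _).mem_nhds ⟨by simpa using S.pos c, by simpa using S.pos c⟩
  have h2 : Tendsto (W1 c) m (𝓝 (W1 c 0)) :=
    ((W1_cont S hc.1).continuousAt hBDn).tendsto.mono_left hm
  have e : W1 c (0 : ℂ × ℂ) = cx T c := by
    have := W1_axis hc (0 : ℂ)
    rw [zero_pow (lx_ne hc.1), add_zero] at this
    exact this
  rw [e] at h2
  refine h2.congr' ?_
  filter_upwards [hg] with p hp
  exact (W1_eq hc.1 hv hp).symm

lemma map_lim {c : Ch T.m} (hc : Ok S c) {m : Filter (ℂ × ℂ)} (hm : m ≤ 𝓝 0)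
    (hg : ∀ᶠ p in m, T.Gen c p) : Tendsto Prod.fst (Filter.map (T.map c) m) (𝓝 0) ∧
      ∀ᶠ q in Filter.map (T.map c) m, q.1 ≠ 0 := by
  refine ⟨?_, ?_⟩
  · rw [tendsto_map'_iff]
    have := (cont_at (S := S) hc.1 (p₀ := 0) (by simpa using (S.pos c).le)
      (by simpa using (S.pos c).le)).fst.tendsto.mono_left hm
    rwa [map_fst_zero c rfl] at this
  · rw [eventually_map]
    exact hg.mono fun p hp => map_ne hp

lemma isV_v1 {c : Ch T.m} (hV : IsV c) : ∃ v, v1 T c = some v := by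
  cases c with
  | edge i k k' => exact absurd hV (by simp [IsV])
  | leg i => exact absurd hV (by simp [IsV])
  | vert i k w₀ => exact ⟨_, rfl⟩

/-- **no point of a corner zone near a test point** -/
theorem no_zone {r₀ : ℝ} (hr₀ : ∀ c : Ch T.m, Ok S c → ¬ IsV c → r₀ ≤ S.r c) {c : Ch T.m}
    (hc : Ok S c) (hV : IsV c) (hPT : PT S r₀ c) :
    ∀ᶠ p in 𝓝 (0 : ℂ × ℂ), T.Gen c p → ∀ c' : Ch T.m, Ok S c' → ¬ IsV c' →
      ∀ p' ∈ BD r₀ r₀, T.Gen c' p' → T.map c' p' ≠ T.map c p := by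
  have h1 : ∀ᶠ p in 𝓝 (0 : ℂ × ℂ), ∀ c' ∈ CS S ∅, T.Gen c p →
      ∀ p' ∈ BD r₀ r₀, T.Gen c' p' → T.map c' p' ≠ T.map c p := by
    rw [Filter.eventually_all_finite (finite_CS (S := S) ∅)]
    intro c' hc'S
    obtain ⟨hc', hV'⟩ := Nc_547.of_CS hc'S
    by_contra hcon
    set Z : Set ((ℂ × ℂ) × (ℂ × ℂ)) := {x | T.Gen c x.1 ∧ x.2 ∈ BD r₀ r₀ ∧ T.Gen c' x.2 ∧
      T.map c' x.2 = T.map c x.1} with hZ
    have hne : (comap Prod.fst (𝓝 (0 : ℂ × ℂ)) ⊓ 𝓟 Z).NeBot := by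
      rw [Filter.inf_principal_neBot_iff]
      intro W hW
      obtain ⟨W', hW', hsub⟩ := mem_comap.1 hW
      by_contra hemp
      refine hcon ?_
      filter_upwards [hW'] with p hp hg p' hp' hg' he
      exact hemp ⟨(p, p'), hsub hp, hg, hp', hg', he⟩
    obtain ⟨𝒲, h𝒲⟩ := Ultrafilter.exists_le (comap Prod.fst (𝓝 (0 : ℂ × ℂ)) ⊓ 𝓟 Z)
    have hZ' : ∀ᶠ x in (𝒲 : Filter ((ℂ × ℂ) × (ℂ × ℂ))), x ∈ Z :=
      h𝒲 (mem_inf_of_right (mem_principal_self _))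
    set m : Filter (ℂ × ℂ) := Filter.map Prod.fst (𝒲 : Filter ((ℂ × ℂ) × (ℂ × ℂ))) with hm
    have hm0 : m ≤ 𝓝 0 := by
      rw [hm, Filter.map_le_iff_le_comap]
      exact h𝒲.trans inf_le_left
    have hmne : m.NeBot := by rw [hm]; infer_instance
    have hgm : ∀ᶠ p in m, T.Gen c p := by
      rw [hm, eventually_map]
      exact hZ'.mono fun x hx => hx.1
    have hmap : Filter.map (T.map c) m =
        Filter.map (T.map c') ((𝒲.map Prod.snd : Ultrafilter (ℂ × ℂ)) : Filter (ℂ × ℂ)) := by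
      rw [hm, Ultrafilter.coe_map, Filter.map_map, Filter.map_map]
      refine Filter.map_congr ?_
      filter_upwards [hZ'] with x hx
      exact hx.2.2.2.symm
    obtain ⟨v, hv⟩ := isV_v1 hV
    have l0 := vert_lim hc hv hm0 hgm
    obtain ⟨l1, l2⟩ := map_lim hc hm0 hgm
    have lne : (Filter.map (T.map c) m).NeBot := by infer_instance
    have hnsp := cx_nsp hc hV hv
    have hvm := v1_mem hc.1 hv
    have hKV : KV T (Filter.map (T.map c) m) := ⟨v, hvm, _, hnsp, l0⟩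
    rcases kinds' (S := S) hc'.1 (hr₀ c' hc' hV') (𝒲.map Prod.snd) (by
        rw [Ultrafilter.coe_map, eventually_map]
        exact hZ'.mono fun x hx => ⟨hx.2.1.1.le, hx.2.1.2.le, hx.2.2.1⟩)
        (by rw [hmap] at l1; exact tendsto_map'_iff.1 l1) with
      ⟨v', b, h1, h2, h3, h4⟩ | ⟨v', a, h1, h0, h2, h3, h4⟩ | ⟨h1, h2⟩ | ⟨h1, h2⟩
    · rw [← hmap] at h4
      obtain rfl := v_unique l1 l2 hvm (v1_mem hc'.1 h1) l0 hnsp h4 h3
      have h5 := tendsto_nhds_unique h4 l0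
      rw [W1_axis hc'] at h5
      exact (hPT c' hc' hV').1 (h1.trans hv.symm) b h2 h5
    · rw [← hmap] at h4
      obtain rfl := v_unique l1 l2 hvm (v2_mem hc'.1 h1) l0 hnsp h4 h3
      have h5 := tendsto_nhds_unique h4 l0
      rw [W2_axis hc' h1] at h5
      exact (hPT c' hc' hV').2 (h1.trans hv.symm) a h0 h2 h5
    · rw [← hmap] at h2
      exact KV_OT l1 l2 hKV h1 h2
    · rw [← hmap] at h2
      exact KV_KT l1 l2 hKV h2
  filter_upwards [h1] with p hp hg c' hc' hV'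
  exact hp c' (Nc_547.mem_CS hc' hV') hg

/-- **over another vertex, no retraction in the core** -/
theorem no_core' {κ : ℝ} (hκ : 0 < κ) {c : Ch T.m} (hc : Ok S c) (hV : IsV c) {v : Vtx}
    (hv : v1 T c ≠ some v) (j : Fin T.d) :
    ∀ᶠ p in 𝓝 (0 : ℂ × ℂ), T.Gen c p → ∀ q, IsRet U v (wc S c j p) q →
      ¬ (‖pV U v q‖ < κ⁻¹ ∧ ∀ c' ∈ sp T v, κ < ‖pV U v q - c'‖) := by
  by_contra hcon
  set A : Set (ℂ × ℂ) := {p | T.Gen c p ∧ ∃ q, IsRet U v (wc S c j p) q ∧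
    (‖pV U v q‖ < κ⁻¹ ∧ ∀ c' ∈ sp T v, κ < ‖pV U v q - c'‖)} with hA
  have hfr : ∃ᶠ p in 𝓝 (0 : ℂ × ℂ), p ∈ A := by
    intro hA'
    refine hcon ?_
    filter_upwards [hA'] with p hp hz q hq hq'
    exact hp ⟨hz, q, hq, hq'⟩
  have hne : (𝓝 (0 : ℂ × ℂ) ⊓ 𝓟 A).NeBot := Filter.frequently_mem_iff_neBot.1 hfr
  obtain ⟨𝒰, h𝒰⟩ := Ultrafilter.exists_le (𝓝 (0 : ℂ × ℂ) ⊓ 𝓟 A)
  have hU1 : (𝒰 : Filter (ℂ × ℂ)) ≤ 𝓝 0 := h𝒰.trans inf_le_left
  have hU2 : ∀ᶠ p in (𝒰 : Filter (ℂ × ℂ)), p ∈ A := h𝒰 (mem_inf_of_right (mem_principal_self _))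
  have hg : ∀ᶠ p in (𝒰 : Filter (ℂ × ℂ)), T.Gen c p := hU2.mono fun p hp => hp.1
  have hvm : v ∈ Vs T := by
    obtain ⟨p, -, q, hq, -⟩ := hU2.exists
    exact hq.1.mem
  have lne : (Filter.map (T.map c) (𝒰 : Filter (ℂ × ℂ))).NeBot := by infer_instance
  have hcomp : IsCompact (closedBall (0 : ℂ) κ⁻¹ ∩ ⋂ c' ∈ sp T v, {w : ℂ | κ ≤ ‖w - c'‖}) := by
    refine (isCompact_closedBall _ _).inter_right ?_
    refine isClosed_biInter fun c' _ => isClosed_le continuous_const ?_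
    fun_prop
  obtain ⟨w, hw, hle⟩ := hcomp.ultrafilter_le_nhds (𝒰.map fun p => wv T v (T.map c p)) (by
    rw [le_principal_iff]
    show ∀ᶠ p in (𝒰 : Filter (ℂ × ℂ)), wv T v (T.map c p) ∈ _
    filter_upwards [hU2] with p hp
    obtain ⟨-, q, hq, hq'⟩ := hp
    have h3 : pV U v q = wv T v (T.map c p) := hq.2.1
    rw [← h3]
    refine ⟨mem_closedBall_zero_iff.2 hq'.1.le, ?_⟩
    rw [mem_iInter₂]
    exact fun c' hc' => (hq'.2 c' hc').le)
  have hws : w ∉ sp T v := by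
    intro hsp
    have h4 := mem_iInter₂.1 hw.2 w hsp
    have h5 : κ ≤ ‖w - w‖ := h4
    rw [sub_self, norm_zero] at h5
    exact absurd h5 (not_le.2 hκ)
  obtain ⟨v', hv'⟩ := isV_v1 hV
  have l0 := vert_lim hc hv' hU1 hg
  obtain ⟨l1, l2⟩ := map_lim hc hU1 hg
  have h6 : v = v' := v_unique l1 l2 hvm (v1_mem hc.1 hv') (w := w)
    (by rw [tendsto_map'_iff]; exact hle) hws l0 (cx_nsp hc hV hv')
  rw [h6] at hv
  exact hv hv'

end Crest.Agent.R257.NuO_808
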