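import Crest.Agent.R257.NuD_938
import Crest.Agent.R257.Nc_547
import Crest.Agent.R257.EndB_636

/-!
# Row 257 (S0395), NULL DATA, piece (Q6) (helper808): existence of the parameters

* `core_cpt`    : compact sets off the special points are in the core;
* `exists_npar` : `NPar L E₀ F` with `t < τ₁`.
-/

set_option autoImplicit false
set_option linter.unusedSectionVars false

open Polynomial Set Filter Topology Metric
open Crest.AlgGeometry.Germ Crest.Agent.R257.AJ387 Crest.Agent.R257.T387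
open Crest.Agent.R257.Gr1_157 Crest.Agent.R257.HoB_843 Crest.Agent.R257.BP_258
open Crest.Agent.R257.Lab_931 Crest.Agent.R257.Wt_258
open Crest.Agent.R257.End_636 Crest.Agent.R257.Nu_938

noncomputable section

namespace Crest.Agent.R257.NuP_808

variable {f : (Fin 3 → ℂ) → ℂ} {T : TB f} {U : Tub T} {S : Sh T}

/-- compact sets off the special points are in the core -/
theorem core_cpt {K : Set ℂ} (hK : IsCompact K) {g : ℂ → ℂ} (hg : ContinuousOn g K) {v : Vtx}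
    (h : ∀ b ∈ K, g b ∉ sp T v) :
    ∀ᶠ κ : ℝ in 𝓝[>] 0, ∀ b ∈ K, ‖g b‖ < κ⁻¹ ∧ ∀ c' ∈ sp T v, κ < ‖g b - c'‖ := by
  obtain ⟨C, hC⟩ := hK.exists_bound_of_continuousOn hg
  have h1 : ∀ᶠ κ : ℝ in 𝓝[>] 0, C < κ⁻¹ :=
    tendsto_inv_nhdsGT_zero.eventually (eventually_gt_atTop _)
  have h2 : ∀ᶠ κ : ℝ in 𝓝[>] 0, ∀ c' ∈ sp T v, ∀ b ∈ K, κ < ‖g b - c'‖ := by
    rw [Filter.eventually_all_finset]
    intro c' hc'
    rcases K.eq_empty_or_nonempty with he | hne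
    · exact Eventually.of_forall fun κ b hb => absurd hb (by rw [he]; exact notMem_empty b)
    obtain ⟨b₀, hb₀, hmin⟩ := hK.exists_isMinOn hne ((hg.sub continuousOn_const).norm (f := fun b => g b - c'))
    have h3 : 0 < ‖g b₀ - c'‖ := by
      rw [norm_pos_iff, sub_ne_zero]
      intro he
      exact h b₀ hb₀ (by rw [he]; exact hc')
    filter_upwards [Ioo_mem_nhdsGT h3] with κ hκ b hb
    exact hκ.2.trans_le (hmin hb)
  filter_upwards [h1, h2] with κ e1 e2 b hb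
  exact ⟨(hC b hb).trans_lt e1, fun c' hc' => e2 c' hc' b hb⟩

lemma cpt_ann (V : Prop) (t r : ℝ) : IsCompact {b : ℂ | ‖b‖ ≤ r ∧ (V ∨ t ≤ ‖b‖)} := by
  by_cases hV : V
  · have : {b : ℂ | ‖b‖ ≤ r ∧ (V ∨ t ≤ ‖b‖)} = closedBall 0 r := by
      ext b; simp [hV]
    rw [this]
    exact isCompact_closedBall _ _
  · have : {b : ℂ | ‖b‖ ≤ r ∧ (V ∨ t ≤ ‖b‖)} = closedBall 0 r ∩ {b | t ≤ ‖b‖} := by
      ext b; simp [hV]
    rw [this]
    exact (isCompact_closedBall _ _).inter_right (isClosed_le continuous_const continuous_norm)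

/-- **(Q6) the parameters exist** -/
theorem exists_npar (L : Lab U S) (hE : EndStmt L) (E₀ : II U) {F : Finset (Ch T.m)}
    (hF : ∀ c ∈ F, Ok S c)
    (hsep : ∃ t₀ > 0, ∀ t : ℝ, 0 < t → t ≤ t₀ → ∀ c ∈ F, ∀ j, ∀ p₀ ∈ Zc S c, ∀ᶠ p in 𝓝 p₀,
      T.Gen c p → ∀ c' j' p', Ok S c' → ¬ IsV c' → p' ∈ BD (2 * t) (2 * t) → T.Gen c' p' →
        wc S c j p = wc S c' j' p' → c' = c) {τ₁ : ℝ} (hτ₁ : 0 < τ₁) :
    ∃ P : NPar L E₀ F, P.t < τ₁ := by
  classical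
  obtain ⟨t₀, ht₀, hsep⟩ := hsep
  obtain ⟨r₀, hr₀, hrad⟩ := Nc_547.exists_rad S
  obtain ⟨q₀, -⟩ : ∃ q : XV U E₀.1.1, (q : ConnectedComponents (XV U E₀.1.1)) = E₀.2 :=
    Quot.exists_rep E₀.2
  -- the ends
  have g1 : ∀ c, ∃ γ : Fin T.d → ℂ → XV U E₀.1.1, Ok S c → v1 T c = some E₀.1.1 →
      End1 U S c E₀.1.1 γ ∧ ∀ j, ∀ b ∈ PDv S c, L.e1 c j = some (lab U E₀.1 (γ j b)) := by
    intro c
    by_cases h : Ok S c ∧ v1 T c = some E₀.1.1
    · obtain ⟨γ, h1⟩ := (hE c h.1 E₀.1).1 h.2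
      exact ⟨γ, fun _ _ => h1⟩
    · exact ⟨fun _ _ => q₀, fun h1 h2 => absurd ⟨h1, h2⟩ h⟩
  have g2 : ∀ c, ∃ γ : Fin T.d → ℂ → XV U E₀.1.1, Ok S c → v2 T c = some E₀.1.1 →
      End2 U S c E₀.1.1 γ ∧ ∀ j, ∀ a ∈ PDc S c, L.e2 c j = some (lab U E₀.1 (γ j a)) := by
    intro c
    by_cases h : Ok S c ∧ v2 T c = some E₀.1.1
    · obtain ⟨γ, h1⟩ := (hE c h.1 E₀.1).2 h.2
      exact ⟨γ, fun _ _ => h1⟩
    · exact ⟨fun _ _ => q₀, fun h1 h2 => absurd ⟨h1, h2⟩ h⟩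
  choose γ1 hγ1 using g1
  choose γ2 hγ2 using g2
  -- the radius
  set t : ℝ := min (min t₀ (r₀ / 2)) (τ₁ / 2) with ht
  have t0 : 0 < t := lt_min (lt_min ht₀ (by linarith)) (by linarith)
  have tt₀ : t ≤ t₀ := (min_le_left _ _).trans (min_le_left _ _)
  have tr₀ : t ≤ r₀ / 2 := (min_le_left _ _).trans (min_le_right _ _)
  have tτ : t < τ₁ := (min_le_right _ _).trans_lt (by linarith)
  -- the core
  have k1 : ∀ᶠ κ : ℝ in 𝓝[>] 0, ∀ c ∈ F, v1 T c = some E₀.1.1 → ∀ b : ℂ, ‖b‖ ≤ S.r c →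
      (IsV c ∨ t ≤ ‖b‖) → ‖cx T c + b ^ lx T c‖ < κ⁻¹ ∧
        ∀ c' ∈ sp T E₀.1.1, κ < ‖cx T c + b ^ lx T c - c'‖ := by
    rw [Filter.eventually_all_finset]
    intro c hc
    by_cases hv : v1 T c = some E₀.1.1
    · filter_upwards [core_cpt (T := T) (cpt_ann (IsV c) t (S.r c))
        (g := fun b => cx T c + b ^ lx T c) (v := E₀.1.1)
        (Continuous.continuousOn (by fun_prop)) (fun b hb => by
          have h1 := W1_zero S (hF c hc).1 hv hb.1 (hb.2.imp_right fun h h0 => by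
            rw [h0, norm_zero] at h; linarith)
          rwa [W1_axis (hF c hc)] at h1)] with κ hκ _ b hb hb'
      exact hκ b ⟨hb, hb'⟩
    · exact Eventually.of_forall fun κ h => absurd h hv
  have k2 : ∀ᶠ κ : ℝ in 𝓝[>] 0, ∀ c ∈ F, v2 T c = some E₀.1.1 → ∀ a : ℂ, ‖a‖ ≤ S.r c →
      t ≤ ‖a‖ → ‖(a ^ lx T c)⁻¹‖ < κ⁻¹ ∧
        ∀ c' ∈ sp T E₀.1.1, κ < ‖(a ^ lx T c)⁻¹ - c'‖ := by
    rw [Filter.eventually_all_finset]
    intro c hc
    by_cases hv : v2 T c = some E₀.1.1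
    · have hne : ∀ a ∈ {b : ℂ | ‖b‖ ≤ S.r c ∧ (False ∨ t ≤ ‖b‖)}, a ≠ 0 := by
        rintro a ⟨-, ha⟩ rfl
        rw [norm_zero] at ha
        have := ha.resolve_left id
        linarith
      filter_upwards [core_cpt (T := T) (cpt_ann False t (S.r c))
        (g := fun a => (a ^ lx T c)⁻¹) (v := E₀.1.1)
        (ContinuousOn.inv₀ (Continuous.continuousOn (by fun_prop)) fun a ha =>
          pow_ne_zero _ (hne a ha)) (fun a ha => by
          have h1 := W2_zero S (hF c hc).1 hv ha.1 (hne a ha)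
          rwa [W2_axis (hF c hc) hv] at h1)] with κ hκ _ a ha ha'
      exact hκ a ⟨ha, Or.inr ha'⟩
    · exact Eventually.of_forall fun κ h => absurd h hv
  obtain ⟨κ, ⟨hk1, hk2⟩, hκ⟩ := ((k1.and k2).and self_mem_nhdsWithin).exists
  refine ⟨⟨γ1, γ2, t, κ, t0, hκ, hF, fun c hc hv => hγ1 c hc hv, fun c hc hv => hγ2 c hc hv,
    fun c hc hV => ?_, hsep t t0 tt₀, fun c hc hv j b hb hb' => ?_,
    fun c hc hv j a ha ha' => ?_⟩, tτ⟩
  · have := hrad c hc hV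
    linarith
  · have hbP : b ∈ PDv S c := ⟨hb'.imp_right fun h => t0.trans_le h, by
      have := S.pos c; linarith⟩
    have e := (hγ1 c (hF c hc) hv).1.pr j b hbP
    have h1 := hk1 c hc hv b hb hb'
    rw [← e] at h1
    exact h1
  · have haP : a ∈ PDc S c := ⟨t0.trans_le ha', by have := S.pos c; linarith⟩
    have e := (hγ2 c (hF c hc) hv).1.pr j a haP
    have h1 := hk2 c hc hv a ha ha'
    rw [← e] at h1
    exact h1

end Crest.Agent.R257.NuP_808
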