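import Crest.Agent.R257.Nd2_980

/-!
# Row 257, NULL DATA (helper843): piece (Q7), the three output clauses of `NullStmt`

Hypotheses: the local forms of `P.G fX` at the origins of the charts of `F`.
-/

set_option autoImplicit false
set_option linter.unusedSectionVars false
set_option linter.unusedVariables false

open Polynomial Set Filter Topology Metric
open Crest.AlgGeometry.Germ Crest.Agent.R257.AJ387 Crest.Agent.R257.T387
open Crest.Agent.R257.Gr1_157 Crest.Agent.R257.HoB_843 Crest.Agent.R257.BP_258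
open Crest.Agent.R257.Wt_258 Crest.Agent.R257.Rsn_843 Crest.Agent.R257.Exf_843
open Crest.Agent.R257.CDataA_250 Crest.Agent.R257.Nu_938 Crest.Agent.R257.Lab_931


noncomputable section

namespace Crest.Agent.R257.NuQ7_843

variable {f : (Fin 3 → ℂ) → ℂ} {T : TB f} {S : Sh T} {U : Tub T}
variable {L : Lab U S} {E₀ : II U} {F : Finset (Ch T.m)} (P : NPar L E₀ F)
  {fX : XV U E₀.1.1 → ℂ} {H : (Fin 3 → ℂ) → ℂ}

lemma e2_noneV (L : Lab U S) {c : Ch T.m} (hc : Ok S c) (hV : IsV c) (j : Fin T.d) :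
    L.e2 c j = none := by
  have := L.v_e2 c hc j
  have hv2 : v2 T c = none := by
    cases c with
    | edge i k k' => exact absurd hV id
    | leg i => rfl
    | vert i k w => rfl
  rw [hv2] at this
  simpa using this

/-- the test points of `E₀` -/
theorem out1 (hR : RetStmt U) {c : Ch T.m} (hc : c ∈ F) (hV : IsV c) {j : Fin T.d}
    (hE : L.e1 c j = some E₀)
    (hG : ∀ᶠ p in 𝓝 ((0 : ℂ), (0 : ℂ)), T.Gen c p → P.G fX (wc S c j p) = fX (P.γ1 c j p.2))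
    {γ : Fin T.d → ℂ → XV U E₀.1.1} (hγ : End1 U S c E₀.1.1 γ) :
    ∀ᶠ p in 𝓝 ((0 : ℂ), (0 : ℂ)), T.Gen c p →
      P.D fX H (wc S c j p) = H (wc S c j p) * fX (γ j p.2) := by
  have hok := P.hF c hc
  have hv : v1 T c = some E₀.1.1 := by
    have h1 := L.v_e1 c hok j
    rw [hE] at h1
    exact h1.symm
  obtain ⟨hγ1, -⟩ := P.end1 c hok hv
  have hb : (0 : ℂ) ∈ PDv S c := ⟨Or.inl hV, by simpa using S.pos c⟩
  have h1 := Nd_980.ret_vert hR hok hV hv hγ1 hb j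
  have h2 := Nd_980.ret_vert hR hok hV hv hγ hb j
  filter_upwards [hG, h1, h2] with p q1 q2 q3 hg
  have h3 : γ j p.2 = P.γ1 c j p.2 := ret_uniq hR (q3 (CDataB_250.gen_fst hg)) (q2 (CDataB_250.gen_fst hg))
  show H (wc S c j p) * P.G fX (wc S c j p) = _
  rw [q1 hg, h3]

/-- the data vanish where `G` does -/
theorem out0 {c : Ch T.m} {j : Fin T.d} {p₀ : ℂ × ℂ}
    (hG : ∀ᶠ p in 𝓝 p₀, T.Gen c p → P.G fX (wc S c j p) = 0) :
    ∀ᶠ p in 𝓝 p₀, T.Gen c p → P.D fX H (wc S c j p) = 0 := by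
  filter_upwards [hG] with p hp hg
  show H (wc S c j p) * P.G fX (wc S c j p) = 0
  rw [hp hg, mul_zero]

/-- a neighbourhood of the origin contains a bidisc -/
lemma ex_BD {Q : ℂ × ℂ → Prop} (h : ∀ᶠ p in 𝓝 ((0 : ℂ), (0 : ℂ)), Q p) :
    ∃ r > 0, ∀ p ∈ BD r r, Q p := by
  obtain ⟨ε, hε, hb⟩ := Metric.eventually_nhds_iff.1 h
  refine ⟨ε, hε, fun p hp => hb ?_⟩
  rw [Prod.dist_eq, dist_zero_right, dist_zero_right]
  exact max_lt hp.1 hp.2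

/-- a top edge with `e2 = E₀` -/
theorem out_top (hR : RetStmt U) {n1 n2 : Ch T.m → Fin T.d → ℤ} {y : II U → ℝ} {a : ℕ}
    {h1 h2 e : Ch T.m → Fin T.d → ℝ} (hd : NDat L n1 n2 E₀ y a fX H h1 h2 e)
    {c : Ch T.m} (hc : c ∈ F) {j : Fin T.d} (hE : L.e2 c j = some E₀)
    (hG : ∀ᶠ p in 𝓝 ((0 : ℂ), (0 : ℂ)), T.Gen c p → P.G fX (wc S c j p) = fX (P.γ2 c j p.1)) :
    ∃ r > 0, ∃ C' : ℝ, ∀ p ∈ BD r r, T.Gen c p →
      ContinuousAt (P.D fX H ∘ wc S c j) p ∧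
      ‖P.D fX H (wc S c j p)‖ ≤ C' * (‖p.1‖ ^ (h1 c j + e c j) * ‖p.2‖ ^ h2 c j) := by
  have hok := P.hF c hc
  have hv : v2 T c = some E₀.1.1 := by
    have h1 := L.v_e2 c hok j
    rw [hE] at h1
    exact h1.symm
  obtain ⟨hγ2, -⟩ := P.end2 c hok hv
  obtain ⟨C₁, hC₁, hb1⟩ := hd.Hbd c hok j (Or.inr hE)
  obtain ⟨C₂, r', hC₂, hr', hb2⟩ := hd.f2 c hok hv (P.γ2 c) hγ2 j hE
  obtain ⟨r, hr, hGr⟩ := ex_BD hG
  have hS := S.pos c
  set r₁ : ℝ := min r (min r' (S.r c)) with hr₁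
  have hr₁0 : 0 < r₁ := lt_min hr (lt_min hr' hS)
  have l1 : r₁ ≤ r := min_le_left _ _
  have l2 : r₁ ≤ r' := (min_le_right _ _).trans (min_le_left _ _)
  have l3 : r₁ ≤ S.r c := (min_le_right _ _).trans (min_le_right _ _)
  have hne1 : ∀ p : ℂ × ℂ, T.Gen c p → p.1 ≠ 0 := fun p hg => CDataB_250.gen_fst hg
  refine ⟨r₁, hr₁0, C₁ * C₂, fun p hp hg => ?_⟩
  have hp1 := hne1 p hg
  have hp1' : 0 < ‖p.1‖ := norm_pos_iff.2 hp1
  have hpr : p ∈ BD r r := ⟨hp.1.trans_le l1, hp.2.trans_le l1⟩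
  have hval : P.D fX H (wc S c j p) = H (wc S c j p) * fX (P.γ2 c j p.1) := by
    show H (wc S c j p) * P.G fX (wc S c j p) = _
    rw [hGr p hpr hg]
  refine ⟨?_, ?_⟩
  · have ha : p.1 ∈ PDc S c := ⟨hp1', by have := hp.1.trans_le l3; linarith⟩
    have e1 : AnalyticAt ℂ (fun z => fX (P.γ2 c j z)) p.1 := Nd_980.an2 P hR hd.hol hok hv j ha
    have e2 : ContinuousAt (fun q : ℂ × ℂ => fX (P.γ2 c j q.1)) p :=
      ContinuousAt.comp (g := fun z => fX (P.γ2 c j z)) e1.continuousAt continuousAt_fst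
    have e3 : ContinuousAt (H ∘ wc S c j) p := (hd.Han c hok j p
      (by have := hp.1.trans_le l3; linarith) (by have := hp.2.trans_le l3; linarith)
      hg).continuousAt
    have e4 : (fun q => (H ∘ wc S c j) q * fX (P.γ2 c j q.1)) =ᶠ[𝓝 p]
        (P.D fX H ∘ wc S c j) := by
      have o1 : ∀ᶠ q in 𝓝 p, q ∈ BD r r := (isOpen_BD _ _).mem_nhds hpr
      have o2 : ∀ᶠ q in 𝓝 p, T.Gen c q := (CDataB_250.isOpen_Gen c).mem_nhds hg
      filter_upwards [o1, o2] with q h3 h4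
      show H (wc S c j q) * fX (P.γ2 c j q.1) = H (wc S c j q) * P.G fX (wc S c j q)
      rw [hGr q h3 h4]
    exact (e3.mul e2).congr e4
  · rw [hval, norm_mul]
    have e1 := hb1 p (hp.1.trans_le l3).le (hp.2.trans_le l3).le hg
    have e2 := hb2 p.1 hp1' (hp.1.trans_le l2)
    have e3 : ‖p.1‖ ^ (h1 c j + e c j) = ‖p.1‖ ^ h1 c j * ‖p.1‖ ^ e c j := Real.rpow_add hp1' _ _
    calc ‖H (wc S c j p)‖ * ‖fX (P.γ2 c j p.1)‖
        ≤ (C₁ * (‖p.1‖ ^ h1 c j * ‖p.2‖ ^ h2 c j)) * (C₂ * ‖p.1‖ ^ e c j) :=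
          mul_le_mul e1 e2 (norm_nonneg _) (by positivity)
      _ = C₁ * C₂ * (‖p.1‖ ^ (h1 c j + e c j) * ‖p.2‖ ^ h2 c j) := by rw [e3]; ring

/-- **(Q7)**: the output clauses -/
theorem outs (hR : RetStmt U) {n1 n2 : Ch T.m → Fin T.d → ℤ} {y : II U → ℝ} {a : ℕ}
    {h1 h2 e : Ch T.m → Fin T.d → ℝ} (hd : NDat L n1 n2 E₀ y a fX H h1 h2 e)
    (F1 : ∀ c ∈ F, IsV c → ∀ j, L.e1 c j = some E₀ →
      ∀ᶠ p in 𝓝 ((0 : ℂ), (0 : ℂ)), T.Gen c p → P.G fX (wc S c j p) = fX (P.γ1 c j p.2))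
    (F4 : ∀ c ∈ F, IsV c → ∀ j, L.e1 c j ≠ some E₀ →
      ∀ᶠ p in 𝓝 ((0 : ℂ), (0 : ℂ)), T.Gen c p → P.G fX (wc S c j p) = 0)
    (F0b : ∀ c ∈ F, ¬ IsV c → ∀ j, L.e2 c j = some E₀ →
      ∀ᶠ p in 𝓝 ((0 : ℂ), (0 : ℂ)), T.Gen c p → P.G fX (wc S c j p) = fX (P.γ2 c j p.1))
    (F0c : ∀ c ∈ F, ¬ IsV c → ∀ j, L.e1 c j ≠ some E₀ → L.e2 c j ≠ some E₀ →
      ∀ᶠ p in 𝓝 ((0 : ℂ), (0 : ℂ)), T.Gen c p → P.G fX (wc S c j p) = 0) :
    (∀ c ∈ F, IsV c → ∀ j, L.e1 c j = some E₀ → ∀ γ, End1 U S c E₀.1.1 γ →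
      ∀ᶠ p in 𝓝 ((0 : ℂ), (0 : ℂ)), T.Gen c p →
        P.D fX H (wc S c j p) = H (wc S c j p) * fX (γ j p.2)) ∧
    (∀ c ∈ F, IsV c → ∀ j, L.e1 c j ≠ some E₀ →
      ∀ᶠ p in 𝓝 ((0 : ℂ), (0 : ℂ)), T.Gen c p → P.D fX H (wc S c j p) = 0) ∧
    (∀ c ∈ F, v1 T c = none → ∀ j,
      (L.e2 c j = some E₀ → ∃ r > 0, ∃ C' : ℝ, ∀ p ∈ BD r r, T.Gen c p →
        ContinuousAt (P.D fX H ∘ wc S c j) p ∧
        ‖P.D fX H (wc S c j p)‖ ≤ C' * (‖p.1‖ ^ (h1 c j + e c j) * ‖p.2‖ ^ h2 c j)) ∧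
      (L.e2 c j ≠ some E₀ → ∃ r > 0, ∀ p ∈ BD r r, T.Gen c p →
        P.D fX H (wc S c j p) = 0)) := by
  refine ⟨fun c hc hV j hE γ hγ => out1 P hR hc hV hE (F1 c hc hV j hE) hγ,
    fun c hc hV j hE => out0 P (F4 c hc hV j hE), fun c hc hv j => ?_⟩
  have hnV : ¬ IsV c := by
    intro hV
    cases c with
    | edge i k k' => exact hV
    | leg i => exact hV
    | vert i k w => simp [v1] at hv
  refine ⟨fun hE => out_top P hR hd hc hE (F0b c hc hnV j hE), fun hE => ?_⟩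
  have he1 : L.e1 c j ≠ some E₀ := by
    intro h3
    have h4 := L.v_e1 c (P.hF c hc) j
    rw [h3, hv] at h4
    simp at h4
  exact ex_BD (out0 P (F0c c hc hnV j he1 hE))

end Crest.Agent.R257.NuQ7_843
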