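import Crest.Agent.R257.WtAs_82
import Crest.Agent.R257.Cor2_547

/-!
# Row 257 (S0395), C-WT (helper82): `WTDStmt` from the leaves (P'), (F3), (F4), `TubeOut`
-/

set_option autoImplicit false
set_option linter.unusedSectionVars false
set_option linter.unusedVariables false

open Polynomial Set Filter Topology Metric
open Crest.AlgGeometry.Germ Crest.Agent.R257.AJ387 Crest.Agent.R257.T387
open Crest.Agent.R257.Gr1_157 Crest.Agent.R257.HoB_843 Crest.Agent.R257.BP_258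
open Crest.Agent.R257.Frm_547 Crest.Agent.R257.Lab_931 Crest.Agent.R257.Wt_258

noncomputable section

namespace Crest.Agent.R257.WtAs_82

variable {f : (Fin 3 → ℂ) → ℂ} {T : TB f} {U : Tub T} {S : Sh T}

/-- the points of `{s = 0}` of a chart: corners, top curve, axes with a vertex -/
theorem cases_pt {c : Ch T.m} {p₀ : ℂ × ℂ} (h1 : ‖p₀.1‖ ≤ S.r c) (h2 : ‖p₀.2‖ ≤ S.r c)
    (h0 : (T.map c p₀).1 = 0) :
    ((p₀ = 0 ∧ ¬ IsV c) ∨ (v1 T c = none ∧ p₀.1 = 0 ∧ ‖p₀.2‖ ≤ S.r c)) ∨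
    (∃ v b, v1 T c = some v ∧ ‖b‖ ≤ S.r c ∧ (IsV c ∨ b ≠ 0) ∧ p₀ = (0, b)) ∨
    (∃ v a, v2 T c = some v ∧ ‖a‖ ≤ S.r c ∧ a ≠ 0 ∧ p₀ = (a, 0)) := by
  obtain ⟨x, z⟩ := p₀
  cases c with
  | edge i k k' =>
    have h3 : x * z = 0 := h0
    by_cases hx : x = 0
    · subst hx
      by_cases hz : z = 0
      · subst hz
        exact Or.inl (Or.inl ⟨rfl, fun h => h⟩)
      · rcases h4 : v1 T (.edge i k k') with _ | v
        · exact Or.inl (Or.inr ⟨rfl, rfl, h2⟩)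
        · exact Or.inr (Or.inl ⟨v, z, rfl, h2, Or.inr hz, rfl⟩)
    · have hz : z = 0 := (mul_eq_zero.1 h3).resolve_left hx
      subst hz
      exact Or.inr (Or.inr ⟨vx T i k', x, rfl, h1, hx, rfl⟩)
  | leg i =>
    have h3 : x = 0 := h0
    subst h3
    by_cases hz : z = 0
    · subst hz
      exact Or.inl (Or.inl ⟨rfl, fun h => h⟩)
    · exact Or.inr (Or.inl ⟨_, z, rfl, h2, Or.inr hz, rfl⟩)
  | vert i k w₀ =>
    have h3 : x = 0 := h0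
    subst h3
    exact Or.inr (Or.inl ⟨_, z, rfl, h2, Or.inl trivial, rfl⟩)

/-- **`WTDStmt` from its leaves** -/
theorem wtd_of (L : Lab U S) [Fintype (II U)]
    (hP : ∀ (y : II U → ℝ) (F : Finset (Ch T.m)) (K : DKill S F), (∀ c ∈ F, Ok S c) →
      (∀ E, DSup L y K E) →
      ∃ τ₁ > 0, Unk K τ₁ ∧ ∀ τ₀ > 0, τ₀ < τ₁ → Nonempty (WPar L y K τ₀ τ₁))
    (hT : ∀ (y : II U → ℝ) (F : Finset (Ch T.m)) (K : DKill S F) (τ₀ τ₁ : ℝ)
      (P : WPar L y K τ₀ τ₁) (v : Vtx) (q₀ : XV U v) (D : TC U v q₀), TubeOut P D)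
    (hR : RetStmt U)
    (hF4a : ∀ (y : II U → ℝ) (F : Finset (Ch T.m)) (K : DKill S F) (τ₀ τ₁ : ℝ)
      (P : WPar L y K τ₀ τ₁), 0 < τ₀ → Unk K τ₁ → ∀ c ∈ F, ∀ j v, v1 T c = some v → ∀ b : ℂ,
      ‖b‖ ≤ S.r c → (IsV c ∨ b ≠ 0) →
      (∀ {v : Vtx} {q₀ : XV U v} (D : TC U v q₀), TubeOut P D) → LocS P c j (0, b))
    (hF4b : ∀ (y : II U → ℝ) (F : Finset (Ch T.m)) (K : DKill S F) (τ₀ τ₁ : ℝ)
      (P : WPar L y K τ₀ τ₁), 0 < τ₀ → Unk K τ₁ → ∀ c ∈ F, ∀ j v, v2 T c = some v → ∀ a : ℂ,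
      ‖a‖ ≤ S.r c → a ≠ 0 →
      (∀ {v : Vtx} {q₀ : XV U v} (D : TC U v q₀), TubeOut P D) → LocS P c j (a, 0)) :
    WTDStmt L := by
  refine assemble L hP (y_nn L) ?_
  intro y F K τ₀ τ₁ h0 h01 hu P c hc j p₀ hp1 hp2 hs
  rcases cases_pt hp1 hp2 hs with h | ⟨v, b, hv, hb, hb0, rfl⟩ | ⟨v, a, hv, ha, ha0, rfl⟩
  · exact Cor_547.loc_corner P hR h0 hc j h
  · exact hF4a y F K τ₀ τ₁ P h0 hu c hc j v hv b hb hb0
      fun {v q₀} D => hT y F K τ₀ τ₁ P v q₀ D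
  · exact hF4b y F K τ₀ τ₁ P h0 hu c hc j v hv a ha ha0
      fun {v q₀} D => hT y F K τ₀ τ₁ P v q₀ D

end Crest.Agent.R257.WtAs_82
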