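import Crest.Agent.R257.NuA_121
import Crest.Agent.R257.NuD_938
import Crest.Agent.R257.WtTop_82

/-!
Row 257 (S0395), **null data, last assembly** (helper121): `NullStmt` from the local forms.
-/

set_option autoImplicit false
set_option linter.unusedSectionVars false
set_option linter.unusedVariables false

open Polynomial Set Filter Topology Metric
open Crest.AlgGeometry.Germ Crest.Agent.R257.AJ387 Crest.Agent.R257.T387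
open Crest.Agent.R257.Gr1_157 Crest.Agent.R257.HoB_843 Crest.Agent.R257.BP_258
open Crest.Agent.R257.Wt_258 Crest.Agent.R257.Rsn_843 Crest.Agent.R257.Exf_843
open Crest.Agent.R257.CDataA_250 Crest.Agent.R257.NuA_121 Crest.Agent.R257.Nu_938

noncomputable section

namespace Crest.Agent.R257.NuY_121

variable {f : (Fin 3 → ℂ) → ℂ} {T : TB f} {S : Sh T} {U : Tub T}

/-- the points over the origin -/
theorem cases0 {c : Ch T.m} (hc : T.Valid c) {p₀ : ℂ × ℂ} (h1 : ‖p₀.1‖ ≤ S.r c)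
    (h2 : ‖p₀.2‖ ≤ S.r c) (h0 : T.map c p₀ = 0) :
    (p₀ = (0, 0) ∧ ¬ IsV c) ∨
    (∃ b, v1 T c ≠ none ∧ ‖b‖ ≤ S.r c ∧ (IsV c ∨ b ≠ 0) ∧ p₀ = (0, b)) ∨
    (∃ a, v2 T c ≠ none ∧ ‖a‖ ≤ S.r c ∧ a ≠ 0 ∧ p₀ = (a, 0)) := by
  have h3 := (T.map_eq_zero hc p₀).1 h0
  have h4 : (T.map c p₀).1 = 0 := by rw [h0]; rfl
  rcases WtAs_82.cases_pt (S := S) h1 h2 h4 with (h | ⟨hv, hx, -⟩) | ⟨v, b, hv, hb, hb0, hp⟩ |
    ⟨v, a, hv, ha, ha0, hp⟩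
  · exact Or.inl h
  · cases c with
    | edge i k k' =>
      have hk : k = 0 := by
        by_contra hk
        simp only [v1, hk, if_false] at hv
        exact absurd hv (by simp)
      rcases h3 with h | h
      · exact absurd hk h.1
      · exact Or.inl ⟨Prod.ext hx h, fun h => h⟩
    | leg i => exact absurd hv (by simp [v1])
    | vert i k w => exact absurd hv (by simp [v1])
  · exact Or.inr (Or.inl ⟨b, by rw [hv]; simp, hb, hb0, hp⟩)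
  · exact Or.inr (Or.inr ⟨a, by rw [hv]; simp, ha, ha0, hp⟩)

variable {L : Lab U S}

/-- **the data are admissible**, from the local statements for all points over the origin -/
theorem null_of {nu : II U → ℤ} {n1 n2 : Ch T.m → Fin T.d → ℤ} (J : Jac L nu n1 n2)
    (hnp : ∀ (E₀ : II U) (F : Finset (Ch T.m)), (∀ c ∈ F, Ok S c) → Nonempty (NPar L E₀ F))
    (hloc : ∀ (E₀ : II U) (y : II U → ℝ) (a : ℕ) (fX : XV U E₀.1.1 → ℂ)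
      (H : (Fin 3 → ℂ) → ℂ) (h1 h2 e : Ch T.m → Fin T.d → ℝ),
      NDat L n1 n2 E₀ y a fX H h1 h2 e → ∀ (F : Finset (Ch T.m)) (P : NPar L E₀ F),
      ∀ c ∈ F, ∀ j, ∀ p₀ : ℂ × ℂ, ‖p₀.1‖ ≤ S.r c → ‖p₀.2‖ ≤ S.r c → T.map c p₀ = 0 →
        LocN L n1 n2 y a (P.D fX H) c j p₀)
    (hout1 : ∀ (E₀ : II U) (y : II U → ℝ) (a : ℕ) (fX : XV U E₀.1.1 → ℂ)
      (H : (Fin 3 → ℂ) → ℂ) (h1 h2 e : Ch T.m → Fin T.d → ℝ),
      NDat L n1 n2 E₀ y a fX H h1 h2 e → ∀ (F : Finset (Ch T.m)) (P : NPar L E₀ F),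
      ∀ c ∈ F, IsV c → ∀ j, L.e1 c j = some E₀ → ∀ γ, End1 U S c E₀.1.1 γ →
      ∀ᶠ p in 𝓝 ((0 : ℂ), (0 : ℂ)), T.Gen c p →
        P.D fX H (wc S c j p) = H (wc S c j p) * fX (γ j p.2))
    (hout2 : ∀ (E₀ : II U) (y : II U → ℝ) (a : ℕ) (fX : XV U E₀.1.1 → ℂ)
      (H : (Fin 3 → ℂ) → ℂ) (h1 h2 e : Ch T.m → Fin T.d → ℝ),
      NDat L n1 n2 E₀ y a fX H h1 h2 e → ∀ (F : Finset (Ch T.m)) (P : NPar L E₀ F),
      ∀ c ∈ F, IsV c → ∀ j, L.e1 c j ≠ some E₀ →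
      ∀ᶠ p in 𝓝 ((0 : ℂ), (0 : ℂ)), T.Gen c p → P.D fX H (wc S c j p) = 0)
    (hout3 : ∀ (E₀ : II U) (y : II U → ℝ) (a : ℕ) (fX : XV U E₀.1.1 → ℂ)
      (H : (Fin 3 → ℂ) → ℂ) (h1 h2 e : Ch T.m → Fin T.d → ℝ),
      NDat L n1 n2 E₀ y a fX H h1 h2 e → ∀ (F : Finset (Ch T.m)) (P : NPar L E₀ F),
      ∀ c ∈ F, v1 T c = none → ∀ j,
      (L.e2 c j = some E₀ → ∃ r > 0, ∃ C' : ℝ, ∀ p ∈ BD r r, T.Gen c p →
        ContinuousAt (P.D fX H ∘ wc S c j) p ∧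
        ‖P.D fX H (wc S c j p)‖ ≤ C' * (‖p.1‖ ^ (h1 c j + e c j) * ‖p.2‖ ^ h2 c j)) ∧
      (L.e2 c j ≠ some E₀ → ∃ r > 0, ∀ p ∈ BD r r, T.Gen c p → P.D fX H (wc S c j p) = 0)) :
    NullStmt L n1 n2 := by
  intro E₀ y a fX H h1 h2 e hd F' hF'
  refine ⟨F', hF', subset_rfl, fun F hFF hF τ₁ hτ₁ => ?_⟩
  obtain ⟨P⟩ := hnp E₀ F hF
  obtain ⟨τ₀, h0, h0', hadm⟩ := adm_of_loc J hF
    (hloc E₀ y a fX H h1 h2 e hd F P) τ₁ hτ₁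
  refine ⟨τ₀, h0, h0', fun Φ ρ₀ C c₀ W => ?_⟩
  obtain ⟨ρ, O, κ, hρ, hρ', hA⟩ := hadm Φ ρ₀ C c₀ W
  exact ⟨ρ, P.D fX H, O, κ, hρ, hρ', hA,
    fun c hc => hout1 E₀ y a fX H h1 h2 e hd F P c (hFF hc),
    fun c hc => hout2 E₀ y a fX H h1 h2 e hd F P c (hFF hc),
    fun c hc => hout3 E₀ y a fX H h1 h2 e hd F P c (hFF hc)⟩

end Crest.Agent.R257.NuY_121
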