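import Mathlib
import Crest.Agent.R257.CDataN_250

/-!
Row 257, part C: copy (helper176) of helper250's `null_data` (CDataP_250) with one more output: the points of
the top edges belong to the open sets `O` (so the data are smooth there).
-/

set_option autoImplicit false
set_option linter.unusedSectionVars false

noncomputable section

open Set Filter Topology MeasureTheory Metric
open scoped ENNReal

namespace Crest.Agent.R257.NuZ_176

open Crest.Agent.R257.CDataL_250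

open Crest.AlgGeometry.Germ Crest.Agent.R257.AJ387 Crest.Agent.R257.T387
open Crest.Agent.R257.Gr1_157 Crest.Agent.R257.HoB_843 Crest.Agent.R257.BP_258
open Crest.Agent.R257.CDataA_250 Crest.Agent.R257.CDataB_250 Crest.Agent.R257.CDataE_250
open Crest.Agent.R257.CDataG_250 Crest.Agent.R257.CDataH_250 Crest.Agent.R257.CDataI_250
open Crest.Agent.R257.Wt_258 Crest.Agent.R257.Rsn_843 Crest.Agent.R257.Vt2_558
open Crest.Agent.R257.FrmE_547 (CB)
open Crest.Agent.R257.FrmF_547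

variable {f : (Fin 3 → ℂ) → ℂ} {T : TB f} {U : Tub T} {S : Sh T}

section
variable {L : Lab U S} {e₀ : II U} {f₀ : XV U e₀.1.1 → ℂ} {H : (Fin 3 → ℂ) → ℂ}
    {y : II U → ℝ} {n1 n2 : Ch T.m → Fin T.d → ℤ} {h1 h2 e : Ch T.m → Fin T.d → ℝ}
    {a : ℕ} {nu : II U → ℤ}

open Classical in
/-- **THE NULL DATA** -/
theorem null_data2 (hR : RetStmt U) (hE : EndStmt L) (J : Jac L nu n1 n2)
    (N : NH L e₀ f₀ H y n1 n2 h1 h2 e a) (F' : Finset (Ch T.m)) (hF' : ∀ c ∈ F', Ok S c) :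
    ∃ τ > 0, ∃ F₀ : Finset (Ch T.m), F' ⊆ F₀ ∧ (∀ c ∈ F₀, Ok S c) ∧
      ∀ F, F₀ ⊆ F → (∀ c ∈ F, Ok S c) → ∀ (Φ : (Fin 3 → ℂ) → ℝ) (ρ₀ C c₀ : ℝ),
      WTk L y F univ τ 1 Φ ρ₀ C c₀ →
      (∀ c ∈ F, ∀ j, ∀ p ∈ Og (S := S) c ρ₀, ContDiffAt ℝ (⊤ : ℕ∞) (Φ ∘ wc S c j) p) →
      ∃ ρ > 0, ρ ≤ ρ₀ ∧ ∃ (D : (Fin 3 → ℂ) → ℂ) (O : Ch T.m → Fin T.d → Set (ℂ × ℂ))
        (κ : Ch T.m → Fin T.d → ℂ × ℂ → ℝ),
        Adm S F (fun x => Φ x + a * Real.log (‖x 1‖ ^ 2)) ρ (fun x => x 1 ^ a * D x) O κ ∧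
        -- test charts
        (∀ c ∈ F', IsV c → ∀ j, L.e1 c j = some e₀ → ∀ p ∈ Og (S := S) c ρ,
          ‖(T.map c p).2‖ < ρ → ∀ q, IsRet U e₀.1.1 (wc S c j p) q →
            D (wc S c j p) = H (wc S c j p) * f₀ q) ∧
        (∀ c ∈ F', ∀ j, L.e1 c j ≠ some e₀ → L.e2 c j ≠ some e₀ → ∀ p ∈ Og (S := S) c ρ,
          D (wc S c j p) = 0) ∧
        -- top edges
        (∀ c ∈ F, ∀ j, L.e1 c j = none →
          (L.e2 c j = some e₀ → ∃ C', ∀ p ∈ Og (S := S) c ρ, ‖(T.map c p).2‖ < ρ → p ∈ O c j ∧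
            ‖D (wc S c j p)‖ ≤ C' * (‖p.1‖ ^ (h1 c j + e c j) * ‖p.2‖ ^ h2 c j)) ∧
          (L.e2 c j ≠ some e₀ → ∀ p ∈ Og (S := S) c ρ, D (wc S c j p) = 0)) := by
  obtain ⟨γ, F₀, τ, b, b₁, C, hgr, hcov⟩ := exists_Cx hR hE N F' hF'
  have hτ := C.τ_pos
  refine ⟨τ, hτ, F₀, Finset.subset_union_left.trans C.sub, C.ok,
    fun F hsub hF Φ ρ₀ CΦ c₀ hW hΦs => ?_⟩
  obtain ⟨ε, M⟩ := exists_Sm hR L hsub hF hcov
  obtain ⟨δ, hδ, hδF⟩ := small_F hF L hτ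
  -- the local facts
  have hloc : ∀ q : Ch T.m × Fin T.d, ∃ K > 0, q.1 ∈ F → ∃ ε > 0,
      LF L e₀ f₀ H h1 h2 e γ τ b K q ε := by
    intro q
    by_cases hq : q.1 ∈ F
    · obtain ⟨K, hK, ε, hε, h⟩ := exists_LF C N hgr (hF _ hq)
      exact ⟨K, hK, fun _ => ⟨ε, hε, h⟩⟩
    · exact ⟨1, one_pos, fun h => absurd h hq⟩
  choose Kf hKf hKloc using hloc
  obtain ⟨ε', hε', hLF⟩ := fin_min (F ×ˢ (Finset.univ : Finset (Fin T.d)))
    (P := fun q ε => LF L e₀ f₀ H h1 h2 e γ τ b (Kf q) q ε)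
    (fun q ε ε' _ hle h => h.mono hle)
    (fun q hq => hKloc q (Finset.mem_product.1 hq).1)
  have hρ₀ := hW.ρ_pos
  have hc₀ := hW.c_pos
  have hb₁ : 0 < b₁ := (hτ.trans C.τ_b).trans C.b_b₁
  have hminε : 0 < min ε τ := lt_min M.pos hτ
  set ρ : ℝ := min (min (b₁ * min ε τ) ε') (min ρ₀ δ) with hρ
  have hρ0 : 0 < ρ := lt_min (lt_min (mul_pos hb₁ hminε) hε') (lt_min hρ₀ hδ)
  have hρ1 : ρ ≤ b₁ * min ε τ := (min_le_left _ _).trans (min_le_left _ _)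
  have hρε' : ρ ≤ ε' := (min_le_left _ _).trans (min_le_right _ _)
  have hρρ : ρ ≤ ρ₀ := (min_le_right _ _).trans (min_le_left _ _)
  have hρδ : ρ ≤ δ := (min_le_right _ _).trans (min_le_right _ _)
  have hρε : ρ ≤ ε := hρ1.trans ((mul_le_of_le_one_left hminε.le C.b₁1).trans (min_le_left _ _))
  have hLFρ : ∀ c ∈ F, ∀ j, LF L e₀ f₀ H h1 h2 e γ τ b (Kf (c, j)) (c, j) ρ := fun c hc j =>
    (hLF (c, j) (Finset.mem_product.2 ⟨hc, Finset.mem_univ _⟩)).mono hρε'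
  have hCB : ∀ {c : Ch T.m} {p : ℂ × ℂ}, p ∈ Og (S := S) c ρ → p ∈ CB (S.r c) := fun hp =>
    ⟨hp.1.le, hp.2.1.le⟩
  -- the data
  set Z : Set (Fin 3 → ℂ) := ZE L e₀ b₁ with hZ
  have hZc : IsClosed Z := isClosed_ZE L e₀ C.b₁r
  set D : (Fin 3 → ℂ) → ℂ := fun x => H x * Th L e₀ f₀ γ F₀ τ b b₁ x with hD
  set O : Ch T.m → Fin T.d → Set (ℂ × ℂ) := fun c j => {p | p ∈ Og (S := S) c ρ ∧
    ‖(T.map c p).2‖ < ρ ∧ ((c ∈ Ends S ∧ ∃ o, eO L o c j = some e₀) ∨ wc S c j p ∉ Z)} with hO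
  set oz : Ch T.m → Fin T.d → Bool := fun c j => decide (L.e1 c j = some e₀) with hoz
  have hozE : ∀ {o c j}, Ok S c → eO L o c j = some e₀ → oz c j = o := by
    intro o c j hc hl
    by_cases h : L.e1 c j = some e₀
    · have h3 : oz c j = true := decide_eq_true h
      rw [h3]
      exact (eO_inj L hc hl (show eO L true c j = some e₀ from h)).symm
    · have h3 : oz c j = false := decide_eq_false h
      rw [h3]
      cases o
      · rfl
      · exact absurd hl h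
  set κ : Ch T.m → Fin T.d → ℂ × ℂ → ℝ := fun c j p =>
    if c ∈ Ends S ∧ ∃ o, eO L o c j = some e₀ then
      ke h1 h2 e a τ ((Kf (c, j) * Kf (c, j)) ^ 2 / c₀) (oz c j) c j p else 0 with hκ
  -- trichotomy
  have htri : ∀ c ∈ F, ∀ j, (∃ o, c ∈ Ends S ∧ eO L o c j = some e₀) ∨
      (IsV c ∧ L.e1 c j = some e₀) ∨ (∀ o, eO L o c j ≠ some e₀) := by
    intro c hc j
    by_cases h : ∃ o, eO L o c j = some e₀
    · obtain ⟨o, ho⟩ := h
      by_cases hV : IsV c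
      · have h3 := eO_V L (hF c hc) hV ho
        subst h3
        exact Or.inr (Or.inl ⟨hV, ho⟩)
      · exact Or.inl ⟨o, mem_ends (hF c hc) hV, ho⟩
    · exact Or.inr (Or.inr fun o ho => h ⟨o, ho⟩)
  -- openness
  have hcont : ∀ c ∈ F, ∀ j, ContinuousOn (wc S c j) (Og (S := S) c ρ) := fun c hc j p hp =>
    (wc_an (hF c hc).1 j (Og_mem2 hp)).continuousAt.continuousWithinAt
  have hopen : ∀ c ∈ F, ∀ j, IsOpen (O c j) := by
    intro c hc j
    have hA1 : IsOpen (Og (S := S) c ρ ∩ wc S c j ⁻¹' {x | ‖x 2‖ < ρ}) :=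
      (hcont c hc j).isOpen_inter_preimage (isOpen_Og c ρ)
        (isOpen_lt (continuous_apply 2).norm continuous_const)
    have hA2 : IsOpen (Og (S := S) c ρ ∩ wc S c j ⁻¹' Zᶜ) :=
      (hcont c hc j).isOpen_inter_preimage (isOpen_Og c ρ) hZc.isOpen_compl
    have h3 : O c j = (Og (S := S) c ρ ∩ wc S c j ⁻¹' {x | ‖x 2‖ < ρ}) ∩
        ({p | c ∈ Ends S ∧ ∃ o, eO L o c j = some e₀} ∪ (Og (S := S) c ρ ∩ wc S c j ⁻¹' Zᶜ)) := by
      ext p
      constructor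
      · rintro ⟨h1, h2, h3⟩
        refine ⟨⟨h1, h2⟩, ?_⟩
        rcases h3 with h3 | h3
        · exact Or.inl h3
        · exact Or.inr ⟨h1, h3⟩
      · rintro ⟨⟨h1, h2⟩, h3⟩
        refine ⟨h1, h2, ?_⟩
        rcases h3 with h3 | h3
        · exact Or.inl h3
        · exact Or.inr h3.2
    rw [h3]
    exact hA1.inter (isOpen_const.union hA2)
  -- pointwise formulas
  have hfE : ∀ c ∈ F, ∀ j o, c ∈ Ends S → eO L o c j = some e₀ → ∀ p ∈ Og (S := S) c ρ,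
      ‖(T.map c p).2‖ < ρ →
      D (wc S c j p) = H (wc S c j p) * th U S f₀ γ τ b o c j p := by
    intro c hc j o hcE hl p hp hy
    show H _ * _ = _
    rw [formE C M hρ1 hcE hl (hCB hp) hp.2.2.1 hp.2.2.2 hy]
  have hfV : ∀ c ∈ F, ∀ j, IsV c → L.e1 c j = some e₀ → ∀ p ∈ Og (S := S) c ρ,
      ‖(T.map c p).2‖ < ρ → (¬ ∃ q, RE L e₀ b₁ (wc S c j p) q) →
      D (wc S c j p) = H (wc S c j p) * GG U e₀.1.1 f₀ (wc S c j p) := by
    intro c hc j hV hl p hp hy hx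
    show H _ * _ = _
    rw [formV C.b₁r M hc hV hl (hCB hp) hp.2.2.1 (hp.2.2.2.trans_le hρε) (hy.trans_le hρε) hx]
  have hfZ : ∀ c ∈ F, ∀ j, (∀ o, eO L o c j ≠ some e₀) → ∀ p ∈ Og (S := S) c ρ,
      (¬ ∃ q, RE L e₀ b₁ (wc S c j p) q) → D (wc S c j p) = 0 := by
    intro c hc j hl p hp hx
    show H _ * _ = _
    rw [formZ M hc hl (hCB hp) hp.2.2.1 (hp.2.2.2.trans_le hρε) hx, mul_zero]
  have hRE : ∀ x, x ∉ Z → ¬ ∃ q, RE L e₀ b₁ x q := fun x hx h => hx (RE_ZE h)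
  -- local forms of the shifted data
  have hlE : ∀ c ∈ F, ∀ j o, c ∈ Ends S → eO L o c j = some e₀ → ∀ p ∈ O c j,
      (fun x => x 1 ^ a * D x) ∘ wc S c j =ᶠ[𝓝 p]
        fun q => ((T.map c q).1 ^ a * H (wc S c j q)) * th U S f₀ γ τ b o c j q := by
    intro c hc j o hcE hl p hp
    filter_upwards [(hopen c hc j).mem_nhds hp] with q hq
    show (T.map c q).1 ^ a * D (wc S c j q) = _
    rw [hfE c hc j o hcE hl q hq.1 hq.2.1]
    ring
  have hnE : ∀ c ∈ F, ∀ j, ¬ (c ∈ Ends S ∧ ∃ o, eO L o c j = some e₀) → ∀ p ∈ O c j,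
      ¬ ∃ q, RE L e₀ b₁ (wc S c j p) q := by
    intro c hc j h p hp
    exact hRE _ (hp.2.2.resolve_left h)
  have hVE : ∀ c, IsV c → ∀ j, ¬ (c ∈ Ends S ∧ ∃ o, eO L o c j = some e₀) := fun c hV j h =>
    ends_nV h.1 hV
  have hlV : ∀ c ∈ F, ∀ j, IsV c → L.e1 c j = some e₀ → ∀ p ∈ O c j,
      (fun x => x 1 ^ a * D x) ∘ wc S c j =ᶠ[𝓝 p]
        fun q => ((T.map c q).1 ^ a * H (wc S c j q)) * GG U e₀.1.1 f₀ (wc S c j q) := by
    intro c hc j hV hl p hp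
    filter_upwards [(hopen c hc j).mem_nhds hp] with q hq
    show (T.map c q).1 ^ a * D (wc S c j q) = _
    rw [hfV c hc j hV hl q hq.1 hq.2.1 (hnE c hc j (hVE c hV j) q hq)]
    ring
  have hlZ : ∀ c ∈ F, ∀ j, (∀ o, eO L o c j ≠ some e₀) → ∀ p ∈ O c j,
      (fun x => x 1 ^ a * D x) ∘ wc S c j =ᶠ[𝓝 p] fun _ => (0 : ℂ) := by
    intro c hc j hl p hp
    filter_upwards [(hopen c hc j).mem_nhds hp] with q hq
    show (T.map c q).1 ^ a * D (wc S c j q) = _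
    rw [hfZ c hc j hl q hq.1 (hnE c hc j (fun h => h.2.elim hl) q hq), mul_zero]
  -- the estimates at the ends
  have hest : ∀ c ∈ F, ∀ j o, c ∈ Ends S → eO L o c j = some e₀ → _ := fun c hc j o hcE hl =>
    end_est N J hτ hcE hc hl (hKf (c, j)) ((hLFρ c hc j).1 hcE o hl)
      ((hLFρ c hc j).2.1 ⟨o, hl⟩) hW hρρ (fun p hp => hΦs c hc j p (Og_mono hρρ hp))
      (fun p hp hy => hδF c hc j p hp.1.le hp.2.1.le (hp.2.2.2.trans_le hρδ) (hy.trans_le hρδ))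
  have hκE : ∀ c j o, c ∈ Ends S → eO L o c j = some e₀ → ∀ p, κ c j p =
      ke h1 h2 e a τ ((Kf (c, j) * Kf (c, j)) ^ 2 / c₀) o c j p := by
    intro c j o hcE hl p
    simp only [hκ]
    rw [if_pos ⟨hcE, o, hl⟩, hozE (ends_ok hcE) hl]
  have hκ0 : ∀ c j, ¬ (c ∈ Ends S ∧ ∃ o, eO L o c j = some e₀) → ∀ p, κ c j p = 0 := by
    intro c j h p
    simp only [hκ]
    rw [if_neg h]
  have hKc : ∀ q : Ch T.m × Fin T.d, 0 ≤ (Kf q * Kf q) ^ 2 / c₀ := fun q => by positivity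
  have hsub' : ∀ c ∈ F, ∀ j, ∀ p ∈ O c j, p ∈ Og (S := S) c ρ ∧ ‖(T.map c p).2‖ < ρ :=
    fun c hc j p hp => ⟨hp.1, hp.2.1⟩
  have hOR : ∀ c ∈ F, ∀ j, ∀ p ∈ O c j, ‖p.1‖ < S.r c ∧ ‖p.2‖ < S.r c := fun c hc j p hp =>
    ⟨hp.1.1, hp.1.2.1⟩
  refine ⟨ρ, hρ0, hρρ, D, O, κ, ⟨hopen, hsub', ?_, ?_, ?_, ?_, ?_, ?_, ?_⟩, ?_, ?_, ?_⟩
  · -- cov
    intro c hc j p hp hy hoff
    by_cases hz : wc S c j p ∈ Z
    · have hz' := hz
      rw [hZ] at hz'
      simp only [ZE, mem_iUnion] at hz'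
      obtain ⟨q, ⟨hq, hql⟩, p', hp', hpp⟩ := hz'
      have hqF : q.2.1 ∈ F := M.sub (C.sub (C.ends hq))
      have hm : T.map q.2.1 p' = T.map c p := map_wc hpp
      have hr := C.b₁r _ hq
      refine ⟨q.2.1, hqF, q.2.2, p', ⟨⟨hp'.1.trans_lt hr, hp'.2.trans_lt hr,
        CDataC_250.gen_of hp.2.2.1 hm hoff, ?_⟩, ?_, Or.inl ⟨hq, q.1, hql⟩⟩, hpp⟩
      · rw [hm]; exact hp.2.2.2
      · rw [hm]; exact hy
    · exact ⟨c, hc, j, p, ⟨hp, hy, Or.inr hz⟩, rfl⟩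
  · -- smooth
    intro c hc j p hp
    have hsa : AnalyticAt ℂ (fun q : ℂ × ℂ => (T.map c q).1 ^ a) p := (sc_an' p).pow a
    have hrs : ∀ {g : ℂ × ℂ → ℂ} {p : ℂ × ℂ}, AnalyticAt ℂ g p → ContDiffAt ℝ (⊤ : ℕ∞) g p :=
      fun h => h.contDiffAt.restrict_scalars ℝ
    rcases htri c hc j with ⟨o, hcE, hl⟩ | ⟨hV, hl⟩ | hl
    · have h3 := ((hLFρ c hc j).2.1 ⟨o, hl⟩ p hp.1).1
      have h4 := ((hLFρ c hc j).1 hcE o hl).sm p hp.1
      exact ((hrs (hsa.mul h3)).mul h4).congr_of_eventuallyEq (hlE c hc j o hcE hl p hp)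
    · have h3 := ((hLFρ c hc j).2.1 ⟨true, hl⟩ p hp.1).1
      have h4 := ((hLFρ c hc j).2.2 hV hl p hp.1).1
      exact (hrs ((hsa.mul h3).mul h4)).congr_of_eventuallyEq (hlV c hc j hV hl p hp)
    · exact contDiffAt_const.congr_of_eventuallyEq (hlZ c hc j hl p hp)
  · -- nonneg
    intro c j p
    simp only [hκ]
    split_ifs
    · exact ke_nonneg (hKc _) _ _ _ _
    · exact le_rfl
  · -- measurable
    intro c j
    simp only [hκ]
    split_ifs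
    · exact ke_meas _ _ _
    · exact measurable_const
  · -- the bound of `∂̄ D`
    intro c hc j p hp w
    rcases htri c hc j with ⟨o, hcE, hl⟩ | ⟨hV, hl⟩ | hl
    · rw [dbE_congr (hlE c hc j o hcE hl p hp), hκE c j o hcE hl p]
      exact (hest c hc j o hcE hl).1 p hp.1 hp.2.1 w
    · have h3 := ((hLFρ c hc j).2.1 ⟨true, hl⟩ p hp.1).1
      have h4 := ((hLFρ c hc j).2.2 hV hl p hp.1).1
      have h5 : DifferentiableAt ℂ (fun q => ((T.map c q).1 ^ a * H (wc S c j q)) *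
          GG U e₀.1.1 f₀ (wc S c j q)) p :=
        ((((sc_an' p).pow a).mul h3).mul h4).differentiableAt
      rw [dbE_congr (hlV c hc j hV hl p hp), dbE_hol h5 w, hκ0 c j (hVE c hV j)]
      simp
    · rw [dbE_congr (hlZ c hc j hl p hp), dbE_hol (differentiableAt_const _) w,
        hκ0 c j (fun h => h.2.elim hl)]
      simp
  · -- the integral of `κ`
    intro c hc j
    by_cases h : c ∈ Ends S ∧ ∃ o, eO L o c j = some e₀
    · obtain ⟨hcE, o, hl⟩ := h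
      have h3 := (hest c hc j o hcE hl).2.1 (O c j) (hopen c hc j).measurableSet (hsub' c hc j)
      simp only [hκE c j o hcE hl]
      exact h3
    · refine fin_int (hopen c hc j).measurableSet (hOR c hc j) (e := 1) (e' := 1) (C := 0) one_pos
        one_pos le_rfl fun p hp _ _ => ?_
      rw [hκ0 c j h]
      simp
  · -- the integral of `|D|²`
    intro c hc j
    have hOm := (hopen c hc j).measurableSet
    rcases htri c hc j with ⟨o, hcE, hl⟩ | ⟨hV, hl⟩ | hl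
    · have h3 := (hest c hc j o hcE hl).2.2.1 (O c j) hOm (hsub' c hc j)
      refine ne_top_of_le_ne_top h3 (le_of_eq ?_)
      refine setLIntegral_congr_fun hOm fun p hp => ?_
      show ENNReal.ofReal (‖(T.map c p).1 ^ a * D (wc S c j p)‖ ^ 2 * dn S c j p ^ 2) = _
      rw [hfE c hc j o hcE hl p hp.1 hp.2.1]
    · obtain ⟨Kd, hKd, hbd⟩ := J.bd c (hF c hc) j
      obtain ⟨v1', v2'⟩ := N.vert c (hF c hc) hV j hl
      have hl' : eO L true c j = some e₀ := hl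
      have hvO := eO_vO L (hF c hc) hl'
      have hnIE : ¬ IsE c := by
        cases c with
        | edge i k k' => exact hV.elim
        | leg i => exact hV.elim
        | vert i k w => exact fun h => h
      refine fin_int hOm (hOR c hc j) (e := h1 c j + a - n1 c j) (e' := h2 c j - n2 c j)
        (C := (Kf (c, j) * Kf (c, j)) ^ 2 * Kd ^ 2) (by linarith) (by linarith) (by positivity)
        fun p hp q1 q2 => ?_
      have hdn0 : 0 ≤ dn S c j p := by unfold dn; positivity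
      have h5 := zone0r (m1 := h1 c j + a) (m2 := h2 c j) (K := Kd) (n1 := n1 c j) (n2 := n2 c j)
        ‖p.1‖ ‖p.2‖ (norm_pos_iff.2 q1) (norm_pos_iff.2 q2) (dn S c j p) hdn0
        (hbd p hp.1.1.le hp.1.2.1.le hp.1.2.2.1).2.1
      have h3 := ((hLFρ c hc j).2.1 ⟨true, hl⟩ p hp.1).2
      have h4 := ((hLFρ c hc j).2.2 hV hl p hp.1).2
      have hK0 := hKf (c, j)
      have h6 : ‖(T.map c p).1 ^ a * D (wc S c j p)‖ ≤
          (Kf (c, j) * Kf (c, j)) * (‖p.1‖ ^ (h1 c j + a) * ‖p.2‖ ^ h2 c j) := by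
        rw [hfV c hc j hV hl p hp.1 hp.2.1 (hnE c hc j (hVE c hV j) p hp), norm_mul, norm_mul,
          norm_pow, (s_eq hvO p).2 hnIE]
        show ‖p.1‖ ^ a * _ ≤ _
        calc ‖p.1‖ ^ a * (‖H (wc S c j p)‖ * ‖GG U e₀.1.1 f₀ (wc S c j p)‖)
            ≤ ‖p.1‖ ^ a * ((Kf (c, j) * (‖p.1‖ ^ h1 c j * ‖p.2‖ ^ h2 c j)) * Kf (c, j)) := by
              gcongr
          _ = (Kf (c, j) * Kf (c, j)) * ((‖p.1‖ ^ h1 c j * ‖p.1‖ ^ (a : ℝ)) * ‖p.2‖ ^ h2 c j) := by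
              rw [Real.rpow_natCast]; ring
          _ = _ := by rw [← Real.rpow_add (norm_pos_iff.2 q1)]
      show ‖(T.map c p).1 ^ a * D (wc S c j p)‖ ^ 2 * dn S c j p ^ 2 ≤ _
      calc _ ≤ ((Kf (c, j) * Kf (c, j)) * (‖p.1‖ ^ (h1 c j + a) * ‖p.2‖ ^ h2 c j)) ^ 2 *
            dn S c j p ^ 2 := by gcongr
        _ = (Kf (c, j) * Kf (c, j)) ^ 2 * ((‖p.1‖ ^ (h1 c j + a) * ‖p.2‖ ^ h2 c j) ^ 2 *
            dn S c j p ^ 2) := by ring
        _ ≤ (Kf (c, j) * Kf (c, j)) ^ 2 * _ := mul_le_mul_of_nonneg_left h5 (by positivity)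
        _ = _ := by ring
    · refine fin_int hOm (hOR c hc j) (e := 1) (e' := 1) (C := 0) one_pos
        one_pos le_rfl fun p hp _ _ => ?_
      show ‖(T.map c p).1 ^ a * D (wc S c j p)‖ ^ 2 * dn S c j p ^ 2 ≤ _
      rw [hfZ c hc j hl p hp.1 (hnE c hc j (fun h => h.2.elim hl) p hp)]
      simp
  · -- labelled test charts
    intro c hc hV j hl p hp hy q hq
    have hcG : c ∈ F' ∪ Ends S := Finset.mem_union_left _ hc
    have hcF : c ∈ F := M.sub (C.sub hcG)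
    rw [hfV c hcF j hV hl p hp hy (C.noREV hcG hV (hCB hp) hp.2.2.1), GG_eq hR hq]
  · -- unlabelled test charts
    intro c hc j hl1 hl2 p hp
    have hcG : c ∈ F' ∪ Ends S := Finset.mem_union_left _ hc
    have hcF : c ∈ F := M.sub (C.sub hcG)
    have hl : ∀ o, eO L o c j ≠ some e₀ := fun o => by
      cases o
      · exact hl2
      · exact hl1
    exact hfZ c hcF j hl p hp (C.noREU hcG hl (hCB hp) hp.2.2.1)
  · -- top edges
    intro c hc j hn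
    have hv1 := v1_none (hF c hc) hn
    have hnV : ¬ IsV c := by
      intro hV
      cases c with
      | edge i k k' => exact hV
      | leg i => exact hV
      | vert i k w => simp [v1] at hv1
    have hcE : c ∈ Ends S := mem_ends (hF c hc) hnV
    refine ⟨fun hl => ?_, fun hl p hp => ?_⟩
    · have hl' : eO L false c j = some e₀ := hl
      have h3 := (hest c hc j false hcE hl').2.2.2
      refine ⟨Kf (c, j) * Kf (c, j), fun p hp hy => ⟨⟨hp, hy, Or.inl ⟨hcE, false, hl'⟩⟩, ?_⟩⟩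
      rw [hfE c hc j false hcE hl' p hp hy]
      refine (h3 p hp).trans (le_of_eq ?_)
      have h4 : 0 < ‖p.1‖ := norm_pos_iff.2 (CDataB_250.gen_fst hp.2.2.1)
      show _ * ‖p.1‖ ^ e c j = _
      rw [Real.rpow_add h4]
      ring
    · have hl' : ∀ o, eO L o c j ≠ some e₀ := fun o => by
        cases o
        · exact hl
        · intro h
          rw [show eO L true c j = L.e1 c j from rfl, hn] at h
          simp at h
      have hcG : c ∈ F' ∪ Ends S := Finset.mem_union_right _ hcE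
      exact hfZ c hc j hl' p hp (C.noREU hcG hl' (hCB hp) hp.2.2.1)

end

end Crest.Agent.R257.NuZ_176
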