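import Mathlib
import Crest.Agent.R257.NuZ0_176
import Crest.Agent.R257.ExND_843
import Crest.Agent.R257.Nd1_980
import Crest.Agent.R257.EndB_636

/-!
Row 257 (S0395), NULL DATA (helper176): `NullStmt` (ExND_843) from helper250's null data.
-/

set_option autoImplicit false
set_option linter.unusedSectionVars false

open Polynomial Set Filter Topology Metric
open Crest.AlgGeometry.Germ Crest.Agent.R257.AJ387 Crest.Agent.R257.T387
open Crest.Agent.R257.Gr1_157 Crest.Agent.R257.HoB_843 Crest.Agent.R257.BP_258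
open Crest.Agent.R257.Wt_258 Crest.Agent.R257.Rsn_843 Crest.Agent.R257.Exf_843
open Crest.Agent.R257.CDataB_250 Crest.Agent.R257.CDataL_250

noncomputable section

namespace Crest.Agent.R257.NuZ_176

variable {f : (Fin 3 → ℂ) → ℂ} {T : TB f} {S : Sh T} {U : Tub T}

lemma wtk_of {L : Lab U S} {y : II U → ℝ} {F : Finset (Ch T.m)} {τ₀ τ : ℝ} (hτ : τ₀ ≤ τ)
    {Φ : (Fin 3 → ℂ) → ℝ} {ρ₀ C c₀ : ℝ} (h : WT0 L y F τ₀ Φ ρ₀ C c₀) :
    WTk L y F univ τ 1 Φ ρ₀ C c₀ where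
  ρ_pos := h.ρ_pos
  c_pos := h.c_pos
  psh := h.psh
  lo := fun c hc j _ p hp _ _ => h.lo c hc j p hp
  st1 := fun c hc j _ p hp _ he ht w => h.st1 c hc j p hp he (Or.inr (hτ.trans ht)) w
  st2 := fun c hc j _ p hp _ he ht w => h.st2 c hc j p hp he (hτ.trans ht) w

lemma v2_edge {c : Ch T.m} (hE : IsE c) : v2 T c ≠ none := by
  cases c with
  | edge i k k' => simp [v2]
  | leg i => exact fun _ => hE
  | vert i k w₀ => exact fun _ => hE

lemma v2_nedge {c : Ch T.m} (hE : ¬ IsE c) : v2 T c = none := by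
  cases c with
  | edge i k k' => exact absurd trivial hE
  | leg i => rfl
  | vert i k w₀ => rfl

lemma e2_ne (L : Lab U S) {c : Ch T.m} (hc : Ok S c) (j : Fin T.d) (h : v2 T c ≠ none) :
    L.e2 c j ≠ none := by
  intro h2
  have := L.v_e2 c hc j
  rw [h2] at this
  exact h this.symm

lemma e2_none (L : Lab U S) {c : Ch T.m} (hc : Ok S c) (j : Fin T.d) (h : v2 T c = none) :
    L.e2 c j = none := by
  have := L.v_e2 c hc j
  rw [h] at this
  exact Option.map_eq_none_iff.1 this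

lemma nh_of {L : Lab U S} {nu : II U → ℤ} {n1 n2 : Ch T.m → Fin T.d → ℤ} (J : Jac L nu n1 n2)
    {E₀ : II U} {y : II U → ℝ} {a : ℕ} {fX : XV U E₀.1.1 → ℂ} {H : (Fin 3 → ℂ) → ℂ}
    {h1 h2 e : Ch T.m → Fin T.d → ℝ} (N : NDat L n1 n2 E₀ y a fX H h1 h2 e) :
    NH L E₀ fX H y n1 n2 h1 h2 e a where
  hf := N.hol
  f0 := N.off
  gr1 := fun c hc hV hv γ hγ j hl => by
    obtain ⟨C, r, -, hr, h⟩ := N.f1 c hc hV hv γ hγ j hl
    exact ⟨C, r, hr, h⟩
  gr2 := fun c hc _ hv γ hγ j hl => by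
    obtain ⟨C, r, -, hr, h⟩ := N.f2 c hc hv γ hγ j hl
    exact ⟨C, r, hr, h⟩
  hH := fun c hc j hl => by
    obtain ⟨C, -, h⟩ := N.Hbd c hc j hl
    have hr := S.pos c
    refine ⟨C, 1, one_pos, fun p hp => ⟨?_, h p hp.1.le hp.2.1.le hp.2.2.1⟩⟩
    exact N.Han c hc j p (by linarith [hp.1]) (by linarith [hp.2.1]) hp.2.2.1
  near1 := fun c hc _ j hl => ⟨N.near1 c hc j hl, N.nearD1 c hc j hl⟩
  far1 := fun c hc hV j hl => by
    refine ⟨fun h => ?_, fun hE => ?_, fun hE => ?_⟩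
    · obtain ⟨E, hE⟩ := Option.ne_none_iff_exists'.1 h
      rw [hE]
      exact (N.far2 c hc j hl E hE).1
    · obtain ⟨E, hE⟩ := Option.ne_none_iff_exists'.1 (e2_ne L hc j (v2_edge hE))
      exact (N.far2 c hc j hl E hE).2
    · exact N.leg c hc hV j hl (e2_none L hc j (v2_nedge hE))
  near2 := fun c hc _ j hl => ⟨N.near2 c hc j hl, N.nearD2 c hc j hl⟩
  far2 := fun c hc _ j hl => by
    refine ⟨fun h => ?_, ?_⟩
    · obtain ⟨E, hE⟩ := Option.ne_none_iff_exists'.1 h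
      rw [hE]
      exact (N.far1 c hc j hl E hE).1
    · by_cases h : L.e1 c j = none
      · have h3 := N.top c hc j hl h
        have h4 : (0 : ℝ) ≤ a := Nat.cast_nonneg a
        linarith
      · obtain ⟨E, hE⟩ := Option.ne_none_iff_exists'.1 h
        exact (N.far1 c hc j hl E hE).2
  vert := fun c hc hV j hl => by
    refine ⟨N.nearD1 c hc j hl, ?_⟩
    rw [J.vert c hc hV j, N.h2V c hc hV j]
    norm_num

/-- small generic points near the origin -/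
lemma ev_Og {c : Ch T.m} (hc : T.Valid c) {ρ : ℝ} (hρ : 0 < ρ) :
    ∀ᶠ p in 𝓝 ((0 : ℂ), (0 : ℂ)), T.Gen c p →
      p ∈ Og (S := S) c ρ ∧ ‖(T.map c p).2‖ < ρ := by
  have hr := S.pos c
  have hm0 : T.map c ((0 : ℂ), (0 : ℂ)) = 0 := FrmE_547.map_zero' hc
  have hm := ((S.sheets c hc).map_an (p := ((0 : ℂ), (0 : ℂ)))
    ⟨by simpa using hr, by simpa using hr⟩).continuousAt
  have e1 : ∀ᶠ p : ℂ × ℂ in 𝓝 ((0 : ℂ), (0 : ℂ)), ‖p.1‖ < S.r c :=
    continuousAt_fst.norm.eventually (gt_mem_nhds (by simpa using hr))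
  have e2 : ∀ᶠ p : ℂ × ℂ in 𝓝 ((0 : ℂ), (0 : ℂ)), ‖p.2‖ < S.r c :=
    continuousAt_snd.norm.eventually (gt_mem_nhds (by simpa using hr))
  have e3 : ∀ᶠ p : ℂ × ℂ in 𝓝 ((0 : ℂ), (0 : ℂ)), ‖(T.map c p).1‖ < ρ := by
    refine hm.fst.norm.eventually (gt_mem_nhds ?_)
    show ‖(T.map c ((0 : ℂ), (0 : ℂ))).1‖ < ρ
    rw [hm0]; simpa using hρ
  have e4 : ∀ᶠ p : ℂ × ℂ in 𝓝 ((0 : ℂ), (0 : ℂ)), ‖(T.map c p).2‖ < ρ := by
    refine hm.snd.norm.eventually (gt_mem_nhds ?_)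
    show ‖(T.map c ((0 : ℂ), (0 : ℂ))).2‖ < ρ
    rw [hm0]; simpa using hρ
  filter_upwards [e1, e2, e3, e4] with p a1 a2 a3 a4 hg
  exact ⟨⟨a1, a2, hg, a3⟩, a4⟩

lemma exists_BD {P : ℂ × ℂ → Prop} (h : ∀ᶠ p in 𝓝 ((0 : ℂ), (0 : ℂ)), P p) :
    ∃ r > 0, ∀ p ∈ BD r r, P p := by
  obtain ⟨r, hr, h2⟩ := Metric.eventually_nhds_iff.1 h
  refine ⟨r, hr, fun p hp => h2 ?_⟩
  rw [Prod.dist_eq]
  exact max_lt (by simpa using hp.1) (by simpa using hp.2)

/-- **THE NULL DATA**, literal form of `ExND_843` -/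
theorem nullStmt (hR : RetStmt U) (L : Lab U S) {nu : II U → ℤ}
    {n1 n2 : Ch T.m → Fin T.d → ℤ} (J : Jac L nu n1 n2) : NullStmt L n1 n2 := by
  intro E₀ y a fX H h1 h2 e N F' hF'
  obtain ⟨τ, hτ, F₀, hsub, hok, hmain⟩ :=
    null_data2 hR (End_636.endStmt L) J (nh_of J N) F' hF'
  refine ⟨F₀, hok, hsub, fun F hF hFok τ₁ hτ₁ => ?_⟩
  refine ⟨min τ (τ₁ / 2), lt_min hτ (by linarith), (min_le_right _ _).trans_lt (by linarith),
    fun Φ ρ₀ C c₀ hW => ?_⟩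
  obtain ⟨ρ, hρ, hρρ, D, O, κ, hA, ht1, ht2, htop⟩ :=
    hmain F hF hFok Φ ρ₀ C c₀ (wtk_of (min_le_left _ _) hW) hW.sm
  refine ⟨ρ, D, O, κ, hρ, hρρ, hA, ?_, ?_, ?_⟩
  · intro c hc hV j hl γ hγ
    have hOk := hF' c hc
    have hv : v1 T c = some E₀.1.1 := by
      have := L.v_e1 c hOk j
      rw [hl] at this
      exact this.symm
    have h0 : (0 : ℂ) ∈ PDv S c := ⟨Or.inl hV, by
      rw [norm_zero]
      have := S.pos c
      linarith⟩
    filter_upwards [ev_Og (S := S) hOk.1 hρ, Nd_980.ret_vert hR hOk hV hv hγ h0 j] with p e1 e2 hg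
    exact ht1 c hc hV j hl p (e1 hg).1 (e1 hg).2 _ (e2 (CDataB_250.gen_fst hg))
  · intro c hc hV j hl
    have hOk := hF' c hc
    have h2 : L.e2 c j ≠ some E₀ := by
      rw [e2_none L hOk j (v2_nedge (by
        cases c with
        | edge i k k' => exact absurd hV (fun h => h)
        | leg i => exact fun h => h
        | vert i k w => exact fun h => h))]
      simp
    filter_upwards [ev_Og (S := S) hOk.1 hρ] with p e1 hg
    exact ht2 c hc j hl h2 p (e1 hg).1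
  · intro c hc hv j
    have hOk := hF' c hc
    have hcF : c ∈ F := hF (hsub hc)
    have hn : L.e1 c j = none := by
      have := L.v_e1 c hOk j
      rw [hv] at this
      exact Option.map_eq_none_iff.1 this
    obtain ⟨r, hr, hrO⟩ := exists_BD (ev_Og (S := S) hOk.1 hρ)
    refine ⟨fun hl => ?_, fun hl => ⟨r, hr, fun p hp hg => ?_⟩⟩
    · obtain ⟨C', hC'⟩ := (htop c hcF j hn).1 hl
      refine ⟨r, hr, C', fun p hp hg => ?_⟩
      obtain ⟨h3, h4⟩ := hrO p hp hg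
      obtain ⟨h5, h6⟩ := hC' p h3 h4
      refine ⟨?_, h6⟩
      have h7 : ContinuousAt ((fun x => x 1 ^ a * D x) ∘ wc S c j) p :=
        (hA.sm c hcF j p h5).continuousAt
      have h8 : ContinuousAt (fun q => (T.map c q).1 ^ a) p := ((sc_an' p).pow a).continuousAt
      have h9 : (T.map c p).1 ^ a ≠ 0 := pow_ne_zero _ (CDataB_250.sc_ne hg)
      refine (h7.div h8 h9).congr ?_
      have h10 : ∀ᶠ q in 𝓝 p, (T.map c q).1 ^ a ≠ 0 := h8.eventually_ne h9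
      filter_upwards [h10] with q hq
      show (T.map c q).1 ^ a * D (wc S c j q) / (T.map c q).1 ^ a = D (wc S c j q)
      field_simp
    · exact (htop c hcF j hn).2 hl p (hrO p hp hg).1

end Crest.Agent.R257.NuZ_176
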