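import Crest.Agent.R257.OrdT7_578
import Crest.Agent.R257.Br_578
import Crest.Agent.R257.Vx_331

/-!
# Row 257, part C, `OrdStmt` (helper578), part A: the branches of the canonical charts and their labels

`hyp`, `cmpE`   : the component `Cmp T (ci v) v.1` of a component `E : II U`;
`lab1`, `lab2`  : the labels;
`brp1`, `brp2`  : `BrP` along the branches of the canonical charts;
`label1`, `label2` : attached points lie on the component given by the label.
-/

set_option autoImplicit false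
set_option linter.unusedSectionVars false

open Polynomial Set Filter Topology Metric
open Crest.AlgGeometry.Germ Crest.Agent.R257.AJ387

noncomputable section

namespace Crest.Agent.R257.OrdA_578

open Crest.Agent.R257.T387 Crest.Agent.R257.OrdL_578 Crest.Agent.R257.Deg_578
open Crest.Agent.R257.OrdT_578 Crest.Agent.R257.BP_258 Crest.Agent.R257.Br_578
open Crest.Agent.R257.Frm_547 (Z2 Sh1 Step Cmp cl fib Att LocBr Eqv)

variable {f : (Fin 3 → ℂ) → ℂ} {T : TB f} {U : Tub T} {S : Sh T}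

/-- the hypotheses of the bridge -/
theorem hyp (S : Sh T) (hS : T.SheetsStmt) (hR : RetStmt U) {v : Vtx} (hv : v ∈ Vs T) :
    Hyp U v (S.ci v) where
  hv := hv
  hk := Vx_331.ci_lev S hv
  hi := S.ci_eq v hv
  hsp := fun _ => Vx_331.ci_mem_sp S hv
  hS := hS
  hR := hR

/-- the factor of `s` -/
def uf {m : ℕ} : Ch m → ℂ × ℂ → ℂ
  | .edge _ _ _, q => q.2
  | .leg _, _ => 1
  | .vert _ _ _, _ => 1

theorem shD_ci {v : Vtx} (hv : v ∈ Vs T) {l : Fin T.m} (he : Eqv T v.1 (S.ci v) l) :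
    shD T v.1 (S.ci v) l 0 = co T l v.1 := by
  rw [shD_zero_eq he, Vx_331.sh_zero T he, Vx_331.ci_co S hv]
  ring

/-- shift of the special points -/
theorem sp_shD {v : Vtx} {l : Fin T.m} (he : Eqv T v.1 (S.ci v) l) {w : ℂ}
    (hw : w ∉ T.Sp l v.1) : shD T v.1 (S.ci v) l 0 + w ∉ T.Sp (S.ci v) v.1 := by
  have h1 := Frm_547.sp_shift T he.symm (w := w)
  have h2 := sh_eq_shD (T := T) v.1 (S.ci v) l (0 : ℂ)
  rw [zero_pow T.M_pos.ne'] at h2
  rw [← h2, add_comm, ← h1]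
  exact hw

theorem v1_cases {c : Ch T.m} (hc : Ok S c) {v : Vtx} (h1 : v1 T c = some v) :
    (∃ l k k', c = .edge l k k' ∧ k ≠ 0 ∧ v = vx T l k ∧ T.Cons l k k') ∨
    (∃ l, c = .leg l ∧ v = vx T l (T.top l)) ∨
    ∃ l k w, c = .vert l k w ∧ v = vx T l k ∧ k ∈ T.lev l ∧ w ∉ T.Sp l k := by
  cases c with
  | edge l k k' =>
    left
    simp only [v1] at h1
    split_ifs at h1 with h0
    exact ⟨l, k, k', rfl, h0, (Option.some.inj h1).symm, hc.1⟩
  | leg l =>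
    right; left
    exact ⟨l, rfl, (Option.some.inj h1).symm⟩
  | vert l k w =>
    right; right
    exact ⟨l, k, w, rfl, (Option.some.inj h1).symm, hc.1.1, hc.1.2⟩

/-- the branch `{α = 0}` of a canonical chart -/
theorem brp1 {c : Ch T.m} (hc : Ok S c) {v : Vtx} (h1 : v1 T c = some v) {b : ℂ}
    (hb : ‖b‖ < 2 * S.r c) (hb0 : b ≠ 0 ∨ IsV c) :
    BrP (T := T) (S.ci v) v.1 (T.map c) (Wf T (S.ci v) v.1 c) (uf c) (S.ζ c) b := by
  have hsh := S.sheets c hc.1
  rcases v1_cases hc h1 with ⟨l, k, k', rfl, h0, rfl, hcons⟩ | ⟨l, rfl, rfl⟩ | ⟨l, k, w, rfl, rfl, hk, hw⟩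
  · have hkl : k ∈ T.lev l := hcons.1.resolve_left h0
    have he : Eqv T k (S.ci (vx T l k)) l := (Vx_331.ci_eqv S hkl).symm
    have hb1 : b ≠ 0 := hb0.resolve_right (fun h => h)
    refine brp_edge1 (Nat.pos_of_ne_zero h0) he hcons.2.2.1 hsh hb hb1 ?_
    exact sp_shD (S := S) (v := vx T l k) he (S.fare l k k' hc.1 b hb1 hb.le).1
  · have hkl : T.top l ∈ T.lev l := T.top_mem l
    have he : Eqv T (T.top l) (S.ci (vx T l (T.top l))) l := (Vx_331.ci_eqv S hkl).symm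
    have hb1 : b ≠ 0 := hb0.resolve_right (fun h => h)
    refine brp_leg he rfl hsh hb hb1 ?_
    exact sp_shD (S := S) (v := vx T l (T.top l)) he (S.farl l b hb1 hb.le)
  · have he : Eqv T k (S.ci (vx T l k)) l := (Vx_331.ci_eqv S hk).symm
    refine brp_vert (T.lev_pos hk) he hsh hb ?_
    refine sp_shD (S := S) (v := vx T l k) he (S.far l k w hc.1 (w + b) ?_)
    rw [add_sub_cancel_left]
    exact hb.le

theorem v2_cases {c : Ch T.m} (hc : Ok S c) {v : Vtx} (h2 : v2 T c = some v) :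
    v ∈ Vs T ∧ c = ec S v := by
  cases c with
  | edge l k k' =>
    obtain ⟨u, hu, rfl, rfl, rfl⟩ := hc.2
    have h3 : vx T (S.ci u) u.1 = v := Option.some.inj h2
    rw [Vx_331.ci_vx S hu] at h3
    subst h3
    exact ⟨hu, rfl⟩
  | leg l => exact absurd h2 (by simp [v2])
  | vert l k w => exact absurd h2 (by simp [v2])

/-- the branch `{β = 0}` of a canonical chart -/
theorem brp2 {v : Vtx} (hv : v ∈ Vs T) {a : ℂ}
    (ha : ‖a‖ < 2 * S.r (ec S v)) (ha0 : a ≠ 0) :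
    BrP (T := T) (S.ci v) v.1 (fun q => T.map (ec S v) (q.2, q.1))
      (fun q => Wf T (S.ci v) v.1 (ec S v) (q.2, q.1)) (fun q => q.2)
      (fun j q => S.ζ (ec S v) j (q.2, q.1)) a := by
  have hcons := S.kp_cons v hv
  refine brp_edge2 (Frm_547.Eqv.refl T _ _) hcons.2.2.1 (S.sheets (ec S v) hcons) ha ha0 ?_
  rw [shD_self, zero_add]
  exact (S.fare _ _ _ hcons a ha0 ha.le).2

/-- the component of `Cmp` -/
def cmpE (S : Sh T) (hS : T.SheetsStmt) (hR : RetStmt U) (E : II U) :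
    Cmp T (S.ci E.1.1) E.1.1.1 := cmpEquiv (hyp S hS hR E.1.2) E.2

variable (L : Lab U S)

theorem ok_ec {v : Vtx} (hv : v ∈ Vs T) : Ok S (ec S v) := ⟨S.kp_cons v hv, v, hv, rfl, rfl, rfl⟩

theorem lab1 {c : Ch T.m} (hc : Ok S c) (j : Fin T.d) {v : Vtx} (hv : v ∈ Vs T)
    (h1 : v1 T c = some v) : ∃ E' : ConnectedComponents (XV U v), L.e1 c j = some ⟨⟨v, hv⟩, E'⟩ := by
  have h2 := L.v_e1 c hc j
  rw [h1] at h2
  obtain ⟨E, h3, h4⟩ := Option.map_eq_some_iff.1 h2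
  obtain ⟨⟨v', hv'⟩, E'⟩ := E
  simp only at h4
  subst h4
  exact ⟨E', h3⟩

theorem lab2 {c : Ch T.m} (hc : Ok S c) (j : Fin T.d) {v : Vtx} (hv : v ∈ Vs T)
    (h1 : v2 T c = some v) : ∃ E' : ConnectedComponents (XV U v), L.e2 c j = some ⟨⟨v, hv⟩, E'⟩ := by
  have h2 := L.v_e2 c hc j
  rw [h1] at h2
  obtain ⟨E, h3, h4⟩ := Option.map_eq_some_iff.1 h2
  obtain ⟨⟨v', hv'⟩, E'⟩ := E
  simp only at h4
  subst h4
  exact ⟨E', h3⟩

theorem v1_of {c : Ch T.m} (hc : Ok S c) {j : Fin T.d} {E : II U} (h : L.e1 c j = some E) :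
    v1 T c = some E.1.1 := by
  rw [← L.v_e1 c hc j, h]
  rfl

theorem v2_of {c : Ch T.m} (hc : Ok S c) {j : Fin T.d} {E : II U} (h : L.e2 c j = some E) :
    v2 T c = some E.1.1 := by
  rw [← L.v_e2 c hc j, h]
  rfl

theorem fst_cont (c : Ch T.m) (p : ℂ × ℂ) : ContinuousAt (fun q => (T.map c q).1) p := by
  cases c with
  | edge i k k' => exact continuousAt_fst.mul continuousAt_snd
  | leg i => exact continuousAt_fst
  | vert i k w => exact continuousAt_fst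

/-- attached points lie on the component of the label, first branch -/
theorem label1 (hS : T.SheetsStmt) (hR : RetStmt U) {c : Ch T.m} (hc : Ok S c) {j : Fin T.d}
    {E : II U} (hE : L.e1 c j = some E) {b : ℂ} (hb : ‖b‖ ≤ S.r c) (hb0 : b ≠ 0 ∨ IsV c)
    {x : Frm_547.X T (S.ci E.1.1) E.1.1.1}
    (hx : Att T (S.ci E.1.1) E.1.1.1 x (T.map c) (S.ζ c j) (0, b)) : cl T x = cmpE S hS hR E := by
  have h1 := att_ret (hyp S hS hR E.1.2) (fst_cont c _) hx
  obtain ⟨a, ha, hnear⟩ := L.near1 c hc j E hE (if b = 0 then 1 else ‖b‖)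
    (by split_ifs with h; exacts [one_pos, norm_pos_iff.2 h])
  have ht : Tendsto (fun t : ℂ => ((t, b) : ℂ × ℂ)) (𝓝[≠] 0) (𝓝 ((0 : ℂ), b)) :=
    (OrdL_578.tendsto_fst b).mono_left nhdsWithin_le_nhds
  have h3 : ∀ᶠ t in 𝓝[≠] (0 : ℂ), ‖t‖ < a := by
    refine nhdsWithin_le_nhds ?_
    filter_upwards [ball_mem_nhds (0 : ℂ) ha] with t ht
    simpa using ht
  obtain ⟨t, c1, c2, c3⟩ := ((ht.eventually h1).and (h3.and self_mem_nhdsWithin)).exists
  have c3' : t ≠ 0 := c3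
  have hs : (T.map c (t, b)).1 ≠ 0 := by
    cases c with
    | edge i k k' => exact mul_ne_zero c3' (hb0.resolve_right (fun h => h))
    | leg i => exact c3'
    | vert i k w => exact c3'
  obtain ⟨q', -, h5, h6⟩ := c1 hs
  have h7 := (hnear (t, b) (norm_pos_iff.2 c3') c2 hb (by
    rcases hb0 with h | h
    · right
      rw [if_neg h]
    · exact Or.inl h)).2 q' h5
  rw [← h6, h7]
  rfl

/-- attached points lie on the component of the label, second branch -/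
theorem label2 (hS : T.SheetsStmt) (hR : RetStmt U) {c : Ch T.m} (hc : Ok S c) {j : Fin T.d}
    {E : II U} (hE : L.e2 c j = some E) {a : ℂ} (ha : ‖a‖ ≤ S.r c) (ha0 : a ≠ 0)
    {x : Frm_547.X T (S.ci E.1.1) E.1.1.1}
    (hx : Att T (S.ci E.1.1) E.1.1.1 x (fun q => T.map c (q.2, q.1)) (fun q => S.ζ c j (q.2, q.1))
      (0, a)) : cl T x = cmpE S hS hR E := by
  have hcont : ContinuousAt (fun q : ℂ × ℂ => (T.map c (q.2, q.1)).1) (0, a) :=
    ContinuousAt.comp (g := fun q => (T.map c q).1) (f := fun q : ℂ × ℂ => ((q.2, q.1) : ℂ × ℂ))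
      (fst_cont c _) (by fun_prop)
  have h1 := att_ret (hyp S hS hR E.1.2) hcont hx
  obtain ⟨e, he, hnear⟩ := L.near2 c hc j E hE ‖a‖ (norm_pos_iff.2 ha0)
  have ht : Tendsto (fun t : ℂ => ((t, a) : ℂ × ℂ)) (𝓝[≠] 0) (𝓝 ((0 : ℂ), a)) :=
    (OrdL_578.tendsto_fst a).mono_left nhdsWithin_le_nhds
  have h3 : ∀ᶠ t in 𝓝[≠] (0 : ℂ), ‖t‖ < e := by
    refine nhdsWithin_le_nhds ?_
    filter_upwards [ball_mem_nhds (0 : ℂ) he] with t ht
    simpa using ht
  obtain ⟨t, c1, c2, c3⟩ := ((ht.eventually h1).and (h3.and self_mem_nhdsWithin)).exists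
  have c3' : t ≠ 0 := c3
  obtain ⟨-, rfl⟩ := v2_cases hc (v2_of L hc hE)
  have hs : (T.map (ec S E.1.1) (a, t)).1 ≠ 0 := mul_ne_zero ha0 c3'
  obtain ⟨q', -, h5, h6⟩ := c1 hs
  have h7 := (hnear (a, t) (norm_pos_iff.2 c3') c2 ha le_rfl).2 q' h5
  rw [← h6, h7]
  rfl

end Crest.Agent.R257.OrdA_578
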