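import Crest.Agent.R257.OrdA_578

/-!
# Row 257, part C, `OrdStmt` (helper578), part B: factorisations at the points of the special fibre

`ord1`, `ord2` : the orders along the branches of a chart are the orders `vo`;
`PFac`         : factorisation of `g ∘ th` at a point; `exists_pfac`; `PFac.unique`;
`nv1`, `nv2`   : non-vanishing at ordinary points from the leading coefficient.
-/

set_option autoImplicit false
set_option linter.unusedSectionVars false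

open Polynomial Set Filter Topology Metric
open Crest.AlgGeometry.Germ Crest.Agent.R257.AJ387

noncomputable section

namespace Crest.Agent.R257.OrdA_578

open Crest.Agent.R257.T387 Crest.Agent.R257.OrdL_578 Crest.Agent.R257.Deg_578
open Crest.Agent.R257.OrdT_578 Crest.Agent.R257.BP_258 Crest.Agent.R257.Br_578
open Crest.Agent.R257.Frm_547 (Z2 Sh1 Step Cmp cl fib Att LocBr Eqv)

/-! ### local lemmas -/

theorem fac1 {h : ℂ × ℂ → ℂ} {b : ℂ} {n m : ℕ} (hn : HasOrd h b n) (hb : b ≠ 0 ∨ m = 0) :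
    ∃ G : ℂ × ℂ → ℂ, AnalyticAt ℂ G (0, b) ∧
      (∀ᶠ p in 𝓝 ((0 : ℂ), b), h p = p.1 ^ n * p.2 ^ m * G p) ∧ ∃ᶠ z in 𝓝 b, G (0, z) ≠ 0 := by
  obtain ⟨G', hG', hne⟩ := hn
  rcases hb with hb | hm
  · refine ⟨fun p => (p.2 ^ m)⁻¹ * G' p, ((analyticAt_snd.pow m).inv (pow_ne_zero _ hb)).mul hG'.1,
      ?_, ?_⟩
    · filter_upwards [hG'.2, (continuousAt_snd (p := ((0 : ℂ), b))).eventually_ne hb] with p h1 h2
      have h3 : p.2 ^ m ≠ 0 := pow_ne_zero _ h2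
      rw [h1, mul_assoc, ← mul_assoc (p.2 ^ m), mul_inv_cancel₀ h3, one_mul]
    · have h1 : ∀ᶠ z in 𝓝 b, z ≠ 0 := continuousAt_id.eventually_ne hb
      refine (hne.and_eventually h1).mono ?_
      rintro z ⟨h2, h3⟩
      exact mul_ne_zero (inv_ne_zero (pow_ne_zero _ h3)) h2
  · subst hm
    refine ⟨G', hG'.1, ?_, hne⟩
    filter_upwards [hG'.2] with p h1
    rw [h1, pow_zero, mul_one]

theorem fac2 {h : ℂ × ℂ → ℂ} {a : ℂ} {n m : ℕ} (hm : HasOrd (sw h) a m) (ha : a ≠ 0 ∨ n = 0) :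
    ∃ G : ℂ × ℂ → ℂ, AnalyticAt ℂ G (a, 0) ∧
      (∀ᶠ p in 𝓝 (a, (0 : ℂ)), h p = p.1 ^ n * p.2 ^ m * G p) ∧ ∃ᶠ z in 𝓝 a, G (z, 0) ≠ 0 := by
  obtain ⟨G, h1, h2, h3⟩ := fac1 hm ha
  refine ⟨sw G, sw_an' h1, ?_, h3⟩
  filter_upwards [(sw_tendsto (a, (0 : ℂ))).eventually h2] with p hp
  have h4 : sw h (p.2, p.1) = h p := rfl
  rw [← h4, hp]
  show p.2 ^ m * p.1 ^ n * G (p.2, p.1) = _
  rw [mul_comm (p.2 ^ m)]
  rfl

/-- the leading coefficient from a factorisation -/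
theorem lc_of_fac {h : ℂ × ℂ → ℂ} {b : ℂ} {n m : ℕ} {G : ℂ × ℂ → ℂ} (hG : AnalyticAt ℂ G (0, b))
    (he : ∀ᶠ p in 𝓝 ((0 : ℂ), b), h p = p.1 ^ n * p.2 ^ m * G p) :
    ∀ᶠ z in 𝓝 b, lc h n z = z ^ m * G (0, z) := by
  have h1 : Quo h b n (fun q => q.2 ^ m * G q) := by
    refine ⟨(analyticAt_snd.pow m).mul hG, ?_⟩
    filter_upwards [he] with q hq
    rw [hq, mul_assoc]
  exact h1.lc_eq

/-- uniqueness of the factor -/
theorem fac_unique {h : ℂ × ℂ → ℂ} {p₀ : ℂ × ℂ} {n m : ℕ} {G G' : ℂ × ℂ → ℂ}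
    (hG : AnalyticAt ℂ G p₀) (hG' : AnalyticAt ℂ G' p₀)
    (he : ∀ᶠ p in 𝓝 p₀, h p = p.1 ^ n * p.2 ^ m * G p)
    (he' : ∀ᶠ p in 𝓝 p₀, h p = p.1 ^ n * p.2 ^ m * G' p) : ∀ᶠ p in 𝓝 p₀, G p = G' p := by
  have h1 : ∀ᶠ p in 𝓝 p₀, (p.1 ^ n * p.2 ^ m) * (G p - G' p) = 0 := by
    filter_upwards [he, he'] with p h1 h2
    rw [mul_sub, ← h1, ← h2, sub_self]
  have hm : AnalyticAt ℂ (fun p : ℂ × ℂ => p.1 ^ n * p.2 ^ m) p₀ :=
    (analyticAt_fst.pow n).mul (analyticAt_snd.pow m)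
  rcases germ_mul hm (hG.sub hG') h1 with h2 | h2
  · exfalso
    rcases germ_mul (analyticAt_fst.pow n) (analyticAt_snd.pow m) h2 with h3 | h3
    · obtain ⟨x, y⟩ := p₀
      have ht : Tendsto (fun t : ℂ => ((x + t, y) : ℂ × ℂ)) (𝓝 0) (𝓝 (x, y)) := by
        have : Continuous fun t : ℂ => ((x + t, y) : ℂ × ℂ) := by fun_prop
        exact this.tendsto' _ _ (by simp)
      have h4 : ∀ᶠ t in 𝓝[≠] (0 : ℂ), x + t ≠ 0 := by
        by_cases hx : x = 0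
        · filter_upwards [self_mem_nhdsWithin] with t ht
          rw [hx, zero_add]
          exact ht
        · have : ContinuousAt (fun t : ℂ => x + t) 0 := by fun_prop
          exact (this.eventually_ne (by simpa using hx)).filter_mono nhdsWithin_le_nhds
      obtain ⟨t, ht1, ht2⟩ := (((ht.eventually h3).filter_mono nhdsWithin_le_nhds).and h4).exists
      exact pow_ne_zero _ ht2 ht1
    · obtain ⟨x, y⟩ := p₀
      have ht : Tendsto (fun t : ℂ => ((x, y + t) : ℂ × ℂ)) (𝓝 0) (𝓝 (x, y)) := by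
        have : Continuous fun t : ℂ => ((x, y + t) : ℂ × ℂ) := by fun_prop
        exact this.tendsto' _ _ (by simp)
      have h4 : ∀ᶠ t in 𝓝[≠] (0 : ℂ), y + t ≠ 0 := by
        by_cases hx : y = 0
        · filter_upwards [self_mem_nhdsWithin] with t ht
          rw [hx, zero_add]
          exact ht
        · have : ContinuousAt (fun t : ℂ => y + t) 0 := by fun_prop
          exact (this.eventually_ne (by simpa using hx)).filter_mono nhdsWithin_le_nhds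
      obtain ⟨t, ht1, ht2⟩ := (((ht.eventually h3).filter_mono nhdsWithin_le_nhds).and h4).exists
      exact pow_ne_zero _ ht2 ht1
  · filter_upwards [h2] with p hp using sub_eq_zero.1 hp

variable {f : (Fin 3 → ℂ) → ℂ} {T : TB f} {U : Tub T} {S : Sh T}

variable (S) in
/-- `g ∘ th` -/
def gc (g : (Fin 3 → ℂ) → ℂ) (c : Ch T.m) (j : Fin T.d) : ℂ × ℂ → ℂ := gm T g (T.map c) (S.ζ c j)

theorem gc_an1 {g : (Fin 3 → ℂ) → ℂ} (hg : AnalyticAt ℂ g 0) {c : Ch T.m} (hc : Ok S c)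
    (j : Fin T.d) {v : Vtx} (h1 : v1 T c = some v) {z : ℂ} (hz : ‖z‖ < 2 * S.r c) :
    AnalyticAt ℂ (gc S g c j) (0, z) := by
  have hr : 0 < 2 * S.r c := by have := S.pos c; linarith
  refine gth_an hg (S.sheets c hc.1) (p := ((0 : ℂ), z)) ⟨by simpa using hr, hz⟩ ?_ j
  rcases v1_cases hc h1 with ⟨l, k, k', rfl, h0, rfl, hcons⟩ | ⟨l, rfl, rfl⟩ | ⟨l, k, w, rfl, rfl, hk, hw⟩
  · exact map_edge1 (Nat.pos_of_ne_zero h0) z
  · exact map_leg l z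
  · exact OrdT_578.map_vert (T.lev_pos hk) w z

theorem gc_an2 {g : (Fin 3 → ℂ) → ℂ} (hg : AnalyticAt ℂ g 0) {v : Vtx} (hv : v ∈ Vs T)
    (j : Fin T.d) {z : ℂ} (hz : ‖z‖ < 2 * S.r (ec S v)) :
    AnalyticAt ℂ (gc S g (ec S v) j) (z, 0) := by
  have hr : 0 < 2 * S.r (ec S v) := by have := S.pos (ec S v); linarith
  refine gth_an hg (S.sheets (ec S v) (S.kp_cons v hv)) (p := (z, (0 : ℂ)))
    ⟨hz, by simpa using hr⟩ ?_ j
  exact map_edge2 (T.lev_pos (Vx_331.ci_lev S hv)) z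

theorem swgc_eq (g : (Fin 3 → ℂ) → ℂ) (c : Ch T.m) (j : Fin T.d) :
    sw (gc S g c j) = gm T g (fun q => T.map c (q.2, q.1)) (fun q => S.ζ c j (q.2, q.1)) := rfl

/-- orders of `g` on all components -/
def IsVo (S : Sh T) (hS : T.SheetsStmt) (hR : RetStmt U) (g : (Fin 3 → ℂ) → ℂ) (vo : II U → ℕ) :
    Prop := ∀ E : II U, Oc g (cmpE S hS hR E) (vo E)

variable (L : Lab U S) {hS : T.SheetsStmt} {hR : RetStmt U} {g : (Fin 3 → ℂ) → ℂ} {vo : II U → ℕ}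

theorem vk_pos {v : Vtx} (hv : v ∈ Vs T) (S : Sh T) : 0 < v.1 := T.lev_pos (Vx_331.ci_lev S hv)

theorem exists_b {r : ℝ} (hr : 0 < r) : ∃ b : ℂ, b ≠ 0 ∧ ‖b‖ ≤ r ∧ ‖b‖ < 2 * r := by
  have h : ‖(r : ℂ)‖ = r := by rw [Complex.norm_real, Real.norm_eq_abs, abs_of_pos hr]
  exact ⟨(r : ℂ), by exact_mod_cast hr.ne', h.le, by rw [h]; linarith⟩

/-- the order along the first branch -/
theorem ord1 (hg : AnalyticAt ℂ g 0) (hvo : IsVo S hS hR g vo) {c : Ch T.m} (hc : Ok S c)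
    {j : Fin T.d} {E : II U} (hE : L.e1 c j = some E) {b : ℂ} (hb : ‖b‖ < 2 * S.r c) :
    HasOrd (gc S g c j) b (vo E) := by
  obtain ⟨b₀, h0, h1, h2⟩ := exists_b (S.pos c)
  have hv1 := v1_of L hc hE
  have hbr := brp1 hc hv1 h2 (Or.inl h0)
  obtain ⟨ξ, hatt, -⟩ := hbr.loc.pts hS (Vx_331.ci_lev S E.1.2)
  have hcl := label1 L hS hR hc hE h1 (Or.inl h0) (hatt j)
  have hO : Ox g (ξ j) (vo E) := (hvo E).all hg (vk_pos E.1.2 S) hcl
  have hn := (hbr.hasOrd_iff hg (vk_pos E.1.2 S) (hatt j)).2 hO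
  exact ord_ball (fun z hz => gc_an1 hg hc j hv1 hz) h2 hb hn

/-- the order along the second branch -/
theorem ord2 (hg : AnalyticAt ℂ g 0) (hvo : IsVo S hS hR g vo) {c : Ch T.m} (hc : Ok S c)
    {j : Fin T.d} {E : II U} (hE : L.e2 c j = some E) {a : ℂ} (ha : ‖a‖ < 2 * S.r c) :
    HasOrd (sw (gc S g c j)) a (vo E) := by
  obtain ⟨hv, rfl⟩ := v2_cases hc (v2_of L hc hE)
  obtain ⟨b₀, h0, h1, h2⟩ := exists_b (S.pos (ec S E.1.1))
  have hbr := brp2 hv h2 h0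
  obtain ⟨ξ, hatt, -⟩ := hbr.loc.pts hS (Vx_331.ci_lev S E.1.2)
  have hcl := label2 L hS hR hc hE h1 h0 (hatt j)
  have hO : Ox g (ξ j) (vo E) := (hvo E).all hg (vk_pos E.1.2 S) hcl
  have hn := (hbr.hasOrd_iff hg (vk_pos E.1.2 S) (hatt j)).2 hO
  exact ord_ball (fun z hz => sw_an' (gc_an2 hg hv j hz)) h2 ha hn

/-- factorisation at a point -/
structure PFac (g : (Fin 3 → ℂ) → ℂ) (vo : II U → ℕ) (c : Ch T.m) (j : Fin T.d) (p₀ : ℂ × ℂ)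
    (G : ℂ × ℂ → ℂ) : Prop where
  an : AnalyticAt ℂ G p₀
  eq : ∀ᶠ p in 𝓝 p₀, gc S g c j p = p.1 ^ yn vo (L.e1 c j) * p.2 ^ yn vo (L.e2 c j) * G p
  ne1 : p₀.1 = 0 → L.e1 c j ≠ none → ∃ᶠ z in 𝓝 p₀.2, G (0, z) ≠ 0
  ne2 : p₀.2 = 0 → L.e2 c j ≠ none → ∃ᶠ z in 𝓝 p₀.1, G (z, 0) ≠ 0

theorem exists_pfac (hg : AnalyticAt ℂ g 0) (hvo : IsVo S hS hR g vo) {c : Ch T.m} (hc : Ok S c)
    (j : Fin T.d) {p₀ : ℂ × ℂ} (hp1 : ‖p₀.1‖ < 2 * S.r c) (hp2 : ‖p₀.2‖ < 2 * S.r c)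
    (h : (L.e1 c j ≠ none ∧ p₀.1 = 0) ∨ (L.e2 c j ≠ none ∧ p₀.2 = 0)) :
    ∃ G, PFac L g vo c j p₀ G := by
  obtain ⟨a, b⟩ := p₀
  simp only at hp1 hp2 h
  -- both branches
  by_cases hboth : L.e1 c j ≠ none ∧ L.e2 c j ≠ none ∧ a = 0 ∧ b = 0
  · obtain ⟨h1, h2, rfl, rfl⟩ := hboth
    obtain ⟨E₁, hE₁⟩ := Option.ne_none_iff_exists'.1 h1
    obtain ⟨E₂, hE₂⟩ := Option.ne_none_iff_exists'.1 h2
    obtain ⟨G, hG⟩ := exists_cross_of (gc_an1 hg hc j (v1_of L hc hE₁) hp2)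
      (ord1 L hg hvo hc hE₁ hp2) (ord2 L hg hvo hc hE₂ hp1)
    refine ⟨G, hG.an, ?_, fun _ _ => hG.ne1, fun _ _ => hG.ne2⟩
    rw [hE₁, hE₂]
    exact hG.eq
  · by_cases h1 : L.e1 c j ≠ none ∧ a = 0
    · obtain ⟨h1, rfl⟩ := h1
      obtain ⟨E₁, hE₁⟩ := Option.ne_none_iff_exists'.1 h1
      have hb : b ≠ 0 ∨ yn vo (L.e2 c j) = 0 := by
        by_cases hb : b = 0
        · right
          have : L.e2 c j = none := by
            by_contra h2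
            exact hboth ⟨h1, h2, rfl, hb⟩
          rw [this]
          rfl
        · exact Or.inl hb
      obtain ⟨G, g1, g2, g3⟩ := fac1 (ord1 L hg hvo hc hE₁ hp2) hb
      refine ⟨G, g1, ?_, fun _ _ => g3, fun h2 h3 => absurd ⟨h1, h3, rfl, h2⟩ hboth⟩
      rw [hE₁]
      exact g2
    · have h2 := h.resolve_left h1
      obtain ⟨h2, rfl⟩ := h2
      obtain ⟨E₂, hE₂⟩ := Option.ne_none_iff_exists'.1 h2
      have ha : a ≠ 0 ∨ yn vo (L.e1 c j) = 0 := by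
        by_cases ha : a = 0
        · right
          have : L.e1 c j = none := by
            by_contra h3
            exact h1 ⟨h3, ha⟩
          rw [this]
          rfl
        · exact Or.inl ha
      obtain ⟨G, g1, g2, g3⟩ := fac2 (ord2 L hg hvo hc hE₂ hp1) ha
      refine ⟨G, g1, ?_, fun h3 h4 => absurd ⟨h4, h3⟩ h1, fun _ _ => g3⟩
      rw [hE₂]
      exact g2

theorem PFac.val {c : Ch T.m} {j : Fin T.d} {p₀ : ℂ × ℂ} {G G' : ℂ × ℂ → ℂ}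
    (h : PFac L g vo c j p₀ G) (h' : PFac L g vo c j p₀ G') : G p₀ = G' p₀ :=
  (fac_unique h.an h'.an h.eq h'.eq).self_of_nhds

/-- non-vanishing at ordinary points, first branch -/
theorem nv1 (hg : AnalyticAt ℂ g 0) (hvo : IsVo S hS hR g vo) {c : Ch T.m} (hc : Ok S c)
    {j : Fin T.d} {E : II U} (hE : L.e1 c j = some E) {b : ℂ} (hb : ‖b‖ ≤ S.r c)
    (hb0 : b ≠ 0 ∨ IsV c) {G : ℂ × ℂ → ℂ} (hG : PFac L g vo c j (0, b) G)
    (hL : ∀ x : Frm_547.X T (S.ci E.1.1) E.1.1.1, cl T x = cmpE S hS hR E →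
      Lw T g (S.ci E.1.1) E.1.1.1 (vo E) x.1.1 x.1.2 ≠ 0) : G (0, b) ≠ 0 := by
  have hb2 : ‖b‖ < 2 * S.r c := by have := S.pos c; linarith
  have hv1 := v1_of L hc hE
  have hbr := brp1 hc hv1 hb2 hb0
  obtain ⟨ξ, hatt, -⟩ := hbr.loc.pts hS (Vx_331.ci_lev S E.1.2)
  have hcl := label1 L hS hR hc hE hb hb0 (hatt j)
  have hO : Ox g (ξ j) (vo E) := (hvo E).all hg (vk_pos E.1.2 S) hcl
  have h1 := hbr.lc_eq (hatt j) hO
  have heq := hG.eq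
  rw [hE] at heq
  have h2 := (lc_of_fac hG.an heq).self_of_nhds
  have h3 : gm T g (T.map c) (S.ζ c j) = gc S g c j := rfl
  rw [h3, show (vo E) = yn vo (some E) from rfl, h2] at h1
  intro h0
  rw [h0, mul_zero] at h1
  exact mul_ne_zero (pow_ne_zero _ hbr.une) (hL (ξ j) hcl) h1.symm

/-- non-vanishing at ordinary points, second branch -/
theorem nv2 (hg : AnalyticAt ℂ g 0) (hvo : IsVo S hS hR g vo) {c : Ch T.m} (hc : Ok S c)
    {j : Fin T.d} {E : II U} (hE : L.e2 c j = some E) {a : ℂ} (ha : ‖a‖ ≤ S.r c)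
    (ha0 : a ≠ 0) {G : ℂ × ℂ → ℂ} (hG : PFac L g vo c j (a, 0) G)
    (hL : ∀ x : Frm_547.X T (S.ci E.1.1) E.1.1.1, cl T x = cmpE S hS hR E →
      Lw T g (S.ci E.1.1) E.1.1.1 (vo E) x.1.1 x.1.2 ≠ 0) : G (a, 0) ≠ 0 := by
  obtain ⟨hv, rfl⟩ := v2_cases hc (v2_of L hc hE)
  have ha2 : ‖a‖ < 2 * S.r (ec S E.1.1) := by have := S.pos (ec S E.1.1); linarith
  have hbr := brp2 hv ha2 ha0
  obtain ⟨ξ, hatt, -⟩ := hbr.loc.pts hS (Vx_331.ci_lev S E.1.2)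
  have hcl := label2 L hS hR hc hE ha ha0 (hatt j)
  have hO : Ox g (ξ j) (vo E) := (hvo E).all hg (vk_pos E.1.2 S) hcl
  have h1 := hbr.lc_eq (hatt j) hO
  have heq : ∀ᶠ p in 𝓝 ((0 : ℂ), a), sw (gc S g (ec S E.1.1) j) p =
      p.1 ^ vo E * p.2 ^ yn vo (L.e1 (ec S E.1.1) j) * sw G p := by
    have h3 := (sw_tendsto ((0 : ℂ), a)).eventually hG.eq
    rw [hE] at h3
    filter_upwards [h3] with p hp
    show gc S g (ec S E.1.1) j (p.2, p.1) = _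
    rw [hp]
    show p.2 ^ _ * p.1 ^ vo E * _ = _
    rw [mul_comm (p.2 ^ _)]
    rfl
  have h2 := (lc_of_fac (sw_an' hG.an) heq).self_of_nhds
  rw [← swgc_eq, h2] at h1
  intro h0
  have h4 : sw G (0, a) = 0 := h0
  rw [h4, mul_zero] at h1
  exact mul_ne_zero (pow_ne_zero _ hbr.une) (hL (ξ j) hcl) h1.symm

end Crest.Agent.R257.OrdA_578
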