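import Crest.Agent.R257.OrdC_578

/-!
# Row 257, part C, `OrdStmt` (helper578), part D: the degree formula for the components of `II U`

`raw1`, `raw2` : the branches ending at the special points, and at infinity, as `Raw`;
`deg_E`        : the degree formula.
-/

set_option autoImplicit false
set_option linter.unusedSectionVars false

open Polynomial Set Filter Topology Metric
open Crest.AlgGeometry.Germ Crest.Agent.R257.AJ387

noncomputable section

namespace Crest.Agent.R257.OrdA_578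

open Crest.Agent.R257.T387 Crest.Agent.R257.OrdL_578 Crest.Agent.R257.Deg_578
open Crest.Agent.R257.OrdT_578 Crest.Agent.R257.BP_258 Crest.Agent.R257.Br_578
open Crest.Agent.R257.Gr1_157
open Crest.Agent.R257.Frm_547 (Z2 Sh1 Step Cmp cl fib Att LocBr Eqv)

variable {f : (Fin 3 → ℂ) → ℂ} {T : TB f} {U : Tub T} {S : Sh T}
variable (L : Lab U S) {hS : T.SheetsStmt} {hR : RetStmt U} {g : (Fin 3 → ℂ) → ℂ} {vo : II U → ℕ}

variable (T) in
/-- ramification of the branch `α = 0` -/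
def ll : Ch T.m → ℕ
  | .edge _ k k' => T.M * (k' - k)
  | .leg _ => T.M
  | .vert _ _ _ => 1

/-- `1` for edges, `0` for legs -/
def ep' {m : ℕ} : Ch m → ℕ
  | .edge _ _ _ => 1
  | .leg _ => 0
  | .vert _ _ _ => 0

theorem ev_small {r : ℝ} (hr : 0 < r) : ∀ᶠ β in 𝓝[≠] (0 : ℂ), ‖β‖ < r := by
  refine nhdsWithin_le_nhds ?_
  filter_upwards [ball_mem_nhds (0 : ℂ) hr] with t ht
  simpa using ht

theorem SC.ll_pos {v : Vtx} {c₀ : ℂ} {c : Ch T.m} (h : SC S v c₀ c) : 0 < ll T c := by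
  rcases v1_cases h.ok h.v1 with ⟨l, k, k', rfl, h0, rfl, hcons⟩ | ⟨l, rfl, rfl⟩ |
    ⟨l, k, w, rfl, rfl, hk, hw⟩
  · have := hcons.2.2.1
    exact Nat.mul_pos T.M_pos (by omega)
  · exact T.M_pos
  · exact one_pos

theorem SC.Wf {v : Vtx} {c₀ : ℂ} {c : Ch T.m} (h : SC S v c₀ c) (β : ℂ) :
    Wf T (S.ci v) v.1 c (0, β) = c₀ + β ^ ll T c := by
  obtain ⟨hok, hv1, hnv, hco⟩ := h
  rcases v1_cases hok hv1 with ⟨l, k, k', rfl, h0, rfl, hcons⟩ | ⟨l, rfl, rfl⟩ |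
    ⟨l, k, w, rfl, rfl, hk, hw⟩
  · have hkl : k ∈ T.lev l := hcons.1.resolve_left h0
    have he : Eqv T k (S.ci (vx T l k)) l := (Vx_331.ci_eqv S hkl).symm
    have hv : vx T l k ∈ Vs T := (Vx_331.mem_Vs T).2 ⟨l, k, hkl, rfl⟩
    have h1 := shD_ci (S := S) hv (l := l) he
    have h2 : (vx T l k).1 = k := rfl
    rw [← hco]
    show shD T k (S.ci (vx T l k)) l ((0 * β) ^ T.M) +
      (if k = k then β ^ (T.M * (k' - k)) else _) = BP_258.co T l k + β ^ (T.M * (k' - k))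
    rw [if_pos rfl, zero_mul, zero_pow T.M_pos.ne']
    rw [h2] at h1
    rw [h1]
  · have hkl : T.top l ∈ T.lev l := T.top_mem l
    have he : Eqv T (T.top l) (S.ci (vx T l (T.top l))) l := (Vx_331.ci_eqv S hkl).symm
    have hv : vx T l (T.top l) ∈ Vs T := (Vx_331.mem_Vs T).2 ⟨l, _, hkl, rfl⟩
    have h1 := shD_ci (S := S) hv (l := l) he
    have h2 : (vx T l (T.top l)).1 = T.top l := rfl
    rw [← hco]
    show shD T (T.top l) (S.ci (vx T l (T.top l))) l ((0 : ℂ) ^ T.M) + β ^ T.M =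
      BP_258.co T l (T.top l) + β ^ T.M
    rw [zero_pow T.M_pos.ne']
    rw [h2] at h1
    rw [h1]
  · exact absurd trivial hnv

theorem SC.uf {v : Vtx} {c₀ : ℂ} {c : Ch T.m} (h : SC S v c₀ c) (β : ℂ) :
    uf c (0, β) = β ^ ep' c := by
  cases c with
  | edge i k k' => exact (pow_one β).symm
  | leg i => exact (pow_zero β).symm
  | vert i k w => exact (pow_zero β).symm

/-- the branch of an edge or leg chart ending at a special point -/
theorem raw1 (hS : T.SheetsStmt) (hR : RetStmt U) (E : II U) {c₀ : ℂ} {c : Ch T.m}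
    (h : SC S E.1.1 c₀ c) {G : Fin T.d → ℂ × ℂ → ℂ} (hG : ∀ j, PFac L g vo c j 0 (G j)) :
    ∃ B : Raw T (S.ci E.1.1) E.1.1.1,
      B.Ok g (cmpE S hS hR E) (vo E) (fun β => c₀ + β ^ ll T c) ∧
      (∀ j, B.e j = cmpE S hS hR E ↔ L.e1 c j = some E) ∧
      (∀ j, B.v j = (yn vo (L.e2 c j) : ℤ) - ep' c * vo E) ∧ ∀ j, B.H j 0 = G j 0 := by
  choose E' hE' using fun j => lab1 L h.ok j E.1.2 h.v1
  have he : ∀ j, (cmpEquiv (hyp S hS hR E.1.2) (E' j) = cmpE S hS hR E ↔ L.e1 c j = some E) := by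
    intro j
    rw [hE' j]
    constructor
    · intro h1
      have h2 : E' j = E.2 := (cmpEquiv (hyp S hS hR E.1.2)).injective h1
      rw [h2]
    · intro h1
      have h2 : (⟨⟨E.1.1, E.1.2⟩, E' j⟩ : II U) = E := Option.some.inj h1
      have h3 : (⟨⟨E.1.1, E.1.2⟩, E' j⟩ : II U) = ⟨⟨E.1.1, E.1.2⟩, E.2⟩ := h2
      have h4 : E' j = E.2 := by
        have := (Sigma.mk.inj h3).2
        exact eq_of_heq this
      rw [h4]
      rfl
  refine ⟨⟨T.map c, Wf T (S.ci E.1.1) E.1.1.1 c, uf c, S.ζ c,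
    fun j => cmpEquiv (hyp S hS hR E.1.2) (E' j), fun j => (yn vo (L.e2 c j) : ℤ) - ep' c * vo E,
    fun j β => G j (0, β)⟩, ⟨?_, ?_⟩, he, fun j => rfl, fun j => rfl⟩
  · filter_upwards [ev_small (S.pos c), self_mem_nhdsWithin] with β h1 h2
    have hb2 : ‖β‖ < 2 * S.r c := by have := S.pos c; linarith
    refine ⟨brp1 h.ok h.v1 hb2 (Or.inl h2), h.Wf β, fun j x hx => ?_⟩
    exact label1 L hS hR h.ok (hE' j) h1.le (Or.inl h2) hx
  · intro j hj
    have hj' : L.e1 c j = some E := (he j).1 hj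
    refine ⟨an_ax (hG j).an, (hG j).ne1 rfl (by rw [hj']; exact Option.some_ne_none _), ?_⟩
    have heq := (hG j).eq
    rw [hj'] at heq
    have h2 := lc_of_fac (b := 0) (hG j).an heq
    filter_upwards [h2.filter_mono nhdsWithin_le_nhds, self_mem_nhdsWithin] with β h3 h4
    show lc (gc S g c j) (yn vo (some E)) β = _
    rw [h3]
    show _ = uf c (0, β) ^ vo E * (β ^ ((yn vo (L.e2 c j) : ℤ) - ep' c * vo E) * G j (0, β))
    have h4' : β ≠ 0 := h4
    rw [h.uf β, ← mul_assoc]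
    congr 1
    rw [← pow_mul, ← zpow_natCast, ← zpow_natCast, ← zpow_add₀ h4']
    congr 1
    push_cast
    ring

/-- the branch of the parent edge, at infinity -/
theorem raw2 (hS : T.SheetsStmt) (hR : RetStmt U) (E : II U)
    {G : Fin T.d → ℂ × ℂ → ℂ} (hG : ∀ j, PFac L g vo (ec S E.1.1) j 0 (G j)) :
    ∃ B : Raw T (S.ci E.1.1) E.1.1.1,
      B.Ok g (cmpE S hS hR E) (vo E) (fun β => (β ^ (T.M * (E.1.1.1 - S.kp E.1.1)))⁻¹) ∧
      (∀ j, B.e j = cmpE S hS hR E ↔ L.e2 (ec S E.1.1) j = some E) ∧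
      (∀ j, B.v j = (yn vo (L.e1 (ec S E.1.1) j) : ℤ) - vo E) ∧ ∀ j, B.H j 0 = G j 0 := by
  have hok : Ok S (ec S E.1.1) := ok_ec E.1.2
  have hv2 : v2 T (ec S E.1.1) = some E.1.1 := by
    show some (vx T (S.ci E.1.1) E.1.1.1) = _
    rw [Vx_331.ci_vx S E.1.2]
  choose E' hE' using fun j => lab2 L hok j E.1.2 hv2
  have he : ∀ j, (cmpEquiv (hyp S hS hR E.1.2) (E' j) = cmpE S hS hR E ↔
      L.e2 (ec S E.1.1) j = some E) := by
    intro j
    rw [hE' j]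
    constructor
    · intro h1
      have h2 : E' j = E.2 := (cmpEquiv (hyp S hS hR E.1.2)).injective h1
      rw [h2]
    · intro h1
      have h3 : (⟨⟨E.1.1, E.1.2⟩, E' j⟩ : II U) = ⟨⟨E.1.1, E.1.2⟩, E.2⟩ := Option.some.inj h1
      have h4 : E' j = E.2 := eq_of_heq (Sigma.mk.inj h3).2
      rw [h4]
      rfl
  refine ⟨⟨fun q => T.map (ec S E.1.1) (q.2, q.1),
    fun q => Wf T (S.ci E.1.1) E.1.1.1 (ec S E.1.1) (q.2, q.1), fun q => q.2,
    fun j q => S.ζ (ec S E.1.1) j (q.2, q.1),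
    fun j => cmpEquiv (hyp S hS hR E.1.2) (E' j),
    fun j => (yn vo (L.e1 (ec S E.1.1) j) : ℤ) - vo E,
    fun j β => G j (β, 0)⟩, ⟨?_, ?_⟩, he, fun j => rfl, fun j => rfl⟩
  · filter_upwards [ev_small (S.pos (ec S E.1.1)), self_mem_nhdsWithin] with β h1 h2
    have hb2 : ‖β‖ < 2 * S.r (ec S E.1.1) := by have := S.pos (ec S E.1.1); linarith
    refine ⟨brp2 E.1.2 hb2 h2, ?_, fun j x hx => ?_⟩
    · have hk : E.1.1.1 ≠ S.kp E.1.1 := (S.kp_cons _ E.1.2).2.2.1.ne'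
      show shD T E.1.1.1 (S.ci E.1.1) (S.ci E.1.1) ((β * 0) ^ T.M) +
        (if E.1.1.1 = S.kp E.1.1 then _ else (β ^ (T.M * (E.1.1.1 - S.kp E.1.1)))⁻¹) = _
      rw [if_neg hk, shD_self, zero_add]
    · exact label2 L hS hR hok (hE' j) h1.le h2 hx
  · intro j hj
    have hj' : L.e2 (ec S E.1.1) j = some E := (he j).1 hj
    have hGs : AnalyticAt ℂ (sw (G j)) (0, 0) := sw_an' (hG j).an
    refine ⟨an_ax hGs, (hG j).ne2 rfl (by rw [hj']; exact Option.some_ne_none _), ?_⟩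
    have heq : ∀ᶠ p in 𝓝 ((0 : ℂ), (0 : ℂ)), sw (gc S g (ec S E.1.1) j) p =
        p.1 ^ vo E * p.2 ^ yn vo (L.e1 (ec S E.1.1) j) * sw (G j) p := by
      have h3 := (sw_tendsto ((0 : ℂ), (0 : ℂ))).eventually (hG j).eq
      rw [hj'] at h3
      filter_upwards [h3] with p hp
      show gc S g (ec S E.1.1) j (p.2, p.1) = _
      rw [hp]
      show p.2 ^ _ * p.1 ^ vo E * _ = _
      rw [mul_comm (p.2 ^ _)]
      rfl
    have h2 := lc_of_fac hGs heq
    filter_upwards [h2.filter_mono nhdsWithin_le_nhds, self_mem_nhdsWithin] with β h3 h4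
    show lc (sw (gc S g (ec S E.1.1) j)) (vo E) β = _
    rw [h3]
    show β ^ _ * G j (β, 0) = β ^ vo E *
      (β ^ ((yn vo (L.e1 (ec S E.1.1) j) : ℤ) - vo E) * G j (β, 0))
    have h4' : β ≠ 0 := h4
    rw [← mul_assoc]
    congr 1
    rw [← zpow_natCast, ← zpow_natCast, ← zpow_add₀ h4']
    congr 1
    ring

theorem yo_yn (o : Option (II U)) : yo (fun i => (vo i : ℝ)) o = (yn vo o : ℝ) := by
  cases o with
  | none => simp [yo, yn]
  | some a => rfl

open Classical in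
/-- **the degree formula for the components of `II U`** -/
theorem deg_E [Fintype (II U)] (hg : AnalyticAt ℂ g 0) (hvo : IsVo S hS hR g vo) (E : II U)
    {G : Ch T.m → Fin T.d → ℂ × ℂ → ℂ}
    (hG : ∀ c, Ok S c → ∀ j, (L.e1 c j ≠ none ∨ L.e2 c j ≠ none) → PFac L g vo c j 0 (G c j)) :
    dg (Mx L) (fun i => (vo i : ℝ)) E ≤ 0 ∧ (dg (Mx L) (fun i => (vo i : ℝ)) E = 0 →
      (∀ x : Frm_547.X T (S.ci E.1.1) E.1.1.1, cl T x = cmpE S hS hR E →
        Lw T g (S.ci E.1.1) E.1.1.1 (vo E) x.1.1 x.1.2 ≠ 0) ∧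
      (∀ c, Ok S c → ¬ IsV c → ∀ j, L.e1 c j = some E → G c j 0 ≠ 0) ∧
      ∀ c, Ok S c → ∀ j, L.e2 c j = some E → G c j 0 ≠ 0) := by
  set v : Vtx := E.1.1 with hvdef
  have hv : v ∈ Vs T := E.1.2
  have hlab1 : ∀ c, Ok S c → v1 T c = some v → ∀ j, L.e1 c j ≠ none := by
    intro c hc h1 j
    obtain ⟨E', hE'⟩ := lab1 L hc j hv h1
    rw [hE']
    exact Option.some_ne_none _
  have hokv : Ok S (ec S v) := ok_ec hv
  have hv2 : v2 T (ec S v) = some v := by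
    show some (vx T (S.ci v) v.1) = _
    rw [Vx_331.ci_vx S hv]
  have hlab2 : ∀ j, L.e2 (ec S v) j ≠ none := by
    intro j
    obtain ⟨E', hE'⟩ := lab2 L hokv j hv hv2
    rw [hE']
    exact Option.some_ne_none _
  -- the charts at the special points
  have hex : ∀ c₀ : ℂ, ∃ c : Ch T.m, c₀ ∈ T.Sp (S.ci v) v.1 → SC S v c₀ c := by
    intro c₀
    by_cases h : c₀ ∈ T.Sp (S.ci v) v.1
    · obtain ⟨c, hc⟩ := exists_SC S ((Vx_331.ci_mem_sp S hv).2 h) hv
      exact ⟨c, fun _ => hc⟩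
    · exact ⟨.leg ⟨0, T.m_pos⟩, fun h' => absurd h' h⟩
  choose ch hch using hex
  have hex2 : ∀ c₀ : ℂ, ∃ B : Raw T (S.ci v) v.1, c₀ ∈ T.Sp (S.ci v) v.1 →
      B.Ok g (cmpE S hS hR E) (vo E) (fun β => c₀ + β ^ ll T (ch c₀)) ∧
      (∀ j, B.e j = cmpE S hS hR E ↔ L.e1 (ch c₀) j = some E) ∧
      (∀ j, B.v j = (yn vo (L.e2 (ch c₀) j) : ℤ) - ep' (ch c₀) * vo E) ∧
      ∀ j, B.H j 0 = G (ch c₀) j 0 := by
    intro c₀
    by_cases h : c₀ ∈ T.Sp (S.ci v) v.1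
    · have hc := hch c₀ h
      obtain ⟨B, hB⟩ := raw1 L hS hR E hc (G := G (ch c₀))
        (fun j => hG _ hc.ok j (Or.inl (hlab1 _ hc.ok hc.v1 j)))
      exact ⟨B, fun _ => hB⟩
    · exact ⟨⟨fun _ => 0, fun _ => 0, fun _ => 0, fun _ _ => 0, fun _ => cmpE S hS hR E, fun _ => 0,
        fun _ _ => 0⟩, fun h' => absurd h' h⟩
  choose B hB using hex2
  obtain ⟨B', hB'⟩ := raw2 L hS hR E (G := G (ec S v)) (fun j => hG _ hokv j (Or.inr (hlab2 j)))
  have hcons := S.kp_cons v hv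
  have hl' : 0 < T.M * (v.1 - S.kp v) := by
    have := hcons.2.2.1
    exact Nat.mul_pos T.M_pos (by omega)
  have key := deg_vertex hS hg (Vx_331.ci_lev S hv) (hvo E) (B := B) (B' := B')
    (l := fun c₀ => ll T (ch c₀)) (fun c₀ hc₀ => (hch c₀ hc₀).ll_pos) hl'
    (fun c₀ hc₀ => (hB c₀ hc₀).1) hB'.1
  -- identification of the sums
  set F : Ch T.m → ℝ := fun c => ∑ j, (if L.e1 c j = some E then
    ((yn vo (L.e2 c j) : ℝ) - ep' c * vo E) / ll T c else 0) with hF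
  have s1 : ∑ c₀ ∈ T.Sp (S.ci v) v.1, ∑ j, (if (B c₀).e j = cmpE S hS hR E then
      ((B c₀).v j : ℝ) / ll T (ch c₀) else 0) = ∑ c₀ ∈ T.Sp (S.ci v) v.1, F (ch c₀) := by
    refine Finset.sum_congr rfl fun c₀ hc₀ => Finset.sum_congr rfl fun j _ => ?_
    obtain ⟨-, h1, h2, -⟩ := hB c₀ hc₀
    simp only [h1 j, h2 j]
    push_cast
    rfl
  have hleg : ∀ l, F (.leg l) = 0 := by
    intro l
    refine Finset.sum_eq_zero fun j _ => ?_
    have h1 : L.e2 (.leg l) j = none := by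
      have := L.v_e2 (.leg l) ⟨trivial, trivial⟩ j
      exact Option.map_eq_none_iff.1 this
    rw [h1]
    simp [yn, ep']
  have s2 := sum_sp hv hch F hleg
  have s3 : ∑ ε ∈ Vs T, (if v1 T (ec S ε) = some v then F (ec S ε) else 0) =
      ∑ ε ∈ Vs T, ∑ j, cd S ε * (if L.e1 (ec S ε) j = some E then
        yo (fun i => (vo i : ℝ)) (L.e2 (ec S ε) j) - vo E else 0) := by
    refine Finset.sum_congr rfl fun ε hε => ?_
    by_cases h1 : v1 T (ec S ε) = some v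
    · rw [if_pos h1]
      refine Finset.sum_congr rfl fun j _ => ?_
      by_cases h2 : L.e1 (ec S ε) j = some E
      · rw [if_pos h2, if_pos h2, yo_yn]
        show ((yn vo _ : ℝ) - ((1 : ℕ) : ℝ) * vo E) / ((T.M * (ε.1 - S.kp ε) : ℕ) : ℝ) =
          1 / (T.M * (ε.1 - S.kp ε : ℕ) : ℝ) * _
        push_cast
        ring
      · rw [if_neg h2, if_neg h2, mul_zero]
    · rw [if_neg h1]
      symm
      refine Finset.sum_eq_zero fun j _ => ?_
      have h2 : L.e1 (ec S ε) j ≠ some E := fun h3 => h1 (v1_of L (ok_ec hε) h3)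
      rw [if_neg h2, mul_zero]
  have s4 : ∑ j, (if B'.e j = cmpE S hS hR E then
      (B'.v j : ℝ) / (T.M * (v.1 - S.kp v) : ℕ) else 0) =
      ∑ ε ∈ Vs T, ∑ j, cd S ε * (if L.e2 (ec S ε) j = some E then
        yo (fun i => (vo i : ℝ)) (L.e1 (ec S ε) j) - vo E else 0) := by
    rw [Finset.sum_eq_single v]
    · refine Finset.sum_congr rfl fun j _ => ?_
      obtain ⟨-, h1, h2, -⟩ := hB'
      by_cases h3 : L.e2 (ec S v) j = some E
      · rw [if_pos ((h1 j).2 h3), if_pos h3, yo_yn, h2 j]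
        show _ = 1 / (T.M * (v.1 - S.kp v : ℕ) : ℝ) * _
        push_cast
        ring
      · rw [if_neg (fun h => h3 ((h1 j).1 h)), if_neg h3, mul_zero]
    · intro ε hε hne
      refine Finset.sum_eq_zero fun j _ => ?_
      have h2 : L.e2 (ec S ε) j ≠ some E := by
        intro h3
        have h4 := v2_of L (ok_ec hε) h3
        have h5 : v2 T (ec S ε) = some ε := by
          show some (vx T (S.ci ε) ε.1) = _
          rw [Vx_331.ci_vx S hε]
        rw [h5] at h4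
        exact hne (Option.some.inj h4)
      rw [if_neg h2, mul_zero]
    · intro h
      exact absurd hv h
  have stot : dg (Mx L) (fun i => (vo i : ℝ)) E =
      ∑ c₀ ∈ T.Sp (S.ci v) v.1, ∑ j, (if (B c₀).e j = cmpE S hS hR E then
        ((B c₀).v j : ℝ) / ll T (ch c₀) else 0) +
      ∑ j, (if B'.e j = cmpE S hS hR E then
        (B'.v j : ℝ) / (T.M * (v.1 - S.kp v) : ℕ) else 0) := by
    rw [s1, s2, s3, s4, dg_Mx, ← Finset.sum_add_distrib]
    refine Finset.sum_congr rfl fun ε _ => ?_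
    rw [← Finset.sum_add_distrib]
    refine Finset.sum_congr rfl fun j _ => ?_
    rw [mul_add]
  rw [stot]
  refine ⟨key.1, fun h0 => ?_⟩
  obtain ⟨k1, k2, k3⟩ := key.2 h0
  refine ⟨k1, ?_, ?_⟩
  · intro c hc hnv j hj
    have hSC : SC S v (co T (cen c) v.1) c := ⟨hc, v1_of L hc hj, hnv, rfl⟩
    have hm : co T (cen c) v.1 ∈ T.Sp (S.ci v) v.1 := (Vx_331.ci_mem_sp S hv).1 hSC.mem
    have h1 := (hch _ hm).unique hSC
    obtain ⟨-, b1, -, b3⟩ := hB _ hm
    have h2 := k2 _ hm j ((b1 j).2 (by rw [h1]; exact hj))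
    rw [b3 j, h1] at h2
    exact h2
  · intro c hc j hj
    obtain ⟨-, rfl⟩ := v2_cases hc (v2_of L hc hj)
    obtain ⟨-, b1, -, b3⟩ := hB'
    have h2 := k3 j ((b1 j).2 hj)
    rw [b3 j] at h2
    exact h2

end Crest.Agent.R257.OrdA_578
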