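import Crest.Agent.R257.OrdD_578

/-!
# Row 257, part C, `OrdStmt` (helper578), part E: **`OrdStmt L`** from the non-vanishing statement
-/

set_option autoImplicit false
set_option linter.unusedSectionVars false

open Polynomial Set Filter Topology Metric
open Crest.AlgGeometry.Germ Crest.Agent.R257.AJ387

noncomputable section

namespace Crest.Agent.R257.OrdA_578

open Crest.Agent.R257.T387 Crest.Agent.R257.OrdL_578 Crest.Agent.R257.Deg_578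
open Crest.Agent.R257.OrdT_578 Crest.Agent.R257.BP_258 Crest.Agent.R257.Br_578
open Crest.Agent.R257.Gr1_157
open Crest.Agent.R257.Frm_547 (Z2 Sh1 Step Cmp cl fib Att LocBr Eqv)

variable {f : (Fin 3 → ℂ) → ℂ} {T : TB f} {U : Tub T} {S : Sh T}

variable (T) in
/-- `g` does not vanish identically on any sheet -/
def NV (g : (Fin 3 → ℂ) → ℂ) : Prop := ∀ (c : Ch T.m) (r : ℝ) (ζ : Fin T.d → ℂ × ℂ → ℂ),
  T.Valid c → T.Sheets c r ζ → ∀ p₀ ∈ BD r r, T.map c p₀ = 0 → ∀ j,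
    ¬ ∀ᶠ p in 𝓝 p₀, g (T.th c (ζ j) p) = 0

theorem exists_Oc (hS : T.SheetsStmt) {g : (Fin 3 → ℂ) → ℂ} (hg : AnalyticAt ℂ g 0) (hnv : NV T g)
    {i : Fin T.m} {k : ℕ} (hk : k ∈ T.lev i) (E : Cmp T i k) : ∃ n, Oc g E n := by
  obtain ⟨x, rfl⟩ := Quot.exists_rep E
  obtain ⟨r, σ, hσ, hsp⟩ := Frm_547.exists_sheets_vert hS hk x.2.1
  obtain ⟨hx1, r', ξ, hξ, hx2⟩ := x.2
  obtain ⟨l, hl⟩ := Frm_547.sh1_eq hσ hξ
  have h0 : ((0 : ℂ), (0 : ℂ)) ∈ BD r r := ⟨by simpa using hσ.r_pos, by simpa using hσ.r_pos⟩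
  have hmap : T.map (.vert i k x.1.1) ((0 : ℂ), (0 : ℂ)) = 0 := OrdT_578.map_vert (T.lev_pos hk) _ _
  have h1 := hnv (.vert i k x.1.1) r σ ⟨hk, hx1⟩ hσ _ h0 hmap l
  have han : AnalyticAt ℂ (gm T g (T.map (.vert i k x.1.1)) (σ l)) (0, 0) :=
    gth_an hg hσ h0 hmap l
  obtain ⟨n, hn⟩ := exists_ord han h1
  exact ⟨n, x, rfl, σ l, hx2.trans (Germ.coe_eq.2 hl), hn⟩

theorem exists_vo (hS : T.SheetsStmt) (hR : RetStmt U) {g : (Fin 3 → ℂ) → ℂ}
    (hg : AnalyticAt ℂ g 0) (hnv : NV T g) : ∃ vo : II U → ℕ, IsVo S hS hR g vo := by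
  choose vo hvo using fun E : II U => exists_Oc hS hg hnv (Vx_331.ci_lev S E.1.2) (cmpE S hS hR E)
  exact ⟨vo, hvo⟩

/-- **orders of functions and the degree formula** -/
theorem ordStmt_of_nv [Fintype (II U)] (hS : T.SheetsStmt) (hR : RetStmt U)
    (hnv : ∀ g : (Fin 3 → ℂ) → ℂ, AnalyticAt ℂ g 0 →
      (∃ᶠ x in 𝓝 (0 : Fin 3 → ℂ), f x = 0 ∧ g x ≠ 0) → NV T g) (L : Lab U S) : OrdStmt L := by
  classical
  intro g hg hne
  obtain ⟨vo, hvo⟩ := exists_vo (S := S) hS hR hg (hnv g hg hne)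
  have hex : ∀ c j, ∃ G : ℂ × ℂ → ℂ, Ok S c → (L.e1 c j ≠ none ∨ L.e2 c j ≠ none) →
      PFac L g vo c j 0 G := by
    intro c j
    by_cases h : Ok S c ∧ (L.e1 c j ≠ none ∨ L.e2 c j ≠ none)
    · have hr : ‖(0 : ℂ)‖ < 2 * S.r c := by
        rw [norm_zero]
        have := S.pos c
        linarith
      obtain ⟨G, hG⟩ := exists_pfac L hg hvo h.1 j (p₀ := 0) hr hr
        (h.2.imp (fun h => ⟨h, rfl⟩) fun h => ⟨h, rfl⟩)
      exact ⟨G, fun _ _ => hG⟩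
    · exact ⟨fun _ => 0, fun h1 h2 => absurd ⟨h1, h2⟩ h⟩
  choose G₀ hG₀ using hex
  have hdeg := fun E : II U => deg_E L hg hvo E (G := G₀) (fun c hc j h => hG₀ c j hc h)
  refine ⟨vo, fun E => (hdeg E).1, ?_⟩
  intro c hc j p₀ hp1 hp2 hcase
  have hpos := S.pos c
  obtain ⟨G, hG⟩ := exists_pfac L hg hvo hc j (p₀ := p₀) (by linarith) (by linarith) hcase
  refine ⟨G, hG.an, hG.eq, ?_, ?_⟩
  · intro h0 E hE
    refine ⟨hG.ne1 h0 (by rw [hE]; exact Option.some_ne_none _), fun hd => ?_⟩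
    obtain ⟨d1, d2, d3⟩ := (hdeg E).2 hd
    obtain ⟨a, b⟩ := p₀
    simp only at h0 hp1 hp2
    subst h0
    by_cases hb : b ≠ 0 ∨ IsV c
    · exact nv1 L hg hvo hc hE hp2 hb hG d1
    · push Not at hb
      obtain ⟨rfl, hV⟩ := hb
      have h2 := hG.val L (hG₀ c j hc (Or.inl (by rw [hE]; exact Option.some_ne_none _)))
      rw [h2]
      exact d2 c hc hV j hE
  · intro h0 E hE
    refine ⟨hG.ne2 h0 (by rw [hE]; exact Option.some_ne_none _), fun hd => ?_⟩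
    obtain ⟨d1, d2, d3⟩ := (hdeg E).2 hd
    obtain ⟨a, b⟩ := p₀
    simp only at h0 hp1 hp2
    subst h0
    by_cases ha : a = 0
    · subst ha
      have h2 := hG.val L (hG₀ c j hc (Or.inr (by rw [hE]; exact Option.some_ne_none _)))
      rw [h2]
      exact d3 c hc j hE
    · exact nv2 L hg hvo hc hE hp1 ha hG d1

end Crest.Agent.R257.OrdA_578
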