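import Crest.Agent.R257.OrdK1_82
import Crest.Agent.R257.Ord_757
import Crest.Agent.R257.HoE_843
import Crest.Agent.R257.ExD_121

/-!
# Row 257 (S0395), task C-ORDK (helper82), file 2: orders from `L²` bounds, averages, frames

* `order_L2`  : `v` analytic at `(0,z)`, `∫ |v|² w < ∞`, `w ≥ c |p.1|^(-2r-2)` ⇒ `v = p.1^n H`, `r < n`;
* `avg_L2`    : averages of functions with `L²` bounds;
* `den_low`   : lower bound of the density `den2 f (F.th c)` in a frame;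
* `order_frame`, `lo_frame`, `ex_frame` : orders of `g` along a component;
* `kill_node`, `kill_fst`, `kill_snd`   : `H p₀ ≠ 0` for the quotient `H` of `g` by the monomial.
-/

set_option autoImplicit false
set_option linter.unusedSectionVars false

noncomputable section

open Set Filter Topology MeasureTheory
open scoped ENNReal

namespace Crest.Agent.R257.OrdK_82

open Crest.AlgGeometry.Germ
open Crest.Agent.R257.Ord_757 Crest.Agent.R257.HoE_843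
open Crest.Agent.R257.Defs_219 Crest.Agent.R257.Fr_808

/-! ### orders along `p.1 = 0` -/

/-- **`L²` ⇒ order** at a point `(0, z)`, `z ≠ 0` -/
theorem order_L2 {z : ℂ} (hz : z ≠ 0) {U : Set (ℂ × ℂ)}
    (hU : ∀ᶠ p in 𝓝 ((0 : ℂ), z), p.1 ≠ 0 → p.2 ≠ 0 → p ∈ U) {v : ℂ × ℂ → ℂ}
    (hv : AnalyticAt ℂ v (0, z)) {w : ℂ × ℂ → ℝ} {r c : ℝ} (hc : 0 < c)
    (hw : ∀ᶠ p in 𝓝 ((0 : ℂ), z), p.1 ≠ 0 → p.2 ≠ 0 → c * ‖p.1‖ ^ (-2 * r - 2) ≤ w p)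
    (hL : ∫⁻ p in U, ENNReal.ofReal (‖v p‖ ^ 2 * w p) ≠ ⊤) :
    ∃ (n : ℕ) (H : ℂ × ℂ → ℂ), r < n ∧ AnalyticAt ℂ H (0, z) ∧
      ∀ᶠ p in 𝓝 ((0 : ℂ), z), v p = p.1 ^ n * H p := by
  rcases lt_or_ge r 0 with hr | hr
  · exact ⟨0, v, by exact_mod_cast hr, hv, Eventually.of_forall fun p => by simp⟩
  have h2 : ∀ᶠ p : ℂ × ℂ in 𝓝 ((0 : ℂ), z), p.2 ≠ 0 :=
    continuousAt_snd.eventually_ne hz
  obtain ⟨V, hV, hVo, hzV⟩ := eventually_nhds_iff.1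
    (hU.and (hw.and (h2.and hv.eventually_analyticAt)))
  have hLV : ∫⁻ p in V ∩ {p | p.1 ≠ 0}, ENNReal.ofReal (‖v p‖ ^ 2 * ‖p.1‖ ^ (-2 * r - 2)) < ⊤ := by
    have hms : MeasurableSet (V ∩ {p : ℂ × ℂ | p.1 ≠ 0}) :=
      hVo.measurableSet.inter (isOpen_ne.preimage continuous_fst).measurableSet
    calc ∫⁻ p in V ∩ {p | p.1 ≠ 0}, ENNReal.ofReal (‖v p‖ ^ 2 * ‖p.1‖ ^ (-2 * r - 2))
        ≤ ∫⁻ p in V ∩ {p | p.1 ≠ 0}, ENNReal.ofReal c⁻¹ * ENNReal.ofReal (‖v p‖ ^ 2 * w p) := by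
          refine setLIntegral_mono' hms fun p hp => ?_
          obtain ⟨-, q2, q3, -⟩ := hV p hp.1
          have q4 := q2 hp.2 q3
          rw [← ENNReal.ofReal_mul (by positivity)]
          refine ENNReal.ofReal_le_ofReal ?_
          have q5 : ‖p.1‖ ^ (-2 * r - 2) ≤ c⁻¹ * w p := by
            rw [← div_eq_inv_mul, le_div_iff₀ hc]
            linarith
          calc ‖v p‖ ^ 2 * ‖p.1‖ ^ (-2 * r - 2) ≤ ‖v p‖ ^ 2 * (c⁻¹ * w p) :=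
                mul_le_mul_of_nonneg_left q5 (by positivity)
            _ = c⁻¹ * (‖v p‖ ^ 2 * w p) := by ring
      _ = ENNReal.ofReal c⁻¹ * ∫⁻ p in V ∩ {p | p.1 ≠ 0}, ENNReal.ofReal (‖v p‖ ^ 2 * w p) :=
          lintegral_const_mul' _ _ ENNReal.ofReal_ne_top
      _ ≤ ENNReal.ofReal c⁻¹ * ∫⁻ p in U, ENNReal.ofReal (‖v p‖ ^ 2 * w p) := by
          gcongr
          intro p hp
          obtain ⟨q1, -, q3, -⟩ := hV p hp.1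
          exact q1 hp.2 q3
      _ < ⊤ := ENNReal.mul_lt_top ENNReal.ofReal_lt_top (lt_top_iff_ne_top.2 hL)
  have hvd : ∀ p ∈ V, DifferentiableAt ℂ v p := fun p hp => (hV p hp).2.2.2.differentiableAt
  obtain ⟨H, hH, hvH⟩ := ord_fst hVo r (f := v)
    (fun p hp => (hvd p hp.1).differentiableWithinAt)
    (fun a ha => ⟨V, hVo.mem_nhds ha, hLV⟩)
  have hHan : AnalyticAt ℂ H (0, z) :=
    Crest.Agent.R266.SCV.analyticOnNhd_of_differentiableOn hVo hH _ hzV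
  have hfl : (0 : ℤ) ≤ ⌊r⌋ := Int.floor_nonneg.2 hr
  obtain ⟨n, hn⟩ := Int.eq_ofNat_of_zero_le (show (0 : ℤ) ≤ ⌊r⌋ + 1 by omega)
  refine ⟨n, H, ?_, hHan, ?_⟩
  · have h3 := Int.lt_floor_add_one r
    have h4 : ((⌊r⌋ + 1 : ℤ) : ℝ) = (n : ℝ) := by rw [hn]; simp
    push_cast at h4
    linarith
  · have h5 : ∀ p ∈ V, v p = p.1 ^ n * H p := by
      intro p hp
      by_contra hne
      have h6 : ContinuousAt (fun q => v q - q.1 ^ n * H q) p :=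
        (hvd p hp).continuousAt.sub ((continuousAt_fst.pow _).mul
          ((hH.differentiableAt (hVo.mem_nhds hp)).continuousAt))
      have h7 := h6.eventually_ne (sub_ne_zero.2 hne)
      obtain ⟨q, hq1, hq2, hq3⟩ := ((freq1 p).and_eventually (h7.and (hVo.mem_nhds hp))).exists
      apply hq2
      rw [hvH q hq3 hq1, hn]
      simp
    filter_upwards [hVo.mem_nhds hzV] with p hp using h5 p hp

/-! ### averages -/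

/-- **averages** -/
theorem avg_L2 {ι : Type*} (s : Finset ι) {U : Set (ℂ × ℂ)} (hU : MeasurableSet U)
    {v : ι → ℂ × ℂ → ℂ} {w : ι → ℂ × ℂ → ℝ} {w₀ : ℂ × ℂ → ℝ} (hw0 : ∀ p ∈ U, 0 ≤ w₀ p)
    (hw : ∀ i ∈ s, ∀ p ∈ U, w₀ p ≤ w i p)
    (hm : ∀ i ∈ s, AEMeasurable (fun p => ENNReal.ofReal (‖v i p‖ ^ 2 * w i p))
      (volume.restrict U))
    (hL : ∀ i ∈ s, ∫⁻ p in U, ENNReal.ofReal (‖v i p‖ ^ 2 * w i p) ≠ ⊤) (c : ℂ) :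
    ∫⁻ p in U, ENNReal.ofReal (‖c * ∑ i ∈ s, v i p‖ ^ 2 * w₀ p) ≠ ⊤ := by
  have h1 : ∫⁻ p in U, ENNReal.ofReal (‖c * ∑ i ∈ s, v i p‖ ^ 2 * w₀ p) ≤
      ∫⁻ p in U, ENNReal.ofReal (‖c‖ ^ 2 * s.card) *
        ∑ i ∈ s, ENNReal.ofReal (‖v i p‖ ^ 2 * w i p) := by
    refine setLIntegral_mono' hU fun p hp => ?_
    have hs : ∀ i ∈ s, 0 ≤ ‖v i p‖ ^ 2 * w i p := fun i hi =>
      mul_nonneg (by positivity) ((hw0 p hp).trans (hw i hi p hp))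
    rw [← ENNReal.ofReal_sum_of_nonneg hs, ← ENNReal.ofReal_mul (by positivity)]
    refine ENNReal.ofReal_le_ofReal ?_
    have e1 : ‖∑ i ∈ s, v i p‖ ^ 2 ≤ s.card * ∑ i ∈ s, ‖v i p‖ ^ 2 := by
      calc ‖∑ i ∈ s, v i p‖ ^ 2 ≤ (∑ i ∈ s, ‖v i p‖) ^ 2 :=
            pow_le_pow_left₀ (norm_nonneg _) (norm_sum_le _ _) 2
        _ ≤ s.card * ∑ i ∈ s, ‖v i p‖ ^ 2 := sq_sum_le_card_mul_sum_sq
    have e2 : (∑ i ∈ s, ‖v i p‖ ^ 2) * w₀ p ≤ ∑ i ∈ s, ‖v i p‖ ^ 2 * w i p := by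
      rw [Finset.sum_mul]
      exact Finset.sum_le_sum fun i hi =>
        mul_le_mul_of_nonneg_left (hw i hi p hp) (by positivity)
    calc ‖c * ∑ i ∈ s, v i p‖ ^ 2 * w₀ p = ‖c‖ ^ 2 * (‖∑ i ∈ s, v i p‖ ^ 2 * w₀ p) := by
          rw [norm_mul]; ring
      _ ≤ ‖c‖ ^ 2 * ((s.card * ∑ i ∈ s, ‖v i p‖ ^ 2) * w₀ p) := by
          gcongr
          exact hw0 p hp
      _ = ‖c‖ ^ 2 * s.card * ((∑ i ∈ s, ‖v i p‖ ^ 2) * w₀ p) := by ring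
      _ ≤ _ := mul_le_mul_of_nonneg_left e2 (by positivity)
  refine ne_top_of_le_ne_top ?_ h1
  rw [lintegral_const_mul' _ _ ENNReal.ofReal_ne_top, lintegral_finsetSum' _ hm]
  exact ENNReal.mul_ne_top ENNReal.ofReal_ne_top (ENNReal.sum_ne_top.2 hL)

/-! ### the density in a frame -/

variable {f : E3 → ℂ} (F : Frame f)

theorem zpow_sq_norm (x : ℂ) (hx : x ≠ 0) (k : ℤ) :
    ‖x ^ (-k - 1)‖ ^ 2 = ‖x‖ ^ (-2 * (k : ℝ) - 2) := by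
  have h : 0 < ‖x‖ := norm_pos_iff.2 hx
  rw [norm_zpow, ← Real.rpow_intCast, ← Real.rpow_natCast, ← Real.rpow_mul h.le]
  congr 1
  push_cast
  ring

/-- lower bound of the density -/
theorem den_low (c : F.K) {p₀ : ℂ × ℂ} (h : p₀ ∈ F.SF c) :
    ∃ κ > 0, ∀ᶠ p in 𝓝 p₀, p.1 ≠ 0 → p.2 ≠ 0 →
      κ * (‖p.1‖ ^ (-2 * (F.nu (F.e1 c) : ℝ) - 2) * ‖p.2‖ ^ (-2 * (F.nu2 c : ℝ) - 2)) ≤
        den2 f (F.th c) p := by
  obtain ⟨U, hU, hU0, hj⟩ := F.jac c p₀ h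
  have hpos : 0 < ‖U p₀‖ := norm_pos_iff.2 hU0
  have h1 : ∀ᶠ p in 𝓝 p₀, ‖U p₀‖ / 2 < ‖U p‖ :=
    hU.continuousAt.norm.eventually (lt_mem_nhds (by linarith))
  refine ⟨(‖U p₀‖ / 2) ^ 2, by positivity, ?_⟩
  filter_upwards [hj, h1] with p hp hp1 n1 n2
  obtain ⟨q1, q2⟩ := hp n1 n2
  unfold den2
  have h3 : 0 < ‖coordDeriv f 0 (F.th c p)‖ := norm_pos_iff.2 q1
  rw [q2, norm_mul, norm_mul, norm_mul, mul_pow, mul_pow, mul_pow, zpow_sq_norm _ n1,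
    zpow_sq_norm _ n2]
  have h4 : (‖U p₀‖ / 2) ^ 2 ≤ ‖U p‖ ^ 2 := pow_le_pow_left₀ (by positivity) hp1.le 2
  have h5 : (‖coordDeriv f 0 (F.th c p)‖ ^ 2)⁻¹ *
      (‖coordDeriv f 0 (F.th c p)‖ ^ 2 * ‖p.1‖ ^ (-2 * (F.nu (F.e1 c) : ℝ) - 2) *
        ‖p.2‖ ^ (-2 * (F.nu2 c : ℝ) - 2) * ‖U p‖ ^ 2) =
      ‖U p‖ ^ 2 * (‖p.1‖ ^ (-2 * (F.nu (F.e1 c) : ℝ) - 2) *
        ‖p.2‖ ^ (-2 * (F.nu2 c : ℝ) - 2)) := by
    field_simp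
  rw [h5]
  exact mul_le_mul_of_nonneg_right h4 (by positivity)

/-- the density is nonnegative -/
theorem den2_nonneg (θ : ℂ × ℂ → E3) (p : ℂ × ℂ) : 0 ≤ den2 f θ p := by
  unfold den2; positivity

/-- powers of the second coordinate are bounded below near `(·, b)`, `b ≠ 0` -/
theorem rpow_low {X : Type*} [TopologicalSpace X] {x : X → ℂ} {q : X} (hx : ContinuousAt x q)
    (hq : x q ≠ 0) (s : ℝ) : ∃ κ > 0, ∀ᶠ p in 𝓝 q, κ ≤ ‖x p‖ ^ s := by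
  have h1 : ContinuousAt (fun p => ‖x p‖ ^ s) q :=
    hx.norm.rpow_const (Or.inl (norm_ne_zero_iff.2 hq))
  have h2 : 0 < ‖x q‖ ^ s := Real.rpow_pos_of_pos (norm_pos_iff.2 hq) s
  refine ⟨‖x q‖ ^ s / 2, by positivity, ?_⟩
  exact (h1.eventually (lt_mem_nhds (by linarith : ‖x q‖ ^ s / 2 < ‖x q‖ ^ s))).mono
    fun p hp => le_of_lt hp

theorem an_g {g : E3 → ℂ} (hg : AnalyticAt ℂ g 0) {c : F.K} {p₀ : ℂ × ℂ} (h : p₀ ∈ F.SF c) :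
    AnalyticAt ℂ (fun p => g (F.th c p)) p₀ := by
  refine AnalyticAt.comp (g := g) (f := F.th c) ?_ (F.an c p₀ h.1)
  rwa [F.th_SF h]

/-- **orders in a frame** -/
theorem order_frame (c : F.K) {z : ℂ} (hz : z ≠ 0) (hz1 : ‖z‖ ≤ 1) {U : Set (ℂ × ℂ)}
    (hU : ∀ᶠ p in 𝓝 ((0 : ℂ), z), p.1 ≠ 0 → p.2 ≠ 0 → p ∈ U) {v : ℂ × ℂ → ℂ}
    (hv : AnalyticAt ℂ v (0, z)) {Φ : ℂ × ℂ → ℝ} {y C : ℝ}
    (hΦ : ∀ᶠ p in 𝓝 ((0 : ℂ), z), p.1 ≠ 0 → p.2 ≠ 0 → Φ p ≤ y * Real.log (‖p.1‖ ^ 2) + C)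
    (hL : ∫⁻ p in U, ENNReal.ofReal (‖v p‖ ^ 2 * Real.exp (-Φ p) * den2 f (F.th c) p) ≠ ⊤) :
    ∃ (n : ℕ) (H : ℂ × ℂ → ℂ), y + F.nu (F.e1 c) < n ∧ AnalyticAt ℂ H (0, z) ∧
      ∀ᶠ p in 𝓝 ((0 : ℂ), z), v p = p.1 ^ n * H p := by
  obtain ⟨κ, hκ, h1⟩ := den_low F c (F.mem_SF1 c hz1)
  obtain ⟨κ', hκ', h2⟩ := rpow_low (x := fun p : ℂ × ℂ => p.2) (q := ((0 : ℂ), z))
    continuousAt_snd hz (-2 * (F.nu2 c : ℝ) - 2)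
  refine order_L2 hz hU hv (w := fun p => Real.exp (-Φ p) * den2 f (F.th c) p)
    (r := y + F.nu (F.e1 c)) (c := Real.exp (-C) * (κ * κ')) (by positivity) ?_
    (by simpa [mul_assoc] using hL)
  filter_upwards [h1, h2, hΦ] with p q1 q2 q3 n1 n2
  have hp : 0 < ‖p.1‖ := norm_pos_iff.2 n1
  have e1 : Real.exp (-C) * ‖p.1‖ ^ (-2 * y) ≤ Real.exp (-Φ p) := by
    rw [Real.rpow_def_of_pos hp, ← Real.exp_add]
    refine Real.exp_le_exp.2 ?_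
    have := q3 n1 n2
    rw [Real.log_pow] at this
    push_cast at this
    linarith
  have e2 : κ * κ' * ‖p.1‖ ^ (-2 * (F.nu (F.e1 c) : ℝ) - 2) ≤ den2 f (F.th c) p := by
    refine le_trans ?_ (q1 n1 n2)
    calc κ * κ' * ‖p.1‖ ^ (-2 * (F.nu (F.e1 c) : ℝ) - 2)
        = κ * (‖p.1‖ ^ (-2 * (F.nu (F.e1 c) : ℝ) - 2) * κ') := by ring
      _ ≤ _ := by gcongr
  calc Real.exp (-C) * (κ * κ') * ‖p.1‖ ^ (-2 * (y + (F.nu (F.e1 c) : ℝ)) - 2)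
      = (Real.exp (-C) * ‖p.1‖ ^ (-2 * y)) *
          (κ * κ' * ‖p.1‖ ^ (-2 * (F.nu (F.e1 c) : ℝ) - 2)) := by
        rw [show -2 * (y + (F.nu (F.e1 c) : ℝ)) - 2 = -2 * y + (-2 * (F.nu (F.e1 c) : ℝ) - 2) by
          ring, Real.rpow_add hp]
        ring
    _ ≤ _ := mul_le_mul e1 e2 (by positivity) (Real.exp_pos _).le

/-- order `> r` of `g` when `g ∘ th - S` has an `L²` bound and `S = p.1 ^ m σ`, `r < m` -/
theorem lo_frame (c : F.K) {z : ℂ} (hz : z ≠ 0) (hz1 : ‖z‖ ≤ 1) {U : Set (ℂ × ℂ)}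
    (hU : ∀ᶠ p in 𝓝 ((0 : ℂ), z), p.1 ≠ 0 → p.2 ≠ 0 → p ∈ U) {g : E3 → ℂ}
    (hg : AnalyticAt ℂ g 0) {S σ : ℂ × ℂ → ℂ} {m : ℕ} (hσ : AnalyticAt ℂ σ (0, z))
    (hS : ∀ᶠ p in 𝓝 ((0 : ℂ), z), S p = p.1 ^ m * σ p) {Φ : ℂ × ℂ → ℝ} {y C : ℝ}
    (hm : y + F.nu (F.e1 c) < m)
    (hΦ : ∀ᶠ p in 𝓝 ((0 : ℂ), z), p.1 ≠ 0 → p.2 ≠ 0 → Φ p ≤ y * Real.log (‖p.1‖ ^ 2) + C)
    (hL : ∫⁻ p in U, ENNReal.ofReal (‖g (F.th c p) - S p‖ ^ 2 * Real.exp (-Φ p) *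
      den2 f (F.th c) p) ≠ ⊤) :
    ∃ (n : ℕ) (H : ℂ × ℂ → ℂ), y + F.nu (F.e1 c) < n ∧ AnalyticAt ℂ H (0, z) ∧
      ∀ᶠ p in 𝓝 ((0 : ℂ), z), g (F.th c p) = p.1 ^ n * H p := by
  have hSan : AnalyticAt ℂ S (0, z) := by
    have h1 : AnalyticAt ℂ (fun p : ℂ × ℂ => p.1 ^ m * σ p) (0, z) :=
      (analyticAt_fst.pow _).mul hσ
    exact h1.congr (hS.mono fun p hp => hp.symm)
  obtain ⟨n, H, h1, h2, h3⟩ := order_frame F c hz hz1 hU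
    (v := fun p => g (F.th c p) - S p) ((an_g F hg (F.mem_SF1 c hz1)).sub hSan) hΦ hL
  refine ⟨min n m, fun p => p.1 ^ (n - min n m) * H p + p.1 ^ (m - min n m) * σ p, ?_, ?_, ?_⟩
  · rcases min_choice n m with h | h <;> rw [h] <;> assumption
  · exact ((analyticAt_fst.pow _).mul h2).add ((analyticAt_fst.pow _).mul hσ)
  · filter_upwards [h3, hS] with p e1 e2
    have e3 : p.1 ^ n = p.1 ^ min n m * p.1 ^ (n - min n m) := by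
      rw [← pow_add]; congr 1; omega
    have e4 : p.1 ^ m = p.1 ^ min n m * p.1 ^ (m - min n m) := by
      rw [← pow_add]; congr 1; omega
    have e5 : g (F.th c p) = p.1 ^ n * H p + p.1 ^ m * σ p := by
      rw [← e1, ← e2]; ring
    rw [e5, e3, e4]; ring

/-- order exactly `m` of `g` when `g ∘ th - S` has an `L²` bound with `m ≤ y + nu` and
`S = p.1 ^ m σ`, `σ (0, z) ≠ 0` -/
theorem ex_frame (c : F.K) {z : ℂ} (hz : z ≠ 0) (hz1 : ‖z‖ ≤ 1) {U : Set (ℂ × ℂ)}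
    (hU : ∀ᶠ p in 𝓝 ((0 : ℂ), z), p.1 ≠ 0 → p.2 ≠ 0 → p ∈ U) {g : E3 → ℂ}
    (hg : AnalyticAt ℂ g 0) {S σ : ℂ × ℂ → ℂ} {m : ℕ} (hσ : AnalyticAt ℂ σ (0, z))
    (hσ0 : σ (0, z) ≠ 0)
    (hS : ∀ᶠ p in 𝓝 ((0 : ℂ), z), S p = p.1 ^ m * σ p) {Φ : ℂ × ℂ → ℝ} {y C : ℝ}
    (hm : m ≤ y + F.nu (F.e1 c))
    (hΦ : ∀ᶠ p in 𝓝 ((0 : ℂ), z), p.1 ≠ 0 → p.2 ≠ 0 → Φ p ≤ y * Real.log (‖p.1‖ ^ 2) + C)
    (hL : ∫⁻ p in U, ENNReal.ofReal (‖g (F.th c p) - S p‖ ^ 2 * Real.exp (-Φ p) *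
      den2 f (F.th c) p) ≠ ⊤) :
    ∃ H : ℂ × ℂ → ℂ, AnalyticAt ℂ H (0, z) ∧ H (0, z) ≠ 0 ∧
      ∀ᶠ p in 𝓝 ((0 : ℂ), z), g (F.th c p) = p.1 ^ m * H p := by
  have hSan : AnalyticAt ℂ S (0, z) := by
    have h1 : AnalyticAt ℂ (fun p : ℂ × ℂ => p.1 ^ m * σ p) (0, z) :=
      (analyticAt_fst.pow _).mul hσ
    exact h1.congr (hS.mono fun p hp => hp.symm)
  obtain ⟨n, H, h1, h2, h3⟩ := order_frame F c hz hz1 hU
    (v := fun p => g (F.th c p) - S p) ((an_g F hg (F.mem_SF1 c hz1)).sub hSan) hΦ hL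
  have hmn : m < n := by exact_mod_cast hm.trans_lt h1
  refine ⟨fun p => p.1 ^ (n - m) * H p + σ p, ((analyticAt_fst.pow _).mul h2).add hσ, ?_, ?_⟩
  · show (0 : ℂ) ^ (n - m) * H (0, z) + σ (0, z) ≠ 0
    rw [zero_pow (by omega)]
    simpa using hσ0
  · filter_upwards [h3, hS] with p e1 e2
    have e3 : p.1 ^ n = p.1 ^ m * p.1 ^ (n - m) := by
      rw [← pow_add]; congr 1; omega
    have e5 : g (F.th c p) = p.1 ^ n * H p + p.1 ^ m * σ p := by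
      rw [← e1, ← e2]; ring
    rw [e5, e3]; ring

end Crest.Agent.R257.OrdK_82
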