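import Crest.Agent.R257.OrdK2_82

/-!
# Row 257 (S0395), task C-ORDK (helper82), file 3: kills in a frame

`kill_node`, `kill_fst`, `kill_snd` : if `g ∘ th - S` has an `L²` bound with a weight `e^(-Φ)`, `Φ` at most the
maximum of two linear forms centred at `p₀`, and `S = (monomial m) κ` near `p₀`, `κ p₀ ≠ 0`, then
`H p₀ ≠ 0` for every `H` with `F.Fac g m c p₀ H`.
-/

set_option autoImplicit false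
set_option linter.unusedSectionVars false

noncomputable section

open Set Filter Topology MeasureTheory
open scoped ENNReal

namespace Crest.Agent.R257.OrdK_82

open Crest.AlgGeometry.Germ
open Crest.Agent.R257.Ord_757 Crest.Agent.R257.HoE_843
open Crest.Agent.R257.Defs_219 Crest.Agent.R257.Fr_808

variable {f : E3 → ℂ} (F : Frame f)

theorem lin_zero (x y : ℝ) (p : ℂ × ℂ) :
    lin x y (0, 0) p = x * Real.log (‖p.1‖ ^ 2) + y * Real.log (‖p.2‖ ^ 2) := by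
  unfold lin; simp

theorem lin_fst (x y : ℝ) (b : ℂ) (p : ℂ × ℂ) :
    lin x y (0, b) p = x * Real.log (‖p.1‖ ^ 2) + y * Real.log (‖p.2 - b‖ ^ 2) := by
  unfold lin; simp

theorem lin_snd (x y : ℝ) (a : ℂ) (p : ℂ × ℂ) :
    lin x y (a, 0) p = x * Real.log (‖p.1 - a‖ ^ 2) + y * Real.log (‖p.2‖ ^ 2) := by
  unfold lin; simp

/-- off the lines through `p₀` implies off the axes, near `p₀`, for a point of the special fibre -/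
theorem off_axes {p₀ : ℂ × ℂ} : ∀ᶠ p : ℂ × ℂ in 𝓝 p₀, p.1 ≠ p₀.1 → p.2 ≠ p₀.2 → p.1 ≠ 0 ∧ p.2 ≠ 0 := by
  have h1 : ∀ᶠ p : ℂ × ℂ in 𝓝 p₀, p.1 ≠ p₀.1 → p.1 ≠ 0 := by
    by_cases h : p₀.1 = 0
    · rw [h]; exact Eventually.of_forall fun p hp => hp
    · exact (continuousAt_fst.eventually_ne h).mono fun p hp _ => hp
  have h2 : ∀ᶠ p : ℂ × ℂ in 𝓝 p₀, p.2 ≠ p₀.2 → p.2 ≠ 0 := by
    by_cases h : p₀.2 = 0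
    · rw [h]; exact Eventually.of_forall fun p hp => hp
    · exact (continuousAt_snd.eventually_ne h).mono fun p hp _ => hp
  filter_upwards [h1, h2] with p e1 e2 n1 n2 using ⟨e1 n1, e2 n2⟩

/-- general form -/
theorem kill_gen (c : F.K) {a b : ℝ} (ha : 0 < a) (hb : 0 < b) {p₀ : ℂ × ℂ} {U : Set (ℂ × ℂ)}
    (hU : ∀ᶠ p in 𝓝 p₀, p.1 ≠ 0 → p.2 ≠ 0 → p ∈ U) {g : E3 → ℂ} {m : F.I → ℕ}
    {S κ : ℂ × ℂ → ℂ} (hκ : ContinuousAt κ p₀) (hκ0 : κ p₀ ≠ 0)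
    (hS : ∀ᶠ p in 𝓝 p₀, p.1 ≠ 0 → p.2 ≠ 0 → S p = F.mo m c p * κ p)
    {Φ : ℂ × ℂ → ℝ} {m₁ m₂ ν₁ ν₂ x₁ y₁ x₂ y₂ C c₁ c₂ : ℝ} (hc₁ : 0 < c₁) (hc₂ : 0 < c₂)
    (hμ : ∀ᶠ p in 𝓝 p₀, p.1 ≠ p₀.1 → p.2 ≠ p₀.2 →
      c₁ * (‖p.1 - p₀.1‖ ^ m₁ * ‖p.2 - p₀.2‖ ^ m₂) ≤ ‖F.mo m c p‖)
    (hd : ∀ᶠ p in 𝓝 p₀, p.1 ≠ p₀.1 → p.2 ≠ p₀.2 →
      c₂ * (‖p.1 - p₀.1‖ ^ (-2 * ν₁ - 2) * ‖p.2 - p₀.2‖ ^ (-2 * ν₂ - 2)) ≤ den2 f (F.th c) p)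
    (hΦ : ∀ᶠ p in 𝓝 p₀, p.1 ≠ 0 → p.2 ≠ 0 →
      Φ p ≤ max (lin x₁ y₁ p₀ p) (lin x₂ y₂ p₀ p) + C)
    (h1 : a * m₁ + b * m₂ ≤ a * x₁ + b * y₁ + a * ν₁ + b * ν₂)
    (h2 : a * m₁ + b * m₂ ≤ a * x₂ + b * y₂ + a * ν₁ + b * ν₂)
    (hL : ∫⁻ p in U, ENNReal.ofReal (‖g (F.th c p) - S p‖ ^ 2 * Real.exp (-Φ p) *
      den2 f (F.th c) p) ≠ ⊤) :
    ∀ H, F.Fac g m c p₀ H → H p₀ ≠ 0 := by
  intro H hH h0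
  have key : (fun p => H p - κ p) p₀ = 0 := by
    refine kill_max ha hb (p₀ := p₀) (U := U) (v := fun p => g (F.th c p) - S p)
      (μ := F.mo m c) (H := fun p => H p - κ p) (C := C) ?_ (hH.1.continuousAt.sub hκ) ?_ hc₁ hc₂ hμ hd ?_
      h1 h2 hL
    · filter_upwards [hU, off_axes (p₀ := p₀)] with p e1 e2 n1 n2
      exact e1 (e2 n1 n2).1 (e2 n1 n2).2
    · filter_upwards [hS, off_axes (p₀ := p₀), hH.2] with p e1 e2 e3 n1 n2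
      rw [e1 (e2 n1 n2).1 (e2 n1 n2).2, e3]; ring
    · filter_upwards [hΦ, off_axes (p₀ := p₀)] with p e1 e2 n1 n2
      exact e1 (e2 n1 n2).1 (e2 n1 n2).2
  simp only [h0, zero_sub, neg_eq_zero] at key
  exact hκ0 key

/-- norm of the monomial -/
theorem norm_mo (m : F.I → ℕ) (c : F.K) (p : ℂ × ℂ) :
    ‖F.mo m c p‖ = ‖p.1‖ ^ m (F.e1 c) * ‖p.2‖ ^ ex2 m (F.e2 c) := by
  unfold Frame.mo
  rw [norm_mul, norm_pow, norm_pow]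

/-- **kill at a node**, or at the point `(0,0)` of a leg -/
theorem kill_node (c : F.K) {a b : ℝ} (ha : 0 < a) (hb : 0 < b) {U : Set (ℂ × ℂ)}
    (hU : ∀ᶠ p in 𝓝 ((0 : ℂ), (0 : ℂ)), p.1 ≠ 0 → p.2 ≠ 0 → p ∈ U) {g : E3 → ℂ}
    {m : F.I → ℕ} {S κ : ℂ × ℂ → ℂ} (hκ : ContinuousAt κ (0, 0)) (hκ0 : κ (0, 0) ≠ 0)
    (hS : ∀ᶠ p in 𝓝 ((0 : ℂ), (0 : ℂ)), p.1 ≠ 0 → p.2 ≠ 0 → S p = F.mo m c p * κ p)
    {Φ : ℂ × ℂ → ℝ} {x₁ y₁ x₂ y₂ C : ℝ}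
    (hΦ : ∀ᶠ p in 𝓝 ((0 : ℂ), (0 : ℂ)), p.1 ≠ 0 → p.2 ≠ 0 →
      Φ p ≤ max (lin x₁ y₁ (0, 0) p) (lin x₂ y₂ (0, 0) p) + C)
    (h1 : a * m (F.e1 c) + b * ex2 m (F.e2 c) ≤
      a * x₁ + b * y₁ + a * F.nu (F.e1 c) + b * F.nu2 c)
    (h2 : a * m (F.e1 c) + b * ex2 m (F.e2 c) ≤
      a * x₂ + b * y₂ + a * F.nu (F.e1 c) + b * F.nu2 c)
    (hL : ∫⁻ p in U, ENNReal.ofReal (‖g (F.th c p) - S p‖ ^ 2 * Real.exp (-Φ p) *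
      den2 f (F.th c) p) ≠ ⊤) :
    ∀ H, F.Fac g m c (0, 0) H → H (0, 0) ≠ 0 := by
  obtain ⟨k, hk, hd⟩ := den_low F c (F.mem_SF1 c (z := 0) (by simp))
  refine kill_gen F c ha hb (p₀ := ((0 : ℂ), (0 : ℂ))) hU hκ hκ0 hS (c₁ := 1) (c₂ := k) one_pos hk
    (m₁ := m (F.e1 c)) (m₂ := ex2 m (F.e2 c)) (ν₁ := F.nu (F.e1 c)) (ν₂ := F.nu2 c)
    ?_ ?_ hΦ h1 h2 hL
  · refine Eventually.of_forall fun p _ _ => ?_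
    simp only [sub_zero, one_mul, norm_mo, Real.rpow_natCast]
    exact le_rfl
  · filter_upwards [hd] with p hp n1 n2
    simpa only [sub_zero] using hp n1 n2

/-- **kill at a point** `(0, z)`, `z ≠ 0` -/
theorem kill_fst (c : F.K) {z : ℂ} (hz : z ≠ 0) (hz1 : ‖z‖ ≤ 1) {a b : ℝ} (ha : 0 < a) (hb : 0 < b)
    {U : Set (ℂ × ℂ)}
    (hU : ∀ᶠ p in 𝓝 ((0 : ℂ), z), p.1 ≠ 0 → p.2 ≠ 0 → p ∈ U) {g : E3 → ℂ}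
    {m : F.I → ℕ} {S κ : ℂ × ℂ → ℂ} (hκ : ContinuousAt κ (0, z)) (hκ0 : κ (0, z) ≠ 0)
    (hS : ∀ᶠ p in 𝓝 ((0 : ℂ), z), p.1 ≠ 0 → p.2 ≠ 0 → S p = F.mo m c p * κ p)
    {Φ : ℂ × ℂ → ℝ} {x₁ y₁ x₂ y₂ C : ℝ}
    (hΦ : ∀ᶠ p in 𝓝 ((0 : ℂ), z), p.1 ≠ 0 → p.2 ≠ 0 →
      Φ p ≤ max (lin x₁ y₁ (0, z) p) (lin x₂ y₂ (0, z) p) + C)
    (h1 : a * m (F.e1 c) + b ≤ a * x₁ + b * y₁ + a * F.nu (F.e1 c))
    (h2 : a * m (F.e1 c) + b ≤ a * x₂ + b * y₂ + a * F.nu (F.e1 c))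
    (hL : ∫⁻ p in U, ENNReal.ofReal (‖g (F.th c p) - S p‖ ^ 2 * Real.exp (-Φ p) *
      den2 f (F.th c) p) ≠ ⊤) :
    ∀ H, F.Fac g m c (0, z) H → H (0, z) ≠ 0 := by
  obtain ⟨k, hk, hd⟩ := den_low F c (F.mem_SF1 c hz1)
  obtain ⟨k₁, hk₁, hd₁⟩ := rpow_low (x := fun p : ℂ × ℂ => p.2) (q := ((0 : ℂ), z))
    continuousAt_snd hz (-2 * (F.nu2 c : ℝ) - 2)
  obtain ⟨k₂, hk₂, hd₂⟩ := rpow_low (x := fun p : ℂ × ℂ => p.2) (q := ((0 : ℂ), z))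
    continuousAt_snd hz (ex2 m (F.e2 c) : ℝ)
  refine kill_gen F c ha hb (p₀ := ((0 : ℂ), z)) hU hκ hκ0 hS (c₁ := k₂) (c₂ := k * k₁) hk₂
    (by positivity)
    (m₁ := m (F.e1 c)) (m₂ := 0) (ν₁ := F.nu (F.e1 c)) (ν₂ := -1)
    ?_ ?_ hΦ (by linarith) (by linarith) hL
  · filter_upwards [hd₂] with p q2 n1 n2
    simp only [sub_zero, norm_mo, Real.rpow_natCast, Real.rpow_zero, mul_one] at q2 ⊢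
    rw [mul_comm]
    exact mul_le_mul_of_nonneg_left q2 (by positivity)
  · filter_upwards [hd, hd₁, off_axes (p₀ := ((0 : ℂ), z))] with p q q1 e n1 n2
    refine le_trans ?_ (q (e n1 n2).1 (e n1 n2).2)
    have e1 : (-2 * (-1 : ℝ) - 2) = 0 := by norm_num
    rw [e1, Real.rpow_zero, mul_one]
    simp only [sub_zero]
    calc k * k₁ * ‖p.1‖ ^ (-2 * (F.nu (F.e1 c) : ℝ) - 2)
        = k * (‖p.1‖ ^ (-2 * (F.nu (F.e1 c) : ℝ) - 2) * k₁) := by ring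
      _ ≤ _ := by gcongr

/-- **kill at a point** `(z, 0)`, `z ≠ 0`, of the second branch -/
theorem kill_snd (c : F.K) {i : F.I} (hi : F.e2 c = some i) {z : ℂ} (hz : z ≠ 0) (hz1 : ‖z‖ ≤ 1)
    {a b : ℝ} (ha : 0 < a) (hb : 0 < b) {U : Set (ℂ × ℂ)}
    (hU : ∀ᶠ p in 𝓝 (z, (0 : ℂ)), p.1 ≠ 0 → p.2 ≠ 0 → p ∈ U) {g : E3 → ℂ}
    {m : F.I → ℕ} {S κ : ℂ × ℂ → ℂ} (hκ : ContinuousAt κ (z, 0)) (hκ0 : κ (z, 0) ≠ 0)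
    (hS : ∀ᶠ p in 𝓝 (z, (0 : ℂ)), p.1 ≠ 0 → p.2 ≠ 0 → S p = F.mo m c p * κ p)
    {Φ : ℂ × ℂ → ℝ} {x₁ y₁ x₂ y₂ C : ℝ}
    (hΦ : ∀ᶠ p in 𝓝 (z, (0 : ℂ)), p.1 ≠ 0 → p.2 ≠ 0 →
      Φ p ≤ max (lin x₁ y₁ (z, 0) p) (lin x₂ y₂ (z, 0) p) + C)
    (h1 : a + b * m i ≤ a * x₁ + b * y₁ + b * F.nu i)
    (h2 : a + b * m i ≤ a * x₂ + b * y₂ + b * F.nu i)
    (hL : ∫⁻ p in U, ENNReal.ofReal (‖g (F.th c p) - S p‖ ^ 2 * Real.exp (-Φ p) *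
      den2 f (F.th c) p) ≠ ⊤) :
    ∀ H, F.Fac g m c (z, 0) H → H (z, 0) ≠ 0 := by
  have hSF : (z, (0 : ℂ)) ∈ F.SF c := by
    refine ⟨⟨hz1, by simp⟩, Or.inr ⟨?_, rfl⟩⟩
    rw [hi]; simp
  obtain ⟨k, hk, hd⟩ := den_low F c hSF
  have hν : F.nu2 c = F.nu i := F.nu2_some c i hi
  have hm : ex2 m (F.e2 c) = m i := by rw [hi]; rfl
  obtain ⟨k₁, hk₁, hd₁⟩ := rpow_low (x := fun p : ℂ × ℂ => p.1) (q := (z, (0 : ℂ)))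
    continuousAt_fst hz (-2 * (F.nu (F.e1 c) : ℝ) - 2)
  obtain ⟨k₂, hk₂, hd₂⟩ := rpow_low (x := fun p : ℂ × ℂ => p.1) (q := (z, (0 : ℂ)))
    continuousAt_fst hz (m (F.e1 c) : ℝ)
  refine kill_gen F c ha hb (p₀ := (z, (0 : ℂ))) hU hκ hκ0 hS (c₁ := k₂) (c₂ := k * k₁) hk₂
    (by positivity)
    (m₁ := 0) (m₂ := m i) (ν₁ := -1) (ν₂ := F.nu i)
    ?_ ?_ hΦ (by linarith) (by linarith) hL
  · filter_upwards [hd₂] with p q2 n1 n2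
    simp only [sub_zero, norm_mo, hm, Real.rpow_natCast, Real.rpow_zero, one_mul] at q2 ⊢
    exact mul_le_mul_of_nonneg_right q2 (by positivity)
  · filter_upwards [hd, hd₁, off_axes (p₀ := (z, (0 : ℂ)))] with p q q1 e n1 n2
    refine le_trans ?_ (q (e n1 n2).1 (e n1 n2).2)
    have e1 : (-2 * (-1 : ℝ) - 2) = 0 := by norm_num
    rw [e1, Real.rpow_zero, one_mul, hν]
    simp only [sub_zero]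
    calc k * k₁ * ‖p.2‖ ^ (-2 * (F.nu i : ℝ) - 2)
        = k * (k₁ * ‖p.2‖ ^ (-2 * (F.nu i : ℝ) - 2)) := by ring
      _ ≤ _ := by gcongr

/-! ### the literal shapes of `ExD_121` -/

theorem Lo_of {F : Frame f} {g : E3 → ℂ} {i : F.I} {y : ℝ} (c : F.K) (hc : F.e1 c = i)
    (h : ∃ᶠ z in 𝓝[≠] (0 : ℂ), ∃ (n : ℕ) (H : ℂ × ℂ → ℂ), y + F.nu (F.e1 c) < n ∧
      AnalyticAt ℂ H (0, z) ∧ ∀ᶠ p in 𝓝 ((0 : ℂ), z), g (F.th c p) = p.1 ^ n * H p) :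
    Ex_121.Lo F g i (y + F.nu i) := by
  refine ⟨c, hc, h.mono fun z hz => ?_⟩
  obtain ⟨n, H, h1, h2, h3⟩ := hz
  rw [hc] at h1
  exact ⟨n, H, h1, h2.continuousAt, h3⟩

theorem Ex_of {F : Frame f} {g : E3 → ℂ} {i : F.I} {m : ℕ} (c : F.K) (hc : F.e1 c = i)
    (h : ∃ᶠ z in 𝓝[≠] (0 : ℂ), ∃ H : ℂ × ℂ → ℂ, AnalyticAt ℂ H (0, z) ∧ H (0, z) ≠ 0 ∧
      ∀ᶠ p in 𝓝 ((0 : ℂ), z), g (F.th c p) = p.1 ^ m * H p) :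
    Ex_121.Ex F g i m := by
  refine ⟨c, hc, h.mono fun z hz => ?_⟩
  obtain ⟨H, h1, h2, h3⟩ := hz
  exact ⟨H, h1.continuousAt, h2, h3⟩

end Crest.Agent.R257.OrdK_82
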