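import Crest.Agent.R273.Dir0_73
import Crest.Agent.R271.Rd8_692
import Crest.Agent.R276.Area_448
import Crest.Agent.R276.OTS_189

/-!
# Row 257, leaf D-OT (helper331), file A: the Riemann domain `{x ∈ P(R) | ∂₀h ≠ 0}` with the
coordinates `(h, x₁, …, xₙ)`
-/

set_option autoImplicit false
set_option linter.unusedSectionVars false

noncomputable section

open Set Filter Topology MeasureTheory
open scoped ENNReal

namespace Crest.Agent.R257.OtK_331

open Crest.Agent.R271 Crest.Agent.R271.Ho51 Crest.Agent.R273.Dir73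

variable {n : ℕ}

/-- polydisc -/
def Pd {m : ℕ} (R : Fin m → ℝ) : Set (Fin m → ℂ) := {x | ∀ i, ‖x i‖ < R i}

lemma isOpen_Pd {m : ℕ} (R : Fin m → ℝ) : IsOpen (Pd R) := by
  have : Pd R = ⋂ i, {x : Fin m → ℂ | ‖x i‖ < R i} := by
    ext x; simp [Pd]
  rw [this]
  exact isOpen_iInter_of_finite fun i =>
    isOpen_lt (continuous_apply i).norm continuous_const

/-- derivative in the direction of the coordinate `0` -/
def d0 (h : (Fin (n + 1) → ℂ) → ℂ) (x : Fin (n + 1) → ℂ) : ℂ := fderiv ℂ h x (Pi.single 0 1)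

/-- a holomorphic function on a polydisc -/
structure Dat (n : ℕ) where
  /-- the radii -/
  R : Fin (n + 1) → ℝ
  /-- the function -/
  h : (Fin (n + 1) → ℂ) → ℂ
  hol : DifferentiableOn ℂ h (Pd R)

namespace Dat

variable (d : Dat n)

/-- the open set where `∂₀ h ≠ 0` -/
def U : Set (Fin (n + 1) → ℂ) := {x | x ∈ Pd d.R ∧ d0 d.h x ≠ 0}

lemma an {x : Fin (n + 1) → ℂ} (hx : x ∈ Pd d.R) : AnalyticAt ℂ d.h x :=
  Crest.Agent.R266.SCV.analyticOnNhd_of_differentiableOn (isOpen_Pd d.R) d.hol _ hx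

lemma an_d0 {x : Fin (n + 1) → ℂ} (hx : x ∈ Pd d.R) : AnalyticAt ℂ (d0 d.h) x := by
  have h1 := (d.an hx).fderiv
  exact (ContinuousLinearMap.analyticAt
    (ContinuousLinearMap.apply ℂ ℂ (Pi.single 0 1 : Fin (n + 1) → ℂ)) _).comp h1

lemma cont_d0 : ContinuousOn (d0 d.h) (Pd d.R) := fun _ hx => (d.an_d0 hx).continuousAt.continuousWithinAt

lemma isOpen_U : IsOpen d.U := by
  have : d.U = Pd d.R ∩ (d0 d.h) ⁻¹' {0}ᶜ := by
    ext x; simp [U]
  rw [this]
  exact d.cont_d0.isOpen_inter_preimage (isOpen_Pd d.R) isOpen_compl_singleton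

/-- the coordinate map -/
def Θ (x : Fin (n + 1) → ℂ) : Fin (n + 1) → ℂ := Fin.cons (d.h x) (Fin.tail x)

lemma Θ_zero (x : Fin (n + 1) → ℂ) : d.Θ x 0 = d.h x := rfl

lemma Θ_succ (x : Fin (n + 1) → ℂ) (j : Fin n) : d.Θ x j.succ = x j.succ := rfl

lemma tail_Θ (x : Fin (n + 1) → ℂ) : Fin.tail (d.Θ x) = Fin.tail x := rfl

/-- the derivative of the coordinate map -/
def L (x : Fin (n + 1) → ℂ) : (Fin (n + 1) → ℂ) →L[ℂ] (Fin (n + 1) → ℂ) :=
  ContinuousLinearMap.pi fun i => Fin.cases (motive := fun _ => (Fin (n + 1) → ℂ) →L[ℂ] ℂ)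
    (fderiv ℂ d.h x) (fun j => ContinuousLinearMap.proj (R := ℂ) j.succ) i

lemma L_zero (x v : Fin (n + 1) → ℂ) : d.L x v 0 = fderiv ℂ d.h x v := rfl

lemma L_succ (x v : Fin (n + 1) → ℂ) (j : Fin n) : d.L x v j.succ = v j.succ := rfl

lemma hasStrict {x : Fin (n + 1) → ℂ} (hx : x ∈ Pd d.R) :
    HasStrictFDerivAt d.Θ (d.L x) x := by
  rw [hasStrictFDerivAt_pi']
  intro i
  refine Fin.cases ?_ (fun j => ?_) i
  · exact (d.an hx).hasStrictFDerivAt
  · exact (ContinuousLinearMap.proj (R := ℂ) (φ := fun _ : Fin (n + 1) => ℂ) j.succ).hasStrictFDerivAt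

lemma det_L (x : Fin (n + 1) → ℂ) : (d.L x).det = d0 d.h x := by
  have h1 : (d.L x).det = (LinearMap.toMatrix' ((d.L x : (Fin (n + 1) → ℂ) →L[ℂ] (Fin (n + 1) → ℂ)) :
      (Fin (n + 1) → ℂ) →ₗ[ℂ] (Fin (n + 1) → ℂ))).det := by
    rw [LinearMap.det_toMatrix']
  rw [h1, Matrix.det_of_isUpperTriangular, Fin.prod_univ_succ]
  · have h2 : ∀ j : Fin n, (LinearMap.toMatrix' ((d.L x : (Fin (n + 1) → ℂ) →L[ℂ] (Fin (n + 1) → ℂ)) :
      (Fin (n + 1) → ℂ) →ₗ[ℂ] (Fin (n + 1) → ℂ))) j.succ j.succ = 1 := by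
      intro j
      rw [LinearMap.toMatrix'_apply]
      show d.L x _ j.succ = 1
      rw [L_succ]
      simp
    simp only [h2, Finset.prod_const_one, mul_one]
    rw [LinearMap.toMatrix'_apply]
    show d.L x _ 0 = _
    rw [L_zero]
    rfl
  · intro i j hij
    rw [LinearMap.toMatrix'_apply]
    revert hij
    refine Fin.cases ?_ (fun k => ?_) i
    · intro h
      exact absurd h (by simp)
    · intro h
      show d.L x _ k.succ = 0
      rw [L_succ]
      have : k.succ ≠ j := fun he => by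
        rw [he] at h
        exact lt_irrefl _ h
      simp [this]

/-- the derivative as an equivalence -/
def Le {x : Fin (n + 1) → ℂ} (hx : x ∈ d.U) : (Fin (n + 1) → ℂ) ≃L[ℂ] (Fin (n + 1) → ℂ) :=
  (d.L x).toContinuousLinearEquivOfDetNeZero (by rw [det_L]; exact hx.2)

lemma coe_Le {x : Fin (n + 1) → ℂ} (hx : x ∈ d.U) :
    (d.Le hx : (Fin (n + 1) → ℂ) →L[ℂ] (Fin (n + 1) → ℂ)) = d.L x :=
  ContinuousLinearMap.coe_toContinuousLinearEquivOfDetNeZero _ _

lemma hasStrict' {x : Fin (n + 1) → ℂ} (hx : x ∈ d.U) :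
    HasStrictFDerivAt d.Θ (d.Le hx : (Fin (n + 1) → ℂ) →L[ℂ] (Fin (n + 1) → ℂ)) x := by
  rw [coe_Le]; exact d.hasStrict hx.1

lemma lh : IsLocalHomeomorphOn d.Θ d.U := by
  refine IsLocalHomeomorphOn.mk _ _ fun x hx => ?_
  refine ⟨(d.hasStrict' hx).toOpenPartialHomeomorph d.Θ,
    (d.hasStrict' hx).mem_toOpenPartialHomeomorph_source, ?_⟩
  intro y _
  rw [(d.hasStrict' hx).toOpenPartialHomeomorph_coe]

end Dat

/-- the Riemann domain -/
def MM (d : Dat n) : Type := d.U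

section inst

variable {d : Dat n}

instance : TopologicalSpace (MM d) := inferInstanceAs (TopologicalSpace d.U)

instance : T2Space (MM d) := inferInstanceAs (T2Space d.U)

instance : SecondCountableTopology (MM d) :=
  TopologicalSpace.Subtype.secondCountableTopology d.U

/-- the inclusion -/
def MM.v (x : MM d) : Fin (n + 1) → ℂ := x.1

lemma MM.mem (x : MM d) : x.v ∈ d.U := x.2

lemma MM.ext {x y : MM d} (h : x.v = y.v) : x = y := Subtype.ext h

/-- points of `MM d` -/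
def mk (x : Fin (n + 1) → ℂ) (hx : x ∈ d.U) : MM d := ⟨x, hx⟩

lemma v_mk (x : Fin (n + 1) → ℂ) (hx : x ∈ d.U) : (mk x hx).v = x := rfl

lemma mk_v (x : MM d) : mk x.v x.mem = x := rfl

lemma oe_v : IsOpenEmbedding (MM.v : MM d → _) := d.isOpen_U.isOpenEmbedding_subtypeVal

lemma cont_v : Continuous (MM.v : MM d → _) := oe_v.continuous

instance : RDom (n + 1) (MM d) where
  p := fun x => d.Θ x.v
  hp := by
    rw [isLocalHomeomorph_iff_isLocalHomeomorphOn_univ]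
    exact d.lh.comp oe_v.isLocalHomeomorph.isLocalHomeomorphOn fun x _ => x.mem

lemma cp_MM (x : MM d) : cp x = d.Θ x.v := rfl

lemma hasStrict_symm {e : OpenPartialHomeomorph (MM d) (Fin (n + 1) → ℂ)} (he : IsCh e)
    {x : MM d} (hx : x ∈ e.source) :
    HasStrictFDerivAt (MM.v ∘ e.symm)
      ((d.Le x.mem).symm : (Fin (n + 1) → ℂ) →L[ℂ] (Fin (n + 1) → ℂ)) (cp x) := by
  have h0 : (MM.v ∘ e.symm) (cp x) = x.v := by
    simp only [Function.comp_apply]; rw [he.symm_cp hx]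
  refine HasStrictFDerivAt.of_local_left_inverse (f := d.Θ) ?_ ?_ ?_
  · exact cont_v.continuousAt.comp (e.symm.continuousAt (by simpa using he.cp_mem hx))
  · rw [h0]; exact d.hasStrict' x.mem
  · filter_upwards [e.open_target.mem_nhds (he.cp_mem hx)] with z hz
    exact he.cp_symm hz

/-- holomorphic functions on the open set give holomorphic functions on the Riemann domain -/
lemma hol_v {G : (Fin (n + 1) → ℂ) → ℂ} (hG : DifferentiableOn ℂ G d.U) :
    Ho51.Hol (fun x : MM d => G x.v) := by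
  refine hol_of_local fun x => ⟨ch x, isCh_ch x, mem_ch x, ?_⟩
  have h1 := (hasStrict_symm (isCh_ch x) (mem_ch x)).hasFDerivAt.differentiableAt
  have h0 : (MM.v ∘ (ch x).symm) (cp x) = x.v := by
    simp only [Function.comp_apply]; rw [(isCh_ch x).symm_cp (mem_ch x)]
  have h2 : DifferentiableAt ℂ G ((MM.v ∘ (ch x).symm) (cp x)) := by
    rw [h0]; exact hG.differentiableAt (d.isOpen_U.mem_nhds x.mem)
  exact h2.comp (cp x) h1

open Classical in
/-- extension by zero -/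
def ex (F : MM d → ℂ) (x : Fin (n + 1) → ℂ) : ℂ := if hx : x ∈ d.U then F (mk x hx) else 0

lemma ex_v (F : MM d → ℂ) (x : MM d) : ex F x.v = F x := by
  unfold ex
  rw [dif_pos x.mem, mk_v]

lemma ex_mem (F : MM d → ℂ) {x : Fin (n + 1) → ℂ} (hx : x ∈ d.U) : ex F x = F (mk x hx) :=
  ex_v F (mk x hx)

lemma diff_ex {F : MM d → ℂ} (hF : Ho51.Hol F) : DifferentiableOn ℂ (ex F) d.U := by
  intro x hx
  set y : MM d := mk x hx with hy
  have he := isCh_ch y
  have h1 : DifferentiableAt ℂ (F ∘ (ch y).symm) (cp y) :=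
    (hF _ he).differentiableAt ((ch y).open_target.mem_nhds (he.cp_mem (mem_ch y)))
  have h2 : DifferentiableAt ℂ ((F ∘ (ch y).symm) ∘ d.Θ) x := by
    refine DifferentiableAt.comp x ?_ (d.hasStrict hx.1).hasFDerivAt.differentiableAt
    exact h1
  refine (h2.congr_of_eventuallyEq ?_).differentiableWithinAt
  have h3 : MM.v '' (ch y).source ∈ 𝓝 x :=
    (oe_v.isOpenMap _ (ch y).open_source).mem_nhds ⟨y, mem_ch y, rfl⟩
  filter_upwards [h3] with w hw
  obtain ⟨u, hu, rfl⟩ := hw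
  rw [ex_v]
  simp only [Function.comp_apply]
  rw [← cp_MM, he.symm_cp hu]

/-! ### measures -/

variable [MeasurableSpace (MM d)] [BorelSpace (MM d)] {μ : Measure (MM d)}

lemma det_symm {x : Fin (n + 1) → ℂ} (hx : x ∈ d.U) :
    ((d.Le hx).symm : (Fin (n + 1) → ℂ) →L[ℂ] (Fin (n + 1) → ℂ)).det = (d0 d.h x)⁻¹ := by
  have h1 : ((d.Le hx).symm : (Fin (n + 1) → ℂ) →L[ℂ] (Fin (n + 1) → ℂ)).det *
      (d.Le hx : (Fin (n + 1) → ℂ) →L[ℂ] (Fin (n + 1) → ℂ)).det = 1 := by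
    simp only [ContinuousLinearMap.det]
    rw [← LinearMap.det_comp]
    have : (((d.Le hx).symm : (Fin (n + 1) → ℂ) →L[ℂ] (Fin (n + 1) → ℂ)) :
        (Fin (n + 1) → ℂ) →ₗ[ℂ] (Fin (n + 1) → ℂ)) ∘ₗ
        ((d.Le hx : (Fin (n + 1) → ℂ) →L[ℂ] (Fin (n + 1) → ℂ)) :
        (Fin (n + 1) → ℂ) →ₗ[ℂ] (Fin (n + 1) → ℂ)) = LinearMap.id := by
      ext v i
      simp
    rw [this, LinearMap.det_id]
  rw [d.coe_Le, d.det_L] at h1
  exact eq_inv_of_mul_eq_one_left h1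

theorem lint_MM (hμ : IsLeb μ) {G : (Fin (n + 1) → ℂ) → ℝ≥0∞}
    (hG : Measurable (fun x : MM d => G x.v)) :
    ∫⁻ x : MM d, G x.v ∂μ = ∫⁻ x in d.U, G x * ENNReal.ofReal (‖d0 d.h x‖ ^ 2) := by
  have hc : Continuous (fun x : MM d => d0 d.h x.v) :=
    (d.cont_d0.mono fun _ h => h.1).comp_continuous cont_v fun x => x.mem
  have hne : ∀ x : MM d, d0 d.h x.v ≠ 0 := fun x => x.mem.2
  have hdet : (fun x : MM d => ((d.Le x.mem).symm :
      (Fin (n + 1) → ℂ) →L[ℂ] (Fin (n + 1) → ℂ)).det) = fun x => (d0 d.h x.v)⁻¹ := by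
    funext x; exact det_symm x.mem
  have h1 := Crest.Agent.R276.Area_448.area (q := MM.v) (q' := fun x : MM d =>
      ((d.Le x.mem).symm : (Fin (n + 1) → ℂ) →L[ℂ] (Fin (n + 1) → ℂ))) hμ
      (fun x => hasStrict_symm (isCh_ch x) (mem_ch x)) (by rw [hdet]; exact hc.inv₀ hne)
      (f := fun x : MM d => G x.v * ENNReal.ofReal (‖d0 d.h x.v‖ ^ 2))
      (hG.mul (hc.norm.pow 2).measurable.ennreal_ofReal)
  have h2 : ∀ x : MM d, G x.v * ENNReal.ofReal (‖d0 d.h x.v‖ ^ 2) * ENNReal.ofReal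
      (‖((d.Le x.mem).symm : (Fin (n + 1) → ℂ) →L[ℂ] (Fin (n + 1) → ℂ)).det‖ ^ 2) = G x.v := by
    intro x
    rw [det_symm, mul_assoc, ← ENNReal.ofReal_mul (by positivity), norm_inv, ← mul_pow,
      mul_inv_cancel₀ (norm_ne_zero_iff.2 (hne x)), one_pow, ENNReal.ofReal_one, mul_one]
  simp only [h2] at h1
  rw [h1, ← lintegral_indicator d.isOpen_U.measurableSet]
  refine lintegral_congr fun η => ?_
  have h3 : {x : MM d | ((d.Le x.mem).symm :
      (Fin (n + 1) → ℂ) →L[ℂ] (Fin (n + 1) → ℂ)).det ≠ 0} = univ := by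
    ext x
    simp only [mem_ofPred_eq, mem_univ, iff_true]
    rw [det_symm]
    exact inv_ne_zero (hne x)
  rw [h3]
  simp only [indicator_univ]
  by_cases hη : η ∈ d.U
  · rw [indicator_of_mem hη, tsum_eq_single (⟨mk η hη, rfl⟩ : {x : MM d // MM.v x = η})]
    · rfl
    · rintro ⟨y, hy⟩ hne'
      exact absurd (Subtype.ext (MM.ext hy)) hne'
  · rw [indicator_of_notMem hη, ENNReal.tsum_eq_zero]
    rintro ⟨y, hy⟩
    exact absurd (hy ▸ y.mem) hη

end inst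

/-! ### the slice `h = 0` -/

section slice

variable {d : Dat n}

lemma ell_zero (z : Fin (n + 1) → ℂ) : ell 0 z = z 0 := by
  simp [ell]

lemma ell_MM (x : MM d) : ell 0 (cp x) = d.h x.v := by
  rw [ell_zero]; rfl

lemma cons_of {z : Fin (n + 1) → ℂ} {x' : Fin n → ℂ} (h : Fin.tail z = x') :
    (Fin.cons (z 0) x' : Fin (n + 1) → ℂ) = z := by
  rw [← h, Fin.cons_self_tail]

/-- the points of the slice above `x'` -/
def fibEquiv (d : Dat n) (x' : Fin n → ℂ) :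
    {y : Hs (MM d) 0 // cp y = x'} ≃
      {z : ℂ // (Fin.cons z x' : Fin (n + 1) → ℂ) ∈ d.U ∧ d.h (Fin.cons z x') = 0} where
  toFun := fun y => ⟨(ι y.1).v 0, by
    have h2 : (Fin.cons ((ι y.1).v 0) x' : Fin (n + 1) → ℂ) = (ι y.1).v := cons_of y.2
    rw [h2]
    exact ⟨(ι y.1).mem, by rw [← ell_MM]; exact ell_ι y.1⟩⟩
  invFun := fun z => ⟨mkHs (mk (Fin.cons z.1 x') z.2.1) (by rw [ell_MM, v_mk]; exact z.2.2), by
    rw [cp_Hs, ι_mkHs, cp_MM, Dat.tail_Θ, v_mk, Fin.tail_cons]⟩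
  left_inv := fun y => by
    apply Subtype.ext
    apply Hs_ext
    rw [ι_mkHs]
    apply MM.ext
    rw [v_mk]
    exact cons_of y.2
  right_inv := fun z => by
    apply Subtype.ext
    rfl

/-- sheet integral over `{h = 0, ∂₀h ≠ 0}` -/
def Sh (d : Dat n) (G : (Fin (n + 1) → ℂ) → ℝ≥0∞) : ℝ≥0∞ :=
  ∫⁻ x' : Fin n → ℂ, ∑' z : {z : ℂ // (Fin.cons z x' : Fin (n + 1) → ℂ) ∈ d.U ∧
    d.h (Fin.cons z x') = 0}, G (Fin.cons z.1 x')

theorem lint_slice [MeasurableSpace (Hs (MM d) 0)] [BorelSpace (Hs (MM d) 0)]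
    {μD : Measure (Hs (MM d) 0)} (hμD : IsLeb μD) {G : (Fin (n + 1) → ℂ) → ℝ≥0∞}
    (hG : Measurable (fun y : Hs (MM d) 0 => G (ι y).v)) :
    ∫⁻ y : Hs (MM d) 0, G (ι y).v ∂μD = Sh d G := by
  rw [Rd692.lintegral_eq_fibre hμD hG]
  unfold Sh
  refine lintegral_congr fun x' => ?_
  rw [← (fibEquiv d x').tsum_eq]
  refine tsum_congr fun y => ?_
  show G (ι y.1).v = G (Fin.cons ((ι y.1).v 0) x')
  rw [cons_of (z := (ι y.1).v) (show Fin.tail (ι y.1).v = x' from y.2)]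

end slice

end Crest.Agent.R257.OtK_331
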