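import Crest.Agent.R273.OTX_34
import Crest.Agent.R276.OTS_189
import Crest.Agent.R276.LPsh_29

/-!
# Row 257, leaf D-OT (helper331), file B: Ohsawa–Takegoshi with a continuous log-psh weight, and the
`L^{2/p}` version, on a Riemann domain
-/

set_option autoImplicit false
set_option linter.unusedSectionVars false

noncomputable section

open Set Filter Topology MeasureTheory
open scoped ENNReal

namespace Crest.Agent.R257.OtK_331

open Crest.Agent.R271 Crest.Agent.R271.Ho51 Crest.Agent.R273.Dir73 Crest.Agent.R273.OTA_34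
  Crest.Agent.R273.OTD_34 Crest.Agent.R273.OTU_34 Crest.Agent.R276.EngU_29
  Crest.Agent.R276.OTS_189

variable {n : ℕ} {M : Type*} [TopologicalSpace M] [RDom (n + 1) M] {a : Fin (n + 1) → ℂ}
variable [T2Space M] [SecondCountableTopology M] [MeasurableSpace M] [BorelSpace M]
  {μ : Measure M} [MeasurableSpace (Hs M a)] [BorelSpace (Hs M a)] {μD : Measure (Hs M a)}
  {ρ Φ Ψ : M → ℝ}

/-- the tube hypothesis of `otb` for a continuous weight -/
lemma tubeB_of (hμ : IsLeb μ) (hμD : IsLeb μD) (hρ : Continuous ρ)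
    (hcpt : ∀ t : ℝ, IsCompact {x | ρ x ≤ t}) {f : M → ℂ} (hf : Continuous f)
    (hΦ : Continuous Φ) (hΨ : Continuous Ψ) {b : M → ℝ} (hb : Continuous b)
    (hb0 : ∀ x, 0 ≤ b x) {δ : ℝ} (hδ : 0 < δ) :
    TubeB μ (fun x => ell a (cp x)) f Ψ Φ ρ (fun x => Real.log (b x + δ))
      (ENNReal.ofReal Real.pi * ∫⁻ y : Hs M a,
        ENNReal.ofReal (‖f (ι y)‖ ^ 2 * Real.exp (-Φ (ι y))) / ENNReal.ofReal (b (ι y)) ∂μD) := by
  intro c φ _ hφu K' hK'
  set v : M → ℝ := fun x => ‖f x‖ ^ 2 * Real.exp (-(Φ x + Ψ x + Real.log (b x + δ))) with hv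
  have hbd : ∀ x, 0 < b x + δ := fun x => by have := hb0 x; linarith
  have hlog : Continuous fun x => Real.log (b x + δ) :=
    (hb.add continuous_const).log fun x => (hbd x).ne'
  have hvc : Continuous v := (hf.norm.pow 2).mul
    (Real.continuous_exp.comp ((hΦ.add hΨ).add hlog).neg)
  set κ : M → ℝ := fun x => max 0 (min 1 (c + 1 - ρ x)) with hκ
  have hκc : Continuous κ :=
    continuous_const.max (continuous_const.min (continuous_const.sub hρ))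
  have hκs : HasCompactSupport κ := by
    refine HasCompactSupport.intro (hcpt (c + 1)) fun x hx => ?_
    have h1 : c + 1 < ρ x := not_le.1 hx
    simp only [hκ]
    rw [max_eq_left]
    exact (min_le_right _ _).trans (by linarith)
  have h1 := tube_le (a := a) hμ hμD hΨ hvc (fun x => by simp only [hv]; positivity) hκc hκs
    (fun x => le_max_left _ _) (fun x => max_le zero_le_one (min_le_left _ _))
    (A := {x | ρ x ≤ c}) (fun x hx => by
      have hx' : ρ x ≤ c := hx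
      simp only [hκ]
      rw [min_eq_left (by linarith), max_eq_right zero_le_one])
    (K' := K') (by
      refine lt_of_le_of_lt (mul_le_mul_right (lintegral_mono fun y => ?_) _) hK'
      have e1 : v (ι y) * Real.exp (Ψ (ι y)) =
          ‖f (ι y)‖ ^ 2 * Real.exp (-Φ (ι y)) * (b (ι y) + δ)⁻¹ := by
        simp only [hv]
        rw [show -(Φ (ι y) + Ψ (ι y) + Real.log (b (ι y) + δ)) =
          -Φ (ι y) + (-Ψ (ι y)) + (-Real.log (b (ι y) + δ)) by ring, Real.exp_add, Real.exp_add,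
          Real.exp_neg (Real.log _), Real.exp_log (hbd _), Real.exp_neg (Ψ _)]
        field_simp
      rw [e1, ENNReal.ofReal_mul (by positivity), div_eq_mul_inv,
        ENNReal.ofReal_inv_of_pos (hbd _)]
      refine mul_le_mul_right (ENNReal.inv_le_inv.2 (ENNReal.ofReal_le_ofReal (by linarith))) _)
  filter_upwards [h1] with ε hε
  refine le_trans ?_ hε
  have hset : tube (fun x => ell a (cp x)) Ψ ρ c ε ⊆
      {x | ρ x ≤ c} ∩ {x | ‖ell a (cp x)‖ ^ 2 ≤ ε ^ 2 * Real.exp (Ψ x)} := fun x hx => ⟨hx.2, hx.1⟩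
  refine le_trans ?_ (lintegral_mono_set hset)
  have hm : MeasurableSet (tube (fun x => ell a (cp x)) Ψ ρ c ε) := by
    have h2 : Continuous (fun x : M => ‖ell a (cp x)‖ ^ 2) :=
      ((continuous_ell a).comp cp_cont).norm.pow 2
    have h3 : IsClosed {x : M | ‖ell a (cp x)‖ ^ 2 ≤ ε ^ 2 * Real.exp (Ψ x)} :=
      isClosed_le h2 (continuous_const.mul (Real.continuous_exp.comp hΨ))
    exact (h3.inter (isClosed_le hρ continuous_const)).measurableSet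
  refine setLIntegral_mono' hm fun x hx => ?_
  apply ENNReal.ofReal_le_ofReal
  simp only [hv]
  have := hφu x hx.2
  gcongr

/-- **Ohsawa–Takegoshi with a continuous log-psh weight** -/
theorem ot_cont (hμ : IsLeb μ) (hμD : IsLeb μD) (hρ : Sm ρ)
    (hcpt : ∀ t : ℝ, IsCompact {x | ρ x ≤ t}) (hL : ∀ x w, nsq w ≤ Levi ρ x w) {f : M → ℂ}
    (hf : Hol f) (hΨ : Sm Ψ) (hΦ : Sm Φ) (hs : ∀ x, ‖ell a (cp x)‖ ^ 2 ≤ Real.exp (Ψ x))
    (hΨ0 : ∀ x w, 0 ≤ Levi Ψ x w) (hΦΨ : ∀ x w, Levi Ψ x w ≤ Levi Φ x w) {b : M → ℝ}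
    (hb : LPsh b) (hbc : Continuous b) {K : ℝ≥0∞} (hKt : K ≠ ∞)
    (hK : ∫⁻ y : Hs M a, ENNReal.ofReal (‖f (ι y)‖ ^ 2 * Real.exp (-Φ (ι y))) /
      ENNReal.ofReal (b (ι y)) ∂μD ≤ K) :
    ∃ F : M → ℂ, Hol F ∧ (∀ x, ell a (cp x) = 0 → F x = f x) ∧
      ∫⁻ x, ENNReal.ofReal (‖F x‖ ^ 2 * Real.exp (-(Φ x + Ψ x))) / ENNReal.ofReal (b x) ∂μ ≤
          ENNReal.ofReal (Cot 1 * Real.pi) * K := by
  have hf' := hol_of _ hf
  obtain ⟨F, hF, hFf, hFb⟩ := otb (h := fun x => ell a (cp x)) (f := f) (Ψ := Ψ) (Φ := Φ)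
    (ρ := ρ) (a := 1) (K := ENNReal.ofReal Real.pi * ∫⁻ y : Hs M a,
        ENNReal.ofReal (‖f (ι y)‖ ^ 2 * Real.exp (-Φ (ι y))) / ENNReal.ofReal (b (ι y)) ∂μD)
    hμ hρ hcpt hL (Crest.Agent.R273.OTX_34.hol_ell a) hf' hΨ hΦ hs one_pos le_rfl hΨ0
    (fun x w => by rw [one_mul]; exact hΦΨ x w) hb
    (ENNReal.mul_ne_top ENNReal.ofReal_ne_top (ne_top_of_le_ne_top hKt hK))
    (fun δ hδ => tubeB_of hμ hμD hρ.continuous hcpt hf'.sm.continuous hΦ.continuous hΨ.continuous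
      hbc hb.nonneg hδ)
  refine ⟨F, hF, hFf, hFb.trans ?_⟩
  rw [ENNReal.ofReal_mul (Crest.Agent.R273.OTE_34.Cot_nonneg 1), mul_assoc]
  gcongr

/-! ### the `L^{2/p}` version, `q = 1/p` -/

/-- the weight `‖G‖^{2(1-q)}` -/
def bq (q : ℝ) (G : M → ℂ) (x : M) : ℝ := ‖G x‖ ^ (2 * (1 - q))

/-- the `L^{2q}` integral -/
def Nq (μ : Measure M) (q : ℝ) (Θ : M → ℝ) (G : M → ℂ) : ℝ≥0∞ :=
  ∫⁻ x, ENNReal.ofReal (‖G x‖ ^ (2 * q) * Real.exp (-Θ x)) ∂μ

/-- the pointwise inequality behind the Hölder step -/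
lemma holder_pt {q : ℝ} (hq0 : 0 < q) (hq1 : q ≤ 1) {A B E : ℝ} (hA : 0 ≤ A) (hB : 0 ≤ B)
    (hE : 0 < E) (h : ENNReal.ofReal (A ^ 2 * E) / ENNReal.ofReal (B ^ (2 * (1 - q))) ≠ ∞) :
    ENNReal.ofReal (A ^ (2 * q) * E) ≤
      (ENNReal.ofReal (A ^ 2 * E) / ENNReal.ofReal (B ^ (2 * (1 - q)))) ^ q *
        (ENNReal.ofReal (B ^ (2 * q) * E)) ^ (1 - q) := by
  rcases eq_or_lt_of_le hA with hA0 | hA0
  · rw [← hA0, Real.zero_rpow (by positivity)]
    simp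
  rcases eq_or_lt_of_le hB with hB0 | hB0
  · -- `B = 0`
    rcases eq_or_lt_of_le hq1 with hq | hq
    · rw [hq]
      simp only [mul_one, sub_self, mul_zero, Real.rpow_zero, ENNReal.ofReal_one, div_one,
        ENNReal.rpow_one, ENNReal.rpow_zero]
      apply ENNReal.ofReal_le_ofReal
      rw [show (2 : ℝ) = ((2 : ℕ) : ℝ) by norm_num, Real.rpow_natCast]
    · exfalso
      apply h
      rw [← hB0, Real.zero_rpow (by
        have : 0 < 1 - q := by linarith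
        positivity)]
      rw [ENNReal.ofReal_zero]
      exact ENNReal.div_zero (by simpa using (by positivity : 0 < A ^ 2 * E))
  · have h1 : 0 < B ^ (2 * (1 - q)) := Real.rpow_pos_of_pos hB0 _
    rw [← ENNReal.ofReal_div_of_pos h1, ENNReal.ofReal_rpow_of_nonneg (by positivity) hq0.le,
      ENNReal.ofReal_rpow_of_nonneg (by positivity) (by linarith), ← ENNReal.ofReal_mul (by positivity)]
    apply ENNReal.ofReal_le_ofReal
    apply le_of_eq
    rw [Real.div_rpow (by positivity) (by positivity), Real.mul_rpow (by positivity) hE.le,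
      Real.mul_rpow (by positivity) hE.le, ← Real.rpow_mul hB0.le, ← Real.rpow_mul hB0.le,
      ← Real.rpow_natCast A 2, ← Real.rpow_mul hA0.le]
    push_cast
    have h2 : E = E ^ q * E ^ (1 - q) := by
      rw [← Real.rpow_add hE]; simp
    have h3 : 2 * (1 - q) * q = 2 * q * (1 - q) := by ring
    have h4 : (B ^ (2 * q * (1 - q))) ≠ 0 := (Real.rpow_pos_of_pos hB0 _).ne'
    rw [h3]
    field_simp
    rw [← h2]

/-- one step of the iteration -/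
lemma step_le {q : ℝ} (hq0 : 0 < q) (hq1 : q ≤ 1) {Θ : M → ℝ} (hΘ : Continuous Θ) {G F : M → ℂ}
    (hG : Continuous G) (hF : Continuous F) {T : ℝ≥0∞} (hT : T ≠ ∞)
    (h : ∫⁻ x, ENNReal.ofReal (‖F x‖ ^ 2 * Real.exp (-Θ x)) / ENNReal.ofReal (bq q G x) ∂μ ≤ T) :
    Nq μ q Θ F ≤ T ^ q * (Nq μ q Θ G) ^ (1 - q) := by
  have hm1 : AEMeasurable (fun x => ENNReal.ofReal (‖F x‖ ^ 2 * Real.exp (-Θ x)) /
      ENNReal.ofReal (bq q G x)) μ := by
    have h1 : Measurable (fun x => bq q G x) := hG.norm.measurable.pow_const _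
    exact ((((hF.norm.pow 2).mul (Real.continuous_exp.comp hΘ.neg)).measurable.ennreal_ofReal).div
      h1.ennreal_ofReal).aemeasurable
  have hm2 : AEMeasurable (fun x => ENNReal.ofReal (‖G x‖ ^ (2 * q) * Real.exp (-Θ x))) μ := by
    have h1 : Measurable (fun x => ‖G x‖ ^ (2 * q)) := hG.norm.measurable.pow_const _
    exact ((h1.mul (Real.continuous_exp.comp hΘ.neg).measurable).ennreal_ofReal).aemeasurable
  have hae : ∀ᵐ x ∂μ, ENNReal.ofReal (‖F x‖ ^ 2 * Real.exp (-Θ x)) /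
      ENNReal.ofReal (bq q G x) < ∞ :=
    ae_lt_top' hm1 (ne_top_of_le_ne_top hT h)
  calc Nq μ q Θ F
      ≤ ∫⁻ x, (ENNReal.ofReal (‖F x‖ ^ 2 * Real.exp (-Θ x)) / ENNReal.ofReal (bq q G x)) ^ q *
        (ENNReal.ofReal (‖G x‖ ^ (2 * q) * Real.exp (-Θ x))) ^ (1 - q) ∂μ := by
        refine lintegral_mono_ae ?_
        filter_upwards [hae] with x hx
        exact holder_pt hq0 hq1 (norm_nonneg _) (norm_nonneg _) (Real.exp_pos _) hx.ne
    _ ≤ (∫⁻ x, ENNReal.ofReal (‖F x‖ ^ 2 * Real.exp (-Θ x)) / ENNReal.ofReal (bq q G x) ∂μ) ^ q *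
        (Nq μ q Θ G) ^ (1 - q) :=
        ENNReal.lintegral_mul_norm_pow_le hm1 hm2 hq0.le (by linarith) (by ring)
    _ ≤ _ := by gcongr

/-- the infimum trick -/
lemma inf_trick {q : ℝ} (hq0 : 0 < q) (hq1 : q ≤ 1) {T : ℝ≥0∞} (hT : T ≠ ∞) {S : Set ℝ≥0∞}
    (h0 : ∃ x ∈ S, x ≠ ∞) (hS : ∀ x ∈ S, x ≠ ∞ → ∃ y ∈ S, y ≤ T ^ q * x ^ (1 - q)) {T' : ℝ≥0∞}
    (hT' : T < T') : ∃ x ∈ S, x ≤ T' := by
  by_contra hcon
  push Not at hcon
  set A := sInf S with hA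
  have hAT' : T' ≤ A := le_sInf fun x hx => (hcon x hx).le
  obtain ⟨x0, hx0, hx0t⟩ := h0
  have hAt : A ≠ ∞ := ne_top_of_le_ne_top hx0t (sInf_le hx0)
  have hA0 : A ≠ 0 := (lt_of_le_of_lt zero_le (hT'.trans_le hAT')).ne'
  have h1 : T ^ q * A ^ (1 - q) < A := by
    calc T ^ q * A ^ (1 - q) < A ^ q * A ^ (1 - q) := by
          refine ENNReal.mul_lt_mul_left ?_ ?_ (ENNReal.rpow_lt_rpow (hT'.trans_le hAT') hq0)
          · exact (ENNReal.rpow_pos (pos_iff_ne_zero.2 hA0) hAt).ne'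
          · exact ENNReal.rpow_ne_top_of_nonneg (by linarith) hAt
      _ = A := by
          rw [← ENNReal.rpow_add _ _ hA0 hAt]
          simp
  have hc : Continuous fun x : ℝ≥0∞ => T ^ q * x ^ (1 - q) :=
    (ENNReal.continuous_const_mul (ENNReal.rpow_ne_top_of_nonneg hq0.le hT)).comp
      (ENNReal.continuous_rpow_const)
  have h2 : ∀ᶠ x in 𝓝 A, T ^ q * x ^ (1 - q) < A := hc.continuousAt.eventually_lt_const h1
  have h3 : ∀ᶠ x in 𝓝[≥] A, T ^ q * x ^ (1 - q) < A := nhdsWithin_le_nhds h2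
  obtain ⟨u, hu, hub⟩ := (mem_nhdsGE_iff_exists_Ico_subset' (hAt.lt_top)).1 h3
  obtain ⟨x, hx, hxu⟩ := sInf_lt_iff.1 (show sInf S < u from hu)
  obtain ⟨y, hy, hyx⟩ := hS x hx (hxu.trans_le le_top).ne
  have h4 := hub ⟨sInf_le hx, hxu⟩
  exact absurd (sInf_le hy) (not_le.2 (lt_of_le_of_lt hyx h4))

/-- pointwise bound on the slice -/
lemma slice_pt {q : ℝ} (hq0 : 0 < q) (hq1 : q ≤ 1) {A E : ℝ} (hA : 0 ≤ A) (hE : 0 < E) :
    ENNReal.ofReal (A ^ 2 * E) / ENNReal.ofReal (A ^ (2 * (1 - q))) ≤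
      ENNReal.ofReal (A ^ (2 * q) * E) := by
  rcases eq_or_lt_of_le hA with hA0 | hA0
  · rw [← hA0]
    simp
  · have h1 : 0 < A ^ (2 * (1 - q)) := Real.rpow_pos_of_pos hA0 _
    rw [← ENNReal.ofReal_div_of_pos h1]
    apply ENNReal.ofReal_le_ofReal
    apply le_of_eq
    rw [div_eq_iff h1.ne', mul_right_comm, ← Real.rpow_add hA0, ← Real.rpow_natCast A 2]
    congr 2
    push_cast
    ring

/-- **`L^{2/p}` Ohsawa–Takegoshi on a Riemann domain** (`q = 1/p`).  `C` is a class of holomorphic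
functions which is stable under the `L²` step. -/
theorem otp (hμ : IsLeb μ) (hμD : IsLeb μD) (hρ : Sm ρ)
    (hcpt : ∀ t : ℝ, IsCompact {x | ρ x ≤ t}) (hL : ∀ x w, nsq w ≤ Levi ρ x w)
    (hΨ : Sm Ψ) (hΦ : Sm Φ) (hs : ∀ x, ‖ell a (cp x)‖ ^ 2 ≤ Real.exp (Ψ x))
    (hΨ0 : ∀ x w, 0 ≤ Levi Ψ x w) (hΦΨ : ∀ x w, Levi Ψ x w ≤ Levi Φ x w) {q : ℝ} (hq0 : 0 < q)
    (hq1 : q ≤ 1) (C : (M → ℂ) → Prop) (hCh : ∀ G, C G → Hol G)
    (hC : ∀ G F, C G → Hol F → ∫⁻ x, ENNReal.ofReal (‖F x‖ ^ 2 * Real.exp (-(Φ x + Ψ x))) /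
      ENNReal.ofReal (bq q G x) ∂μ ≠ ∞ → C F) {G0 : M → ℂ} (hG0 : C G0)
    (hN0 : Nq μ q (fun x => Φ x + Ψ x) G0 ≠ ∞) {K : ℝ≥0∞} (hKt : K ≠ ∞)
    (hK : ∫⁻ y : Hs M a, ENNReal.ofReal (‖G0 (ι y)‖ ^ (2 * q) * Real.exp (-Φ (ι y))) ∂μD ≤ K)
    {K' : ℝ≥0∞} (hK' : ENNReal.ofReal (Cot 1 * Real.pi) * K < K') :
    ∃ F : M → ℂ, C F ∧ (∀ x, ell a (cp x) = 0 → F x = G0 x) ∧
      Nq μ q (fun x => Φ x + Ψ x) F ≤ K' := by
  have hT : ENNReal.ofReal (Cot 1 * Real.pi) * K ≠ ∞ :=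
    ENNReal.mul_ne_top ENNReal.ofReal_ne_top hKt
  obtain ⟨x, ⟨F, hF, hF0, rfl⟩, hx⟩ := inf_trick hq0 hq1 hT
    (S := {x | ∃ G : M → ℂ, C G ∧ (∀ x, ell a (cp x) = 0 → G x = G0 x) ∧
      Nq μ q (fun x => Φ x + Ψ x) G = x})
    ⟨_, ⟨G0, hG0, fun _ _ => rfl, rfl⟩, hN0⟩ (by
      rintro _ ⟨G, hG, hGG, rfl⟩ -
      have hGh := hCh G hG
      have hGc : Continuous G := (hol_of _ hGh).sm.continuous
      have hbc : Continuous (bq q G) := by
        unfold bq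
        exact hGc.norm.rpow_const fun x => Or.inr (by linarith)
      obtain ⟨F, hF, hFf, hFb⟩ := ot_cont (f := G) (b := bq q G) (K := K) hμ hμD hρ hcpt hL hGh
        hΨ hΦ hs hΨ0 hΦΨ (LPsh.of_hol_rpow hGh (by linarith)) hbc hKt (by
          refine le_trans (lintegral_mono fun y => ?_) hK
          have h1 : G (ι y) = G0 (ι y) := hGG _ (ell_ι y)
          unfold bq
          rw [h1]
          exact slice_pt hq0 hq1 (norm_nonneg _) (Real.exp_pos _))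
      have hCF : C F := hC G F hG hF (ne_top_of_le_ne_top hT hFb)
      refine ⟨_, ⟨F, hCF, fun x hx => (hFf x hx).trans (hGG x hx), rfl⟩, ?_⟩
      exact step_le hq0 hq1 (hΦ.continuous.add hΨ.continuous) hGc (hol_of _ hF).sm.continuous
        hT hFb) hK'
  exact ⟨F, hF, hF0, hx⟩

end Crest.Agent.R257.OtK_331
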