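import Crest.Agent.R257.OtKA_331
import Crest.Agent.R257.OtKB_331
import Crest.Agent.R271.G3a_792

/-!
# Row 257, leaf D-OT (helper331), file C: the exhaustion of `MM d`
-/

set_option autoImplicit false
set_option linter.unusedSectionVars false

noncomputable section

open Set Filter Topology MeasureTheory
open scoped ENNReal

namespace Crest.Agent.R257.OtK_331

open Crest.Agent.R271 Crest.Agent.R271.Ho51 Crest.Agent.R273.Dir73 Crest.Agent.R273.OTA_34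
open Crest.Agent.R271.W792 (lev dsq nS nT lg)

section gen

variable {n : ℕ} {M : Type*} [TopologicalSpace M] [RDom n M]

/-- `(R² - |f|²)⁻¹` is smooth and psh -/
lemma sm_inv {f : M → ℂ} (hf : W792.Hol f) {R : ℝ} (hR : ∀ x, ‖f x‖ ^ 2 < R) (k : ℕ) :
    Sm (fun x => ((R - ‖f x‖ ^ 2) ^ k)⁻¹) := by
  have h1 : Sm (fun x => ‖f x‖ ^ 2) := W792.Hol.sm_normSq hf.sm
  refine Sm.comp_at (g := fun t : ℝ => ((R - t) ^ k)⁻¹) h1 fun x => ?_
  have h2 : R - ‖f x‖ ^ 2 ≠ 0 := by have := hR x; linarith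
  exact (contDiffAt_const.sub contDiffAt_id).pow k |>.inv (pow_ne_zero _ h2)

lemma lev_inv_nonneg {f : M → ℂ} (hf : W792.Hol f) {R : ℝ} (hR : ∀ x, ‖f x‖ ^ 2 < R) (x : M)
    (w : Fin n → ℂ) : 0 ≤ lev (fun x => (R - ‖f x‖ ^ 2)⁻¹) x w := by
  have h1 : Sm (fun x => ‖f x‖ ^ 2) := W792.Hol.sm_normSq hf.sm
  have hx := hR x
  have hpos : 0 < R - ‖f x‖ ^ 2 := by linarith
  have hg' : ∀ᶠ t in 𝓝 (‖f x‖ ^ 2), HasDerivAt (fun t : ℝ => (R - t)⁻¹)
      ((fun t : ℝ => ((R - t) ^ 2)⁻¹) t) t := by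
    filter_upwards [gt_mem_nhds hx] with t ht
    have h0 : HasDerivAt (fun t : ℝ => R - t) (-1) t := by
      simpa using (hasDerivAt_id' t).const_sub R
    have h5 := h0.fun_inv (by linarith : R - t ≠ 0)
    simpa [one_div] using h5
  have hg'' : HasDerivAt (fun t : ℝ => ((R - t) ^ 2)⁻¹) (2 / (R - ‖f x‖ ^ 2) ^ 3)
      (‖f x‖ ^ 2) := by
    have h0 : HasDerivAt (fun t : ℝ => R - t) (-1) (‖f x‖ ^ 2) := by
      simpa using (hasDerivAt_id' _).const_sub R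
    have h5 := (h0.fun_pow 2).fun_inv (pow_ne_zero 2 hpos.ne')
    have h6 : 2 / (R - ‖f x‖ ^ 2) ^ 3 = -(((2 : ℕ) : ℝ) * (R - ‖f x‖ ^ 2) ^ (2 - 1) * -1) /
        ((R - ‖f x‖ ^ 2) ^ 2) ^ 2 := by
      have := hpos.ne'
      push_cast
      field_simp
    rw [h6]
    exact h5
  rw [W792.lev_comp h1 x hg' hg'' w (sm_inv hf hR 2), W792.lev_normSq hf]
  have := W792.dsq_nonneg (fun x => ‖f x‖ ^ 2) x w
  positivity

end gen

variable {n : ℕ} {d : Dat n}

/-- coordinates are holomorphic on `MM d` -/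
lemma hol_co (i : Fin (n + 1)) : W792.Hol (fun x : MM d => x.v i) := by
  refine hol_of _ (hol_v (G := fun x => x i) ?_)
  exact (differentiable_apply i).differentiableOn

lemma hol_h : W792.Hol (fun x : MM d => d.h x.v) :=
  hol_of _ (hol_v (d.hol.mono fun _ h => h.1))

lemma hol_d0 : W792.Hol (fun x : MM d => d0 d.h x.v) :=
  hol_of _ (hol_v fun x hx => (d.an_d0 hx.1).differentiableAt.differentiableWithinAt)

lemma hol_d0i : W792.Hol (fun x : MM d => (d0 d.h x.v)⁻¹) :=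
  hol_of _ (hol_v (G := fun x => (d0 d.h x)⁻¹) fun x hx =>
    ((d.an_d0 hx.1).differentiableAt.inv hx.2).differentiableWithinAt)

lemma hol_cp (i : Fin (n + 1)) : W792.Hol (fun x : MM d => cp x i) := by
  refine Fin.cases ?_ (fun j => ?_) i
  · exact hol_h
  · exact hol_co j.succ

/-- the holomorphic functions entering the exhaustion -/
def fe (d : Dat n) : Option (Fin (n + 1)) → MM d → ℂ
  | none => fun x => (d0 d.h x.v)⁻¹
  | some i => fun x => cp x i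

lemma hol_fe (i : Option (Fin (n + 1))) : W792.Hol (fe d i) := by
  cases i with
  | none => exact hol_d0i
  | some i => exact hol_cp i

/-- the exhaustion -/
def rh (d : Dat n) (x : MM d) : ℝ :=
  nS (fe d) x + ∑ i, (d.R i ^ 2 - ‖x.v i‖ ^ 2)⁻¹

lemma lt_R (i : Fin (n + 1)) (x : MM d) : ‖x.v i‖ ^ 2 < d.R i ^ 2 :=
  pow_lt_pow_left₀ (x.mem.1 i) (norm_nonneg _) two_ne_zero

lemma sm_inv1 (i : Fin (n + 1)) : Sm (fun x : MM d => (d.R i ^ 2 - ‖x.v i‖ ^ 2)⁻¹) := by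
  simpa using sm_inv (hol_co i) (lt_R i) 1

lemma sm_rh : Sm (rh d) := by
  unfold rh
  exact (W792.sm_nS fun i => (hol_fe i).sm).add (Sm.sum fun i _ => sm_inv1 i)

lemma levi_rh (x : MM d) (w : Fin (n + 1) → ℂ) : nsq w ≤ Levi (rh d) x w := by
  rw [W792.Levi_eq_lev sm_rh]
  unfold rh
  rw [W792.lev_add (W792.sm_nS fun i => (hol_fe i).sm) (Sm.sum fun i _ => sm_inv1 i),
    W792.lev_sum _ (fun i _ => sm_inv1 i), W792.lev_nS hol_fe]
  have h1 : 0 ≤ ∑ i, lev (fun x : MM d => (d.R i ^ 2 - ‖x.v i‖ ^ 2)⁻¹) x w :=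
    Finset.sum_nonneg fun i _ => lev_inv_nonneg (hol_co i) (lt_R i) x w
  have h2 : nT (fe d) x w = ‖D (fe d none) x w‖ ^ 2 + nsq w := by
    unfold nT nsq
    rw [Fintype.sum_option]
    congr 1
    refine Finset.sum_congr rfl fun i _ => ?_
    show ‖D (fun x : MM d => cp x i) x w‖ ^ 2 = _
    rw [G792.D_coord]
  rw [h2]
  have h3 : 0 ≤ ‖D (fe d none) x w‖ ^ 2 := by positivity
  linarith

/-- sublevel sets are compact -/
lemma compact_rh (c : ℝ) : IsCompact {x : MM d | rh d x ≤ c} := by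
  -- the bounds on a sublevel set
  have hinv : ∀ (x : MM d) i, 0 < (d.R i ^ 2 - ‖x.v i‖ ^ 2)⁻¹ := fun x i =>
    inv_pos.2 (by have := lt_R i x; linarith)
  have hns : ∀ x : MM d, ‖(d0 d.h x.v)⁻¹‖ ^ 2 ≤ nS (fe d) x := by
    intro x
    unfold nS
    exact Finset.single_le_sum (f := fun j => ‖fe d j x‖ ^ 2) (fun j _ => by positivity)
      (Finset.mem_univ none)
  have hnn : ∀ x : MM d, 0 ≤ nS (fe d) x := fun x => W792.nS_nonneg _ _
  have hs0 : ∀ x : MM d, 0 ≤ ∑ i, (d.R i ^ 2 - ‖x.v i‖ ^ 2)⁻¹ := fun x =>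
    Finset.sum_nonneg fun i _ => (hinv x i).le
  set c' : ℝ := max c 1 with hc'
  have hc0 : 0 < c' := lt_of_lt_of_le one_pos (le_max_right _ _)
  have hcc : c ≤ c' := le_max_left _ _
  -- the closed set in `ℂⁿ⁺¹`
  set A : Set (Fin (n + 1) → ℂ) := {x | ∀ i, ‖x i‖ ≤ |d.R i|} ∩ {x | ∀ i, ‖x i‖ ^ 2 ≤ d.R i ^ 2 - c'⁻¹}
    with hA
  have hAc : IsCompact A := by
    have h1 : IsCompact {x : Fin (n + 1) → ℂ | ∀ i, ‖x i‖ ≤ |d.R i|} := by
      have : {x : Fin (n + 1) → ℂ | ∀ i, ‖x i‖ ≤ |d.R i|} =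
          Set.pi univ fun i => Metric.closedBall (0 : ℂ) |d.R i| := by
        ext x; simp [Set.mem_pi]
      rw [this]
      exact isCompact_univ_pi fun i => isCompact_closedBall _ _
    refine h1.inter_right ?_
    rw [show {x : Fin (n + 1) → ℂ | ∀ i, ‖x i‖ ^ 2 ≤ d.R i ^ 2 - c'⁻¹} =
      ⋂ i, {x : Fin (n + 1) → ℂ | ‖x i‖ ^ 2 ≤ d.R i ^ 2 - c'⁻¹} by ext x; simp]
    exact isClosed_iInter fun i => isClosed_le ((continuous_apply i).norm.pow 2) continuous_const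
  by_cases hR : ∀ i, 0 < d.R i
  swap
  · -- empty domain
    push Not at hR
    obtain ⟨i, hi⟩ := hR
    have : {x : MM d | rh d x ≤ c} = ∅ := by
      ext x
      simp only [mem_ofPred_eq, mem_empty_iff_false, iff_false]
      intro _
      have h1 := x.mem.1 i
      have h2 := norm_nonneg (x.v i)
      linarith
    rw [this]
    exact isCompact_empty
  have hAP : A ⊆ Pd d.R := by
    intro x hx i
    have h1 := hx.2 i
    have h2 : 0 < c'⁻¹ := inv_pos.2 hc0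
    exact lt_of_pow_lt_pow_left₀ 2 (hR i).le (by linarith)
  have hBc : IsCompact (A ∩ {x | (c' + 1)⁻¹ ≤ ‖d0 d.h x‖ ^ 2}) := by
    have h1 : ContinuousOn (fun x => ‖d0 d.h x‖ ^ 2) A := ((d.cont_d0.mono hAP).norm.pow 2)
    have h2 := h1.preimage_isClosed_of_isClosed hAc.isClosed (isClosed_Ici (a := (c' + 1)⁻¹))
    exact hAc.of_isClosed_subset h2 inter_subset_left
  have hBU : A ∩ {x | (c' + 1)⁻¹ ≤ ‖d0 d.h x‖ ^ 2} ⊆ d.U := by
    rintro x ⟨hx1, hx2⟩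
    refine ⟨hAP hx1, fun h0 => ?_⟩
    have hx2' : (c' + 1)⁻¹ ≤ ‖d0 d.h x‖ ^ 2 := hx2
    rw [h0] at hx2'
    have : 0 < (c' + 1)⁻¹ := inv_pos.2 (by linarith)
    simp at hx2'
    linarith
  have hpre : IsCompact (MM.v ⁻¹' (A ∩ {x | (c' + 1)⁻¹ ≤ ‖d0 d.h x‖ ^ 2}) : Set (MM d)) := by
    rw [(oe_v (d := d)).isEmbedding.isInducing.isCompact_iff, Set.image_preimage_eq_of_subset]
    · exact hBc
    · intro x hx
      exact ⟨mk x (hBU hx), rfl⟩
  refine hpre.of_isClosed_subset (isClosed_le sm_rh.continuous continuous_const) ?_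
  intro x hx
  have hx' : rh d x ≤ c := hx
  unfold rh at hx'
  refine ⟨⟨fun i => ?_, fun i => ?_⟩, ?_⟩
  · exact (x.mem.1 i).le.trans (le_abs_self _)
  · have h1 : (d.R i ^ 2 - ‖x.v i‖ ^ 2)⁻¹ ≤ c' := by
      have h2 := Finset.single_le_sum (f := fun j => (d.R j ^ 2 - ‖x.v j‖ ^ 2)⁻¹)
        (fun j _ => (hinv x j).le) (Finset.mem_univ i)
      have h3 := hnn x
      linarith
    have h4 := lt_R i x
    have h5 := inv_anti₀ (hinv x i) h1
    rw [inv_inv] at h5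
    show ‖x.v i‖ ^ 2 ≤ d.R i ^ 2 - c'⁻¹
    linarith
  · have h1 : ‖(d0 d.h x.v)⁻¹‖ ^ 2 ≤ c' + 1 := by
      have h2 := hns x
      have h3 := hs0 x
      linarith
    have h4 : 0 < ‖(d0 d.h x.v)⁻¹‖ ^ 2 := by
      have := norm_pos_iff.2 (inv_ne_zero x.mem.2)
      positivity
    have h5 := inv_anti₀ h4 h1
    rw [norm_inv, inv_pow, inv_inv] at h5
    exact h5

end Crest.Agent.R257.OtK_331
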