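import Crest.Agent.R257.OtKC_331
import Crest.Agent.R271.RExt2_747
import Crest.Agent.R271.Null_821

/-!
# Row 257, leaf D-OT (helper331), file D: `L^{2/p}` extension from `{h = 0, ∂₀h ≠ 0}` in a polydisc
-/

set_option autoImplicit false
set_option linter.unusedSectionVars false

noncomputable section

open Set Filter Topology MeasureTheory
open scoped ENNReal

namespace Crest.Agent.R257.OtK_331

open Crest.Agent.R271 Crest.Agent.R271.Ho51 Crest.Agent.R273.Dir73 Crest.Agent.R273.OTA_34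
open Crest.Agent.R271.W792 (lev dsq nS nT lg)
open Crest.Agent.R273.OTD_34 (Cot)

variable {n : ℕ}

lemma convex_Pd {m : ℕ} (R : Fin m → ℝ) : Convex ℝ (Pd R) := by
  have : Pd R = Set.pi univ fun i => Metric.ball (0 : ℂ) (R i) := by
    ext x; simp [Pd, Set.mem_pi]
  rw [this]
  exact convex_pi fun i _ => convex_ball _ _

/-- `∂₀h` is nowhere locally zero -/
lemma not_loc_zero (d : Dat n) (h1 : ∃ x ∈ Pd d.R, d0 d.h x ≠ 0) {a : Fin (n + 1) → ℂ}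
    (ha : a ∈ Pd d.R) : ¬ ∀ᶠ z in 𝓝 a, d0 d.h z = 0 := by
  intro hev
  obtain ⟨x, hx, hne⟩ := h1
  have h2 : AnalyticOnNhd ℂ (d0 d.h) (Pd d.R) := fun z hz => d.an_d0 hz
  have h3 := h2.eqOn_zero_of_preconnected_of_eventuallyEq_zero
    (convex_Pd d.R).isPreconnected ha hev
  exact hne (h3 hx)

/-- the complement of `U` in the polydisc is a null set -/
lemma null_compl (d : Dat n) (h1 : ∃ x ∈ Pd d.R, d0 d.h x ≠ 0) :
    volume (Pd d.R \ d.U) = 0 := by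
  refine measure_null_of_locally_null _ fun a ha => ?_
  have haP : a ∈ Pd d.R := ha.1
  obtain ⟨r, hr, hae⟩ := Local821.eventually_null_zero
    (volume : Measure (Fin (n + 1) → ℂ)) (d.an_d0 haP)
    (Filter.not_eventually.1 (not_loc_zero d h1 haP))
  rw [ae_restrict_iff' Metric.isOpen_ball.measurableSet, ae_iff] at hae
  refine ⟨Metric.ball a r ∩ (Pd d.R \ d.U), ?_, ?_⟩
  · exact inter_mem (mem_nhdsWithin_of_mem_nhds (Metric.ball_mem_nhds a hr)) self_mem_nhdsWithin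
  · refine measure_mono_null ?_ hae
    rintro z ⟨hz1, hz2, hz3⟩
    simp only [mem_ofPred_eq, Classical.not_imp, not_not]
    refine ⟨hz1, ?_⟩
    by_contra h
    exact hz3 ⟨hz2, h⟩

lemma lint_Pd (d : Dat n) (h1 : ∃ x ∈ Pd d.R, d0 d.h x ≠ 0) (G : (Fin (n + 1) → ℂ) → ℝ≥0∞) :
    ∫⁻ x in Pd d.R, G x = ∫⁻ x in d.U, G x := by
  have hsub : d.U ⊆ Pd d.R := fun x hx => hx.1
  have h2 : d.U =ᵐ[volume] Pd d.R := by
    refine Filter.EventuallyEq.symm ?_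
    refine (ae_eq_set.2 ⟨null_compl d h1, ?_⟩)
    rw [sdiff_eq_empty.2 hsub]
    exact measure_empty
  exact (setLIntegral_congr h2).symm

/-- the weight -/
def wt (d : Dat n) (r : ℝ) (F : (Fin (n + 1) → ℂ) → ℂ) (δ : ℝ) (c : ℕ)
    (x : Fin (n + 1) → ℂ) : ℝ :=
  ((‖d.h x‖ ^ 2 + r ^ 2) ^ 2)⁻¹ * ((‖F x‖ ^ 2 + δ) ^ c)⁻¹

section wts

variable {d : Dat n} {r : ℝ} {F : (Fin (n + 1) → ℂ) → ℂ} {δ : ℝ} {c : ℕ}

/-- `log (|h|² + r²)` -/
def Ps (d : Dat n) (r : ℝ) (x : MM d) : ℝ := lg (fun (_ : Unit) (x : MM d) => d.h x.v) (r ^ 2) x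

/-- `log |∂₀h|²` -/
def L0 (d : Dat n) (x : MM d) : ℝ := lg (fun (_ : Unit) (x : MM d) => d0 d.h x.v) 0 x

/-- `log (|F|² + δ)` -/
def LF (d : Dat n) (F : (Fin (n + 1) → ℂ) → ℂ) (δ : ℝ) (x : MM d) : ℝ :=
  lg (fun (_ : Unit) (x : MM d) => F x.v) δ x

lemma Ps_eq (x : MM d) : Ps d r x = Real.log (‖d.h x.v‖ ^ 2 + r ^ 2) := by
  simp [Ps, lg, nS]

lemma L0_eq (x : MM d) : L0 d x = Real.log (‖d0 d.h x.v‖ ^ 2) := by
  simp [L0, lg, nS]

lemma LF_eq (x : MM d) : LF d F δ x = Real.log (‖F x.v‖ ^ 2 + δ) := by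
  simp [LF, lg, nS]

lemma hol_F (hF : DifferentiableOn ℂ F (Pd d.R)) : W792.Hol (fun x : MM d => F x.v) :=
  hol_of _ (hol_v (hF.mono fun _ h => h.1))

lemma pos_Ps (hr : 0 < r) (x : MM d) :
    0 < nS (fun (_ : Unit) (x : MM d) => d.h x.v) x + r ^ 2 := by
  have := W792.nS_nonneg (fun (_ : Unit) (x : MM d) => d.h x.v) x
  positivity

lemma pos_L0 (x : MM d) :
    0 < nS (fun (_ : Unit) (x : MM d) => d0 d.h x.v) x + 0 := by
  have h1 : nS (fun (_ : Unit) (x : MM d) => d0 d.h x.v) x = ‖d0 d.h x.v‖ ^ 2 := by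
    simp [nS]
  rw [h1, add_zero]
  have := norm_pos_iff.2 x.mem.2
  positivity

lemma pos_LF (hδ : 0 < δ) (x : MM d) :
    0 < nS (fun (_ : Unit) (x : MM d) => F x.v) x + δ := by
  have := W792.nS_nonneg (fun (_ : Unit) (x : MM d) => F x.v) x
  positivity

lemma sm_Ps (hr : 0 < r) : Sm (Ps d r) := W792.sm_lg (fun _ => hol_h.sm) (pos_Ps hr)

lemma sm_L0 : Sm (L0 d) := W792.sm_lg (fun _ => hol_d0.sm) pos_L0

lemma sm_LF (hF : DifferentiableOn ℂ F (Pd d.R)) (hδ : 0 < δ) : Sm (LF d F δ) :=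
  W792.sm_lg (fun _ => (hol_F hF).sm) (pos_LF hδ)

/-- the weight `Φ` -/
def Ph (d : Dat n) (r : ℝ) (F : (Fin (n + 1) → ℂ) → ℂ) (δ : ℝ) (c : ℕ) (x : MM d) : ℝ :=
  Ps d r x + (L0 d x + (c : ℝ) * LF d F δ x)

lemma sm_cLF (hF : DifferentiableOn ℂ F (Pd d.R)) (hδ : 0 < δ) :
    Sm (fun x : MM d => (c : ℝ) * LF d F δ x) := (Sm.const _).mulR (sm_LF hF hδ)

lemma sm_Ph (hr : 0 < r) (hF : DifferentiableOn ℂ F (Pd d.R)) (hδ : 0 < δ) :
    Sm (Ph d r F δ c) := (sm_Ps hr).add (sm_L0.add (sm_cLF hF hδ))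

lemma levi_Ps (hr : 0 < r) (x : MM d) (w : Fin (n + 1) → ℂ) : 0 ≤ Levi (Ps d r) x w := by
  rw [W792.Levi_eq_lev (sm_Ps hr)]
  exact W792.lev_lg_nonneg (fun _ => hol_h) (by positivity) (pos_Ps hr) x w

lemma levi_Ph (hr : 0 < r) (hF : DifferentiableOn ℂ F (Pd d.R)) (hδ : 0 < δ) (x : MM d)
    (w : Fin (n + 1) → ℂ) : Levi (Ps d r) x w ≤ Levi (Ph d r F δ c) x w := by
  have h1 : Sm (fun x : MM d => L0 d x + (c : ℝ) * LF d F δ x) := sm_L0.add (sm_cLF hF hδ)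
  have h2 : Levi (Ph d r F δ c) x w =
      Levi (Ps d r) x w + Levi (fun x : MM d => L0 d x + (c : ℝ) * LF d F δ x) x w :=
    Levi_add (sm_Ps hr) h1 x w
  have h3 : Levi (fun x : MM d => L0 d x + (c : ℝ) * LF d F δ x) x w =
      Levi (L0 d) x w + Levi (fun x : MM d => (c : ℝ) * LF d F δ x) x w :=
    Levi_add sm_L0 (sm_cLF hF hδ) x w
  have h4 : 0 ≤ Levi (L0 d) x w := by
    rw [W792.Levi_eq_lev sm_L0]
    exact W792.lev_lg_nonneg (fun _ => hol_d0) le_rfl pos_L0 x w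
  have h5 : 0 ≤ Levi (fun x : MM d => (c : ℝ) * LF d F δ x) x w := by
    rw [W792.Levi_eq_lev (sm_cLF hF hδ), W792.lev_const_mul (sm_LF hF hδ)]
    have := W792.lev_lg_nonneg (fun (_ : Unit) => hol_F hF) hδ.le (pos_LF hδ) x w
    exact mul_nonneg (Nat.cast_nonneg _) this
  rw [h2, h3]
  linarith

lemma exp_Ph (hr : 0 < r) (hδ : 0 < δ) (x : MM d) : Real.exp (-Ph d r F δ c x) =
    (‖d.h x.v‖ ^ 2 + r ^ 2)⁻¹ * ((‖d0 d.h x.v‖ ^ 2)⁻¹ * ((‖F x.v‖ ^ 2 + δ) ^ c)⁻¹) := by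
  have h1 : 0 < ‖d.h x.v‖ ^ 2 + r ^ 2 := by positivity
  have h2 : 0 < ‖d0 d.h x.v‖ ^ 2 := by
    have := norm_pos_iff.2 x.mem.2
    positivity
  have h3 : 0 < ‖F x.v‖ ^ 2 + δ := by positivity
  unfold Ph
  rw [Ps_eq, L0_eq, LF_eq, neg_add, neg_add, Real.exp_add, Real.exp_add, Real.exp_neg, Real.exp_neg,
    Real.exp_neg, Real.exp_log h1, Real.exp_log h2, mul_comm (c : ℝ), Real.exp_mul,
    Real.exp_log h3, Real.rpow_natCast]

lemma exp_PhPs (hr : 0 < r) (hδ : 0 < δ) (x : MM d) :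
    Real.exp (-(Ph d r F δ c x + Ps d r x)) = (‖d0 d.h x.v‖ ^ 2)⁻¹ * wt d r F δ c x.v := by
  have h1 : 0 < ‖d.h x.v‖ ^ 2 + r ^ 2 := by positivity
  rw [neg_add, Real.exp_add, exp_Ph hr hδ, Ps_eq, Real.exp_neg, Real.exp_log h1]
  unfold wt
  rw [pow_two (‖d.h x.v‖ ^ 2 + r ^ 2), mul_inv]
  ring

end wts

/-- the class of functions which extend to the polydisc -/
def Cl (d : Dat n) (G : MM d → ℂ) : Prop :=
  ∃ G' : (Fin (n + 1) → ℂ) → ℂ, DifferentiableOn ℂ G' (Pd d.R) ∧ ∀ x : MM d, G x = G' x.v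

lemma Cl.hol {d : Dat n} {G : MM d → ℂ} (h : Cl d G) : Ho51.Hol G := by
  obtain ⟨G', h1, h2⟩ := h
  have : G = fun x => G' x.v := funext h2
  rw [this]
  exact hol_v (h1.mono fun _ h => h.1)

section main

variable {d : Dat n} {r : ℝ} {F : (Fin (n + 1) → ℂ) → ℂ} {δ : ℝ} {c : ℕ} {q : ℝ}
  [MeasurableSpace (MM d)] [BorelSpace (MM d)] {μ : Measure (MM d)}

lemma wt_pos (hr : 0 < r) (hδ : 0 < δ) (x : Fin (n + 1) → ℂ) : 0 < wt d r F δ c x := by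
  unfold wt
  positivity

lemma wt_cont (hr : 0 < r) (hF : DifferentiableOn ℂ F (Pd d.R)) (hδ : 0 < δ) :
    ContinuousOn (wt d r F δ c) (Pd d.R) := by
  unfold wt
  refine ContinuousOn.mul ?_ ?_
  · refine ContinuousOn.inv₀ (((d.hol.continuousOn.norm.pow 2).add continuousOn_const).pow 2) ?_
    intro x _
    have : 0 < ‖d.h x‖ ^ 2 + r ^ 2 := by positivity
    positivity
  · refine ContinuousOn.inv₀ (((hF.continuousOn.norm.pow 2).add continuousOn_const).pow c) ?_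
    intro x _
    have : 0 < ‖F x‖ ^ 2 + δ := by positivity
    positivity

lemma Nq_eq (hμ : IsLeb μ) (h1 : ∃ x ∈ Pd d.R, d0 d.h x ≠ 0) (hr : 0 < r) (hδ : 0 < δ)
    {G : MM d → ℂ}
    {G' : (Fin (n + 1) → ℂ) → ℂ} (hG : Continuous G) (hG' : ∀ x : MM d, G x = G' x.v)
    (hc : Continuous fun x : MM d => Ph d r F δ c x + Ps d r x) :
    Nq μ q (fun x => Ph d r F δ c x + Ps d r x) G =
      ∫⁻ x in Pd d.R, ENNReal.ofReal (‖G' x‖ ^ (2 * q) * wt d r F δ c x) := by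
  unfold Nq
  set g : (Fin (n + 1) → ℂ) → ℝ≥0∞ := fun x => ENNReal.ofReal (‖G' x‖ ^ (2 * q) *
    ((‖d0 d.h x‖ ^ 2)⁻¹ * wt d r F δ c x)) with hg
  have e1 : (fun x : MM d => ENNReal.ofReal (‖G x‖ ^ (2 * q) *
      Real.exp (-(Ph d r F δ c x + Ps d r x)))) = fun x : MM d => g x.v := by
    funext x
    simp only [hg]
    rw [exp_PhPs hr hδ, hG']
  have hm : Measurable (fun x : MM d => ENNReal.ofReal (‖G x‖ ^ (2 * q) *
      Real.exp (-(Ph d r F δ c x + Ps d r x)))) := by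
    have h2 : Measurable (fun x => ‖G x‖ ^ (2 * q)) := hG.norm.measurable.pow_const _
    exact (h2.mul (Real.continuous_exp.comp hc.neg).measurable).ennreal_ofReal
  rw [e1] at hm
  rw [lint_Pd d h1, show (fun x : MM d => ENNReal.ofReal (‖G x‖ ^ (2 * q) *
      Real.exp (-(Ph d r F δ c x + Ps d r x)))) = fun x : MM d => g x.v from e1]
  refine (lint_MM hμ hm).trans ?_
  refine setLIntegral_congr_fun d.isOpen_U.measurableSet fun x hx => ?_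
  have h3 : 0 < ‖d0 d.h x‖ ^ 2 := by
    have := norm_pos_iff.2 hx.2
    positivity
  have h4 := wt_pos (d := d) (F := F) (c := c) hr hδ x
  simp only [hg]
  rw [← ENNReal.ofReal_mul (by positivity)]
  congr 1
  have h5 := h3.ne'
  calc ‖G' x‖ ^ (2 * q) * ((‖d0 d.h x‖ ^ 2)⁻¹ * wt d r F δ c x) * ‖d0 d.h x‖ ^ 2
      = ‖G' x‖ ^ (2 * q) * wt d r F δ c x * ((‖d0 d.h x‖ ^ 2)⁻¹ * ‖d0 d.h x‖ ^ 2) := by ring
    _ = _ := by rw [inv_mul_cancel₀ h5, mul_one]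

/-- the class is stable under the `L²` step -/
lemma Cl_step (hμ : IsLeb μ) (h1 : ∃ x ∈ Pd d.R, d0 d.h x ≠ 0) (hr : 0 < r) (hδ : 0 < δ)
    (hF : DifferentiableOn ℂ F (Pd d.R)) (hq1 : q ≤ 1) {G F' : MM d → ℂ} (hG : Cl d G)
    (hF' : Ho51.Hol F')
    (hint : ∫⁻ x, ENNReal.ofReal (‖F' x‖ ^ 2 * Real.exp (-(Ph d r F δ c x + Ps d r x))) /
      ENNReal.ofReal (bq q G x) ∂μ ≠ ∞) : Cl d F' := by
  have hGh := hG.hol
  obtain ⟨G', hG', hGG⟩ := hG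
  have hc : Continuous fun x : MM d => Ph d r F δ c x + Ps d r x :=
    (sm_Ph hr hF hδ).continuous.add (sm_Ps hr).continuous
  have hFc : Continuous F' := (hol_of _ hF').sm.continuous
  have hGc : Continuous G := (hol_of _ hGh).sm.continuous
  set g0 : (Fin (n + 1) → ℂ) → ℝ≥0∞ := fun x => ENNReal.ofReal (‖ex F' x‖ ^ 2 *
    ((‖d0 d.h x‖ ^ 2)⁻¹ * wt d r F δ c x)) / ENNReal.ofReal (‖G' x‖ ^ (2 * (1 - q))) with hg0
  have e1 : (fun x : MM d => ENNReal.ofReal (‖F' x‖ ^ 2 *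
      Real.exp (-(Ph d r F δ c x + Ps d r x))) / ENNReal.ofReal (bq q G x)) =
      fun x : MM d => g0 x.v := by
    funext x
    simp only [hg0]
    rw [exp_PhPs hr hδ, ex_v]
    unfold bq
    rw [hGG]
  have hm : Measurable (fun x : MM d => ENNReal.ofReal (‖F' x‖ ^ 2 *
      Real.exp (-(Ph d r F δ c x + Ps d r x))) / ENNReal.ofReal (bq q G x)) := by
    have h2 : Measurable (fun x => bq q G x) := hGc.norm.measurable.pow_const _
    exact (((hFc.norm.pow 2).mul (Real.continuous_exp.comp hc.neg)).measurable.ennreal_ofReal).div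
      h2.ennreal_ofReal
  rw [e1] at hm
  rw [show (fun x : MM d => ENNReal.ofReal (‖F' x‖ ^ 2 *
      Real.exp (-(Ph d r F δ c x + Ps d r x))) / ENNReal.ofReal (bq q G x)) =
      fun x : MM d => g0 x.v from e1] at hint
  have hint : ∫⁻ x in d.U, g0 x * ENNReal.ofReal (‖d0 d.h x‖ ^ 2) ≠ ∞ :=
    (lint_MM hμ hm) ▸ hint
  obtain ⟨g, hg, hgf⟩ := RExt747.riemann_ext (f := ex F') (D := d0 d.h) (U := Pd d.R) (isOpen_Pd d.R)
    (fun z hz => d.an_d0 hz) (fun a ha => not_loc_zero d h1 ha)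
    ((diff_ex hF').mono fun z hz => ⟨hz.1, hz.2⟩) (by
      intro a ha
      obtain ⟨W, hWn, hWc, hWP⟩ := exists_mem_nhds_isCompact_mapsTo
        (f := (id : (Fin (n + 1) → ℂ) → _)) (x := a) continuous_id ((isOpen_Pd d.R).mem_nhds ha)
      have hWP' : W ⊆ Pd d.R := fun z hz => hWP hz
      have haW : a ∈ W := mem_of_mem_nhds hWn
      obtain ⟨z0, hz0, hz0m⟩ := hWc.exists_isMinOn ⟨a, haW⟩ ((wt_cont (c := c) hr hF hδ).mono hWP')
      set m := wt d r F δ c z0 with hm0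
      have hmpos : 0 < m := wt_pos hr hδ z0
      have hmle : ∀ z ∈ W, m ≤ wt d r F δ c z := fun z hz => hz0m hz
      have hbc : ContinuousOn (fun z => ‖G' z‖ ^ (2 * (1 - q))) W :=
        (hG'.continuousOn.mono hWP').norm.rpow_const fun _ _ => Or.inr (by linarith)
      obtain ⟨z1, hz1, hz1m⟩ := hWc.exists_isMaxOn ⟨a, haW⟩ hbc
      set B := max (‖G' z1‖ ^ (2 * (1 - q))) 1 with hB
      have hBpos : 0 < B := lt_of_lt_of_le one_pos (le_max_right _ _)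
      have hBle : ∀ z ∈ W, ‖G' z‖ ^ (2 * (1 - q)) ≤ B := fun z hz => (hz1m hz).trans (le_max_left _ _)
      refine ⟨W, hWn, ?_⟩
      have hWm : MeasurableSet (W ∩ {z | d0 d.h z ≠ 0}) := by
        have h2 : W ∩ {z | d0 d.h z ≠ 0} = W ∩ d.U := by
          ext z
          simp only [mem_inter_iff, mem_ofPred_eq, Dat.U]
          constructor
          · rintro ⟨h3, h4⟩
            exact ⟨h3, hWP' h3, h4⟩
          · rintro ⟨h3, _, h4⟩
            exact ⟨h3, h4⟩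
        rw [h2]
        exact hWc.measurableSet.inter d.isOpen_U.measurableSet
      have hpt : ∀ z ∈ W ∩ {z | d0 d.h z ≠ 0}, ‖ex F' z‖ₑ ^ 2 ≤ ENNReal.ofReal (B / m) *
          (g0 z * ENNReal.ofReal (‖d0 d.h z‖ ^ 2)) := by
        rintro z ⟨hz, hz'⟩
        have hdpos : 0 < ‖d0 d.h z‖ ^ 2 := by
          have := norm_pos_iff.2 hz'
          positivity
        have h5 : ENNReal.ofReal (‖ex F' z‖ ^ 2 * ((‖d0 d.h z‖ ^ 2)⁻¹ * m)) / ENNReal.ofReal B ≤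
            g0 z := by
          simp only [hg0]
          refine ENNReal.div_le_div (ENNReal.ofReal_le_ofReal ?_)
            (ENNReal.ofReal_le_ofReal (hBle z hz))
          have := hmle z hz
          gcongr
        calc ‖ex F' z‖ₑ ^ 2 = ENNReal.ofReal (‖ex F' z‖ ^ 2) := by
              rw [← ofReal_norm, ENNReal.ofReal_pow (norm_nonneg _)]
          _ = ENNReal.ofReal (B / m) * (ENNReal.ofReal (‖ex F' z‖ ^ 2 *
              ((‖d0 d.h z‖ ^ 2)⁻¹ * m)) / ENNReal.ofReal B * ENNReal.ofReal (‖d0 d.h z‖ ^ 2)) := by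
              rw [← ENNReal.ofReal_div_of_pos hBpos, ← ENNReal.ofReal_mul (by positivity),
                ← ENNReal.ofReal_mul (by positivity)]
              congr 1
              have h6 := hdpos.ne'
              have h7 : ‖ex F' z‖ ^ 2 = ‖ex F' z‖ ^ 2 * (B / m * (m / B)) *
                  ((‖d0 d.h z‖ ^ 2)⁻¹ * ‖d0 d.h z‖ ^ 2) := by
                rw [inv_mul_cancel₀ h6, div_mul_div_cancel₀ hmpos.ne', div_self hBpos.ne']
                ring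
              refine h7.trans ?_
              ring
          _ ≤ _ := by gcongr
      calc ∫⁻ z in W ∩ {z | d0 d.h z ≠ 0}, ‖ex F' z‖ₑ ^ 2
          ≤ ∫⁻ z in W ∩ {z | d0 d.h z ≠ 0}, ENNReal.ofReal (B / m) *
          (g0 z * ENNReal.ofReal (‖d0 d.h z‖ ^ 2)) :=
            setLIntegral_mono' hWm hpt
        _ = ENNReal.ofReal (B / m) * ∫⁻ z in W ∩ {z | d0 d.h z ≠ 0},
          (g0 z * ENNReal.ofReal (‖d0 d.h z‖ ^ 2)) :=
            lintegral_const_mul' _ _ ENNReal.ofReal_ne_top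
        _ ≤ ENNReal.ofReal (B / m) * ∫⁻ z in d.U,
          (g0 z * ENNReal.ofReal (‖d0 d.h z‖ ^ 2)) := by
            gcongr
            rintro z ⟨hz1, hz2⟩
            exact ⟨hWP' hz1, hz2⟩
        _ < ⊤ := ENNReal.mul_lt_top ENNReal.ofReal_lt_top hint.lt_top)
  refine ⟨g, hg, fun x => ?_⟩
  rw [hgf x.v x.mem.1 x.mem.2, ex_v]

end main

lemma Sh_const_mul (d : Dat n) {a : ℝ≥0∞} (ha : a ≠ ∞) (g : (Fin (n + 1) → ℂ) → ℝ≥0∞) :
    Sh d (fun x => a * g x) = a * Sh d g := by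
  unfold Sh
  rw [← lintegral_const_mul' _ _ ha]
  refine lintegral_congr fun x' => ?_
  rw [ENNReal.tsum_mul_left]

lemma Sh_congr (d : Dat n) {g g' : (Fin (n + 1) → ℂ) → ℝ≥0∞}
    (h : ∀ x ∈ d.U, d.h x = 0 → g x = g' x) : Sh d g = Sh d g' := by
  unfold Sh
  refine lintegral_congr fun x' => tsum_congr fun z => h _ z.2.1 z.2.2

/-- **(D2)** `L^{2q}` extension from `{h = 0, ∂₀h ≠ 0}` to the polydisc, `0 < q ≤ 1` -/
theorem d2 (d : Dat n) (h1 : ∃ x ∈ Pd d.R, d0 d.h x ≠ 0) {r : ℝ} (hr : 0 < r)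
    {F : (Fin (n + 1) → ℂ) → ℂ} (hF : DifferentiableOn ℂ F (Pd d.R)) {δ : ℝ} (hδ : 0 < δ) (c : ℕ)
    {q : ℝ} (hq0 : 0 < q) (hq1 : q ≤ 1) {G0 : (Fin (n + 1) → ℂ) → ℂ}
    (hG0 : DifferentiableOn ℂ G0 (Pd d.R))
    (hN0 : ∫⁻ x in Pd d.R, ENNReal.ofReal (‖G0 x‖ ^ (2 * q) * wt d r F δ c x) ≠ ∞)
    {K : ℝ≥0∞} (hKt : K ≠ ∞)
    (hK : Sh d (fun x => ENNReal.ofReal (‖G0 x‖ ^ (2 * q) *
      ((‖d0 d.h x‖ ^ 2)⁻¹ * ((‖F x‖ ^ 2 + δ) ^ c)⁻¹))) ≤ K)
    {K' : ℝ≥0∞} (hK' : ENNReal.ofReal (Cot 1 * Real.pi * (r ^ 2)⁻¹) * K < K') :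
    ∃ G : (Fin (n + 1) → ℂ) → ℂ, DifferentiableOn ℂ G (Pd d.R) ∧
      (∀ x ∈ d.U, d.h x = 0 → G x = G0 x) ∧
      ∫⁻ x in Pd d.R, ENNReal.ofReal (‖G x‖ ^ (2 * q) * wt d r F δ c x) ≤ K' := by
  let _ : MeasurableSpace (MM d) := borel _
  have _ : BorelSpace (MM d) := ⟨rfl⟩
  let _ : MeasurableSpace (Hs (MM d) 0) := borel _
  have _ : BorelSpace (Hs (MM d) 0) := ⟨rfl⟩
  obtain ⟨μ, hμ⟩ := exists_leb (M := MM d)
  obtain ⟨μD, hμD⟩ := exists_leb (M := Hs (MM d) 0)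
  have hC0 : 0 ≤ Cot 1 := Crest.Agent.R273.OTE_34.Cot_nonneg 1
  have hc : Continuous fun x : MM d => Ph d r F δ c x + Ps d r x :=
    (sm_Ph hr hF hδ).continuous.add (sm_Ps hr).continuous
  set G0' : MM d → ℂ := fun x => G0 x.v with hG0'
  have hCl : Cl d G0' := ⟨G0, hG0, fun _ => rfl⟩
  have hG0c : Continuous G0' := (hol_of _ hCl.hol).sm.continuous
  -- the slice integral
  have hsl : ∫⁻ y : Hs (MM d) 0, ENNReal.ofReal (‖G0' (ι y)‖ ^ (2 * q) *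
      Real.exp (-Ph d r F δ c (ι y))) ∂μD ≤ ENNReal.ofReal ((r ^ 2)⁻¹) * K := by
    set g : (Fin (n + 1) → ℂ) → ℝ≥0∞ := fun x => ENNReal.ofReal (‖G0 x‖ ^ (2 * q) *
      ((‖d.h x‖ ^ 2 + r ^ 2)⁻¹ * ((‖d0 d.h x‖ ^ 2)⁻¹ * ((‖F x‖ ^ 2 + δ) ^ c)⁻¹))) with hg
    have e1 : (fun y : Hs (MM d) 0 => ENNReal.ofReal (‖G0' (ι y)‖ ^ (2 * q) *
      Real.exp (-Ph d r F δ c (ι y)))) = fun y : Hs (MM d) 0 => g (ι y).v := by
      funext y
      simp only [hg, hG0']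
      rw [exp_Ph hr hδ]
    have hm : Measurable (fun y : Hs (MM d) 0 => g (ι y).v) := by
      rw [← e1]
      have h2 : Measurable (fun y : Hs (MM d) 0 => ‖G0' (ι y)‖ ^ (2 * q)) :=
        (hG0c.comp continuous_ι).norm.measurable.pow_const _
      exact (h2.mul (Real.continuous_exp.comp ((sm_Ph hr hF hδ).continuous.comp
        continuous_ι).neg).measurable).ennreal_ofReal
    rw [show (fun y : Hs (MM d) 0 => ENNReal.ofReal (‖G0' (ι y)‖ ^ (2 * q) *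
      Real.exp (-Ph d r F δ c (ι y)))) = fun y : Hs (MM d) 0 => g (ι y).v from e1,
      lint_slice hμD hm, Sh_congr d (g' := fun x => ENNReal.ofReal ((r ^ 2)⁻¹) *
        ENNReal.ofReal (‖G0 x‖ ^ (2 * q) *
          ((‖d0 d.h x‖ ^ 2)⁻¹ * ((‖F x‖ ^ 2 + δ) ^ c)⁻¹))) ?_,
      Sh_const_mul d ENNReal.ofReal_ne_top]
    · gcongr
    · intro x _ hx
      simp only [hg]
      rw [hx, ← ENNReal.ofReal_mul (by positivity)]
      congr 1
      rw [norm_zero]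
      ring
  obtain ⟨G, ⟨G', hG', hGG⟩, hG0eq, hGN⟩ := otp (a := (0 : Fin (n + 1) → ℂ)) hμ hμD (ρ := rh d)
    sm_rh compact_rh levi_rh (Ψ := Ps d r) (Φ := Ph d r F δ c) (sm_Ps hr) (sm_Ph hr hF hδ)
    (fun x => by
      rw [ell_MM, Ps_eq, Real.exp_log (by positivity)]
      have : 0 ≤ r ^ 2 := by positivity
      linarith)
    (levi_Ps hr) (levi_Ph hr hF hδ) hq0 hq1 (Cl d) (fun G hG => hG.hol)
    (fun G F' hG hF' hint => Cl_step hμ h1 hr hδ hF hq1 hG hF' hint) hCl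
    (by rw [Nq_eq hμ h1 hr hδ hG0c (fun _ => rfl) hc]; exact hN0)
    (K := ENNReal.ofReal ((r ^ 2)⁻¹) * K) (ENNReal.mul_ne_top ENNReal.ofReal_ne_top hKt) hsl
    (K' := K') (by
      rw [← mul_assoc, ← ENNReal.ofReal_mul (by positivity)]
      exact hK')
  refine ⟨G', hG', fun x hx hx0 => ?_, ?_⟩
  · have h2 := hG0eq (mk x hx) (by rw [ell_MM]; exact hx0)
    rw [hGG] at h2
    exact h2
  · have hGc : Continuous G := (hol_of _ (Cl.hol ⟨G', hG', hGG⟩)).sm.continuous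
    rw [Nq_eq hμ h1 hr hδ hGc hGG hc] at hGN
    exact hGN

end Crest.Agent.R257.OtK_331
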