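import Crest.Agent.R257.OtKF_331
import Crest.Agent.R264.Montel
import Crest.Agent.R276.Sub_185

/-!
R257 / OtKG_331 (helper331): D5/D6 of BP-D, part 2: local bounds of the Weierstrass remainders,
Montel, and the limit `r → 0`.
-/

set_option autoImplicit false
set_option linter.unusedSectionVars false

open Set Filter Topology Metric Complex MeasureTheory
open scoped ENNReal
open Crest.Agent.R275.Loc2879

noncomputable section

namespace Crest.Agent.R257.OtK_331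

universe u

section slices

variable {E : Type u} [NormedAddCommGroup E] [NormedSpace ℂ E]

/-- a Weierstrass box for `F` with an eliminant `D` -/
structure Bx [FiniteDimensional ℂ E] (F : E × ℂ → ℂ) (N : ℕ) (r ρ L : ℝ) (D : E → ℂ) : Prop where
  r_pos : 0 < r
  ρ_pos : 0 < ρ
  an : AnalyticOnNhd ℂ F (ball 0 ρ ×ˢ closedBall 0 r)
  gd : ball 0 ρ ⊆ good r N F (ball 0 ρ)
  ne : ∀ b ∈ ball (0 : E) ρ, ∀ z : ℂ, r / 2 ≤ ‖z‖ → ‖z‖ ≤ r → F (b, z) ≠ 0
  L_pos : 0 < L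
  bd : ∀ b ∈ ball (0 : E) ρ, ∀ z ∈ closedBall (0 : ℂ) r, ‖dz F (b, z)‖ ≤ L
  Dan : AnalyticOnNhd ℂ D (ball 0 ρ)
  Dne : ¬ ∀ᶠ b in 𝓝 (0 : E), D b = 0
  Dz : ∀ b ∈ ball (0 : E) ρ, D b ≠ 0 → ∀ z ∈ closedBall (0 : ℂ) r, F (b, z) = 0 →
    dz F (b, z) ≠ 0

/-- the tube `{|F| < s}` -/
def tube (F : E × ℂ → ℂ) (ρ r s : ℝ) : Set (E × ℂ) :=
  {p | p ∈ ball (0 : E) ρ ×ˢ ball (0 : ℂ) r ∧ ‖F p‖ < s}

theorem isOpen_tube {F : E × ℂ → ℂ} {ρ r s : ℝ}
    (hF : ContinuousOn F (ball (0 : E) ρ ×ˢ ball (0 : ℂ) r)) : IsOpen (tube F ρ r s) := by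
  have ho : IsOpen (ball (0 : E) ρ ×ˢ ball (0 : ℂ) r) := isOpen_ball.prod isOpen_ball
  have h1 : tube F ρ r s = (ball (0 : E) ρ ×ˢ ball (0 : ℂ) r) ∩ (F ⁻¹' ball 0 s) := by
    ext p
    simp only [tube, mem_ofPred_eq, mem_inter_iff, mem_preimage, mem_ball_zero_iff]
  rw [h1]
  exact hF.isOpen_inter_preimage ho isOpen_ball

open Classical in
/-- the fibre integral over the tube -/
def Jt (F : E × ℂ → ℂ) (ρ r s q : ℝ) (G : E × ℂ → ℂ) (b : E) : ℝ≥0∞ :=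
  ∫⁻ w : ℂ, (tube F ρ r s).indicator (fun p => ‖G p‖ₑ ^ q) (b, w)

theorem measurable_ind [MeasurableSpace E] [BorelSpace E] [FiniteDimensional ℂ E]
    {F G : E × ℂ → ℂ} {ρ r s q : ℝ}
    (hF : ContinuousOn F (ball (0 : E) ρ ×ˢ ball (0 : ℂ) r))
    (hG : ContinuousOn G (ball (0 : E) ρ ×ˢ ball (0 : ℂ) r)) :
    Measurable ((tube F ρ r s).indicator (fun p => ‖G p‖ₑ ^ q)) := by
  classical
  have : ProperSpace E := FiniteDimensional.proper ℂ E
  have ho := isOpen_tube (s := s) hF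
  have hsub : tube F ρ r s ⊆ ball (0 : E) ρ ×ˢ ball (0 : ℂ) r := fun p hp => hp.1
  have h1 : ContinuousOn (fun p => ‖G p‖ₑ ^ q) (tube F ρ r s) :=
    (ENNReal.continuous_rpow_const).comp_continuousOn ((hG.mono hsub).enorm)
  rw [← piecewise_eq_indicator]
  exact ContinuousOn.measurable_piecewise h1 continuousOn_const ho.measurableSet

theorem measurable_Jt [MeasurableSpace E] [BorelSpace E] [FiniteDimensional ℂ E]
    {F G : E × ℂ → ℂ} {ρ r s q : ℝ}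
    (hF : ContinuousOn F (ball (0 : E) ρ ×ˢ ball (0 : ℂ) r))
    (hG : ContinuousOn G (ball (0 : E) ρ ×ˢ ball (0 : ℂ) r)) :
    Measurable (Jt F ρ r s q G) := by
  exact (measurable_ind hF hG).lintegral_prod_right'

theorem lint_Jt [MeasurableSpace E] [BorelSpace E] [FiniteDimensional ℂ E]
    (μ : Measure E) [μ.IsAddHaarMeasure] {F G : E × ℂ → ℂ} {ρ r s q : ℝ}
    (hF : ContinuousOn F (ball (0 : E) ρ ×ˢ ball (0 : ℂ) r))
    (hG : ContinuousOn G (ball (0 : E) ρ ×ˢ ball (0 : ℂ) r)) :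
    ∫⁻ b, Jt F ρ r s q G b ∂μ = ∫⁻ p in tube F ρ r s, ‖G p‖ₑ ^ q ∂(μ.prod volume) := by
  have : ProperSpace E := FiniteDimensional.proper ℂ E
  have : SFinite μ := inferInstance
  rw [← lintegral_indicator (isOpen_tube hF).measurableSet,
    lintegral_prod _ (measurable_ind hF hG).aemeasurable]
  rfl

/-- finitely many disjoint discs in the tube -/
theorem discs {F G : E × ℂ → ℂ} {ρ r s q : ℝ} (hq : 0 < q) {b : E} {S : Finset ℂ} {τ : ℂ → ℝ}
    (hS : ∀ z ∈ S, ∀ w ∈ ball z (τ z), (b, w) ∈ tube F ρ r s)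
    (hd : ∀ z ∈ S, ∀ z' ∈ S, z ≠ z' → Disjoint (ball z (τ z)) (ball z' (τ z')))
    (hG : ∀ z ∈ S, DifferentiableOn ℂ (fun w => G (b, w)) (ball z (τ z))) :
    ∑ z ∈ S, ‖G (b, z)‖ₑ ^ q * volume (ball (0 : ℂ) (τ z)) ≤ Jt F ρ r s q G b := by
  classical
  calc ∑ z ∈ S, ‖G (b, z)‖ₑ ^ q * volume (ball (0 : ℂ) (τ z))
      ≤ ∑ z ∈ S, ∫⁻ w in ball z (τ z), ‖G (b, w)‖ₑ ^ q := by
        refine Finset.sum_le_sum fun z hz => ?_
        exact Crest.Agent.R276.Sub_185.mul_measure_le' volume (hG z hz) hq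
    _ = ∑ z ∈ S, ∫⁻ w in ball z (τ z), (tube F ρ r s).indicator (fun p => ‖G p‖ₑ ^ q) (b, w) := by
        refine Finset.sum_congr rfl fun z hz => ?_
        refine setLIntegral_congr_fun measurableSet_ball fun w hw => ?_
        simp only [indicator_of_mem (hS z hz w hw)]
    _ = ∫⁻ w in ⋃ z ∈ S, ball z (τ z),
          (tube F ρ r s).indicator (fun p => ‖G p‖ₑ ^ q) (b, w) := by
        rw [lintegral_biUnion_finset (fun z hz z' hz' hne => hd z hz z' hz' hne)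
          (fun z _ => measurableSet_ball)]
    _ ≤ Jt F ρ r s q G b := setLIntegral_le_lintegral _ _

theorem Bx.lip [FiniteDimensional ℂ E] {F : E × ℂ → ℂ} {N : ℕ} {r ρ L : ℝ} {D : E → ℂ}
    (B : Bx F N r ρ L D) {b : E} (hb : b ∈ ball (0 : E) ρ) {z w : ℂ} (hz : z ∈ closedBall (0 : ℂ) r)
    (hw : w ∈ closedBall (0 : ℂ) r) : ‖F (b, w) - F (b, z)‖ ≤ L * ‖w - z‖ := by
  refine (convex_closedBall (0 : ℂ) r).norm_image_sub_le_of_norm_hasDerivWithin_le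
    (f := fun w => F (b, w)) (f' := fun w => dz F (b, w)) ?_ ?_ hz hw
  · intro x hx
    exact (hasDerivAt_dz (B.an (b, x) ⟨hb, hx⟩).differentiableAt).hasDerivWithinAt
  · intro x hx
    exact B.bd b hb x hx

/-- all zeros are in the half disc -/
theorem Bx.half [FiniteDimensional ℂ E] {F : E × ℂ → ℂ} {N : ℕ} {r ρ L : ℝ} {D : E → ℂ}
    (B : Bx F N r ρ L D) {b : E} (hb : b ∈ ball (0 : E) ρ) {z : ℂ} (hz : z ∈ closedBall (0 : ℂ) r)
    (h0 : F (b, z) = 0) : ‖z‖ < r / 2 := by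
  by_contra hcon
  exact B.ne b hb z (not_lt.1 hcon) (mem_closedBall_zero_iff.1 hz) h0

/-- value at one zero -/
theorem Bx.sub1 [FiniteDimensional ℂ E] {F G : E × ℂ → ℂ} {N : ℕ} {r ρ L : ℝ} {D : E → ℂ}
    (B : Bx F N r ρ L D) {q s : ℝ} (hq : 0 < q)
    (hG : AnalyticOnNhd ℂ G (ball 0 ρ ×ˢ closedBall 0 r))
    (hs1 : s ≤ L * (r / 2)) {b : E} (hb : b ∈ ball (0 : E) ρ) {z : ℂ}
    (hz : z ∈ closedBall (0 : ℂ) r) (h0 : F (b, z) = 0) :
    ‖G (b, z)‖ₑ ^ q * volume (ball (0 : ℂ) (s / L)) ≤ Jt F ρ r s q G b := by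
  have hz2 := B.half hb hz h0
  have hsL : s / L ≤ r / 2 := by
    rw [div_le_iff₀ B.L_pos]; linarith [mul_comm L (r / 2)]
  have hsub : ∀ w ∈ ball z (s / L), w ∈ ball (0 : ℂ) r := by
    intro w hw
    rw [mem_ball_iff_norm] at hw
    rw [mem_ball_zero_iff]
    calc ‖w‖ = ‖(w - z) + z‖ := by congr 1; ring
      _ ≤ ‖w - z‖ + ‖z‖ := norm_add_le _ _
      _ < s / L + r / 2 := by linarith
      _ ≤ r := by linarith
  have h := discs (F := F) (G := G) (ρ := ρ) (r := r) (s := s) hq (b := b) (S := {z})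
    (τ := fun _ => s / L) ?_ ?_ ?_
  · simpa using h
  · intro z' hz' w hw
    rw [Finset.mem_singleton] at hz'
    subst hz'
    refine ⟨⟨hb, hsub w hw⟩, ?_⟩
    have h1 := B.lip hb hz (ball_subset_closedBall (hsub w hw))
    rw [h0, sub_zero] at h1
    rw [mem_ball_iff_norm, lt_div_iff₀ B.L_pos] at hw
    linarith [mul_comm L ‖w - z'‖]
  · intro z1 h1 z2 h2 hne
    rw [Finset.mem_singleton] at h1 h2
    exact absurd (h1.trans h2.symm) hne
  · intro z' hz' w hw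
    rw [Finset.mem_singleton] at hz'
    subst hz'
    exact (analyticAt_slice (hG (b, w)
      ⟨hb, ball_subset_closedBall (hsub w hw)⟩)).differentiableAt.differentiableWithinAt

end slices

end Crest.Agent.R257.OtK_331
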