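import Crest.Agent.R257.OtKG_331

/-!
R257 / OtKH_331 (helper331): D5/D6 of BP-D, part 3: uniform bounds of the Weierstrass remainders.
-/

set_option autoImplicit false
set_option linter.unusedSectionVars false

open Set Filter Topology Metric Complex MeasureTheory
open scoped ENNReal
open Crest.Agent.R275.Loc2879

noncomputable section

namespace Crest.Agent.R257.OtK_331

universe u

variable {E : Type u} [NormedAddCommGroup E] [NormedSpace ℂ E] [FiniteDimensional ℂ E]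
variable {F : E × ℂ → ℂ} {N : ℕ} {r ρ L : ℝ} {D : E → ℂ}

/-- the vector of remainder coefficients -/
def rv (r : ℝ) (N : ℕ) (F G : E × ℂ → ℂ) (b : E) : Fin N → ℂ := fun j => rmd r N F G j b

theorem Bx.rv_diff (B : Bx F N r ρ L D) {G : E × ℂ → ℂ}
    (hG : AnalyticOnNhd ℂ G (ball 0 ρ ×ˢ closedBall 0 r)) :
    DifferentiableOn ℂ (rv r N F G) (ball 0 ρ) := by
  intro b hb
  refine (differentiableAt_pi.2 fun j => ?_).differentiableWithinAt
  exact (analyticOnNhd_rmd isOpen_ball B.an hG j b (B.gd hb)).differentiableAt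

theorem Bx.rv_eq (B : Bx F N r ρ L D) {G : E × ℂ → ℂ}
    (hG : AnalyticOnNhd ℂ G (ball 0 ρ ×ˢ closedBall 0 r)) {b : E} (hb : b ∈ ball (0 : E) ρ)
    {z : ℂ} (hz : z ∈ closedBall (0 : ℂ) r) (h0 : F (b, z) = 0) :
    G (b, z) = pv (rv r N F G b) z := by
  rw [div_eq B.an hG (B.gd hb) hz, h0, mul_zero, zero_add]
  rfl

theorem vol_eq {s L : ℝ} (hs : 0 < s) (hL : 0 < L) : volume (ball (0 : ℂ) (s / L)) =
    ENNReal.ofReal (s ^ 2) * (ENNReal.ofReal ((L ^ 2)⁻¹) * NNReal.pi) := by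
  rw [Complex.volume_ball, ← mul_assoc, ← ENNReal.ofReal_mul (by positivity),
    ← ENNReal.ofReal_pow (by positivity)]
  congr 2
  rw [div_pow]; ring

variable [MeasurableSpace E] [BorelSpace E]

theorem Bx.locbd (B : Bx F N r ρ L D) (μ : Measure E) [μ.IsAddHaarMeasure] {q : ℝ} (hq : 0 < q)
    {C : ℝ≥0∞} (hC : C ≠ ∞) {b1 : E} (hb1 : b1 ∈ ball (0 : E) ρ) (hD : D b1 ≠ 0) :
    ∃ M : ℝ, ∃ V ∈ 𝓝 b1, ∀ (G : E × ℂ → ℂ) (s : ℝ),
      AnalyticOnNhd ℂ G (ball 0 ρ ×ˢ closedBall 0 r) → 0 < s → s ≤ L * (r / 2) →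
      ∫⁻ p in tube F ρ r s, ‖G p‖ₑ ^ q ∂(μ.prod volume) ≤ ENNReal.ofReal (s ^ 2) * C →
      ∀ b ∈ V, ‖rv r N F G b‖ ≤ M := by
  have : ProperSpace E := FiniteDimensional.proper ℂ E
  obtain ⟨K, hK, hlow⟩ := lower B.an (B.gd hb1) (B.Dz b1 hb1 hD) (fun z hz h0 => by
    have := B.half hb1 hz h0
    rw [mem_ball_zero_iff]; linarith [B.r_pos])
  obtain ⟨τ2, hτ2, hball⟩ := Metric.mem_nhds_iff.1
    (inter_mem hlow (isOpen_ball.mem_nhds hb1))
  set τ : ℝ := τ2 / 2 with hτ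
  have hτ0 : 0 < τ := by positivity
  have h2τ : 2 * τ = τ2 := by rw [hτ]; ring
  set c1 : ℝ≥0∞ := ENNReal.ofReal ((L ^ 2)⁻¹) * NNReal.pi with hc1
  have hL := B.L_pos
  have hc10 : c1 ≠ 0 := by
    rw [hc1]
    refine mul_ne_zero ?_ ?_
    · rw [Ne, ENNReal.ofReal_eq_zero, not_le]; positivity
    · exact_mod_cast NNReal.pi_ne_zero
  have hc1t : c1 ≠ ∞ := ENNReal.mul_ne_top ENNReal.ofReal_ne_top ENNReal.coe_ne_top
  set M1 : ℝ≥0∞ := ENNReal.ofReal K ^ q * C / c1 with hM1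
  have hM1t : M1 ≠ ∞ := ENNReal.div_ne_top
    (ENNReal.mul_ne_top (ENNReal.rpow_ne_top_of_nonneg hq.le ENNReal.ofReal_ne_top) hC) hc10
  have hμ0 : μ (ball (0 : E) τ) ≠ 0 := (measure_ball_pos μ _ hτ0).ne'
  have hμt : μ (ball (0 : E) τ) ≠ ∞ := measure_ball_lt_top.ne
  set M2 : ℝ≥0∞ := M1 / μ (ball (0 : E) τ) with hM2
  have hM2t : M2 ≠ ∞ := ENNReal.div_ne_top hM1t hμ0
  refine ⟨(M2 ^ (1 / q)).toReal, ball b1 τ, ball_mem_nhds _ hτ0, fun G s hG hs hs1 hI b hb => ?_⟩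
  have hcF : ContinuousOn F (ball (0 : E) ρ ×ˢ ball (0 : ℂ) r) :=
    B.an.continuousOn.mono (prod_mono Subset.rfl ball_subset_closedBall)
  have hcG : ContinuousOn G (ball (0 : E) ρ ×ˢ ball (0 : ℂ) r) :=
    hG.continuousOn.mono (prod_mono Subset.rfl ball_subset_closedBall)
  have h1 : ∀ b ∈ ball b1 τ2, ‖rv r N F G b‖ₑ ^ q * (ENNReal.ofReal (s ^ 2) * c1) ≤
      ENNReal.ofReal K ^ q * Jt F ρ r s q G b := by
    intro b hb
    obtain ⟨hbl, hbρ⟩ := hball hb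
    rcases eq_or_ne (rv r N F G b) 0 with hc | hc
    · rw [hc, enorm_zero, ENNReal.zero_rpow_of_pos hq, zero_mul]; exact zero_le
    obtain ⟨z, hz, hz0, hle⟩ := hbl (rv r N F G b) hc
    have hz' := ball_subset_closedBall hz
    rw [← B.rv_eq hG hbρ hz' hz0] at hle
    have h2 : ‖rv r N F G b‖ₑ ≤ ENNReal.ofReal K * ‖G (b, z)‖ₑ := by
      rw [← ofReal_norm, ← ofReal_norm, ← ENNReal.ofReal_mul hK.le]
      exact ENNReal.ofReal_le_ofReal hle
    have h3 := B.sub1 hq hG hs1 hbρ hz' hz0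
    rw [vol_eq hs hL] at h3
    calc ‖rv r N F G b‖ₑ ^ q * (ENNReal.ofReal (s ^ 2) * c1)
        ≤ (ENNReal.ofReal K * ‖G (b, z)‖ₑ) ^ q * (ENNReal.ofReal (s ^ 2) * c1) := by
          gcongr
      _ = ENNReal.ofReal K ^ q * (‖G (b, z)‖ₑ ^ q * (ENNReal.ofReal (s ^ 2) * c1)) := by
          rw [ENNReal.mul_rpow_of_nonneg _ _ hq.le, mul_assoc]
      _ ≤ _ := by gcongr
  have hs2 : ENNReal.ofReal (s ^ 2) ≠ 0 := by
    rw [Ne, ENNReal.ofReal_eq_zero, not_le]; positivity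
  have h4 : ∫⁻ b in ball b1 τ2, ‖rv r N F G b‖ₑ ^ q ∂μ ≤ M1 := by
    have h5 : (∫⁻ b in ball b1 τ2, ‖rv r N F G b‖ₑ ^ q ∂μ) * (ENNReal.ofReal (s ^ 2) * c1) ≤
        ENNReal.ofReal K ^ q * (ENNReal.ofReal (s ^ 2) * C) := by
      calc (∫⁻ b in ball b1 τ2, ‖rv r N F G b‖ₑ ^ q ∂μ) * (ENNReal.ofReal (s ^ 2) * c1)
          = ∫⁻ b in ball b1 τ2, ‖rv r N F G b‖ₑ ^ q * (ENNReal.ofReal (s ^ 2) * c1) ∂μ := by
            rw [lintegral_mul_const' _ _ (ENNReal.mul_ne_top ENNReal.ofReal_ne_top hc1t)]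
        _ ≤ ∫⁻ b in ball b1 τ2, ENNReal.ofReal K ^ q * Jt F ρ r s q G b ∂μ :=
            setLIntegral_mono' measurableSet_ball h1
        _ ≤ ∫⁻ b, ENNReal.ofReal K ^ q * Jt F ρ r s q G b ∂μ := setLIntegral_le_lintegral _ _
        _ = ENNReal.ofReal K ^ q * ∫⁻ b, Jt F ρ r s q G b ∂μ := by
            rw [lintegral_const_mul' _ _ (ENNReal.rpow_ne_top_of_nonneg hq.le
              ENNReal.ofReal_ne_top)]
        _ ≤ _ := by
            rw [lint_Jt μ hcF hcG]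
            gcongr
    rw [hM1, ENNReal.le_div_iff_mul_le (Or.inl hc10) (Or.inl hc1t)]
    rw [mul_left_comm, mul_left_comm (ENNReal.ofReal K ^ q)] at h5
    exact (ENNReal.mul_le_mul_iff_right hs2 ENNReal.ofReal_ne_top).1 h5
  have hsub : ball b τ ⊆ ball b1 τ2 := by
    intro y hy
    rw [mem_ball] at hy hb ⊢
    linarith [dist_triangle y b b1]
  have hbound : ∀ j, ‖rv r N F G b j‖ ≤ (M2 ^ (1 / q)).toReal := by
    intro j
    have hdj : DifferentiableOn ℂ (fun b => rv r N F G b j) (ball b τ) := by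
      have h6 := (B.rv_diff hG).mono (fun y hy => (hball (hsub hy)).2 : ball b τ ⊆ ball 0 ρ)
      exact fun y hy => (differentiableWithinAt_pi.1 (h6 y hy)) j
    have h7 := Crest.Agent.R276.Sub_185.mul_measure_le' μ hdj hq
    have h8 : ‖rv r N F G b j‖ₑ ^ q * μ (ball 0 τ) ≤ M1 := by
      refine h7.trans (le_trans ?_ h4)
      refine le_trans ?_ (lintegral_mono_set hsub)
      refine lintegral_mono fun y => ?_
      have : ‖rv r N F G y j‖ₑ ≤ ‖rv r N F G y‖ₑ := by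
        rw [← ofReal_norm, ← ofReal_norm]
        exact ENNReal.ofReal_le_ofReal (norm_le_pi_norm _ j)
      exact ENNReal.rpow_le_rpow this hq.le
    have h9 : ‖rv r N F G b j‖ₑ ^ q ≤ M2 := by
      rw [hM2, ENNReal.le_div_iff_mul_le (Or.inl hμ0) (Or.inl hμt)]
      exact h8
    have h10 : ‖rv r N F G b j‖ₑ ≤ M2 ^ (1 / q) := by
      rw [one_div]
      exact (ENNReal.le_rpow_inv_iff hq).2 h9
    have h11 := ENNReal.toReal_mono (ENNReal.rpow_ne_top_of_nonneg (by positivity) hM2t) h10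
    rwa [toReal_enorm] at h11
  exact (pi_norm_le_iff_of_nonneg ENNReal.toReal_nonneg).2 hbound

/-- a circle in the base avoiding the discriminant -/
theorem Bx.circle (B : Bx F N r ρ L D) : ∃ v : E, ∃ ε > 0, ε * ‖v‖ < ρ / 2 ∧
    ∀ l : ℂ, ‖l‖ = ε → D (l • v) ≠ 0 := by
  have h1 : ∃ v ∈ ball (0 : E) ρ, D v ≠ 0 := by
    by_contra hcon
    push Not at hcon
    exact B.Dne (Filter.eventually_of_mem (ball_mem_nhds (0 : E) B.ρ_pos) hcon)
  obtain ⟨v, hv, hDv⟩ := h1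
  set W : Set ℂ := (fun l : ℂ => l • v) ⁻¹' ball (0 : E) ρ with hW
  have hWc : Convex ℝ W := by
    have : Convex ℝ (ball (0 : E) ρ) := convex_ball _ _
    exact this.linear_preimage ((LinearMap.toSpanSingleton ℂ E v).restrictScalars ℝ)
  have hg : AnalyticOnNhd ℂ (fun l : ℂ => D (l • v)) W := by
    intro l hl
    have h2 : AnalyticAt ℂ (fun l : ℂ => l • v) l := by fun_prop
    exact AnalyticAt.fun_comp (g := D) (f := fun l : ℂ => l • v) (B.Dan _ hl) h2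
  have h0W : (0 : ℂ) ∈ W := by
    simp only [hW, mem_preimage, zero_smul]; exact mem_ball_self B.ρ_pos
  have h1W : (1 : ℂ) ∈ W := by simpa [hW] using hv
  have h3 : ¬ ∀ᶠ l in 𝓝 (0 : ℂ), D (l • v) = 0 := by
    intro hcon
    have := hg.eqOn_zero_of_preconnected_of_eventuallyEq_zero hWc.isPreconnected h0W hcon h1W
    simp only [one_smul, Pi.zero_apply] at this
    exact hDv this
  have h4 : ∀ᶠ l in 𝓝[≠] (0 : ℂ), D (l • v) ≠ 0 := by
    rcases (hg 0 h0W).eventually_eq_zero_or_eventually_ne_zero with h | h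
    · exact absurd h h3
    · exact h
  obtain ⟨ε1, hε1, h5⟩ := Metric.eventually_nhds_iff_ball.1 (eventually_nhdsWithin_iff.1 h4)
  have hρ := B.ρ_pos
  set ε : ℝ := min (ε1 / 2) (ρ / (4 * (‖v‖ + 1))) with hε
  have hε0 : 0 < ε := by positivity
  refine ⟨v, ε, hε0, ?_, ?_⟩
  · calc ε * ‖v‖ ≤ ρ / (4 * (‖v‖ + 1)) * ‖v‖ := by gcongr; exact min_le_right _ _
      _ = ρ / 4 * (‖v‖ / (‖v‖ + 1)) := by field_simp
      _ ≤ ρ / 4 * 1 := by
          gcongr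
          rw [div_le_one (by positivity)]
          linarith
      _ < ρ / 2 := by linarith
  · intro l hl
    refine h5 l ?_ ?_
    · rw [mem_ball_zero_iff, hl]
      have : ε ≤ ε1 / 2 := min_le_left _ _
      linarith
    · intro h0
      rw [mem_singleton_iff] at h0
      rw [h0, norm_zero] at hl
      exact hε0.ne hl

/-- uniform bound of the remainders near the origin -/
theorem Bx.bd0 (B : Bx F N r ρ L D) (μ : Measure E) [μ.IsAddHaarMeasure] {q : ℝ} (hq : 0 < q)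
    {C : ℝ≥0∞} (hC : C ≠ ∞) :
    ∃ M : ℝ, ∃ δ : ℝ, 0 < δ ∧ δ ≤ ρ ∧ ∀ (G : E × ℂ → ℂ) (s : ℝ),
      AnalyticOnNhd ℂ G (ball 0 ρ ×ˢ closedBall 0 r) → 0 < s → s ≤ L * (r / 2) →
      ∫⁻ p in tube F ρ r s, ‖G p‖ₑ ^ q ∂(μ.prod volume) ≤ ENNReal.ofReal (s ^ 2) * C →
      ∀ b ∈ ball (0 : E) δ, ‖rv r N F G b‖ ≤ M := by
  obtain ⟨v, ε, hε, hεv, hcirc⟩ := B.circle
  have hρ := B.ρ_pos
  have key : ∃ M : ℝ, ∀ᶠ b' in 𝓝 (0 : E), ∀ l ∈ sphere (0 : ℂ) ε, ∀ (G : E × ℂ → ℂ) (s : ℝ),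
      AnalyticOnNhd ℂ G (ball 0 ρ ×ˢ closedBall 0 r) → 0 < s → s ≤ L * (r / 2) →
      ∫⁻ p in tube F ρ r s, ‖G p‖ₑ ^ q ∂(μ.prod volume) ≤ ENNReal.ofReal (s ^ 2) * C →
      ‖rv r N F G (l • v + b')‖ ≤ M := by
    refine (isCompact_sphere (0 : ℂ) ε).induction_on
      (p := fun S => ∃ M : ℝ, ∀ᶠ b' in 𝓝 (0 : E), ∀ l ∈ S, ∀ (G : E × ℂ → ℂ) (s : ℝ),
      AnalyticOnNhd ℂ G (ball 0 ρ ×ˢ closedBall 0 r) → 0 < s → s ≤ L * (r / 2) →
      ∫⁻ p in tube F ρ r s, ‖G p‖ₑ ^ q ∂(μ.prod volume) ≤ ENNReal.ofReal (s ^ 2) * C →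
      ‖rv r N F G (l • v + b')‖ ≤ M) ?_ ?_ ?_ ?_
    · exact ⟨0, Eventually.of_forall fun b' l hl => absurd hl (by simp)⟩
    · rintro S T hST ⟨M, h⟩
      exact ⟨M, h.mono fun b' hb' l hl => hb' l (hST hl)⟩
    · rintro S T ⟨M, h⟩ ⟨M', h'⟩
      refine ⟨max M M', ?_⟩
      filter_upwards [h, h'] with b' h1 h2 l hl G s hG hs hs1 hI
      rcases hl with hl | hl
      · exact (h1 l hl G s hG hs hs1 hI).trans (le_max_left _ _)
      · exact (h2 l hl G s hG hs hs1 hI).trans (le_max_right _ _)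
    · intro l0 hl0
      have hl0' : ‖l0‖ = ε := mem_sphere_zero_iff_norm.1 hl0
      have hin : l0 • v ∈ ball (0 : E) ρ := by
        rw [mem_ball_zero_iff, norm_smul, hl0']; linarith
      obtain ⟨M, V, hV, hM⟩ := B.locbd μ hq hC hin (hcirc l0 hl0')
      have hcont : ContinuousAt (fun x : ℂ × E => x.1 • v + x.2) (l0, 0) := by fun_prop
      have h1 : ∀ᶠ x : ℂ × E in 𝓝 (l0, (0 : E)), x.1 • v + x.2 ∈ V := by
        refine hcont.eventually_mem ?_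
        simpa using hV
      rw [nhds_prod_eq] at h1
      obtain ⟨S, hS, T, hT, hST⟩ := Filter.mem_prod_iff.1 h1
      refine ⟨S, mem_nhdsWithin_of_mem_nhds hS, M, ?_⟩
      filter_upwards [hT] with b' hb' l hl G s hG hs hs1 hI
      exact hM G s hG hs hs1 hI _ (hST (mk_mem_prod hl hb'))
  obtain ⟨M, hM⟩ := key
  obtain ⟨δ1, hδ1, hδM⟩ := Metric.eventually_nhds_iff_ball.1 hM
  refine ⟨M, min δ1 (ρ / 2), lt_min hδ1 (by positivity), (min_le_right _ _).trans (by linarith),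
    fun G s hG hs hs1 hI b hb => ?_⟩
  have hb1 : b ∈ ball (0 : E) δ1 := ball_subset_ball (min_le_left _ _) hb
  have hb2 : ‖b‖ < ρ / 2 := mem_ball_zero_iff.1 (ball_subset_ball (min_le_right _ _) hb)
  have hmaps : ∀ l ∈ closedBall (0 : ℂ) ε, l • v + b ∈ ball (0 : E) ρ := by
    intro l hl
    rw [mem_closedBall_zero_iff] at hl
    rw [mem_ball_zero_iff]
    calc ‖l • v + b‖ ≤ ‖l • v‖ + ‖b‖ := norm_add_le _ _
      _ = ‖l‖ * ‖v‖ + ‖b‖ := by rw [norm_smul]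
      _ ≤ ε * ‖v‖ + ‖b‖ := by gcongr
      _ < ρ := by linarith
  have hd : DifferentiableOn ℂ (fun l : ℂ => rv r N F G (l • v + b)) (closedBall 0 ε) := by
    intro l hl
    have h1 : DifferentiableAt ℂ (rv r N F G) (l • v + b) :=
      (B.rv_diff hG).differentiableAt (isOpen_ball.mem_nhds (hmaps l hl))
    exact (h1.comp l (f := fun l : ℂ => l • v + b) (by fun_prop)).differentiableWithinAt
  have hdc : DiffContOnCl ℂ (fun l : ℂ => rv r N F G (l • v + b)) (ball 0 ε) :=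
    ⟨hd.mono ball_subset_closedBall, by
      rw [closure_ball _ hε.ne']; exact hd.continuousOn⟩
  have h := norm_le_of_forall_mem_frontier_norm_le isBounded_ball hdc (C := M) (fun l hl => by
    rw [frontier_ball _ hε.ne'] at hl
    exact hδM b hb1 l hl G s hG hs hs1 hI) (subset_closure (mem_ball_self hε))
  simpa using h

end Crest.Agent.R257.OtK_331
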