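import Crest.Agent.R257.OtKH_331

/-!
R257 / OtKI_331 (helper331): D5/D6 of BP-D, part 4: the limit `s_k → 0`.
-/

set_option autoImplicit false
set_option linter.unusedSectionVars false

open Set Filter Topology Metric Complex MeasureTheory
open scoped ENNReal
open Crest.Agent.R275.Loc2879

noncomputable section

namespace Crest.Agent.R257.OtK_331

universe u

variable {E : Type u} [NormedAddCommGroup E] [NormedSpace ℂ E] [FiniteDimensional ℂ E]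
variable {F : E × ℂ → ℂ} {N : ℕ} {r ρ L : ℝ} {D : E → ℂ}

/-- eventually the small discs around simple zeros are disjoint and in the tube -/
theorem Bx.discs_ev (B : Bx F N r ρ L D) {q : ℝ} (hq : 0 < q) {G : ℕ → E × ℂ → ℂ} {s : ℕ → ℝ}
    (hG : ∀ k, AnalyticOnNhd ℂ (G k) (ball 0 ρ ×ˢ closedBall 0 r))
    (hs0 : Tendsto s atTop (𝓝 0)) {b : E} (hb : b ∈ ball (0 : E) ρ) (S : Finset ℂ)
    (hS : ∀ z ∈ S, z ∈ ball (0 : ℂ) r ∧ F (b, z) = 0 ∧ dz F (b, z) ≠ 0) :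
    ∀ᶠ k in atTop, ∑ z ∈ S, ‖G k (b, z)‖ₑ ^ q *
      volume (ball (0 : ℂ) (s k / (2 * ‖dz F (b, z)‖))) ≤ Jt F ρ r (s k) q (G k) b := by
  have hm : ∀ z ∈ S, 0 < 2 * ‖dz F (b, z)‖ := fun z hz => by
    have := norm_pos_iff.2 (hS z hz).2.2
    positivity
  have hlim : ∀ z, Tendsto (fun k => s k / (2 * ‖dz F (b, z)‖)) atTop (𝓝 0) := fun z => by
    simpa using hs0.div_const (2 * ‖dz F (b, z)‖)
  have h1 : ∀ z ∈ S, ∀ᶠ k in atTop, ∀ w ∈ ball z (s k / (2 * ‖dz F (b, z)‖)),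
      w ∈ ball (0 : ℂ) r ∧ (b, w) ∈ tube F ρ r (s k) := by
    intro z hz
    obtain ⟨hzr, hz0, hzd⟩ := hS z hz
    have hder := hasDerivAt_dz (B.an (b, z) ⟨hb, ball_subset_closedBall hzr⟩).differentiableAt
    have ho := hder.isLittleO.def (norm_pos_iff.2 hzd)
    obtain ⟨η, hη, hηW⟩ := Metric.eventually_nhds_iff_ball.1 (ho.and (isOpen_ball.mem_nhds hzr))
    filter_upwards [(hlim z).eventually (gt_mem_nhds hη)] with k hk w hw
    have hwη : w ∈ ball z η := ball_subset_ball (le_of_lt hk) hw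
    obtain ⟨h2, h3⟩ := hηW w hwη
    refine ⟨h3, ⟨hb, h3⟩, ?_⟩
    rw [hz0, sub_zero] at h2
    have h4 : ‖F (b, w)‖ ≤ 2 * ‖dz F (b, z)‖ * ‖w - z‖ := by
      calc ‖F (b, w)‖ = ‖(F (b, w) - (w - z) • dz F (b, z)) + (w - z) • dz F (b, z)‖ := by
            congr 1; ring
        _ ≤ ‖F (b, w) - (w - z) • dz F (b, z)‖ + ‖(w - z) • dz F (b, z)‖ := norm_add_le _ _
        _ ≤ ‖dz F (b, z)‖ * ‖w - z‖ + ‖w - z‖ * ‖dz F (b, z)‖ := by
            rw [norm_smul]; gcongr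
        _ = _ := by ring
    rw [mem_ball_iff_norm, lt_div_iff₀ (hm z hz)] at hw
    linarith [mul_comm (2 * ‖dz F (b, z)‖) ‖w - z‖]
  have h2 : ∀ z ∈ S, ∀ z' ∈ S, ∀ᶠ k in atTop, z ≠ z' →
      Disjoint (ball z (s k / (2 * ‖dz F (b, z)‖))) (ball z' (s k / (2 * ‖dz F (b, z')‖))) := by
    intro z _ z' _
    rcases eq_or_ne z z' with rfl | hne
    · exact Eventually.of_forall fun _ h => absurd rfl h
    have hd : 0 < dist z z' / 2 := by
      have := dist_pos.2 hne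
      positivity
    filter_upwards [(hlim z).eventually (gt_mem_nhds hd), (hlim z').eventually (gt_mem_nhds hd)]
      with k hk hk' _
    exact ball_disjoint_ball (by linarith)
  have h1' : ∀ᶠ k in atTop, ∀ z ∈ S, ∀ w ∈ ball z (s k / (2 * ‖dz F (b, z)‖)),
      w ∈ ball (0 : ℂ) r ∧ (b, w) ∈ tube F ρ r (s k) := (Finset.eventually_all S).2 h1
  have h2' : ∀ᶠ k in atTop, ∀ z ∈ S, ∀ z' ∈ S, z ≠ z' →
      Disjoint (ball z (s k / (2 * ‖dz F (b, z)‖))) (ball z' (s k / (2 * ‖dz F (b, z')‖))) :=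
    (Finset.eventually_all S).2 fun z hz => (Finset.eventually_all S).2 (h2 z hz)
  filter_upwards [h1', h2'] with k hk hk'
  refine discs (F := F) (G := G k) hq (fun z hz w hw => (hk z hz w hw).2) hk' ?_
  intro z hz w hw
  exact (analyticAt_slice (hG k (b, w) ⟨hb, ball_subset_closedBall
    (hk z hz w hw).1⟩)).differentiableAt.differentiableWithinAt

variable [MeasurableSpace E] [BorelSpace E]

theorem Bx.lim (B : Bx F N r ρ L D) (μ : Measure E) [μ.IsAddHaarMeasure] {q : ℝ} (hq : 0 < q)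
    {C : ℝ≥0∞} (hC : C ≠ ∞) {G : ℕ → E × ℂ → ℂ} {s : ℕ → ℝ}
    (hG : ∀ k, AnalyticOnNhd ℂ (G k) (ball 0 ρ ×ˢ closedBall 0 r)) (hs : ∀ k, 0 < s k)
    (hs0 : Tendsto s atTop (𝓝 0))
    (hI : ∀ k, ∫⁻ p in tube F ρ r (s k), ‖G k p‖ₑ ^ q ∂(μ.prod volume) ≤
      ENNReal.ofReal (s k ^ 2) * C) :
    ∃ ρ' : ℝ, 0 < ρ' ∧ ρ' ≤ ρ ∧ ∃ c : E → (Fin N → ℂ), DifferentiableOn ℂ c (ball 0 ρ') ∧
      ∃ φ : ℕ → ℕ, StrictMono φ ∧
      (∀ b ∈ ball (0 : E) ρ', ∀ z ∈ closedBall (0 : ℂ) r, F (b, z) = 0 →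
        Tendsto (fun m => G (φ m) (b, z)) atTop (𝓝 (pv (c b) z))) ∧
      ∃ Φ : E → ℝ≥0∞, Measurable Φ ∧ ∫⁻ b, Φ b ∂μ < ∞ ∧
        ∀ b ∈ ball (0 : E) ρ',
          ∑' z : {z : ℂ // z ∈ ball (0 : ℂ) r ∧ F (b, z) = 0 ∧ dz F (b, z) ≠ 0},
            ENNReal.ofReal (‖pv (c b) z.1‖ ^ q * (‖dz F (b, z.1)‖ ^ 2)⁻¹) ≤ Φ b := by
  have : ProperSpace E := FiniteDimensional.proper ℂ E
  have hcF : ContinuousOn F (ball (0 : E) ρ ×ˢ ball (0 : ℂ) r) :=
    B.an.continuousOn.mono (prod_mono Subset.rfl ball_subset_closedBall)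
  have hcG : ∀ k, ContinuousOn (G k) (ball (0 : E) ρ ×ˢ ball (0 : ℂ) r) := fun k =>
    (hG k).continuousOn.mono (prod_mono Subset.rfl ball_subset_closedBall)
  have hLr : 0 < L * (r / 2) := mul_pos B.L_pos (half_pos B.r_pos)
  obtain ⟨k0, hk0⟩ := eventually_atTop.1 (hs0.eventually (ge_mem_nhds hLr))
  obtain ⟨M, δ, hδ, hδρ, hM⟩ := B.bd0 μ hq hC
  obtain ⟨c, hc, ph, hph, hlim⟩ := Crest.Agent.R264.montel (E := E) (G := Fin N → ℂ)
    (D := ball (0 : E) δ) isOpen_ball (f := fun k => rv r N F (G (k + k0)))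
    (fun k => (B.rv_diff (hG (k + k0))).mono (ball_subset_ball hδρ)) (M := M)
    (fun k b hb => hM (G (k + k0)) (s (k + k0)) (hG _) (hs _) (hk0 _ (Nat.le_add_left _ _))
      (hI _) b hb)
  set φ : ℕ → ℕ := fun m => ph m + k0 with hφ
  have hφm : StrictMono φ := fun a b hab => Nat.add_lt_add_right (hph hab) k0
  have hconv : ∀ b ∈ ball (0 : E) δ, ∀ z ∈ closedBall (0 : ℂ) r, F (b, z) = 0 →
      Tendsto (fun m => G (φ m) (b, z)) atTop (𝓝 (pv (c b) z)) := by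
    intro b hb z hz h0
    have h1 : Tendsto (fun m => rv r N F (G (φ m)) b) atTop (𝓝 (c b)) :=
      hlim.tendsto_at hb
    have h2 : Tendsto (fun m => pv (rv r N F (G (φ m)) b) z) atTop (𝓝 (pv (c b) z)) := by
      have h3 : Continuous (fun x : Fin N → ℂ => pv x z) := by unfold pv; fun_prop
      exact (h3.tendsto _).comp h1
    refine h2.congr fun m => ?_
    exact (B.rv_eq (hG (φ m)) (ball_subset_ball hδρ hb) hz h0).symm
  set κ : ℝ≥0∞ := ENNReal.ofReal (4⁻¹) * NNReal.pi with hκ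
  have hκ0 : κ ≠ 0 := by
    refine mul_ne_zero ?_ ?_
    · rw [Ne, ENNReal.ofReal_eq_zero, not_le]; positivity
    · exact_mod_cast NNReal.pi_ne_zero
  have hκt : κ ≠ ∞ := ENNReal.mul_ne_top ENNReal.ofReal_ne_top ENNReal.coe_ne_top
  set T : ℕ → E → ℝ≥0∞ := fun m b =>
    Jt F ρ r (s (φ m)) q (G (φ m)) b * (ENNReal.ofReal (s (φ m) ^ 2) * κ)⁻¹ with hT
  have hTm : ∀ m, Measurable (T m) := fun m => (measurable_Jt hcF (hcG _)).mul_const _
  have hs2 : ∀ k, ENNReal.ofReal (s k ^ 2) ≠ 0 := fun k => by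
    have := hs k
    rw [Ne, ENNReal.ofReal_eq_zero, not_le]; positivity
  have hc0 : ∀ k, ENNReal.ofReal (s k ^ 2) * κ ≠ 0 := fun k => mul_ne_zero (hs2 k) hκ0
  have hct : ∀ k, ENNReal.ofReal (s k ^ 2) * κ ≠ ∞ := fun k =>
    ENNReal.mul_ne_top ENNReal.ofReal_ne_top hκt
  refine ⟨δ, hδ, hδρ, c, hc, φ, hφm, hconv, fun b => liminf (fun m => T m b) atTop,
    Measurable.liminf hTm, ?_, ?_⟩
  · have h1 : ∀ m, ∫⁻ b, T m b ∂μ ≤ C * κ⁻¹ := by
      intro m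
      rw [hT]
      simp only
      rw [lintegral_mul_const _ (measurable_Jt hcF (hcG _)), lint_Jt μ hcF (hcG _)]
      calc _ ≤ ENNReal.ofReal (s (φ m) ^ 2) * C * (ENNReal.ofReal (s (φ m) ^ 2) * κ)⁻¹ := by
            gcongr; exact hI (φ m)
        _ = C * κ⁻¹ := by
            rw [ENNReal.mul_inv (Or.inl (hs2 _)) (Or.inl ENNReal.ofReal_ne_top)]
            rw [mul_comm (ENNReal.ofReal (s (φ m) ^ 2)) C, mul_assoc, ← mul_assoc
              (ENNReal.ofReal (s (φ m) ^ 2)), ENNReal.mul_inv_cancel (hs2 _) ENNReal.ofReal_ne_top,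
              one_mul]
    calc ∫⁻ b, liminf (fun m => T m b) atTop ∂μ ≤ liminf (fun m => ∫⁻ b, T m b ∂μ) atTop :=
          lintegral_liminf_le hTm
      _ ≤ liminf (fun _ : ℕ => C * κ⁻¹) atTop :=
          liminf_le_liminf (Eventually.of_forall h1)
      _ = C * κ⁻¹ := liminf_const _
      _ < ∞ := ENNReal.mul_lt_top hC.lt_top (ENNReal.inv_lt_top.2 (pos_iff_ne_zero.2 hκ0))
  · intro b hb
    have hbρ := ball_subset_ball hδρ hb
    rw [ENNReal.tsum_eq_iSup_sum]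
    refine iSup_le fun S => ?_
    set S' : Finset ℂ := S.map ⟨Subtype.val, Subtype.val_injective⟩ with hS'
    have hmem : ∀ z ∈ S', z ∈ ball (0 : ℂ) r ∧ F (b, z) = 0 ∧ dz F (b, z) ≠ 0 := by
      intro z hz
      rw [hS', Finset.mem_map] at hz
      obtain ⟨y, _, rfl⟩ := hz
      exact y.2
    have hsum : ∑ z ∈ S, ENNReal.ofReal (‖pv (c b) z.1‖ ^ q * (‖dz F (b, z.1)‖ ^ 2)⁻¹) =
        ∑ z ∈ S', ‖pv (c b) z‖ₑ ^ q * ENNReal.ofReal ((‖dz F (b, z)‖ ^ 2)⁻¹) := by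
      rw [hS', Finset.sum_map]
      refine Finset.sum_congr rfl fun z _ => ?_
      simp only [Function.Embedding.coeFn_mk]
      rw [ENNReal.ofReal_mul (by positivity), ← ENNReal.ofReal_rpow_of_nonneg (norm_nonneg _) hq.le,
        ofReal_norm]
    rw [hsum]
    have h1 : Tendsto (fun m => ∑ z ∈ S', ‖G (φ m) (b, z)‖ₑ ^ q *
        ENNReal.ofReal ((‖dz F (b, z)‖ ^ 2)⁻¹)) atTop
        (𝓝 (∑ z ∈ S', ‖pv (c b) z‖ₑ ^ q * ENNReal.ofReal ((‖dz F (b, z)‖ ^ 2)⁻¹))) := by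
      refine tendsto_finsetSum _ fun z hz => ?_
      have h2 := hconv b hb z (ball_subset_closedBall (hmem z hz).1) (hmem z hz).2.1
      refine ENNReal.Tendsto.mul_const ?_ (Or.inr ENNReal.ofReal_ne_top)
      exact (ENNReal.continuous_rpow_const.tendsto _).comp h2.enorm
    rw [← h1.liminf_eq]
    refine liminf_le_liminf ?_
    have h3 := B.discs_ev (G := fun m => G (φ m)) (s := fun m => s (φ m)) hq (fun m => hG (φ m))
      (hs0.comp hφm.tendsto_atTop) hbρ S' hmem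
    filter_upwards [h3] with m hm
    rw [hT]
    simp only
    rw [← div_eq_mul_inv, ENNReal.le_div_iff_mul_le (Or.inl (hc0 _)) (Or.inl (hct _))]
    refine le_trans (le_of_eq ?_) hm
    rw [Finset.sum_mul]
    refine Finset.sum_congr rfl fun z hz => ?_
    have hd : 0 < ‖dz F (b, z)‖ := norm_pos_iff.2 (hmem z hz).2.2
    rw [vol_eq (hs _) (by positivity : 0 < 2 * ‖dz F (b, z)‖)]
    have e1 : ENNReal.ofReal (((2 * ‖dz F (b, z)‖) ^ 2)⁻¹) * NNReal.pi =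
        ENNReal.ofReal ((‖dz F (b, z)‖ ^ 2)⁻¹) * κ := by
      rw [hκ, ← mul_assoc, ← ENNReal.ofReal_mul (by positivity)]
      congr 2
      rw [mul_pow, mul_inv]
      norm_num
      ring
    rw [e1]
    ring

end Crest.Agent.R257.OtK_331
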