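import Crest.Agent.R257.OtKI_331

/-!
R257 / OtKJ_331 (helper331): elimination (square free germs) and existence of Weierstrass boxes.
-/

set_option autoImplicit false
set_option linter.unusedSectionVars false

open Set Filter Topology Metric Complex MeasureTheory
open scoped ENNReal
open Crest.Agent.R275.Loc2879

noncomputable section

namespace Crest.Agent.R257.OtK_331

universe u

variable {E : Type u} [NormedAddCommGroup E] [NormedSpace ℂ E] [FiniteDimensional ℂ E]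

/-- order of the `z`-derivative -/
theorem order_dz {F : E × ℂ → ℂ} (hF : AnalyticAt ℂ F ((0 : E), (0 : ℂ))) (h0 : F (0, 0) = 0)
    {m : ℕ} (hm : analyticOrderAt (fun w => F ((0 : E), w)) 0 = m) :
    analyticOrderAt (fun w => dz F ((0 : E), w)) 0 + 1 = m := by
  have hfa : AnalyticAt ℂ (fun w : ℂ => F ((0 : E), w)) 0 := analyticAt_slice hF
  have h1 := hfa.analyticOrderAt_deriv_add_one
  have h2 : (fun w : ℂ => F ((0 : E), w) - F ((0 : E), 0)) = fun w => F ((0 : E), w) := by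
    funext w; rw [h0, sub_zero]
  rw [h2, hm] at h1
  rw [← h1]
  congr 1
  refine analyticOrderAt_congr ?_
  have h3 : ∀ᶠ w in 𝓝 (0 : ℂ), AnalyticAt ℂ F ((0 : E), w) := by
    have hc : ContinuousAt (fun w : ℂ => ((0 : E), w)) 0 := by fun_prop
    exact hc.eventually hF.eventually_analyticAt
  filter_upwards [h3] with w hw
  exact (deriv_dz hw.differentiableAt).symm

theorem isRelPrime_dz {F : E × ℂ → ℂ} (hF : AnalyticAt ℂ F ((0 : E), (0 : ℂ))) {N : ℕ}
    (hN : analyticOrderAt (fun w => F ((0 : E), w)) 0 = N)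
    (hsq : ∀ Q A : E × ℂ → ℂ, AnalyticAt ℂ Q (0, 0) → AnalyticAt ℂ A (0, 0) → Q (0, 0) = 0 →
      (¬ ∀ᶠ w in 𝓝 (0 : ℂ), Q (0, w) = 0) → ¬ ∀ᶠ p in 𝓝 ((0 : E), (0 : ℂ)), F p = Q p ^ 2 * A p) :
    IsRelPrime (gm F hF) (gm (dz F) (analyticAt_dz hF)) := by
  have hreg : Reg (gm F hF) N := reg_iff_order.2 hN
  intro d hd1 hd2
  by_contra hdu
  have hF0 : gm F hF ≠ 0 := hreg.ne_zero
  have hd0 : d ≠ 0 := by
    rintro rfl
    exact hF0 (zero_dvd_iff.1 hd1)
  obtain ⟨π, hπi, hπd⟩ := WfDvdMonoid.exists_irreducible_factor hdu hd0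
  have hπ : Prime π := UniqueFactorizationMonoid.irreducible_iff_prime.1 hπi
  obtain ⟨a, ha⟩ := hπd.trans hd1
  obtain ⟨b, hb⟩ := hπd.trans hd2
  have hreg2 := hreg
  rw [ha] at hreg2
  obtain ⟨m, m', hm, -, hmm⟩ := hreg2.of_mul
  obtain ⟨Q, hQ, rfl⟩ := exists_gm π
  obtain ⟨A, hA, rfl⟩ := exists_gm a
  have hQ0 : Q (0, 0) = 0 := by
    by_contra hne
    exact hπ.not_isUnit (isUnit_gm.2 hne)
  have hmo := reg_iff_order.1 hm
  have hdz := order_dz hQ hQ0 hmo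
  rw [gm_mul, gm_eq_gm] at ha
  have e1 : ∀ᶠ p in 𝓝 ((0 : E), (0 : ℂ)), dz F p = dz Q p * A p + Q p * dz A p := by
    have ha' := ha.eventually_nhds
    filter_upwards [ha', hQ.eventually_analyticAt, hA.eventually_analyticAt] with p hp h1 h2
    have h3 : F =ᶠ[𝓝 p] fun x => Q x * A x := hp
    simp only [dz]
    rw [h3.fderiv_eq, fderiv_fun_mul h1.differentiableAt h2.differentiableAt]
    simp only [add_apply, smul_apply, smul_eq_mul]
    ring
  have e2 : gm (dz F) (analyticAt_dz hF) =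
      gm (dz Q) (analyticAt_dz hQ) * gm A hA + gm Q hQ * gm (dz A) (analyticAt_dz hA) := by
    rw [gm_mul, gm_mul, gm_add, gm_eq_gm]
    exact e1
  have h4 : gm Q hQ ∣ gm (dz Q) (analyticAt_dz hQ) * gm A hA := by
    have h5 : gm Q hQ ∣ gm (dz F) (analyticAt_dz hF) := ⟨b, hb⟩
    rw [e2] at h5
    exact (dvd_add_left (Dvd.intro _ rfl)).1 h5
  rcases hπ.dvd_or_dvd h4 with h5 | h5
  · obtain ⟨x, hx⟩ := h5
    -- orders
    obtain ⟨k, hk⟩ : ∃ k : ℕ, analyticOrderAt (fun w => dz Q ((0 : E), w)) 0 = k := by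
      refine ENat.ne_top_iff_exists.1 ?_ |>.imp fun k hk => hk.symm
      intro htop
      rw [htop, top_add] at hdz
      exact absurd hdz (by simp)
    rw [hk] at hdz
    have hkm : k + 1 = m := by exact_mod_cast hdz
    have hregd : Reg (gm (dz Q) (analyticAt_dz hQ)) k := reg_iff_order.2 hk
    rw [hx] at hregd
    obtain ⟨i, j, hi, -, hij⟩ := hregd.of_mul
    have := hi.unique hm
    omega
  · obtain ⟨x, hx⟩ := h5
    obtain ⟨X, hX, rfl⟩ := exists_gm x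
    rw [gm_mul, gm_eq_gm] at hx
    refine hsq Q X hQ hX hQ0 ?_ ?_
    · intro hcon
      have h6 : analyticOrderAt (fun w => Q ((0 : E), w)) 0 = ⊤ := analyticOrderAt_eq_top.2 hcon
      rw [hmo] at h6
      exact absurd h6 (by simp)
    · filter_upwards [ha, hx] with p h1 h2
      rw [h1, Pi.mul_apply, h2, Pi.mul_apply]; ring

/-- the eliminant -/
theorem exists_elim {F : E × ℂ → ℂ} (hF : AnalyticAt ℂ F ((0 : E), (0 : ℂ))) {N : ℕ}
    (hN : analyticOrderAt (fun w => F ((0 : E), w)) 0 = N)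
    (hsq : ∀ Q A : E × ℂ → ℂ, AnalyticAt ℂ Q (0, 0) → AnalyticAt ℂ A (0, 0) → Q (0, 0) = 0 →
      (¬ ∀ᶠ w in 𝓝 (0 : ℂ), Q (0, w) = 0) → ¬ ∀ᶠ p in 𝓝 ((0 : E), (0 : ℂ)), F p = Q p ^ 2 * A p) :
    ∃ D : E → ℂ, AnalyticAt ℂ D 0 ∧ (¬ ∀ᶠ b in 𝓝 (0 : E), D b = 0) ∧
      ∀ᶠ p in 𝓝 ((0 : E), (0 : ℂ)), F p = 0 → dz F p = 0 → D p.1 = 0 := by
  obtain ⟨c, hc, hmem⟩ := elim (reg_iff_order.2 hN) (isRelPrime_dz hF hN hsq)
  obtain ⟨D, hD, rfl⟩ := exists_gm c
  obtain ⟨a, b, hab⟩ := Ideal.mem_span_pair.1 hmem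
  obtain ⟨A, hA, rfl⟩ := exists_gm a
  obtain ⟨B, hB, rfl⟩ := exists_gm b
  refine ⟨D, hD, fun h => hc (gm_eq_zero.2 h), ?_⟩
  rw [iot, pull_gm, gm_mul, gm_mul, gm_add, gm_eq_gm] at hab
  filter_upwards [hab] with p hp h1 h2
  simp only [Pi.add_apply, Pi.mul_apply, h1, h2, mul_zero, add_zero, Function.comp] at hp
  exact hp.symm

/-- existence of boxes -/
theorem exists_Bx {F : E × ℂ → ℂ} (hF : AnalyticAt ℂ F ((0 : E), (0 : ℂ))) {N : ℕ}
    (hN : analyticOrderAt (fun w => F ((0 : E), w)) 0 = N)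
    (hsq : ∀ Q A : E × ℂ → ℂ, AnalyticAt ℂ Q (0, 0) → AnalyticAt ℂ A (0, 0) → Q (0, 0) = 0 →
      (¬ ∀ᶠ w in 𝓝 (0 : ℂ), Q (0, w) = 0) → ¬ ∀ᶠ p in 𝓝 ((0 : E), (0 : ℂ)), F p = Q p ^ 2 * A p)
    {R : ℝ} (hR : 0 < R) :
    ∃ (r ρ L : ℝ) (D : E → ℂ), r < R ∧ ρ < R ∧ Bx F N r ρ L D := by
  have : ProperSpace E := FiniteDimensional.proper ℂ E
  obtain ⟨D, hD, hDne, hDz⟩ := exists_elim hF hN hsq
  obtain ⟨r₁, hr₁, h1⟩ := exists_good hF hN
  obtain ⟨r₂, hr₂, h2⟩ := exists_radius hF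
  obtain ⟨r₃, hr₃, h3⟩ := Metric.eventually_nhds_iff_ball.1 hDz
  have hfa : AnalyticAt ℂ (fun w : ℂ => F ((0 : E), w)) 0 := analyticAt_slice hF
  have hne : ∀ᶠ w in 𝓝[≠] (0 : ℂ), F ((0 : E), w) ≠ 0 := by
    rcases hfa.eventually_eq_zero_or_eventually_ne_zero with h | h
    · have h6 : analyticOrderAt (fun w => F ((0 : E), w)) 0 = ⊤ := analyticOrderAt_eq_top.2 h
      rw [hN] at h6
      exact absurd h6 (by simp)
    · exact h
  obtain ⟨r₄, hr₄, h4⟩ := Metric.eventually_nhds_iff_ball.1 (eventually_nhdsWithin_iff.1 hne)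
  obtain ⟨r, hr, hrlt⟩ := exists_between (lt_min (lt_min hr₁ hr₂) (lt_min (lt_min hr₃ hr₄) hR))
  have ha : r < r₁ := hrlt.trans_le ((min_le_left _ _).trans (min_le_left _ _))
  have hb : r < r₂ := hrlt.trans_le ((min_le_left _ _).trans (min_le_right _ _))
  have hc : r < r₃ := hrlt.trans_le ((min_le_right _ _).trans ((min_le_left _ _).trans
    (min_le_left _ _)))
  have hd : r < r₄ := hrlt.trans_le ((min_le_right _ _).trans ((min_le_left _ _).trans
    (min_le_right _ _)))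
  have he : r < R := hrlt.trans_le ((min_le_right _ _).trans (min_le_right _ _))
  have hU := h2 r hb
  have h0U : (0 : E) ∈ ball (0 : E) r₂ := mem_ball_self hr₂
  have hgood := h1 r hr ha _ h0U hU
  -- nonvanishing on the annulus
  have hann : ∀ᶠ b in 𝓝 (0 : E), ∀ z ∈ closedBall (0 : ℂ) r \ ball (0 : ℂ) (r / 2),
      F (b, z) ≠ 0 := by
    have hcomp : IsCompact (closedBall (0 : ℂ) r \ ball (0 : ℂ) (r / 2)) :=
      (isCompact_closedBall _ _).diff isOpen_ball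
    refine hcomp.eventually_forall_of_forall_eventually fun z hz => ?_
    have hz0 : z ≠ 0 := by
      rintro rfl
      exact hz.2 (mem_ball_self (by positivity))
    have hzr : ‖z‖ ≤ r := mem_closedBall_zero_iff.1 hz.1
    have h5 : F ((0 : E), z) ≠ 0 := h4 z (by rw [mem_ball_zero_iff]; linarith) hz0
    have h6 : ContinuousAt F ((0 : E), z) := (hU _ ⟨h0U, hz.1⟩).continuousAt
    exact h6.eventually_ne h5
  have hgn : good r N F (ball 0 r₂) ∈ 𝓝 (0 : E) := (isOpen_good isOpen_ball hU).mem_nhds hgood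
  obtain ⟨ρ₁, hρ₁, h5⟩ := Metric.eventually_nhds_iff_ball.1
    ((hann.and hgn).and hD.eventually_analyticAt)
  obtain ⟨ρ, hρ, hρlt⟩ := exists_between (lt_min (lt_min hρ₁ hr₂) (lt_min hr₃ hR))
  have hρa : ρ < ρ₁ := hρlt.trans_le ((min_le_left _ _).trans (min_le_left _ _))
  have hρb : ρ < r₂ := hρlt.trans_le ((min_le_left _ _).trans (min_le_right _ _))
  have hρc : ρ < r₃ := hρlt.trans_le ((min_le_right _ _).trans (min_le_left _ _))
  have hρd : ρ < R := hρlt.trans_le ((min_le_right _ _).trans (min_le_right _ _))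
  have hsub : ball (0 : E) ρ ⊆ ball 0 r₂ := ball_subset_ball hρb.le
  have han : AnalyticOnNhd ℂ F (ball (0 : E) ρ ×ˢ closedBall 0 r) :=
    hU.mono (prod_mono hsub Subset.rfl)
  -- bound of the derivative
  have hcp : IsCompact (closedBall (0 : E) ρ ×ˢ closedBall (0 : ℂ) r) :=
    (isCompact_closedBall _ _).prod (isCompact_closedBall _ _)
  have hcd : ContinuousOn (dz F) (closedBall (0 : E) ρ ×ˢ closedBall (0 : ℂ) r) := by
    intro p hp
    exact (analyticAt_dz (hU p ⟨closedBall_subset_ball hρb hp.1, hp.2⟩)).continuousAt.continuousWithinAt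
  obtain ⟨L, hL⟩ := hcp.exists_bound_of_continuousOn hcd
  refine ⟨r, ρ, max L 1, D, he, hρd, hr, hρ, han, ?_, ?_, by positivity, ?_, ?_, hDne, ?_⟩
  · intro b hb
    have h6 := (h5 b (ball_subset_ball hρa.le hb)).1.2
    refine ⟨hb, ?_⟩
    exact h6.2
  · intro b hb z hz1 hz2
    refine (h5 b (ball_subset_ball hρa.le hb)).1.1 z ⟨mem_closedBall_zero_iff.2 hz2, ?_⟩
    rw [mem_ball_zero_iff, not_lt]; exact hz1
  · intro b hb z hz
    exact (hL (b, z) ⟨ball_subset_closedBall hb, hz⟩).trans (le_max_left _ _)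
  · intro b hb
    exact (h5 b (ball_subset_ball hρa.le hb)).2
  · intro b hb hDb z hz h0 hdz
    refine hDb (h3 (b, z) ?_ h0 hdz)
    rw [← ball_prod_same]
    exact ⟨ball_subset_ball hρc.le hb, closedBall_subset_ball hc hz⟩

end Crest.Agent.R257.OtK_331
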