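import Crest.Agent.R257.OtKJ_331
import Crest.Agent.R257.OtKE_331
import Crest.Agent.R257.Defs_219

/-!
R257 / OtKK_331 (helper331): coordinates for `OTStmt`: square freeness from the isolated critical
point; the transfer between `((x', t), z)` and `(t, z, x')`.
-/

set_option autoImplicit false
set_option linter.unusedSectionVars false

open Set Filter Topology Metric Complex MeasureTheory
open scoped ENNReal
open Crest.Agent.R275.Loc2879
open Crest.AlgGeometry.Germ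

noncomputable section

namespace Crest.Agent.R257.OtK_331

variable {n : ℕ}

/-- `(x', z) ↦ (z, x')` as a continuous linear map -/
def cl (n : ℕ) : ((Fin n → ℂ) × ℂ) →L[ℂ] (Fin (n + 1) → ℂ) :=
  ContinuousLinearMap.pi fun i => Fin.cases (motive := fun _ => ((Fin n → ℂ) × ℂ) →L[ℂ] ℂ)
    (ContinuousLinearMap.snd ℂ _ _)
    (fun j => (ContinuousLinearMap.proj (R := ℂ) (φ := fun _ : Fin n => ℂ) j).comp
      (ContinuousLinearMap.fst ℂ _ _)) i

theorem cl_apply (p : (Fin n → ℂ) × ℂ) : cl n p = Fin.cons p.2 p.1 := by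
  funext i
  refine Fin.cases ?_ (fun j => ?_) i <;> rfl

/-- `f(z, x')` as a function on `(x', z)` -/
def P0 (f : (Fin (n + 1) → ℂ) → ℂ) (p : (Fin n → ℂ) × ℂ) : ℂ := f (Fin.cons p.2 p.1)

theorem P0_eq (f : (Fin (n + 1) → ℂ) → ℂ) : P0 f = f ∘ cl n := by
  funext p; simp [P0, cl_apply]

theorem cons00 : (Fin.cons (0 : ℂ) (0 : Fin n → ℂ) : Fin (n + 1) → ℂ) = 0 := by
  funext i
  refine Fin.cases ?_ (fun j => ?_) i <;> rfl

theorem an_P0 {f : (Fin (n + 1) → ℂ) → ℂ} {p : (Fin n → ℂ) × ℂ}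
    (hf : AnalyticAt ℂ f (Fin.cons p.2 p.1)) : AnalyticAt ℂ (P0 f) p := by
  rw [P0_eq]
  refine AnalyticAt.comp ?_ ((cl n).analyticAt p)
  rwa [cl_apply]

theorem fderiv_P0 {f : (Fin (n + 1) → ℂ) → ℂ} {p : (Fin n → ℂ) × ℂ}
    (hf : DifferentiableAt ℂ f (Fin.cons p.2 p.1)) (v : (Fin n → ℂ) × ℂ) :
    fderiv ℂ (P0 f) p v = fderiv ℂ f (Fin.cons p.2 p.1) (Fin.cons v.2 v.1) := by
  have h1 : HasFDerivAt (f ∘ cl n) ((fderiv ℂ f (Fin.cons p.2 p.1)).comp (cl n)) p := by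
    refine HasFDerivAt.comp p ?_ (cl n).hasFDerivAt
    rw [cl_apply]; exact hf.hasFDerivAt
  rw [P0_eq, h1.fderiv, ContinuousLinearMap.comp_apply, cl_apply]

theorem cons_single_zero : (Fin.cons (1 : ℂ) (0 : Fin n → ℂ) : Fin (n + 1) → ℂ) = Pi.single 0 1 := by
  funext i
  refine Fin.cases ?_ (fun j => ?_) i
  · simp
  · simp

theorem cons_single_succ (j : Fin n) :
    (Fin.cons (0 : ℂ) (Pi.single j 1 : Fin n → ℂ) : Fin (n + 1) → ℂ) = Pi.single j.succ 1 := by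
  funext i
  refine Fin.cases ?_ (fun k => ?_) i
  · simp
  · rcases eq_or_ne k j with rfl | h
    · simp
    · simp [h]

theorem dz_P0 {f : (Fin (n + 1) → ℂ) → ℂ} {p : (Fin n → ℂ) × ℂ}
    (hf : DifferentiableAt ℂ f (Fin.cons p.2 p.1)) :
    dz (P0 f) p = coordDeriv f 0 (Fin.cons p.2 p.1) := by
  rw [dz, fderiv_P0 hf, coordDeriv]
  simp only [cons_single_zero]

/-- the derivative of a multiple of a square at a zero -/
theorem fderiv_sq {E : Type*} [NormedAddCommGroup E] [NormedSpace ℂ E] {Q A : E → ℂ} {p : E}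
    (hQ : DifferentiableAt ℂ Q p) (hA : DifferentiableAt ℂ A p) (h0 : Q p = 0) :
    fderiv ℂ (fun x => Q x ^ 2 * A x) p = 0 := by
  have h1 : (fun x => Q x ^ 2 * A x) = fun x => Q x * (Q x * A x) := by
    funext x; ring
  rw [h1, fderiv_fun_mul hQ (hQ.fun_mul hA), h0]
  ext v
  simp

/-- no square divides a germ with an isolated critical point (`n ≥ 1`) -/
theorem no_sq [NeZero n] {f : (Fin (n + 1) → ℂ) → ℂ} (hf : AnalyticAt ℂ f 0)
    (hiso : ∀ᶠ x in 𝓝 (0 : Fin (n + 1) → ℂ), (∀ i, coordDeriv f i x = 0) → x = 0)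
    {Q A : (Fin n → ℂ) × ℂ → ℂ} (hQ : AnalyticAt ℂ Q (0, 0)) (hA : AnalyticAt ℂ A (0, 0))
    (hQ0 : Q (0, 0) = 0) (hQz : ¬ ∀ᶠ w in 𝓝 (0 : ℂ), Q (0, w) = 0)
    (hfQ : ∀ᶠ p in 𝓝 ((0 : Fin n → ℂ), (0 : ℂ)), P0 f p = Q p ^ 2 * A p) : False := by
  have hcl : Tendsto (fun p : (Fin n → ℂ) × ℂ => (Fin.cons p.2 p.1 : Fin (n + 1) → ℂ))
      (𝓝 (0, 0)) (𝓝 0) := by
    have h1 : Tendsto (cl n) (𝓝 (0, 0)) (𝓝 (cl n (0, 0))) := (cl n).continuous.tendsto _
    rw [cl_apply, cons00] at h1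
    refine h1.congr fun p => cl_apply p
  have h1 : ∀ᶠ p in 𝓝 ((0 : Fin n → ℂ), (0 : ℂ)), Q p = 0 → p.1 = 0 := by
    filter_upwards [hfQ.eventually_nhds, hQ.eventually_analyticAt, hA.eventually_analyticAt,
      hcl.eventually hiso, hcl.eventually hf.eventually_analyticAt] with p hp hQp hAp hi hfp h0
    have h2 : P0 f =ᶠ[𝓝 p] fun x => Q x ^ 2 * A x := hp
    have h3 : fderiv ℂ (P0 f) p = 0 := by
      rw [h2.fderiv_eq, fderiv_sq hQp.differentiableAt hAp.differentiableAt h0]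
    have h4 : (Fin.cons p.2 p.1 : Fin (n + 1) → ℂ) = 0 := by
      refine hi fun i => ?_
      refine Fin.cases ?_ (fun j => ?_) i
      · have := fderiv_P0 hfp.differentiableAt (0, 1)
        rw [h3] at this
        rw [coordDeriv, ← cons_single_zero]
        exact this.symm
      · have := fderiv_P0 hfp.differentiableAt (Pi.single j 1, 0)
        rw [h3] at this
        rw [coordDeriv, ← cons_single_succ]
        exact this.symm
    funext j
    have := congrFun h4 j.succ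
    simpa using this
  obtain ⟨ε, hε, h2⟩ := Metric.eventually_nhds_iff_ball.1 h1
  have h3 := exists_zero_near hQ hQ0 hQz hε
  obtain ⟨δ, hδ, h4⟩ := Metric.eventually_nhds_iff_ball.1 h3
  obtain ⟨x, hx0, hx⟩ : ∃ x : Fin n → ℂ, x ≠ 0 ∧ x ∈ ball (0 : Fin n → ℂ) (min ε δ) := by
    refine ⟨fun _ => ((min ε δ / 2 : ℝ) : ℂ), ?_, ?_⟩
    · intro h
      have h5 := congrFun h (0 : Fin n)
      simp only [Pi.zero_apply, ofReal_eq_zero] at h5
      have : 0 < min ε δ := lt_min hε hδ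
      linarith
    · have hpos : 0 < min ε δ := lt_min hε hδ
      rw [mem_ball_zero_iff, pi_norm_lt_iff hpos]
      intro i
      rw [norm_real, Real.norm_of_nonneg (by positivity)]
      linarith
  obtain ⟨w, hw, hw0⟩ := h4 x (ball_subset_ball (min_le_right _ _) hx)
  refine hx0 (h2 (x, w) ?_ hw0)
  rw [← ball_prod_same]
  exact ⟨ball_subset_ball (min_le_left _ _) hx, hw⟩

/-! ### the coordinates `((x', t), z)` -/

/-- `((x', t), z) ↦ (t, z, x')` -/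
def ct (n : ℕ) : (((Fin n → ℂ) × ℂ) × ℂ) →L[ℂ] (Fin (n + 2) → ℂ) :=
  (cl (n + 1)).comp (((cl n).comp (((ContinuousLinearMap.fst ℂ (Fin n → ℂ) ℂ).comp
    (ContinuousLinearMap.fst ℂ _ _)).prod (ContinuousLinearMap.snd ℂ _ _))).prod
    ((ContinuousLinearMap.snd ℂ (Fin n → ℂ) ℂ).comp (ContinuousLinearMap.fst ℂ _ _)))

theorem ct_apply (p : ((Fin n → ℂ) × ℂ) × ℂ) :
    ct n p = Fin.cons p.1.2 (Fin.cons p.2 p.1.1 : Fin (n + 1) → ℂ) := by
  simp only [ct, ContinuousLinearMap.comp_apply, ContinuousLinearMap.prod_apply, cl_apply,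
    ContinuousLinearMap.coe_fst', ContinuousLinearMap.coe_snd']

/-- `F((z, x'), t)` as a function on `((x', t), z)` -/
def PT (F : (Fin (n + 1) → ℂ) × ℂ → ℂ) (p : ((Fin n → ℂ) × ℂ) × ℂ) : ℂ :=
  F (Fin.cons p.2 p.1.1, p.1.2)

/-- `((x', t), z) ↦ ((z, x'), t)` -/
def cs (n : ℕ) : (((Fin n → ℂ) × ℂ) × ℂ) →L[ℂ] ((Fin (n + 1) → ℂ) × ℂ) :=
  ((cl n).comp (((ContinuousLinearMap.fst ℂ (Fin n → ℂ) ℂ).comp
    (ContinuousLinearMap.fst ℂ _ _)).prod (ContinuousLinearMap.snd ℂ _ _))).prod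
    ((ContinuousLinearMap.snd ℂ (Fin n → ℂ) ℂ).comp (ContinuousLinearMap.fst ℂ _ _))

theorem cs_apply (p : ((Fin n → ℂ) × ℂ) × ℂ) :
    cs n p = (Fin.cons p.2 p.1.1, p.1.2) := by
  simp only [cs, ContinuousLinearMap.comp_apply, ContinuousLinearMap.prod_apply, cl_apply,
    ContinuousLinearMap.coe_fst', ContinuousLinearMap.coe_snd']

theorem PT_eq (F : (Fin (n + 1) → ℂ) × ℂ → ℂ) : PT F = F ∘ cs n := by
  funext p; simp [PT, cs_apply]

theorem an_PT {F : (Fin (n + 1) → ℂ) × ℂ → ℂ} {p : ((Fin n → ℂ) × ℂ) × ℂ}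
    (hF : AnalyticAt ℂ F (Fin.cons p.2 p.1.1, p.1.2)) : AnalyticAt ℂ (PT F) p := by
  rw [PT_eq]
  refine AnalyticAt.comp ?_ ((cs n).analyticAt p)
  rwa [cs_apply]

theorem dz_PT {F : (Fin (n + 1) → ℂ) × ℂ → ℂ} {p : ((Fin n → ℂ) × ℂ) × ℂ}
    (hF : DifferentiableAt ℂ F (Fin.cons p.2 p.1.1, p.1.2)) :
    dz (PT F) p = coordDeriv (Defs_219.sl F p.1.2) 0 (Fin.cons p.2 p.1.1) := by
  have h1 : HasFDerivAt (F ∘ cs n) ((fderiv ℂ F (Fin.cons p.2 p.1.1, p.1.2)).comp (cs n)) p := by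
    refine HasFDerivAt.comp p ?_ (cs n).hasFDerivAt
    rw [cs_apply]; exact hF.hasFDerivAt
  have h2 : HasFDerivAt (fun y : Fin (n + 1) → ℂ => (y, p.1.2))
      (ContinuousLinearMap.inl ℂ (Fin (n + 1) → ℂ) ℂ) (Fin.cons p.2 p.1.1) :=
    hasFDerivAt_prodMk_left _ _
  have h3 : HasFDerivAt (Defs_219.sl F p.1.2)
      ((fderiv ℂ F (Fin.cons p.2 p.1.1, p.1.2)).comp
        (ContinuousLinearMap.inl ℂ (Fin (n + 1) → ℂ) ℂ)) (Fin.cons p.2 p.1.1) :=
    HasFDerivAt.comp _ (g := F) (by exact hF.hasFDerivAt) h2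
  rw [dz, PT_eq, h1.fderiv, coordDeriv, h3.fderiv, ContinuousLinearMap.comp_apply,
    ContinuousLinearMap.comp_apply, cs_apply]
  simp only [Prod.fst_zero, Prod.snd_zero, cons_single_zero, ContinuousLinearMap.inl_apply]

end Crest.Agent.R257.OtK_331
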