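import Crest.Agent.R257.OtKK_331

/-!
R257 / OtKL_331 (helper331): measure preserving coordinates; (D4) in tube form.
-/

set_option autoImplicit false
set_option linter.unusedSectionVars false

open Set Filter Topology Metric Complex MeasureTheory
open scoped ENNReal
open Crest.Agent.R275.Loc2879
open Crest.AlgGeometry.Germ

noncomputable section

namespace Crest.Agent.R257.OtK_331

variable {n : ℕ}

theorem mp_cl (n : ℕ) : MeasurePreserving (cl n)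
    (volume : Measure ((Fin n → ℂ) × ℂ)) (volume : Measure (Fin (n + 1) → ℂ)) := by
  have h1 := (volume_preserving_piFinSuccAbove (fun _ : Fin (n + 1) => ℂ) 0).symm
    (MeasurableEquiv.piFinSuccAbove (fun _ : Fin (n + 1) => ℂ) 0)
  have h2 : MeasurePreserving (Prod.swap : (Fin n → ℂ) × ℂ → ℂ × (Fin n → ℂ)) volume volume :=
    Measure.measurePreserving_swap
  have h3 := h1.comp h2
  have h4 : (cl n : (Fin n → ℂ) × ℂ → (Fin (n + 1) → ℂ)) =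
      (MeasurableEquiv.piFinSuccAbove (fun _ : Fin (n + 1) => ℂ) 0).symm ∘ Prod.swap := by
    funext p
    rw [cl_apply]
    refine (Fin.insertNth_zero' (β := ℂ) p.2 p.1).symm.trans ?_
    rfl
  rw [h4]
  exact h3

theorem mp_rot (n : ℕ) : MeasurePreserving
    (fun p : ((Fin n → ℂ) × ℂ) × ℂ => ((p.1.1, p.2), p.1.2)) volume volume := by
  have h1 : MeasurePreserving (MeasurableEquiv.prodAssoc :
      (((Fin n → ℂ) × ℂ) × ℂ) ≃ᵐ ((Fin n → ℂ) × (ℂ × ℂ))) volume volume :=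
    measurePreserving_prodAssoc _ _ _
  have h2 : MeasurePreserving (Prod.map id Prod.swap :
      ((Fin n → ℂ) × (ℂ × ℂ)) → ((Fin n → ℂ) × (ℂ × ℂ))) volume volume :=
    (MeasurePreserving.id volume).prod Measure.measurePreserving_swap
  have h3 := (h1.symm MeasurableEquiv.prodAssoc).comp (h2.comp h1)
  exact h3

theorem mp_ct (n : ℕ) : MeasurePreserving (ct n)
    (volume : Measure (((Fin n → ℂ) × ℂ) × ℂ)) (volume : Measure (Fin (n + 2) → ℂ)) := by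
  have h1 : MeasurePreserving (Prod.map (cl n) id : ((Fin n → ℂ) × ℂ) × ℂ →
      (Fin (n + 1) → ℂ) × ℂ) volume volume := (mp_cl n).prod (MeasurePreserving.id volume)
  have h2 := (mp_cl (n + 1)).comp (h1.comp (mp_rot n))
  exact h2

/-- integrals over open sets in the coordinates `((x', t), z)` -/
theorem lint_ct {S : Set (Fin (n + 2) → ℂ)} (hS : IsOpen S) {f : (Fin (n + 2) → ℂ) → ℝ≥0∞}
    (hf : ContinuousOn f S) {W : Set (((Fin n → ℂ) × ℂ) × ℂ)} (hW : ∀ p ∈ W, ct n p ∈ S) :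
    ∫⁻ p in W, f (ct n p) ≤ ∫⁻ X in S, f X := by
  classical
  have hm : Measurable (S.indicator f) := by
    rw [← Set.piecewise_eq_indicator]
    exact ContinuousOn.measurable_piecewise hf continuous_zero.continuousOn hS.measurableSet
  calc ∫⁻ p in W, f (ct n p) ≤ ∫⁻ p in (ct n) ⁻¹' S, f (ct n p) := lintegral_mono_set hW
    _ = ∫⁻ p, S.indicator f (ct n p) := by
        rw [← lintegral_indicator (hS.preimage (ct n).continuous).measurableSet]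
        rfl
    _ = ∫⁻ X, S.indicator f X := (mp_ct n).lintegral_comp hm
    _ = ∫⁻ X in S, f X := lintegral_indicator hS.measurableSet _

/-- (D4) on the tube `{|F| < s}` -/
theorem d4t (d : Dat n) {T : ℝ} (hT : 0 < T) {F : (Fin (n + 2) → ℂ) → ℂ}
    (hF : DifferentiableOn ℂ F (Pd (dT d.R T).R)) (hFh : ∀ x ∈ Pd d.R, F (Fin.cons 0 x) = d.h x)
    (hhb : ∃ B, ∀ x ∈ Pd d.R, ‖d.h x‖ ≤ B)
    {q : ℝ} (hq0 : 0 < q) (hq1 : q ≤ 1) {s : ℝ} (hs : 0 < s) (hs1 : s ≤ 1)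
    {G0 : (Fin (n + 1) → ℂ) → ℂ} (hG0 : DifferentiableOn ℂ G0 (Pd d.R))
    (hB : ∃ B, ∀ x ∈ Pd d.R, ‖G0 x‖ ≤ B) {K : ℝ≥0∞} (hKt : K ≠ ∞)
    (hK : Sh d (fun x => ENNReal.ofReal (‖G0 x‖ ^ (2 * q) * (‖d0 d.h x‖ ^ 2)⁻¹)) ≤ K) :
    ∃ G : (Fin (n + 2) → ℂ) → ℂ, DifferentiableOn ℂ G (Pd (dT d.R T).R) ∧
      (∀ x ∈ d.U, d.h x = 0 → G (Fin.cons 0 x) = G0 x) ∧
      ∫⁻ X in {X | X ∈ Pd (dT d.R T).R ∧ ‖F X‖ < s}, ‖G X‖ₑ ^ (2 * q) ≤
        ENNReal.ofReal (s ^ 2) * (ENNReal.ofReal (16 * T ^ 2 * (C0 * C0)) * K + 4) := by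
  have hC := C0_nonneg
  set c : ℝ := 4 * T ^ 2 * (C0 * C0) * (s ^ 2)⁻¹ with hc
  have hcK : ENNReal.ofReal c * K ≠ ∞ := ENNReal.mul_ne_top ENNReal.ofReal_ne_top hKt
  obtain ⟨G, hG, hGe, hGi⟩ := d4 d hT hF hFh hhb hq0 hq1 hs hG0 hB hKt hK
    (K' := ENNReal.ofReal c * K + 1) (ENNReal.lt_add_right hcK one_ne_zero)
  refine ⟨G, hG, hGe, ?_⟩
  set S : Set (Fin (n + 2) → ℂ) := {X | X ∈ Pd (dT d.R T).R ∧ ‖F X‖ < s} with hS
  have hSP : S ⊆ Pd (dT d.R T).R := fun X hX => hX.1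
  have hSo : IsOpen S := by
    have : S = Pd (dT d.R T).R ∩ F ⁻¹' ball 0 s := by
      ext X; simp [hS]
    rw [this]
    exact hF.continuousOn.isOpen_inter_preimage (isOpen_Pd _) isOpen_ball
  have h1 : ∀ X ∈ S, ‖G X‖ₑ ^ (2 * q) ≤ ENNReal.ofReal (4 * s ^ 4) *
      ENNReal.ofReal (‖G X‖ ^ (2 * q) * ((‖F X‖ ^ 2 + s ^ 2) ^ 2)⁻¹) := by
    intro X hX
    rw [← ENNReal.ofReal_mul (by positivity), ← ofReal_norm,
      ENNReal.ofReal_rpow_of_nonneg (norm_nonneg _) (by positivity)]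
    refine ENNReal.ofReal_le_ofReal ?_
    have h2 : ‖F X‖ ^ 2 ≤ s ^ 2 := by
      have := hX.2
      gcongr
    have h3 : (‖F X‖ ^ 2 + s ^ 2) ^ 2 ≤ 4 * s ^ 4 := by
      calc (‖F X‖ ^ 2 + s ^ 2) ^ 2 ≤ (s ^ 2 + s ^ 2) ^ 2 := by gcongr
        _ = 4 * s ^ 4 := by ring
    have h4 : 0 < (‖F X‖ ^ 2 + s ^ 2) ^ 2 := by positivity
    have h5 : 1 ≤ 4 * s ^ 4 * ((‖F X‖ ^ 2 + s ^ 2) ^ 2)⁻¹ := by
      rw [← div_eq_mul_inv, one_le_div h4]; exact h3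
    have h6 : 0 ≤ ‖G X‖ ^ (2 * q) := by positivity
    calc ‖G X‖ ^ (2 * q) = ‖G X‖ ^ (2 * q) * 1 := (mul_one _).symm
      _ ≤ ‖G X‖ ^ (2 * q) * (4 * s ^ 4 * ((‖F X‖ ^ 2 + s ^ 2) ^ 2)⁻¹) := by gcongr
      _ = _ := by ring
  calc ∫⁻ X in S, ‖G X‖ₑ ^ (2 * q)
      ≤ ∫⁻ X in S, ENNReal.ofReal (4 * s ^ 4) *
        ENNReal.ofReal (‖G X‖ ^ (2 * q) * ((‖F X‖ ^ 2 + s ^ 2) ^ 2)⁻¹) :=
        setLIntegral_mono' hSo.measurableSet h1
    _ ≤ ∫⁻ X in Pd (dT d.R T).R, ENNReal.ofReal (4 * s ^ 4) *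
        ENNReal.ofReal (‖G X‖ ^ (2 * q) * ((‖F X‖ ^ 2 + s ^ 2) ^ 2)⁻¹) :=
        lintegral_mono_set hSP
    _ = ENNReal.ofReal (4 * s ^ 4) * ∫⁻ X in Pd (dT d.R T).R,
        ENNReal.ofReal (‖G X‖ ^ (2 * q) * ((‖F X‖ ^ 2 + s ^ 2) ^ 2)⁻¹) := by
        rw [lintegral_const_mul' _ _ ENNReal.ofReal_ne_top]
    _ ≤ ENNReal.ofReal (4 * s ^ 4) * (ENNReal.ofReal c * K + 1) := by gcongr
    _ ≤ _ := by
        rw [mul_add, mul_one, mul_add, ← mul_assoc, ← mul_assoc,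
          ← ENNReal.ofReal_mul (by positivity), ← ENNReal.ofReal_mul (by positivity)]
        refine add_le_add (le_of_eq ?_) ?_
        · congr 2
          rw [hc]; field_simp; ring
        · have h7 : (4 : ℝ≥0∞) = ENNReal.ofReal 4 := by simp
          rw [h7, ← ENNReal.ofReal_mul (by positivity)]
          refine ENNReal.ofReal_le_ofReal ?_
          have : s ^ 4 ≤ s ^ 2 := pow_le_pow_of_le_one hs.le hs1 (by norm_num)
          linarith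

end Crest.Agent.R257.OtK_331
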