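import Crest.Agent.R257.OtKL_331

/-!
R257 / OtKM_331 (helper331): `L^{2/p}` extension of germs, general `n` (part 1: the set-up).
-/

set_option autoImplicit false
set_option linter.unusedSectionVars false

open Set Filter Topology Metric Complex MeasureTheory
open scoped ENNReal
open Crest.Agent.R275.Loc2879
open Crest.AlgGeometry.Germ
open Crest.Agent.R257.Defs_219 (sl)

noncomputable section

namespace Crest.Agent.R257.OtK_331

variable {n : ℕ}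

/-- `Jint` of `Defs_219` for general `n` -/
def JN (p : ℝ) (r : Fin (n + 1) → ℝ) (f g : (Fin (n + 1) → ℂ) → ℂ) : ℝ≥0∞ :=
  ∫⁻ x' : Fin n → ℂ in {x' | ∀ i, ‖x' i‖ < r i.succ},
    ∑' z : {z : ℂ // ‖z‖ < r 0 ∧ f (Fin.cons z x') = 0 ∧
        coordDeriv f 0 (Fin.cons z x') ≠ 0},
      ENNReal.ofReal (‖g (Fin.cons z.1 x')‖ ^ (2 / p) / ‖coordDeriv f 0 (Fin.cons z.1 x')‖ ^ 2)

theorem tsum_sub_le {α : Type*} {P Q : α → Prop} (h : ∀ a, P a → Q a) {f g : α → ℝ≥0∞}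
    (hfg : ∀ a, P a → f a ≤ g a) : ∑' a : {a // P a}, f a.1 ≤ ∑' a : {a // Q a}, g a.1 := by
  calc ∑' a : {a // P a}, f a.1 ≤ ∑' a : {a // P a}, g a.1 :=
        ENNReal.tsum_le_tsum fun a => hfg a.1 a.2
    _ = ∑' a : {a // P a}, (fun b : {a // Q a} => g b.1) (Subtype.map id h a) := rfl
    _ ≤ ∑' b : {a // Q a}, g b.1 :=
        ENNReal.tsum_comp_le_tsum_of_injective
          (Subtype.map_injective h Function.injective_id) _

theorem Pd_const {m : ℕ} {R : ℝ} (hR : 0 < R) : Pd (fun _ : Fin m => R) = ball 0 R := by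
  ext x
  rw [mem_ball_zero_iff, pi_norm_lt_iff hR]
  rfl

theorem isOpen_box {m : ℕ} (R : Fin m → ℝ) : IsOpen {x : Fin m → ℂ | ∀ i, ‖x i‖ < R i} :=
  isOpen_Pd R

/-- the sheet integral of a polydisc against `JN` -/
theorem Sh_le {R r : ℝ} {f : (Fin (n + 1) → ℂ) → ℂ} {hf : DifferentiableOn ℂ f (Pd fun _ => R)}
    (hRr : R ≤ r) (p : ℝ) (g : (Fin (n + 1) → ℂ) → ℂ) :
    Sh (⟨fun _ => R, f, hf⟩ : Dat n)
      (fun x => ENNReal.ofReal (‖g x‖ ^ (2 * (1 / p)) * (‖d0 f x‖ ^ 2)⁻¹)) ≤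
      JN p (fun _ => r) f g := by
  unfold Sh JN
  rw [← lintegral_indicator (isOpen_box (fun _ : Fin n => r)).measurableSet]
  refine lintegral_mono fun x' => ?_
  by_cases hx : x' ∈ {x' : Fin n → ℂ | ∀ i, ‖x' i‖ < r}
  · rw [indicator_of_mem hx]
    refine tsum_sub_le
      (f := fun z => ENNReal.ofReal (‖g (Fin.cons z x')‖ ^ (2 * (1 / p)) *
        (‖d0 f (Fin.cons z x')‖ ^ 2)⁻¹))
      (g := fun z => ENNReal.ofReal (‖g (Fin.cons z x')‖ ^ (2 / p) /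
        ‖coordDeriv f 0 (Fin.cons z x')‖ ^ 2)) (fun z hz => ?_) (fun z hz => ?_)
    · obtain ⟨⟨h1, h2⟩, h3⟩ := hz
      refine ⟨(h1 0).trans_le hRr, h3, h2⟩
    · refine le_of_eq ?_
      rw [div_eq_mul_inv, show (2 : ℝ) / p = 2 * (1 / p) by ring]
      rfl
  · rw [indicator_of_notMem hx]
    refine le_of_eq (ENNReal.tsum_eq_zero.2 ?_)
    rintro ⟨z, ⟨h1, h2⟩, h3⟩
    exact absurd (fun i : Fin n => (h1 i.succ).trans_le hRr) hx

/-- finite order in `z` -/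
theorem exists_order {F : (Fin (n + 1) → ℂ) × ℂ → ℂ} (hF : AnalyticAt ℂ F (0, 0))
    (hreg : ∃ᶠ z : ℂ in 𝓝[≠] 0, F (Fin.cons z 0, 0) ≠ 0) :
    ∃ N : ℕ, analyticOrderAt (fun w => PT F (((0 : Fin n → ℂ), (0 : ℂ)), w)) 0 = N := by
  have h0 : ((Fin.cons (0 : ℂ) (0 : Fin n → ℂ) : Fin (n + 1) → ℂ), (0 : ℂ)) =
      ((0 : Fin (n + 1) → ℂ), (0 : ℂ)) := by rw [cons00]
  have hP : AnalyticAt ℂ (PT F) (((0 : Fin n → ℂ), (0 : ℂ)), (0 : ℂ)) := by
    refine an_PT ?_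
    simp only
    rw [h0]; exact hF
  refine ENat.ne_top_iff_exists.1 ?_ |>.imp fun k hk => hk.symm
  intro htop
  rw [analyticOrderAt_eq_top] at htop
  refine hreg ?_
  filter_upwards [htop.filter_mono nhdsWithin_le_nhds] with z hz
  exact not_not.2 hz

/-- no squares for the family -/
theorem no_sq_fam [NeZero n] {F : (Fin (n + 1) → ℂ) × ℂ → ℂ} (hF : AnalyticAt ℂ F (0, 0))
    (hiso : ∀ᶠ x in 𝓝 (0 : Fin (n + 1) → ℂ), (∀ i, coordDeriv (sl F 0) i x = 0) → x = 0)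
    (Q A : ((Fin n → ℂ) × ℂ) × ℂ → ℂ) (hQ : AnalyticAt ℂ Q (0, 0)) (hA : AnalyticAt ℂ A (0, 0))
    (hQ0 : Q (0, 0) = 0) (hQz : ¬ ∀ᶠ w in 𝓝 (0 : ℂ), Q (0, w) = 0) :
    ¬ ∀ᶠ p in 𝓝 ((0 : (Fin n → ℂ) × ℂ), (0 : ℂ)), PT F p = Q p ^ 2 * A p := by
  intro hcon
  have hf : AnalyticAt ℂ (sl F 0) 0 :=
    AnalyticAt.fun_comp (g := F) (f := fun x : Fin (n + 1) → ℂ => (x, (0 : ℂ))) hF
      (analyticAt_id.prod analyticAt_const)
  have hι : AnalyticAt ℂ (fun p : (Fin n → ℂ) × ℂ => ((p.1, (0 : ℂ)), p.2)) (0, 0) :=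
    (analyticAt_fst.prod analyticAt_const).prod analyticAt_snd
  have ht : Tendsto (fun p : (Fin n → ℂ) × ℂ => ((p.1, (0 : ℂ)), p.2)) (𝓝 (0, 0))
      (𝓝 ((0 : (Fin n → ℂ) × ℂ), (0 : ℂ))) := hι.continuousAt.tendsto
  refine no_sq hf hiso (Q := fun p => Q ((p.1, 0), p.2)) (A := fun p => A ((p.1, 0), p.2))
    ?_ ?_ hQ0 hQz ?_
  · exact AnalyticAt.fun_comp (g := Q) (f := fun p : (Fin n → ℂ) × ℂ => ((p.1, (0 : ℂ)), p.2))
      hQ hι
  · exact AnalyticAt.fun_comp (g := A) (f := fun p : (Fin n → ℂ) × ℂ => ((p.1, (0 : ℂ)), p.2))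
      hA hι
  · filter_upwards [ht.eventually hcon] with p hp
    exact hp

/-- the extensions at scale `s`, with their tube bounds, in the coordinates `((x', t), z)` -/
theorem exists_ext {F : (Fin (n + 1) → ℂ) × ℂ → ℂ} {g : (Fin (n + 1) → ℂ) → ℂ} {p : ℝ}
    (hp : 1 ≤ p) {R₀ R : ℝ} (hR : 0 < R) (hRR : R < R₀)
    (hF : ∀ x ∈ ball ((0 : Fin (n + 1) → ℂ), (0 : ℂ)) R₀, AnalyticAt ℂ F x)
    (hg : ∀ x ∈ ball (0 : Fin (n + 1) → ℂ) R₀, AnalyticAt ℂ g x)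
    {r₀ : ℝ} (hr₀ : R ≤ r₀) (hJ : JN p (fun _ => r₀) (sl F 0) g < ∞) :
    ∃ C : ℝ≥0∞, C ≠ ∞ ∧ ∀ s : ℝ, 0 < s → s ≤ 1 →
      ∃ G : (Fin (n + 2) → ℂ) → ℂ,
        (∀ X : Fin (n + 2) → ℂ, ‖X 0‖ < R → Fin.tail X ∈ ball (0 : Fin (n + 1) → ℂ) R →
          AnalyticAt ℂ G X) ∧
        (∀ x ∈ ball (0 : Fin (n + 1) → ℂ) R, coordDeriv (sl F 0) 0 x ≠ 0 → sl F 0 x = 0 →
          G (Fin.cons 0 x) = g x) ∧
        ∀ ρ r : ℝ, ρ ≤ R → r ≤ R →
          ∫⁻ y in tube (PT F) ρ r s, ‖G (ct n y)‖ₑ ^ (2 * (1 / p)) ≤ ENNReal.ofReal (s ^ 2) * C := by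
  have hp0 : 0 < p := by linarith
  have hin : ∀ x ∈ ball (0 : Fin (n + 1) → ℂ) R, ∀ t ∈ ball (0 : ℂ) R,
      (x, t) ∈ ball ((0 : Fin (n + 1) → ℂ), (0 : ℂ)) R₀ := by
    intro x hx t ht
    rw [← ball_prod_same]
    exact ⟨ball_subset_ball hRR.le hx, ball_subset_ball hRR.le ht⟩
  have hsl : ∀ x ∈ closedBall (0 : Fin (n + 1) → ℂ) R, AnalyticAt ℂ (sl F 0) x := by
    intro x hx
    have h1 : AnalyticAt ℂ F (x, 0) := hF _ (by
      rw [← ball_prod_same]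
      exact ⟨closedBall_subset_ball hRR hx, mem_ball_self (by linarith)⟩)
    exact AnalyticAt.fun_comp (g := F) (f := fun x : Fin (n + 1) → ℂ => (x, (0 : ℂ))) h1
      (analyticAt_id.prod analyticAt_const)
  have hfd : DifferentiableOn ℂ (sl F 0) (Pd fun _ => R) := by
    rw [Pd_const hR]
    exact fun x hx => (hsl x (ball_subset_closedBall hx)).differentiableAt.differentiableWithinAt
  set d : Dat n := ⟨fun _ => R, sl F 0, hfd⟩ with hd
  have hdR : Pd d.R = ball 0 R := Pd_const hR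
  have hcomp : IsCompact (closedBall (0 : Fin (n + 1) → ℂ) R) := isCompact_closedBall _ _
  obtain ⟨B1, hB1⟩ := hcomp.exists_bound_of_continuousOn
    (fun x hx => (hsl x hx).continuousAt.continuousWithinAt)
  obtain ⟨B2, hB2⟩ := hcomp.exists_bound_of_continuousOn
    (fun x hx => (hg x (closedBall_subset_ball hRR hx)).continuousAt.continuousWithinAt)
  set K : ℝ≥0∞ := JN p (fun _ => r₀) (sl F 0) g with hKdef
  refine ⟨ENNReal.ofReal (16 * R ^ 2 * (C0 * C0)) * K + 4, ?_, fun s hs hs1 => ?_⟩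
  · exact ENNReal.add_ne_top.2 ⟨ENNReal.mul_ne_top ENNReal.ofReal_ne_top hJ.ne, by simp⟩
  set F' : (Fin (n + 2) → ℂ) → ℂ := fun X => F (Fin.tail X, X 0) with hF'
  have hF'd : DifferentiableOn ℂ F' (Pd (dT d.R R).R) := by
    intro X hX
    rw [mem_PdT, hdR] at hX
    have h1 : DifferentiableAt ℂ F (Fin.tail X, X 0) :=
      (hF _ (hin _ hX.2 _ (mem_ball_zero_iff.2 hX.1))).differentiableAt
    have h2 : DifferentiableAt ℂ (fun X : Fin (n + 2) → ℂ => (Fin.tail X, X 0)) X :=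
      (diff_tail X).prodMk (differentiableAt_apply 0 X)
    exact (h1.comp X h2).differentiableWithinAt
  obtain ⟨G, hG, hGe, hGi⟩ := d4t d hR hF'd (fun x _ => rfl)
    ⟨B1, fun x hx => hB1 x (ball_subset_closedBall (hdR ▸ hx))⟩ (q := 1 / p)
    (by positivity) (by rw [div_le_one hp0]; exact hp) hs hs1
    (G0 := g) (fun x hx => (hg x (ball_subset_ball hRR.le
      (hdR ▸ hx))).differentiableAt.differentiableWithinAt)
    ⟨B2, fun x hx => hB2 x (ball_subset_closedBall (hdR ▸ hx))⟩ (K := K) hJ.ne (Sh_le hr₀ p g)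
  refine ⟨G, ?_, ?_, ?_⟩
  · intro X h1 h2
    exact Crest.Agent.R266.SCV.analyticOnNhd_of_differentiableOn (isOpen_Pd _) hG X
      (mem_PdT.2 ⟨h1, hdR ▸ h2⟩)
  · intro x hx h1 h2
    exact hGe x ⟨hdR ▸ hx, h1⟩ h2
  · intro ρ r hρ hr
    have hSo : IsOpen {X | X ∈ Pd (dT d.R R).R ∧ ‖F' X‖ < s} := by
      have : {X | X ∈ Pd (dT d.R R).R ∧ ‖F' X‖ < s} = Pd (dT d.R R).R ∩ F' ⁻¹' ball 0 s := by
        ext X; simp
      rw [this]
      exact hF'd.continuousOn.isOpen_inter_preimage (isOpen_Pd _) isOpen_ball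
    refine le_trans (lint_ct hSo (f := fun X => ‖G X‖ₑ ^ (2 * (1 / p))) ?_ ?_) hGi
    · exact ENNReal.continuous_rpow_const.comp_continuousOn
        ((hG.continuousOn.mono fun X hX => hX.1).enorm)
    · rintro y ⟨⟨hy1, hy2⟩, hy3⟩
      rw [ct_apply]
      have hy1' := mem_ball_zero_iff.1 hy1
      have ha : ‖y.1.1‖ < R := ((norm_fst_le y.1).trans_lt hy1').trans_le hρ
      have hb : ‖y.1.2‖ < R := ((norm_snd_le y.1).trans_lt hy1').trans_le hρ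
      refine ⟨mem_PdT.2 ⟨?_, ?_⟩, ?_⟩
      · simpa using hb
      · rw [Fin.tail_cons, hdR, mem_ball_zero_iff, pi_norm_lt_iff hR]
        intro i
        refine Fin.cases ?_ (fun j => ?_) i
        · simpa using (mem_ball_zero_iff.1 hy2).trans_le hr
        · simpa using (norm_le_pi_norm y.1.1 j).trans_lt ha
      · simp only [hF', Fin.tail_cons, Fin.cons_zero]
        exact hy3

end Crest.Agent.R257.OtK_331
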