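import Crest.Agent.R257.OtKM_331
import Crest.Agent.R257.CNS_939

/-!
R257 / OtKN_331 (helper331): `L^{2/p}` extension of germs: general `n` (`otN`) and
`Defs_219.OTStmt`.
-/

set_option autoImplicit false
set_option linter.unusedSectionVars false

open Set Filter Topology Metric Complex MeasureTheory
open scoped ENNReal
open Crest.Agent.R275.Loc2879
open Crest.AlgGeometry.Germ
open Crest.Agent.R257.Defs_219 (sl)

noncomputable section

namespace Crest.Agent.R257.OtK_331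

variable {n : ℕ}

theorem mem_ball_prod {X Y : Type*} [NormedAddCommGroup X] [NormedAddCommGroup Y] {a : X} {b : Y}
    {ρ : ℝ} (ha : ‖a‖ < ρ) (hb : ‖b‖ < ρ) : ((a, b) : X × Y) ∈ ball (0 : X × Y) ρ := by
  rw [mem_ball_zero_iff, Prod.norm_def]
  exact max_lt ha hb

theorem an_pv {N : ℕ} (y : (Fin N → ℂ) × ℂ) :
    AnalyticAt ℂ (fun y : (Fin N → ℂ) × ℂ => pv y.1 y.2) y := by
  unfold pv
  refine Finset.analyticAt_fun_sum _ fun j _ => ?_
  exact (((ContinuousLinearMap.proj (R := ℂ) (φ := fun _ : Fin N => ℂ) j).analyticAt _).comp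
    analyticAt_fst).mul (analyticAt_snd.pow _)

/-- a function vanishing at the simple zeros is a multiple -/
theorem exists_mult {E : Type} [NormedAddCommGroup E] [NormedSpace ℂ E] [FiniteDimensional ℂ E]
    {P h : E × ℂ → ℂ} {N : ℕ} {r ρ L : ℝ} {D : E → ℂ} (B : Bx P N r ρ L D)
    (hh : AnalyticOnNhd ℂ h (ball 0 ρ ×ˢ closedBall 0 r))
    (h0 : ∀ b ∈ ball (0 : E) ρ, ∀ z ∈ closedBall (0 : ℂ) r, P (b, z) = 0 → dz P (b, z) ≠ 0 →
      h (b, z) = 0) :
    ∃ a : E × ℂ → ℂ, AnalyticAt ℂ a (0, 0) ∧ ∀ᶠ p in 𝓝 ((0 : E), (0 : ℂ)), h p = a p * P p := by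
  have h0ρ : (0 : E) ∈ ball (0 : E) ρ := mem_ball_self B.ρ_pos
  have hγ0 : ∀ b ∈ ball (0 : E) ρ, D b ≠ 0 → rv r N P h b = 0 := by
    intro b hb hD
    refine rem_eq_zero B.an (B.gd hb) (B.Dz b hb hD) fun z hz hz0 => ?_
    rw [← B.rv_eq hh hb hz hz0]
    exact h0 b hb z hz hz0 (B.Dz b hb hD z hz hz0)
  have hγ : ∀ j : Fin N, ∀ᶠ b in 𝓝 (0 : E), rmd r N P h j b = 0 := by
    intro j
    have ha : AnalyticAt ℂ (rmd r N P h j) 0 :=
      analyticOnNhd_rmd isOpen_ball B.an hh j 0 (B.gd h0ρ)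
    have hD : AnalyticAt ℂ D 0 := B.Dan 0 h0ρ
    have h1 : gm (rmd r N P h j) ha * gm D hD = 0 := by
      rw [gm_mul, gm_eq_zero]
      filter_upwards [ball_mem_nhds (0 : E) B.ρ_pos] with b hb
      by_cases hDb : D b = 0
      · simp [hDb]
      · have := congrFun (hγ0 b hb hDb) j
        have h2 : rmd r N P h j b = 0 := this
        simp [h2]
    rcases mul_eq_zero.1 h1 with h2 | h2
    · exact gm_eq_zero.1 h2
    · exact absurd (gm_eq_zero.1 h2) B.Dne
  refine ⟨quo r N P h, analyticOnNhd_quo isOpen_ball B.an hh _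
    ⟨B.gd h0ρ, mem_ball_self B.r_pos⟩, ?_⟩
  have h3 : ∀ᶠ p in 𝓝 ((0 : E), (0 : ℂ)), ∀ j : Fin N, rmd r N P h j p.1 = 0 :=
    (continuous_fst.tendsto ((0 : E), (0 : ℂ))).eventually (Filter.eventually_all.2 hγ)
  filter_upwards [h3, prod_mem_nhds (ball_mem_nhds (0 : E) B.ρ_pos)
    (closedBall_mem_nhds (0 : ℂ) B.r_pos)] with p hp hpm
  have h4 := div_eq (r := r) (n := N) (f := P) (g := h) B.an hh (B.gd hpm.1) hpm.2
  rw [Prod.mk.eta] at h4
  rw [h4]
  simp [hp]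

/-- **`L^{2/p}` extension of germs**, general `n ≥ 1`: families over the disc -/
theorem otN [NeZero n] {F : (Fin (n + 1) → ℂ) × ℂ → ℂ} {g : (Fin (n + 1) → ℂ) → ℂ} {p : ℝ}
    (hp : 1 ≤ p) (hF : AnalyticAt ℂ F (0, 0))
    (hiso : ∀ᶠ x in 𝓝 (0 : Fin (n + 1) → ℂ), (∀ i, coordDeriv (sl F 0) i x = 0) → x = 0)
    (hreg : ∃ᶠ z : ℂ in 𝓝[≠] 0, F (Fin.cons z 0, 0) ≠ 0)
    (hg : AnalyticAt ℂ g 0) {r₀ : ℝ} (hr₀ : 0 < r₀) (hJ : JN p (fun _ => r₀) (sl F 0) g < ∞) :
    ∃ G : (Fin (n + 1) → ℂ) × ℂ → ℂ, AnalyticAt ℂ G (0, 0) ∧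
      (∃ a : (Fin (n + 1) → ℂ) → ℂ, AnalyticAt ℂ a 0 ∧
        ∀ᶠ x in 𝓝 (0 : Fin (n + 1) → ℂ), G (x, 0) = g x + a x * F (x, 0)) ∧
      ∃ δ : ℝ, 0 < δ ∧ ∃ Ψ : ℂ → ℝ≥0∞, Measurable Ψ ∧ ∫⁻ t, Ψ t < ∞ ∧
        ∀ t : ℂ, ‖t‖ < δ → JN p (fun _ => δ) (sl F t) (sl G t) ≤ Ψ t := by
  have hp0 : 0 < p := by linarith
  -- radii
  obtain ⟨R1, hR1, hF1⟩ := Metric.eventually_nhds_iff_ball.1 hF.eventually_analyticAt
  obtain ⟨R2, hR2, hg2⟩ := Metric.eventually_nhds_iff_ball.1 hg.eventually_analyticAt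
  set R₀ := min R1 R2 with hR₀
  have hR₀0 : 0 < R₀ := lt_min hR1 hR2
  obtain ⟨R, hR, hRlt⟩ := exists_between (lt_min hR₀0 hr₀)
  have hRR : R < R₀ := hRlt.trans_le (min_le_left _ _)
  have hRr : R ≤ r₀ := (hRlt.trans_le (min_le_right _ _)).le
  have hFa : ∀ x ∈ ball ((0 : Fin (n + 1) → ℂ), (0 : ℂ)) R₀, AnalyticAt ℂ F x := fun x hx =>
    hF1 x (ball_subset_ball (min_le_left _ _) hx)
  have hga : ∀ x ∈ ball (0 : Fin (n + 1) → ℂ) R₀, AnalyticAt ℂ g x := fun x hx =>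
    hg2 x (ball_subset_ball (min_le_right _ _) hx)
  have hFa' : ∀ x : Fin (n + 1) → ℂ, ‖x‖ < R → ∀ t : ℂ, ‖t‖ < R → AnalyticAt ℂ F (x, t) := by
    intro x hx t ht
    refine hFa _ ?_
    rw [← ball_prod_same]
    exact ⟨mem_ball_zero_iff.2 (hx.trans hRR), mem_ball_zero_iff.2 (ht.trans hRR)⟩
  have hcons : ∀ (x' : Fin n → ℂ) (z : ℂ), ‖x'‖ < R → ‖z‖ < R →
      ‖(Fin.cons z x' : Fin (n + 1) → ℂ)‖ < R := by
    intro x' z hx hz
    rw [pi_norm_lt_iff hR]
    intro i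
    refine Fin.cases ?_ (fun j => ?_) i
    · simpa using hz
    · simpa using (norm_le_pi_norm x' j).trans_lt hx
  obtain ⟨C, hC, hext⟩ := exists_ext hp hR hRR hFa hga hRr hJ
  set s : ℕ → ℝ := fun k => 1 / ((k : ℝ) + 1) with hs
  have hs0 : ∀ k, 0 < s k := fun k => by rw [hs]; positivity
  have hs1 : ∀ k, s k ≤ 1 := fun k => by
    simp only [hs]
    rw [div_le_one (by positivity)]
    have : (0 : ℝ) ≤ k := Nat.cast_nonneg k
    linarith
  have hst : Tendsto s atTop (𝓝 0) := tendsto_one_div_add_atTop_nhds_zero_nat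
  choose G hGa hGe hGi using fun k => hext (s k) (hs0 k) (hs1 k)
  -- the box for the family
  obtain ⟨N, hN⟩ := exists_order hF hreg
  have hPT0 : AnalyticAt ℂ (PT F) ((0 : (Fin n → ℂ) × ℂ), (0 : ℂ)) := by
    refine an_PT ?_
    simp only [Prod.fst_zero, Prod.snd_zero, cons00]
    exact hF
  obtain ⟨r, ρ, L, D, hrR, hρR, B⟩ := exists_Bx hPT0 hN (fun Q A hQ hA hQ0 hQz =>
    no_sq_fam hF hiso Q A hQ hA hQ0 hQz) hR
  have hGct : ∀ k, AnalyticOnNhd ℂ (fun y => G k (ct n y))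
      (ball (0 : (Fin n → ℂ) × ℂ) ρ ×ˢ closedBall 0 r) := by
    rintro k y ⟨hy1, hy2⟩
    have hy1' := mem_ball_zero_iff.1 hy1
    refine AnalyticAt.fun_comp (g := G k) (f := fun y => ct n y) ?_ ((ct n).analyticAt y)
    refine hGa k _ ?_ ?_
    · rw [ct_apply, Fin.cons_zero]
      exact ((norm_snd_le y.1).trans_lt hy1').trans hρR
    · rw [ct_apply, Fin.tail_cons, mem_ball_zero_iff]
      exact hcons _ _ (((norm_fst_le y.1).trans_lt hy1').trans hρR)
        ((mem_closedBall_zero_iff.1 hy2).trans_lt hrR)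
  have hHaar : (volume : Measure ((Fin n → ℂ) × ℂ)).IsAddHaarMeasure :=
    MeasureTheory.Measure.prod.instIsAddHaarMeasure _ _
  obtain ⟨ρ', hρ', hρρ, c, hc, φ, -, hconv, Φ, hΦm, hΦi, hΦ⟩ :=
    B.lim (volume : Measure ((Fin n → ℂ) × ℂ)) (q := 2 * (1 / p)) (by positivity) hC
      (G := fun k y => G k (ct n y)) (s := s) hGct hs0 hst
      (fun k => hGi k ρ r hρR.le hrR.le)
  have hca : AnalyticOnNhd ℂ c (ball 0 ρ') :=
    Crest.Agent.R266.SCV.analyticOnNhd_of_differentiableOn isOpen_ball hc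
  -- the limit function
  set Gl : (Fin (n + 1) → ℂ) × ℂ → ℂ := fun y => pv (c (Fin.tail y.1, y.2)) (y.1 0) with hGl
  have htail : ∀ y : (Fin (n + 1) → ℂ) × ℂ, AnalyticAt ℂ
      (fun y : (Fin (n + 1) → ℂ) × ℂ => ((Fin.tail y.1 : Fin n → ℂ), y.2)) y := by
    intro y
    refine AnalyticAt.prod ?_ analyticAt_snd
    have h1 : (fun y : (Fin (n + 1) → ℂ) × ℂ => (Fin.tail y.1 : Fin n → ℂ)) =
        fun y => (ContinuousLinearMap.pi fun j : Fin n =>
          ContinuousLinearMap.proj (R := ℂ) (φ := fun _ : Fin (n + 1) => ℂ) j.succ) y.1 := rfl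
    rw [h1]
    exact (ContinuousLinearMap.analyticAt _ _).comp analyticAt_fst
  have hzero : ∀ y : (Fin (n + 1) → ℂ) × ℂ, AnalyticAt ℂ
      (fun y : (Fin (n + 1) → ℂ) × ℂ => y.1 0) y := by
    intro y
    exact ((ContinuousLinearMap.proj (R := ℂ) (φ := fun _ : Fin (n + 1) => ℂ) 0).analyticAt _).comp
      analyticAt_fst
  have hGla : AnalyticAt ℂ Gl (0, 0) := by
    have h1 : AnalyticAt ℂ (fun y : (Fin (n + 1) → ℂ) × ℂ => c (Fin.tail y.1, y.2))
        ((0 : Fin (n + 1) → ℂ), (0 : ℂ)) :=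
      AnalyticAt.fun_comp (g := c) (f := fun y : (Fin (n + 1) → ℂ) × ℂ => (Fin.tail y.1, y.2))
        (hca _ (mem_ball_self hρ')) (htail _)
    exact AnalyticAt.fun_comp (g := fun y : (Fin N → ℂ) × ℂ => pv y.1 y.2)
      (f := fun y : (Fin (n + 1) → ℂ) × ℂ => (c (Fin.tail y.1, y.2), y.1 0)) (an_pv _)
      (h1.prod (hzero _))
  refine ⟨Gl, hGla, ?_, min ρ' r, lt_min hρ' B.r_pos, fun t => ∫⁻ x' : Fin n → ℂ, Φ (x', t),
    ?_, ?_, ?_⟩
  · -- `Gl(·, 0) = g + a f`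
    have hm0 : 0 < min ρ' r := lt_min hρ' B.r_pos
    have hf : AnalyticAt ℂ (sl F 0) 0 :=
      AnalyticAt.fun_comp (g := F) (f := fun x : Fin (n + 1) → ℂ => (x, (0 : ℂ))) hF
        (analyticAt_id.prod analyticAt_const)
    have hP0 : AnalyticAt ℂ (P0 (sl F 0)) ((0 : Fin n → ℂ), (0 : ℂ)) := by
      refine an_P0 ?_
      simp only [cons00]
      exact hf
    have hN' : analyticOrderAt (fun w => P0 (sl F 0) ((0 : Fin n → ℂ), w)) 0 = N := hN
    obtain ⟨r', ρ'', L', D', hr'R, hρ''R, B'⟩ := exists_Bx hP0 hN'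
      (fun Q A hQ hA hQ0 hQz hcon => no_sq hf hiso hQ hA hQ0 hQz hcon) hm0
    have hr'r : r' < r := hr'R.trans_le (min_le_right _ _)
    have hρ''ρ : ρ'' < ρ' := hρ''R.trans_le (min_le_left _ _)
    set h : (Fin n → ℂ) × ℂ → ℂ := fun y => pv (c (y.1, 0)) y.2 - g (Fin.cons y.2 y.1) with hh
    have hha : AnalyticOnNhd ℂ h (ball (0 : Fin n → ℂ) ρ'' ×ˢ closedBall 0 r') := by
      rintro y ⟨hy1, hy2⟩
      have hy1' := mem_ball_zero_iff.1 hy1
      have hy2' := mem_closedBall_zero_iff.1 hy2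
      have h1 : AnalyticAt ℂ (fun y : (Fin n → ℂ) × ℂ => c (y.1, 0)) y := by
        refine AnalyticAt.fun_comp (g := c) (f := fun y : (Fin n → ℂ) × ℂ => (y.1, (0 : ℂ))) ?_
          (analyticAt_fst.prod analyticAt_const)
        refine hca _ ?_
        exact mem_ball_prod (hy1'.trans hρ''ρ) (by simpa using hρ')
      have h2 : AnalyticAt ℂ (fun y : (Fin n → ℂ) × ℂ => pv (c (y.1, 0)) y.2) y :=
        AnalyticAt.fun_comp (g := fun y : (Fin N → ℂ) × ℂ => pv y.1 y.2)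
          (f := fun y : (Fin n → ℂ) × ℂ => (c (y.1, 0), y.2)) (an_pv _)
          (h1.prod analyticAt_snd)
      refine h2.sub (an_P0 (f := g) (hga _ ?_))
      rw [mem_ball_zero_iff]
      refine (hcons _ _ ?_ ?_).trans hRR
      · linarith
      · linarith
    obtain ⟨a, ha, hae⟩ := exists_mult B' hha (by
      intro b hb z hz h0 hd
      have hb' := mem_ball_zero_iff.1 hb
      have hz' := mem_closedBall_zero_iff.1 hz
      have hcR : ‖(Fin.cons z b : Fin (n + 1) → ℂ)‖ < R := hcons _ _ (by linarith) (by linarith)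
      have hbz : ((b, (0 : ℂ)) : (Fin n → ℂ) × ℂ) ∈ ball (0 : (Fin n → ℂ) × ℂ) ρ' :=
        mem_ball_prod (hb'.trans hρ''ρ) (by simpa using hρ')
      have hlim := hconv (b, 0) hbz z (mem_closedBall_zero_iff.2 (by linarith)) h0
      have hdf : DifferentiableAt ℂ (sl F 0) (Fin.cons z b) := by
        have h1 := hFa' _ hcR 0 (by simpa using hR)
        exact (AnalyticAt.fun_comp (g := F) (f := fun x : Fin (n + 1) → ℂ => (x, (0 : ℂ))) h1
          (analyticAt_id.prod analyticAt_const)).differentiableAt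
      have hd' : coordDeriv (sl F 0) 0 (Fin.cons z b) ≠ 0 := by
        rw [← dz_P0 (p := (b, z)) hdf]; exact hd
      have hconst : ∀ m, G (φ m) (ct n ((b, 0), z)) = g (Fin.cons z b) := by
        intro m
        rw [ct_apply]
        exact hGe (φ m) _ (mem_ball_zero_iff.2 hcR) hd' h0
      simp only [hconst] at hlim
      have := tendsto_nhds_unique hlim tendsto_const_nhds
      simp only [hh]
      rw [this, sub_self])
    refine ⟨fun x => a (Fin.tail x, x 0), ?_, ?_⟩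
    · have h1 : AnalyticAt ℂ (fun x : Fin (n + 1) → ℂ => ((Fin.tail x : Fin n → ℂ), x 0)) 0 := by
        have h2 : (fun x : Fin (n + 1) → ℂ => (Fin.tail x : Fin n → ℂ)) =
          fun y => (ContinuousLinearMap.pi fun j : Fin n =>
            ContinuousLinearMap.proj (R := ℂ) (φ := fun _ : Fin (n + 1) => ℂ) j.succ) y := rfl
        refine AnalyticAt.prod ?_ ?_
        · change AnalyticAt ℂ (fun x : Fin (n + 1) → ℂ => (Fin.tail x : Fin n → ℂ)) 0
          rw [h2]; exact ContinuousLinearMap.analyticAt _ _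
        · exact (ContinuousLinearMap.proj (R := ℂ) (φ := fun _ : Fin (n + 1) => ℂ) 0).analyticAt _
      exact AnalyticAt.fun_comp (g := a) (f := fun x : Fin (n + 1) → ℂ => (Fin.tail x, x 0)) ha h1
    · have ht : Tendsto (fun x : Fin (n + 1) → ℂ => ((Fin.tail x : Fin n → ℂ), x 0)) (𝓝 0)
          (𝓝 ((0 : Fin n → ℂ), (0 : ℂ))) := by
        have h2 : Continuous (fun x : Fin (n + 1) → ℂ => ((Fin.tail x : Fin n → ℂ), x 0)) := by
          refine Continuous.prodMk ?_ (continuous_apply 0)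
          exact continuous_pi fun j => continuous_apply j.succ
        exact h2.tendsto 0
      filter_upwards [ht.eventually hae] with x hx
      simp only [hh, P0, Fin.cons_self_tail] at hx
      simp only [hGl]
      rw [sub_eq_iff_eq_add] at hx
      rw [hx]
      simp only [sl]
      ring
  · exact hΦm.lintegral_prod_left'
  · rw [Measure.volume_eq_prod, lintegral_prod_symm _ hΦm.aemeasurable] at hΦi
    exact hΦi
  · intro t ht
    have htρ : ‖t‖ < ρ' := ht.trans_le (min_le_left _ _)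
    have hρR' : ρ' < R := by linarith
    refine le_trans ?_ (setLIntegral_le_lintegral
      {x' : Fin n → ℂ | ∀ i, ‖x' i‖ < min ρ' r} fun x' => Φ (x', t))
    unfold JN
    refine setLIntegral_mono' (isOpen_box (fun _ : Fin n => min ρ' r)).measurableSet
      fun x' hx' => ?_
    have hx1 : ‖x'‖ < ρ' := by
      rw [pi_norm_lt_iff hρ']
      exact fun i => (hx' i).trans_le (min_le_left _ _)
    have hb : ((x', t) : (Fin n → ℂ) × ℂ) ∈ ball (0 : (Fin n → ℂ) × ℂ) ρ' :=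
      mem_ball_prod hx1 htρ
    refine le_trans ?_ (hΦ (x', t) hb)
    have hdz : ∀ z : ℂ, ‖z‖ < r → dz (PT F) ((x', t), z) =
        coordDeriv (sl F t) 0 (Fin.cons z x') := by
      intro z hz
      exact dz_PT (p := ((x', t), z)) (hFa' _ (hcons _ _ (by linarith) (by linarith)) _
        (by linarith)).differentiableAt
    refine tsum_sub_le
      (f := fun z => ENNReal.ofReal (‖sl Gl t (Fin.cons z x')‖ ^ (2 / p) /
        ‖coordDeriv (sl F t) 0 (Fin.cons z x')‖ ^ 2))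
      (g := fun z => ENNReal.ofReal (‖pv (c (x', t)) z‖ ^ (2 * (1 / p)) *
        (‖dz (PT F) ((x', t), z)‖ ^ 2)⁻¹)) (fun z hz => ?_) (fun z hz => ?_)
    · obtain ⟨h1, h2, h3⟩ := hz
      have h4 : ‖z‖ < r := h1.trans_le (min_le_right _ _)
      refine ⟨mem_ball_zero_iff.2 h4, h2, ?_⟩
      rw [hdz z h4]; exact h3
    · obtain ⟨h1, h2, h3⟩ := hz
      have h4 : ‖z‖ < r := h1.trans_le (min_le_right _ _)
      refine le_of_eq ?_
      rw [hdz z h4, div_eq_mul_inv, show (2 : ℝ) / p = 2 * (1 / p) by ring]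
      simp only [sl, hGl, Fin.tail_cons, Fin.cons_zero]

end Crest.Agent.R257.OtK_331
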