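import Crest.Agent.R257.OtKN_331

/-!
R257 / OtKO_331 (helper331): `Defs_219.OTStmt`.
-/

set_option autoImplicit false
set_option linter.unusedSectionVars false

open Set Filter Topology Metric Complex MeasureTheory
open scoped ENNReal
open Crest.AlgGeometry.Germ
open Crest.Agent.R257.Defs_219

noncomputable section

namespace Crest.Agent.R257.OtK_331

variable {n : ℕ}

/-- a germ with finite dimensional local algebra has an isolated critical point -/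
theorem isolated_of_colFin {f : (Fin n → ℂ) → ℂ} (hf : AnalyticAt ℂ f 0) (hfin : ColFin (par f)) :
    ∀ᶠ x in 𝓝 (0 : Fin n → ℂ), (∀ i, coordDeriv f i x = 0) → x = 0 := by
  have han : ∀ j : Fin n, AnalyticAt ℂ (fun q : (Fin n → ℂ) × ℂ => coordDeriv f j q.1) 0 := by
    intro j
    have h1 : AnalyticAt ℂ (coordDeriv f j) 0 :=
      ((ContinuousLinearMap.apply ℂ ℂ (Pi.single j 1 : Fin n → ℂ)).analyticAt _).comp hf.fderiv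
    exact AnalyticAt.fun_comp (g := coordDeriv f j) (f := fun q : (Fin n → ℂ) × ℂ => q.1) h1
      analyticAt_fst
  have h1 := UI939.cn_col (fun j (q : (Fin n → ℂ) × ℂ) => coordDeriv f j q.1) han hfin
    (Eventually.of_forall fun t => le_rfl).frequently
  have h2 : Tendsto (fun x : Fin n → ℂ => (x, (0 : ℂ))) (𝓝 0) (𝓝 0) :=
    (Continuous.prodMk continuous_id continuous_const).tendsto' _ _ rfl
  exact h2.eventually h1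

/-- strong form of `OTStmt`, general `n ≥ 1`: one radius, and an integrable majorant in `t` -/
theorem ot_strong [NeZero n] {F : (Fin (n + 1) → ℂ) × ℂ → ℂ} {g : (Fin (n + 1) → ℂ) → ℂ} {p : ℝ}
    (hp : 1 ≤ p) (hF : AnalyticAt ℂ F (0, 0)) (hfin : ColFin (par (sl F 0)))
    (hreg : ∃ᶠ z : ℂ in 𝓝[≠] 0, sl F 0 (Fin.cons z 0) ≠ 0)
    (hg : AnalyticAt ℂ g 0) (hJ : ∃ r : ℝ, 0 < r ∧ JN p (fun _ => r) (sl F 0) g < ∞) :
    ∃ G : (Fin (n + 1) → ℂ) × ℂ → ℂ, AnalyticAt ℂ G (0, 0) ∧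
      (∃ a : (Fin (n + 1) → ℂ) → ℂ, AnalyticAt ℂ a 0 ∧
        ∀ᶠ x in 𝓝 (0 : Fin (n + 1) → ℂ), G (x, 0) = g x + a x * F (x, 0)) ∧
      ∃ δ : ℝ, 0 < δ ∧ ∃ Ψ : ℂ → ℝ≥0∞, Measurable Ψ ∧ ∫⁻ t, Ψ t < ∞ ∧
        ∀ t : ℂ, ‖t‖ < δ → JN p (fun _ => δ) (sl F t) (sl G t) ≤ Ψ t := by
  obtain ⟨r₀, hr₀, hJ⟩ := hJ
  have hf : AnalyticAt ℂ (sl F 0) 0 :=
    AnalyticAt.fun_comp (g := F) (f := fun x : Fin (n + 1) → ℂ => (x, (0 : ℂ))) hF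
      (analyticAt_id.prod analyticAt_const)
  exact otN hp hF (isolated_of_colFin hf hfin) hreg hg hr₀ hJ

/-- almost every `t`, general `n ≥ 1` -/
theorem ot_ae [NeZero n] {F : (Fin (n + 1) → ℂ) × ℂ → ℂ} {g : (Fin (n + 1) → ℂ) → ℂ} {p : ℝ}
    (hp : 1 ≤ p) (hF : AnalyticAt ℂ F (0, 0)) (hfin : ColFin (par (sl F 0)))
    (hreg : ∃ᶠ z : ℂ in 𝓝[≠] 0, sl F 0 (Fin.cons z 0) ≠ 0)
    (hg : AnalyticAt ℂ g 0) (hJ : ∃ r : ℝ, 0 < r ∧ JN p (fun _ => r) (sl F 0) g < ∞) :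
    ∃ G : (Fin (n + 1) → ℂ) × ℂ → ℂ, AnalyticAt ℂ G (0, 0) ∧
      (∃ a : (Fin (n + 1) → ℂ) → ℂ, AnalyticAt ℂ a 0 ∧
        ∀ᶠ x in 𝓝 (0 : Fin (n + 1) → ℂ), G (x, 0) = g x + a x * F (x, 0)) ∧
      ∃ δ : ℝ, 0 < δ ∧ ∀ᵐ t : ℂ, ‖t‖ < δ → JN p (fun _ => δ) (sl F t) (sl G t) < ∞ := by
  obtain ⟨G, hG, ha, δ, hδ, Ψ, hΨm, hΨi, hΨ⟩ := ot_strong hp hF hfin hreg hg hJ
  refine ⟨G, hG, ha, δ, hδ, ?_⟩
  filter_upwards [ae_lt_top hΨm hΨi.ne] with t ht htδ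
  exact (hΨ t htδ).trans_lt ht

theorem otStmt : OTStmt := by
  intro F g p hp hF _ hI hg hJ
  obtain ⟨G, hG, ha, δ, hδ, hae⟩ := ot_ae (n := 2) hp hF hI.fin hI.reg hg hJ
  refine ⟨G, hG, ha, δ, hδ, ?_⟩
  filter_upwards [hae] with t ht htδ
  exact ⟨δ, hδ, ht htδ⟩

end Crest.Agent.R257.OtK_331
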