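import Crest.Agent.R257.T0_939

/-!
# Row 257 (S0395), C-LOG (helper980), plane part, file 1: the reduced discriminant

* `descend`   : functions of `s` invariant under `s ↦ ζ s`, `ζ ^ N = 1`, are functions of `s ^ N`;
* `Dp T x`    : monic polynomial with `Dp T (s ^ N₀) = ∏ j, (X - φ j s)`;
* `Dl T l q`  : the `l`-th derivative in `y'`, analytic in `q = (x', y')`.
-/

set_option autoImplicit false
set_option linter.unusedSectionVars false

open Polynomial Set Filter Topology Metric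
open Crest.AlgGeometry.Germ Crest.Agent.R257.T387 Crest.Agent.R257.T0_939

noncomputable section

namespace Crest.Agent.R257.Pl_980

/-- the `N`-th root -/
def rt (N : ℕ) (x : ℂ) : ℂ := x ^ ((N : ℂ)⁻¹)

theorem rt_pow {N : ℕ} (hN : 0 < N) (x : ℂ) : rt N x ^ N = x := Complex.cpow_nat_inv_pow x hN.ne'

theorem norm_rt {N : ℕ} (hN : 0 < N) (x : ℂ) : ‖rt N x‖ ^ N = ‖x‖ := by
  rw [← norm_pow, rt_pow hN]

theorem rt_zero {N : ℕ} (hN : 0 < N) : rt N 0 = 0 := by
  have h := norm_rt hN 0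
  rw [norm_zero] at h
  exact norm_eq_zero.1 (pow_eq_zero_iff hN.ne' |>.1 h)

theorem rt_lt {N : ℕ} (hN : 0 < N) {ρ : ℝ} (hρ : 0 ≤ ρ) {x : ℂ} (h : ‖x‖ < ρ ^ N) :
    ‖rt N x‖ < ρ := by
  rw [← norm_rt hN x] at h
  exact lt_of_pow_lt_pow_left₀ _ hρ h

/-- the root of a power -/
theorem rt_of_pow {N : ℕ} (hN : 0 < N) (s : ℂ) : ∃ ζ : ℂ, ζ ^ N = 1 ∧ rt N (s ^ N) = ζ * s := by
  by_cases hs : s = 0
  · refine ⟨1, one_pow _, ?_⟩
    rw [hs, zero_pow hN.ne', rt_zero hN, mul_zero]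
  · refine ⟨rt N (s ^ N) / s, ?_, by field_simp⟩
    rw [div_pow, rt_pow hN, div_self (pow_ne_zero _ hs)]

theorem rt_cont0 {N : ℕ} (hN : 0 < N) : ContinuousAt (rt N) 0 := by
  rw [ContinuousAt, rt_zero hN, Metric.tendsto_nhds_nhds]
  intro ε hε
  refine ⟨ε ^ N, pow_pos hε _, fun {x} hx => ?_⟩
  rw [dist_zero_right] at hx ⊢
  exact rt_lt hN hε.le hx

/-- **invariant functions descend** -/
theorem descend {N : ℕ} (hN : 0 < N) {ρ : ℝ} (hρ : 0 < ρ) {a : ℂ → ℂ}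
    (ha : AnalyticOnNhd ℂ a (ball 0 ρ))
    (hinv : ∀ ζ : ℂ, ζ ^ N = 1 → ∀ s ∈ ball (0 : ℂ) ρ, a (ζ * s) = a s) :
    AnalyticOnNhd ℂ (fun x => a (rt N x)) (ball 0 (ρ ^ N)) ∧
      ∀ s ∈ ball (0 : ℂ) ρ, a (rt N (s ^ N)) = a s := by
  have h1 : ∀ s ∈ ball (0 : ℂ) ρ, a (rt N (s ^ N)) = a s := by
    intro s hs
    obtain ⟨ζ, hζ, h2⟩ := rt_of_pow hN s
    rw [h2]
    exact hinv ζ hζ s hs
  refine ⟨?_, h1⟩
  have hne : ∀ x ∈ ball (0 : ℂ) (ρ ^ N), x ≠ 0 → DifferentiableAt ℂ (fun x => a (rt N x)) x := by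
    intro x hx h0
    set s := rt N x with hs
    have hsN : s ^ N = x := rt_pow hN x
    have hs0 : s ≠ 0 := by
      intro h
      rw [h, zero_pow hN.ne'] at hsN
      exact h0 hsN.symm
    have hsρ : s ∈ ball (0 : ℂ) ρ := mem_ball_zero_iff.2 (rt_lt hN hρ.le (mem_ball_zero_iff.1 hx))
    have hd : HasStrictDerivAt (fun y : ℂ => y ^ N) ((N : ℂ) * s ^ (N - 1)) s :=
      hasStrictDerivAt_pow N s
    have hd0 : (N : ℂ) * s ^ (N - 1) ≠ 0 :=
      mul_ne_zero (by exact_mod_cast hN.ne') (pow_ne_zero _ hs0)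
    set g := hd.localInverse (fun y : ℂ => y ^ N) _ _ hd0 with hg
    have hgd : HasStrictDerivAt g ((N : ℂ) * s ^ (N - 1))⁻¹ (s ^ N) := hd.to_localInverse hd0
    have hgs : g (s ^ N) = s := by
      have := (hd.hasStrictFDerivAt_equiv hd0).localInverse_apply_image
      exact this
    have hgr : ∀ᶠ y in 𝓝 (s ^ N), (g y) ^ N = y :=
      (hd.hasStrictFDerivAt_equiv hd0).eventually_right_inverse
    rw [hsN] at hgd hgs hgr
    have hgc : ∀ᶠ y in 𝓝 x, g y ∈ ball (0 : ℂ) ρ := by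
      have hc : ContinuousAt g x := hgd.hasDerivAt.continuousAt
      exact hc.eventually (by rw [hgs]; exact isOpen_ball.mem_nhds hsρ)
    have hev : (fun x => a (rt N x)) =ᶠ[𝓝 x] fun y => a (g y) := by
      filter_upwards [hgr, hgc] with y h2 h3
      rw [← h1 (g y) h3, h2]
    refine DifferentiableAt.congr_of_eventuallyEq ?_ hev
    have h4 : DifferentiableAt ℂ a (g x) := by rw [hgs]; exact (ha s hsρ).differentiableAt
    exact DifferentiableAt.comp x h4 hgd.hasDerivAt.differentiableAt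
  have hd : DifferentiableOn ℂ (fun x => a (rt N x)) (ball 0 (ρ ^ N)) := by
    have h0 : (0 : ℂ) ∈ ball (0 : ℂ) (ρ ^ N) := mem_ball_self (pow_pos hρ _)
    refine (Complex.differentiableOn_compl_singleton_and_continuousAt_iff
      (isOpen_ball.mem_nhds h0)).1 ⟨fun x hx => (hne x hx.1 hx.2).differentiableWithinAt, ?_⟩
    refine ContinuousAt.comp (f := rt N) (g := a) ?_ (rt_cont0 hN)
    rw [rt_zero hN]
    exact (ha 0 (mem_ball_self hρ)).continuousAt
  exact hd.analyticOnNhd isOpen_ball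

/-- coefficients of a product of linear factors -/
theorem coeff_prod_an {ι : Type*} {φ : ι → ℂ → ℂ} {U : Set ℂ} (J : Finset ι)
    (hφ : ∀ j ∈ J, AnalyticOnNhd ℂ (φ j) U) (k : ℕ) :
    AnalyticOnNhd ℂ (fun s => (∏ j ∈ J, (X - C (φ j s))).coeff k) U := by
  classical
  induction J using Finset.induction_on generalizing k with
  | empty =>
    simp only [Finset.prod_empty]
    exact analyticOnNhd_const
  | insert j J hj ih =>
    have ih' := fun k => ih (fun i hi => hφ i (Finset.mem_insert_of_mem hi)) k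
    have hjan := hφ j (Finset.mem_insert_self j J)
    simp only [Finset.prod_insert hj, sub_mul, coeff_sub, coeff_C_mul]
    cases k with
    | zero =>
      simp only [mul_coeff_zero, coeff_X_zero, zero_mul, zero_sub]
      exact (hjan.mul (ih' 0)).neg
    | succ k =>
      simp only [coeff_X_mul]
      exact (ih' k).sub (hjan.mul (ih' (k + 1)))

variable {f : (Fin 3 → ℂ) → ℂ} (T : TB f)

/-- the product of the branches -/
def Pb (s : ℂ) : ℂ[X] := ∏ j, (X - C (T.φ j s))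

/-- the reduced discriminant, as a polynomial in `y'` -/
def Dp (x : ℂ) : ℂ[X] := Pb T (rt T.N₀ x)

theorem Pb_monic (s : ℂ) : (Pb T s).Monic := monic_prod_of_monic _ _ fun _ _ => monic_X_sub_C _

theorem Pb_natDegree (s : ℂ) : (Pb T s).natDegree = T.m := by
  unfold Pb
  rw [natDegree_prod_of_monic _ _ fun _ _ => monic_X_sub_C _]
  simp

theorem Dp_monic (x : ℂ) : (Dp T x).Monic := Pb_monic T _

theorem Dp_natDegree (x : ℂ) : (Dp T x).natDegree = T.m := Pb_natDegree T _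

theorem phi_inj' {s : ℂ} (hs : s ∈ ball (0 : ℂ) T.ρ) (h0 : s ≠ 0) :
    Function.Injective fun i => T.φ i s := by
  intro i j hij
  by_contra hne
  have h1 := T.φ_sub i j hne s hs
  have h2 : T.φ i s - T.φ j s = 0 := sub_eq_zero.2 hij
  rw [h2] at h1
  exact mul_ne_zero (pow_ne_zero _ h0) (T.u_ne i j hne s hs) h1.symm

variable {T}

theorem Pb_inv (hG : GalPt T) {ζ : ℂ} (hζ : ζ ^ T.N₀ = 1) {s : ℂ} (hs : s ∈ ball (0 : ℂ) T.ρ) :
    Pb T (ζ * s) = Pb T s := by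
  by_cases h0 : s = 0
  · rw [h0, mul_zero]
  · have hζn : ‖ζ‖ = 1 := by
      have h1 := congrArg norm hζ
      rw [norm_pow, norm_one] at h1
      exact (pow_eq_one_iff_of_nonneg (norm_nonneg _) T.N₀_pos.ne').1 h1
    have hζ0 : ζ ≠ 0 := by
      rw [← norm_pos_iff, hζn]; exact one_pos
    have hs' : ζ * s ∈ ball (0 : ℂ) T.ρ := by
      rw [mem_ball_zero_iff] at hs ⊢
      rw [norm_mul, hζn, one_mul]; exact hs
    choose σ hσ using hG ζ hζ s hs
    have hinj : Function.Injective σ := by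
      intro i j hij
      refine phi_inj' T hs' (mul_ne_zero hζ0 h0) ?_
      change T.φ i (ζ * s) = T.φ j (ζ * s)
      rw [hσ i, hσ j, hij]
    have hbij : Function.Bijective σ := Finite.injective_iff_bijective.1 hinj
    unfold Pb
    exact Fintype.prod_bijective σ hbij _ _ fun i => by rw [hσ i]

theorem Dp_pow (hG : GalPt T) {s : ℂ} (hs : s ∈ ball (0 : ℂ) T.ρ) :
    Dp T (s ^ T.N₀) = ∏ j, (X - C (T.φ j s)) := by
  obtain ⟨ζ, hζ, h2⟩ := rt_of_pow T.N₀_pos s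
  unfold Dp
  rw [h2]
  exact Pb_inv hG hζ hs

theorem Dp_coeff_an (hG : GalPt T) (k : ℕ) :
    AnalyticOnNhd ℂ (fun x => (Dp T x).coeff k) (ball 0 (T.ρ ^ T.N₀)) :=
  (descend T.N₀_pos T.ρ_pos (a := fun s => (Pb T s).coeff k)
    (coeff_prod_an _ (fun j _ => T.φ_an j) k) (fun ζ hζ s hs => by
      rw [Pb_inv hG hζ hs])).1

variable (T) in
/-- the `l`-th derivative in `y'` -/
def Dl (l : ℕ) (q : ℂ × ℂ) : ℂ := (derivative^[l] (Dp T q.1)).eval q.2

/-- polynomials with analytic coefficients -/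
theorem eval_an {P : ℂ → ℂ[X]} {x y : ℂ} {n : ℕ} (hn : ∀ᶠ x' in 𝓝 x, (P x').natDegree ≤ n)
    (hP : ∀ k, AnalyticAt ℂ (fun x => (P x).coeff k) x) (l : ℕ) :
    AnalyticAt ℂ (fun q : ℂ × ℂ => (derivative^[l] (P q.1)).eval q.2) (x, y) := by
  have h1 : AnalyticAt ℂ (fun q : ℂ × ℂ => ∑ k ∈ Finset.range (n + 1),
      ((k + l).descFactorial l : ℂ) * (P q.1).coeff (k + l) * q.2 ^ k) (x, y) := by
    refine Finset.analyticAt_fun_sum _ fun k _ => ?_
    refine (analyticAt_const.mul ?_).mul (analyticAt_snd.pow k)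
    exact AnalyticAt.comp (g := fun x => (P x).coeff (k + l)) (f := Prod.fst)
      (x := ((x, y) : ℂ × ℂ)) (hP (k + l)) analyticAt_fst
  refine h1.congr ?_
  have h2 : ∀ᶠ q : ℂ × ℂ in 𝓝 (x, y), (P q.1).natDegree ≤ n :=
    (continuousAt_fst (p := ((x, y) : ℂ × ℂ))).eventually hn
  filter_upwards [h2] with q hq
  have h3 : (derivative^[l] (P q.1)).natDegree < n + 1 :=
    lt_of_le_of_lt ((natDegree_iterate_derivative _ _).trans (Nat.sub_le _ _)) (by omega)
  rw [eval_eq_sum_range' h3]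
  refine Finset.sum_congr rfl fun k _ => ?_
  rw [coeff_iterate_derivative, nsmul_eq_mul]

theorem Dl_an (hG : GalPt T) (l : ℕ) {q : ℂ × ℂ} (hq : ‖q.1‖ < T.ρ ^ T.N₀) :
    AnalyticAt ℂ (Dl T l) q :=
  eval_an (x := q.1) (y := q.2) (Eventually.of_forall fun x => (Dp_natDegree T x).le)
    (fun k => Dp_coeff_an hG k q.1 (mem_ball_zero_iff.2 hq)) l

/-- in the parameter `s`, `x' = s ^ N` -/
theorem Dl_s (hG : GalPt T) (l : ℕ) {s : ℂ} (hs : ‖s‖ ^ T.M < T.ρ) (y : ℂ) :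
    Dl T l (s ^ T.N, y) = (derivative^[l] (∏ j, (X - C (T.φ j (s ^ T.M))))).eval y := by
  have h1 : s ^ T.N = (s ^ T.M) ^ T.N₀ := by rw [← pow_mul, mul_comm]; rfl
  unfold Dl
  simp only
  rw [h1, Dp_pow hG (mem_ball_zero_iff.2 (by rw [norm_pow]; exact hs))]

theorem Dl0_s (hG : GalPt T) {s : ℂ} (hs : ‖s‖ ^ T.M < T.ρ) (y : ℂ) :
    Dl T 0 (s ^ T.N, y) = ∏ j, (y - T.φ j (s ^ T.M)) := by
  rw [Dl_s hG 0 hs y]
  simp [eval_prod]

end Crest.Agent.R257.Pl_980
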