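import Crest.Agent.R257.Pl1_980
import Crest.Agent.R257.CLL1_39

/-!
# Row 257 (S0395), C-LOG (helper980), plane part, file 2: the `DF` instance
-/

set_option autoImplicit false

open Polynomial Set Filter Topology Metric
open Crest.AlgGeometry.Germ Crest.Agent.R257.T387 Crest.Agent.R257.T0_939

noncomputable section

namespace Crest.Agent.R257.Pl_980

variable {f : (Fin 3 → ℂ) → ℂ} {T : TB f}

/-- **the reduced discriminant exists** -/
theorem df (hG : GalPt T) : CLL_39.DF T (Dp T) (T.ρ ^ T.N₀) where
  R_pos := pow_pos T.ρ_pos _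
  deg x _ := Dp_natDegree T x
  an i := Dp_coeff_an hG i
  eq _ hs _ := Dp_pow hG hs

end Crest.Agent.R257.Pl_980
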