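import Crest.Agent.R257.Pl2_980

/-!
# Row 257 (S0395), C-LOG (helper980), plane part, file 3: the reduced discriminant at a vertex

`Gt T i k α` : the polynomial in `w` with
`D (α ^ N) ∘ (φ_i (α ^ M) + α ^ (M k) w) = α ^ (M ∑_j min (del i j) k) · Gt T i k α`,
coefficients analytic in `α`; at `α = 0` it is a nonzero constant times a monic polynomial of degree
`nn T i k` (number of the branches through the vertex).
-/

set_option autoImplicit false
set_option linter.unusedSectionVars false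

open Polynomial Set Filter Topology Metric
open Crest.AlgGeometry.Germ Crest.Agent.R257.T387 Crest.Agent.R257.T0_939
open Crest.Agent.R257.CLL_39

noncomputable section

namespace Crest.Agent.R257.Pl_980

/-- derivatives of a composition with a linear polynomial -/
theorem iter_comp (p : ℂ[X]) (a b : ℂ) (l : ℕ) :
    derivative^[l] (p.comp (C a + C b * X)) = C (b ^ l) * (derivative^[l] p).comp (C a + C b * X) := by
  induction l generalizing p with
  | zero => simp
  | succ l ih =>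
    have h1 : derivative (C a + C b * X : ℂ[X]) = C b := by simp
    rw [Function.iterate_succ_apply, Function.iterate_succ_apply, derivative_comp,
      h1, iterate_derivative_C_mul, ih, pow_succ', C_mul, mul_assoc]

/-- coefficients of a product of linear polynomials with analytic coefficients -/
theorem coeff_prod_an2 {ι : Type*} {A B : ι → ℂ → ℂ} {U : Set ℂ} (J : Finset ι)
    (hA : ∀ j ∈ J, AnalyticOnNhd ℂ (A j) U) (hB : ∀ j ∈ J, AnalyticOnNhd ℂ (B j) U) (k : ℕ) :
    AnalyticOnNhd ℂ (fun s => (∏ j ∈ J, (C (A j s) + C (B j s) * X)).coeff k) U := by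
  classical
  induction J using Finset.induction_on generalizing k with
  | empty =>
    simp only [Finset.prod_empty]
    exact analyticOnNhd_const
  | insert j J hj ih =>
    have ih' := fun k => ih (fun i hi => hA i (Finset.mem_insert_of_mem hi))
      (fun i hi => hB i (Finset.mem_insert_of_mem hi)) k
    have h1 := hA j (Finset.mem_insert_self j J)
    have h2 := hB j (Finset.mem_insert_self j J)
    simp only [Finset.prod_insert hj, add_mul, coeff_add, coeff_C_mul, mul_assoc]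
    cases k with
    | zero =>
      simp only [mul_coeff_zero, coeff_X_zero, zero_mul, mul_zero, add_zero]
      exact h1.mul (ih' 0)
    | succ k =>
      simp only [coeff_X_mul]
      exact (h1.mul (ih' (k + 1))).add (h2.mul (ih' k))

theorem prod_deg {ι : Type*} (A B : ι → ℂ) (J : Finset ι) :
    (∏ j ∈ J, (C (A j) + C (B j) * X)).natDegree ≤ J.card := by
  refine (natDegree_prod_le _ _).trans ?_
  refine (Finset.sum_le_card_nsmul J _ 1 fun j _ => ?_).trans (by simp)
  rw [add_comm]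
  exact natDegree_linear_le

variable {f : (Fin 3 → ℂ) → ℂ} (T : TB f)

/-- constant terms -/
def Aj (i : Fin T.m) (k : ℕ) (j : Fin T.m) (α : ℂ) : ℂ :=
  if j = i then 0 else if k ≤ T.del i j then α ^ (T.M * (T.del i j - k)) * T.u i j (α ^ T.M)
    else T.u i j (α ^ T.M)

/-- linear terms -/
def Bj (i : Fin T.m) (k : ℕ) (j : Fin T.m) (α : ℂ) : ℂ :=
  if j = i ∨ k ≤ T.del i j then 1 else α ^ (T.M * (k - T.del i j))

/-- exponents -/
def Ej (i : Fin T.m) (k : ℕ) (j : Fin T.m) : ℕ :=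
  if j = i ∨ k ≤ T.del i j then k else T.del i j

/-- the polynomial in `w` -/
def Gt (i : Fin T.m) (k : ℕ) (α : ℂ) : ℂ[X] := ∏ j, (C (Aj T i k j α) + C (Bj T i k j α) * X)

/-- the branches through the vertex -/
def nr (i : Fin T.m) (k : ℕ) : Finset (Fin T.m) := Finset.univ.filter fun j => j = i ∨ k ≤ T.del i j

/-- the number of the branches through the vertex -/
def nn (i : Fin T.m) (k : ℕ) : ℕ := (nr T i k).card

theorem nn_pos (i : Fin T.m) (k : ℕ) : 0 < nn T i k :=
  Finset.card_pos.2 ⟨i, by simp [nr]⟩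

theorem nn_le (i : Fin T.m) (k : ℕ) : nn T i k ≤ T.m := by
  have h := Finset.card_le_univ (nr T i k)
  rw [Fintype.card_fin] at h
  exact h

/-- the total exponent -/
def Et (i : Fin T.m) (k : ℕ) : ℕ := T.M * ∑ j, Ej T i k j

theorem nk_le (i : Fin T.m) (k : ℕ) : nn T i k * k ≤ ∑ j, Ej T i k j := by
  have h1 : ∑ j ∈ nr T i k, Ej T i k j = nn T i k * k := by
    rw [Finset.sum_congr rfl (g := fun _ => k), Finset.sum_const, smul_eq_mul]
    · rfl
    · intro j hj
      unfold Ej
      rw [if_pos (Finset.mem_filter.1 hj).2]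
  rw [← h1]
  exact Finset.sum_le_sum_of_subset (Finset.subset_univ _)

theorem Ej_le (i : Fin T.m) (k : ℕ) (j : Fin T.m) : Ej T i k j ≤ k := by
  unfold Ej
  split_ifs with h
  · exact le_rfl
  · rw [not_or, not_le] at h
    exact h.2.le

/-- the exponent of the `(n-1)`-st derivative -/
def Ev (i : Fin T.m) (k : ℕ) : ℕ := Et T i k - T.M * k * (nn T i k - 1)

theorem Et_eq (i : Fin T.m) (k : ℕ) : Et T i k = T.M * k * (nn T i k - 1) + Ev T i k := by
  have h1 : T.M * k * (nn T i k - 1) ≤ Et T i k := by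
    unfold Et
    rw [mul_assoc]
    refine Nat.mul_le_mul_left _ (le_trans ?_ (nk_le T i k))
    rw [mul_comm]
    exact Nat.mul_le_mul_right _ (Nat.sub_le _ _)
  unfold Ev
  omega

theorem Ev_ge (i : Fin T.m) (k : ℕ) : T.M * k ≤ Ev T i k := by
  have h1 := Et_eq T i k
  have h2 : T.M * k * nn T i k ≤ Et T i k := by
    unfold Et
    rw [mul_assoc]
    refine Nat.mul_le_mul_left _ (le_trans (le_of_eq (mul_comm _ _)) (nk_le T i k))
  have h3 : nn T i k = (nn T i k - 1) + 1 := (Nat.sub_add_cancel (nn_pos T i k)).symm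
  rw [h3, mul_add, mul_one] at h2
  have h4 : nn T i k - 1 + 1 - 1 = nn T i k - 1 := by omega
  omega

theorem Ev_le (i : Fin T.m) (k : ℕ) : Ev T i k ≤ T.M * (T.m * k) := by
  unfold Ev Et
  refine (Nat.sub_le _ _).trans (Nat.mul_le_mul_left _ ?_)
  refine (Finset.sum_le_card_nsmul _ _ k fun j _ => Ej_le T i k j).trans ?_
  simp

variable {T}

theorem Aj_an (i : Fin T.m) (k : ℕ) (j : Fin T.m) {α : ℂ} (hα : ‖α‖ ^ T.M < T.ρ) :
    AnalyticAt ℂ (Aj T i k j) α := by
  have hm : AnalyticAt ℂ (fun α : ℂ => α ^ T.M) α := analyticAt_id.pow _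
  have hb : α ^ T.M ∈ ball (0 : ℂ) T.ρ := by
    rw [mem_ball_zero_iff, norm_pow]; exact hα
  unfold Aj
  by_cases h : j = i
  · simp only [if_pos h]
    exact analyticAt_const
  · simp only [if_neg h]
    have hu : AnalyticAt ℂ (fun α : ℂ => T.u i j (α ^ T.M)) α :=
      AnalyticAt.comp (g := T.u i j) (f := fun α : ℂ => α ^ T.M)
        (T.u_an i j (Ne.symm h) _ hb) hm
    by_cases h2 : k ≤ T.del i j
    · simp only [if_pos h2]
      exact (analyticAt_id.pow _).mul hu
    · simp only [if_neg h2]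
      exact hu

theorem Bj_an (i : Fin T.m) (k : ℕ) (j : Fin T.m) (α : ℂ) : AnalyticAt ℂ (Bj T i k j) α := by
  unfold Bj
  by_cases h : j = i ∨ k ≤ T.del i j
  · simp only [if_pos h]
    exact analyticAt_const
  · simp only [if_neg h]
    exact analyticAt_id.pow _

theorem Gt_an (i : Fin T.m) (k : ℕ) {α : ℂ} (hα : ‖α‖ ^ T.M < T.ρ) (a : ℕ) :
    AnalyticAt ℂ (fun α => (Gt T i k α).coeff a) α :=
  coeff_prod_an2 (U := {α}) Finset.univ
    (fun j _ x hx => by rw [mem_singleton_iff.1 hx]; exact Aj_an i k j hα)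
    (fun j _ x _ => Bj_an i k j x) a α rfl

/-- the factors -/
theorem factor (i : Fin T.m) (k : ℕ) (j : Fin T.m) {α : ℂ} (hα : ‖α‖ ^ T.M < T.ρ) :
    C (T.φ i (α ^ T.M)) + C (α ^ (T.M * k)) * X - C (T.φ j (α ^ T.M)) =
      C (α ^ (T.M * Ej T i k j)) * (C (Aj T i k j α) + C (Bj T i k j α) * X) := by
  have hb : α ^ T.M ∈ ball (0 : ℂ) T.ρ := by
    rw [mem_ball_zero_iff, norm_pow]; exact hα
  unfold Ej Aj Bj
  by_cases h : j = i
  · subst h
    simp
  · have h1 := T.φ_sub i j (Ne.symm h) _ hb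
    have h2 : T.φ i (α ^ T.M) = T.φ j (α ^ T.M) + (α ^ T.M) ^ T.del i j * T.u i j (α ^ T.M) := by
      rw [← h1]; ring
    by_cases h3 : k ≤ T.del i j
    · rw [if_neg h, if_pos h3, if_pos (Or.inr h3), if_pos (Or.inr h3), h2]
      have h4 : (α ^ T.M) ^ T.del i j = α ^ (T.M * k) * α ^ (T.M * (T.del i j - k)) := by
        rw [← pow_mul, ← pow_add, ← mul_add, Nat.add_sub_cancel' h3]
      rw [h4]
      simp only [C_add, C_mul, C_1]
      ring
    · have h5 : ¬(j = i ∨ k ≤ T.del i j) := by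
        rintro (h6 | h6)
        · exact h h6
        · exact h3 h6
      rw [if_neg h, if_neg h3, if_neg h5, if_neg h5, h2]
      have h4 : α ^ (T.M * k) = α ^ (T.M * T.del i j) * α ^ (T.M * (k - T.del i j)) := by
        rw [← pow_add, ← mul_add, Nat.add_sub_cancel' (not_le.1 h3).le]
      rw [h4, ← pow_mul]
      simp only [C_add, C_mul]
      ring

/-- **the reduced discriminant in a vertex chart** -/
theorem comp_eq {D : ℂ → ℂ[X]} {R : ℝ} (hD : DF T D R) (i : Fin T.m) (k : ℕ) {α : ℂ}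
    (hα : ‖α‖ ^ T.M < T.ρ) (hR : ‖α ^ T.N‖ < R) :
    (D (α ^ T.N)).comp (C (T.φ i (α ^ T.M)) + C (α ^ (T.M * k)) * X) =
      C (α ^ Et T i k) * Gt T i k α := by
  have hb : α ^ T.M ∈ ball (0 : ℂ) T.ρ := by
    rw [mem_ball_zero_iff, norm_pow]; exact hα
  have h1 : α ^ T.N = (α ^ T.M) ^ T.N₀ := by
    rw [← pow_mul, mul_comm]; rfl
  rw [h1] at hR ⊢
  rw [hD.eq _ hb hR, prod_comp]
  have h2 : ∀ j ∈ (Finset.univ : Finset (Fin T.m)),
      (X - C (T.φ j (α ^ T.M))).comp (C (T.φ i (α ^ T.M)) + C (α ^ (T.M * k)) * X) =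
      C (α ^ (T.M * Ej T i k j)) * (C (Aj T i k j α) + C (Bj T i k j α) * X) := by
    intro j _
    rw [← factor i k j hα]
    simp
  rw [Finset.prod_congr rfl h2, Finset.prod_mul_distrib]
  unfold Gt Et
  congr 1
  rw [← map_prod C, Finset.prod_pow_eq_pow_sum, Finset.mul_sum]

/-- at `α = 0`: a nonzero constant times a monic polynomial of degree `nn` -/
theorem Gt_zero (i : Fin T.m) (k : ℕ) : ∃ (c : ℂ) (p : ℂ[X]), c ≠ 0 ∧ p.Monic ∧
    p.natDegree = nn T i k ∧ Gt T i k 0 = C c * p := by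
  refine ⟨∏ j ∈ (nr T i k)ᶜ, T.u i j 0, ∏ j ∈ nr T i k, (X + C (Aj T i k j 0)), ?_, ?_, ?_, ?_⟩
  · refine Finset.prod_ne_zero_iff.2 fun j hj => ?_
    have h1 : ¬(j = i ∨ k ≤ T.del i j) := by
      intro h
      rw [Finset.mem_compl] at hj
      exact hj (Finset.mem_filter.2 ⟨Finset.mem_univ _, h⟩)
    rw [not_or] at h1
    exact T.u_ne i j (Ne.symm h1.1) 0 (mem_ball_self T.ρ_pos)
  · exact monic_prod_of_monic _ _ fun _ _ => monic_X_add_C _
  · rw [natDegree_prod_of_monic _ _ fun _ _ => monic_X_add_C _]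
    simp [nn]
  · unfold Gt
    rw [← Finset.prod_mul_prod_compl (nr T i k), mul_comm, map_prod C]
    congr 1
    · refine Finset.prod_congr rfl fun j hj => ?_
      have h1 : ¬(j = i ∨ k ≤ T.del i j) := by
        intro h
        rw [Finset.mem_compl] at hj
        exact hj (Finset.mem_filter.2 ⟨Finset.mem_univ _, h⟩)
      have h2 := h1
      rw [not_or] at h2
      unfold Aj Bj
      rw [if_neg h1, if_neg h2.1, if_neg h2.2, zero_pow T.M_pos.ne', zero_pow, C_0, zero_mul,
        add_zero]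
      exact (Nat.mul_pos T.M_pos (Nat.sub_pos_of_lt (not_le.1 h2.2))).ne'
    · refine Finset.prod_congr rfl fun j hj => ?_
      unfold Bj
      rw [if_pos (Finset.mem_filter.1 hj).2, C_1, one_mul, add_comm]

/-- the `nn`-th derivative at `α = 0` -/
theorem Gt_der (i : Fin T.m) (k : ℕ) (w : ℂ) :
    (derivative^[nn T i k] (Gt T i k 0)).eval w ≠ 0 := by
  obtain ⟨c, p, hc, hp, hn, he⟩ := Gt_zero i k
  rw [he, iterate_derivative_C_mul]
  have h1 : (derivative^[nn T i k] p).natDegree ≤ 0 := by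
    refine (natDegree_iterate_derivative _ _).trans ?_
    rw [hn, Nat.sub_self]
  rw [eq_C_of_natDegree_le_zero h1, coeff_iterate_derivative, zero_add, ← hn, hp.coeff_natDegree,
    Nat.descFactorial_self]
  simp [hc, Nat.factorial_ne_zero]

/-- **(P3)** the vertex -/
theorem vertex {D : ℂ → ℂ[X]} {R : ℝ} (hD : DF T D R) (i : Fin T.m) {k : ℕ} (hk : 0 < k) :
    ∃ (H : ℂ × ℂ → ℂ) (ε : ℝ), 0 < ε ∧ (∀ q : ℂ × ℂ, ‖q.1‖ < ε → AnalyticAt ℂ H q) ∧
      (∀ w, deriv (fun w' => H (0, w')) w ≠ 0) ∧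
      ∀ α w : ℂ, ‖α‖ < ε → (derivative^[nn T i k - 1] (D (α ^ T.N))).eval
        (T.φ i (α ^ T.M) + α ^ (T.M * k) * w) = α ^ Ev T i k * H (α, w) := by
  obtain ⟨ε, hε, hε1⟩ : ∃ ε : ℝ, 0 < ε ∧ ∀ α : ℂ, ‖α‖ < ε → ‖α‖ ^ T.M < T.ρ ∧ ‖α ^ T.N‖ < R := by
    have h1 : ∀ᶠ α : ℂ in 𝓝 0, ‖α‖ ^ T.M < T.ρ := by
      have h2 : ContinuousAt (fun α : ℂ => ‖α‖ ^ T.M) 0 := by fun_prop
      refine h2.eventually_lt continuousAt_const ?_
      simp only [norm_zero]
      rw [zero_pow T.M_pos.ne']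
      exact T.ρ_pos
    have h3 : ∀ᶠ α : ℂ in 𝓝 0, ‖α ^ T.N‖ < R := by
      have h2 : ContinuousAt (fun α : ℂ => ‖α ^ T.N‖) 0 := by fun_prop
      refine h2.eventually_lt continuousAt_const ?_
      rw [zero_pow T.N_pos.ne', norm_zero]
      exact hD.R_pos
    obtain ⟨ε, hε, h4⟩ := Metric.eventually_nhds_iff.1 (h1.and h3)
    exact ⟨ε, hε, fun α hα => h4 (by rwa [dist_zero_right])⟩
  refine ⟨fun q => (derivative^[nn T i k - 1] (Gt T i k q.1)).eval q.2, ε, hε, ?_, ?_, ?_⟩
  · intro q hq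
    exact eval_an (x := q.1) (y := q.2) (n := T.m)
      (Eventually.of_forall fun x => by
        have h := prod_deg (fun j => Aj T i k j x) (fun j => Bj T i k j x) Finset.univ
        simpa [Gt] using h)
      (fun a => Gt_an i k (hε1 _ hq).1 a) _
  · intro w
    change deriv (fun w' => (derivative^[nn T i k - 1] (Gt T i k 0)).eval w') w ≠ 0
    rw [Polynomial.deriv, ← Function.iterate_succ_apply' derivative]
    have h1 : (nn T i k - 1).succ = nn T i k := Nat.succ_pred_eq_of_pos (nn_pos T i k)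
    rw [h1]
    exact Gt_der i k w
  · intro α w hα
    by_cases h0 : α = 0
    · subst h0
      have hE : Ev T i k ≠ 0 := by
        have h1 := Ev_ge T i k
        have h2 := Nat.mul_pos T.M_pos hk
        omega
      rw [zero_pow hE, zero_mul, zero_pow T.N_pos.ne', zero_pow T.M_pos.ne', T.φ_zero,
        zero_pow (Nat.mul_pos T.M_pos hk).ne', zero_mul, add_zero]
      have h1 : D 0 = X ^ T.m := by
        have h2 := hD.eq 0 (mem_ball_self T.ρ_pos) (by
          rw [zero_pow T.N₀_pos.ne', norm_zero]; exact hD.R_pos)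
        rw [zero_pow T.N₀_pos.ne'] at h2
        rw [h2]
        simp [T.φ_zero]
      rw [h1, iterate_derivative_X_pow_eq_natCast_mul]
      have h3 : T.m - (nn T i k - 1) ≠ 0 := by
        have h4 := nn_le T i k
        have h5 := nn_pos T i k
        omega
      simp [h3]
    · have h1 := comp_eq hD i k (hε1 α hα).1 (hε1 α hα).2
      have h2 := congrArg (fun p => (derivative^[nn T i k - 1] p).eval w) h1
      simp only [iter_comp, iterate_derivative_C_mul, eval_mul, eval_C, eval_comp, eval_add,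
        eval_X] at h2
      rw [Et_eq, pow_add, ← pow_mul, mul_assoc (α ^ _) (α ^ _)] at h2
      exact mul_left_cancel₀ (pow_ne_zero _ h0) h2

end Crest.Agent.R257.Pl_980
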