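import Crest.Agent.R257.RSD_176
import Crest.Agent.R257.RSA4_844
import Crest.Agent.R257.Wt0_258

/-!
# Row 257, part C, weights on finite coverings (helper176), file RSW1

* `crd_ch0`  : the charts of the compactification are coordinates for the atlas
* `lv_pos`   : a function with positive `∂∂̄` in the atlas has positive Laplacian along sections
* `wt_conn`  : the weight on a connected covering, with its asymptotics at the ends and poles
-/

set_option autoImplicit false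
set_option linter.unusedSectionVars false

open Set Filter Topology Metric Complex
open scoped ContDiff Manifold Matrix ComplexConjugate ComplexOrder

noncomputable section

namespace Crest.Agent.R257.RS_176

open Crest.Agent.R273 Crest.Agent.R275 Crest.Agent.R275.Geo
open Crest.Agent.R273.Defs_333 Crest.Agent.R273.Kah_333 Crest.Agent.R273.Hess_333
open Crest.Agent.R273.HM_333 Crest.Agent.R273.Vm_333 Crest.Agent.R273.Vol_333
open Crest.Agent.R273.HessB_333 Crest.Agent.R273.Green_5 Crest.Agent.R273.GreenM_5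
open Crest.Agent.R275.EDR890 Crest.Agent.R273.StokesV_332
open Crest.Agent.R257.RSA_844 Crest.Agent.R257.HoB_843
open Crest.Agent.R275.Dg199 (SmN smN_iff)

namespace Srf

variable {X : Type} [TopologicalSpace X] [T2Space X] (T : Srf X)

/-- the chart `a` read in the chart `j` of the atlas, and back -/
lemma trans_inv {A : Atl 1 T.Cp} (hC : T.Compat A) (a : T.SecD ⊕ T.ι) {p : T.Cp}
    (ha : p ∈ (T.ch0 a).source) {j : A.ι} (hj : p ∈ (A.e j).source) :
    AnalyticAt ℂ (fun z => A.e j ((T.ch0 a).symm z)) (T.ch0 a p) ∧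
    AnalyticAt ℂ (fun v => T.ch0 a ((A.e j).symm v)) (A.e j p) ∧
    fderiv ℂ (fun v => T.ch0 a ((A.e j).symm v)) (A.e j p)
      (fderiv ℂ (fun z => A.e j ((T.ch0 a).symm z)) (T.ch0 a p) 1) = 1 := by
  have ho1 : IsOpen {z | z ∈ (T.ch0 a).target ∧ (T.ch0 a).symm z ∈ (A.e j).source} :=
    (T.ch0 a).isOpen_inter_preimage_symm (A.e j).open_source
  have ho2 : IsOpen {v | v ∈ (A.e j).target ∧ (A.e j).symm v ∈ (T.ch0 a).source} :=
    (A.e j).isOpen_inter_preimage_symm (T.ch0 a).open_source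
  have hm1 : T.ch0 a p ∈ {z | z ∈ (T.ch0 a).target ∧ (T.ch0 a).symm z ∈ (A.e j).source} :=
    ⟨(T.ch0 a).map_source ha, by rw [(T.ch0 a).left_inv ha]; exact hj⟩
  have hm2 : A.e j p ∈ {v | v ∈ (A.e j).target ∧ (A.e j).symm v ∈ (T.ch0 a).source} :=
    ⟨(A.e j).map_source hj, by rw [(A.e j).left_inv hj]; exact ha⟩
  have h1 : AnalyticAt ℂ (fun z => A.e j ((T.ch0 a).symm z)) (T.ch0 a p) :=
    (hC.out a j).analyticAt (ho1.mem_nhds hm1)
  have h2 : AnalyticAt ℂ (fun v => T.ch0 a ((A.e j).symm v)) (A.e j p) :=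
    Crest.Agent.R266.SCV.analyticOnNhd_of_differentiableOn ho2 (hC.inn a j) _ hm2
  refine ⟨h1, h2, ?_⟩
  have hv : A.e j ((T.ch0 a).symm (T.ch0 a p)) = A.e j p := by rw [(T.ch0 a).left_inv ha]
  have h2' : DifferentiableAt ℂ (fun v => T.ch0 a ((A.e j).symm v))
      ((fun z => A.e j ((T.ch0 a).symm z)) (T.ch0 a p)) := by
    simp only [hv]
    exact h2.differentiableAt
  have hc := fderiv_comp (T.ch0 a p) h2' h1.differentiableAt
  have he : ((fun v => T.ch0 a ((A.e j).symm v)) ∘ fun z => A.e j ((T.ch0 a).symm z))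
      =ᶠ[𝓝 (T.ch0 a p)] id := by
    filter_upwards [ho1.mem_nhds hm1] with z hz
    simp only [Function.comp_apply, id]
    rw [(A.e j).left_inv hz.2, (T.ch0 a).right_inv hz.1]
  rw [he.fderiv_eq, fderiv_id] at hc
  have h3 := congrArg (fun L : ℂ →L[ℂ] ℂ => L 1) hc
  simp only [ContinuousLinearMap.id_apply, ContinuousLinearMap.comp_apply, hv] at h3
  exact h3.symm

/-- the charts of the compactification are coordinates of the atlas -/
lemma crd_ch0 {A : Atl 1 T.Cp} (hC : T.Compat A) (a : T.SecD ⊕ T.ι) {p : T.Cp}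
    (ha : p ∈ (T.ch0 a).source) : Crd A p (fun x => T.ch0 a x - T.ch0 a p) where
  zero := sub_self _
  ex := by
    obtain ⟨j, hj⟩ := A.cover p
    obtain ⟨h1, h2, h3⟩ := T.trans_inv hC a ha hj
    refine ⟨j, hj, h2.sub analyticAt_const, ?_⟩
    rw [fderiv_sub_const]
    intro h0
    set v := fderiv ℂ (fun z => A.e j ((T.ch0 a).symm z)) (T.ch0 a p) 1 with hv
    rw [eq_smul_e v, map_smul, h0, smul_zero] at h3
    exact zero_ne_one h3

/-- positivity along the charts -/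
lemma lv_pos {A : Atl 1 T.Cp} (hC : T.Compat A) (a : T.SecD ⊕ T.ι) {p : T.Cp}
    (ha : p ∈ (T.ch0 a).source) {H : T.Cp → ℝ} (hH : SmN A H p) {j : A.ι}
    (hj : p ∈ (A.e j).source) (hpos : 0 < (hsf A H j p 0 0).re) :
    ContDiffAt ℝ ∞ (fun z => H ((T.ch0 a).symm z)) (T.ch0 a p) ∧
      0 < lvE (fun z => H ((T.ch0 a).symm z)) (T.ch0 a p) 1 := by
  obtain ⟨h1, h2, h3⟩ := T.trans_inv hC a ha hj
  have hs : ContDiffAt ℝ ∞ (fun z => H ((A.e j).symm z)) (A.e j p) := (smN_iff hj).1 hH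
  have hv : A.e j ((T.ch0 a).symm (T.ch0 a p)) = A.e j p := by rw [(T.ch0 a).left_inv ha]
  have ho1 : IsOpen {z | z ∈ (T.ch0 a).target ∧ (T.ch0 a).symm z ∈ (A.e j).source} :=
    (T.ch0 a).isOpen_inter_preimage_symm (A.e j).open_source
  have hm1 : T.ch0 a p ∈ {z | z ∈ (T.ch0 a).target ∧ (T.ch0 a).symm z ∈ (A.e j).source} :=
    ⟨(T.ch0 a).map_source ha, by rw [(T.ch0 a).left_inv ha]; exact hj⟩
  have he : (fun z => H ((T.ch0 a).symm z)) =ᶠ[𝓝 (T.ch0 a p)]
      (fun z => H ((A.e j).symm z)) ∘ fun z => A.e j ((T.ch0 a).symm z) := by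
    filter_upwards [ho1.mem_nhds hm1] with z hz
    simp only [Function.comp_apply]
    rw [(A.e j).left_inv hz.2]
  have hs' : ContDiffAt ℝ ∞ (fun z => H ((A.e j).symm z))
      ((fun z => A.e j ((T.ch0 a).symm z)) (T.ch0 a p)) := by
    simp only [hv]
    exact hs
  constructor
  · exact (ContDiffAt.comp (g := fun z => H ((A.e j).symm z))
      (f := fun z => A.e j ((T.ch0 a).symm z)) (T.ch0 a p) hs'
      (h1.contDiffAt.restrict_scalars ℝ)).congr_of_eventuallyEq he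
  · rw [lvE_congr he, lvE_comp h1.contDiffAt (hs'.of_le (WithTop.coe_le_coe.2 le_top))]
    set v := fderiv ℂ (fun z => A.e j ((T.ch0 a).symm z)) (T.ch0 a p) 1 with hvd
    have hv0 : v 0 ≠ 0 := by
      intro h0
      rw [eq_smul_e v, h0, zero_smul, map_zero] at h3
      exact zero_ne_one h3
    have h4 : lvE (fun z => H ((A.e j).symm z)) (A.e j p) v =
        Levi_145.lev (fun z => H ((A.e j).symm z)) (A.e j p) v := by
      unfold lvE Levi_145.lev
      ring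
    simp only [hv]
    rw [h4, eq_smul_e v, Levi_145.lev_smul (hs.of_le (WithTop.coe_le_coe.2 le_top))]
    have h5 := hess_lev hs
    have h6 : (hsf A H j p 0 0).re = Levi_145.lev (fun z => H ((A.e j).symm z)) (A.e j p)
        (EuclideanSpace.single 0 1) := by
      unfold hsf
      rw [h5, ofReal_re]
    rw [← h6]
    have := norm_pos_iff.2 hv0
    positivity

/-- asymptotics in a coordinate -/
lemma asym {A : Atl 1 T.Cp} (hC : T.Compat A) (a : T.SecD ⊕ T.ι) {p : T.Cp}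
    (ha : p ∈ (T.ch0 a).source) {H : T.Cp → ℝ} {b : ℝ}
    (hlog : ∀ j, p ∈ (A.e j).source → ∃ B : T.Cp → ℝ, (∀ᶠ x in 𝓝 p, SmN A B x) ∧
      ∀ᶠ x in 𝓝 p, x ≠ p → H x = b * Real.log (rho (A.e j p) (A.e j x)) + B x) :
    ∃ C : ℝ, ∀ᶠ x in 𝓝 p, x ≠ p →
      |H x - b * Real.log (‖T.ch0 a x - T.ch0 a p‖ ^ 2)| ≤ C := by
  obtain ⟨j, hj⟩ := A.cover p
  obtain ⟨B, hB1, hB2⟩ := hlog j hj
  obtain ⟨B', hB'⟩ := (T.crd_ch0 hC a ha).log hj
  have hc : ContinuousAt (fun x => B x - b * B' x) p :=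
    ContinuousAt.sub hB1.self_of_nhds.continuousAt
      (continuousAt_const.mul hB'.self_of_nhds.1.continuousAt)
  have hb : ∀ᶠ x in 𝓝 p, |B x - b * B' x| < |B p - b * B' p| + 1 :=
    hc.abs.eventually (gt_mem_nhds (by linarith))
  refine ⟨|B p - b * B' p| + 1, ?_⟩
  filter_upwards [hB2, hB', hb] with x h1 h2 h3 hx
  rw [h1 hx, h2.2.2 hx]
  refine le_trans (le_of_eq ?_) h3.le
  congr 1
  ring

lemma ch0_sec (s : T.SecD) {x : X} (h : T.jn x ∈ (T.ch0 (Sum.inl s)).source) :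
    T.ch0 (Sum.inl s) (T.jn x) = T.pr x := by
  obtain ⟨z, hz, hzx⟩ := h
  have hzx' : T.jn (s.s z) = T.jn x := hzx
  have h1 : s.s z = x := T.jn_injective hzx'
  rw [← h1, s.sec z hz]
  exact mkCh_apply (hmap := fun _ h => T.map_nhds_jsec s h) hz

lemma ch0_end (i : T.ι) {τ : ℂ} (h : τ ∈ ball (0 : ℂ) T.ε) :
    T.ch0 (Sum.inr i) (T.D i τ) = τ := mkCh_apply (hmap := fun _ h => T.map_nhds_D _ h) h

/-- **the weight on a connected covering** -/
theorem wt_conn [ConnectedSpace X] (Q : Finset X) (t : X → ℝ) (b : T.ι → ℝ)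
    (hneg : ∑ i, b i + ∑ q ∈ Q, t q < 0) :
    ∃ h : X → ℝ, Wt_258.SmPos T.pr (↑Q) h ∧
      (∀ i, ∃ C δ : ℝ, 0 < δ ∧ ∀ τ : ℂ, 0 < ‖τ‖ → ‖τ‖ < δ →
        |h (T.γ i τ) - b i * Real.log (‖τ‖ ^ 2)| ≤ C) ∧
      ∀ q ∈ Q, ∃ C : ℝ, ∀ᶠ x in 𝓝 q, x ≠ q →
        |h x - t q * Real.log (‖T.pr x - T.pr q‖ ^ 2)| ≤ C := by
  classical
  obtain ⟨A, -, ⟨P⟩, hfin, hC, -⟩ := T.exists_atl (fun _ : Unit => (univ : Set T.Cp))
    (fun _ => isOpen_univ) (fun _ => ⟨(), trivial⟩)
  let S : Finset T.Cp := (Q.disjSum (Finset.univ : Finset T.ι) : Finset (X ⊕ T.ι))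
  let bb : T.Cp → ℝ := (Sum.elim t b : X ⊕ T.ι → ℝ)
  have hS1 : ∀ x, T.jn x ∈ S ↔ x ∈ Q := fun x => Finset.inl_mem_disjSum
  have hS2 : ∀ i, T.en i ∈ S := fun i => Finset.inr_mem_disjSum.2 (Finset.mem_univ i)
  have hsum : ∑ p ∈ S, bb p = ∑ q ∈ Q, t q + ∑ i, b i :=
    Finset.sum_disjSum Q (Finset.univ : Finset T.ι) (Sum.elim t b)
  obtain ⟨H, κ, h1, h2, h3, h4⟩ := exists_h2 (kah P) P S bb
  have hne' : Nonempty T.Cp := inferInstance
  have hvol := (int_g_pos (kah P) P).1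
  have hκ : 0 < κ := by
    have h5 : 0 < κ * (intD P (fun i x => (kah P).g i x 0 0)).re := by
      rw [h1, hsum]
      have := Real.pi_pos
      nlinarith
    exact (pos_iff_pos_of_mul_pos h5).2 hvol
  have hpos : ∀ i, ∀ x ∈ (A.e i).source, x ∉ S → 0 < (hsf A H i x 0 0).re := by
    intro i x hx hxS
    rw [h3 i x hx hxS, Complex.re_ofReal_mul]
    have h5 := det_re_pos ((kah P).pos i x hx)
    rw [det1] at h5
    positivity
  refine ⟨fun x => H (T.jn x), ?_, ?_, ?_⟩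
  · intro w₀ ρ σ hρ hσ hσ' hq
    set a : T.SecD ⊕ T.ι := Sum.inl ⟨w₀, ρ, σ, hσ, hσ'⟩ with ha
    have hp : T.jn (σ w₀) ∈ (T.ch0 a).source := ⟨w₀, mem_ball_self hρ, rfl⟩
    have hch : T.ch0 a (T.jn (σ w₀)) = w₀ := by
      rw [T.ch0_sec _ hp, hσ' _ (mem_ball_self hρ)]
    obtain ⟨j, hj⟩ := A.cover (T.jn (σ w₀))
    have hqS : T.jn (σ w₀) ∉ S := fun h => hq ((hS1 _).1 h)
    have h5 := T.lv_pos hC a hp (h2 _ hqS) hj (hpos j _ hj hqS)
    rw [hch] at h5
    exact h5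
  · intro i
    have hp : T.en i ∈ (T.ch0 (Sum.inr i)).source := ⟨0, mem_ball_self T.εpos, T.D_zero i⟩
    obtain ⟨C, hC'⟩ := T.asym hC (Sum.inr i) hp (h4 _ (hS2 i))
    have hch : T.ch0 (Sum.inr i) (T.en i) = 0 := by
      rw [← T.D_zero i]
      exact T.ch0_end i (mem_ball_self T.εpos)
    have hD := T.map_nhds_D i (mem_ball_self T.εpos)
    rw [D_zero] at hD
    rw [← hD, Filter.eventually_map] at hC'
    obtain ⟨δ, hδ, hball⟩ := Metric.eventually_nhds_iff_ball.1 hC'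
    refine ⟨C, min δ T.ε, lt_min hδ T.εpos, fun τ h5 h6 => ?_⟩
    have h7 := hball τ (mem_ball_zero_iff.2 (h6.trans_le (min_le_left _ _)))
      (by rw [T.D_of_ne i (norm_pos_iff.1 h5)]; exact T.jn_ne_en _ _)
    rw [hch, sub_zero, T.ch0_end i (mem_ball_zero_iff.2 (h6.trans_le (min_le_right _ _))),
      T.D_of_ne i (norm_pos_iff.1 h5)] at h7
    exact h7
  · intro q hq
    obtain ⟨s, hr, hw, hx⟩ := T.exists_secD q
    have hq' : T.pr q ∈ ball s.w s.r := by rw [← hw]; exact mem_ball_self hr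
    have hp : T.jn q ∈ (T.ch0 (Sum.inl s)).source := ⟨T.pr q, hq', congrArg T.jn hx⟩
    obtain ⟨C, hC'⟩ := T.asym hC (Sum.inl s) hp (h4 _ ((hS1 q).2 hq))
    refine ⟨C, ?_⟩
    have hj := T.isOpenEmbedding_jn.continuous.continuousAt.eventually
      (hC'.and ((T.ch0 (Sum.inl s)).open_source.mem_nhds hp))
    filter_upwards [hj] with x h5 h6
    have h7 := h5.1 (fun h => h6 (T.jn_injective h))
    rw [T.ch0_sec s h5.2, T.ch0_sec s hp] at h7
    exact h7

end Srf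

end Crest.Agent.R257.RS_176
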