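import Crest.Agent.R257.RSW1_176
import Crest.Agent.R257.RSW2_176

/-!
# Row 257, part C, weights on finite coverings (helper176), file RSW3

`wt_srf`: the statement `RSWStmt` for a connected `Srf`.
-/

set_option autoImplicit false
set_option linter.unusedSectionVars false

open Set Filter Topology Metric
open scoped ContDiff

noncomputable section

namespace Crest.Agent.R257.RS_176

open Crest.Agent.R257.Wt_258

lemma exists_small {ι : Type*} [Finite ι] {δ : ι → ℝ} (h : ∀ i, 0 < δ i) {ρ : ℝ} (hρ : 0 < ρ) :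
    ∃ η > 0, η ≤ ρ ∧ ∀ i, η ≤ δ i := by
  have h1 : ∀ᶠ η in 𝓝[>] (0 : ℝ), ∀ i, η ≤ δ i := by
    rw [eventually_all]
    intro i
    exact mem_of_superset (Ioo_mem_nhdsGT (h i)) fun η hη => hη.2.le
  have h2 : ∀ᶠ η in 𝓝[>] (0 : ℝ), η ≤ ρ :=
    mem_of_superset (Ioo_mem_nhdsGT hρ) fun η hη => hη.2.le
  obtain ⟨η, h3, h4, h5⟩ := (h1.and (h2.and self_mem_nhdsWithin)).exists
  exact ⟨η, h5, h4, h3⟩

section sep

variable {S : Finset ℂ} {r : ℝ} (hs : Sep S r)
include hs

lemma Rg_disj {c c' : Option ℂ} (hc : ∀ a, c = some a → a ∈ S) (hc' : ∀ a, c' = some a → a ∈ S)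
    {w : ℂ} (h : w ∈ Rg c r) (h' : w ∈ Rg c' r) : c = c' := by
  have hr := hs.pos
  cases c with
  | none =>
    cases c' with
    | none => rfl
    | some a =>
      exfalso
      have h1 : r⁻¹ < ‖w‖ := h
      have h2 : ‖w - a‖ < r := h'
      have h3 := hs.inf a (hc' a rfl)
      have h4 := norm_sub_norm_le w a
      linarith
  | some a =>
    cases c' with
    | none =>
      exfalso
      have h1 : r⁻¹ < ‖w‖ := h'
      have h2 : ‖w - a‖ < r := h
      have h3 := hs.inf a (hc a rfl)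
      have h4 := norm_sub_norm_le w a
      linarith
    | some b =>
      by_cases hab : a = b
      · rw [hab]
      · exfalso
        have h1 : ‖w - a‖ < r := h
        have h2 : ‖w - b‖ < r := h'
        have h3 := hs.sep a (hc a rfl) b (hc' b rfl) hab
        have h4 : ‖a - b‖ ≤ ‖w - b‖ + ‖w - a‖ := by
          have := norm_sub_le (w - b) (w - a)
          rwa [show w - b - (w - a) = a - b by ring] at this
        linarith

lemma endPr_notMem {c : Option ℂ} (hc : ∀ a, c = some a → a ∈ S) {q : ℂ} (hq : q ∈ PD r) :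
    endPr c 1 q ∉ S := by
  intro h
  have hr := hs.pos
  have h1 : endPr c 1 q ∈ Rg c r := Rg_of_pow c (by simpa using hq.1) (by simpa using hq.2)
  have h2 : endPr c 1 q ∈ Rg (some (endPr c 1 q)) r := by
    change ‖endPr c 1 q - endPr c 1 q‖ < r
    rw [sub_self, norm_zero]
    exact hr
  have h3 := Rg_disj hs hc (c' := some (endPr c 1 q)) (fun a ha => by
    have : endPr c 1 q = a := by simpa using ha
    rwa [← this]) h1 h2
  have h4 := ((mem_PR hr (c := c)).1 ⟨q, hq, rfl⟩).2 _ h3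
  exact h4 rfl

end sep

namespace Srf

variable {X : Type} [TopologicalSpace X] [T2Space X] (T : Srf X)

/-- continuity off the poles -/
lemma cont_of_smPos {Q : Set X} {h : X → ℝ} (hh : SmPos T.pr Q h) {x : X} (hx : x ∉ Q) :
    ContinuousAt h x := by
  obtain ⟨s, hr, hw, hsx⟩ := T.exists_secD x
  have hb : s.w ∈ ball s.w s.r := mem_ball_self hr
  have h1 : s.s s.w = x := by rw [hw]; exact hsx
  have h2 := (hh s.w s.r s.s hr s.cont s.sec (by rw [h1]; exact hx)).1.continuousAt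
  have h3 := T.map_nhds_sec s hb
  rw [h1] at h3
  have h4 : Tendsto h (map s.s (𝓝 s.w)) (𝓝 (h x)) := by
    rw [Filter.tendsto_map'_iff]
    have h5 := h2.tendsto
    simp only [Function.comp_apply, h1] at h5
    exact h5
  rw [h3] at h4
  exact h4

open Classical in
/-- **weights on a connected covering** -/
theorem wt_srf [ConnectedSpace X] (Q : Finset X) (t : X → ℝ) (lam : Option ℂ → X → ℝ) {r : ℝ}
    (hs : Sep T.S r) (hQ : ∀ q ∈ Q, (∀ c ∈ T.S, r ≤ ‖T.pr q - c‖) ∧ ‖T.pr q‖ ≤ r⁻¹)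
    (hl1 : ∀ c ∈ T.S, ∀ x, ‖T.pr x - c‖ < r → ∀ᶠ y in 𝓝 x, lam (some c) y = lam (some c) x)
    (hl2 : ∀ x, r⁻¹ < ‖T.pr x‖ → ∀ᶠ y in 𝓝 x, lam none y = lam none x)
    (w : Option ℂ → ℂ) (hw1 : ∀ c ∈ T.S, 0 < ‖w (some c) - c‖ ∧ ‖w (some c) - c‖ < r)
    (hw2 : r⁻¹ < ‖w none‖)
    (hneg : (∑ c ∈ T.S, ∑ x ∈ T.fib (w (some c)), lam (some c) x) +
      (∑ x ∈ T.fib (w none), lam none x) + ∑ q ∈ Q, t q < 0) :
    ∃ (h : X → ℝ) (C : ℝ), SmPos T.pr (↑Q) h ∧
      (∀ c ∈ T.S, ∀ x, ‖T.pr x - c‖ < r / 2 →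
        |h x - lam (some c) x * Real.log (‖T.pr x - c‖ ^ 2)| ≤ C) ∧
      (∀ x, 2 * r⁻¹ < ‖T.pr x‖ → |h x + lam none x * Real.log (‖T.pr x‖ ^ 2)| ≤ C) ∧
      ∀ q ∈ Q, ∀ᶠ x in 𝓝 q, x ≠ q →
        |h x - t q * Real.log (‖T.pr x - T.pr q‖ ^ 2)| ≤ C := by
  have hr := hs.pos
  have hmem : ∀ c : Option ℂ, c ∈ Finset.insertNone T.S ↔ ∀ a, c = some a → a ∈ T.S := by
    intro c
    rw [Finset.mem_insertNone]
    rfl
  have hci : ∀ i, T.c i ∈ Finset.insertNone T.S := fun i => (hmem _).2 (T.c_mem i)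
  have hl : ∀ c ∈ Finset.insertNone T.S, ∀ x, T.pr x ∈ Rg c r →
      ∀ᶠ y in 𝓝 x, lam c y = lam c x := by
    intro c hc x hx
    cases c with
    | none => exact hl2 x hx
    | some a => exact hl1 a ((hmem _).1 hc a rfl) x hx
  have hPR : ∀ {c : Option ℂ} {z : ℂ}, z ∈ PR c r → z ∈ Rg c r := fun h => ((mem_PR hr).1 h).1
  have hwc : ∀ c ∈ Finset.insertNone T.S, w c ∈ PR c r := by
    intro c hc
    rw [mem_PR hr]
    cases c with
    | none => exact ⟨hw2, by simp⟩
    | some a =>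
      have h1 := hw1 a ((hmem _).1 hc a rfl)
      refine ⟨h1.2, fun b hb => ?_⟩
      have hb' : a = b := by simpa using hb
      rw [← hb']
      exact sub_ne_zero.1 (norm_pos_iff.1 h1.1)
  have hQc : ∀ c ∈ Finset.insertNone T.S, ∀ x, T.pr x ∈ Rg c r → x ∉ Q := by
    intro c hc x hx hxQ
    cases c with
    | none =>
      have h1 : r⁻¹ < ‖T.pr x‖ := hx
      have := (hQ x hxQ).2
      linarith
    | some a =>
      have h1 : ‖T.pr x - a‖ < r := hx
      have := (hQ x hxQ).1 a ((hmem _).1 hc a rfl)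
      linarith
  -- the values at the ends
  obtain ⟨v, δ, hδ, hδε, hv⟩ := T.exists_vals hr lam
    (fun i x hx => hl _ (hci i) x (hPR hx))
  have hsum : ∑ i, (T.m i : ℝ) * v i =
      ∑ c ∈ Finset.insertNone T.S, ∑ x ∈ T.fib (w c), lam c x := by
    rw [← Finset.sum_fiberwise_of_maps_to (s := Finset.univ) (g := T.c) fun i _ => hci i]
    refine Finset.sum_congr rfl fun c hc => ?_
    refine (T.sum_fib_eq c ((hmem c).1 hc) hr (fun q hq => endPr_notMem hs ((hmem c).1 hc) hq)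
      (fun x hx => hl c hc x (hPR hx)) hδ ?_ (hwc c hc)).symm
    intro i hi τ hτ
    rw [← hi]
    exact (hv i τ hτ).2
  rw [Finset.sum_insertNone] at hsum
  obtain ⟨h, h1, h2, h3⟩ := T.wt_conn Q t (fun i => (T.m i : ℝ) * v i) (by rw [hsum]; linarith)
  choose Ci δi hδi hCi using h2
  choose! Cq hCq using h3
  obtain ⟨η, hη, hηδ, hηi⟩ := exists_small hδi hδ
  have hcore := T.isCompact_core hη (hηδ.trans hδε)
  -- the bounds near the centres
  have hB : ∀ c ∈ Finset.insertNone T.S, ∃ C : ℝ, ∀ x, T.pr x ∈ Rg c (r / 2) →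
      |h x - lam c x * Lg c (T.pr x)| ≤ C := by
    intro c hc
    have hsub : Rc c (r / 2) ⊆ Rg c r := Rc_sub_Rg c (by positivity) (by linarith)
    have hKc : IsCompact ((⋃ i, T.γ i '' PD η)ᶜ ∩ T.pr ⁻¹' Rc c (r / 2)) :=
      hcore.inter_right ((isClosed_Rc c _).preimage T.contPr)
    have hcont : ContinuousOn (fun x => h x - lam c x * Lg c (T.pr x))
        ((⋃ i, T.γ i '' PD η)ᶜ ∩ T.pr ⁻¹' Rc c (r / 2)) := by
      intro x hx
      have hx' : T.pr x ∈ Rg c r := hsub hx.2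
      have c1 : ContinuousAt h x := T.cont_of_smPos h1 (hQc c hc x hx')
      have c2 : ContinuousAt (lam c) x :=
        (continuousAt_const (y := lam c x)).congr ((hl c hc x hx').mono fun y hy => hy.symm)
      have c3 : ContinuousAt (Lg c) (T.pr x) := continuousAt_Lg hr hx' (by
        intro a ha hxa
        exact T.pr_notMem x (hxa ▸ (hmem c).1 hc a ha))
      exact (c1.sub (c2.mul (ContinuousAt.comp (f := T.pr) (g := Lg c) c3
        T.contPr.continuousAt))).continuousWithinAt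
    obtain ⟨C₀, hC₀⟩ := hKc.exists_bound_of_continuousOn hcont
    refine ⟨|C₀| + ∑ i, |Ci i|, fun x hx => ?_⟩
    have hpos : 0 ≤ ∑ i, |Ci i| := Finset.sum_nonneg fun i _ => abs_nonneg _
    have hC₀' := le_abs_self C₀
    have hC₀'' := abs_nonneg C₀
    by_cases hxc : x ∈ (⋃ i, T.γ i '' PD η)ᶜ
    · have h5 := hC₀ x ⟨hxc, Rg_sub_Rc c _ hx⟩
      rw [Real.norm_eq_abs] at h5
      linarith
    · rw [mem_compl_iff, not_not] at hxc
      obtain ⟨i, τ, hτ, rfl⟩ := mem_iUnion.1 hxc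
      have h5 := hv i τ (PD_mono hηδ hτ)
      have hcc : T.c i = c := Rg_disj hs (T.c_mem i) ((hmem c).1 hc) (hPR h5.1)
        (hsub (Rg_sub_Rc c _ hx))
      have h6 := hCi i τ hτ.1 (hτ.2.trans_le (hηi i))
      have h7 : |Ci i| ≤ ∑ i, |Ci i| :=
        Finset.single_le_sum (f := fun i => |Ci i|) (fun i _ => abs_nonneg _) (Finset.mem_univ i)
      have h8 := le_abs_self (Ci i)
      have h9 : lam c (T.γ i τ) = v i := by rw [← hcc]; exact h5.2
      have h10 : Lg c (T.pr (T.γ i τ)) = T.m i * Real.log (‖τ‖ ^ 2) := by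
        rw [T.pr_γ i τ hτ.1 (hτ.2.trans_le (hηδ.trans hδε)), hcc, Lg_endPr]
      rw [h9, h10]
      have h11 : h (T.γ i τ) - v i * (T.m i * Real.log (‖τ‖ ^ 2)) =
          h (T.γ i τ) - T.m i * v i * Real.log (‖τ‖ ^ 2) := by ring
      rw [h11]
      linarith
  choose! CB hCB using hB
  set C : ℝ := ∑ c ∈ Finset.insertNone T.S, |CB c| + ∑ q ∈ Q, |Cq q| with hC
  have hC1 : ∀ c ∈ Finset.insertNone T.S, CB c ≤ C := by
    intro c hc
    have h5 : |CB c| ≤ ∑ c ∈ Finset.insertNone T.S, |CB c| :=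
      Finset.single_le_sum (f := fun c => |CB c|) (fun i _ => abs_nonneg _) hc
    have h6 : 0 ≤ ∑ q ∈ Q, |Cq q| := Finset.sum_nonneg fun i _ => abs_nonneg _
    have h7 := le_abs_self (CB c)
    linarith
  have hC2 : ∀ q ∈ Q, Cq q ≤ C := by
    intro q hq
    have h5 : |Cq q| ≤ ∑ q ∈ Q, |Cq q| :=
      Finset.single_le_sum (f := fun q => |Cq q|) (fun i _ => abs_nonneg _) hq
    have h6 : 0 ≤ ∑ c ∈ Finset.insertNone T.S, |CB c| :=
      Finset.sum_nonneg fun i _ => abs_nonneg _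
    have h7 := le_abs_self (Cq q)
    linarith
  refine ⟨h, C, h1, ?_, ?_, ?_⟩
  · intro c hc x hx
    have hc' : some c ∈ Finset.insertNone T.S := Finset.some_mem_insertNone.2 hc
    exact (hCB (some c) hc' x hx).trans (hC1 _ hc')
  · intro x hx
    have hn : none ∈ Finset.insertNone T.S := Finset.none_mem_insertNone
    have h5 := hCB none hn x (by
      change (r / 2)⁻¹ < ‖T.pr x‖
      rw [inv_div, div_eq_mul_inv]
      exact hx)
    have h6 : h x - lam none x * Lg none (T.pr x) =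
        h x + lam none x * Real.log (‖T.pr x‖ ^ 2) := by
      change h x - lam none x * (-Real.log (‖T.pr x‖ ^ 2)) = _
      ring
    rw [h6] at h5
    exact h5.trans (hC1 _ hn)
  · intro q hq
    filter_upwards [hCq q hq] with x hx hxq
    exact (hx hxq).trans (hC2 q hq)

end Srf

end Crest.Agent.R257.RS_176
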