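import Crest.Agent.R257.Rsn1_980
import Crest.Agent.R257.RSE_176
import Crest.Agent.R257.RsnD_843

/-!
# R257 (S0395), part C, task C-RSN (helper980), file 2: the compactification

Charts of `T.Cp` as holomorphic curves; the coefficient `gf T A θ : X → ℂ` of a form `θ` in the
coordinate `pr`; the coordinate at an end.
-/

set_option autoImplicit false
set_option linter.unusedSectionVars false

open Set Filter Topology Metric
open scoped ContDiff

namespace Crest.Agent.R257.Rsn1_980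

open Crest.Agent.R273 Crest.Agent.R275 Crest.Agent.R275.Geo Crest.Agent.R275.Core144
open Crest.Agent.R273.Map_835 Crest.Agent.R257.RSA_844 Crest.Agent.R257.RS_176
open Crest.Agent.R257.Rsn_843

noncomputable section

variable {X : Type} [TopologicalSpace X] [T2Space X] {T : Srf X}

/-- uniqueness of local sections -/
theorem sec_ev {σ σ' : ℂ → X} {w : ℂ} (h1 : ContinuousAt σ w) (h1' : ContinuousAt σ' w)
    (h2 : ∀ᶠ z in 𝓝 w, T.pr (σ z) = z) (h2' : ∀ᶠ z in 𝓝 w, T.pr (σ' z) = z)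
    (he : σ w = σ' w) : σ =ᶠ[𝓝 w] σ' := by
  have hw : T.pr (σ w) = w := h2.self_of_nhds
  obtain ⟨r, hr, τ, a1, a2, a3, a4⟩ := T.sec w (by rw [← hw]; exact T.pr_notMem _)
  obtain ⟨j, hj⟩ := a4 (σ w) (by rw [hw]; exact mem_ball_self hr)
  rw [hw] at hj
  have hnb := Srf.section_image_nhds a1 a2 a3 a4 j (mem_ball_self hr)
  rw [hj] at hnb
  have b1 := h1.eventually hnb
  have b2 := h1'.eventually (by rw [← he]; exact hnb)
  filter_upwards [b1, b2, h2, h2'] with z c1 c2 c3 c4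
  rw [← c1.2, ← c2.2, c3, c4]

variable {A : Atl 1 T.Cp} (hC : T.Compat A)

theorem hc_ch0 (hC : T.Compat A) (a : T.SecD ⊕ T.ι) {z : ℂ} (hz : z ∈ (T.ch0 a).target) :
    HC A (T.ch0 a).symm z where
  cont := (T.ch0 a).continuousAt_symm hz
  hol j hj := (hC.out a j).differentiableAt
    (((T.ch0 a).isOpen_inter_preimage_symm (A.e j).open_source).mem_nhds ⟨hz, hj⟩)

/-- the inverse change of charts -/
theorem inn_diff (hC : T.Compat A) (a : T.SecD ⊕ T.ι) (j : A.ι) {p : T.Cp}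
    (ha : p ∈ (T.ch0 a).source) (hj : p ∈ (A.e j).source) :
    DifferentiableAt ℂ (fun v => T.ch0 a ((A.e j).symm v)) (A.e j p) := by
  refine (hC.inn a j).differentiableAt
    (((A.e j).isOpen_inter_preimage_symm (T.ch0 a).open_source).mem_nhds ⟨?_, ?_⟩)
  · exact (A.e j).map_source hj
  · rw [mem_preimage, (A.e j).left_inv hj]; exact ha

theorem inn_ana (hC : T.Compat A) (a : T.SecD ⊕ T.ι) (j : A.ι) {p : T.Cp}
    (ha : p ∈ (T.ch0 a).source) (hj : p ∈ (A.e j).source) :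
    AnalyticAt ℂ (fun v => T.ch0 a ((A.e j).symm v)) (A.e j p) := by
  have h := Crest.Agent.R266.SCV.analyticOnNhd_of_differentiableOn
    ((A.e j).isOpen_inter_preimage_symm (T.ch0 a).open_source) (hC.inn a j)
  refine h _ ⟨(A.e j).map_source hj, ?_⟩
  rw [mem_preimage, (A.e j).left_inv hj]; exact ha

theorem deriv_mul_one (hC : T.Compat A) (a : T.SecD ⊕ T.ι) {z : ℂ} (hz : z ∈ (T.ch0 a).target)
    {j : A.ι} (hj : (T.ch0 a).symm z ∈ (A.e j).source) :
    fderiv ℂ (fun v => T.ch0 a ((A.e j).symm v)) (A.e j ((T.ch0 a).symm z))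
      (EuclideanSpace.single 0 1) * deriv (fun y => (A.e j ((T.ch0 a).symm y)) 0) z = 1 := by
  have h1 := (hc_ch0 hC a hz).hol j hj
  have h2 := inn_diff hC a j ((T.ch0 a).map_target hz) hj
  have h3 := h2.hasFDerivAt.comp_hasDerivAt z (f := fun y => A.e j ((T.ch0 a).symm y))
    h1.hasDerivAt
  have he : (fun y => T.ch0 a ((A.e j).symm (A.e j ((T.ch0 a).symm y)))) =ᶠ[𝓝 z] id := by
    filter_upwards [(T.ch0 a).open_target.mem_nhds hz,
      (hc_ch0 hC a hz).cont.eventually ((A.e j).open_source.mem_nhds hj)] with y h4 h5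
    rw [(A.e j).left_inv h5, (T.ch0 a).right_inv h4]
    rfl
  have h4 := h3.deriv
  have h5 : deriv ((fun v => T.ch0 a ((A.e j).symm v)) ∘ fun y => A.e j ((T.ch0 a).symm y)) z
      = 1 := by
    have : deriv (fun y => T.ch0 a ((A.e j).symm (A.e j ((T.ch0 a).symm y)))) z = 1 := by
      rw [he.deriv_eq]; exact deriv_id z
    exact this
  rw [h5, eq_smul_e (deriv (fun y => A.e j ((T.ch0 a).symm y)) z), map_smul, smul_eq_mul] at h4
  rw [(coord_hasDeriv h1).deriv, mul_comm]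
  exact h4.symm

theorem pe_ne (hC : T.Compat A) {θ : A.ι → T.Cp → ℂ} (hθ : H10 A θ) (a : T.SecD ⊕ T.ι) {z : ℂ}
    (hz : z ∈ (T.ch0 a).target) (h0 : pe A θ (T.ch0 a).symm z = 0) {j : A.ι}
    (hj : (T.ch0 a).symm z ∈ (A.e j).source) : θ j ((T.ch0 a).symm z) = 0 := by
  rw [pe_eq hθ.tr (hc_ch0 hC a hz) hj] at h0
  exact (mul_eq_zero.1 h0).resolve_right (right_ne_zero_of_mul
    (by rw [deriv_mul_one hC a hz hj]; exact one_ne_zero))

/-- the coordinate at an end -/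
theorem crd_end (hC : T.Compat A) (i : T.ι) : Crd A (T.en i) (T.ch0 (Sum.inr i)) := by
  have h0 : (0 : ℂ) ∈ (T.ch0 (Sum.inr i)).target := mem_ball_self T.εpos
  have hs : (T.ch0 (Sum.inr i)).symm 0 = T.en i := T.D_zero i
  have hsrc : T.en i ∈ (T.ch0 (Sum.inr i)).source := by
    rw [← hs]; exact (T.ch0 (Sum.inr i)).map_target h0
  constructor
  · rw [← hs, (T.ch0 (Sum.inr i)).right_inv h0]
  · obtain ⟨j, hj⟩ := A.cover (T.en i)
    refine ⟨j, hj, inn_ana hC _ j hsrc hj, ?_⟩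
    have hj' : (T.ch0 (Sum.inr i)).symm 0 ∈ (A.e j).source := by rw [hs]; exact hj
    have h1 := deriv_mul_one hC (Sum.inr i) h0 hj'
    rw [hs] at h1
    exact left_ne_zero_of_mul (by rw [h1]; exact one_ne_zero)

/-- holomorphic functions read in the charts of `T` -/
theorem holN_ch0 (hC : T.Compat A) {f : T.Cp → ℂ} (a : T.SecD ⊕ T.ι) {z : ℂ}
    (hz : z ∈ (T.ch0 a).target) (hf : HolN A f ((T.ch0 a).symm z)) :
    AnalyticAt ℂ (fun y => f ((T.ch0 a).symm y)) z := by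
  rw [Complex.analyticAt_iff_eventually_differentiableAt]
  have h1 := (hc_ch0 hC a hz).cont.eventually hf.eventually
  filter_upwards [h1, (T.ch0 a).open_target.mem_nhds hz] with y h2 h3
  obtain ⟨j, hj⟩ := A.cover ((T.ch0 a).symm y)
  have h4 := (hc_ch0 hC a h3).hol j hj
  have h5 := DifferentiableAt.comp y (f := fun u => A.e j ((T.ch0 a).symm u))
    (g := fun v => f ((A.e j).symm v)) (h2 j hj).differentiableAt h4
  refine h5.congr_of_eventuallyEq ?_
  filter_upwards [(hc_ch0 hC a h3).cont.eventually ((A.e j).open_source.mem_nhds hj)] with u hu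
  simp only [Function.comp_apply]
  rw [(A.e j).left_inv hu]

/-! ### the coefficient of a form -/

/-- the chosen section -/
def sx (T : Srf X) (x : X) : T.SecD := (T.exists_secD x).choose

theorem sx_r (x : X) : 0 < (sx T x).r := (T.exists_secD x).choose_spec.1
theorem sx_w (x : X) : (sx T x).w = T.pr x := (T.exists_secD x).choose_spec.2.1
theorem sx_s (x : X) : (sx T x).s (T.pr x) = x := (T.exists_secD x).choose_spec.2.2

theorem sx_mem (x : X) : T.pr x ∈ ball (sx T x).w (sx T x).r := by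
  rw [sx_w]; exact mem_ball_self (sx_r x)

/-- the coefficient of `θ` in the coordinate `pr` -/
def gf (T : Srf X) (A : Atl 1 T.Cp) (θ : A.ι → T.Cp → ℂ) (x : X) : ℂ :=
  pe A θ (fun z => T.jn ((sx T x).s z)) (T.pr x)

theorem gf_sec (θ : A.ι → T.Cp → ℂ) {σ : ℂ → X} {w : ℂ}
    (h1 : ContinuousAt σ w) (h2 : ∀ᶠ z in 𝓝 w, T.pr (σ z) = z) :
    gf T A θ (σ w) = pe A θ (fun z => T.jn (σ z)) w := by
  have hw : T.pr (σ w) = w := h2.self_of_nhds
  have hm := sx_mem (T := T) (σ w)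
  rw [hw] at hm
  unfold gf
  rw [hw]
  refine pe_congr ?_
  have h3 : (sx T (σ w)).s =ᶠ[𝓝 w] σ := by
    refine sec_ev (T := T) ((sx T (σ w)).cont.continuousAt (isOpen_ball.mem_nhds hm)) h1 ?_ h2 ?_
    · filter_upwards [isOpen_ball.mem_nhds hm] with z hz using (sx T (σ w)).sec z hz
    · have := sx_s (T := T) (σ w)
      rwa [hw] at this
  filter_upwards [h3] with z hz
  rw [hz]

/-- the curve of a local section -/
theorem hc_sec (hC : T.Compat A) {σ : ℂ → X} {w : ℂ} (h1 : ContinuousAt σ w)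
    (h2 : ∀ᶠ z in 𝓝 w, T.pr (σ z) = z) : HC A (fun z => T.jn (σ z)) w := by
  have hw : T.pr (σ w) = w := h2.self_of_nhds
  have hm := sx_mem (T := T) (σ w)
  rw [hw] at hm
  refine (hc_ch0 hC (Sum.inl (sx T (σ w))) hm).congr ?_
  have h3 : (sx T (σ w)).s =ᶠ[𝓝 w] σ := by
    refine sec_ev (T := T) ((sx T (σ w)).cont.continuousAt (isOpen_ball.mem_nhds hm)) h1 ?_ h2 ?_
    · filter_upwards [isOpen_ball.mem_nhds hm] with z hz using (sx T (σ w)).sec z hz
    · have := sx_s (T := T) (σ w)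
      rwa [hw] at this
  filter_upwards [h3] with z hz
  rw [← hz]
  rfl

theorem gf_hol (hC : T.Compat A) {θ : A.ι → T.Cp → ℂ} (hθ : H10 A θ) :
    HolX T.pr (gf T A θ) := by
  intro w₀ ρ σ hρ hσ hs
  have hev : ∀ w ∈ ball w₀ ρ, ∀ᶠ z in 𝓝 w, T.pr (σ z) = z := fun w hw => by
    filter_upwards [isOpen_ball.mem_nhds hw] with z hz using hs z hz
  have h1 : (pe A θ fun z => T.jn (σ z)) =ᶠ[𝓝 w₀] gf T A θ ∘ σ := by
    filter_upwards [ball_mem_nhds w₀ hρ] with w hw
    exact (gf_sec θ (hσ.continuousAt (isOpen_ball.mem_nhds hw)) (hev w hw)).symm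
  refine AnalyticAt.congr (pe_an hθ ?_) h1
  filter_upwards [ball_mem_nhds w₀ hρ] with w hw
  exact hc_sec hC (hσ.continuousAt (isOpen_ball.mem_nhds hw)) (hev w hw)

/-- the disc at an end through a local section -/
theorem D_ev (i : T.ι) {τ : ℂ} (hτ : τ ∈ T.Pn) :
    T.D i =ᶠ[𝓝 τ] fun y => T.jn ((sx T (T.γ i τ)).s (endPr (T.c i) (T.m i) y)) := by
  set s := sx T (T.γ i τ)
  have hpr := T.pr_γ i τ hτ.1 hτ.2
  have hmem : T.pr (T.γ i τ) ∈ ball s.w s.r := sx_mem (T.γ i τ)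
  have hsx : s.s (T.pr (T.γ i τ)) = T.γ i τ := sx_s (T.γ i τ)
  have hsrc : T.jn (T.γ i τ) ∈ (T.secCh s).source := T.mem_secCh_source hmem hsx
  have hc : ContinuousAt (fun y => T.jn (T.γ i y)) τ :=
    T.isOpenEmbedding_jn.continuous.continuousAt.comp
      ((T.γ_cont i).continuousAt (T.isOpen_Pn.mem_nhds hτ))
  filter_upwards [hc.eventually ((T.secCh s).open_source.mem_nhds hsrc),
    T.isOpen_Pn.mem_nhds hτ] with y hy hyP
  obtain ⟨u, hu, he⟩ := hy
  have he1 : s.s u = T.γ i y := T.jn_injective he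
  have he2 : endPr (T.c i) (T.m i) y = u := by
    rw [← T.pr_γ i y hyP.1 hyP.2, ← he1, s.sec u hu]
  rw [he2, he1, T.D_of_ne i (norm_pos_iff.1 hyP.1)]

/-- the form at an end -/
theorem pe_end (hC : T.Compat A) {θ : A.ι → T.Cp → ℂ} (i : T.ι) {τ : ℂ} (hτ : τ ∈ T.Pn) :
    pe A θ (T.D i) τ = gf T A θ (T.γ i τ) * deriv (endPr (T.c i) (T.m i)) τ := by
  have hpr := T.pr_γ i τ hτ.1 hτ.2
  have hmem : T.pr (T.γ i τ) ∈ ball (sx T (T.γ i τ)).w (sx T (T.γ i τ)).r := sx_mem (T.γ i τ)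
  obtain ⟨d, hd, hder⟩ := hasStrictDerivAt_endPr (T.c i) (T.mpos i) (norm_pos_iff.1 hτ.1)
  rw [pe_congr (D_ev i hτ)]
  have h1 : HC A (fun z => T.jn ((sx T (T.γ i τ)).s z)) (endPr (T.c i) (T.m i) τ) := by
    rw [← hpr]
    exact hc_ch0 hC (Sum.inl (sx T (T.γ i τ))) hmem
  rw [pe_comp (c := fun z => T.jn ((sx T (T.γ i τ)).s z)) (φ := endPr (T.c i) (T.m i)) h1
    hder.hasDerivAt.differentiableAt]
  unfold gf
  rw [hpr]

/-- if the coefficient vanishes, so does the form -/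
theorem form_zero (hC : T.Compat A) {θ : A.ι → T.Cp → ℂ} (hθ : H10 A θ)
    (h0 : ∀ x, gf T A θ x = 0) : ∀ j, ∀ p ∈ (A.e j).source, θ j p = 0 := by
  intro j p hp
  rcases T.cases p with ⟨x, rfl⟩ | ⟨i, rfl⟩
  · have hs : (T.ch0 (Sum.inl (sx T x))).symm (T.pr x) = T.jn x := congrArg T.jn (sx_s x)
    rw [← hs]
    refine pe_ne hC hθ (Sum.inl (sx T x)) (sx_mem x) (h0 x) (by rw [hs]; exact hp)
  · have hs : (T.ch0 (Sum.inr i)).symm 0 = T.en i := T.D_zero i
    have hz : (0 : ℂ) ∈ (T.ch0 (Sum.inr i)).target := mem_ball_self T.εpos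
    rw [← hs]
    refine pe_ne hC hθ (Sum.inr i) hz ?_ (by rw [hs]; exact hp)
    have han : AnalyticAt ℂ (pe A θ (T.D i)) 0 := by
      refine pe_an hθ ?_
      filter_upwards [(T.ch0 (Sum.inr i)).open_target.mem_nhds hz] with y hy
      exact hc_ch0 hC (Sum.inr i) hy
    have hev : ∀ᶠ τ in 𝓝[≠] (0 : ℂ), pe A θ (T.D i) τ = 0 := by
      filter_upwards [self_mem_nhdsWithin,
        mem_nhdsWithin_of_mem_nhds (ball_mem_nhds (0 : ℂ) T.εpos)] with τ h1 h2
      have hτ : τ ∈ T.Pn := ⟨norm_pos_iff.2 h1, mem_ball_zero_iff.1 h2⟩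
      rw [pe_end hC i hτ, h0, zero_mul]
    have h1 := han.continuousAt.continuousWithinAt.tendsto (s := {0}ᶜ)
    have h2 : Tendsto (pe A θ (T.D i)) (𝓝[≠] 0) (𝓝 0) :=
      tendsto_const_nhds.congr' (hev.mono fun _ h => h.symm)
    exact tendsto_nhds_unique h1 h2

end

end Crest.Agent.R257.Rsn1_980
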