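import Crest.Agent.R257.RSE_176
import Crest.Agent.R257.RsnD_843

/-!
# R257 (S0395), part C, task C-RSN (helper980), file 3: ends and fibres

`bq c q` : the point `q` of the disc over `c : Option ℂ`;
`ends`   : points over small `q` lie on the ends over `c`;
`Fs`     : fibre sums of a locally constant function.
-/

set_option autoImplicit false
set_option linter.unusedSectionVars false

open Set Filter Topology Metric

namespace Crest.Agent.R257.Rsn1_980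

open Crest.Agent.R257.RS_176 Crest.Agent.R257.Rsn_843 Crest.Agent.R257.Wt_258

noncomputable section

/-- the point `q` of the disc over `c` -/
def bq (c : Option ℂ) (q : ℂ) : ℂ :=
  match c with
  | some a => a + q
  | none => q⁻¹

theorem endPr_bq (c : Option ℂ) (m : ℕ) (τ : ℂ) : endPr c m τ = bq c (τ ^ m) := by
  cases c <;> rfl

theorem bq_inj {c : Option ℂ} {q q' : ℂ} (h : bq c q = bq c q') : q = q' := by
  rcases c with _ | a
  · exact inv_injective h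
  · exact add_left_cancel h

theorem bq_cont {c : Option ℂ} {q : ℂ} (hq : q ≠ 0) : ContinuousAt (bq c) q := by
  rcases c with _ | a
  · exact continuousAt_inv₀ hq
  · exact (continuous_const.add continuous_id).continuousAt

/-- admissible centres -/
def Vc (S : Finset ℂ) (c : Option ℂ) : Prop := ∀ a, c = some a → a ∈ S

theorem bq_notMem {S : Finset ℂ} {r : ℝ} (h : Sep S r) {c : Option ℂ} (hc : Vc S c) {q : ℂ}
    (h0 : q ≠ 0) (hq : ‖q‖ ≤ r) : bq c q ∉ S := by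
  intro hm
  have hr := h.pos
  rcases c with _ | a
  · have h1 := h.inf _ hm
    have h2 : ‖bq none q‖ = ‖q‖⁻¹ := norm_inv q
    have h3 : r⁻¹ ≤ ‖q‖⁻¹ := inv_anti₀ (norm_pos_iff.2 h0) hq
    linarith
  · have ha := hc a rfl
    have hne : a ≠ a + q := by
      intro h1
      exact h0 (by simpa using h1)
    have h1 := h.sep a ha _ hm hne
    have h2 : ‖a - bq (some a) q‖ = ‖q‖ := by
      change ‖a - (a + q)‖ = _
      rw [sub_add_cancel_left, norm_neg]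
    have h3 : 2 * r ≤ ‖q‖ := by rw [← h2]; exact h1
    linarith

/-- the `m`-th roots of `q` -/
theorem exists_roots {m : ℕ} (hm : 0 < m) {q : ℂ} (hq : q ≠ 0) :
    ∃ s : Finset ℂ, s.card = m ∧ ∀ τ, τ ∈ s ↔ τ ^ m = q := by
  classical
  have hp := Complex.isPrimitiveRoot_exp m hm.ne'
  refine ⟨(Polynomial.nthRoots m q).toFinset, ?_, fun τ => ?_⟩
  · rw [Multiset.toFinset_card_of_nodup (hp.nthRoots_nodup hq), hp.card_nthRoots, if_pos]
    exact IsAlgClosed.exists_pow_nat_eq q hm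
  · rw [Multiset.mem_toFinset, Polynomial.mem_nthRoots hm]

variable {X : Type} [TopologicalSpace X] [T2Space X] (T : Srf X)

theorem vc_c (i : T.ι) : Vc T.S (T.c i) := fun a h => T.c_mem i a h

theorem pr_bq (i : T.ι) {τ : ℂ} (h1 : 0 < ‖τ‖) (h2 : ‖τ‖ < T.ε) :
    T.pr (T.γ i τ) = bq (T.c i) (τ ^ T.m i) := by
  rw [T.pr_γ i τ h1 h2, endPr_bq]

/-- points over small `q` lie on the ends -/
theorem ends {η : ℝ} (hη : 0 < η) : ∃ δ > 0, (∀ i, δ < η ^ T.m i) ∧ ∀ c, Vc T.S c → ∀ q : ℂ, q ≠ 0 → ‖q‖ < δ →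
    ∀ x, T.pr x = bq c q → ∃ i τ, T.c i = c ∧ 0 < ‖τ‖ ∧ ‖τ‖ < η ∧ ‖τ‖ < T.ε ∧
      τ ^ T.m i = q ∧ T.γ i τ = x := by
  obtain ⟨δ₁, hδ₁, h1⟩ := T.exists_delta
  obtain ⟨R, hR⟩ := T.exists_R
  have h2 : ∀ᶠ δ in 𝓝[>] (0 : ℝ), ∀ i : T.ι, δ < η ^ T.m i := by
    rw [eventually_all]
    intro i
    exact mem_of_superset (Ioo_mem_nhdsGT (show (0 : ℝ) < η ^ T.m i by positivity))
      fun δ hδ => hδ.2
  have h3 : ∀ᶠ δ in 𝓝[>] (0 : ℝ), δ < δ₁ :=
    mem_of_superset (Ioo_mem_nhdsGT hδ₁) fun δ hδ => hδ.2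
  have h4 : ∀ᶠ δ in 𝓝[>] (0 : ℝ), δ < (|R| + 1)⁻¹ :=
    mem_of_superset (Ioo_mem_nhdsGT (show (0 : ℝ) < (|R| + 1)⁻¹ by positivity))
      fun δ hδ => hδ.2
  obtain ⟨δ, a1, a2, a3, a4⟩ := (h2.and (h3.and (h4.and self_mem_nhdsWithin))).exists
  have hδ : 0 < δ := a4
  refine ⟨δ, hδ, a1, fun c hc q h0 hq x hx => ?_⟩
  have key : ∀ i τ, T.c i = c → 0 < ‖τ‖ → ‖τ‖ < T.ε / 2 → T.γ i τ = x →
      ∃ i τ, T.c i = c ∧ 0 < ‖τ‖ ∧ ‖τ‖ < η ∧ ‖τ‖ < T.ε ∧ τ ^ T.m i = q ∧ T.γ i τ = x := by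
    intro i τ b1 b2 b3 b4
    have b5 : ‖τ‖ < T.ε := b3.trans (by linarith [T.εpos])
    have b6 := pr_bq T i b2 b5
    rw [b4, hx, b1] at b6
    have b7 : q = τ ^ T.m i := bq_inj b6
    refine ⟨i, τ, b1, b2, ?_, b5, b7.symm, b4⟩
    rw [b7, norm_pow] at hq
    exact lt_of_pow_lt_pow_left₀ _ hη.le (hq.trans (a1 i))
  rcases c with _ | a
  · have h5 : R < ‖T.pr x‖ := by
      rw [hx]
      change R < ‖q⁻¹‖
      rw [norm_inv]
      have h6 : |R| + 1 < ‖q‖⁻¹ :=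
        (lt_inv_comm₀ (by positivity) (norm_pos_iff.2 h0)).2 (hq.trans a3)
      linarith [le_abs_self R]
    obtain ⟨i, τ, b1, b2, b3, b4⟩ := hR x h5
    exact key i τ b1 b2 b3 b4
  · have h5 : ‖T.pr x - a‖ < δ₁ := by
      rw [hx]
      change ‖a + q - a‖ < δ₁
      rw [add_sub_cancel_left]
      exact hq.trans a2
    obtain ⟨i, τ, b1, b2, b3, b4⟩ := h1 a (hc a rfl) x h5
    exact key i τ b1 b2 b3 b4

/-- holomorphic functions are continuous -/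
theorem holX_cont {f : X → ℂ} (hf : HolX T.pr f) : Continuous f := by
  rw [continuous_iff_continuousAt]
  intro x
  obtain ⟨r, hr, σ, h1, h2, h3, h4⟩ := T.sec (T.pr x) (T.pr_notMem x)
  obtain ⟨j, hj⟩ := h4 x (mem_ball_self hr)
  have hnb := Srf.section_image_nhds h1 h2 h3 h4 j (mem_ball_self hr)
  rw [hj] at hnb
  have hc : ContinuousAt (f ∘ σ j) (T.pr x) := (hf _ r (σ j) hr (h1 j) (h2 j)).continuousAt
  have hc2 : ContinuousAt (fun y => (f ∘ σ j) (T.pr y)) x :=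
    ContinuousAt.comp (f := T.pr) (g := f ∘ σ j) hc T.contPr.continuousAt
  refine hc2.congr ?_
  filter_upwards [hnb] with y hy
  simp only [Function.comp_apply]
  rw [hy.2]

/-- the number of sheets at an end -/
theorem m_le_n {n : ℕ} (hn : ∀ w, {x | T.pr x = w}.ncard ≤ n) (i : T.ι) : T.m i ≤ n := by
  have hε := T.εpos
  have hτn : ‖((T.ε / 2 : ℝ) : ℂ)‖ = T.ε / 2 := by
    rw [Complex.norm_real, Real.norm_of_nonneg (by positivity)]
  have h0 : ((T.ε / 2 : ℝ) : ℂ) ≠ 0 := by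
    rw [← norm_pos_iff, hτn]; positivity
  set τ₀ : ℂ := ((T.ε / 2 : ℝ) : ℂ)
  obtain ⟨s, hs, hmem⟩ := exists_roots (T.mpos i) (pow_ne_zero (T.m i) h0)
  have hnorm : ∀ τ ∈ s, 0 < ‖τ‖ ∧ ‖τ‖ < T.ε := by
    intro τ hτ
    have h1 := congrArg norm ((hmem τ).1 hτ)
    rw [norm_pow, norm_pow] at h1
    have h2 := (pow_left_inj₀ (norm_nonneg _) (norm_nonneg _) (T.mpos i).ne').1 h1
    rw [h2, hτn]
    constructor <;> linarith
  have hw : bq (T.c i) (τ₀ ^ T.m i) ∉ T.S := by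
    have h1 := T.pr_notMem (T.γ i τ₀)
    rwa [pr_bq T i (by rw [hτn]; positivity) (by rw [hτn]; linarith)] at h1
  refine le_trans ?_ (hn (bq (T.c i) (τ₀ ^ T.m i)))
  have hcard : (s : Set ℂ).ncard = T.m i := by rw [Set.ncard_coe_finset, hs]
  refine hcard.symm.le.trans ?_
  refine Set.ncard_le_ncard_of_injOn (T.γ i) ?_ ?_ (T.fib_finite hw)
  · intro τ hτ
    have hτ' : τ ∈ s := hτ
    change T.pr (T.γ i τ) = _
    rw [pr_bq T i (hnorm τ hτ').1 (hnorm τ hτ').2, (hmem τ).1 hτ']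
  · intro τ hτ τ' hτ' he
    have a : τ ∈ s := hτ
    have b : τ' ∈ s := hτ'
    exact (T.γ_inj i i τ τ' (hnorm τ a).1 (hnorm τ a).2 (hnorm τ' b).1 (hnorm τ' b).2 he).2

/-- ramification indices along a homeomorphism over a rotation -/
theorem m_le_σ (g : X ≃ₜ X) {χ : ℂ} (hg : ∀ x, T.pr (g x) = χ * T.pr x) (i : T.ι) :
    T.m i ≤ T.m (T.σE g i) := by
  obtain ⟨δ, hδ, hδε, h1⟩ := T.σE_spec g i T.εpos
  have hτn : ‖((δ / 2 : ℝ) : ℂ)‖ = δ / 2 := by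
    rw [Complex.norm_real, Real.norm_of_nonneg (by positivity)]
  have h0 : ((δ / 2 : ℝ) : ℂ) ≠ 0 := by
    rw [← norm_pos_iff, hτn]; positivity
  set τ₀ : ℂ := ((δ / 2 : ℝ) : ℂ)
  obtain ⟨s, hs, hmem⟩ := exists_roots (T.mpos i) (pow_ne_zero (T.m i) h0)
  have hnorm : ∀ τ ∈ s, τ ∈ PD δ := by
    intro τ hτ
    have h1 := congrArg norm ((hmem τ).1 hτ)
    rw [norm_pow, norm_pow] at h1
    have h2 := (pow_left_inj₀ (norm_nonneg _) (norm_nonneg _) (T.mpos i).ne').1 h1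
    change 0 < ‖τ‖ ∧ ‖τ‖ < δ
    rw [h2, hτn]
    constructor <;> linarith
  have himg : ∀ τ ∈ s, ∃ τ' ∈ PD T.ε, T.γ (T.σE g i) τ' = g (T.γ i τ) := fun τ hτ =>
    h1 ⟨_, ⟨τ, hnorm τ hτ, rfl⟩, rfl⟩
  have hx₀ : τ₀ ∈ s := (hmem τ₀).2 rfl
  choose! F hF hFe using himg
  obtain ⟨s', hs', hmem'⟩ := exists_roots (T.mpos (T.σE g i))
    (pow_ne_zero (T.m (T.σE g i)) (norm_pos_iff.1 (hF τ₀ hx₀).1))
  rw [← hs, ← hs']
  have hpr : ∀ τ ∈ s, T.pr (g (T.γ i τ)) = χ * bq (T.c i) (τ₀ ^ T.m i) := by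
    intro τ hτ
    have h2 := hnorm τ hτ
    rw [hg, pr_bq T i h2.1 (h2.2.trans_le hδε), (hmem τ).1 hτ]
  refine Finset.card_le_card_of_injOn F ?_ ?_
  · intro τ hτ
    have hτs : τ ∈ s := hτ
    refine (hmem' (F τ)).2 ?_
    have a1 := pr_bq T (T.σE g i) (hF τ hτs).1 (hF τ hτs).2
    have a2 := pr_bq T (T.σE g i) (hF τ₀ hx₀).1 (hF τ₀ hx₀).2
    rw [hFe τ hτs, hpr τ hτs] at a1
    rw [hFe τ₀ hx₀, hpr τ₀ hx₀] at a2
    exact bq_inj (a1.symm.trans a2)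
  · intro τ hτ τ' hτ' he
    have a : τ ∈ s := hτ
    have b : τ' ∈ s := hτ'
    have h2 : g (T.γ i τ) = g (T.γ i τ') := by rw [← hFe τ a, ← hFe τ' b, he]
    have h3 := g.injective h2
    exact (T.γ_inj i i τ τ' (hnorm τ a).1 ((hnorm τ a).2.trans_le hδε) (hnorm τ' b).1
      ((hnorm τ' b).2.trans_le hδε) h3).2

/-! ### fibre sums -/

/-- near the ends -/
def NE (S : Finset ℂ) (r : ℝ) (w : ℂ) : Prop := (∃ c ∈ S, ‖w - c‖ < r) ∨ r⁻¹ < ‖w‖

theorem ne_bq {S : Finset ℂ} {r : ℝ} {c : Option ℂ} (hc : Vc S c) {q : ℂ} (h0 : q ≠ 0)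
    (hq : ‖q‖ < r) : NE S r (bq c q) := by
  rcases c with _ | a
  · right
    change r⁻¹ < ‖q⁻¹‖
    rw [norm_inv]
    exact inv_strictAnti₀ (norm_pos_iff.2 h0) hq
  · left
    refine ⟨a, hc a rfl, ?_⟩
    change ‖a + q - a‖ < r
    rwa [add_sub_cancel_left]

/-- the fibre sum -/
def Fs (mu : X → ℤ) (w : ℂ) : ℤ := ∑ᶠ x ∈ {x : X | T.pr x = w}, mu x

theorem fs_lc {mu : X → ℤ} {w : ℂ} (hw : w ∉ T.S)
    (hmu : ∀ x, T.pr x = w → ∀ᶠ y in 𝓝 x, mu y = mu x) :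
    ∀ᶠ w' in 𝓝 w, Fs T mu w' = Fs T mu w := by
  obtain ⟨ρ, hρ, σ, h1, h2, h3, h4⟩ := T.sec w hw
  have key : ∀ z ∈ ball w ρ, Fs T mu z = ∑ j, mu (σ j z) := by
    intro z hz
    have hset : {x : X | T.pr x = z} = range fun j => σ j z := by
      ext x
      constructor
      · intro hx
        have hx' : T.pr x = z := hx
        obtain ⟨j, hj⟩ := h4 x (by rw [hx']; exact hz)
        exact ⟨j, by rw [← hx']; exact hj⟩
      · rintro ⟨j, rfl⟩
        exact h2 j z hz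
    unfold Fs
    rw [hset, finsum_mem_range (h3 z hz), finsum_eq_sum_of_fintype]
  have h5 : ∀ᶠ z in 𝓝 w, ∀ j, mu (σ j z) = mu (σ j w) := by
    rw [eventually_all]
    intro j
    have hc : ContinuousAt (σ j) w := (h1 j).continuousAt (ball_mem_nhds w hρ)
    exact hc.eventually (hmu (σ j w) (h2 j w (mem_ball_self hρ)))
  filter_upwards [h5, ball_mem_nhds w hρ] with z a b
  rw [key z b, key w (mem_ball_self hρ)]
  exact Finset.sum_congr rfl fun j _ => a j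

theorem fs_const {mu : X → ℤ} {r : ℝ} (hS : Sep T.S r)
    (hmu : ∀ x, NE T.S r (T.pr x) → ∀ᶠ y in 𝓝 x, mu y = mu x) {c : Option ℂ} (hc : Vc T.S c)
    {q q' : ℂ} (hq : q ∈ PD r) (hq' : q' ∈ PD r) : Fs T mu (bq c q) = Fs T mu (bq c q') := by
  refine (isPreconnected_PD r).constant (f := fun q => Fs T mu (bq c q)) ?_ hq hq'
  intro u hu
  have hu0 : u ≠ 0 := norm_pos_iff.1 hu.1
  have h1 := fs_lc T (mu := mu) (w := bq c u) (bq_notMem hS hc hu0 hu.2.le)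
    (fun x hx => hmu x (by rw [hx]; exact ne_bq hc hu0 hu.2))
  have h2 := (bq_cont (c := c) hu0).eventually h1
  refine ContinuousAt.continuousWithinAt ?_
  exact (continuousAt_const (y := Fs T mu (bq c u))).congr (h2.mono fun _ h => h.symm)

/-- `mu` is constant on the ends -/
theorem mu_const {mu : X → ℤ} {r : ℝ} (hmu : ∀ x, NE T.S r (T.pr x) → ∀ᶠ y in 𝓝 x, mu y = mu x)
    {δ : ℝ} (h1 : δ ≤ 1) (hr : δ ≤ r) (hε : δ ≤ T.ε) (i : T.ι) {τ τ' : ℂ} (hτ : τ ∈ PD δ)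
    (hτ' : τ' ∈ PD δ) : mu (T.γ i τ) = mu (T.γ i τ') := by
  refine (isPreconnected_PD δ).constant (f := fun τ => mu (T.γ i τ)) ?_ hτ hτ'
  intro u hu
  have hu0 : u ≠ 0 := norm_pos_iff.1 hu.1
  have hP : u ∈ T.Pn := ⟨hu.1, hu.2.trans_le hε⟩
  have hc : ContinuousAt (T.γ i) u := (T.γ_cont i).continuousAt (T.isOpen_Pn.mem_nhds hP)
  have hq : ‖u ^ T.m i‖ < r := by
    rw [norm_pow]
    refine lt_of_le_of_lt (pow_le_of_le_one hu.1.le (hu.2.le.trans h1) (T.mpos i).ne') ?_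
    exact hu.2.trans_le hr
  have h2 := hc.eventually (hmu (T.γ i u) (by
    rw [pr_bq T i hP.1 hP.2]
    exact ne_bq (vc_c T i) (pow_ne_zero _ hu0) hq))
  refine ContinuousAt.continuousWithinAt ?_
  exact (continuousAt_const (y := mu (T.γ i u))).congr (h2.mono fun _ h => h.symm)

open Classical in
/-- the fibre sum near an end -/
theorem fs_end {mu : X → ℤ} {r : ℝ} (hS : Sep T.S r)
    (hmu : ∀ x, NE T.S r (T.pr x) → ∀ᶠ y in 𝓝 x, mu y = mu x)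
    {δ : ℝ} (h0 : 0 < δ) (hε : δ ≤ T.ε) {μ : T.ι → ℤ}
    (hμ : ∀ i, ∀ τ ∈ PD δ, mu (T.γ i τ) = μ i) {c : Option ℂ} (hc : Vc T.S c) {q : ℂ}
    (hq : q ∈ PD r) : Fs T mu (bq c q) = ∑ i, if T.c i = c then (T.m i : ℤ) * μ i else 0 := by
  obtain ⟨η, hη, hηm, h2⟩ := ends T h0
  have hm0 : 0 < min η r / 2 := by
    have := hS.pos
    positivity
  have hqn : ‖((min η r / 2 : ℝ) : ℂ)‖ = min η r / 2 := by
    rw [Complex.norm_real, Real.norm_of_nonneg hm0.le]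
  have hmη : min η r ≤ η := min_le_left _ _
  have hmr : min η r ≤ r := min_le_right _ _
  set q₀ : ℂ := ((min η r / 2 : ℝ) : ℂ)
  have hq0 : q₀ ≠ 0 := by rw [← norm_pos_iff, hqn]; exact hm0
  have hq₀ : q₀ ∈ PD r := ⟨by rw [hqn]; exact hm0, by rw [hqn]; linarith⟩
  rw [fs_const T hS hmu hc hq hq₀]
  -- the roots
  have hrt : ∀ i : T.ι, ∃ s : Finset ℂ, s.card = T.m i ∧ ∀ τ, τ ∈ s ↔ τ ^ T.m i = q₀ :=
    fun i => exists_roots (T.mpos i) hq0
  choose s hs hmem using hrt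
  have hsmall : ∀ i, ∀ τ ∈ s i, τ ∈ PD δ := by
    intro i τ hτ
    have a1 := congrArg norm ((hmem i τ).1 hτ)
    rw [norm_pow, hqn] at a1
    have a2 : τ ≠ 0 := by
      rintro rfl
      rw [norm_zero, zero_pow (T.mpos i).ne'] at a1
      linarith
    refine ⟨norm_pos_iff.2 a2, ?_⟩
    have a3 : ‖τ‖ ^ T.m i < δ ^ T.m i := by
      rw [a1]
      have := hηm i
      linarith
    exact lt_of_pow_lt_pow_left₀ _ h0.le a3
  set J : Finset (Σ _ : T.ι, ℂ) := (Finset.univ.filter fun i => T.c i = c).sigma s with hJ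
  have hset : {x : X | T.pr x = bq c q₀} = ↑(J.image fun p => T.γ p.1 p.2) := by
    ext x
    rw [Finset.mem_coe, Finset.mem_image]
    constructor
    · intro hx
      have hx' : T.pr x = bq c q₀ := hx
      obtain ⟨i, τ, b1, b2, b3, b4, b5, b6⟩ := h2 c hc q₀ hq0 (by rw [hqn]; linarith) x hx'
      refine ⟨⟨i, τ⟩, ?_, b6⟩
      rw [hJ, Finset.mem_sigma, Finset.mem_filter]
      exact ⟨⟨Finset.mem_univ _, b1⟩, (hmem i τ).2 b5⟩
    · rintro ⟨⟨i, τ⟩, hp, rfl⟩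
      rw [hJ, Finset.mem_sigma, Finset.mem_filter] at hp
      have hτ := hsmall i τ hp.2
      change T.pr (T.γ i τ) = _
      rw [pr_bq T i hτ.1 (hτ.2.trans_le hε), (hmem i τ).1 hp.2, hp.1.2]
  unfold Fs
  rw [hset, finsum_mem_coe_finset, Finset.sum_image, hJ, Finset.sum_sigma, Finset.sum_filter]
  · refine Finset.sum_congr rfl fun i _ => ?_
    split_ifs with hi
    · rw [Finset.sum_congr rfl fun τ hτ => hμ i τ (hsmall i τ hτ), Finset.sum_const, hs i,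
        nsmul_eq_mul]
    · rfl
  · rintro ⟨i, τ⟩ hp ⟨i', τ'⟩ hp' he
    rw [hJ, Finset.mem_coe, Finset.mem_sigma] at hp hp'
    have hτ := hsmall i τ hp.2
    have hτ' := hsmall i' τ' hp'.2
    obtain ⟨a, b⟩ := T.γ_inj i i' τ τ' hτ.1 (hτ.2.trans_le hε) hτ'.1 (hτ'.2.trans_le hε) he
    rw [a, b]

end

end Crest.Agent.R257.Rsn1_980
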