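import Crest.Agent.R257.Rsn2_980
import Crest.Agent.R257.Rsn3_980
import Crest.Agent.R257.RSX_176

/-!
# R257 (S0395), part C, task C-RSN (helper980), file 4: no invariant holomorphic form

`noH` : `NoTh` (in the coordinate `pr`) implies `NoH` on `T.Cp`.
-/

set_option autoImplicit false
set_option linter.unusedSectionVars false

open Set Filter Topology Metric
open scoped ContDiff

namespace Crest.Agent.R257.Rsn1_980

open Crest.Agent.R273 Crest.Agent.R275 Crest.Agent.R275.Geo Crest.Agent.R275.Core144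
open Crest.Agent.R273.Map_835 Crest.Agent.R257.RSA_844 Crest.Agent.R257.RS_176
open Crest.Agent.R257.Rsn_843 Crest.Agent.R257.Wt_258

noncomputable section

variable {X : Type} [TopologicalSpace X] [T2Space X] {T : Srf X} {A : Atl 1 T.Cp}

/-- the order of the pole of `dw` -/
def kk (c : Option ℂ) : ℕ :=
  match c with
  | some _ => 0
  | none => 2

theorem norm_deriv_endPr (c : Option ℂ) {m : ℕ} (hm : 0 < m) {τ : ℂ} (h0 : τ ≠ 0) :
    ‖deriv (endPr c m) τ‖ * ‖τ ^ m‖ ^ kk c = m * ‖τ‖ ^ (m - 1) := by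
  have h1 : HasDerivAt (fun τ : ℂ => τ ^ m) ((m : ℂ) * τ ^ (m - 1)) τ := hasDerivAt_pow m τ
  rcases c with _ | a
  · have h2 : HasDerivAt (endPr none m) (-((m : ℂ) * τ ^ (m - 1)) / (τ ^ m) ^ 2) τ :=
      h1.inv (pow_ne_zero _ h0)
    have h3 : ‖τ ^ m‖ ≠ 0 := norm_ne_zero_iff.2 (pow_ne_zero _ h0)
    rw [h2.deriv]
    simp only [kk, norm_div, norm_neg, norm_mul, norm_pow, Complex.norm_natCast]
    rw [norm_pow] at h3
    field_simp
  · have h2 : HasDerivAt (endPr (some a) m) ((m : ℂ) * τ ^ (m - 1)) τ := h1.const_add a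
    rw [h2.deriv]
    simp only [kk, norm_mul, norm_pow, Complex.norm_natCast, pow_zero, mul_one]

/-- growth at an end -/
theorem gf_end (hC : T.Compat A) {θ : A.ι → T.Cp → ℂ} (hθ : H10 A θ) {n : ℕ} (i : T.ι)
    (hmn : T.m i ≤ n) : ∃ C : ℝ, 0 ≤ C ∧ ∀ τ : ℂ, 0 < ‖τ‖ → ‖τ‖ ≤ T.ε / 2 → ‖τ‖ ≤ 1 →
      ‖gf T A θ (T.γ i τ)‖ ≤
        C * (‖τ ^ T.m i‖ ^ (-1 + 1 / (n : ℝ)) * ‖τ ^ T.m i‖ ^ kk (T.c i)) := by
  have hε := T.εpos
  have hcont : ContinuousOn (pe A θ (T.D i)) (closedBall 0 (T.ε / 2)) := by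
    intro y hy
    have hy' : y ∈ ball (0 : ℂ) T.ε := closedBall_subset_ball (by linarith) hy
    refine ContinuousAt.continuousWithinAt (AnalyticAt.continuousAt (pe_an hθ ?_))
    filter_upwards [(T.ch0 (Sum.inr i)).open_target.mem_nhds hy'] with z hz
    exact hc_ch0 hC (Sum.inr i) hz
  obtain ⟨C, hCb⟩ := (isCompact_closedBall (0 : ℂ) (T.ε / 2)).exists_bound_of_continuousOn hcont
  have hC0 : 0 ≤ C := (norm_nonneg _).trans (hCb 0 (mem_closedBall_self (by positivity)))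
  refine ⟨C, hC0, fun τ h1 h2 h3 => ?_⟩
  have h0 : τ ≠ 0 := norm_pos_iff.1 h1
  have hP : τ ∈ T.Pn := ⟨h1, by linarith⟩
  have h4 := hCb τ (mem_closedBall_zero_iff.2 h2)
  rw [pe_end hC i hP, norm_mul] at h4
  have h5 := norm_deriv_endPr (T.c i) (T.mpos i) h0
  have hm1 : (1 : ℝ) ≤ T.m i := by exact_mod_cast T.mpos i
  have hn0 : (0 : ℝ) < n := by exact_mod_cast (T.mpos i).trans_le hmn
  set G := ‖gf T A θ (T.γ i τ)‖
  set Dn := ‖deriv (endPr (T.c i) (T.m i)) τ‖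
  set Q := ‖τ ^ T.m i‖ with hQ
  have hQ0 : 0 < Q := norm_pos_iff.2 (pow_ne_zero _ h0)
  have hp : 0 < ‖τ‖ ^ (T.m i - 1) := pow_pos h1 _
  -- `G * ‖τ‖^(m-1) ≤ C * Q^k`
  have h6 : G * ‖τ‖ ^ (T.m i - 1) ≤ C * Q ^ kk (T.c i) := by
    calc G * ‖τ‖ ^ (T.m i - 1) ≤ G * (T.m i * ‖τ‖ ^ (T.m i - 1)) := by
          refine mul_le_mul_of_nonneg_left ?_ (norm_nonneg _)
          nlinarith
      _ = (G * Dn) * Q ^ kk (T.c i) := by rw [← h5]; ring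
      _ ≤ C * Q ^ kk (T.c i) := mul_le_mul_of_nonneg_right h4 (by positivity)
  -- `1 ≤ Q^(-1+1/n) * ‖τ‖^(m-1)`
  have h7 : 1 ≤ Q ^ (-1 + 1 / (n : ℝ)) * ‖τ‖ ^ (T.m i - 1) := by
    have e1 : Q ^ (-1 + 1 / (n : ℝ)) = ‖τ‖ ^ ((T.m i : ℝ) * (-1 + 1 / (n : ℝ))) := by
      rw [hQ, norm_pow, ← Real.rpow_natCast, ← Real.rpow_mul (norm_nonneg _)]
    have e2 : ‖τ‖ ^ (T.m i - 1) = ‖τ‖ ^ ((T.m i : ℝ) - 1) := by
      rw [← Real.rpow_natCast, Nat.cast_sub (T.mpos i), Nat.cast_one]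
    rw [e1, e2, ← Real.rpow_add h1]
    refine Real.one_le_rpow_of_pos_of_le_one_of_nonpos h1 h3 ?_
    have h8 : (T.m i : ℝ) * (1 / n) ≤ 1 := by
      rw [mul_one_div, div_le_one hn0]
      exact_mod_cast hmn
    nlinarith
  have h9 : 0 ≤ G := norm_nonneg _
  calc G ≤ G * (Q ^ (-1 + 1 / (n : ℝ)) * ‖τ‖ ^ (T.m i - 1)) := by nlinarith
    _ = Q ^ (-1 + 1 / (n : ℝ)) * (G * ‖τ‖ ^ (T.m i - 1)) := by ring
    _ ≤ Q ^ (-1 + 1 / (n : ℝ)) * (C * Q ^ kk (T.c i)) :=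
        mul_le_mul_of_nonneg_left h6 (Real.rpow_nonneg hQ0.le _)
    _ = C * (Q ^ (-1 + 1 / (n : ℝ)) * Q ^ kk (T.c i)) := by ring

/-- annuli are compact -/
theorem ann_compact (T : Srf X) {r : ℝ} (hS : Sep T.S r) {c : Option ℂ} (hc : Vc T.S c) {δ ρ : ℝ}
    (hδ : 0 < δ) (hρ : ρ ≤ r) :
    IsCompact (T.pr ⁻¹' (bq c '' {q : ℂ | δ ≤ ‖q‖ ∧ ‖q‖ ≤ ρ})) := by
  have h1 : IsCompact {q : ℂ | δ ≤ ‖q‖ ∧ ‖q‖ ≤ ρ} := by
    have h2 : {q : ℂ | δ ≤ ‖q‖ ∧ ‖q‖ ≤ ρ} = closedBall 0 ρ ∩ {q : ℂ | δ ≤ ‖q‖} := by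
      ext q
      simp only [mem_inter_iff, mem_closedBall_zero_iff]
      exact and_comm
    rw [h2]
    exact (isCompact_closedBall 0 ρ).inter_right (isClosed_le continuous_const continuous_norm)
  have hne : ∀ q : ℂ, δ ≤ ‖q‖ → q ≠ 0 := fun q h => norm_pos_iff.1 (hδ.trans_le h)
  refine T.isCompact_pr_preimage (h1.image_of_continuousOn fun q hq =>
    (bq_cont (hne q hq.1)).continuousWithinAt) ?_
  rintro _ ⟨q, hq, rfl⟩
  exact bq_notMem hS hc (hne q hq.1) (hq.2.trans hρ)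

theorem gbound (hC : T.Compat A) {θ : A.ι → T.Cp → ℂ} (hθ : H10 A θ) {n : ℕ}
    (hn : ∀ i, T.m i ≤ n) {r : ℝ} (hS : Sep T.S r) {c : Option ℂ} (hc : Vc T.S c) :
    ∃ C : ℝ, 0 ≤ C ∧ ∀ x q, T.pr x = bq c q → q ≠ 0 → ‖q‖ < r →
      ‖gf T A θ x‖ ≤ C * (‖q‖ ^ (-1 + 1 / (n : ℝ)) * ‖q‖ ^ kk c) := by
  have hr := hS.pos
  have hε := T.εpos
  choose C hC0 hCb using fun i => gf_end hC hθ i (hn i)
  obtain ⟨δ, hδ, -, h1⟩ := ends T (show 0 < min 1 (T.ε / 2) by positivity)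
  obtain ⟨C', hC'⟩ := (ann_compact T hS hc hδ le_rfl).exists_bound_of_continuousOn
    (holX_cont T (gf_hol hC hθ)).continuousOn
  set e : ℝ := -1 + 1 / (n : ℝ) with he
  have he0 : e ≤ 0 := by
    have : 1 / (n : ℝ) ≤ 1 := by
      rcases Nat.eq_zero_or_pos n with h | h
      · rw [h]; simp
      · rw [div_le_one (by exact_mod_cast h)]; exact_mod_cast h
    linarith
  set c₀ : ℝ := r ^ e * δ ^ kk c with hc₀
  have hc₀p : 0 < c₀ := by positivity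
  refine ⟨∑ i, C i + |C'| / c₀, add_nonneg (Finset.sum_nonneg fun i _ => hC0 i)
    (by positivity), fun x q hx h0 hq => ?_⟩
  have hq0 : 0 < ‖q‖ := norm_pos_iff.2 h0
  have hB : 0 ≤ ‖q‖ ^ e * ‖q‖ ^ kk c := by positivity
  rcases lt_or_ge ‖q‖ δ with h2 | h2
  · obtain ⟨i, τ, b1, b2, b3, b4, b5, b6⟩ := h1 c hc q h0 h2 x hx
    have h3 := hCb i τ b2 ((b3.trans_le (min_le_right _ _)).le)
      ((b3.trans_le (min_le_left _ _)).le)
    rw [b5, b6, b1] at h3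
    refine h3.trans (mul_le_mul_of_nonneg_right ?_ hB)
    have h4 : C i ≤ ∑ i, C i := Finset.single_le_sum (fun i _ => hC0 i) (Finset.mem_univ i)
    have : 0 ≤ |C'| / c₀ := by positivity
    linarith
  · have h3 := hC' x ⟨q, ⟨h2, hq.le⟩, hx.symm⟩
    have h4 : c₀ ≤ ‖q‖ ^ e * ‖q‖ ^ kk c := by
      refine mul_le_mul ?_ (pow_le_pow_left₀ hδ.le h2 _) (by positivity) (by positivity)
      exact Real.rpow_le_rpow_of_nonpos hq0 hq.le he0
    have h5 : ‖gf T A θ x‖ ≤ |C'| := h3.trans (le_abs_self _)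
    have h6 : |C'| ≤ |C'| / c₀ * (‖q‖ ^ e * ‖q‖ ^ kk c) := by
      rw [div_mul_eq_mul_div, le_div_iff₀ hc₀p]
      exact mul_le_mul_of_nonneg_left h4 (abs_nonneg _)
    have h7 : 0 ≤ ∑ i, C i := Finset.sum_nonneg fun i _ => hC0 i
    nlinarith

theorem endL (hC : T.Compat A) {θ : A.ι → T.Cp → ℂ} (hθ : H10 A θ) {n : ℕ}
    (hn : ∀ i, T.m i ≤ n) {r : ℝ} (hS : Sep T.S r) : EndL T.pr T.S r n (gf T A θ) := by
  have hr := hS.pos
  have h1 : ∀ a ∈ T.S, Vc T.S (some a) := fun a ha b hb => by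
    rw [Option.some.injEq] at hb; rwa [← hb]
  have h2 : Vc T.S none := fun b hb => by simp at hb
  choose! C hC0 hCb using fun a (ha : a ∈ T.S) => gbound hC hθ hn hS (h1 a ha)
  obtain ⟨C', hC'0, hC'b⟩ := gbound hC hθ hn hS h2
  have hs0 : 0 ≤ ∑ a ∈ T.S, C a := Finset.sum_nonneg fun a ha => hC0 a ha
  refine ⟨∑ a ∈ T.S, C a + C', ?_, ?_⟩
  · intro a ha x hx
    have hne : T.pr x - a ≠ 0 := by
      intro h
      exact T.pr_notMem x (by rw [sub_eq_zero.1 h]; exact ha)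
    have h3 := hCb a ha x (T.pr x - a) (by simp [bq]) hne hx
    simp only [kk, pow_zero, mul_one] at h3
    refine h3.trans (mul_le_mul_of_nonneg_right ?_ (Real.rpow_nonneg (norm_nonneg _) _))
    have h4 : C a ≤ ∑ a ∈ T.S, C a := Finset.single_le_sum (fun a ha => hC0 a ha) ha
    linarith
  · intro x hx
    have hx0 : 0 < ‖T.pr x‖ := (inv_pos.2 hr).trans hx
    have hne : (T.pr x)⁻¹ ≠ 0 := inv_ne_zero (norm_pos_iff.1 hx0)
    have h3 := hC'b x (T.pr x)⁻¹ (by simp [bq]) hne (by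
      rw [norm_inv]; exact inv_lt_of_inv_lt₀ hr hx)
    have h4 : ‖(T.pr x)⁻¹‖ ^ (-1 + 1 / (n : ℝ)) * ‖(T.pr x)⁻¹‖ ^ kk none =
        ‖T.pr x‖ ^ (-1 - 1 / (n : ℝ)) := by
      change ‖(T.pr x)⁻¹‖ ^ (-1 + 1 / (n : ℝ)) * ‖(T.pr x)⁻¹‖ ^ 2 = _
      rw [norm_inv, ← Real.rpow_natCast, ← Real.rpow_add (inv_pos.2 hx0), Real.inv_rpow hx0.le,
        ← Real.rpow_neg hx0.le]
      congr 1
      push_cast
      ring
    rw [h4] at h3
    refine h3.trans (mul_le_mul_of_nonneg_right ?_ (Real.rpow_nonneg (norm_nonneg _) _))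
    linarith

/-! ### the invariant forms -/

section act

variable {Γ : Type} [Group Γ] [Fintype Γ] [MulAction Γ X]

theorem gf_inv (hC : T.Compat A) {θ : A.ι → T.Cp → ℂ} (hθ : H10 A θ)
    (hΓ : ∀ γ : Γ, Continuous fun x : X => γ • x) {χ : Γ → ℂ}
    (hχ : ∀ (γ : Γ) x, T.pr (γ • x) = χ γ * T.pr x) (hχ0 : ∀ γ, χ γ ≠ 0)
    (hinv : letI := T.act hΓ; InvH A Γ θ) (γ : Γ) (x : X) :
    χ γ * gf T A θ (γ • x) = gf T A θ x := by
  let _ := T.act hΓ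
  have hact : HolAct A Γ := T.holAct hC hΓ χ hχ
  set s := sx T x with hs
  have hm : T.pr x ∈ ball s.w s.r := sx_mem x
  have hsx : s.s (T.pr x) = x := sx_s x
  have hχw : (χ γ)⁻¹ * (χ γ * T.pr x) = T.pr x := by
    rw [← mul_assoc, inv_mul_cancel₀ (hχ0 γ), one_mul]
  -- the section `σ'`
  set σ' : ℂ → X := fun z => γ • s.s ((χ γ)⁻¹ * z) with hσ'
  have hcs : ContinuousAt s.s (T.pr x) := s.cont.continuousAt (isOpen_ball.mem_nhds hm)
  have hc1 : ContinuousAt (fun z : ℂ => (χ γ)⁻¹ * z) (χ γ * T.pr x) := by fun_prop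
  have hc' : ContinuousAt σ' (χ γ * T.pr x) := by
    refine (hΓ γ).continuousAt.comp ?_
    refine ContinuousAt.comp (f := fun z : ℂ => (χ γ)⁻¹ * z) (g := s.s) ?_ hc1
    rw [hχw]; exact hcs
  have hev : ∀ᶠ z in 𝓝 (χ γ * T.pr x), T.pr (σ' z) = z := by
    have h1 : ∀ᶠ z in 𝓝 (χ γ * T.pr x), (χ γ)⁻¹ * z ∈ ball s.w s.r := by
      refine hc1.eventually (isOpen_ball.mem_nhds ?_)
      change (χ γ)⁻¹ * (χ γ * T.pr x) ∈ ball s.w s.r
      rw [hχw]; exact hm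
    filter_upwards [h1] with z hz
    rw [hσ']
    simp only
    rw [hχ, s.sec _ hz, ← mul_assoc, mul_inv_cancel₀ (hχ0 γ), one_mul]
  have hval : σ' (χ γ * T.pr x) = γ • x := by
    rw [hσ']
    simp only
    rw [hχw, hsx]
  have h1 : gf T A θ (γ • x) = pe A θ (fun z => T.jn (σ' z)) (χ γ * T.pr x) := by
    rw [← hval]; exact gf_sec θ hc' hev
  have h2 : gf T A θ x = pe A θ (fun z => γ • T.jn (s.s z)) (T.pr x) :=
    (pe_inv hact hθ hinv (hc_ch0 hC (Sum.inl s) hm) γ).symm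
  have h3 : (fun z => γ • T.jn (s.s z)) = fun z => T.jn (σ' (χ γ * z)) := by
    funext z
    rw [hσ']
    simp only
    rw [← mul_assoc, inv_mul_cancel₀ (hχ0 γ), one_mul]
    rfl
  rw [h2, h3, pe_comp (c := fun z => T.jn (σ' z)) (φ := fun z => χ γ * z) (hc_sec hC hc' hev)
    (by fun_prop), h1]
  have h4 : deriv (fun z : ℂ => χ γ * z) (T.pr x) = χ γ := by
    simp
  rw [h4, mul_comm]

/-- **no invariant holomorphic form on the compactification** -/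
theorem noH (hC : T.Compat A) {n : ℕ} (hn : ∀ i, T.m i ≤ n) {r : ℝ} (hS : Sep T.S r)
    (hΓ : ∀ γ : Γ, Continuous fun x : X => γ • x) {χ : Γ → ℂ}
    (hχ : ∀ (γ : Γ) x, T.pr (γ • x) = χ γ * T.pr x) (hχ0 : ∀ γ, χ γ ≠ 0)
    (hno : NoTh (Γ := Γ) T.pr χ T.S r n) : letI := T.act hΓ; NoH A Γ := by
  intro θ hθ hinv
  refine form_zero hC hθ ?_
  exact hno (gf T A θ) (gf_hol hC hθ) (gf_inv hC hθ hΓ hχ hχ0 hinv) (endL hC hθ hn hS)

end act

end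

end Crest.Agent.R257.Rsn1_980
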