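import Crest.Agent.R257.Rsn4_980

/-!
# R257 (S0395), part C, task C-RSN (helper980), file 5: the invariant function

`mero` : the invariant zero-free function with prescribed exponents at the ends, for `T : Srf X`.
-/

set_option autoImplicit false
set_option linter.unusedSectionVars false

open Set Filter Topology Metric
open scoped ContDiff

namespace Crest.Agent.R257.Rsn1_980

open Crest.Agent.R273 Crest.Agent.R275 Crest.Agent.R275.Geo Crest.Agent.R275.Core144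
open Crest.Agent.R273.Map_835 Crest.Agent.R257.RSA_844 Crest.Agent.R257.RS_176
open Crest.Agent.R257.Rsn_843 Crest.Agent.R257.Wt_258

noncomputable section

variable {X : Type} [TopologicalSpace X] [T2Space X] {T : Srf X}
variable {Γ : Type} [Group Γ] [Fintype Γ] [MulAction Γ X]

/-- two-sided bound near a point where the function is continuous and not zero -/
theorem ev_two {α : Type*} [TopologicalSpace α] {f : α → ℂ} {x : α} (h : ContinuousAt f x)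
    (h0 : f x ≠ 0) : ∃ C : ℝ, 0 < C ∧ ∀ᶠ y in 𝓝 x, C⁻¹ ≤ ‖f y‖ ∧ ‖f y‖ ≤ C := by
  have hp : 0 < ‖f x‖ := norm_pos_iff.2 h0
  have h1 := h.norm.eventually (Ioo_mem_nhds (show ‖f x‖ / 2 < ‖f x‖ by linarith)
    (show ‖f x‖ < 2 * ‖f x‖ by linarith))
  refine ⟨2 * ‖f x‖ + 2 * ‖f x‖⁻¹, by positivity, ?_⟩
  filter_upwards [h1] with y hy
  have hi : 0 < ‖f x‖⁻¹ := inv_pos.2 hp
  refine ⟨?_, by linarith [hy.2]⟩
  have h2 : (2 * ‖f x‖ + 2 * ‖f x‖⁻¹)⁻¹ ≤ (2 * ‖f x‖⁻¹)⁻¹ :=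
    inv_anti₀ (by positivity) (by linarith)
  have h3 : (2 * ‖f x‖⁻¹)⁻¹ = ‖f x‖ / 2 := by field_simp
  linarith [hy.1]

/-- two-sided bound on a compact set -/
theorem cpt_two {α : Type*} [TopologicalSpace α] {K : Set α} (hK : IsCompact K) {f : α → ℝ}
    (h : ContinuousOn f K) (h0 : ∀ x ∈ K, 0 < f x) :
    ∃ C : ℝ, 0 < C ∧ ∀ y ∈ K, C⁻¹ ≤ f y ∧ f y ≤ C := by
  obtain ⟨C₁, h1⟩ := hK.exists_bound_of_continuousOn h
  obtain ⟨C₂, h2⟩ := hK.exists_bound_of_continuousOn (h.inv₀ fun x hx => (h0 x hx).ne')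
  refine ⟨1 + |C₁| + |C₂|, by positivity, fun y hy => ?_⟩
  have h3 := h1 y hy
  have h4 : ‖(f y)⁻¹‖ ≤ C₂ := h2 y hy
  have hp := h0 y hy
  simp only [Real.norm_eq_abs] at h3 h4
  rw [abs_of_pos hp] at h3
  rw [abs_of_pos (inv_pos.2 hp)] at h4
  refine ⟨?_, by linarith [le_abs_self C₁, abs_nonneg C₂]⟩
  have h5 : (f y)⁻¹ ≤ 1 + |C₁| + |C₂| := by linarith [le_abs_self C₂, abs_nonneg C₁]
  exact inv_le_of_inv_le₀ hp h5

/-- the invariant function -/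
theorem mero [ConnectedSpace X] {n : ℕ} (hn : ∀ i, T.m i ≤ n) {r : ℝ} (hS : Sep T.S r)
    (hΓ : ∀ γ : Γ, Continuous fun x : X => γ • x) {χ : Γ → ℂ}
    (hχ : ∀ (γ : Γ) x, T.pr (γ • x) = χ γ * T.pr x) (hχ0 : ∀ γ, χ γ ≠ 0)
    (hno : NoTh (Γ := Γ) T.pr χ T.S r n) (D : T.ι → ℤ)
    (hD : ∀ (γ : Γ) i, D (T.σE (Srf.hom hΓ γ) i) = D i) (hD0 : ∑ i, D i = 0) :
    ∃ f : X → ℂ, HolX T.pr f ∧ (∀ x, f x ≠ 0) ∧ (∀ (γ : Γ) x, f (γ • x) = f x) ∧
      ∀ i, ∃ C δ : ℝ, 0 < C ∧ 0 < δ ∧ ∀ τ : ℂ, 0 < ‖τ‖ → ‖τ‖ < δ →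
        C⁻¹ * ‖τ‖ ^ ((Fintype.card Γ : ℤ) * D i) ≤ ‖f (T.γ i τ)‖ ∧
        ‖f (T.γ i τ)‖ ≤ C * ‖τ‖ ^ ((Fintype.card Γ : ℤ) * D i) := by
  classical
  obtain ⟨A, -, ⟨P⟩, hfin, hC, -⟩ := T.exists_atl (fun _ : Unit => (univ : Set T.Cp))
    (fun _ => isOpen_univ) (fun _ => ⟨(), mem_univ _⟩)
  let _ := T.act hΓ
  have hact : HolAct A Γ := T.holAct hC hΓ χ hχ
  have hnoH : NoH A Γ := noH hC hn hS hΓ hχ hχ0 hno
  set S : Finset T.Cp := Finset.univ.map ⟨T.en, T.en_injective⟩ with hSdef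
  have hjS : ∀ x, T.jn x ∉ S := by
    intro x hx
    rw [hSdef, Finset.mem_map] at hx
    obtain ⟨i, -, hi⟩ := hx
    exact T.jn_ne_en x i hi.symm
  have heS : ∀ i, T.en i ∈ S := fun i => by
    rw [hSdef, Finset.mem_map]
    exact ⟨i, Finset.mem_univ _, rfl⟩
  set D' : T.Cp → ℤ := fun p => Sum.elim (fun _ => (0 : ℤ)) (fun i => D i) p with hD'
  have hD'j : ∀ x, D' (T.jn x) = 0 := fun x => rfl
  have hD'e : ∀ i, D' (T.en i) = D i := fun i => rfl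
  obtain ⟨F, h1, h2, h3⟩ := exists_mero (Γ := Γ) P hact hnoH S
    (by
      intro γ p hp
      rw [hSdef, Finset.mem_map] at hp
      obtain ⟨i, -, rfl⟩ := hp
      exact heS (T.σE (Srf.hom hΓ γ) i))
    D'
    (by
      intro γ p
      rcases T.cases p with ⟨x, rfl⟩ | ⟨i, rfl⟩
      · exact (hD'j (γ • x)).trans (hD'j x).symm
      · exact (hD'e (T.σE (Srf.hom hΓ γ) i)).trans ((hD γ i).trans (hD'e i).symm))
    (by
      rw [hSdef, Finset.sum_map]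
      exact hD0)
  refine ⟨fun x => F (T.jn x), ?_, fun x => (h2 _ (hjS x)).1, fun γ x => h1 γ _ (hjS x), ?_⟩
  · -- holomorphic
    intro w₀ ρ σ hρ hσ hs
    have hw : w₀ ∈ ball w₀ ρ := mem_ball_self hρ
    exact holN_ch0 hC (Sum.inl ⟨w₀, ρ, σ, hσ, hs⟩) hw (h2 _ (hjS (σ w₀))).2
  · intro i
    obtain ⟨u, hu, hu0, hue⟩ := h3 (T.en i) (heS i) _ (crd_end hC i)
    have h0 : (0 : ℂ) ∈ (T.ch0 (Sum.inr i)).target := mem_ball_self T.εpos
    have hs0 : (T.ch0 (Sum.inr i)).symm 0 = T.en i := T.D_zero i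
    have hcu : ContinuousAt (fun y => u ((T.ch0 (Sum.inr i)).symm y)) 0 :=
      (holN_ch0 hC (Sum.inr i) h0 (by rw [hs0]; exact hu)).continuousAt
    obtain ⟨C, hC0, hCe⟩ := ev_two hcu (by rw [hs0]; exact hu0)
    have hc0 : Tendsto (T.ch0 (Sum.inr i)).symm (𝓝 0) (𝓝 (T.en i)) := by
      have := (T.ch0 (Sum.inr i)).continuousAt_symm h0
      rwa [ContinuousAt, hs0] at this
    have hev := (hc0.eventually hue).and (hCe.and ((T.ch0 (Sum.inr i)).open_target.mem_nhds h0))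
    obtain ⟨δ, hδ, hball⟩ := Metric.eventually_nhds_iff_ball.1 hev
    refine ⟨C, δ, hC0, hδ, fun τ b1 b2 => ?_⟩
    obtain ⟨a1, ⟨a2, a3⟩, a4⟩ := hball τ (mem_ball_zero_iff.2 b2)
    have hne : τ ≠ 0 := norm_pos_iff.1 b1
    have e1 : (T.ch0 (Sum.inr i)).symm τ = T.jn (T.γ i τ) := T.D_of_ne i hne
    have e2 : T.ch0 (Sum.inr i) (T.jn (T.γ i τ)) = τ := by
      rw [← e1]; exact (T.ch0 (Sum.inr i)).right_inv a4
    rw [e1] at a1 a2 a3
    have e3 := a1 (T.jn_ne_en _ _)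
    rw [e2, hD'e] at e3
    change C⁻¹ * _ ≤ ‖F (T.jn (T.γ i τ))‖ ∧ ‖F (T.jn (T.γ i τ))‖ ≤ _
    rw [e3, norm_mul, norm_zpow]
    have hz : 0 < ‖τ‖ ^ ((Fintype.card Γ : ℤ) * D i) := zpow_pos b1 _
    constructor
    · rw [mul_comm]
      exact mul_le_mul_of_nonneg_left a2 hz.le
    · rw [mul_comm]
      exact mul_le_mul_of_nonneg_right a3 hz.le

end

end Crest.Agent.R257.Rsn1_980
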