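import Crest.Agent.R257.Sh10_297

/-!
# Row 257, leaf D-SH (helper297), part 11: a function vanishing on the simple zeros is divisible
-/

set_option autoImplicit false
set_option linter.unusedSectionVars false

open MeasureTheory Set Metric Topology Filter Polynomial
open scoped ENNReal

namespace Crest.Agent.R257.Sh_297

noncomputable section

open Crest.Agent.R275.Loc2879

universe u

variable {Y : Type u} [NormedAddCommGroup Y] [NormedSpace ℂ Y] [FiniteDimensional ℂ Y]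

/-- a polynomial of degree `< d` vanishing at the `d` distinct roots of `W` is zero -/
lemma coeff_zero_of_roots {W : ℂ[X]} {d : ℕ} (hn : W.natDegree = d) (hs : W.roots.Nodup)
    (c : Fin d → ℂ) (h : ∀ z ∈ W.roots, ∑ j : Fin d, c j * z ^ (j : ℕ) = 0) : c = 0 := by
  classical
  set p : ℂ[X] := ∑ j : Fin d, C (c j) * X ^ (j : ℕ) with hp
  have hdeg : p.degree < d := by
    refine (Polynomial.degree_sum_le _ _).trans_lt ?_
    rw [Finset.sup_lt_iff (by exact WithBot.bot_lt_coe d)]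
    intro j _
    refine (Polynomial.degree_C_mul_X_pow_le _ _).trans_lt ?_
    exact_mod_cast j.2
  have hcard : W.roots.toFinset.card = d := by
    rw [Multiset.toFinset_card_of_nodup hs, ← hn]
    exact (IsAlgClosed.splits W).natDegree_eq_card_roots.symm
  have hp0 : p = 0 := by
    refine Polynomial.eq_zero_of_degree_lt_of_eval_finset_eq_zero W.roots.toFinset ?_ ?_
    · rw [hcard]; exact hdeg
    · intro z hz
      have := h z (Multiset.mem_toFinset.1 hz)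
      rw [hp, eval_finsetSum]
      simpa using this
  ext j
  have h1 : p.coeff j = c j := by
    rw [hp, finsetSum_coeff]
    simp only [coeff_C_mul, coeff_X_pow]
    rw [Finset.sum_eq_single j]
    · simp
    · intro i _ hij
      rw [if_neg (fun h => hij (Fin.ext h.symm)), mul_zero]
    · intro h; exact absurd (Finset.mem_univ j) h
  rw [← h1, hp0]
  simp

theorem dvd_of_vanish {f h : Y × ℂ → ℂ} (hf : AnalyticAt ℂ f (0, 0)) {d : ℕ}
    (hord : analyticOrderAt (fun z => f (0, z)) 0 = d) {δ' : ℝ} (hδ' : 0 < δ')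
    (hs : ∃ᶠ y in 𝓝 (0 : Y), ∀ z ∈ ball (0 : ℂ) δ', f (y, z) = 0 → vd f (y, z) ≠ 0)
    (hh : AnalyticAt ℂ h (0, 0))
    (hv : ∀ᶠ p in 𝓝 (((0 : Y), (0 : ℂ)) : Y × ℂ), f p = 0 → vd f p ≠ 0 → h p = 0) :
    ∃ a : Y × ℂ → ℂ, AnalyticAt ℂ a (0, 0) ∧
      ∀ᶠ p in 𝓝 (((0 : Y), (0 : ℂ)) : Y × ℂ), h p = a p * f p := by
  obtain ⟨q, c, hq, hc, hdiv⟩ := wdiv hf hord hh
  refine ⟨q, hq, ?_⟩
  have hcev : ∀ᶠ p in 𝓝 (((0 : Y), (0 : ℂ)) : Y × ℂ), ∀ j, AnalyticAt ℂ (c j) p.1 := by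
    have h1 : ∀ᶠ y in 𝓝 (0 : Y), ∀ j, AnalyticAt ℂ (c j) y :=
      eventually_all.2 fun j => (hc j).eventually_analyticAt
    exact (continuous_fst.tendsto (((0 : Y), (0 : ℂ)) : Y × ℂ)).eventually h1
  obtain ⟨ε, hε, hεb⟩ := Metric.eventually_nhds_iff_ball.1
    (hf.eventually_analyticAt.and (hv.and (hdiv.and hcev)))
  obtain ⟨ρ, hρ, -, w, D, δ₀, hδ₀, hB⟩ := exists_wbox (F := f)
    (Ω := ball (((0 : Y), (0 : ℂ)) : Y × ℂ) ε) isOpen_ball (mem_ball_self hε)
    (fun p hp => (hεb p hp).1) hord hδ' hs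
  set δ := min δ₀ ε with hδ
  have hδ0 : 0 < δ := lt_min hδ₀ hε
  have B := hB δ hδ0 (min_le_left _ _)
  -- the coefficients vanish off the discriminant
  have h1 : ∀ y ∈ ball (0 : Y) δ, D y ≠ 0 → ∀ j, c j y = 0 := by
    intro y hy hDy
    have h2 := coeff_zero_of_roots (B.natDegree hy) (B.sep y hy hDy) (fun j => c j y) ?_
    · exact fun j => congrFun h2 j
    · intro z hz
      obtain ⟨hz1, hz2⟩ := (B.mem_roots hy).1 hz
      have hm : (y, z) ∈ ball (((0 : Y), (0 : ℂ)) : Y × ℂ) ε := B.sub ⟨hy, hz1⟩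
      obtain ⟨-, h3, h4, -⟩ := hεb _ hm
      have h5 := h3 hz2 (B.vd_ne hy hDy hz1 hz2)
      rw [h4, hz2, mul_zero, zero_add] at h5
      exact h5
  have h2 : ∀ y ∈ ball (0 : Y) δ, ∀ j, c j y = 0 := by
    intro y hy j
    by_contra hne
    have hyε : (y, (0 : ℂ)) ∈ ball (((0 : Y), (0 : ℂ)) : Y × ℂ) ε := by
      rw [mem_ball, Prod.dist_eq, max_lt_iff]
      refine ⟨(mem_ball.1 hy).trans_le (min_le_right _ _), by simpa using hε⟩
    have h3 : AnalyticAt ℂ (c j) y := (hεb _ hyε).2.2.2 j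
    have h4 := h3.continuousAt.eventually_ne hne
    have h5 := R266.SCV.dense_ne_zero B.hΔ B.conn B.hD B.Dne y hy
    obtain ⟨y', ⟨h6, h7⟩, h8⟩ := (h5.and_eventually h4).exists
    exact h8 (h1 y' h6 h7 j)
  have h3 : ∀ᶠ p in 𝓝 (((0 : Y), (0 : ℂ)) : Y × ℂ), p.1 ∈ ball (0 : Y) δ :=
    (continuous_fst.tendsto (((0 : Y), (0 : ℂ)) : Y × ℂ)).eventually (ball_mem_nhds 0 hδ0)
  filter_upwards [hdiv, h3] with p h4 h5
  rw [h4]
  simp [h2 p.1 h5]

end

end Crest.Agent.R257.Sh_297
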