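import Crest.Agent.R257.Sh11_297
import Crest.Agent.R257.Defs_219

/-!
# Row 257, leaf D-SH (helper297), part 12: change of coordinates, the structure `Out1`
-/

set_option autoImplicit false
set_option linter.unusedSectionVars false

open MeasureTheory Set Metric Topology Filter
open scoped ENNReal
open Crest.AlgGeometry.Germ Crest.Agent.R257.Defs_219

namespace Crest.Agent.R257.Sh_297

noncomputable section

variable {n : ℕ}

/-- sheet integral, all dimensions (helper328) -/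
def JintN (p : ℝ) (r : ℝ) (f g : (Fin (n + 1) → ℂ) → ℂ) : ℝ≥0∞ :=
  ∫⁻ x' : Fin n → ℂ in {x' | ∀ i, ‖x' i‖ < r},
    ∑' z : {z : ℂ // ‖z‖ < r ∧ f (Fin.cons z x') = 0 ∧ coordDeriv f 0 (Fin.cons z x') ≠ 0},
      ENNReal.ofReal (‖g (Fin.cons z.1 x')‖ ^ (2 / p) / ‖coordDeriv f 0 (Fin.cons z.1 x')‖ ^ 2)

/-- `g ∈ J_p(f)` -/
def InJN (p : ℝ) (f g : (Fin (n + 1) → ℂ) → ℂ) : Prop := ∃ r : ℝ, 0 < r ∧ JintN p r f g < ∞

/-- the swap of the coordinate `0` and the last one -/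
def kap (p : (Fin (n + 1) → ℂ) × ℂ) : (Fin (n + 1) → ℂ) × ℂ :=
  (Fin.cons p.2 (Fin.tail p.1), p.1 0)

@[simp] lemma kap_kap (p : (Fin (n + 1) → ℂ) × ℂ) : kap (kap p) = p := by
  unfold kap
  ext i
  · simp only [Fin.tail_cons]
    rw [Fin.cons_self_tail]
  · simp

/-- `kap` as a linear map -/
def kapL : (Fin (n + 1) → ℂ) × ℂ →L[ℂ] (Fin (n + 1) → ℂ) × ℂ :=
  (ContinuousLinearMap.pi (Fin.cons (ContinuousLinearMap.snd ℂ (Fin (n + 1) → ℂ) ℂ)
    (fun j : Fin n => (ContinuousLinearMap.proj (R := ℂ) (φ := fun _ : Fin (n + 1) => ℂ)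
      j.succ).comp (ContinuousLinearMap.fst ℂ (Fin (n + 1) → ℂ) ℂ)))).prod
    ((ContinuousLinearMap.proj (R := ℂ) (φ := fun _ : Fin (n + 1) => ℂ) 0).comp
      (ContinuousLinearMap.fst ℂ (Fin (n + 1) → ℂ) ℂ))

lemma kapL_apply (p : (Fin (n + 1) → ℂ) × ℂ) : kapL p = kap p := by
  unfold kapL kap
  rw [ContinuousLinearMap.prod_apply, Prod.mk.injEq]
  refine ⟨?_, rfl⟩
  ext i
  refine Fin.cases ?_ (fun j => ?_) i
  · simp
  · simp [Fin.tail]

lemma kap_eq : (kap : (Fin (n + 1) → ℂ) × ℂ → _) = kapL := funext fun p => (kapL_apply p).symm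

lemma kap_analytic (p : (Fin (n + 1) → ℂ) × ℂ) : AnalyticAt ℂ kap p := by
  rw [kap_eq]; exact kapL.analyticAt p

lemma kap_cont : Continuous (kap : (Fin (n + 1) → ℂ) × ℂ → _) := by
  rw [kap_eq]; exact kapL.continuous

lemma kap_zero : kap (0 : (Fin (n + 1) → ℂ) × ℂ) = 0 := by
  rw [kap_eq]; exact map_zero kapL

/-- `kap` as a measurable equivalence -/
def kapE : (Fin (n + 1) → ℂ) × ℂ ≃ᵐ (Fin (n + 1) → ℂ) × ℂ where
  toFun := kap
  invFun := kap
  left_inv := kap_kap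
  right_inv := kap_kap
  measurable_toFun := kap_cont.measurable
  measurable_invFun := kap_cont.measurable

lemma kap_mp : MeasurePreserving (kap : (Fin (n + 1) → ℂ) × ℂ → _) volume volume := by
  have h1 := volume_preserving_piFinSuccAbove (fun _ : Fin (n + 1) => ℂ) 0
  have h2 : MeasurePreserving (Prod.map (MeasurableEquiv.piFinSuccAbove
      (fun _ : Fin (n + 1) => ℂ) 0) (id : ℂ → ℂ))
      (volume : Measure ((Fin (n + 1) → ℂ) × ℂ)) volume := h1.prod (MeasurePreserving.id _)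
  have h2' : MeasurePreserving (Prod.map (MeasurableEquiv.piFinSuccAbove
      (fun _ : Fin (n + 1) => ℂ) 0).symm (id : ℂ → ℂ)) volume
      (volume : Measure ((Fin (n + 1) → ℂ) × ℂ)) :=
    (h1.symm (MeasurableEquiv.piFinSuccAbove (fun _ : Fin (n + 1) => ℂ) 0)).prod
      (MeasurePreserving.id _)
  have h3 : MeasurePreserving (fun p : (ℂ × (Fin n → ℂ)) × ℂ => ((p.2, p.1.2), p.1.1))
      volume volume := by
    have e1 : MeasurePreserving (MeasurableEquiv.prodAssoc :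
        (ℂ × (Fin n → ℂ)) × ℂ ≃ᵐ ℂ × ((Fin n → ℂ) × ℂ)) volume volume :=
      measurePreserving_prodAssoc volume volume volume
    have e2 : MeasurePreserving (Prod.swap : ℂ × ((Fin n → ℂ) × ℂ) → _) volume volume :=
      Measure.measurePreserving_swap
    have e3 : MeasurePreserving (Prod.map (Prod.swap : (Fin n → ℂ) × ℂ → _) (id : ℂ → ℂ))
        volume volume :=
      (Measure.measurePreserving_swap (μ := (volume : Measure (Fin n → ℂ)))
        (ν := (volume : Measure ℂ))).prod (MeasurePreserving.id volume)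
    exact e3.comp (e2.comp e1)
  have h4 := h2'.comp (h3.comp h2)
  have h5 : (Prod.map (MeasurableEquiv.piFinSuccAbove (fun _ : Fin (n + 1) => ℂ) 0).symm
      (id : ℂ → ℂ)) ∘ ((fun p : (ℂ × (Fin n → ℂ)) × ℂ => ((p.2, p.1.2), p.1.1)) ∘
      (Prod.map (MeasurableEquiv.piFinSuccAbove (fun _ : Fin (n + 1) => ℂ) 0) (id : ℂ → ℂ))) =
      kap := by
    funext p
    unfold kap
    simp only [Function.comp_apply, Prod.map_apply, id, Prod.mk.injEq]
    refine ⟨?_, rfl⟩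
    ext i
    refine Fin.cases ?_ (fun j => ?_) i
    · rfl
    · rfl
  rw [h5] at h4
  exact h4

/-- the box -/
def Bx (n : ℕ) (R T : ℝ) : Set ((Fin (n + 1) → ℂ) × ℂ) := {p | (∀ i, ‖p.1 i‖ < R) ∧ ‖p.2‖ < T}

lemma isOpen_Bx (R T : ℝ) : IsOpen (Bx n R T) := by
  have : Bx n R T = (⋂ i, {p : (Fin (n + 1) → ℂ) × ℂ | ‖p.1 i‖ < R}) ∩ {p | ‖p.2‖ < T} := by
    ext p; simp [Bx]
  rw [this]
  refine (isOpen_iInter_of_finite fun i => isOpen_lt ?_ continuous_const).inter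
    (isOpen_lt (by fun_prop) continuous_const)
  fun_prop

/-- (1-OUT): the output of the `L^{2/p}` extension at the scales `1 / (k + 1)` -/
structure Out1 (F : (Fin (n + 1) → ℂ) × ℂ → ℂ) (g : (Fin (n + 1) → ℂ) → ℂ) (q R T C : ℝ)
    (G : ℕ → (Fin (n + 1) → ℂ) × ℂ → ℂ) : Prop where
  hR : 0 < R
  hT : 0 < T
  hF : AnalyticOnNhd ℂ F (Bx n R T)
  hG : ∀ k, AnalyticOnNhd ℂ (G k) (Bx n R T)
  ext : ∀ k x, (∀ i, ‖x i‖ < R) → F (x, 0) = 0 → coordDeriv (sl F 0) 0 x ≠ 0 → G k (x, 0) = g x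
  int : ∀ k : ℕ, ∫⁻ p in {p | p ∈ Bx n R T ∧ ‖F p‖ < 1 / ((k : ℝ) + 1)}, ‖G k p‖ₑ ^ q ≤
    ENNReal.ofReal (C / ((k : ℝ) + 1) ^ 2)

/-- the vertical derivative in the coordinates -/
lemma hasDerivAt_cons (x' : Fin n → ℂ) (z : ℂ) :
    HasDerivAt (fun z : ℂ => (Fin.cons z x' : Fin (n + 1) → ℂ)) (Pi.single 0 1) z := by
  rw [hasDerivAt_pi]
  intro i
  refine Fin.cases ?_ (fun j => ?_) i
  · rw [Pi.single_eq_same]
    exact hasDerivAt_id z
  · rw [Pi.single_eq_of_ne (Fin.succ_ne_zero j)]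
    exact hasDerivAt_const z (x' j)

lemma deriv_cons {f : (Fin (n + 1) → ℂ) → ℂ} {x' : Fin n → ℂ} {z : ℂ}
    (hf : DifferentiableAt ℂ f (Fin.cons z x')) :
    deriv (fun z : ℂ => f (Fin.cons z x')) z = coordDeriv f 0 (Fin.cons z x') :=
  (hf.hasFDerivAt.comp_hasDerivAt z (hasDerivAt_cons x' z)).deriv

end

end Crest.Agent.R257.Sh_297
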