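import Crest.Agent.R257.Sh12_297

/-!
# Row 257, leaf D-SH (helper297), part 13: (1-OUT) implies the extension in germ form
-/

set_option autoImplicit false
set_option linter.unusedSectionVars false

open MeasureTheory Set Metric Topology Filter
open scoped ENNReal
open Crest.AlgGeometry.Germ Crest.Agent.R257.Defs_219

namespace Crest.Agent.R257.Sh_297

noncomputable section

variable {n : ℕ}

/-- `(x', z) ↦ (z, x')` -/
def consL : (Fin n → ℂ) × ℂ →L[ℂ] (Fin (n + 1) → ℂ) :=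
  ContinuousLinearMap.pi (Fin.cons (ContinuousLinearMap.snd ℂ (Fin n → ℂ) ℂ)
    (fun j : Fin n => (ContinuousLinearMap.proj (R := ℂ) (φ := fun _ : Fin n => ℂ)
      j).comp (ContinuousLinearMap.fst ℂ (Fin n → ℂ) ℂ)))

lemma consL_apply (p : (Fin n → ℂ) × ℂ) : consL p = (Fin.cons p.2 p.1 : Fin (n + 1) → ℂ) := by
  unfold consL
  ext i
  refine Fin.cases ?_ (fun j => ?_) i
  · simp
  · simp

lemma ae_frequently {Y : Type*} [TopologicalSpace Y] [MeasurableSpace Y] {μ : Measure Y}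
    [μ.IsOpenPosMeasure] {P : Y → Prop} (h : ∀ᵐ y ∂μ, P y) (a : Y) : ∃ᶠ y in 𝓝 a, P y := by
  intro hcon
  have h1 : 0 < μ {y | ¬ P y} := Measure.measure_pos_of_mem_nhds μ hcon
  rw [ae_iff] at h
  exact h1.ne' h

/-- generic simplicity at `t = 0` -/
lemma generic_simple (hn : 1 ≤ n) {f : (Fin (n + 1) → ℂ) → ℂ} (hf : AnalyticAt ℂ f 0)
    (hiso : ∀ᶠ x in 𝓝 (0 : Fin (n + 1) → ℂ), x ≠ 0 → f x = 0 → ∃ i, coordDeriv f i x ≠ 0) :
    ∃ δ' > 0, ∃ᶠ x' in 𝓝 (0 : Fin n → ℂ), ∀ z ∈ ball (0 : ℂ) δ',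
      f (Fin.cons z x') = 0 → deriv (fun z : ℂ => f (Fin.cons z x')) z ≠ 0 := by
  have : Nonempty (Fin n) := ⟨⟨0, hn⟩⟩
  have : Nontrivial (Fin n → ℂ) := inferInstance
  set h : (Fin n → ℂ) × ℂ → ℂ := fun p => f (consL p) with hh
  have hc0 : consL (0 : (Fin n → ℂ) × ℂ) = 0 := map_zero _
  have hev : ∀ᶠ p in 𝓝 (0 : (Fin n → ℂ) × ℂ), AnalyticAt ℂ f (consL p) ∧
      (consL p ≠ 0 → f (consL p) = 0 → ∃ i, coordDeriv f i (consL p) ≠ 0) := by
    have h1 : Tendsto (consL : (Fin n → ℂ) × ℂ → _) (𝓝 0) (𝓝 0) := by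
      have := (consL (n := n)).continuous.tendsto 0
      rwa [hc0] at this
    exact h1.eventually (hf.eventually_analyticAt.and hiso)
  obtain ⟨ε, hε, hεb⟩ := Metric.eventually_nhds_iff_ball.1 hev
  have hinj : ∀ p : (Fin n → ℂ) × ℂ, consL p = 0 → p = 0 := by
    intro p hp
    rw [consL_apply] at hp
    have h1 := congrFun hp 0
    ext j
    · have := congrFun hp (Fin.succ j)
      simpa using this
    · simpa using h1
  have hsurj : ∀ x : Fin (n + 1) → ℂ, consL (Fin.tail x, x 0) = x := by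
    intro x; rw [consL_apply]; exact Fin.cons_self_tail x
  have hhan : AnalyticOnNhd ℂ h (ball 0 ε) := fun p hp =>
    AnalyticAt.comp (g := f) (hεb p hp).1 (consL.analyticAt p)
  have h1 := ae_simple (Y := Fin n → ℂ) volume isOpen_ball hhan (by
    intro p hp hp0 hfp hd
    obtain ⟨i, hi⟩ := (hεb p hp).2 (fun h => hp0 (hinj p h)) hfp
    refine hi ?_
    have h2 : fderiv ℂ h p = (fderiv ℂ f (consL p)).comp consL :=
      ((hεb p hp).1.differentiableAt.hasFDerivAt.comp p consL.hasFDerivAt).fderiv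
    have h3 : fderiv ℂ f (consL p) (consL (Fin.tail (Pi.single i 1 : Fin (n + 1) → ℂ),
        (Pi.single i 1 : Fin (n + 1) → ℂ) 0)) = 0 := by
      have := congrArg (fun L => L (Fin.tail (Pi.single i 1 : Fin (n + 1) → ℂ),
        (Pi.single i 1 : Fin (n + 1) → ℂ) 0)) (h2.symm.trans hd)
      exact this
    rw [hsurj] at h3
    exact h3)
  refine ⟨ε, hε, ?_⟩
  refine ((ae_frequently h1 0).and_eventually (ball_mem_nhds 0 hε)).mono ?_
  rintro x' ⟨hx', hx'ε⟩ z hz hfz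
  have h2 := hx' z (by
    rw [mem_ball, ← Prod.mk_zero_zero, Prod.dist_eq]
    exact max_lt hx'ε hz) (by
      show f (consL (x', z)) = 0
      rw [consL_apply]; exact hfz)
  have h3 : (fun z : ℂ => h (x', z)) = fun z : ℂ => f (Fin.cons z x') := by
    funext z
    show f (consL (x', z)) = _
    rw [consL_apply]
  have h4 : vd h (x', z) = deriv (fun z : ℂ => f (Fin.cons z x')) z := by
    unfold vd
    rw [← h3]
  rw [h4] at h2
  exact h2

/-- (1-OUT) implies the extension theorem in germ form -/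
theorem final (hn : 1 ≤ n) {F : (Fin (n + 1) → ℂ) × ℂ → ℂ} {g : (Fin (n + 1) → ℂ) → ℂ}
    {p R T C : ℝ} (hp : 1 ≤ p) {G : ℕ → (Fin (n + 1) → ℂ) × ℂ → ℂ}
    (O : Out1 F g (2 / p) R T C G) (hg : AnalyticAt ℂ g 0)
    (hiso : ∀ᶠ x in 𝓝 (0 : Fin (n + 1) → ℂ), x ≠ 0 → F (x, 0) = 0 →
      ∃ i, coordDeriv (sl F 0) i x ≠ 0)
    (hreg : ∃ᶠ z : ℂ in 𝓝[≠] 0, F (Fin.cons z 0, 0) ≠ 0) :
    ∃ G : (Fin (n + 1) → ℂ) × ℂ → ℂ, AnalyticAt ℂ G (0, 0) ∧
      (∃ a : (Fin (n + 1) → ℂ) → ℂ, AnalyticAt ℂ a 0 ∧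
        ∀ᶠ x in 𝓝 (0 : Fin (n + 1) → ℂ), G (x, 0) = g x + a x * F (x, 0)) ∧
      ∃ δ : ℝ, 0 < δ ∧ ∀ᵐ t : ℂ, ‖t‖ < δ → InJN p (sl F t) (sl G t) := by
  have hq : 0 < 2 / p := by positivity
  have hzero : (0 : (Fin (n + 1) → ℂ) × ℂ) ∈ Bx n R T := by
    refine ⟨fun i => ?_, ?_⟩
    · simpa using O.hR
    · simpa using O.hT
  have hBo : IsOpen (Bx n R T) := isOpen_Bx R T
  set Ω : Set ((Fin (n + 1) → ℂ) × ℂ) := kap ⁻¹' Bx n R T with hΩ
  have hΩo : IsOpen Ω := hBo.preimage kap_cont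
  set F' : (Fin (n + 1) → ℂ) × ℂ → ℂ := fun p => F (kap p) with hF'
  have hF'a : AnalyticOnNhd ℂ F' Ω := fun p hp =>
    AnalyticAt.comp (g := F) (O.hF _ hp) (kap_analytic p)
  have hF'app : ∀ t x' z, F' (Fin.cons t x', z) = F (Fin.cons z x', t) := by
    intro t x' z
    rw [hF']; simp [kap, Fin.tail_cons]
  -- slices of `F`
  have hslan : ∀ t x, (x, t) ∈ Bx n R T → AnalyticAt ℂ (sl F t) x := by
    intro t x hx
    exact AnalyticAt.comp (g := F) (f := fun x => (x, t)) (O.hF _ hx)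
      (analyticAt_id.prod analyticAt_const)
  have hvd : ∀ t x' z, ((Fin.cons z x' : Fin (n + 1) → ℂ), t) ∈ Bx n R T →
      vd F' (Fin.cons t x', z) = coordDeriv (sl F t) 0 (Fin.cons z x') := by
    intro t x' z h
    rw [← deriv_cons (hslan t _ h).differentiableAt]
    unfold vd
    simp only [hF'app]
    rfl
  -- order of vanishing
  obtain ⟨d, hd⟩ : ∃ d : ℕ, analyticOrderAt (fun z : ℂ => F' (0, z)) 0 = d := by
    have h1 : analyticOrderAt (fun z : ℂ => F' (0, z)) 0 ≠ ⊤ := by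
      intro htop
      rw [analyticOrderAt_eq_top] at htop
      obtain ⟨z, hz1, hz2⟩ := (hreg.and_eventually (nhdsWithin_le_nhds htop)).exists
      apply hz1
      have : (0 : Fin (n + 1) → ℂ) = Fin.cons (0 : ℂ) (0 : Fin n → ℂ) := by
        ext i; refine Fin.cases rfl (fun j => rfl) i
      rw [this, hF'app] at hz2
      exact hz2
    obtain ⟨d, hd⟩ := ENat.ne_top_iff_exists.1 h1
    exact ⟨d, hd.symm⟩
  -- generic simplicity
  obtain ⟨δ', hδ', hs0⟩ := generic_simple hn (f := sl F 0) (hslan 0 0 hzero) hiso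
  have hs : ∃ᶠ y in 𝓝 (0 : Fin (n + 1) → ℂ), ∀ z ∈ ball (0 : ℂ) (min δ' R),
      F' (y, z) = 0 → vd F' (y, z) ≠ 0 := by
    have h1 : Tendsto (fun x' : Fin n → ℂ => (Fin.cons (0 : ℂ) x' : Fin (n + 1) → ℂ)) (𝓝 0) (𝓝 0) := by
      have h2 : Continuous (fun x' : Fin n → ℂ => (Fin.cons (0 : ℂ) x' : Fin (n + 1) → ℂ)) := by
        refine continuous_pi fun i => ?_
        refine Fin.cases ?_ (fun j => ?_) i
        · simpa using continuous_const
        · simpa using continuous_apply j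
      have h3 := h2.tendsto 0
      have h4 : (Fin.cons (0 : ℂ) (0 : Fin n → ℂ) : Fin (n + 1) → ℂ) = 0 := by
        ext i; refine Fin.cases rfl (fun j => rfl) i
      rwa [h4] at h3
    refine h1.frequently ((hs0.and_eventually (ball_mem_nhds 0 O.hR)).mono ?_)
    rintro x' ⟨hx', hx'R⟩ z hz hFz
    rw [hF'app] at hFz
    have hzR : ‖z‖ < R := by
      have := mem_ball_zero_iff.1 hz
      exact this.trans_le (min_le_right _ _)
    have hmem : ((Fin.cons z x' : Fin (n + 1) → ℂ), (0 : ℂ)) ∈ Bx n R T := by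
      refine ⟨fun i => ?_, by simpa using O.hT⟩
      refine Fin.cases ?_ (fun j => ?_) i
      · simpa using hzR
      · simp only [Fin.cons_succ]
        exact (norm_le_pi_norm x' j).trans_lt (mem_ball_zero_iff.1 hx'R)
    rw [hvd 0 x' z hmem, ← deriv_cons (hslan 0 _ hmem).differentiableAt]
    exact hx' z (ball_subset_ball (min_le_left _ _) hz) hFz
  -- the box
  have h0Ω : ((0 : Fin (n + 1) → ℂ), (0 : ℂ)) ∈ Ω := by
    show kap 0 ∈ Bx n R T
    rw [kap_zero]; exact hzero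
  obtain ⟨ρ, hρ, hρ', w, D, δ₀, hδ₀, hB⟩ := exists_wbox (F := F') hΩo h0Ω hF'a hd
    (lt_min hδ' O.hR) hs
  have B := hB δ₀ hδ₀ le_rfl
  -- the tube bound
  set r : ℕ → ℝ := fun k => 1 / ((k : ℝ) + 1) with hr
  have hr0 : ∀ k, 0 < r k := fun k => by rw [hr]; positivity
  have hrt : Tendsto r atTop (𝓝 0) := tendsto_one_div_add_atTop_nhds_zero_nat
  set G' : ℕ → (Fin (n + 1) → ℂ) × ℂ → ℂ := fun k p => G k (kap p) with hG'
  have hG'a : ∀ k, AnalyticOnNhd ℂ (G' k) Ω := fun k p hp =>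
    AnalyticAt.comp (g := G k) (O.hG k _ hp) (kap_analytic p)
  set M : ℝ≥0∞ := ENNReal.ofReal (C / Real.pi) with hM
  have htube : ∀ k, tube volume F' Ω (r k) (fun x => ‖G' k x‖ₑ ^ (2 / p)) ≤
      M * volume (ball (0 : ℂ) (r k)) := by
    intro k
    have h1 := kap_mp (n := n) |>.setLIntegral_comp_preimage_emb kapE.measurableEmbedding
      (fun x => ‖G k x‖ₑ ^ (2 / p)) {x | x ∈ Bx n R T ∧ ‖F x‖ < r k}
    have h2 : tube volume F' Ω (r k) (fun x => ‖G' k x‖ₑ ^ (2 / p)) =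
        ∫⁻ x in {x | x ∈ Bx n R T ∧ ‖F x‖ < r k}, ‖G k x‖ₑ ^ (2 / p) := by
      rw [← h1]; rfl
    rw [h2]
    refine (O.int k).trans ?_
    rw [Complex.volume_ball, hM]
    have h3 : ENNReal.ofReal (r k) ^ 2 * (NNReal.pi : ℝ≥0∞) =
        ENNReal.ofReal (Real.pi * r k ^ 2) := by
      rw [ENNReal.ofReal_mul Real.pi_pos.le, ENNReal.ofReal_pow (hr0 k).le, mul_comm]
      congr 1
      rw [← NNReal.coe_real_pi, ENNReal.ofReal_coe_nnreal]
    rw [h3, ← ENNReal.ofReal_mul' (by positivity)]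
    refine ENNReal.ofReal_le_ofReal (le_of_eq ?_)
    rw [hr]
    field_simp
  obtain ⟨φ, hφ, g', hg', hlim⟩ := B.limit volume hq (M := M) ENNReal.ofReal_ne_top hr0 hrt hG'a htube
  have hsheet := B.sheet_le volume hq (M := M) (r := fun k => r (φ k)) (fun k => hr0 _)
    (hrt.comp hφ.tendsto_atTop) (G := fun k => G' (φ k)) (fun k => hG'a _) (fun k => htube _) hlim
  refine ⟨fun x => g' (kap x), ?_, ?_, ?_⟩
  · have h1 : AnalyticAt ℂ g' (kap ((0 : Fin (n + 1) → ℂ), (0 : ℂ))) := by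
      have : kap ((0 : Fin (n + 1) → ℂ), (0 : ℂ)) = (0, 0) := kap_zero
      rw [this]
      exact hg' _ ⟨mem_ball_self hδ₀, mem_ball_self hρ⟩
    exact AnalyticAt.comp (g := g') h1 (kap_analytic _)
  · -- the slice `t = 0`
    set f : (Fin n → ℂ) × ℂ → ℂ := fun y => F (Fin.cons y.2 y.1, 0) with hf
    set h : (Fin n → ℂ) × ℂ → ℂ := fun y => g' (Fin.cons 0 y.1, y.2) - g (Fin.cons y.2 y.1) with hh
    have hconsL : ∀ y : (Fin n → ℂ) × ℂ, (Fin.cons y.2 y.1 : Fin (n + 1) → ℂ) = consL y := fun y =>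
      (consL_apply y).symm
    have hfa : AnalyticAt ℂ f (0, 0) := by
      have h1 : AnalyticAt ℂ (fun y : (Fin n → ℂ) × ℂ => ((consL y : Fin (n + 1) → ℂ), (0 : ℂ)))
          (0, 0) := (consL.analyticAt _).prod analyticAt_const
      have h2 : AnalyticAt ℂ F ((consL ((0 : Fin n → ℂ), (0 : ℂ)) : Fin (n + 1) → ℂ), (0 : ℂ)) := by
        have : (consL ((0 : Fin n → ℂ), (0 : ℂ)) : Fin (n + 1) → ℂ) = 0 := map_zero _
        rw [this]; exact O.hF _ hzero
      have h3 := AnalyticAt.comp (g := F) (f := fun y : (Fin n → ℂ) × ℂ =>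
        ((consL y : Fin (n + 1) → ℂ), (0 : ℂ))) h2 h1
      refine h3.congr (Eventually.of_forall fun y => ?_)
      simp only [hf, Function.comp_apply, hconsL]
    have hcons0 : (Fin.cons (0 : ℂ) (0 : Fin n → ℂ) : Fin (n + 1) → ℂ) = 0 := by
      ext i; refine Fin.cases rfl (fun j => rfl) i
    have hha : AnalyticAt ℂ h (0, 0) := by
      have h1 : AnalyticAt ℂ (fun y : (Fin n → ℂ) × ℂ => kap ((consL y : Fin (n + 1) → ℂ), (0 : ℂ)))
          (0, 0) := AnalyticAt.comp (g := kap) (kap_analytic _)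
          ((consL.analyticAt _).prod analyticAt_const)
      have h2 : AnalyticAt ℂ g' (kap ((consL ((0 : Fin n → ℂ), (0 : ℂ)) : Fin (n + 1) → ℂ),
          (0 : ℂ))) := by
        have h3 : (consL ((0 : Fin n → ℂ), (0 : ℂ)) : Fin (n + 1) → ℂ) = 0 := map_zero _
        have h4 : kap ((0 : Fin (n + 1) → ℂ), (0 : ℂ)) = (0, 0) := kap_zero
        rw [h3, h4]
        exact hg' _ ⟨mem_ball_self hδ₀, mem_ball_self hρ⟩
      have h3 := AnalyticAt.comp (g := g') (f := fun y : (Fin n → ℂ) × ℂ =>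
        kap ((consL y : Fin (n + 1) → ℂ), (0 : ℂ))) h2 h1
      have h4 : AnalyticAt ℂ g (consL ((0 : Fin n → ℂ), (0 : ℂ))) := by
        have : (consL ((0 : Fin n → ℂ), (0 : ℂ)) : Fin (n + 1) → ℂ) = 0 := map_zero _
        rw [this]; exact hg
      have h5 := AnalyticAt.comp (g := g) h4 (consL.analyticAt _)
      refine (h3.sub h5).congr (Eventually.of_forall fun y => ?_)
      simp only [hh, Pi.sub_apply, Function.comp_apply, consL_apply, kap, Fin.tail_cons,
        Fin.cons_zero]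
    have hford : analyticOrderAt (fun z => f (0, z)) 0 = d := by
      rw [← hd]
      have : (fun z => f (0, z)) = fun z => F' (0, z) := by
        funext z
        rw [← hcons0, hF'app]
      rw [this]
    have hfs : ∃ᶠ y in 𝓝 (0 : Fin n → ℂ), ∀ z ∈ ball (0 : ℂ) δ', f (y, z) = 0 → vd f (y, z) ≠ 0 :=
      hs0
    have hfv : ∀ᶠ y in 𝓝 (((0 : Fin n → ℂ), (0 : ℂ)) : (Fin n → ℂ) × ℂ),
        f y = 0 → vd f y ≠ 0 → h y = 0 := by
      have h1 : ∀ᶠ y in 𝓝 (((0 : Fin n → ℂ), (0 : ℂ)) : (Fin n → ℂ) × ℂ),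
          y ∈ ball (((0 : Fin n → ℂ), (0 : ℂ)) : (Fin n → ℂ) × ℂ) (min (min δ₀ ρ) R) :=
        ball_mem_nhds _ (lt_min (lt_min hδ₀ hρ) O.hR)
      filter_upwards [h1] with y hy hfy hvy
      obtain ⟨x', z⟩ := y
      rw [mem_ball, Prod.dist_eq, max_lt_iff] at hy
      simp only [dist_zero_right] at hy
      obtain ⟨hy1, hy2⟩ := hy
      have hz1 : z ∈ ball (0 : ℂ) ρ := by
        rw [mem_ball_zero_iff]
        exact hy2.trans_le ((min_le_left _ _).trans (min_le_right _ _))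
      have hcn : (Fin.cons (0 : ℂ) x' : Fin (n + 1) → ℂ) ∈ ball (0 : Fin (n + 1) → ℂ) δ₀ := by
        rw [mem_ball_zero_iff, pi_norm_lt_iff hδ₀]
        intro i
        refine Fin.cases ?_ (fun j => ?_) i
        · simpa using hδ₀
        · simp only [Fin.cons_succ]
          exact (norm_le_pi_norm x' j).trans_lt
            (hy1.trans_le ((min_le_left _ _).trans (min_le_left _ _)))
      have hmem : ∀ i, ‖(Fin.cons z x' : Fin (n + 1) → ℂ) i‖ < R := by
        intro i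
        refine Fin.cases ?_ (fun j => ?_) i
        · simpa using hy2.trans_le (min_le_right _ _)
        · simp only [Fin.cons_succ]
          exact (norm_le_pi_norm x' j).trans_lt (hy1.trans_le (min_le_right _ _))
      have hmem' : ((Fin.cons z x' : Fin (n + 1) → ℂ), (0 : ℂ)) ∈ Bx n R T :=
        ⟨hmem, by simpa using O.hT⟩
      have hF0 : F (Fin.cons z x', 0) = 0 := hfy
      have hlim' := hlim (Fin.cons 0 x') hcn z hz1 (by rw [hF'app]; exact hF0)
      have hcd : coordDeriv (sl F 0) 0 (Fin.cons z x') ≠ 0 := by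
        rw [← deriv_cons (hslan 0 _ hmem').differentiableAt]
        exact hvy
      have hconst : ∀ k, G' (φ k) (Fin.cons 0 x', z) = g (Fin.cons z x') := by
        intro k
        rw [← O.ext (φ k) (Fin.cons z x') hmem hF0 hcd]
        simp only [hG', kap, Fin.tail_cons, Fin.cons_zero]
      have h2 : Tendsto (fun k => G' (φ k) (Fin.cons 0 x', z)) atTop (𝓝 (g (Fin.cons z x'))) :=
        tendsto_const_nhds.congr fun k => (hconst k).symm
      have h3 := tendsto_nhds_unique hlim' h2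
      simp only [hh]
      rw [h3, sub_self]
    obtain ⟨a, ha, hadiv⟩ := dvd_of_vanish hfa hford hδ' hfs hha hfv
    have htl : Continuous (fun x : Fin (n + 1) → ℂ => ((Fin.tail x : Fin n → ℂ), x 0)) := by
      refine Continuous.prodMk ?_ (continuous_apply 0)
      exact continuous_pi fun j => continuous_apply j.succ
    have htla : AnalyticAt ℂ (fun x : Fin (n + 1) → ℂ => ((Fin.tail x : Fin n → ℂ), x 0)) 0 := by
      refine AnalyticAt.prod ?_ ?_
      · rw [analyticAt_pi_iff]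
        exact fun j => (ContinuousLinearMap.proj (R := ℂ) (φ := fun _ : Fin (n + 1) => ℂ)
          j.succ).analyticAt 0
      · exact (ContinuousLinearMap.proj (R := ℂ) (φ := fun _ : Fin (n + 1) => ℂ) 0).analyticAt 0
    have htl0 : ((Fin.tail (0 : Fin (n + 1) → ℂ) : Fin n → ℂ), (0 : Fin (n + 1) → ℂ) 0) =
        (0, 0) := rfl
    refine ⟨fun x => a (Fin.tail x, x 0), ?_, ?_⟩
    · exact AnalyticAt.comp (g := a) (f := fun x : Fin (n + 1) → ℂ =>
        ((Fin.tail x : Fin n → ℂ), x 0)) (by rw [htl0]; exact ha) htla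
    · have h1 : Tendsto (fun x : Fin (n + 1) → ℂ => ((Fin.tail x : Fin n → ℂ), x 0)) (𝓝 0)
          (𝓝 (0, 0)) := by
        have := htl.tendsto 0
        rwa [htl0] at this
      filter_upwards [h1.eventually hadiv] with x hx
      simp only [hh, hf, Fin.cons_self_tail] at hx
      rw [← hx]
      simp only [kap]
      ring
  · -- almost every `t`
    set N : (Fin (n + 1) → ℂ) → ℝ≥0∞ := shSum F' (ball (0 : Fin (n + 1) → ℂ) δ₀ ×ˢ ball (0 : ℂ) ρ)
      (fun x => ‖g' x‖ₑ ^ (2 / p)) with hN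
    have hopen : IsOpen (ball (0 : Fin (n + 1) → ℂ) δ₀ ×ˢ ball (0 : ℂ) ρ) :=
      isOpen_ball.prod isOpen_ball
    have hsub : ball (0 : Fin (n + 1) → ℂ) δ₀ ×ˢ ball (0 : ℂ) ρ ⊆ Ω := fun x hx =>
      B.sub ⟨hx.1, ball_subset_closedBall hx.2⟩
    have hNm : Measurable N := (lsc_shSum hopen (hF'a.mono hsub)
      ((ENNReal.continuous_rpow_const).comp_continuousOn
        (continuous_enorm.comp_continuousOn hg'.continuousOn))).measurable
    set e := MeasurableEquiv.piFinSuccAbove (fun _ : Fin (n + 1) => ℂ) 0 with he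
    have hcm : Measurable (fun q : ℂ × (Fin n → ℂ) => (Fin.cons q.1 q.2 : Fin (n + 1) → ℂ)) := by
      refine Continuous.measurable (continuous_pi fun i => ?_)
      refine Fin.cases ?_ (fun j => ?_) i
      · simpa using continuous_fst
      · simp only [Fin.cons_succ]
        exact (continuous_apply j).comp continuous_snd
    have hNc : Measurable (fun q : ℂ × (Fin n → ℂ) => N (Fin.cons q.1 q.2)) := hNm.comp hcm
    have hfub : ∫⁻ t in ball (0 : ℂ) δ₀, ∫⁻ x' in ball (0 : Fin n → ℂ) δ₀, N (Fin.cons t x') ≤ M := by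
      have h1 := (volume_preserving_piFinSuccAbove (fun _ : Fin (n + 1) => ℂ)
        0).setLIntegral_comp_preimage_emb e.measurableEmbedding
        (fun q : ℂ × (Fin n → ℂ) => N (Fin.cons q.1 q.2))
        (ball (0 : ℂ) δ₀ ×ˢ ball (0 : Fin n → ℂ) δ₀)
      have h2 : ∫⁻ q in ball (0 : ℂ) δ₀ ×ˢ ball (0 : Fin n → ℂ) δ₀, N (Fin.cons q.1 q.2)
          ∂(volume : Measure (ℂ × (Fin n → ℂ))) =
          ∫⁻ t in ball (0 : ℂ) δ₀, ∫⁻ x' in ball (0 : Fin n → ℂ) δ₀, N (Fin.cons t x') := by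
        rw [Measure.volume_eq_prod, ← Measure.prod_restrict]
        exact lintegral_prod _ hNc.aemeasurable
      rw [← h2, ← h1]
      refine le_trans (le_of_eq ?_) (le_trans (lintegral_mono_set (μ := volume) (f := N)
        (s := e ⁻¹' (ball (0 : ℂ) δ₀ ×ˢ ball (0 : Fin n → ℂ) δ₀))
        (t := ball (0 : Fin (n + 1) → ℂ) δ₀) ?_) hsheet)
      · refine lintegral_congr fun y => ?_
        congr 1
        exact Fin.cons_self_tail y
      · rintro y ⟨hy1, hy2⟩
        rw [mem_ball_zero_iff, pi_norm_lt_iff hδ₀]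
        intro i
        refine Fin.cases ?_ (fun j => ?_) i
        · exact mem_ball_zero_iff.1 hy1
        · exact (norm_le_pi_norm (e y).2 j).trans_lt (mem_ball_zero_iff.1 hy2)
    have hfin : ∀ᵐ t : ℂ, t ∈ ball (0 : ℂ) δ₀ →
        ∫⁻ x' in ball (0 : Fin n → ℂ) δ₀, N (Fin.cons t x') < ∞ := by
      rw [← ae_restrict_iff' measurableSet_ball]
      refine ae_lt_top ?_ (ne_top_of_le_ne_top ENNReal.ofReal_ne_top hfub)
      exact hNc.lintegral_prod_right'
    refine ⟨δ₀, hδ₀, ?_⟩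
    filter_upwards [hfin] with t ht htδ
    set r₁ : ℝ := min δ₀ ρ with hr₁
    have hr₁0 : 0 < r₁ := lt_min hδ₀ hρ
    refine ⟨r₁, hr₁0, lt_of_le_of_lt ?_ (ht (mem_ball_zero_iff.2 htδ))⟩
    have hset : {x' : Fin n → ℂ | ∀ i, ‖x' i‖ < r₁} = ball 0 r₁ := by
      ext x'
      rw [mem_ofPred_eq, mem_ball_zero_iff, pi_norm_lt_iff hr₁0]
    unfold JintN
    rw [hset]
    refine le_trans (setLIntegral_mono' measurableSet_ball fun x' hx' => ?_)
      (lintegral_mono_set (μ := volume) (f := fun x' : Fin n → ℂ => N (Fin.cons t x'))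
        (ball_subset_ball (min_le_left _ _)))
    have hcn : (Fin.cons t x' : Fin (n + 1) → ℂ) ∈ ball (0 : Fin (n + 1) → ℂ) δ₀ := by
      rw [mem_ball_zero_iff, pi_norm_lt_iff hδ₀]
      intro i
      refine Fin.cases ?_ (fun j => ?_) i
      · simpa using htδ
      · simp only [Fin.cons_succ]
        exact (norm_le_pi_norm x' j).trans_lt
          ((mem_ball_zero_iff.1 hx').trans_le (min_le_left _ _))
    have hbox : ∀ z : ℂ, ‖z‖ < r₁ → ((Fin.cons z x' : Fin (n + 1) → ℂ), t) ∈ Bx n R T := by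
      intro z hz
      have h1 : kap ((Fin.cons t x' : Fin (n + 1) → ℂ), z) ∈ Bx n R T :=
        B.sub ⟨hcn, ball_subset_closedBall (mem_ball_zero_iff.2 (hz.trans_le (min_le_right _ _)))⟩
      have h2 : kap ((Fin.cons t x' : Fin (n + 1) → ℂ), z) = (Fin.cons z x', t) := by
        simp [kap, Fin.tail_cons]
      rwa [h2] at h1
    have hmem : ∀ z : {z : ℂ // ‖z‖ < r₁ ∧ sl F t (Fin.cons z x') = 0 ∧
        coordDeriv (sl F t) 0 (Fin.cons z x') ≠ 0},
        (z : ℂ) ∈ {z : ℂ | ((Fin.cons t x' : Fin (n + 1) → ℂ), z) ∈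
          ball (0 : Fin (n + 1) → ℂ) δ₀ ×ˢ ball (0 : ℂ) ρ ∧ F' (Fin.cons t x', z) = 0 ∧
          vd F' (Fin.cons t x', z) ≠ 0} := by
      rintro ⟨z, hz1, hz2, hz3⟩
      refine ⟨⟨hcn, mem_ball_zero_iff.2 (hz1.trans_le (min_le_right _ _))⟩, ?_, ?_⟩
      · rw [hF'app]; exact hz2
      · rw [hvd t x' z (hbox z hz1)]; exact hz3
    have hinj : Function.Injective (fun z : {z : ℂ // ‖z‖ < r₁ ∧ sl F t (Fin.cons z x') = 0 ∧
        coordDeriv (sl F t) 0 (Fin.cons z x') ≠ 0} => (⟨z, hmem z⟩ : {z : ℂ |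
          ((Fin.cons t x' : Fin (n + 1) → ℂ), z) ∈
          ball (0 : Fin (n + 1) → ℂ) δ₀ ×ˢ ball (0 : ℂ) ρ ∧ F' (Fin.cons t x', z) = 0 ∧
          vd F' (Fin.cons t x', z) ≠ 0})) := by
      intro a b hab
      have hab' := congrArg Subtype.val hab
      exact Subtype.ext hab'
    have hts := ENNReal.tsum_comp_le_tsum_of_injective hinj
      (fun z => ‖g' (Fin.cons t x', (z : ℂ))‖ₑ ^ (2 / p) / ‖vd F' (Fin.cons t x', (z : ℂ))‖ₑ ^ 2)
    refine le_trans (le_of_eq (tsum_congr fun z => ?_)) hts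
    have h1 : vd F' (Fin.cons t x', (z : ℂ)) = coordDeriv (sl F t) 0 (Fin.cons z.1 x') :=
      hvd t x' z (hbox z z.2.1)
    simp only
    rw [h1]
    have h2 : sl (fun x => g' (kap x)) t (Fin.cons z.1 x') = g' (Fin.cons t x', (z : ℂ)) := by
      simp [sl, kap, Fin.tail_cons]
    rw [h2, ENNReal.ofReal_div_of_pos (by have := norm_pos_iff.2 z.2.2.2; positivity),
      ← ENNReal.ofReal_rpow_of_nonneg (norm_nonneg _) hq.le, ofReal_norm,
      ENNReal.ofReal_pow (norm_nonneg _), ofReal_norm]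

end

end Crest.Agent.R257.Sh_297
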