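import Crest.Agent.R276.Sub_185

/-!
# Row 257, leaf D-SH (helper297), part 1: sections of a holomorphic function of one variable and the
sub-mean value inequality for `‖G‖ ^ q / ‖f'‖ ^ 2` along the zeros of `f`.

* `Sec f W r z₀` : a holomorphic section `ζ` of `f` over the disc of radius `r`, `ζ 0 = z₀`;
* `sec_le`  : `‖G z₀‖ ^ q / ‖f' z₀‖ ^ 2 * (π r²) ≤ ∫ over the image of ζ of ‖G‖ ^ q`;
* `tsum_sec_le` : the sum over all zeros in a set all of whose points have sections of radius `r`.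
-/

set_option autoImplicit false

open MeasureTheory Set Metric Topology Filter
open scoped ENNReal Real

namespace Crest.Agent.R257.Sh_297

noncomputable section

/-- logarithm of a nowhere zero holomorphic function on a disc (as in R269/Brody3_164) -/
theorem exists_log_ball {c : ℂ → ℂ} {R : ℝ} (hR : 0 < R) (hc : DifferentiableOn ℂ c (ball 0 R))
    (h0 : ∀ z ∈ ball (0 : ℂ) R, c z ≠ 0) :
    ∃ φ : ℂ → ℂ, DifferentiableOn ℂ φ (ball 0 R) ∧
      ∀ z ∈ ball (0 : ℂ) R, Complex.exp (φ z) = c z := by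
  have hd : DifferentiableOn ℂ (fun z => deriv c z / c z) (ball 0 R) :=
    (hc.deriv isOpen_ball).div hc h0
  obtain ⟨g, hg⟩ := hd.isExactOn_ball
  have hgd : DifferentiableOn ℂ g (ball 0 R) := fun z hz =>
    (hg z hz).differentiableAt.differentiableWithinAt
  set q : ℂ → ℂ := fun z => c z * Complex.exp (- g z) with hq
  have hqd : ∀ z ∈ ball (0 : ℂ) R, HasDerivAt q 0 z := by
    intro z hz
    have h1 : HasDerivAt c (deriv c z) z :=
      (hc.differentiableAt (isOpen_ball.mem_nhds hz)).hasDerivAt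
    have h2 := h1.mul ((hg z hz).neg.cexp)
    refine h2.congr_deriv ?_
    have := h0 z hz
    field_simp
    ring
  have hqD : DifferentiableOn ℂ q (ball 0 R) := fun z hz =>
    (hqd z hz).differentiableAt.differentiableWithinAt
  have h0m : (0 : ℂ) ∈ ball (0 : ℂ) R := mem_ball_self hR
  have hconst : ∀ z ∈ ball (0 : ℂ) R, q z = q 0 := fun z hz =>
    isOpen_ball.is_const_of_deriv_eq_zero (convex_ball (0 : ℂ) R).isPreconnected hqD
      (fun w hw => (hqd w hw).deriv) hz h0m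
  have hq0 : q 0 ≠ 0 := mul_ne_zero (h0 0 h0m) (Complex.exp_ne_zero _)
  refine ⟨fun z => g z + Complex.log (q 0), hgd.add_const _, fun z hz => ?_⟩
  rw [Complex.exp_add, Complex.exp_log hq0, ← hconst z hz, hq]
  simp only
  rw [mul_comm, mul_assoc, ← Complex.exp_add, neg_add_cancel, Complex.exp_zero, mul_one]

/-- a holomorphic section of `f` over the disc of radius `r`, with values in `W` -/
structure Sec (f : ℂ → ℂ) (W : Set ℂ) (r : ℝ) (z₀ : ℂ) where
  /-- the section -/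
  ζ : ℂ → ℂ
  diff : DifferentiableOn ℂ ζ (ball 0 r)
  maps : MapsTo ζ (ball 0 r) W
  sec : ∀ s ∈ ball (0 : ℂ) r, f (ζ s) = s
  zero : ζ 0 = z₀

variable {f : ℂ → ℂ} {W : Set ℂ} {r : ℝ} {z₀ : ℂ}

/-- restriction to a smaller disc -/
def Sec.restr (S : Sec f W r z₀) {r' : ℝ} (h : r' ≤ r) : Sec f W r' z₀ where
  ζ := S.ζ
  diff := S.diff.mono (ball_subset_ball h)
  maps := fun _ hs => S.maps (ball_subset_ball h hs)
  sec := fun s hs => S.sec s (ball_subset_ball h hs)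
  zero := S.zero

/-- larger target -/
def Sec.mono (S : Sec f W r z₀) {W' : Set ℂ} (h : W ⊆ W') : Sec f W' r z₀ where
  ζ := S.ζ
  diff := S.diff
  maps := fun _ hs => h (S.maps hs)
  sec := S.sec
  zero := S.zero

lemma Sec.injOn (S : Sec f W r z₀) : InjOn S.ζ (ball 0 r) := by
  intro a ha b hb h
  rw [← S.sec a ha, ← S.sec b hb, h]

lemma Sec.image_subset (S : Sec f W r z₀) : S.ζ '' ball 0 r ⊆ {w | w ∈ W ∧ ‖f w‖ < r} := by
  rintro _ ⟨s, hs, rfl⟩
  refine ⟨S.maps hs, ?_⟩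
  rw [S.sec s hs]
  simpa using hs

lemma Sec.meas (S : Sec f W r z₀) : MeasurableSet (S.ζ '' ball 0 r) :=
  measurableSet_ball.image_of_continuousOn_injOn S.diff.continuousOn S.injOn

/-- chain rule -/
lemma Sec.deriv_mul (S : Sec f W r z₀) (hW : IsOpen W) (hf : DifferentiableOn ℂ f W) {s : ℂ}
    (hs : s ∈ ball (0 : ℂ) r) : deriv f (S.ζ s) * deriv S.ζ s = 1 := by
  have h1 : HasDerivAt S.ζ (deriv S.ζ s) s :=
    (S.diff.differentiableAt (isOpen_ball.mem_nhds hs)).hasDerivAt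
  have h2 : HasDerivAt f (deriv f (S.ζ s)) (S.ζ s) :=
    (hf.differentiableAt (hW.mem_nhds (S.maps hs))).hasDerivAt
  have h3 := h2.comp s h1
  have h4 : (f ∘ S.ζ) =ᶠ[𝓝 s] fun x => x := by
    filter_upwards [isOpen_ball.mem_nhds hs] with x hx using S.sec x hx
  have h5 : HasDerivAt (fun x : ℂ => x) (deriv f (S.ζ s) * deriv S.ζ s) s :=
    h3.congr_of_eventuallyEq h4.symm
  exact h5.unique (hasDerivAt_id s)

lemma abs_det_eq {g : ℂ → ℂ} (x : ℂ) :
    |((ContinuousLinearMap.toSpanSingleton ℂ (deriv g x)).restrictScalars ℝ : ℂ →L[ℝ] ℂ).det| =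
      ‖deriv g x‖ ^ 2 := by
  have h1 : ((ContinuousLinearMap.toSpanSingleton ℂ (deriv g x)).restrictScalars ℝ :
      ℂ →L[ℝ] ℂ).det = ‖deriv g x‖ ^ 2 := by
    simp [ContinuousLinearMap.det, LinearMap.det_restrictScalars, Algebra.norm_complex_eq,
      Complex.normSq_eq_norm_sq]
  rw [h1, abs_of_nonneg (by positivity)]

/-- area formula for an injective holomorphic function of one variable -/
theorem area {g : ℂ → ℂ} {S : Set ℂ} (hS : IsOpen S) (hg : DifferentiableOn ℂ g S)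
    (hi : InjOn g S) (u : ℂ → ℝ≥0∞) :
    ∫⁻ w in g '' S, u w = ∫⁻ s in S, ‖deriv g s‖ₑ ^ 2 * u (g s) := by
  rw [lintegral_image_eq_lintegral_abs_det_fderiv_mul volume hS.measurableSet
    (f' := fun x => (ContinuousLinearMap.toSpanSingleton ℂ (deriv g x)).restrictScalars ℝ) ?_ hi]
  · refine lintegral_congr fun s => ?_
    rw [abs_det_eq, ENNReal.ofReal_pow (norm_nonneg _), ofReal_norm]
  · intro x hx
    have h1 := ((hg.differentiableAt (hS.mem_nhds hx)).hasDerivAt.hasFDerivAt).restrictScalars ℝ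
    exact h1.hasFDerivWithinAt

/-- the sub-mean value inequality along a section -/
theorem sec_le (hr : 0 < r) (S : Sec f W r z₀) (hW : IsOpen W) (hf : DifferentiableOn ℂ f W)
    {G : ℂ → ℂ} (hG : DifferentiableOn ℂ G W) {q : ℝ} (hq : 0 < q) :
    ‖G z₀‖ₑ ^ q / ‖deriv f z₀‖ₑ ^ 2 * volume (ball (0 : ℂ) r) ≤
      ∫⁻ w in S.ζ '' ball 0 r, ‖G w‖ₑ ^ q := by
  have h0 : (0 : ℂ) ∈ ball (0 : ℂ) r := mem_ball_self hr
  have hne : ∀ s ∈ ball (0 : ℂ) r, deriv S.ζ s ≠ 0 := by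
    intro s hs h
    have := S.deriv_mul hW hf hs
    rw [h, mul_zero] at this
    exact zero_ne_one this
  obtain ⟨φ, hφ, hφe⟩ := exists_log_ball hr (S.diff.deriv isOpen_ball) hne
  set h : ℂ → ℂ := fun s => G (S.ζ s) * Complex.exp ((2 / q : ℝ) * φ s) with hh
  have hd : DifferentiableOn ℂ h (ball 0 r) := by
    refine (hG.comp S.diff S.maps).mul ?_
    exact (hφ.const_mul _).cexp
  have hnorm : ∀ s ∈ ball (0 : ℂ) r, ‖h s‖ₑ ^ q = ‖deriv S.ζ s‖ₑ ^ 2 * ‖G (S.ζ s)‖ₑ ^ q := by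
    intro s hs
    rw [hh]
    simp only
    rw [enorm_mul, ENNReal.mul_rpow_of_nonneg _ _ hq.le, mul_comm]
    congr 1
    have h1 : ‖Complex.exp ((2 / q : ℝ) * φ s)‖ = ‖deriv S.ζ s‖ ^ (2 / q) := by
      rw [← hφe s hs, Complex.norm_exp, Complex.norm_exp, ← Real.exp_mul]
      congr 1
      rw [Complex.re_ofReal_mul, mul_comm]
    rw [← ofReal_norm, h1, ← ofReal_norm, ENNReal.ofReal_rpow_of_nonneg (by positivity) hq.le,
      ← Real.rpow_mul (norm_nonneg _), div_mul_cancel₀ _ hq.ne',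
      ← ENNReal.ofReal_pow (norm_nonneg _)]
    norm_num
  have hm := R276.Sub_185.mul_measure_le (E := ℂ) volume isOpen_ball
    (balanced_ball_zero (r := r)) hd hq
  rw [hnorm 0 h0, S.zero] at hm
  rw [area isOpen_ball S.diff S.injOn]
  calc ‖G z₀‖ₑ ^ q / ‖deriv f z₀‖ₑ ^ 2 * volume (ball (0 : ℂ) r)
      = ‖deriv S.ζ 0‖ₑ ^ 2 * ‖G z₀‖ₑ ^ q * volume (ball (0 : ℂ) r) := by
        congr 1
        have h2 := S.deriv_mul hW hf h0
        rw [S.zero] at h2
        have h3 : deriv S.ζ 0 = (deriv f z₀)⁻¹ := by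
          rw [eq_comm, inv_eq_of_mul_eq_one_right h2]
        have h4 : deriv f z₀ ≠ 0 := left_ne_zero_of_mul_eq_one h2
        rw [h3, enorm_inv h4, ← ENNReal.inv_pow, div_eq_mul_inv, mul_comm]
    _ ≤ ∫⁻ w in ball 0 r, ‖h w‖ₑ ^ q := hm
    _ = _ := setLIntegral_congr_fun measurableSet_ball hnorm

/-- two sections whose images meet are equal -/
theorem sec_unique (hW : IsOpen W) (hf : DifferentiableOn ℂ f W) {z₁ z₂ : ℂ}
    (S₁ : Sec f W r z₁) (S₂ : Sec f W r z₂)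
    (h : ¬ Disjoint (S₁.ζ '' ball 0 r) (S₂.ζ '' ball 0 r)) : z₁ = z₂ := by
  rw [Set.not_disjoint_iff] at h
  obtain ⟨w, ⟨a, ha, haw⟩, ⟨b, hb, hbw⟩⟩ := h
  have hab : a = b := by
    rw [← S₁.sec a ha, ← S₂.sec b hb, haw, hbw]
  subst hab
  have hr : 0 < r := pos_of_mem_ball ha
  have h0 : (0 : ℂ) ∈ ball (0 : ℂ) r := mem_ball_self hr
  have hf' : HasStrictDerivAt f (deriv f w) w := by
    have hwW : w ∈ W := haw ▸ S₁.maps ha
    exact (hf.analyticAt (hW.mem_nhds hwW)).hasStrictDerivAt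
  have hne : deriv f w ≠ 0 := by
    have h2 := S₁.deriv_mul hW hf ha
    rw [haw] at h2
    exact left_ne_zero_of_mul_eq_one h2
  -- local injectivity
  have hinj : ∃ U ∈ 𝓝 w, InjOn f U := by
    refine ⟨(hf'.hasStrictFDerivAt_equiv hne).toOpenPartialHomeomorph.source, ?_, ?_⟩
    · exact (hf'.hasStrictFDerivAt_equiv hne).toOpenPartialHomeomorph.open_source.mem_nhds
        (hf'.hasStrictFDerivAt_equiv hne).mem_toOpenPartialHomeomorph_source
    · have := (hf'.hasStrictFDerivAt_equiv hne).toOpenPartialHomeomorph.injOn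
      simpa using this
  obtain ⟨U, hU, hUi⟩ := hinj
  have hc1 : ContinuousAt S₁.ζ a := (S₁.diff.differentiableAt (isOpen_ball.mem_nhds ha)).continuousAt
  have hc2 : ContinuousAt S₂.ζ a := (S₂.diff.differentiableAt (isOpen_ball.mem_nhds ha)).continuousAt
  have hev : S₁.ζ =ᶠ[𝓝 a] S₂.ζ := by
    have e1 : ∀ᶠ s in 𝓝 a, S₁.ζ s ∈ U := hc1.eventually_mem (haw.symm ▸ hU)
    have e2 : ∀ᶠ s in 𝓝 a, S₂.ζ s ∈ U := hc2.eventually_mem (hbw.symm ▸ hU)
    filter_upwards [e1, e2, isOpen_ball.mem_nhds ha] with s h1 h2 h3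
    exact hUi h1 h2 (by rw [S₁.sec s h3, S₂.sec s h3])
  have heq := (S₁.diff.analyticOnNhd isOpen_ball).eqOn_of_preconnected_of_eventuallyEq
    (S₂.diff.analyticOnNhd isOpen_ball) (convex_ball (0 : ℂ) r).isPreconnected ha hev
  rw [← S₁.zero, ← S₂.zero]
  exact heq h0

/-- the sum over all points of `T`, if every point of `T` has a section of radius `r` -/
theorem tsum_sec_le (hr : 0 < r) (hW : IsOpen W) (hf : DifferentiableOn ℂ f W) (T : Set ℂ)
    (hT : ∀ z ∈ T, Nonempty (Sec f W r z)) {G : ℂ → ℂ} (hG : DifferentiableOn ℂ G W) {q : ℝ}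
    (hq : 0 < q) :
    (∑' z : T, ‖G z‖ₑ ^ q / ‖deriv f z‖ₑ ^ 2) * volume (ball (0 : ℂ) r) ≤
      ∫⁻ w in {w | w ∈ W ∧ ‖f w‖ < r}, ‖G w‖ₑ ^ q := by
  classical
  have S : ∀ z : T, Sec f W r z := fun z => (hT z z.2).some
  rw [← ENNReal.tsum_mul_right]
  rw [ENNReal.tsum_eq_iSup_sum]
  refine iSup_le fun A => ?_
  have h1 : ∀ z ∈ A, ‖G z‖ₑ ^ q / ‖deriv f z‖ₑ ^ 2 * volume (ball (0 : ℂ) r) ≤
      ∫⁻ w in (S z).ζ '' ball 0 r, ‖G w‖ₑ ^ q := fun z _ => sec_le hr (S z) hW hf hG hq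
  refine (Finset.sum_le_sum h1).trans ?_
  rw [← lintegral_biUnion_finset]
  · refine lintegral_mono_set ?_
    refine iUnion₂_subset fun z _ => ?_
    exact (S z).image_subset
  · intro z₁ _ z₂ _ h12
    by_contra hcon
    exact h12 (Subtype.ext (sec_unique hW hf (S z₁) (S z₂) hcon))
  · exact fun z _ => (S z).meas

end

end Crest.Agent.R257.Sh_297
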