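import Crest.Agent.R257.Sh1_297

/-!
# Row 257, leaf D-SH (helper297), part 2: sections of `F (y, ·)`, uniformly in `y`
-/

set_option autoImplicit false
set_option linter.unusedSectionVars false

open MeasureTheory Set Metric Topology Filter
open scoped ENNReal Real

namespace Crest.Agent.R257.Sh_297

noncomputable section

variable {Y : Type*} [NormedAddCommGroup Y] [NormedSpace ℂ Y] [CompleteSpace Y]

/-- the vertical derivative -/
def vd (F : Y × ℂ → ℂ) (p : Y × ℂ) : ℂ := deriv (fun z => F (p.1, z)) p.2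

lemma vd_eq {F : Y × ℂ → ℂ} {p : Y × ℂ} (hF : DifferentiableAt ℂ F p) :
    vd F p = fderiv ℂ F p (0, 1) := by
  have h1 : HasDerivAt (fun z : ℂ => ((p.1, z) : Y × ℂ)) ((0, 1) : Y × ℂ) p.2 :=
    (hasDerivAt_const p.2 p.1).prodMk (hasDerivAt_id p.2)
  have h2 : HasFDerivAt F (fderiv ℂ F p) ((fun z : ℂ => ((p.1, z) : Y × ℂ)) p.2) := hF.hasFDerivAt
  exact (h2.comp_hasDerivAt p.2 h1).deriv

lemma vd_analytic {F : Y × ℂ → ℂ} {Ω : Set (Y × ℂ)} (hΩ : IsOpen Ω) (hF : AnalyticOnNhd ℂ F Ω) :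
    AnalyticOnNhd ℂ (vd F) Ω := by
  have h1 : AnalyticOnNhd ℂ (fun p => fderiv ℂ F p ((0, 1) : Y × ℂ)) Ω := fun p hp =>
    (((ContinuousLinearMap.apply ℂ ℂ ((0, 1) : Y × ℂ)).analyticAt _).comp (hF.fderiv p hp))
  refine h1.congr hΩ fun p hp => ?_
  exact (vd_eq (hF p hp).differentiableAt).symm

/-- slices are open -/
lemma isOpen_slice {Ω : Set (Y × ℂ)} (hΩ : IsOpen Ω) (y : Y) : IsOpen {z : ℂ | (y, z) ∈ Ω} :=
  hΩ.preimage (by fun_prop)

lemma diff_slice {Ω : Set (Y × ℂ)} {F : Y × ℂ → ℂ} (hF : AnalyticOnNhd ℂ F Ω) (y : Y) :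
    DifferentiableOn ℂ (fun z => F (y, z)) {z : ℂ | (y, z) ∈ Ω} := by
  intro z hz
  have h1 : DifferentiableAt ℂ (fun z : ℂ => ((y, z) : Y × ℂ)) z :=
    (differentiableAt_const y).prodMk differentiableAt_id
  exact ((hF (y, z) hz).differentiableAt.comp z h1).differentiableWithinAt

/-- the linear equivalence `(u, v) ↦ (u, L (u, v))` -/
def eqv (L : Y × ℂ →L[ℂ] ℂ) (h : L (0, 1) ≠ 0) : (Y × ℂ) ≃L[ℂ] (Y × ℂ) :=
  ContinuousLinearEquiv.equivOfInverse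
    ((ContinuousLinearMap.fst ℂ Y ℂ).prod L)
    ((ContinuousLinearMap.fst ℂ Y ℂ).prod
      ((L (0, 1))⁻¹ • (ContinuousLinearMap.snd ℂ Y ℂ -
        L.comp ((ContinuousLinearMap.fst ℂ Y ℂ).prod 0))))
    (by
      rintro ⟨u, v⟩
      have h1 : L (u, v) = L (u, 0) + v * L (0, 1) := by
        rw [← smul_eq_mul, ← map_smul, ← map_add]; simp
      simp only [ContinuousLinearMap.prod_apply, ContinuousLinearMap.coe_fst',
        ContinuousLinearMap.smul_apply, ContinuousLinearMap.sub_apply,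
        ContinuousLinearMap.coe_snd', ContinuousLinearMap.comp_apply,
        ContinuousLinearMap.zero_apply, smul_eq_mul, h1, Prod.mk.injEq, true_and]
      field_simp
      ring)
    (by
      rintro ⟨u, v⟩
      have h1 : ∀ w : ℂ, L (u, w) = L (u, 0) + w * L (0, 1) := fun w => by
        rw [← smul_eq_mul, ← map_smul, ← map_add]; simp
      simp only [ContinuousLinearMap.prod_apply, ContinuousLinearMap.coe_fst',
        ContinuousLinearMap.smul_apply, ContinuousLinearMap.sub_apply,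
        ContinuousLinearMap.coe_snd', ContinuousLinearMap.comp_apply,
        ContinuousLinearMap.zero_apply, smul_eq_mul, Prod.mk.injEq, true_and]
      rw [h1 ((L (0, 1))⁻¹ * (v - L (u, 0)))]
      field_simp
      ring)

lemma coe_eqv (L : Y × ℂ →L[ℂ] ℂ) (h : L (0, 1) ≠ 0) :
    ((eqv L h : (Y × ℂ) ≃L[ℂ] (Y × ℂ)) : Y × ℂ →L[ℂ] Y × ℂ) =
      (ContinuousLinearMap.fst ℂ Y ℂ).prod L := rfl

theorem local_data {Ω : Set (Y × ℂ)} (hΩ : IsOpen Ω) {F : Y × ℂ → ℂ} (hF : AnalyticOnNhd ℂ F Ω)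
    {p₀ : Y × ℂ} (hp₀ : p₀ ∈ Ω) (h0 : F p₀ = 0) (h1 : vd F p₀ ≠ 0) :
    ∃ δ > 0, ∃ ρ > 0, ∃ B : ℝ, ∃ U ∈ 𝓝 p₀, ∃ ξ : Y → ℂ,
      DifferentiableOn ℂ ξ (ball p₀.1 δ) ∧
      (∀ y ∈ ball p₀.1 δ, (y, ξ y) ∈ Ω ∧ F (y, ξ y) = 0 ∧ ‖vd F (y, ξ y)‖ ≤ B ∧
        Nonempty (Sec (fun z => F (y, z)) {z | (y, z) ∈ Ω} ρ (ξ y))) ∧
      (∀ p ∈ U, p.1 ∈ ball p₀.1 (δ / 2) ∧ (F p = 0 → p.2 = ξ p.1)) := by
  set Φ : Y × ℂ → Y × ℂ := fun p => (p.1, F p) with hΦ
  have hstrict : ∀ p ∈ Ω, HasStrictFDerivAt Φ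
      ((ContinuousLinearMap.fst ℂ Y ℂ).prod (fderiv ℂ F p)) p := fun p hp =>
    hasStrictFDerivAt_fst.prodMk (hF p hp).hasStrictFDerivAt
  have hL : ∀ p ∈ Ω, vd F p ≠ 0 → fderiv ℂ F p (0, 1) ≠ 0 := fun p hp h => by
    rwa [← vd_eq (hF p hp).differentiableAt]
  have hstrict0 : HasStrictFDerivAt Φ
      ((eqv (fderiv ℂ F p₀) (hL p₀ hp₀ h1) : (Y × ℂ) ≃L[ℂ] (Y × ℂ)) : Y × ℂ →L[ℂ] Y × ℂ) p₀ := by
    rw [coe_eqv]; exact hstrict p₀ hp₀
  set e := hstrict0.toOpenPartialHomeomorph Φ with he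
  have hecoe : (e : Y × ℂ → Y × ℂ) = Φ := hstrict0.toOpenPartialHomeomorph_coe
  have hes : p₀ ∈ e.source := hstrict0.mem_toOpenPartialHomeomorph_source
  have hvdc : ContinuousOn (vd F) Ω := (vd_analytic hΩ hF).continuousOn
  set Ω' : Set (Y × ℂ) := {p | p ∈ Ω ∧ vd F p ≠ 0 ∧ ‖vd F p‖ < ‖vd F p₀‖ + 1} with hΩ'
  have hΩ'o : IsOpen Ω' := by
    have h2 : Ω' = Ω ∩ vd F ⁻¹' ({w | w ≠ 0} ∩ {w | ‖w‖ < ‖vd F p₀‖ + 1}) := by
      ext p; simp only [hΩ', mem_setOf_eq, mem_inter_iff, mem_preimage]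
    rw [h2]
    exact hvdc.isOpen_inter_preimage hΩ (isOpen_ne.inter (isOpen_lt continuous_norm continuous_const))
  have hp₀' : p₀ ∈ Ω' := ⟨hp₀, h1, by linarith⟩
  -- the open set in the target
  have hB : ∀ᶠ q in 𝓝 ((p₀.1, (0 : ℂ)) : Y × ℂ), q ∈ e.target ∧ e.symm q ∈ Ω' := by
    have hq0 : e p₀ = (p₀.1, (0 : ℂ)) := by rw [hecoe, hΦ]; simp [h0]
    have h2 : (p₀.1, (0 : ℂ)) ∈ e.target := hq0 ▸ e.map_source hes
    have h3 : e.symm (p₀.1, (0 : ℂ)) = p₀ := by rw [← hq0]; exact e.left_inv hes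
    have h4 : ContinuousAt e.symm (p₀.1, (0 : ℂ)) := e.symm.continuousAt (by simpa using h2)
    have h5 : ∀ᶠ q in 𝓝 ((p₀.1, (0 : ℂ)) : Y × ℂ), q ∈ e.target := e.open_target.mem_nhds h2
    refine h5.and (h4.eventually_mem ?_)
    rw [h3]; exact hΩ'o.mem_nhds hp₀'
  rw [Metric.eventually_nhds_iff_ball] at hB
  obtain ⟨ε, hε, hBε⟩ := hB
  have hmem : ∀ y ∈ ball p₀.1 ε, ∀ s ∈ ball (0 : ℂ) ε, (y, s) ∈ e.target ∧ e.symm (y, s) ∈ Ω' := by
    intro y hy s hs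
    refine hBε (y, s) ?_
    rw [mem_ball, Prod.dist_eq]
    exact max_lt hy hs
  have hfst : ∀ y ∈ ball p₀.1 ε, ∀ s ∈ ball (0 : ℂ) ε, e.symm (y, s) = (y, (e.symm (y, s)).2) ∧
      F (y, (e.symm (y, s)).2) = s := by
    intro y hy s hs
    have h2 := e.right_inv (hmem y hy s hs).1
    rw [hecoe, hΦ] at h2
    simp only [Prod.mk.injEq] at h2
    have h3 : e.symm (y, s) = (y, (e.symm (y, s)).2) := by
      ext
      · exact h2.1
      · rfl
    refine ⟨h3, ?_⟩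
    rw [← h3]; exact h2.2
  refine ⟨ε, hε, ε, hε, ‖vd F p₀‖ + 1, e.source ∩ (Prod.fst ⁻¹' ball p₀.1 (ε / 2)),
    inter_mem (e.open_source.mem_nhds hes) ?_, fun y => (e.symm (y, 0)).2, ?_, ?_, ?_⟩
  · exact (continuous_fst.isOpen_preimage _ isOpen_ball).mem_nhds (mem_ball_self (by positivity))
  · -- differentiability of ξ
    intro y hy
    have h2 := hmem y hy 0 (mem_ball_self hε)
    have h3 := hstrict (e.symm (y, 0)) h2.2.1
    have h4 : HasFDerivAt e ((eqv (fderiv ℂ F (e.symm (y, 0))) (hL _ h2.2.1 h2.2.2.1) :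
        (Y × ℂ) ≃L[ℂ] (Y × ℂ)) : Y × ℂ →L[ℂ] Y × ℂ) (e.symm (y, 0)) := by
      rw [coe_eqv, hecoe]; exact h3.hasFDerivAt
    have h5 := e.hasFDerivAt_symm h2.1 h4
    have h6 : DifferentiableAt ℂ (fun y : Y => e.symm (y, (0 : ℂ))) y := by
      have h7 : DifferentiableAt ℂ (fun y : Y => ((y, (0 : ℂ)) : Y × ℂ)) y :=
        differentiableAt_id.prodMk (differentiableAt_const _)
      exact DifferentiableAt.comp (g := e.symm) y h5.differentiableAt h7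
    exact h6.snd.differentiableWithinAt
  · intro y hy
    have h2 := hmem y hy 0 (mem_ball_self hε)
    have h3 := hfst y hy 0 (mem_ball_self hε)
    simp only
    rw [← h3.1]
    refine ⟨h2.2.1, ?_, h2.2.2.2.le, ?_⟩
    · rw [h3.1]; exact h3.2
    · refine ⟨⟨fun s => (e.symm (y, s)).2, ?_, ?_, ?_, rfl⟩⟩
      · intro s hs
        have h4 := hmem y hy s hs
        have h5 := hfst y hy s hs
        have h6 : ContinuousAt (fun s : ℂ => (e.symm (y, s)).2) s := by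
          have h7 : ContinuousAt e.symm (y, s) := e.symm.continuousAt (by simpa using h4.1)
          have h8 : ContinuousAt (fun s : ℂ => ((y, s) : Y × ℂ)) s := by fun_prop
          exact continuous_snd.continuousAt.comp (ContinuousAt.comp (g := e.symm) h7 h8)
        have h9 : (y, (e.symm (y, s)).2) ∈ Ω' := h5.1 ▸ h4.2
        have h10 : HasDerivAt (fun z => F (y, z)) (vd F (y, (e.symm (y, s)).2))
            ((e.symm (y, s)).2) := by
          have := (diff_slice hF y).differentiableAt ((isOpen_slice hΩ y).mem_nhds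
            (show (e.symm (y, s)).2 ∈ {z | (y, z) ∈ Ω} from h9.1))
          exact this.hasDerivAt
        have h11 := HasDerivAt.of_local_left_inverse h6 h10 h9.2.1 (by
          filter_upwards [isOpen_ball.mem_nhds hs] with s' hs'
          exact (hfst y hy s' hs').2)
        exact h11.differentiableAt.differentiableWithinAt
      · intro s hs
        have h4 := hmem y hy s hs
        have h5 := hfst y hy s hs
        show (y, (e.symm (y, s)).2) ∈ Ω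
        rw [← h5.1]; exact h4.2.1
      · intro s hs
        exact (hfst y hy s hs).2
  · rintro p ⟨hps, hpb⟩
    refine ⟨hpb, fun hp => ?_⟩
    have h2 : e p = (p.1, (0 : ℂ)) := by rw [hecoe, hΦ]; simp [hp]
    have h3 := e.left_inv hps
    rw [h2] at h3
    simp only
    rw [h3]

/-- a uniform radius for the sections over a compact set -/
theorem exists_sec_radius {Ω : Set (Y × ℂ)} (hΩ : IsOpen Ω) {F : Y × ℂ → ℂ}
    (hF : AnalyticOnNhd ℂ F Ω) {K : Set (Y × ℂ)} (hK : IsCompact K) (hKΩ : K ⊆ Ω)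
    (hreg : ∀ p ∈ K, F p = 0 → vd F p ≠ 0) :
    ∃ r > 0, ∀ p ∈ K, F p = 0 →
      Nonempty (Sec (fun z => F (p.1, z)) {z | (p.1, z) ∈ Ω} r p.2) := by
  refine hK.induction_on (p := fun S => ∃ r > 0, ∀ p ∈ S, F p = 0 →
      Nonempty (Sec (fun z => F (p.1, z)) {z | (p.1, z) ∈ Ω} r p.2)) ?_ ?_ ?_ ?_
  · exact ⟨1, one_pos, by simp⟩
  · rintro S T hST ⟨r, hr, h⟩
    exact ⟨r, hr, fun p hp => h p (hST hp)⟩
  · rintro S T ⟨r, hr, h⟩ ⟨r', hr', h'⟩
    refine ⟨min r r', lt_min hr hr', fun p hp h0 => ?_⟩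
    rcases hp with hp | hp
    · exact ⟨(h p hp h0).some.restr (min_le_left _ _)⟩
    · exact ⟨(h' p hp h0).some.restr (min_le_right _ _)⟩
  · intro p₀ hp₀
    by_cases h0 : F p₀ = 0
    · obtain ⟨δ, hδ, ρ, hρ, B, U, hU, ξ, -, h2, h3⟩ :=
        local_data hΩ hF (hKΩ hp₀) h0 (hreg p₀ hp₀ h0)
      refine ⟨U, mem_nhdsWithin_of_mem_nhds hU, ρ, hρ, fun p hp hp0 => ?_⟩
      obtain ⟨h4, h5⟩ := h3 p hp
      obtain ⟨-, -, -, h6⟩ := h2 p.1 (ball_subset_ball (by linarith) h4)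
      rw [← h5 hp0] at h6
      exact h6
    · refine ⟨{p | F p ≠ 0}, mem_nhdsWithin_of_mem_nhds ?_, 1, one_pos, fun p hp hp0 =>
        absurd hp0 hp⟩
      exact (hF p₀ (hKΩ hp₀)).continuousAt.eventually_ne h0

end

end Crest.Agent.R257.Sh_297
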