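import Crest.Agent.R257.Sh2_297

/-!
# Row 257, leaf D-SH (helper297), part 3: sheet integrals `shInt`, comparison with tube integrals

* `shInt μ F K φ` : the integral over `y` of the sum over the zeros `z` of `F (y, ·)` with
  `(y, z) ∈ K`, `vd F ≠ 0` of `φ (y, z) / ‖vd F (y, z)‖ ^ 2`;
* `shInt_le` : `shInt` of `‖G‖ ^ q` over `K` times `π r²` is at most the integral of `‖G‖ ^ q` over
  the tube `{‖F‖ < r}`, as soon as the points of `K` have sections of radius `r`;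
* `sup_le` : pointwise bound of `G` on compact subsets of the regular part of `{F = 0}`.
-/

set_option autoImplicit false
set_option linter.unusedSectionVars false

open MeasureTheory Set Metric Topology Filter
open scoped ENNReal Real

namespace Crest.Agent.R257.Sh_297

noncomputable section

variable {Y : Type*} [NormedAddCommGroup Y] [NormedSpace ℂ Y] [FiniteDimensional ℂ Y]
  [MeasurableSpace Y] [BorelSpace Y] [SecondCountableTopology Y]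

/-- the sheet integral over `{F = 0} ∩ K` -/
def shInt (μ : Measure Y) (F : Y × ℂ → ℂ) (K : Set (Y × ℂ)) (φ : Y × ℂ → ℝ≥0∞) : ℝ≥0∞ :=
  ∫⁻ y, ∑' z : {z : ℂ | (y, z) ∈ K ∧ F (y, z) = 0 ∧ vd F (y, z) ≠ 0},
    φ (y, z) / ‖vd F (y, z)‖ₑ ^ 2 ∂μ

/-- the tube integral -/
def tube (μ : Measure Y) (F : Y × ℂ → ℂ) (Ω : Set (Y × ℂ)) (r : ℝ) (φ : Y × ℂ → ℝ≥0∞) : ℝ≥0∞ :=
  ∫⁻ p in {p | p ∈ Ω ∧ ‖F p‖ < r}, φ p ∂(μ.prod volume)

lemma isOpen_tube {Ω : Set (Y × ℂ)} (hΩ : IsOpen Ω) {F : Y × ℂ → ℂ} (hF : ContinuousOn F Ω)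
    (r : ℝ) : IsOpen {p | p ∈ Ω ∧ ‖F p‖ < r} := by
  have : {p | p ∈ Ω ∧ ‖F p‖ < r} = Ω ∩ F ⁻¹' {w | ‖w‖ < r} := by
    ext p; simp only [mem_ofPred_eq, mem_inter_iff, mem_preimage]
  rw [this]
  exact hF.isOpen_inter_preimage hΩ (isOpen_lt continuous_norm continuous_const)

/-- Tonelli on a tube -/
lemma tube_eq (μ : Measure Y) [SFinite μ] {Ω : Set (Y × ℂ)} (hΩ : IsOpen Ω) {F G : Y × ℂ → ℂ}
    (hF : ContinuousOn F Ω) (hG : ContinuousOn G Ω) (r q : ℝ) :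
    tube μ F Ω r (fun p => ‖G p‖ₑ ^ q) =
      ∫⁻ y, (∫⁻ w in {w | w ∈ {w : ℂ | (y, w) ∈ Ω} ∧ ‖F (y, w)‖ < r}, ‖G (y, w)‖ₑ ^ q) ∂μ := by
  set T : Set (Y × ℂ) := {p | p ∈ Ω ∧ ‖F p‖ < r} with hT
  have hTo : IsOpen T := isOpen_tube hΩ hF r
  have hm : Measurable (T.indicator (fun p => ‖G p‖ₑ ^ q)) := by
    classical
    have h1 : ContinuousOn (fun p => ‖G p‖ₑ ^ q) T :=
      (ENNReal.continuous_rpow_const).comp_continuousOn
        (continuous_enorm.comp_continuousOn (hG.mono fun p hp => hp.1))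
    have h2 : Measurable (T.piecewise (fun p => ‖G p‖ₑ ^ q) (fun _ => (0 : ℝ≥0∞))) :=
      h1.measurable_piecewise continuousOn_const hTo.measurableSet
    have h3 : T.piecewise (fun p => ‖G p‖ₑ ^ q) (fun _ => (0 : ℝ≥0∞)) =
        T.indicator (fun p => ‖G p‖ₑ ^ q) := by
      ext p; by_cases hp : p ∈ T <;> simp [hp]
    rwa [h3] at h2
  unfold tube
  rw [← lintegral_indicator hTo.measurableSet, lintegral_prod _ hm.aemeasurable]
  refine lintegral_congr fun y => ?_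
  have h4 : MeasurableSet {w | w ∈ {w : ℂ | (y, w) ∈ Ω} ∧ ‖F (y, w)‖ < r} :=
    (hTo.preimage (by fun_prop : Continuous fun w : ℂ => (y, w))).measurableSet
  rw [← lintegral_indicator h4]
  rfl

theorem shInt_le (μ : Measure Y) [SFinite μ] {Ω : Set (Y × ℂ)} (hΩ : IsOpen Ω) {F G : Y × ℂ → ℂ}
    (hF : AnalyticOnNhd ℂ F Ω) (hG : AnalyticOnNhd ℂ G Ω) {K : Set (Y × ℂ)} {r : ℝ} (hr : 0 < r)
    (hK : ∀ p ∈ K, F p = 0 → vd F p ≠ 0 →
      Nonempty (Sec (fun z => F (p.1, z)) {z | (p.1, z) ∈ Ω} r p.2)) {q : ℝ} (hq : 0 < q) :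
    shInt μ F K (fun p => ‖G p‖ₑ ^ q) * volume (ball (0 : ℂ) r) ≤
      tube μ F Ω r (fun p => ‖G p‖ₑ ^ q) := by
  have hvt : volume (ball (0 : ℂ) r) ≠ ∞ := measure_ball_lt_top.ne
  rw [tube_eq μ hΩ hF.continuousOn hG.continuousOn, shInt, ← lintegral_mul_const' _ _ hvt]
  refine lintegral_mono fun y => ?_
  refine tsum_sec_le hr (isOpen_slice hΩ y) (diff_slice hF y)
    {z : ℂ | (y, z) ∈ K ∧ F (y, z) = 0 ∧ vd F (y, z) ≠ 0} ?_ (diff_slice hG y) hq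
  rintro z ⟨h1, h2, h3⟩
  exact hK (y, z) h1 h2 h3

/-- pointwise bound on compact subsets of the regular part of the zero set -/
theorem sup_le (μ : Measure Y) [μ.IsAddHaarMeasure] {Ω : Set (Y × ℂ)} (hΩ : IsOpen Ω)
    {F : Y × ℂ → ℂ} (hF : AnalyticOnNhd ℂ F Ω) {K : Set (Y × ℂ)} (hK : IsCompact K) (hKΩ : K ⊆ Ω)
    (hreg : ∀ p ∈ K, F p = 0 → vd F p ≠ 0) {q : ℝ} (hq : 0 < q) :
    ∃ r₀ > 0, ∃ C : ℝ≥0∞, C ≠ ∞ ∧ ∀ r > 0, r ≤ r₀ → ∀ G : Y × ℂ → ℂ, AnalyticOnNhd ℂ G Ω →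
      ∀ p ∈ K, F p = 0 → ‖G p‖ₑ ^ q * volume (ball (0 : ℂ) r) ≤
        C * tube μ F Ω r (fun p => ‖G p‖ₑ ^ q) := by
  have : CompleteSpace Y := FiniteDimensional.complete ℂ Y
  have : FiniteDimensional ℝ Y := FiniteDimensional.complexToReal Y
  have : ProperSpace Y := FiniteDimensional.proper ℝ Y
  refine hK.induction_on (p := fun S => ∃ r₀ > 0, ∃ C : ℝ≥0∞, C ≠ ∞ ∧ ∀ r > 0, r ≤ r₀ →
    ∀ G : Y × ℂ → ℂ, AnalyticOnNhd ℂ G Ω → ∀ p ∈ S, F p = 0 →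
      ‖G p‖ₑ ^ q * volume (ball (0 : ℂ) r) ≤ C * tube μ F Ω r (fun p => ‖G p‖ₑ ^ q)) ?_ ?_ ?_ ?_
  · exact ⟨1, one_pos, 0, ENNReal.zero_ne_top, by simp⟩
  · rintro S T hST ⟨r, hr, C, hC, h⟩
    exact ⟨r, hr, C, hC, fun r' h1 h2 G hG p hp => h r' h1 h2 G hG p (hST hp)⟩
  · rintro S T ⟨r, hr, C, hC, h⟩ ⟨r', hr', C', hC', h'⟩
    refine ⟨min r r', lt_min hr hr', C + C', ENNReal.add_ne_top.2 ⟨hC, hC'⟩,
      fun s h1 h2 G hG p hp h0 => ?_⟩
    rcases hp with hp | hp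
    · refine (h s h1 (h2.trans (min_le_left _ _)) G hG p hp h0).trans ?_
      gcongr
      exact le_self_add
    · refine (h' s h1 (h2.trans (min_le_right _ _)) G hG p hp h0).trans ?_
      gcongr
      exact le_add_self
  · intro p₀ hp₀
    by_cases h0 : F p₀ = 0
    swap
    · refine ⟨{p | F p ≠ 0}, mem_nhdsWithin_of_mem_nhds ?_, 1, one_pos, 0, ENNReal.zero_ne_top,
        fun r _ _ G _ p hp hp0 => absurd hp0 hp⟩
      exact (hF p₀ (hKΩ hp₀)).continuousAt.eventually_ne h0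
    obtain ⟨δ, hδ, ρ, hρ, B, U, hU, ξ, hξ, h2, h3⟩ :=
      local_data hΩ hF (hKΩ hp₀) h0 (hreg p₀ hp₀ h0)
    have hμ0 : μ (ball (0 : Y) (δ / 2)) ≠ 0 := (measure_ball_pos μ _ (by positivity)).ne'
    have hμt : μ (ball (0 : Y) (δ / 2)) ≠ ∞ := measure_ball_lt_top.ne
    refine ⟨U, mem_nhdsWithin_of_mem_nhds hU, ρ, hρ,
      (μ (ball (0 : Y) (δ / 2)))⁻¹ * ENNReal.ofReal B ^ 2, ?_, ?_⟩
    · exact ENNReal.mul_ne_top (ENNReal.inv_ne_top.2 hμ0)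
        (ENNReal.pow_ne_top ENNReal.ofReal_ne_top)
    intro r hr hrρ G hG p hp hp0
    obtain ⟨h4, h5⟩ := h3 p hp
    have h6 := h5 hp0
    have hsub : ball p.1 (δ / 2) ⊆ ball p₀.1 δ := by
      intro y hy
      rw [mem_ball] at hy h4 ⊢
      linarith [dist_triangle y p.1 p₀.1]
    set g : Y → ℂ := fun y => G (y, ξ y) with hg
    have hgd : DifferentiableOn ℂ g (ball p.1 (δ / 2)) := by
      intro y hy
      have h7 := h2 y (hsub hy)
      have h8 : DifferentiableAt ℂ (fun y => ((y, ξ y) : Y × ℂ)) y :=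
        differentiableAt_id.prodMk (hξ.differentiableAt (isOpen_ball.mem_nhds (hsub hy)))
      exact (DifferentiableAt.comp (g := G) y (hG _ h7.1).differentiableAt h8).differentiableWithinAt
    have hgp : g p.1 = G p := by
      rw [hg]; simp only; rw [← h6]
    have h9 := R276.Sub_185.mul_measure_le' μ hgd hq
    rw [hgp] at h9
    have hvt : volume (ball (0 : ℂ) r) ≠ ∞ := measure_ball_lt_top.ne
    have h10 : ∀ y ∈ ball p.1 (δ / 2), ‖g y‖ₑ ^ q * volume (ball (0 : ℂ) r) ≤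
        ENNReal.ofReal B ^ 2 *
          ∫⁻ w in {w | w ∈ {w : ℂ | (y, w) ∈ Ω} ∧ ‖F (y, w)‖ < r}, ‖G (y, w)‖ₑ ^ q := by
      intro y hy
      obtain ⟨h11, h12, h13, ⟨S⟩⟩ := h2 y (hsub hy)
      have h14 := sec_le hr (S.restr hrρ) (isOpen_slice hΩ y) (diff_slice hF y)
        (diff_slice hG y) hq
      have h15 := h14.trans (lintegral_mono_set (S.restr hrρ).image_subset)
      have hvd : deriv (fun z => F (y, z)) (ξ y) ≠ 0 := by
        have := S.deriv_mul (isOpen_slice hΩ y) (diff_slice hF y) (mem_ball_self hρ)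
        rw [S.zero] at this
        exact left_ne_zero_of_mul_eq_one this
      have hv0 : ‖deriv (fun z => F (y, z)) (ξ y)‖ₑ ^ 2 ≠ 0 := by
        simpa using hvd
      have hvt' : ‖deriv (fun z => F (y, z)) (ξ y)‖ₑ ^ 2 ≠ ∞ :=
        ENNReal.pow_ne_top enorm_ne_top
      calc ‖g y‖ₑ ^ q * volume (ball (0 : ℂ) r)
          = ‖deriv (fun z => F (y, z)) (ξ y)‖ₑ ^ 2 * (‖G (y, ξ y)‖ₑ ^ q /
              ‖deriv (fun z => F (y, z)) (ξ y)‖ₑ ^ 2 * volume (ball (0 : ℂ) r)) := by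
            rw [← mul_assoc, ENNReal.mul_div_cancel hv0 hvt']
        _ ≤ ENNReal.ofReal B ^ 2 *
            ∫⁻ w in {w | w ∈ {w : ℂ | (y, w) ∈ Ω} ∧ ‖F (y, w)‖ < r}, ‖G (y, w)‖ₑ ^ q := by
            refine mul_le_mul' ?_ h15
            refine pow_le_pow_left' ?_ 2
            rw [← ofReal_norm]
            exact ENNReal.ofReal_le_ofReal h13
    have h16 : (∫⁻ y in ball p.1 (δ / 2), ‖g y‖ₑ ^ q ∂μ) * volume (ball (0 : ℂ) r) ≤
        ENNReal.ofReal B ^ 2 * tube μ F Ω r (fun p => ‖G p‖ₑ ^ q) := by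
      rw [tube_eq μ hΩ hF.continuousOn hG.continuousOn, ← lintegral_mul_const' _ _ hvt,
        ← lintegral_const_mul' _ _ (ENNReal.pow_ne_top ENNReal.ofReal_ne_top)]
      exact (setLIntegral_mono' measurableSet_ball h10).trans (setLIntegral_le_lintegral _ _)
    calc ‖G p‖ₑ ^ q * volume (ball (0 : ℂ) r)
        = (μ (ball (0 : Y) (δ / 2)))⁻¹ * (‖G p‖ₑ ^ q * μ (ball (0 : Y) (δ / 2)) *
            volume (ball (0 : ℂ) r)) := by
          rw [mul_comm (‖G p‖ₑ ^ q) (μ _), mul_assoc (μ _), ← mul_assoc (μ _)⁻¹,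
            ENNReal.inv_mul_cancel hμ0 hμt, one_mul]
      _ ≤ (μ (ball (0 : Y) (δ / 2)))⁻¹ * (ENNReal.ofReal B ^ 2 *
            tube μ F Ω r (fun p => ‖G p‖ₑ ^ q)) := by
          refine mul_le_mul' le_rfl (le_trans ?_ h16)
          gcongr
      _ = _ := by rw [mul_assoc]

end

end Crest.Agent.R257.Sh_297
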