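import Crest.Agent.R257.Sh3_297
import Crest.Agent.R257.Sh4_297

/-!
# Row 257, leaf D-SH (helper297), part 5: Lagrange bound and division by a Weierstrass polynomial

* `lagr_bound` : a polynomial of degree `< deg W` is bounded by its values at the (simple) roots of
  `W`;
* `Wf w d y z = ∑_{j ≤ d} w j y * z ^ j`;
* `Rp w d ρ G y` : the remainder of `G (y, ·)` modulo `Wf w d y ·`, a polynomial of degree `< d`;
  `Rf` its value. `Rf = G` on the zeros of `Wf`, `Rf` is analytic.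
-/

set_option autoImplicit false
set_option linter.unusedSectionVars false

open MeasureTheory Set Metric Topology Filter Polynomial
open scoped ENNReal Real

namespace Crest.Agent.R257.Sh_297

noncomputable section

/-- bound of a polynomial by its values at the simple roots of `W` -/
theorem lagr_bound {W P : ℂ[X]} (hW : W.Monic) (hdeg : P.degree < W.natDegree)
    (hsep : W.roots.Nodup) {ρ η M : ℝ} (hρ : ∀ ξ ∈ W.roots, ‖ξ‖ ≤ ρ) (hη : 0 < η)
    (hd : ∀ ξ ∈ W.roots, η ≤ ‖W.derivative.eval ξ‖) (hM0 : 0 ≤ M)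
    (hM : ∀ ξ ∈ W.roots, ‖P.eval ξ‖ ≤ M) {z : ℂ} (hz : ‖z‖ ≤ ρ) :
    ‖P.eval z‖ ≤ W.natDegree * (M * ((2 * ρ) ^ (W.natDegree - 1) / η)) := by
  classical
  set s : Finset ℂ := W.roots.toFinset with hs
  have hρ0 : 0 ≤ ρ := (norm_nonneg z).trans hz
  have hmem : ∀ ξ ∈ s, ξ ∈ W.roots := fun ξ h => Multiset.mem_toFinset.1 h
  have hcard : s.card = W.natDegree := by
    rw [hs, Multiset.toFinset_card_of_nodup hsep]
    exact (IsAlgClosed.splits W).natDegree_eq_card_roots.symm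
  have hWn : W = Lagrange.nodal s id := by
    have h1 : W = (W.roots.map fun a => X - C a).prod :=
      (IsAlgClosed.splits W).eq_prod_roots_of_monic hW
    rw [Lagrange.nodal_eq]
    conv_lhs => rw [h1]
    rw [Finset.prod_eq_multiset_prod]
    congr 1
    rw [hs, Multiset.toFinset_val, Multiset.dedup_eq_self.2 hsep]
    rfl
  have hP : P = Lagrange.interpolate s id (fun ξ => P.eval ξ) := by
    refine Lagrange.eq_interpolate (injOn_id _) ?_
    rw [hcard]; exact hdeg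
  have hev : P.eval z = ∑ ξ ∈ s, P.eval ξ * ∏ l ∈ s.erase ξ, ((ξ - l)⁻¹ * (z - l)) := by
    conv_lhs => rw [hP]
    rw [Lagrange.interpolate_apply, eval_finsetSum]
    refine Finset.sum_congr rfl fun ξ _ => ?_
    rw [eval_mul, eval_C, Lagrange.basis, eval_prod]
    congr 1
    refine Finset.prod_congr rfl fun l _ => ?_
    rw [Lagrange.basisDivisor]
    simp
  rw [hev]
  have hterm : ∀ ξ ∈ s, ‖P.eval ξ * ∏ l ∈ s.erase ξ, ((ξ - l)⁻¹ * (z - l))‖ ≤
      M * ((2 * ρ) ^ (W.natDegree - 1) / η) := by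
    intro ξ hξ
    rw [norm_mul, Finset.prod_mul_distrib, Finset.prod_inv_distrib, norm_mul, norm_inv]
    have h1 : ∏ l ∈ s.erase ξ, (ξ - l) = W.derivative.eval ξ := by
      rw [hWn]
      have := Lagrange.eval_nodal_derivative_eval_node_eq (v := (id : ℂ → ℂ)) hξ
      simp only [id] at this
      rw [this, Lagrange.eval_nodal]
      rfl
    rw [h1]
    have h2 : ‖∏ l ∈ s.erase ξ, (z - l)‖ ≤ (2 * ρ) ^ (W.natDegree - 1) := by
      rw [norm_prod]
      calc ∏ l ∈ s.erase ξ, ‖z - l‖ ≤ ∏ l ∈ s.erase ξ, (2 * ρ) := by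
            refine Finset.prod_le_prod (fun _ _ => norm_nonneg _) fun l hl => ?_
            have h3 := hρ l (hmem l (Finset.mem_of_mem_erase hl))
            calc ‖z - l‖ ≤ ‖z‖ + ‖l‖ := norm_sub_le _ _
              _ ≤ 2 * ρ := by linarith
        _ = (2 * ρ) ^ (W.natDegree - 1) := by
            rw [Finset.prod_const, Finset.card_erase_of_mem hξ, hcard]
    have h4 := hd ξ (hmem ξ hξ)
    have h5 : ‖W.derivative.eval ξ‖⁻¹ ≤ η⁻¹ := inv_anti₀ hη h4
    calc ‖P.eval ξ‖ * (‖W.derivative.eval ξ‖⁻¹ * ‖∏ l ∈ s.erase ξ, (z - l)‖)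
        ≤ M * (η⁻¹ * (2 * ρ) ^ (W.natDegree - 1)) := by
          refine mul_le_mul (hM ξ (hmem ξ hξ)) ?_ (by positivity) hM0
          exact mul_le_mul h5 h2 (norm_nonneg _) (by positivity)
      _ = _ := by rw [div_eq_mul_inv, mul_comm η⁻¹]
  calc ‖∑ ξ ∈ s, P.eval ξ * ∏ l ∈ s.erase ξ, ((ξ - l)⁻¹ * (z - l))‖
      ≤ ∑ ξ ∈ s, ‖P.eval ξ * ∏ l ∈ s.erase ξ, ((ξ - l)⁻¹ * (z - l))‖ := norm_sum_le _ _
    _ ≤ ∑ ξ ∈ s, M * ((2 * ρ) ^ (W.natDegree - 1) / η) := Finset.sum_le_sum hterm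
    _ = _ := by rw [Finset.sum_const, hcard, nsmul_eq_mul]

/-! ### division -/

variable {Y : Type*} [NormedAddCommGroup Y] [NormedSpace ℂ Y] [FiniteDimensional ℂ Y]

/-- a polynomial in `z` with coefficients depending on `y` -/
def Wf (w : ℕ → Y → ℂ) (d : ℕ) (y : Y) (z : ℂ) : ℂ := ∑ j ∈ Finset.range (d + 1), w j y * z ^ j

/-- the same as a polynomial -/
def Wp (w : ℕ → Y → ℂ) (d : ℕ) (y : Y) : ℂ[X] :=
  ∑ j ∈ Finset.range (d + 1), C (w j y) * X ^ j

lemma eval_Wp (w : ℕ → Y → ℂ) (d : ℕ) (y : Y) (z : ℂ) : (Wp w d y).eval z = Wf w d y z := by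
  simp [Wp, Wf, eval_finsetSum]

/-- the moments of `G / W` on the circle -/
def mom (w : ℕ → Y → ℂ) (d : ℕ) (ρ : ℝ) (G : Y × ℂ → ℂ) (k : ℕ) (y : Y) : ℂ :=
  (2 * π * Complex.I : ℂ)⁻¹ • ∮ ζ in C(0, ρ), G (y, ζ) / Wf w d y ζ * ζ ^ k

/-- the remainder -/
def Rf (w : ℕ → Y → ℂ) (d : ℕ) (ρ : ℝ) (G : Y × ℂ → ℂ) (y : Y) (z : ℂ) : ℂ :=
  ∑ j ∈ Finset.range (d + 1), w j y *
    ∑ i ∈ Finset.range j, mom w d ρ G (j - 1 - i) y * z ^ i

/-- the remainder as a polynomial -/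
def Rp (w : ℕ → Y → ℂ) (d : ℕ) (ρ : ℝ) (G : Y × ℂ → ℂ) (y : Y) : ℂ[X] :=
  ∑ j ∈ Finset.range (d + 1), C (w j y) *
    ∑ i ∈ Finset.range j, C (mom w d ρ G (j - 1 - i) y) * X ^ i

lemma eval_Rp (w : ℕ → Y → ℂ) (d : ℕ) (ρ : ℝ) (G : Y × ℂ → ℂ) (y : Y) (z : ℂ) :
    (Rp w d ρ G y).eval z = Rf w d ρ G y z := by
  simp [Rp, Rf, eval_finsetSum]

lemma degree_Rp_lt (w : ℕ → Y → ℂ) (d : ℕ) (ρ : ℝ) (G : Y × ℂ → ℂ) (y : Y) :
    (Rp w d ρ G y).degree < d := by
  unfold Rp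
  refine (degree_sum_le _ _).trans_lt ?_
  rw [Finset.sup_lt_iff (by exact_mod_cast WithBot.bot_lt_coe _)]
  intro j hj
  rw [Finset.mem_range] at hj
  rcases eq_or_ne (w j y) 0 with h0 | h0
  · rw [h0, C_0, zero_mul, degree_zero]; exact WithBot.bot_lt_coe _
  rw [degree_C_mul h0]
  refine (degree_sum_le _ _).trans_lt ?_
  rw [Finset.sup_lt_iff (WithBot.bot_lt_coe _)]
  intro i hi
  rw [Finset.mem_range] at hi
  refine (degree_C_mul_X_pow_le _ _).trans_lt ?_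
  exact_mod_cast (by omega : i < d)

/-- the algebraic identity behind the division -/
lemma Wf_sub (w : ℕ → Y → ℂ) (d : ℕ) (y : Y) (z ζ : ℂ) :
    Wf w d y ζ - Wf w d y z = (ζ - z) * ∑ j ∈ Finset.range (d + 1), w j y *
      ∑ i ∈ Finset.range j, ζ ^ (j - 1 - i) * z ^ i := by
  unfold Wf
  rw [← Finset.sum_sub_distrib, Finset.mul_sum]
  refine Finset.sum_congr rfl fun j _ => ?_
  have h1 : (∑ i ∈ Finset.range j, z ^ i * ζ ^ (j - 1 - i)) * (z - ζ) = z ^ j - ζ ^ j :=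
    (Commute.all z ζ).geom_sum₂_mul j
  have h2 : ∑ i ∈ Finset.range j, ζ ^ (j - 1 - i) * z ^ i =
      ∑ i ∈ Finset.range j, z ^ i * ζ ^ (j - 1 - i) := by
    refine Finset.sum_congr rfl fun i _ => mul_comm _ _
  rw [h2]
  linear_combination (w j y) * h1

/-- the remainder agrees with `G` on the zeros of `W` -/
theorem Rf_eq {w : ℕ → Y → ℂ} {d : ℕ} {ρ : ℝ} (hρ : 0 < ρ) {G : Y × ℂ → ℂ} {y : Y}
    (hG : DifferentiableOn ℂ (fun z => G (y, z)) (closedBall 0 ρ))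
    (hne : ∀ ζ ∈ sphere (0 : ℂ) ρ, Wf w d y ζ ≠ 0) {z : ℂ} (hz : z ∈ ball (0 : ℂ) ρ)
    (h0 : Wf w d y z = 0) : Rf w d ρ G y z = G (y, z) := by
  have hWc : Continuous (fun ζ => Wf w d y ζ) := by unfold Wf; fun_prop
  have hcont : ContinuousOn (fun ζ => G (y, ζ) / Wf w d y ζ) (sphere 0 ρ) :=
    (hG.continuousOn.mono sphere_subset_closedBall).div hWc.continuousOn hne
  have hci : ∀ k : ℕ, CircleIntegrable (fun ζ => G (y, ζ) / Wf w d y ζ * ζ ^ k) 0 ρ := fun k =>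
    (hcont.mul (by fun_prop)).circleIntegrable hρ.le
  have h1 : Rf w d ρ G y z = (2 * π * Complex.I : ℂ)⁻¹ • ∮ ζ in C(0, ρ),
      G (y, ζ) / Wf w d y ζ * ∑ j ∈ Finset.range (d + 1), w j y *
        ∑ i ∈ Finset.range j, ζ ^ (j - 1 - i) * z ^ i := by
    unfold Rf mom
    have h2 : ∀ ζ : ℂ, G (y, ζ) / Wf w d y ζ * ∑ j ∈ Finset.range (d + 1), w j y *
        ∑ i ∈ Finset.range j, ζ ^ (j - 1 - i) * z ^ i =
        ∑ j ∈ Finset.range (d + 1), ∑ i ∈ Finset.range j, (w j y * z ^ i) •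
          (G (y, ζ) / Wf w d y ζ * ζ ^ (j - 1 - i)) := by
      intro ζ
      rw [Finset.mul_sum]
      refine Finset.sum_congr rfl fun j _ => ?_
      rw [Finset.mul_sum, Finset.mul_sum]
      refine Finset.sum_congr rfl fun i _ => ?_
      rw [smul_eq_mul]; ring
    simp_rw [h2]
    rw [circleIntegral.integral_fun_sum, Finset.smul_sum]
    · refine Finset.sum_congr rfl fun j _ => ?_
      rw [circleIntegral.integral_fun_sum, Finset.smul_sum, Finset.mul_sum]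
      · refine Finset.sum_congr rfl fun i _ => ?_
        rw [circleIntegral.integral_smul]
        simp only [smul_eq_mul]; ring
      · intro i _
        exact (hci _).const_smul
    · intro j _
      exact CircleIntegrable.fun_sum _ fun i _ => (hci _).const_smul
  rw [h1]
  have h3 : (∮ ζ in C(0, ρ), G (y, ζ) / Wf w d y ζ * ∑ j ∈ Finset.range (d + 1), w j y *
        ∑ i ∈ Finset.range j, ζ ^ (j - 1 - i) * z ^ i) =
      ∮ ζ in C(0, ρ), (ζ - z)⁻¹ • G (y, ζ) := by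
    refine circleIntegral.integral_congr hρ.le fun ζ hζ => ?_
    have h4 := Wf_sub w d y z ζ
    rw [h0, sub_zero] at h4
    have h5 : ζ - z ≠ 0 := by
      intro h
      rw [sub_eq_zero] at h
      rw [h, mem_sphere] at hζ
      rw [mem_ball] at hz
      linarith
    have h6 := hne ζ hζ
    set S := ∑ j ∈ Finset.range (d + 1), w j y * ∑ i ∈ Finset.range j, ζ ^ (j - 1 - i) * z ^ i
      with hS
    have h7 : S ≠ 0 := by
      intro h; rw [h, mul_zero] at h4; exact h6 h4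
    rw [h4, smul_eq_mul]
    field_simp
  rw [h3]
  exact (hG.diffContOnCl_ball (closedBall_subset_closedBall le_rfl)).two_pi_i_inv_smul_circleIntegral_sub_inv_smul hz

end

end Crest.Agent.R257.Sh_297
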