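import Crest.Agent.R257.Sh5_297

/-!
# Row 257, leaf D-SH (helper297), part 6: the remainder `Rf` is holomorphic
-/

set_option autoImplicit false
set_option linter.unusedSectionVars false

open MeasureTheory Set Metric Topology Filter Polynomial
open scoped ENNReal Real

namespace Crest.Agent.R257.Sh_297

noncomputable section

variable {Y : Type*} [NormedAddCommGroup Y] [NormedSpace ℂ Y] [FiniteDimensional ℂ Y]

lemma Wf_cont {w : ℕ → Y → ℂ} {d : ℕ} {Δ : Set Y} (hw : ∀ j, ContinuousOn (w j) Δ) :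
    ContinuousOn (fun p : Y × ℂ => Wf w d p.1 p.2) (Δ ×ˢ univ) := by
  unfold Wf
  refine continuousOn_finsetSum _ fun j _ => ContinuousOn.mul ?_ (by fun_prop)
  exact (hw j).comp continuous_fst.continuousOn fun p hp => hp.1

lemma Wf_diff {w : ℕ → Y → ℂ} {d : ℕ} {Δ : Set Y} (hw : ∀ j, DifferentiableOn ℂ (w j) Δ) (z : ℂ) :
    DifferentiableOn ℂ (fun y : Y => Wf w d y z) Δ := by
  unfold Wf
  exact DifferentiableOn.fun_sum fun j _ => (hw j).mul (differentiableOn_const _)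

/-- the moments are analytic -/
theorem mom_analytic {w : ℕ → Y → ℂ} {d : ℕ} {ρ : ℝ} (hρ : 0 < ρ) {G : Y × ℂ → ℂ}
    {Δ : Set Y} (hΔ : IsOpen Δ) {Ω : Set (Y × ℂ)} (hsub : Δ ×ˢ closedBall (0 : ℂ) ρ ⊆ Ω)
    (hG : DifferentiableOn ℂ G Ω) (hw : ∀ j, DifferentiableOn ℂ (w j) Δ)
    (hne : ∀ y ∈ Δ, ∀ ζ ∈ sphere (0 : ℂ) ρ, Wf w d y ζ ≠ 0) (k : ℕ) :
    AnalyticOnNhd ℂ (mom w d ρ G k) Δ := by
  have hsp : ∀ θ : ℝ, circleMap 0 ρ θ ∈ sphere (0 : ℂ) ρ := fun θ =>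
    circleMap_mem_sphere 0 hρ.le θ
  set f : Y × ℝ → ℂ := fun p => deriv (circleMap 0 ρ) p.2 •
    (G (p.1, circleMap 0 ρ p.2) / Wf w d p.1 (circleMap 0 ρ p.2) * circleMap 0 ρ p.2 ^ k) with hf
  have h1 : AnalyticOnNhd ℂ (fun y => ∫ θ in (0 : ℝ)..2 * π, f (y, θ)) Δ := by
    refine R266.SCV.analyticOnNhd_intervalIntegral hΔ ?_ ?_
    · have hc1 : Continuous (fun p : Y × ℝ => circleMap 0 ρ p.2) :=
        (continuous_circleMap 0 ρ).comp continuous_snd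
      have hc2 : Continuous (fun p : Y × ℝ => deriv (circleMap 0 ρ) p.2) := by
        simp only [deriv_circleMap]
        fun_prop
      have hm : MapsTo (fun p : Y × ℝ => (p.1, circleMap 0 ρ p.2))
          (Δ ×ˢ uIcc 0 (2 * π)) Ω := fun p hp =>
        hsub ⟨hp.1, sphere_subset_closedBall (hsp p.2)⟩
      refine hc2.continuousOn.smul (ContinuousOn.mul (ContinuousOn.div ?_ ?_ ?_) ?_)
      · exact hG.continuousOn.comp (by fun_prop) hm
      · exact (Wf_cont (fun j => (hw j).continuousOn)).comp (f := fun p : Y × ℝ =>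
          (p.1, circleMap 0 ρ p.2)) (by fun_prop) fun p hp => ⟨hp.1, mem_univ _⟩
      · exact fun p hp => hne p.1 hp.1 _ (hsp p.2)
      · exact (hc1.pow k).continuousOn
    · intro θ _
      show DifferentiableOn ℂ (fun y => deriv (circleMap 0 ρ) θ •
        (G (y, circleMap 0 ρ θ) / Wf w d y (circleMap 0 ρ θ) * circleMap 0 ρ θ ^ k)) Δ
      refine DifferentiableOn.const_smul (f := fun y => (G (y, circleMap 0 ρ θ) /
        Wf w d y (circleMap 0 ρ θ) * circleMap 0 ρ θ ^ k)) ?_ (deriv (circleMap 0 ρ) θ)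
      simp_rw [div_eq_mul_inv]
      refine (DifferentiableOn.mul ?_ ((Wf_diff hw _).inv fun y hy => hne y hy _ (hsp θ))).mul_const _
      refine hG.comp (t := Ω) ?_ fun y hy => hsub ⟨hy, sphere_subset_closedBall (hsp θ)⟩
      exact (differentiable_id.prodMk (differentiable_const _)).differentiableOn
  have h2 : mom w d ρ G k = fun y => (2 * π * Complex.I : ℂ)⁻¹ •
      ∫ θ in (0 : ℝ)..2 * π, f (y, θ) := by
    funext y; rfl
  rw [h2]
  exact fun y hy => (h1 y hy).fun_const_smul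

theorem Rf_analytic {w : ℕ → Y → ℂ} {d : ℕ} {ρ : ℝ} (hρ : 0 < ρ) {G : Y × ℂ → ℂ}
    {Δ : Set Y} (hΔ : IsOpen Δ) {Ω : Set (Y × ℂ)} (hsub : Δ ×ˢ closedBall (0 : ℂ) ρ ⊆ Ω)
    (hG : DifferentiableOn ℂ G Ω) (hw : ∀ j, AnalyticOnNhd ℂ (w j) Δ)
    (hne : ∀ y ∈ Δ, ∀ ζ ∈ sphere (0 : ℂ) ρ, Wf w d y ζ ≠ 0) :
    AnalyticOnNhd ℂ (fun p : Y × ℂ => Rf w d ρ G p.1 p.2) (Δ ×ˢ univ) := by
  rintro ⟨y, z⟩ ⟨hy, -⟩
  unfold Rf
  have hfst : AnalyticAt ℂ (Prod.fst : Y × ℂ → Y) (y, z) := analyticAt_fst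
  have hsnd : AnalyticAt ℂ (Prod.snd : Y × ℂ → ℂ) (y, z) := analyticAt_snd
  refine Finset.analyticAt_fun_sum _ fun j _ => AnalyticAt.mul ?_ ?_
  · exact AnalyticAt.comp (g := w j) (f := Prod.fst) (hw j y hy) hfst
  · refine Finset.analyticAt_fun_sum _ fun i _ => AnalyticAt.mul ?_ (hsnd.pow i)
    exact AnalyticAt.comp (g := mom w d ρ G (j - 1 - i)) (f := Prod.fst)
      (mom_analytic hρ hΔ hsub hG (fun j => (hw j).differentiableOn) hne _ y hy) hfst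

end

end Crest.Agent.R257.Sh_297
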