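import Crest.Agent.R257.Sh6_297
import Crest.Agent.R102.Limits_151
import Crest.Agent.R271.Null_821

/-!
# Row 257, leaf D-SH (helper297), part 7: Weierstrass boxes, uniform bound of the remainders, limit
-/

set_option autoImplicit false
set_option linter.unusedSectionVars false

open MeasureTheory Set Metric Topology Filter Polynomial
open scoped ENNReal Real

namespace Crest.Agent.R257.Sh_297

noncomputable section

variable {Y : Type*} [NormedAddCommGroup Y] [NormedSpace ℂ Y] [FiniteDimensional ℂ Y]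

/-- a Weierstrass box for `F`: on `Δ × closedBall 0 ρ` the zeros of `F` are those of the monic
polynomial `Wf w d`, all in the open disc; off the zeros of `D` they are simple. -/
structure WBox (F : Y × ℂ → ℂ) (Ω : Set (Y × ℂ)) (Δ : Set Y) (ρ : ℝ) (w : ℕ → Y → ℂ) (d : ℕ)
    (D : Y → ℂ) : Prop where
  hΩ : IsOpen Ω
  hΔ : IsOpen Δ
  conn : IsPreconnected Δ
  hρ : 0 < ρ
  sub : Δ ×ˢ closedBall (0 : ℂ) ρ ⊆ Ω
  hF : AnalyticOnNhd ℂ F Ω
  hw : ∀ j, AnalyticOnNhd ℂ (w j) Δ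
  monic : ∀ y ∈ Δ, w d y = 1
  zeros : ∀ y ∈ Δ, ∀ z ∈ closedBall (0 : ℂ) ρ, F (y, z) = 0 ↔ Wf w d y z = 0
  roots_in : ∀ y ∈ Δ, ∀ z, Wf w d y z = 0 → z ∈ ball (0 : ℂ) ρ
  simple : ∀ y ∈ Δ, ∀ z ∈ ball (0 : ℂ) ρ, Wf w d y z = 0 →
    (vd F (y, z) ≠ 0 ↔ (Wp w d y).derivative.eval z ≠ 0)
  hD : AnalyticOnNhd ℂ D Δ
  Dne : ∃ y ∈ Δ, D y ≠ 0
  sep : ∀ y ∈ Δ, D y ≠ 0 → (Wp w d y).roots.Nodup

variable {F : Y × ℂ → ℂ} {Ω : Set (Y × ℂ)} {Δ : Set Y} {ρ : ℝ} {w : ℕ → Y → ℂ} {d : ℕ} {D : Y → ℂ}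

lemma coeff_Wp (w : ℕ → Y → ℂ) (d : ℕ) (y : Y) (k : ℕ) :
    (Wp w d y).coeff k = if k < d + 1 then w k y else 0 := by
  classical
  unfold Wp
  rw [finsetSum_coeff]
  simp only [coeff_C_mul, coeff_X_pow]
  by_cases hk : k < d + 1
  · rw [if_pos hk, Finset.sum_eq_single k]
    · simp
    · intro j _ hj
      rw [if_neg (Ne.symm hj), mul_zero]
    · intro h
      exact absurd (Finset.mem_range.2 hk) h
  · rw [if_neg hk]
    refine Finset.sum_eq_zero fun j hj => ?_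
    rw [Finset.mem_range] at hj
    rw [if_neg (by omega), mul_zero]

lemma degree_Wp_le (w : ℕ → Y → ℂ) (d : ℕ) (y : Y) : (Wp w d y).natDegree ≤ d := by
  rw [natDegree_le_iff_coeff_eq_zero]
  intro k hk
  rw [coeff_Wp, if_neg (by omega)]

lemma WBox.monicWp (B : WBox F Ω Δ ρ w d D) {y : Y} (hy : y ∈ Δ) : (Wp w d y).Monic := by
  refine monic_of_natDegree_le_of_coeff_eq_one d (degree_Wp_le w d y) ?_
  rw [coeff_Wp, if_pos (Nat.lt_succ_self d), B.monic y hy]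

lemma WBox.natDegree (B : WBox F Ω Δ ρ w d D) {y : Y} (hy : y ∈ Δ) : (Wp w d y).natDegree = d := by
  refine le_antisymm (degree_Wp_le w d y) (le_natDegree_of_ne_zero ?_)
  rw [coeff_Wp, if_pos (Nat.lt_succ_self d), B.monic y hy]
  exact one_ne_zero

lemma WBox.mem_roots (B : WBox F Ω Δ ρ w d D) {y : Y} (hy : y ∈ Δ) {z : ℂ} :
    z ∈ (Wp w d y).roots ↔ z ∈ closedBall (0 : ℂ) ρ ∧ F (y, z) = 0 := by
  rw [Polynomial.mem_roots (B.monicWp hy).ne_zero, IsRoot, eval_Wp]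
  constructor
  · intro h
    have h1 := ball_subset_closedBall (B.roots_in y hy z h)
    exact ⟨h1, (B.zeros y hy z h1).2 h⟩
  · rintro ⟨h1, h2⟩
    exact (B.zeros y hy z h1).1 h2

/-- at a separable point the zeros are simple -/
lemma WBox.vd_ne (B : WBox F Ω Δ ρ w d D) {y : Y} (hy : y ∈ Δ) (hD : D y ≠ 0) {z : ℂ}
    (hz : z ∈ closedBall (0 : ℂ) ρ) (h0 : F (y, z) = 0) : vd F (y, z) ≠ 0 := by
  have h1 : Wf w d y z = 0 := (B.zeros y hy z hz).1 h0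
  have hz' := B.roots_in y hy z h1
  rw [B.simple y hy z hz' h1]
  have hr : z ∈ (Wp w d y).roots := (B.mem_roots hy).2 ⟨hz, h0⟩
  have h2 := B.sep y hy hD
  intro h3
  have h4 : 1 < (Wp w d y).rootMultiplicity z := by
    rw [one_lt_rootMultiplicity_iff_isRoot (B.monicWp hy).ne_zero]
    exact ⟨(Polynomial.mem_roots (B.monicWp hy).ne_zero).1 hr, h3⟩
  have h5 := Multiset.nodup_iff_count_le_one.1 h2 z
  rw [count_roots] at h5
  omega

lemma WBox.ne_sphere (B : WBox F Ω Δ ρ w d D) : ∀ y ∈ Δ, ∀ ζ ∈ sphere (0 : ℂ) ρ,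
    Wf w d y ζ ≠ 0 := by
  intro y hy ζ hζ h
  have h1 := B.roots_in y hy ζ h
  rw [mem_sphere] at hζ
  rw [mem_ball] at h1
  linarith

/-- the zero set over a compact set is compact -/
lemma WBox.compact_zero (B : WBox F Ω Δ ρ w d D) {T : Set Y} (hT : IsCompact T) (hTΔ : T ⊆ Δ) :
    IsCompact {p : Y × ℂ | p ∈ T ×ˢ closedBall (0 : ℂ) ρ ∧ F p = 0} := by
  have h1 : IsCompact (T ×ˢ closedBall (0 : ℂ) ρ) := hT.prod (isCompact_closedBall _ _)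
  have h2 : ContinuousOn F (T ×ˢ closedBall (0 : ℂ) ρ) :=
    B.hF.continuousOn.mono fun p hp => B.sub ⟨hTΔ hp.1, hp.2⟩
  have h3 := h2.preimage_isClosed_of_isClosed h1.isClosed (isClosed_singleton (x := (0 : ℂ)))
  exact h1.of_isClosed_subset h3 inter_subset_left

variable [MeasurableSpace Y] [BorelSpace Y] [SecondCountableTopology Y]

/-- uniform bound of the remainders on compact sets -/
theorem WBox.bound (B : WBox F Ω Δ ρ w d D) (μ : Measure Y) [μ.IsAddHaarMeasure] {q : ℝ}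
    (hq : 0 < q) {M : ℝ≥0∞} (hM : M ≠ ∞) {A : Set Y} (hA : IsCompact A) (hAΔ : A ⊆ Δ) :
    ∃ r₀ > 0, ∃ C : ℝ, ∀ r > 0, r ≤ r₀ → ∀ G : Y × ℂ → ℂ, AnalyticOnNhd ℂ G Ω →
      tube μ F Ω r (fun p => ‖G p‖ₑ ^ q) ≤ M * volume (ball (0 : ℂ) r) →
      ∀ y ∈ A, ∀ z ∈ closedBall (0 : ℂ) ρ, ‖Rf w d ρ G y z‖ ≤ C := by
  obtain ⟨T, hT, hTΔ, hTD, hmax⟩ := max_off B.hΔ B.conn B.hD B.Dne hA hAΔ
  set K : Set (Y × ℂ) := {p : Y × ℂ | p ∈ T ×ˢ closedBall (0 : ℂ) ρ ∧ F p = 0} with hK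
  have hKc : IsCompact K := B.compact_zero hT hTΔ
  have hKΩ : K ⊆ Ω := fun p hp => B.sub ⟨hTΔ hp.1.1, hp.1.2⟩
  have hreg : ∀ p ∈ K, F p = 0 → vd F p ≠ 0 := fun p hp h0 =>
    B.vd_ne (hTΔ hp.1.1) (hTD _ hp.1.1) hp.1.2 h0
  obtain ⟨r₀, hr₀, C₁, hC₁, h1⟩ := sup_le μ B.hΩ B.hF hKc hKΩ hreg hq
  -- lower bound of the derivative of the polynomial on the zero set
  have hder : ∃ η > 0, ∀ p ∈ K, η ≤ ‖(Wp w d p.1).derivative.eval p.2‖ := by
    have hc : ContinuousOn (fun p : Y × ℂ => ‖(Wp w d p.1).derivative.eval p.2‖) K := by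
      refine ContinuousOn.norm ?_
      have h2 : (fun p : Y × ℂ => (Wp w d p.1).derivative.eval p.2) = fun p =>
          ∑ j ∈ Finset.range (d + 1), w j p.1 * (j * p.2 ^ (j - 1)) := by
        funext p
        unfold Wp
        rw [derivative_sum, eval_finsetSum]
        refine Finset.sum_congr rfl fun j _ => ?_
        rw [derivative_C_mul, derivative_X_pow]
        simp
      rw [h2]
      refine continuousOn_finsetSum _ fun j _ => ContinuousOn.mul ?_ (by fun_prop)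
      exact ((B.hw j).continuousOn).comp continuous_fst.continuousOn fun p hp => hTΔ hp.1.1
    rcases K.eq_empty_or_nonempty with hKe | hKn
    · exact ⟨1, one_pos, by simp [hKe]⟩
    · obtain ⟨p₀, hp₀, hmin⟩ := hKc.exists_isMinOn hKn hc
      refine ⟨_, ?_, fun p hp => hmin hp⟩
      have h3 := hreg p₀ hp₀ hp₀.2
      have h4 : Wf w d p₀.1 p₀.2 = 0 := (B.zeros _ (hTΔ hp₀.1.1) _ hp₀.1.2).1 hp₀.2
      rw [← Prod.mk.eta (p := p₀), B.simple _ (hTΔ hp₀.1.1) _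
        (B.roots_in _ (hTΔ hp₀.1.1) _ h4) h4] at h3
      exact norm_pos_iff.2 h3
  obtain ⟨η, hη, hder⟩ := hder
  set M' : ℝ := ((C₁ * M) ^ (1 / q)).toReal with hM'
  have hCM : C₁ * M ≠ ∞ := ENNReal.mul_ne_top hC₁ hM
  set C : ℝ := d * (M' * ((2 * ρ) ^ (d - 1) / η)) with hC
  refine ⟨r₀, hr₀, C, fun r hr hrr G hG htube y hy z hz => ?_⟩
  have hvol0 : volume (ball (0 : ℂ) r) ≠ 0 := (measure_ball_pos _ _ hr).ne'
  have hvolt : volume (ball (0 : ℂ) r) ≠ ∞ := measure_ball_lt_top.ne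
  have hGK : ∀ p ∈ K, ‖G p‖ ≤ M' := by
    intro p hp
    have h2 := h1 r hr hrr G hG p hp hp.2
    have h3 : ‖G p‖ₑ ^ q * volume (ball (0 : ℂ) r) ≤ (C₁ * M) * volume (ball (0 : ℂ) r) := by
      refine h2.trans ?_
      rw [mul_assoc]
      exact mul_le_mul' le_rfl htube
    have h4 := (ENNReal.mul_le_mul_iff_left hvol0 hvolt).1 h3
    have h5 : ‖G p‖ₑ ≤ (C₁ * M) ^ (1 / q) := by
      rw [one_div]
      exact (ENNReal.le_rpow_inv_iff hq).2 h4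
    rw [hM', ← toReal_enorm]
    exact ENNReal.toReal_mono (ENNReal.rpow_ne_top_of_nonneg (by positivity) hCM) h5
  have hM'0 : 0 ≤ M' := ENNReal.toReal_nonneg
  have hsubG : DifferentiableOn ℂ G Ω := hG.differentiableOn
  have hT1 : ∀ y ∈ T, ‖Rf w d ρ G y z‖ ≤ C := by
    intro y hyT
    have hyΔ := hTΔ hyT
    have hmon := B.monicWp hyΔ
    have hnd := B.natDegree hyΔ
    have h6 := lagr_bound (W := Wp w d y) (P := Rp w d ρ G y) hmon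
      (by rw [hnd]; exact degree_Rp_lt w d ρ G y) (B.sep y hyΔ (hTD y hyT)) (ρ := ρ) (η := η)
      (M := M') ?_ hη ?_ hM'0 ?_ (z := z) (by simpa using hz)
    · rw [eval_Rp, hnd] at h6
      exact h6
    · intro ξ hξ
      simpa using ((B.mem_roots hyΔ).1 hξ).1
    · intro ξ hξ
      obtain ⟨h7, h8⟩ := (B.mem_roots hyΔ).1 hξ
      exact hder (y, ξ) ⟨⟨hyT, h7⟩, h8⟩
    · intro ξ hξ
      obtain ⟨h7, h8⟩ := (B.mem_roots hyΔ).1 hξ
      have h9 : Wf w d y ξ = 0 := (B.zeros y hyΔ ξ h7).1 h8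
      rw [eval_Rp, Rf_eq B.hρ ?_ (B.ne_sphere y hyΔ) (B.roots_in y hyΔ ξ h9) h9]
      · exact hGK (y, ξ) ⟨⟨hyT, h7⟩, h8⟩
      · exact (diff_slice hG y).mono fun z hz => B.sub ⟨hyΔ, hz⟩
  refine hmax (fun y => Rf w d ρ G y z) ?_ C hT1 y hy
  have h10 := Rf_analytic B.hρ B.hΔ B.sub hsubG B.hw B.ne_sphere
  have h11 : DifferentiableOn ℂ (fun y : Y => (y, z)) Δ :=
    (differentiable_id.prodMk (differentiable_const _)).differentiableOn
  exact DifferentiableOn.comp (g := fun p : Y × ℂ => Rf w d ρ G p.1 p.2) (f := fun y => (y, z))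
    h10.differentiableOn h11 fun y hy => ⟨hy, mem_univ _⟩

/-- the limit of the remainders -/
theorem WBox.limit (B : WBox F Ω Δ ρ w d D) (μ : Measure Y) [μ.IsAddHaarMeasure] {q : ℝ}
    (hq : 0 < q) {M : ℝ≥0∞} (hM : M ≠ ∞) {r : ℕ → ℝ} (hr : ∀ n, 0 < r n)
    (hr0 : Tendsto r atTop (𝓝 0)) {G : ℕ → Y × ℂ → ℂ} (hG : ∀ n, AnalyticOnNhd ℂ (G n) Ω)
    (htube : ∀ n, tube μ F Ω (r n) (fun p => ‖G n p‖ₑ ^ q) ≤ M * volume (ball (0 : ℂ) (r n))) :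
    ∃ φ : ℕ → ℕ, StrictMono φ ∧ ∃ g : Y × ℂ → ℂ, AnalyticOnNhd ℂ g (Δ ×ˢ ball (0 : ℂ) ρ) ∧
      ∀ y ∈ Δ, ∀ z ∈ ball (0 : ℂ) ρ, F (y, z) = 0 →
        Tendsto (fun n => G (φ n) (y, z)) atTop (𝓝 (g (y, z))) := by
  have hUo : IsOpen (Δ ×ˢ ball (0 : ℂ) ρ) := B.hΔ.prod isOpen_ball
  have hRd : ∀ n, DifferentiableOn ℂ (fun p : Y × ℂ => Rf w d ρ (G n) p.1 p.2)
      (Δ ×ˢ ball (0 : ℂ) ρ) := fun n =>
    (Rf_analytic B.hρ B.hΔ B.sub (hG n).differentiableOn B.hw B.ne_sphere).differentiableOn.mono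
      fun p hp => ⟨hp.1, mem_univ _⟩
  have hbd : ∀ K ⊆ Δ ×ˢ ball (0 : ℂ) ρ, IsCompact K → ∃ C : ℝ, ∀ᶠ n in atTop, ∀ p ∈ K,
      ‖Rf w d ρ (G n) p.1 p.2‖ ≤ C := by
    intro K hK hKc
    have hA : IsCompact (Prod.fst '' K) := hKc.image continuous_fst
    have hAΔ : Prod.fst '' K ⊆ Δ := by
      rintro _ ⟨p, hp, rfl⟩
      exact (hK hp).1
    obtain ⟨r₀, hr₀, C, hC⟩ := B.bound μ hq hM hA hAΔ
    refine ⟨C, ?_⟩
    filter_upwards [hr0.eventually (gt_mem_nhds hr₀)] with n hn p hp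
    exact hC (r n) (hr n) hn.le (G n) (hG n) (htube n) p.1 ⟨p, hp, rfl⟩ p.2
      (ball_subset_closedBall (hK hp).2)
  obtain ⟨φ, hφ, g, hg, hlim⟩ := R102.Limits151.montel_exh1 hUo
    (f := fun n (p : Y × ℂ) => Rf w d ρ (G n) p.1 p.2) (D := fun _ => Δ ×ˢ ball (0 : ℂ) ρ) hRd
    (fun K hK _ => Eventually.of_forall fun _ => hK) hbd
  refine ⟨φ, hφ, g, R266.SCV.analyticOnNhd_of_differentiableOn hUo hg, ?_⟩
  intro y hy z hz h0
  have h1 := hlim.tendsto_at (show (y, z) ∈ Δ ×ˢ ball (0 : ℂ) ρ from ⟨hy, hz⟩)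
  refine h1.congr fun n => ?_
  have h2 : Wf w d y z = 0 := (B.zeros y hy z (ball_subset_closedBall hz)).1 h0
  exact Rf_eq B.hρ ((diff_slice (hG (φ n)) y).mono fun z hz => B.sub ⟨hy, hz⟩)
    (B.ne_sphere y hy) hz h2

end

end Crest.Agent.R257.Sh_297
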