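import Crest.Agent.R257.Sh7_297

/-!
# Row 257, leaf D-SH (helper297), part 8: measurability of sheet sums, Fatou, the sheet integral of
the limit
-/

set_option autoImplicit false
set_option linter.unusedSectionVars false

open MeasureTheory Set Metric Topology Filter Polynomial
open scoped ENNReal Real

namespace Crest.Agent.R257.Sh_297

noncomputable section

variable {Y : Type*} [NormedAddCommGroup Y] [NormedSpace ℂ Y] [FiniteDimensional ℂ Y]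

/-- the sheet sum over `{F = 0} ∩ K` at `y` -/
def shSum (F : Y × ℂ → ℂ) (K : Set (Y × ℂ)) (φ : Y × ℂ → ℝ≥0∞) (y : Y) : ℝ≥0∞ :=
  ∑' z : {z : ℂ | (y, z) ∈ K ∧ F (y, z) = 0 ∧ vd F (y, z) ≠ 0},
    φ (y, z) / ‖vd F (y, z)‖ₑ ^ 2

/-- the sheet sum over an open set is lower semicontinuous -/
theorem lsc_shSum {K : Set (Y × ℂ)} (hK : IsOpen K) {F : Y × ℂ → ℂ} (hF : AnalyticOnNhd ℂ F K)
    {φ : Y × ℂ → ℝ≥0∞} (hφ : ContinuousOn φ K) : LowerSemicontinuous (shSum F K φ) := by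
  have : CompleteSpace Y := FiniteDimensional.complete ℂ Y
  intro y₀ c hc
  unfold shSum at hc
  rw [ENNReal.tsum_eq_iSup_sum, gt_iff_lt, lt_iSup_iff] at hc
  obtain ⟨s, hs⟩ := hc
  have hloc : ∀ z : {z : ℂ | (y₀, z) ∈ K ∧ F (y₀, z) = 0 ∧ vd F (y₀, z) ≠ 0},
      ∃ ξ : Y → ℂ, ContinuousAt ξ y₀ ∧ ξ y₀ = z ∧
        ∀ᶠ y in 𝓝 y₀, (y, ξ y) ∈ K ∧ F (y, ξ y) = 0 ∧ vd F (y, ξ y) ≠ 0 := by
    rintro ⟨z, hz, h0, h1⟩
    obtain ⟨δ, hδ, ρ, hρ, B, U, hU, ξ, hξ, h2, h3⟩ := local_data hK hF hz h0 h1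
    refine ⟨ξ, (hξ.differentiableAt (ball_mem_nhds _ hδ)).continuousAt, ?_, ?_⟩
    · exact ((h3 _ (mem_of_mem_nhds hU)).2 h0).symm
    · filter_upwards [ball_mem_nhds y₀ hδ] with y hy
      obtain ⟨h4, h5, -, ⟨S⟩⟩ := h2 y hy
      refine ⟨h4, h5, ?_⟩
      have := S.deriv_mul (isOpen_slice hK y) (diff_slice hF y) (mem_ball_self hρ)
      rw [S.zero] at this
      exact left_ne_zero_of_mul_eq_one this
  choose ξ hξc hξ0 hξe using hloc
  have hvdc : ContinuousOn (vd F) K := (vd_analytic hK hF).continuousOn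
  have hterm : ∀ z : {z : ℂ | (y₀, z) ∈ K ∧ F (y₀, z) = 0 ∧ vd F (y₀, z) ≠ 0},
      Tendsto (fun y => φ (y, ξ z y) / ‖vd F (y, ξ z y)‖ₑ ^ 2) (𝓝 y₀)
        (𝓝 (φ (y₀, z) / ‖vd F (y₀, z)‖ₑ ^ 2)) := by
    intro z
    have h1 : Tendsto (fun y => (y, ξ z y)) (𝓝 y₀) (𝓝 (y₀, (z : ℂ))) := by
      have := (continuousAt_id (x := y₀)).prodMk (hξc z)
      rw [ContinuousAt, id, hξ0 z] at this
      exact this
    have h2 : Tendsto (fun y => φ (y, ξ z y)) (𝓝 y₀) (𝓝 (φ (y₀, z))) :=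
      (hφ.continuousAt (hK.mem_nhds z.2.1)).tendsto.comp h1
    have h3 : Tendsto (fun y => ‖vd F (y, ξ z y)‖ₑ ^ 2) (𝓝 y₀) (𝓝 (‖vd F (y₀, z)‖ₑ ^ 2)) :=
      ((ENNReal.continuous_pow 2).tendsto _).comp
        ((continuous_enorm.tendsto _).comp ((hvdc.continuousAt (hK.mem_nhds z.2.1)).tendsto.comp h1))
    refine ENNReal.Tendsto.div h2 (Or.inr ?_) h3 (Or.inl ?_)
    · simpa using z.2.2.2
    · exact ENNReal.pow_ne_top enorm_ne_top
  have hsum := tendsto_finsetSum s fun z _ => hterm z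
  have hev1 : ∀ᶠ y in 𝓝 y₀, c < ∑ z ∈ s, φ (y, ξ z y) / ‖vd F (y, ξ z y)‖ₑ ^ 2 :=
    hsum.eventually (lt_mem_nhds hs)
  have hev2 : ∀ᶠ y in 𝓝 y₀, ∀ z ∈ s, (y, ξ z y) ∈ K ∧ F (y, ξ z y) = 0 ∧ vd F (y, ξ z y) ≠ 0 :=
    (Finset.eventually_all s).2 fun z _ => hξe z
  have hev3 : ∀ᶠ y in 𝓝 y₀, ∀ z ∈ s, ∀ z' ∈ s, z ≠ z' → ξ z y ≠ ξ z' y := by
    refine (Finset.eventually_all s).2 fun z _ => (Finset.eventually_all s).2 fun z' _ => ?_
    by_cases hzz : z = z'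
    · exact Eventually.of_forall fun y h => absurd hzz h
    · have h1 : ξ z y₀ ≠ ξ z' y₀ := by
        rw [hξ0, hξ0]; exact fun h => hzz (Subtype.ext h)
      filter_upwards [((hξc z).ne_iff_eventually_ne (hξc z')).1 h1] with y hy _ using hy
  filter_upwards [hev1, hev2, hev3] with y h1 h2 h3
  refine h1.trans_le ?_
  unfold shSum
  rw [← Finset.sum_coe_sort]
  set e : s → {z : ℂ | (y, z) ∈ K ∧ F (y, z) = 0 ∧ vd F (y, z) ≠ 0} :=
    fun z => ⟨ξ z y, h2 z z.2⟩ with he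
  have hei : Function.Injective e := by
    intro a b hab
    by_contra hne
    refine h3 a a.2 b b.2 (fun h => hne (Subtype.ext h)) ?_
    exact congrArg Subtype.val hab
  have h4 := ENNReal.tsum_comp_le_tsum_of_injective hei
    (fun z => φ (y, z) / ‖vd F (y, z)‖ₑ ^ 2)
  rw [tsum_fintype] at h4
  exact h4

/-- Fatou for the sheet sums -/
theorem shSum_liminf {K : Set (Y × ℂ)} {F : Y × ℂ → ℂ} {φ : ℕ → Y × ℂ → ℝ≥0∞}
    {ψ : Y × ℂ → ℝ≥0∞} {y : Y}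
    (h : ∀ z, (y, z) ∈ K → F (y, z) = 0 → Tendsto (fun n => φ n (y, z)) atTop (𝓝 (ψ (y, z)))) :
    shSum F K ψ y ≤ liminf (fun n => shSum F K (φ n) y) atTop := by
  unfold shSum
  rw [ENNReal.tsum_eq_iSup_sum]
  refine iSup_le fun s => ?_
  have h1 : Tendsto (fun n => ∑ z ∈ s, φ n (y, z) / ‖vd F (y, z)‖ₑ ^ 2) atTop
      (𝓝 (∑ z ∈ s, ψ (y, z) / ‖vd F (y, z)‖ₑ ^ 2)) := by
    refine tendsto_finsetSum s fun z _ => ?_
    refine ENNReal.Tendsto.div_const (h z z.2.1 z.2.2.1) (Or.inr ?_)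
    simpa using z.2.2.2
  rw [← h1.liminf_eq]
  exact liminf_le_liminf (Eventually.of_forall fun n => ENNReal.sum_le_tsum s)

/-- restriction of the sheet integral to a part of the base -/
lemma shInt_restrict [MeasurableSpace Y] [BorelSpace Y] (μ : Measure Y) (F : Y × ℂ → ℂ)
    {T Δ : Set Y} (hT : MeasurableSet T) (hTΔ : T ⊆ Δ) (V : Set ℂ) (φ : Y × ℂ → ℝ≥0∞) :
    shInt μ F (T ×ˢ V) φ = ∫⁻ y in T, shSum F (Δ ×ˢ V) φ y ∂μ := by
  rw [← lintegral_indicator hT]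
  unfold shInt
  refine lintegral_congr fun y => ?_
  by_cases hy : y ∈ T
  · rw [indicator_of_mem hy]
    unfold shSum
    refine tsum_congr_set_coe (fun z : ℂ => φ (y, z) / ‖vd F (y, z)‖ₑ ^ 2) ?_
    ext z
    constructor
    · rintro ⟨⟨h1, h2⟩, h3⟩
      exact ⟨⟨hTΔ h1, h2⟩, h3⟩
    · rintro ⟨⟨h1, h2⟩, h3⟩
      exact ⟨⟨hy, h2⟩, h3⟩
  · rw [indicator_of_notMem hy]
    have : IsEmpty {z : ℂ | (y, z) ∈ T ×ˢ V ∧ F (y, z) = 0 ∧ vd F (y, z) ≠ 0} :=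
      ⟨fun z => hy z.2.1.1⟩
    exact tsum_empty

variable {F : Y × ℂ → ℂ} {Ω : Set (Y × ℂ)} {Δ : Set Y} {ρ : ℝ} {w : ℕ → Y → ℂ} {d : ℕ} {D : Y → ℂ}

variable [MeasurableSpace Y] [BorelSpace Y] [SecondCountableTopology Y]

/-- the discriminant locus is null -/
lemma WBox.null (B : WBox F Ω Δ ρ w d D) (μ : Measure Y) [μ.IsAddHaarMeasure] :
    μ {y | y ∈ Δ ∧ D y = 0} = 0 := by
  refine measure_null_of_locally_null _ ?_
  rintro y ⟨hy, -⟩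
  have h1 := R266.SCV.dense_ne_zero B.hΔ B.conn B.hD B.Dne y hy
  obtain ⟨r, hr, h2⟩ := R271.Local821.eventually_null_zero μ (B.hD y hy)
    (h1.mono fun z hz => hz.2)
  refine ⟨{z | z ∈ ball y r ∧ D z = 0}, ?_, ?_⟩
  · filter_upwards [self_mem_nhdsWithin, mem_nhdsWithin_of_mem_nhds (ball_mem_nhds y hr)] with z
      h3 h4 using ⟨h4, h3.2⟩
  · rw [ae_restrict_iff' measurableSet_ball, ae_iff] at h2
    refine measure_mono_null ?_ h2
    rintro z ⟨h3, h4⟩ h5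
    exact h5 h3 h4

/-- the sheet integral of the limit -/
theorem WBox.sheet_le (B : WBox F Ω Δ ρ w d D) (μ : Measure Y) [μ.IsAddHaarMeasure] {q : ℝ}
    (hq : 0 < q) {M : ℝ≥0∞} {r : ℕ → ℝ} (hr : ∀ n, 0 < r n)
    (hr0 : Tendsto r atTop (𝓝 0)) {G : ℕ → Y × ℂ → ℂ} (hG : ∀ n, AnalyticOnNhd ℂ (G n) Ω)
    (htube : ∀ n, tube μ F Ω (r n) (fun p => ‖G n p‖ₑ ^ q) ≤ M * volume (ball (0 : ℂ) (r n)))
    {g : Y × ℂ → ℂ}
    (hlim : ∀ y ∈ Δ, ∀ z ∈ ball (0 : ℂ) ρ, F (y, z) = 0 →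
        Tendsto (fun n => G n (y, z)) atTop (𝓝 (g (y, z)))) :
    ∫⁻ y in Δ, shSum F (Δ ×ˢ ball (0 : ℂ) ρ) (fun p => ‖g p‖ₑ ^ q) y ∂μ ≤ M := by
  have : FiniteDimensional ℝ Y := FiniteDimensional.complexToReal Y
  have : ProperSpace Y := FiniteDimensional.proper ℝ Y
  set N : Y → ℝ≥0∞ := shSum F (Δ ×ˢ ball (0 : ℂ) ρ) (fun p => ‖g p‖ₑ ^ q) with hN
  set U : Set Y := Δ ∩ D ⁻¹' {w | w ≠ 0} with hU
  have hUo : IsOpen U := B.hD.continuousOn.isOpen_inter_preimage B.hΔ isOpen_ne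
  have hopen : IsOpen (Δ ×ˢ ball (0 : ℂ) ρ) := B.hΔ.prod isOpen_ball
  have hsubΩ : Δ ×ˢ ball (0 : ℂ) ρ ⊆ Ω := fun p hp => B.sub ⟨hp.1, ball_subset_closedBall hp.2⟩
  -- compact sets
  have hcomp : ∀ T : Set Y, IsCompact T → T ⊆ U → ∫⁻ y in T, N y ∂μ ≤ M := by
    intro T hT hTU
    have hTΔ : T ⊆ Δ := fun y hy => (hTU hy).1
    have hKc : IsCompact (T ×ˢ closedBall (0 : ℂ) ρ) := hT.prod (isCompact_closedBall _ _)
    obtain ⟨r₀, hr₀, hsec⟩ := exists_sec_radius B.hΩ B.hF hKc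
      (fun p hp => B.sub ⟨hTΔ hp.1, hp.2⟩)
      (fun p hp h0 => B.vd_ne (hTΔ hp.1) (hTU hp.1).2 hp.2 h0)
    have h1 : ∀ᶠ n in atTop, ∫⁻ y in T, shSum F (Δ ×ˢ ball (0 : ℂ) ρ)
        (fun p => ‖G n p‖ₑ ^ q) y ∂μ ≤ M := by
      filter_upwards [hr0.eventually (gt_mem_nhds hr₀)] with n hn
      rw [← shInt_restrict μ F hT.measurableSet hTΔ]
      have h2 := shInt_le μ B.hΩ B.hF (hG n) (hr n) (K := T ×ˢ ball (0 : ℂ) ρ) (fun p hp h0 _ =>
        ⟨(hsec p ⟨hp.1, ball_subset_closedBall hp.2⟩ h0).some.restr hn.le⟩) hq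
      have h3 := h2.trans (htube n)
      have hvol0 : volume (ball (0 : ℂ) (r n)) ≠ 0 := (measure_ball_pos _ _ (hr n)).ne'
      have hvolt : volume (ball (0 : ℂ) (r n)) ≠ ∞ := measure_ball_lt_top.ne
      exact (ENNReal.mul_le_mul_iff_left hvol0 hvolt).1 h3
    have h4 : ∀ y ∈ T, N y ≤ liminf (fun n => shSum F (Δ ×ˢ ball (0 : ℂ) ρ)
        (fun p => ‖G n p‖ₑ ^ q) y) atTop := by
      intro y hy
      refine shSum_liminf fun z hz h0 => ?_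
      exact ((ENNReal.continuous_rpow_const (y := q)).tendsto _).comp
        ((continuous_enorm.tendsto _).comp (hlim y hz.1 z hz.2 h0))
    have h5 : ∀ n, Measurable (shSum F (Δ ×ˢ ball (0 : ℂ) ρ) (fun p => ‖G n p‖ₑ ^ q)) := fun n =>
      (lsc_shSum hopen (B.hF.mono hsubΩ)
        ((ENNReal.continuous_rpow_const).comp_continuousOn
        (continuous_enorm.comp_continuousOn ((hG n).continuousOn.mono hsubΩ)))).measurable
    calc ∫⁻ y in T, N y ∂μ ≤ ∫⁻ y in T, liminf (fun n => shSum F (Δ ×ˢ ball (0 : ℂ) ρ)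
          (fun p => ‖G n p‖ₑ ^ q) y) atTop ∂μ := setLIntegral_mono' hT.measurableSet h4
      _ ≤ liminf (fun n => ∫⁻ y in T, shSum F (Δ ×ˢ ball (0 : ℂ) ρ)
          (fun p => ‖G n p‖ₑ ^ q) y ∂μ) atTop := lintegral_liminf_le h5
      _ ≤ liminf (fun _ : ℕ => M) atTop := liminf_le_liminf h1
      _ = M := liminf_const M
  -- exhaustion
  have hUint : ∫⁻ y in U, N y ∂μ ≤ M := by
    obtain ⟨E, hEc, hEU, hEun, hEm⟩ := hUo.exists_iUnion_isClosed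
    set E' : ℕ → Set Y := fun n => E n ∩ closedBall 0 n with hE'
    have hE'm : Monotone E' := fun m n hmn => inter_subset_inter (hEm hmn)
      (closedBall_subset_closedBall (by exact_mod_cast hmn))
    have hE'u : ⋃ n, E' n = U := by
      refine subset_antisymm (iUnion_subset fun n => inter_subset_left.trans (hEU n)) ?_
      intro y hy
      rw [← hEun] at hy
      obtain ⟨n, hn⟩ := mem_iUnion.1 hy
      obtain ⟨m, hm⟩ := exists_nat_ge ‖y‖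
      refine mem_iUnion.2 ⟨max n m, hEm (le_max_left _ _) hn, ?_⟩
      rw [mem_closedBall, dist_zero_right]
      exact hm.trans (by exact_mod_cast le_max_right _ _)
    rw [← hE'u, setLIntegral_iUnion_of_directed _ hE'm.directed_le]
    refine iSup_le fun n => hcomp _ ?_ (inter_subset_left.trans (hEU n))
    exact (isCompact_closedBall _ _).inter_left (hEc n)
  calc ∫⁻ y in Δ, N y ∂μ ≤ ∫⁻ y in U ∪ {y | y ∈ Δ ∧ D y = 0}, N y ∂μ := by
        refine lintegral_mono_set fun y hy => ?_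
        by_cases h : D y = 0
        · exact Or.inr ⟨hy, h⟩
        · exact Or.inl ⟨hy, h⟩
    _ ≤ (∫⁻ y in U, N y ∂μ) + ∫⁻ y in {y | y ∈ Δ ∧ D y = 0}, N y ∂μ := lintegral_union_le _ _ _
    _ = ∫⁻ y in U, N y ∂μ := by
        rw [setLIntegral_measure_zero _ _ (B.null μ), add_zero]
    _ ≤ M := hUint

end

end Crest.Agent.R257.Sh_297
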