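import Crest.Agent.R257.SkelV_952
import Crest.Agent.R257.KEG_952
import Crest.Agent.R257.Skel2_219

/-!
R257 / Skel3_219: `VStmt3` from the leaves of `KED_952`, `KEG_952` (copy of `SkelV_952.V_of` by
helper952, with `0 < mstar (sl G t)` instead of `¬ Klt (sl G t)`).
-/

set_option autoImplicit false

open Topology Filter MeasureTheory Set
open scoped ENNReal ContDiff Matrix
open Crest.AlgGeometry.Germ

noncomputable section

namespace Crest.Agent.R257.Skel3_219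

open Crest.Agent.R275.Geo
open Crest.Agent.R257.Defs_219 Crest.Agent.R257.KED_952 Crest.Agent.R257.KEG_952
open Crest.Agent.R257.SkelV_952 Crest.Agent.R257.Skel2_219
open Crest.Agent.R257.PN_835 (nsq)
open Crest.Agent.R257.Aff_835 (eta2a nga)

theorem V_of3 (nu : NuStmt) (meas : MeasStmt) (fat : FatStmt) (cvi : CvIStmt) (ctd : CtDStmt)
    (bmy : BmyStmt) (cvd : CvDStmt) (bd : BdStmt) (gb0 : GB0Stmt) (gbt : GB1Stmt) (v1 : V1Stmt)
    (v3 : V31Stmt) (pos3 : PosStmt3) (out : OutStmt) : VStmt3 := by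
  intro G μ d R r c₀ e P c hG hh2 hnn hpos m hm
  by_contra hcon
  rw [Filter.not_eventually] at hcon
  have hne : (𝓝[≠] (0 : ℂ) ⊓ 𝓟 {t | ¬ m ≤ mstar (sl G t)}).NeBot := by
    rw [← Filter.frequently_mem_iff_neBot]
    exact hcon
  obtain ⟨T, hT'⟩ : ∃ T : Ultrafilter ℂ, (T : Filter ℂ) ≤ 𝓝[≠] 0 ⊓ 𝓟 {t | ¬ m ≤ mstar (sl G t)} :=
    ⟨Ultrafilter.of _, Ultrafilter.of_le _⟩
  have hT : (T : Filter ℂ) ≤ 𝓝[≠] 0 := hT'.trans inf_le_left
  have hTm : ∀ᶠ t in (T : Filter ℂ), mstar (sl G t) < m := by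
    have h1 : ∀ᶠ t in (T : Filter ℂ), ¬ m ≤ mstar (sl G t) := hT'.trans inf_le_right (mem_principal_self _)
    exact h1.mono fun t ht => not_le.1 ht
  obtain ⟨r₁, C, w, S, hr, hr1, hS, hA, hB⟩ := out G μ d R r c₀ e P c hG
  obtain ⟨u₀, k1, k2⟩ := hB T hT
  obtain ⟨χ, hχ⟩ := exists_cut hr
  -- neighbourhoods
  have hR0 : ‖(0 : ℂ)‖ < R := by simpa using hG.R_pos
  have hRn : ∀ᶠ t in 𝓝 (0 : ℂ), ‖t‖ < R := (continuous_norm.tendsto (0 : ℂ)).eventually
    (gt_mem_nhds hR0)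
  have hRT : ∀ᶠ t in (T : Filter ℂ), ‖t‖ < R := (hT.trans nhdsWithin_le_nhds) hRn
  -- measures
  have hex : ∀ τ : PP, ∃ ν : Measure E3, ‖τ.1‖ < R → IsNu (fun x => fam G (x, τ)) 0 r₁ ν := by
    intro τ
    by_cases hτ : ‖τ.1‖ < R
    · obtain ⟨ν, hν⟩ := nu (fun x => fam G (x, τ)) 0 r₁ hr
        (fun x _ => (an_fam hG x hτ).curry_left) (fun x hx hx1 _ => sm_fam hG hr hr1 hτ x hx hx1.le)
      exact ⟨ν, fun _ => hν⟩
    · exact ⟨0, fun h => absurd h hτ⟩
  choose ν hν using hex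
  set L : Filter PP := Filter.bind (T : Filter ℂ) fun t => map (fun s => (t, s)) (S : Filter ℂ)
    with hL
  set LT : Filter PP := map (fun t => (t, 0)) (T : Filter ℂ) with hLT
  have hS0 : (S : Filter ℂ) ≤ 𝓝 0 := hS.trans nhdsWithin_le_nhds
  have hT0 : (T : Filter ℂ) ≤ 𝓝 0 := hT.trans nhdsWithin_le_nhds
  have hLn : L ≤ 𝓝 (0, 0) := by
    intro U hU
    obtain ⟨U₁, h1, U₂, h2, h3⟩ := mem_nhds_prod_iff.1 hU
    rw [hL, Filter.mem_bind']
    filter_upwards [hT0 h1] with t ht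
    show ∀ᶠ s in (S : Filter ℂ), (t, s) ∈ U
    filter_upwards [hS0 h2] with s hs
    exact h3 ⟨ht, hs⟩
  have hLne : L.NeBot := by
    rw [Filter.neBot_iff, hL]
    intro h
    have h1 : (∅ : Set PP) ∈ L := by
      rw [hL, h]
      exact mem_bot
    rw [hL, Filter.mem_bind'] at h1
    obtain ⟨t, ht⟩ := Filter.nonempty_of_mem h1
    have h2 : (∅ : Set ℂ) ∈ (S : Filter ℂ) := ht
    exact Filter.empty_notMem _ h2
  have hLTn : LT ≤ 𝓝 (0, 0) := by
    have : Tendsto (fun t : ℂ => ((t, 0) : PP)) (𝓝 0) (𝓝 (0, 0)) :=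
      (Continuous.prodMk continuous_id continuous_const).tendsto' _ _ rfl
    exact this.mono_left hT0
  have hSn : ∀ t : ℂ, map (fun s => ((t, s) : PP)) (S : Filter ℂ) ≤ 𝓝 (t, 0) := fun t => by
    have : Tendsto (fun s : ℂ => ((t, s) : PP)) (𝓝 0) (𝓝 (t, 0)) :=
      (Continuous.prodMk continuous_const continuous_id).tendsto' _ _ rfl
    exact this.mono_left hS0
  -- the data
  have hL1 : ∀ {Q : PP → Prop}, (∀ᶠ t in (T : Filter ℂ), ∀ᶠ s in (S : Filter ℂ), Q (t, s)) →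
      ∀ᶠ τ in L, Q τ := fun {Q} h => by
    rw [hL, Filter.eventually_bind]
    exact h
  have hSne : ∀ᶠ s in (S : Filter ℂ), s ≠ 0 := hS self_mem_nhdsWithin
  have SM0 : SmD (fam G) (0, 0) L r₁ C w u₀ := by
    refine ⟨⟨fam_gfam hG hr hr1 hR0 hLn, k2⟩, hL1 ?_⟩
    filter_upwards [hRT] with t ht
    filter_upwards [hSne] with s hs
    exact nz_fam hG ht hs
  have FT : FamD (fam G) (0, 0) LT r₁ C w u₀ := ⟨fam_gfam hG hr hr1 hR0 hLTn, k1⟩
  have SMt : ∀ᶠ t in (T : Filter ℂ),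
      SmD (fam G) (t, 0) (map (fun s => (t, s)) (S : Filter ℂ)) r₁ C w (w (t, 0)) := by
    filter_upwards [hRT, hT hA] with t ht hk
    refine ⟨⟨fam_gfam hG hr hr1 ht (hSn t), hk⟩, ?_⟩
    rw [Filter.eventually_map]
    filter_upwards [hSne] with s hs
    exact nz_fam hG ht hs
  have hνL : ∀ᶠ τ in L, IsNu (fun x => fam G (x, τ)) 0 r₁ (ν τ) := by
    refine hL1 ?_
    filter_upwards [hRT] with t ht
    exact Eventually.of_forall fun s => hν (t, s) ht
  have hνLT : ∀ᶠ τ in LT, IsNu (fun x => fam G (x, τ)) 0 r₁ (ν τ) := by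
    rw [hLT, Filter.eventually_map]
    filter_upwards [hRT] with t ht using hν (t, 0) ht
  have hν0 : IsNu (fun x => fam G (x, (0, 0))) 0 r₁ (ν (0, 0)) := hν (0, 0) hR0
  have hkt : ∀ᶠ t in (T : Filter ℂ), 0 < mstar (sl G t) :=
    hT (pos3 G μ d R r c₀ e P c hG hh2 hnn hpos)
  -- the numbers
  set MM : ℝ≥0∞ := ENNReal.ofReal (Real.pi ^ 2 * (μ + 1)) with hMM
  obtain ⟨B, hBd⟩ := bd (fam G) (0, 0) L r₁ C w u₀ SM0 χ hχ ν hνL
  have hC0 : C2I (ν (0, 0)) (fun x => fam G (x, (0, 0))) u₀ χ ≤ ENNReal.ofReal B := by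
    by_contra hcon
    rw [not_le] at hcon
    have hct : ∀ᶠ τ in L, CtL (fun x => fam G (x, τ)) 0 r₁
        (fun x => χ x * c2d (fun x => fam G (x, τ)) (w τ) x) := by
      have h1 : ∀ᶠ τ in L, ‖τ.1‖ < R := hL1 (hRT.mono fun t ht => Eventually.of_forall fun _ => ht)
      filter_upwards [h1, k2.ke] with τ h2 h3
      exact CtL.mul (ctl_amb hχ.sm.continuous) (ctd _ 0 r₁ hr
        (fun x _ => (an_fam hG x h2).curry_left) (fun x hx hx1 _ => sm_fam hG hr hr1 h2 x hx hx1.le)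
        (w τ) h3.1).1
    have h1 := fat (fam G) (0, 0) L r₁ SM0.toFam ν (ν (0, 0)) hνL hν0 _ _ hct
      (CtL.mul (ctl_amb hχ.sm.continuous) (ctd _ 0 r₁ hr (fam_an SM0.toFam) (fam_sm SM0.toFam) u₀
        k2.ke0.1).1) (cv_c cvd ctd SM0.toFamD hχ) _ hcon
    obtain ⟨τ, h2, h3⟩ := (h1.and hBd).exists
    exact absurd h3 (not_le.2 h2)
  have hsp0 := c2i_split meas bmy hr (fam_an SM0.toFam) (fam_sm SM0.toFam) hν0 k2.ke0.1 hχ
  set C0 := C2I (ν (0, 0)) (fun x => fam G (x, (0, 0))) u₀ χ with hC0d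
  set A0 := VOL (ν (0, 0)) u₀ χ with hA0d
  set E0 := C2E (ν (0, 0)) (fun x => fam G (x, (0, 0))) u₀ χ with hE0d
  have hC0f : C0 ≠ ⊤ := (hC0.trans_lt ENNReal.ofReal_lt_top).ne
  have h23 : ENNReal.ofReal (2 / 3) ≠ 0 := by
    rw [Ne, ENNReal.ofReal_eq_zero]
    norm_num
  have hE0f : E0 ≠ ⊤ := fun h => hC0f (by rw [hsp0, h, top_add])
  have hA0f : A0 ≠ ⊤ := fun h => hC0f (by rw [hsp0, h, ENNReal.mul_top h23, add_top])
  -- comparison of the losses
  have hcmp : ∀ ε : ℝ, 0 < ε → ∀ᶠ t in (T : Filter ℂ),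
      C2I (ν (t, 0)) (fun x => fam G (x, (t, 0))) (w (t, 0)) χ ≤
        C0 + ENNReal.ofReal ε + ENNReal.ofReal ε := by
    intro ε hε
    have h1 := gb0 (fam G) (0, 0) L r₁ C w u₀ SM0 _ rfl (by rw [fam_zero]; exact hpos) χ hχ ν
      (ν (0, 0)) hνL hν0 ε hε
    rw [fam_zero G 0, hG.mu 0 hR0] at h1
    have h1' : ∀ᶠ t in (T : Filter ℂ), ∀ᶠ s in (S : Filter ℂ),
        C2I (ν (t, s)) (fun x => fam G (x, (t, s))) (w (t, s)) χ ≤ C0 + MM + ENNReal.ofReal ε := by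
      rw [hL, Filter.eventually_bind] at h1
      filter_upwards [h1] with t ht
      rw [Filter.eventually_map] at ht
      filter_upwards [ht] with s hs
      rw [hC0d, fam_zero G 0]
      exact hs
    filter_upwards [h1', SMt, hkt, hRT] with t h2 h3 h4 h5
    have h6 := gbt (fam G) (t, 0) _ r₁ C w (w (t, 0)) h3 _ rfl (by rw [fam_zero]; exact h4) χ hχ ν
      (ν (t, 0)) (by
        rw [Filter.eventually_map]
        exact Eventually.of_forall fun s => hν (t, s) h5) (hν (t, 0) h5) ε hε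
    rw [Filter.eventually_map] at h6
    obtain ⟨s, h7, h8⟩ := (h2.and h6).exists
    have h9 : (col (par fun x => fam G (x, (t, 0))) : ℝ) = μ := by
      rw [fam_zero, hG.mu t h5]
    rw [h9, ← hMM] at h8
    have h10 : C2I (ν (t, 0)) (fun x => fam G (x, (t, 0))) (w (t, 0)) χ + MM ≤
        (C0 + ENNReal.ofReal ε + ENNReal.ofReal ε) + MM := by
      refine h8.trans ?_
      calc C2I (ν (t, s)) (fun x => fam G (x, (t, s))) (w (t, s)) χ + ENNReal.ofReal ε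
          ≤ C0 + MM + ENNReal.ofReal ε + ENNReal.ofReal ε := by gcongr
        _ = _ := by abel
    exact (ENNReal.add_le_add_iff_right ENNReal.ofReal_ne_top).1 h10
  -- Fatou
  have hfat : ∀ δ : ℝ, 0 < δ → ∀ᶠ t in (T : Filter ℂ),
      E0 ≤ C2E (ν (t, 0)) (fun x => fam G (x, (t, 0))) (w (t, 0)) χ + ENNReal.ofReal δ := by
    intro δ hδ
    by_cases hE : E0 ≤ ENNReal.ofReal δ
    · exact Eventually.of_forall fun t => hE.trans le_add_self
    · rw [not_le] at hE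
      have hlt : E0 - ENNReal.ofReal δ < E0 := ENNReal.sub_lt_self hE0f
        (pos_of_gt hE).ne' (by simpa using hδ)
      have hct : ∀ᶠ τ in LT, CtL (fun x => fam G (x, τ)) 0 r₁
          (fun x => χ x * (c2d (fun x => fam G (x, τ)) (w τ) x - 2 / 3 * Real.exp (w τ x))) := by
        have h1 : ∀ᶠ τ in LT, ‖τ.1‖ < R := by
          rw [hLT, Filter.eventually_map]
          exact hRT
        filter_upwards [h1, k1.ke] with τ h2 h3
        exact ct_e ctd hr (fun x _ => (an_fam hG x h2).curry_left)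
          (fun x hx hx1 _ => sm_fam hG hr hr1 h2 x hx hx1.le) h3.1 hχ
      have h1 := fat (fam G) (0, 0) LT r₁ FT.toFam ν (ν (0, 0)) hνLT hν0 _ _ hct
        (ct_e ctd hr (fam_an FT.toFam) (fam_sm FT.toFam) k1.ke0.1 hχ) (cv_e cvd ctd FT hχ) _ hlt
      rw [hLT, Filter.eventually_map] at h1
      filter_upwards [h1] with t ht
      exact tsub_le_iff_right.1 ht.le
  -- the volumes
  have hvol : ∀ η : ℝ, 0 < η → ∀ᶠ t in (T : Filter ℂ),
      (VOL (ν (t, 0)) (w (t, 0)) χ).toReal ≤ A0.toReal + η := by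
    intro η hη
    filter_upwards [hcmp (2 / 9 * η) (by positivity), hfat (2 / 9 * η) (by positivity), SMt, hRT]
      with t h1 h2 h3 h4
    have hsp := c2i_split meas bmy hr (fam_an h3.toFam) (fam_sm h3.toFam) (hν (t, 0) h4) h3.ke0.1 hχ
    set At := VOL (ν (t, 0)) (w (t, 0)) χ with hAt
    set Et := C2E (ν (t, 0)) (fun x => fam G (x, (t, 0))) (w (t, 0)) χ with hEt
    rw [hsp] at h1
    have hfin : Et + ENNReal.ofReal (2 / 3) * At ≠ ⊤ :=
      (h1.trans_lt (by simp [hC0f.lt_top])).ne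
    have hEf : Et ≠ ⊤ := fun h => hfin (by rw [h, top_add])
    have hAf : At ≠ ⊤ := fun h => hfin (by rw [h, ENNReal.mul_top h23, add_top])
    have h5 : Et.toReal + 2 / 3 * At.toReal ≤ C0.toReal + 2 / 9 * η + 2 / 9 * η := by
      have h6 := ENNReal.toReal_mono (by simp [hC0f]) h1
      rw [ENNReal.toReal_add hEf (ENNReal.mul_ne_top ENNReal.ofReal_ne_top hAf),
        ENNReal.toReal_mul, ENNReal.toReal_ofReal (by norm_num),
        ENNReal.toReal_add (by simp [hC0f]) ENNReal.ofReal_ne_top,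
        ENNReal.toReal_add hC0f ENNReal.ofReal_ne_top,
        ENNReal.toReal_ofReal (by positivity)] at h6
      exact h6
    have h7 : C0.toReal = E0.toReal + 2 / 3 * A0.toReal := by
      rw [hsp0, ENNReal.toReal_add hE0f (ENNReal.mul_ne_top ENNReal.ofReal_ne_top hA0f),
        ENNReal.toReal_mul, ENNReal.toReal_ofReal (by norm_num)]
    have h8 : E0.toReal ≤ Et.toReal + 2 / 9 * η := by
      have h9 := ENNReal.toReal_mono (by simp [hEf]) h2
      rw [ENNReal.toReal_add hEf ENNReal.ofReal_ne_top, ENNReal.toReal_ofReal (by positivity)] at h9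
      exact h9
    linarith
  -- the total masses
  have htot : Tendsto (fun τ => TOT (ν τ) (fun x => fam G (x, τ)) (w τ) χ) LT
      (𝓝 (TOT (ν (0, 0)) (fun x => fam G (x, (0, 0))) u₀ χ)) := by
    obtain ⟨r₂, r₃, h1, h2, h3, h4⟩ := supp_t hχ
    have hct : ∀ᶠ τ in LT, CtL (fun x => fam G (x, τ)) 0 r₁
        (fun x => w τ x * mxd (fun x => fam G (x, τ)) (w τ) χ x) := by
      have h1 : ∀ᶠ τ in LT, ‖τ.1‖ < R := by
        rw [hLT, Filter.eventually_map]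
        exact hRT
      filter_upwards [h1, k1.ke] with τ h2 h3
      exact CtL.mul (ctl_ke h3.1) ((ctd _ 0 r₁ hr (fun x _ => (an_fam hG x h2).curry_left)
        (fun x hx hx1 _ => sm_fam hG hr hr1 h2 x hx hx1.le) (w τ) h3.1).2 χ hχ.sm)
    refine cvi (fam G) (0, 0) LT r₁ FT.toFam ν (ν (0, 0)) hνLT hν0 _ _ hct
      (CtL.mul (ctl_ke k1.ke0.1) ((ctd _ 0 r₁ hr (fam_an FT.toFam) (fam_sm FT.toFam) u₀
        k1.ke0.1).2 χ hχ.sm)) (cv_t cvd ctd FT hχ) ⟨r₂, r₃, h1, h2, h3, fun x hx => ⟨fun τ => ?_, ?_⟩⟩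
    · rw [h4 x hx, mul_zero]
    · rw [h4 x hx, mul_zero]
  -- the end
  have hV1 := v1 (fam G) (0, 0) L r₁ C w u₀ SM0 _ rfl (by rw [fam_zero]; exact hpos) χ hχ
    (ν (0, 0)) hν0
  rw [fam_zero] at hV1
  have hpi : 0 < Real.pi ^ 2 := by positivity
  set T0 := TOT (ν (0, 0)) (sl G 0) u₀ χ with hT0d
  set η : ℝ := Real.pi ^ 2 * (mstar (sl G 0) - m) / 4 with hη
  have hη0 : 0 < η := by
    have : 0 < mstar (sl G 0) - m := by linarith
    positivity
  have h1 : ∀ᶠ t in (T : Filter ℂ), T0 - η < TOT (ν (t, 0)) (fun x => fam G (x, (t, 0))) (w (t, 0)) χ := by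
    rw [fam_zero] at htot
    have := htot.eventually (lt_mem_nhds (show T0 - η < T0 by linarith))
    rwa [hLT, Filter.eventually_map] at this
  obtain ⟨t, h2, h3, h4, h5, h6, h7⟩ :=
    (h1.and ((hvol η hη0).and (SMt.and (hkt.and (hRT.and hTm))))).exists
  have hV3 := v3 (fam G) (t, 0) _ r₁ C w (w (t, 0)) h4 _ rfl (by rw [fam_zero]; exact h5) χ hχ
    (ν (t, 0)) (hν (t, 0) h6)
  unfold mas at hV1 hV3
  rw [le_div_iff₀ hpi] at hV1
  rw [div_le_iff₀ hpi] at hV3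
  have h8 : mstar (fun x => fam G (x, (t, 0))) < m := by
    rw [fam_zero]
    exact h7
  have h9 : mstar (fun x => fam G (x, (t, 0))) * Real.pi ^ 2 < m * Real.pi ^ 2 :=
    mul_lt_mul_of_pos_right h8 hpi
  have h10 : 4 * η = Real.pi ^ 2 * (mstar (sl G 0) - m) := by rw [hη]; ring
  nlinarith

end Crest.Agent.R257.Skel3_219
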