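import Crest.Agent.R257.CLogDefs_68
import Crest.Agent.R257.T0_387

/-!
R257 / SysL_952: C-LOG, admissibility of the list: Lojasiewicz inequality from the powers of the two
rotated plane coordinates; analyticity of the members.
-/

set_option autoImplicit false
set_option linter.unusedSectionVars false

open Polynomial Set Filter Topology Metric
open Crest.AlgGeometry.Germ Crest.Agent.R257.AJ387 Crest.Agent.R257.T387

noncomputable section

namespace Crest.Agent.R257.SysL_952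

open Crest.Agent.R257.Defs_219
open Crest.Agent.R257.CLog_68 (fib sq Sys)

variable {f : E3 → ℂ} (T : TB f)

/-- the rotated plane coordinates `(x', y')` -/
def xy (x : E3) : ℂ × ℂ := T.A.symm (x 1, x 2)

/-- the projection as a continuous linear map -/
def prj : E3 →L[ℂ] ℂ × ℂ :=
  (ContinuousLinearMap.proj (R := ℂ) (φ := fun _ : Fin 3 => ℂ) 1).prod
    (ContinuousLinearMap.proj (R := ℂ) (φ := fun _ : Fin 3 => ℂ) 2)

theorem xy_eq (x : E3) : xy T x = T.A.symm.toContinuousLinearMap.comp prj x := rfl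

theorem an_xy (x : E3) : AnalyticAt ℂ (xy T) x :=
  (T.A.symm.toContinuousLinearMap.comp prj).analyticAt x

theorem cont_xy : Continuous (xy T) := (T.A.symm.toContinuousLinearMap.comp prj).continuous

@[simp] theorem xy_zero : xy T 0 = 0 := by
  rw [xy_eq, map_zero]

@[simp] theorem xy_pt (z : ℂ) (q : ℂ × ℂ) : xy T (pt z (T.A q)) = q := by
  unfold xy pt
  simp

theorem pt_xy (x : E3) : pt (x 0) (T.A (xy T x)) = x := by
  unfold xy pt
  rw [ContinuousLinearEquiv.apply_symm_apply]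
  ext i
  fin_cases i <;> rfl

theorem an_plane {G : ℂ × ℂ → ℂ} (hG : AnalyticAt ℂ G 0) : AnalyticAt ℂ (fun x => G (xy T x)) 0 :=
  AnalyticAt.fun_comp (by rw [xy_zero]; exact hG) (an_xy T 0)

theorem near_BD : ∀ᶠ x in 𝓝 (0 : E3), xy T x ∈ BD T.R T.R ∧ ‖x 0‖ < T.rz ∧ ‖x 0‖ < 1 ∧
    ‖xy T x‖ < 1 := by
  have h1 : ∀ᶠ q in 𝓝 (0 : ℂ × ℂ), q ∈ BD T.R T.R := (isOpen_BD _ _).mem_nhds (by
    simp [BD, T.R_pos])
  have h2 : Tendsto (xy T) (𝓝 0) (𝓝 0) := by
    have := (cont_xy T).tendsto 0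
    rwa [xy_zero] at this
  have h3 : Tendsto (fun x : E3 => ‖x 0‖) (𝓝 0) (𝓝 0) := by
    have : Continuous fun x : E3 => ‖x 0‖ := (continuous_apply 0).norm
    simpa using this.tendsto 0
  have h4 : Tendsto (fun x : E3 => ‖xy T x‖) (𝓝 0) (𝓝 0) := by
    simpa using h2.norm
  filter_upwards [h2.eventually h1, h3.eventually (gt_mem_nhds T.rz_pos),
    h3.eventually (gt_mem_nhds one_pos), h4.eventually (gt_mem_nhds one_pos)] with x a b c d
  exact ⟨a, b, c, d⟩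

theorem root_xy {x : E3} (h1 : xy T x ∈ BD T.R T.R) (h2 : ‖x 0‖ < T.rz) (h : f x = 0) :
    (T.P (xy T x)).eval (x 0) = 0 := by
  have e := T.f_eq _ h1 (x 0) h2.le
  rw [pt_xy, h] at e
  exact (mul_eq_zero.1 e.symm).resolve_left (T.v_ne _ h1 _ h2.le)

theorem eval_P {q : ℂ × ℂ} (h : q ∈ BD T.R T.R) (z : ℂ) :
    (T.P q).eval z = z ^ T.d + ∑ i ∈ Finset.range T.d, (T.P q).coeff i * z ^ i := by
  rw [Polynomial.eval_eq_sum_range, T.deg q h, Finset.sum_range_succ, add_comm]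
  congr 1
  have : (T.P q).coeff T.d = 1 := by
    have h1 := (T.monic q h).coeff_natDegree
    rwa [T.deg q h] at h1
  rw [this, one_mul]

/-- the coefficients are `O(‖q‖)` -/
theorem coeff_O : ∃ C : ℝ, 0 < C ∧ ∀ᶠ q in 𝓝 (0 : ℂ × ℂ), ∀ i < T.d,
    ‖(T.P q).coeff i‖ ≤ C * ‖q‖ := by
  have h1 : ∀ i, ∃ C : ℝ, 0 < C ∧ ∀ᶠ q in 𝓝 (0 : ℂ × ℂ), i < T.d →
      ‖(T.P q).coeff i‖ ≤ C * ‖q‖ := by
    intro i
    by_cases hi : i < T.d
    · have h0 : (0 : ℂ × ℂ) ∈ BD T.R T.R := by simp [BD, T.R_pos]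
      have h2 := (T.coeff_an i 0 h0).differentiableAt.isBigO_sub
      have h3 : (T.P (0 : ℂ × ℂ)).coeff i = 0 := by
        rw [T.P_zero, Polynomial.coeff_X_pow, if_neg hi.ne]
      simp only [h3, sub_zero] at h2
      obtain ⟨C, hC, h4⟩ := h2.exists_pos
      refine ⟨C, hC, ?_⟩
      filter_upwards [h4.bound] with q hq _
      exact hq
    · exact ⟨1, one_pos, Eventually.of_forall fun q h => absurd h hi⟩
  choose C hC h using h1
  refine ⟨1 + ∑ i ∈ Finset.range T.d, C i, by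
    have : 0 ≤ ∑ i ∈ Finset.range T.d, C i := Finset.sum_nonneg fun i _ => (hC i).le
    linarith, ?_⟩
  have h2 : ∀ᶠ q in 𝓝 (0 : ℂ × ℂ), ∀ i ∈ Finset.range T.d,
      (i < T.d → ‖(T.P q).coeff i‖ ≤ C i * ‖q‖) :=
    (Filter.eventually_all_finset _).2 fun i _ => h i
  filter_upwards [h2] with q hq i hi
  refine (hq i (Finset.mem_range.2 hi) hi).trans ?_
  have h3 : C i ≤ 1 + ∑ i ∈ Finset.range T.d, C i := by
    have := Finset.single_le_sum (f := C) (fun j _ => (hC j).le) (Finset.mem_range.2 hi)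
    linarith
  gcongr

/-- **Lojasiewicz inequality**: the plane coordinates control `x` on `{f = 0}` -/
theorem loj : ∃ c r : ℝ, 0 < c ∧ 0 < r ∧ ∀ x : E3, ‖x‖ < r → f x = 0 →
    c * ‖x‖ ^ T.d ≤ ‖xy T x‖ := by
  obtain ⟨C, hC, h1⟩ := coeff_O T
  have h2 : Tendsto (xy T) (𝓝 0) (𝓝 0) := by
    have := (cont_xy T).tendsto 0
    rwa [xy_zero] at this
  obtain ⟨r, hr, h3⟩ := Metric.eventually_nhds_iff_ball.1 ((near_BD T).and (h2.eventually h1))
  set K := ‖(T.A : (ℂ × ℂ) →L[ℂ] ℂ × ℂ)‖ with hK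
  have hK0 : 0 ≤ K := norm_nonneg _
  have hd := T.d_pos
  set D := C * T.d + (K + 1) ^ T.d with hD
  have hD0 : 0 < D := by
    have : (0 : ℝ) < T.d := by exact_mod_cast hd
    positivity
  refine ⟨D⁻¹, r, by positivity, hr, fun x hx hfx => ?_⟩
  obtain ⟨⟨a1, a2, a3, a4⟩, a5⟩ := h3 x (by simpa using hx)
  have e := root_xy T a1 a2 hfx
  rw [eval_P T a1] at e
  -- the first coordinate
  have b1 : ‖x 0‖ ^ T.d ≤ C * T.d * ‖xy T x‖ := by
    have : x 0 ^ T.d = -∑ i ∈ Finset.range T.d, (T.P (xy T x)).coeff i * x 0 ^ i :=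
      eq_neg_of_add_eq_zero_left e
    rw [← norm_pow, this, norm_neg]
    refine (norm_sum_le _ _).trans ?_
    have h5 : ∀ i ∈ Finset.range T.d, ‖(T.P (xy T x)).coeff i * x 0 ^ i‖ ≤ C * ‖xy T x‖ := by
      intro i hi
      rw [norm_mul, norm_pow]
      have h6 := a5 i (Finset.mem_range.1 hi)
      have h7 : ‖x 0‖ ^ i ≤ 1 := pow_le_one₀ (norm_nonneg _) a3.le
      calc _ ≤ (C * ‖xy T x‖) * 1 := by gcongr
        _ = _ := mul_one _
    refine (Finset.sum_le_sum h5).trans (le_of_eq ?_)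
    rw [Finset.sum_const, Finset.card_range, nsmul_eq_mul]
    ring
  -- the plane coordinates
  have b2 : ‖((x 1, x 2) : ℂ × ℂ)‖ ≤ K * ‖xy T x‖ := by
    have : ((x 1, x 2) : ℂ × ℂ) = (T.A : (ℂ × ℂ) →L[ℂ] ℂ × ℂ) (xy T x) := by
      unfold xy
      simp
    rw [this]
    exact ContinuousLinearMap.le_opNorm _ _
  have b3 : (K * ‖xy T x‖) ^ T.d ≤ (K + 1) ^ T.d * ‖xy T x‖ := by
    rw [mul_pow]
    have h6 : ‖xy T x‖ ^ T.d ≤ ‖xy T x‖ := pow_le_of_le_one (norm_nonneg _) a4.le hd.ne'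
    have h7 : K ^ T.d ≤ (K + 1) ^ T.d := by gcongr; linarith
    gcongr
  have b4 : ‖x‖ ^ T.d ≤ D * ‖xy T x‖ := by
    have hcase : ‖x‖ = ‖x 0‖ ∨ ‖x‖ ≤ ‖((x 1, x 2) : ℂ × ℂ)‖ := by
      obtain ⟨i, -, hi⟩ := Finset.exists_mem_eq_sup' (Finset.univ_nonempty (α := Fin 3))
        (fun i => ‖x i‖)
      have hx2 : ‖x‖ = ‖x i‖ := by
        apply le_antisymm
        · refine (pi_norm_le_iff_of_nonneg (norm_nonneg _)).2 fun j => ?_
          have := Finset.le_sup' (fun i => ‖x i‖) (Finset.mem_univ j)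
          rw [hi] at this
          exact this
        · exact norm_le_pi_norm x i
      fin_cases i
      · left; exact hx2
      · right; rw [hx2]; exact le_max_left _ _
      · right; rw [hx2]; exact le_max_right _ _
    have c1 : 0 ≤ C * T.d * ‖xy T x‖ := by positivity
    have c2 : 0 ≤ (K + 1) ^ T.d * ‖xy T x‖ := by positivity
    rw [hD, add_mul]
    rcases hcase with h | h
    · rw [h]; linarith
    · have : ‖x‖ ^ T.d ≤ (K * ‖xy T x‖) ^ T.d := by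
        gcongr
        exact h.trans b2
      linarith
  rw [inv_mul_le_iff₀ hD0]
  exact b4

/-- **condition `lo` of `Sys`** from powers of the plane coordinates in every system -/
theorem lo_of {L : ℕ} {q : Fin L → E3 → ℂ} {s : Fin L → ℕ} (a : ℕ)
    (h1 : ∀ l, ∃ m ∈ fib s l, ∃ n ≤ a, ∀ x, q m x = (xy T x).1 ^ n)
    (h2 : ∀ l, ∃ m ∈ fib s l, ∃ n ≤ a, ∀ x, q m x = (xy T x).2 ^ n) :
    ∃ (N : ℕ) (c r : ℝ), 0 < c ∧ 0 < r ∧ ∀ x, ‖x‖ < r → f x = 0 → ∀ l, c * ‖x‖ ^ N ≤ sq q s l x := by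
  obtain ⟨c, r, hc, hr, h3⟩ := loj T
  obtain ⟨r', hr', h4⟩ := Metric.eventually_nhds_iff_ball.1 (near_BD T)
  refine ⟨T.d * (2 * a), c ^ (2 * a), min r r', by positivity, by positivity, fun x hx hfx l => ?_⟩
  have h5 := h3 x (hx.trans_le (min_le_left _ _)) hfx
  obtain ⟨-, -, -, h6⟩ := h4 x (by simpa using hx.trans_le (min_le_right _ _))
  have key : ∀ t : ℂ, ‖t‖ ≤ 1 → ∀ m ∈ fib s l, (∃ n ≤ a, q m x = t ^ n) →
      ‖t‖ ^ (2 * a) ≤ sq q s l x := by
    intro t ht m hm hq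
    obtain ⟨n, hn, hq⟩ := hq
    calc ‖t‖ ^ (2 * a) ≤ ‖t‖ ^ (2 * n) :=
          pow_le_pow_of_le_one (norm_nonneg _) ht (by omega)
      _ = ‖q m x‖ ^ 2 := by rw [hq, norm_pow, ← pow_mul, mul_comm]
      _ ≤ sq q s l x := Finset.single_le_sum (f := fun m => ‖q m x‖ ^ 2)
          (fun i _ => by positivity) hm
  have h7 : ‖xy T x‖ ^ (2 * a) ≤ sq q s l x := by
    obtain ⟨m₁, hm₁, n₁, hn₁, e₁⟩ := h1 l
    obtain ⟨m₂, hm₂, n₂, hn₂, e₂⟩ := h2 l
    rcases le_total ‖(xy T x).1‖ ‖(xy T x).2‖ with h | h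
    · have e : ‖xy T x‖ = ‖(xy T x).2‖ := max_eq_right h
      rw [e]
      refine key _ ?_ m₂ hm₂ ⟨n₂, hn₂, e₂ x⟩
      rw [← e]
      exact h6.le
    · have e : ‖xy T x‖ = ‖(xy T x).1‖ := max_eq_left h
      rw [e]
      refine key _ ?_ m₁ hm₁ ⟨n₁, hn₁, e₁ x⟩
      rw [← e]
      exact h6.le
  calc c ^ (2 * a) * ‖x‖ ^ (T.d * (2 * a)) = (c * ‖x‖ ^ T.d) ^ (2 * a) := by
        rw [mul_pow, ← pow_mul]
    _ ≤ ‖xy T x‖ ^ (2 * a) := by gcongr
    _ ≤ _ := h7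

/-- the `z`-derivatives of the Weierstrass polynomial -/
def Pz (l : ℕ) (x : E3) : ℂ := (derivative^[l] (T.P (xy T x))).eval (x 0)

theorem Pz_eq {x : E3} (h : xy T x ∈ BD T.R T.R) (l : ℕ) : Pz T l x =
    ∑ i ∈ Finset.range (T.d + 1), (T.P (xy T x)).coeff i * (derivative^[l] (X ^ i : ℂ[X])).eval (x 0)
    := by
  unfold Pz
  conv_lhs => rw [(T.P (xy T x)).as_sum_range_C_mul_X_pow, T.deg _ h]
  rw [Polynomial.iterate_derivative_sum, Polynomial.eval_finsetSum]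
  refine Finset.sum_congr rfl fun i _ => ?_
  rw [Polynomial.iterate_derivative_C_mul, Polynomial.eval_mul, Polynomial.eval_C]

theorem an_Pz (l : ℕ) : AnalyticAt ℂ (Pz T l) 0 := by
  have h0 : (0 : ℂ × ℂ) ∈ BD T.R T.R := by simp [BD, T.R_pos]
  have h1 : AnalyticAt ℂ (fun x : E3 => ∑ i ∈ Finset.range (T.d + 1),
      (T.P (xy T x)).coeff i * (derivative^[l] (X ^ i : ℂ[X])).eval (x 0)) 0 := by
    refine Finset.analyticAt_fun_sum _ fun i _ => (an_plane T (T.coeff_an i 0 h0)).mul ?_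
    have h2 : AnalyticAt ℂ (fun x : E3 => x 0) 0 :=
      (ContinuousLinearMap.proj (R := ℂ) (φ := fun _ : Fin 3 => ℂ) 0).analyticAt 0
    have h3 : AnalyticAt ℂ (fun w : ℂ => (derivative^[l] (X ^ i : ℂ[X])).eval w)
        ((fun x : E3 => x 0) 0) := by
      simpa using (AnalyticAt.aeval_polynomial (𝕜 := ℂ) (A := ℂ) (f := fun w : ℂ => w)
        analyticAt_id (derivative^[l] (X ^ i : ℂ[X])))
    exact AnalyticAt.comp (g := fun w : ℂ => (derivative^[l] (X ^ i : ℂ[X])).eval w)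
      (f := fun x : E3 => x 0) h3 h2
  refine h1.congr ?_
  filter_upwards [near_BD T] with x hx
  exact (Pz_eq T hx.1 l).symm

theorem Pz_zero {l : ℕ} (hl : l < T.d) : Pz T l 0 = 0 := by
  unfold Pz
  rw [xy_zero, T.P_zero, Polynomial.iterate_derivative_X_pow_eq_smul]
  simp [Polynomial.eval_pow, zero_pow (Nat.sub_ne_zero_of_lt hl)]

end Crest.Agent.R257.SysL_952
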