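import Crest.Agent.R257.SysL_952
import Crest.Agent.R257.CLogL_39
import Crest.Agent.R257.Rot1_558

/-!
R257 / SysM_952: C-LOG: existence of the reduced discriminant polynomial `DF` and admissibility `Sys`
of the literal list `lq` of CLogL_39.
-/

set_option autoImplicit false
set_option linter.unusedSectionVars false

open Polynomial Set Filter Topology Metric
open Crest.AlgGeometry.Germ Crest.Agent.R257.AJ387 Crest.Agent.R257.T387

noncomputable section

namespace Crest.Agent.R257.SysL_952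

open Crest.Agent.R257.Defs_219
open Crest.Agent.R257.CLog_68 (fib sq Sys)
open Crest.Agent.R257.CLL_39
open Crest.Agent.R257.Rot1_558 (GalPt phi_inj)

/-! ### invariant functions -/

/-- **descent**: functions invariant under the `N`-th roots of unity are functions of `s ^ N` -/
theorem descend {c : ℂ → ℂ} {ρ : ℝ} {N : ℕ} (hN : 0 < N) (hρ : 0 < ρ)
    (hc : AnalyticOnNhd ℂ c (ball 0 ρ))
    (hinv : ∀ ζ : ℂ, ζ ^ N = 1 → ∀ s ∈ ball (0 : ℂ) ρ, c (ζ * s) = c s) {r : ℂ → ℂ}
    (hr : ∀ x, r x ^ N = x) :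
    AnalyticOnNhd ℂ (fun x => c (r x)) (ball 0 (ρ ^ N)) ∧ ∀ s ∈ ball (0 : ℂ) ρ, c (r (s ^ N)) = c s := by
  have key : ∀ s ∈ ball (0 : ℂ) ρ, ∀ t : ℂ, t ^ N = s ^ N → c t = c s := by
    intro s hs t ht
    by_cases h0 : s = 0
    · subst h0
      rw [zero_pow hN.ne'] at ht
      rw [pow_eq_zero_iff hN.ne'] at ht
      rw [ht]
    · have h1 : (t / s) ^ N = 1 := by
        rw [div_pow, ht, div_self (pow_ne_zero _ h0)]
      have h2 := hinv (t / s) h1 s hs
      rwa [div_mul_cancel₀ _ h0] at h2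
  have hmem : ∀ x ∈ ball (0 : ℂ) (ρ ^ N), r x ∈ ball (0 : ℂ) ρ := by
    intro x hx
    rw [mem_ball_zero_iff] at hx ⊢
    have h1 : ‖r x‖ ^ N = ‖x‖ := by rw [← norm_pow, hr]
    rw [← h1] at hx
    exact lt_of_pow_lt_pow_left₀ N hρ.le hx
  -- differentiability off `0`
  have hoff : ∀ x ∈ ball (0 : ℂ) (ρ ^ N), x ≠ 0 → AnalyticAt ℂ (fun x => c (r x)) x := by
    intro x hx hx0
    have hrx : r x ≠ 0 := by
      intro h
      have := hr x
      rw [h, zero_pow hN.ne'] at this
      exact hx0 this.symm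
    have h1 : AnalyticAt ℂ (fun y : ℂ => r x * (y / x) ^ ((N : ℂ)⁻¹)) x := by
      refine analyticAt_const.mul (AnalyticAt.cpow ?_ analyticAt_const ?_)
      · exact analyticAt_id.div_const
      · rw [div_self hx0]
        exact Complex.one_mem_slitPlane
    have h2 : r x * (x / x) ^ ((N : ℂ)⁻¹) = r x := by
      simp [div_self hx0]
    have h3 : AnalyticAt ℂ (fun y : ℂ => c (r x * (y / x) ^ ((N : ℂ)⁻¹))) x :=
      AnalyticAt.fun_comp (by rw [h2]; exact hc _ (hmem x hx)) h1
    refine h3.congr ?_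
    filter_upwards [isOpen_ball.mem_nhds hx] with y hy
    refine (key _ (hmem y hy) _ ?_)
    rw [mul_pow, Complex.cpow_nat_inv_pow _ hN.ne', hr, hr]
    field_simp
  refine ⟨fun x hx => ?_, fun s hs => key s hs _ (hr _)⟩
  by_cases hx0 : x = 0
  · subst hx0
    refine Complex.analyticAt_of_differentiable_on_punctured_nhds_of_continuousAt ?_ ?_
    · filter_upwards [eventually_mem_nhdsWithin,
        (isOpen_ball.mem_nhds hx : _ ∈ 𝓝 (0 : ℂ)) |> mem_nhdsWithin_of_mem_nhds] with y hy hyb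
      exact (hoff y hyb hy).differentiableAt
    · have hr0 : r 0 = 0 := by
        have := hr 0
        rwa [pow_eq_zero_iff hN.ne'] at this
      have h1 : Tendsto r (𝓝 0) (𝓝 0) := by
        rw [Metric.tendsto_nhds]
        intro ε hε
        filter_upwards [Metric.ball_mem_nhds (0 : ℂ) (pow_pos hε N)] with y hy
        rw [mem_ball_zero_iff] at hy
        rw [dist_zero_right]
        have h1 : ‖r y‖ ^ N = ‖y‖ := by rw [← norm_pow, hr]
        rw [← h1] at hy
        exact lt_of_pow_lt_pow_left₀ N hε.le hy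
      have h2 : ContinuousAt c 0 := (hc 0 (mem_ball_self hρ)).continuousAt
      have h3 : Tendsto (fun x => c (r x)) (𝓝 0) (𝓝 (c 0)) := h2.tendsto.comp h1
      show Tendsto _ _ _
      simp only [hr0]
      exact h3
  · exact hoff x hx hx0

/-- coefficients of products of linear factors -/
theorem an_prod {ι : Type*} (J : Finset ι) {φ : ι → ℂ → ℂ} {Ω : Set ℂ}
    (hφ : ∀ j, AnalyticOnNhd ℂ (φ j) Ω) (i : ℕ) :
    AnalyticOnNhd ℂ (fun s => (∏ j ∈ J, (X - C (φ j s))).coeff i) Ω := by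
  classical
  induction J using Finset.induction_on generalizing i with
  | empty =>
    simp only [Finset.prod_empty]
    exact analyticOnNhd_const
  | insert a J ha ih =>
    have e : (fun s => (∏ j ∈ insert a J, (X - C (φ j s))).coeff i) = fun s =>
        (if i = 0 then 0 else (∏ j ∈ J, (X - C (φ j s))).coeff (i - 1)) -
          φ a s * (∏ j ∈ J, (X - C (φ j s))).coeff i := by
      funext s
      rw [Finset.prod_insert ha, sub_mul, coeff_sub, coeff_C_mul]
      congr 1
      rcases i with _ | i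
      · simp
      · simp [coeff_X_mul]
    rw [e]
    refine AnalyticOnNhd.sub ?_ ((hφ a).mul (ih i))
    split_ifs
    · exact analyticOnNhd_const
    · exact ih (i - 1)

variable {f : E3 → ℂ} {T : TB f}

/-- the product is invariant -/
theorem prod_inv (hG : GalPt T) {ζ : ℂ} (hζ : ζ ^ T.N₀ = 1) {s : ℂ} (hs : s ∈ ball (0 : ℂ) T.ρ) :
    ∏ j, (X - C (T.φ j (ζ * s))) = ∏ j, (X - C (T.φ j s)) := by
  by_cases h0 : s = 0
  · rw [h0, mul_zero]
  · choose σ hσ using hG ζ hζ s hs
    have hζ1 : ‖ζ‖ = 1 := by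
      have : ‖ζ‖ ^ T.N₀ = 1 := by rw [← norm_pow, hζ, norm_one]
      exact (pow_eq_one_iff_of_nonneg (norm_nonneg _) T.N₀_pos.ne').1 this
    have hζs : ζ * s ∈ ball (0 : ℂ) T.ρ := by
      rw [mem_ball_zero_iff, norm_mul, hζ1, one_mul]
      rwa [mem_ball_zero_iff] at hs
    have hζ0 : ζ ≠ 0 := by
      intro h
      rw [h, norm_zero] at hζ1
      exact zero_ne_one hζ1
    have hinj : Function.Injective σ := by
      intro a b hab
      have h1 : T.φ a (ζ * s) = T.φ b (ζ * s) := by rw [hσ, hσ, hab]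
      exact phi_inj T hζs (mul_ne_zero hζ0 h0) h1
    have hbij : Function.Bijective σ := Finite.injective_iff_bijective.1 hinj
    refine Function.Bijective.prod_comp hbij (fun j => X - C (T.φ j s)) |>.symm ▸ ?_
    exact Finset.prod_congr rfl fun j _ => by rw [hσ]

/-- **existence of the reduced discriminant polynomial** -/
theorem exists_DF (hG : GalPt T) : ∃ (D : ℂ → ℂ[X]) (R : ℝ), DF T D R := by
  have hr : ∀ x : ℂ, ∃ s, s ^ T.N₀ = x := fun x => IsAlgClosed.exists_pow_nat_eq x T.N₀_pos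
  choose r hr using hr
  have hdes := fun i => descend (c := fun s => (∏ j, (X - C (T.φ j s))).coeff i) T.N₀_pos T.ρ_pos
    (an_prod Finset.univ T.φ_an i) (fun ζ hζ s hs => by
      show (∏ j, (X - C (T.φ j (ζ * s)))).coeff i = _
      rw [prod_inv hG hζ hs]) hr
  refine ⟨fun x => ∏ j, (X - C (T.φ j (r x))), T.ρ ^ T.N₀, pow_pos T.ρ_pos _, fun x _ => ?_,
    fun i => (hdes i).1, fun s hs _ => ?_⟩
  · rw [natDegree_prod_of_monic _ _ fun j _ => monic_X_sub_C _]
    simp
  · ext i
    exact (hdes i).2 s hs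

/-! ### `Sys` for the literal list -/

theorem bs_eq (x : E3) : T.bs x = xy T x := rfl

theorem X1_zero : X1 T 0 = 0 := by
  unfold X1
  rw [bs_eq, xy_zero]
  rfl

theorem Y1_zero : Y1 T 0 = 0 := by
  unfold Y1
  rw [bs_eq, xy_zero]
  rfl

theorem DD_zero {D : ℂ → ℂ[X]} {R : ℝ} (hD : DF T D R) {l : ℕ} (hl : l < T.m) :
    DD T D l 0 = 0 := by
  have h1 := hD.eq 0 (mem_ball_self T.ρ_pos) (by
    rw [zero_pow T.N₀_pos.ne', norm_zero]; exact hD.R_pos)
  rw [zero_pow T.N₀_pos.ne'] at h1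
  have h2 : D 0 = X ^ T.m := by
    rw [h1]
    simp [T.φ_zero]
  unfold DD
  rw [X1_zero, Y1_zero, h2, Polynomial.iterate_derivative_X_pow_eq_smul]
  simp [Polynomial.eval_pow, zero_pow (Nat.sub_ne_zero_of_lt hl)]

theorem bs_zero_mem : T.bs 0 ∈ BD T.R T.R := by
  rw [bs_eq, xy_zero]
  simp [BD, T.R_pos]

theorem be_pos {E₀ E₁ E₂ : ℕ} (h0 : 0 < E₀) (h1 : 0 < E₁) (h2 : 0 < E₂) (b : BI T) :
    0 < be T E₀ E₁ E₂ b := by
  rcases b with _ | b | b
  · exact h0
  · exact h2
  · exact h1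

theorem be_le {E₀ E₁ E₂ : ℕ} (b : BI T) : be T E₀ E₁ E₂ b ≤ max E₀ (max E₁ E₂) := by
  rcases b with _ | b | b
  · exact le_max_left _ _
  · exact (le_max_right _ _).trans (le_max_right _ _)
  · exact (le_max_left _ _).trans (le_max_right _ _)

/-- **the literal list is admissible** -/
theorem sys_lq {D : ℂ → ℂ[X]} {R : ℝ} (hD : DF T D R) {E₀ E₁ E₂ : ℕ} (h0 : 0 < E₀) (h1 : 0 < E₁)
    (h2 : 0 < E₂) : Sys f (lq T D E₀ E₁ E₂) (ls T) where
  an l := by
    unfold lq
    have hX : AnalyticAt ℂ (X1 T) 0 := an_X1 0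
    have hY : AnalyticAt ℂ (Y1 T) 0 := an_Y1 0
    rcases (ie T l).2 with ⟨i, hi⟩
    interval_cases i
    · show AnalyticAt ℂ (bm T D (ie T l).1) 0
      rcases (ie T l).1 with _ | b | b
      · exact hX
      · exact an_DD hD b (by rw [X1_zero, norm_zero]; exact hD.R_pos)
      · exact an_PD b bs_zero_mem
    · exact hX.pow _
    · exact hY.pow _
  z l := by
    unfold lq
    rcases (ie T l).2 with ⟨i, hi⟩
    interval_cases i
    · show bm T D (ie T l).1 0 = 0
      rcases (ie T l).1 with _ | b | b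
      · exact X1_zero
      · exact DD_zero hD b.2
      · show PD T b 0 = 0
        exact Pz_zero T b.2
    · show X1 T 0 ^ _ = 0
      rw [X1_zero, zero_pow (be_pos h0 h1 h2 _).ne']
    · show Y1 T 0 ^ _ = 0
      rw [Y1_zero, zero_pow (be_pos h0 h1 h2 _).ne']
  lo := by
    refine lo_of T (max E₀ (max E₁ E₂)) (fun l => ?_) (fun l => ?_)
    · refine ⟨(ie T).symm ((ie T l).1, 1), ?_, be T E₀ E₁ E₂ (ie T l).1, be_le _, fun x => ?_⟩
      · unfold CLog_68.fib
        rw [Finset.mem_filter, ls_eq_iff, Equiv.apply_symm_apply]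
        exact ⟨Finset.mem_univ _, rfl⟩
      · unfold lq
        rw [Equiv.apply_symm_apply]
        rfl
    · refine ⟨(ie T).symm ((ie T l).1, 2), ?_, be T E₀ E₁ E₂ (ie T l).1, be_le _, fun x => ?_⟩
      · unfold CLog_68.fib
        rw [Finset.mem_filter, ls_eq_iff, Equiv.apply_symm_apply]
        exact ⟨Finset.mem_univ _, rfl⟩
      · unfold lq
        rw [Equiv.apply_symm_apply]
        rfl

end Crest.Agent.R257.SysL_952
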