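import Crest.Agent.R257.T0_939
import Crest.Agent.R257.T5_387
import Crest.Agent.R257.FrmB_547

/-!
Row 257 (S0395), part C, T-frame (helper554): base data `TB f` whose branches contain the branches of
an additional plane germ `B`, with `L ∣ N₀` (the second frame of C-LOG).  Proof of `exists_TBE`
adapted from `exists_TB` of helper939.
-/

set_option autoImplicit false
set_option linter.unusedSectionVars false

open Polynomial Set Filter Topology Metric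
open Crest.AlgGeometry.Germ Crest.Agent.R257.AJ387 Crest.Agent.R257.Sh_297
open Crest.Agent.R257.Defs_219 Crest.Agent.R257.T387 Crest.Agent.R257.T0_939
open Crest.Agent.R257.Frm_547 (mul_ev)

noncomputable section

namespace Crest.Agent.R257.TB2_554

theorem exists_branchesL {D : ℂ × ℂ → ℂ} (hD : AnalyticAt ℂ D 0)
    (hreg : ∃ᶠ y in 𝓝 (0 : ℂ), D (0, y) ≠ 0) {L : ℕ} (hL : 0 < L) :
    ∃ (N₀ m : ℕ) (R₀ : ℝ), 0 < N₀ ∧ L ∣ N₀ ∧ 0 < m ∧ 0 < R₀ ∧ ∀ R : ℝ, 0 < R → R ≤ R₀ →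
      ∃ (ρ : ℝ) (φ : Fin m → ℂ → ℂ), 0 < ρ ∧ ρ ≤ 1 ∧
      (∀ s ∈ ball (0 : ℂ) ρ, ‖s ^ N₀‖ < R) ∧ (∀ i, AnalyticOnNhd ℂ (φ i) (ball 0 ρ)) ∧
      (∀ i, φ i 0 = 0) ∧ (∀ i, ∀ s ∈ ball (0 : ℂ) ρ, ‖φ i s‖ < R) ∧
      (∀ s ∈ ball (0 : ℂ) ρ, s ≠ 0 → Function.Injective fun i => φ i s) ∧
      (∀ s ∈ ball (0 : ℂ) ρ, ∀ y ∈ ball (0 : ℂ) R, (∀ i, y ≠ φ i s) → D (s ^ N₀, y) ≠ 0) ∧
      (∀ ζ : ℂ, ζ ^ N₀ = 1 → ∀ s ∈ ball (0 : ℂ) ρ, ∀ i, ∃ j, φ i (ζ * s) = φ j s) := by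
  obtain ⟨N₀, m, R₀, hN₀, hm, hR₀, h⟩ := exists_branches hD hreg
  refine ⟨L * N₀, m, R₀, Nat.mul_pos hL hN₀, Dvd.intro _ rfl, hm, hR₀, fun R hR hRR => ?_⟩
  obtain ⟨ρ, φ, hρ, hρ1, h1, h2, h3, h4, h5, h6, h7⟩ := h R hR hRR
  have hmap : ∀ s ∈ ball (0 : ℂ) ρ, s ^ L ∈ ball (0 : ℂ) ρ := by
    intro s hs
    rw [mem_ball_zero_iff] at hs ⊢
    rw [norm_pow]
    exact (pow_le_of_le_one (norm_nonneg _) (hs.le.trans hρ1) hL.ne').trans_lt hs
  refine ⟨ρ, fun i s => φ i (s ^ L), hρ, hρ1, fun s hs => ?_, fun i s hs => ?_, fun i => ?_,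
    fun i s hs => h4 i _ (hmap s hs), fun s hs hs0 => h5 _ (hmap s hs) (pow_ne_zero _ hs0),
    fun s hs y hy hne => ?_, fun ζ hζ s hs i => ?_⟩
  · rw [pow_mul]; exact h1 _ (hmap s hs)
  · exact AnalyticAt.comp (g := φ i) (f := fun s => s ^ L) (h2 i _ (hmap s hs))
      (analyticAt_id.pow L)
  · show φ i (0 ^ L) = 0
    rw [zero_pow hL.ne', h3]
  · rw [pow_mul]; exact h6 _ (hmap s hs) y hy hne
  · show ∃ j, φ i ((ζ * s) ^ L) = φ j (s ^ L)
    rw [mul_pow]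
    exact h7 (ζ ^ L) (by rw [← pow_mul]; exact hζ) _ (hmap s hs) i

/-- **T0** with an additional plane germ `B` in the original coordinates and `L ∣ N₀` -/
theorem exists_TBE {f : E3 → ℂ} (hf : Iso f) {B : ℂ × ℂ → ℂ} (hB : AnalyticAt ℂ B 0)
    (hBne : ∃ᶠ q in 𝓝 (0 : ℂ × ℂ), B q ≠ 0) {L : ℕ} (hL : 0 < L) :
    ∃ T : TB f, GalPt T ∧ L ∣ T.N₀ ∧ (∀ q ∈ BD T.R T.R, AnalyticAt ℂ B (T.A q)) ∧
      ∀ s ∈ ball (0 : ℂ) T.ρ, ∀ y ∈ ball (0 : ℂ) T.R, (∀ i, y ≠ T.φ i s) →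
        B (T.A (s ^ T.N₀, y)) ≠ 0 := by
  classical
  -- the function in the coordinates `(q', z)`
  let F : (ℂ × ℂ) × ℂ → ℂ := fun p => f (pt p.2 p.1)
  have hpt0 : pt (0 : (ℂ × ℂ) × ℂ).2 (0 : (ℂ × ℂ) × ℂ).1 = 0 := pt_zero
  have hF : AnalyticAt ℂ F ((0 : ℂ × ℂ), (0 : ℂ)) :=
    AnalyticAt.comp (g := f) (f := fun p : (ℂ × ℂ) × ℂ => pt p.2 p.1) (x := (0 : (ℂ × ℂ) × ℂ))
      (by rw [hpt0]; exact hf.an) (an_pt 0)
  have hord : analyticOrderAt (fun z : ℂ => F (0, z)) 0 ≠ ⊤ := by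
    rw [Ne, analyticOrderAt_eq_top]
    intro h
    refine hf.reg ?_
    have h1 : ∀ᶠ z in 𝓝[≠] (0 : ℂ), F (0, z) = 0 := h.filter_mono nhdsWithin_le_nhds
    filter_upwards [h1] with z hz hne
    refine hne ?_
    have h2 : (Fin.cons z 0 : Fin 3 → ℂ) = pt z 0 := by
      ext i; fin_cases i <;> rfl
    rw [h2]; exact hz
  obtain ⟨d, hd⟩ := ENat.ne_top_iff_exists.1 hord
  obtain ⟨w, v, hwa, hw1, hw0, hwz, hv, hv0, hFe⟩ := exists_wpoly hF hd.symm
  have hd0 : 0 < d := by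
    rcases Nat.eq_zero_or_pos d with h | h
    · exfalso
      subst h
      have h1 : AnalyticAt ℂ (fun z : ℂ => F (0, z)) 0 :=
        AnalyticAt.comp (g := F) (f := fun z : ℂ => ((0 : ℂ × ℂ), z)) hF
          (analyticAt_const.prod analyticAt_id)
      have h2 : (fun z : ℂ => F (0, z)) 0 ≠ 0 := h1.analyticOrderAt_eq_zero.1 hd.symm
      apply h2
      show f (pt 0 0) = 0
      rw [pt_zero]; exact hf.zero
    · exact h
  -- discriminant
  have hDan : AnalyticAt ℂ (Dsc w d) 0 := Dsc_analytic hwa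
  have hDne : ∃ᶠ q in 𝓝 (0 : ℂ × ℂ), Dsc w d q ≠ 0 := by
    obtain ⟨δ', hδ', hgs⟩ := generic_simple (n := 2) (by norm_num) hf.an (by
      filter_upwards [iso_of_colFin hf.an hf.fin] with x hx h0 _
      exact hx h0)
    refine Dsc_freq hδ' hwa hw1 hw0 hv hv0 hFe ?_
    have hc : Tendsto (fun x' : Fin 2 → ℂ => ((x' 0, x' 1) : ℂ × ℂ)) (𝓝 0) (𝓝 0) := by
      have : Continuous (fun x' : Fin 2 → ℂ => ((x' 0, x' 1) : ℂ × ℂ)) := by fun_prop
      exact this.tendsto' _ _ rfl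
    refine hc.frequently (hgs.mono fun x' hx' z hz hFz => ?_)
    have hpt : ∀ z : ℂ, pt z (x' 0, x' 1) = Fin.cons z x' := by
      intro z
      ext i; fin_cases i <;> rfl
    have h1 := hx' z hz (by rw [← hpt]; exact hFz)
    have h2 : (fun z : ℂ => F ((x' 0, x' 1), z)) = fun z : ℂ => f (Fin.cons z x') := by
      funext z
      show f (pt z (x' 0, x' 1)) = _
      rw [hpt]
    show deriv (fun z : ℂ => F ((x' 0, x' 1), z)) z ≠ 0
    rw [h2]
    exact h1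
  have hDBan : AnalyticAt ℂ (fun q => Dsc w d q * B q) 0 := hDan.mul hB
  have hDBne : ∃ᶠ q in 𝓝 (0 : ℂ × ℂ), Dsc w d q * B q ≠ 0 := by
    intro hcon
    rcases mul_ev hDan hB (by filter_upwards [hcon] with q hq; exact not_not.1 hq) with h | h
    · exact hDne (by filter_upwards [h] with q hq; exact not_not.2 hq)
    · exact hBne (by filter_upwards [h] with q hq; exact not_not.2 hq)
  obtain ⟨b, hb, hline⟩ := exists_line hDBan hDBne
  obtain ⟨A, hA⟩ := exists_rot b hb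
  have hA0 : A 0 = 0 := map_zero A
  have hAc : Tendsto A (𝓝 0) (𝓝 0) := by
    have := A.continuous.tendsto 0
    rwa [hA0] at this
  have hAan : ∀ q, AnalyticAt ℂ A q := fun q => A.toContinuousLinearMap.analyticAt q
  have hD1 : AnalyticAt ℂ (fun q => Dsc w d (A q) * B (A q)) 0 :=
    AnalyticAt.comp (g := fun q => Dsc w d q * B q) (f := A) (by rw [hA0]; exact hDBan) (hAan 0)
  have hreg : ∃ᶠ y in 𝓝 (0 : ℂ), Dsc w d (A (0, y)) * B (A (0, y)) ≠ 0 := by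
    refine hline.mono fun s hs => ?_
    have h1 : ((0 : ℂ), s) = s • ((0, 1) : ℂ × ℂ) := by simp
    rw [h1, map_smul, hA]
    exact hs
  obtain ⟨N₀, m, R₀, hN₀, hLN, hm, hR₀, hbr⟩ := exists_branchesL hD1 hreg hL
  -- the radii
  have hev : ∀ᶠ p in 𝓝 (0 : (ℂ × ℂ) × ℂ), AnalyticAt ℂ f (pt p.2 p.1) ∧ AnalyticAt ℂ v p ∧
      v p ≠ 0 ∧ F p = v p * Wf w d p.1 p.2 := by
    have h1 : Tendsto (fun p : (ℂ × ℂ) × ℂ => pt p.2 p.1) (𝓝 0) (𝓝 0) := by
      have := (an_pt 0).continuousAt.tendsto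
      rwa [hpt0] at this
    exact (h1.eventually hf.an.eventually_analyticAt).and
      (hv.eventually_analyticAt.and ((hv.continuousAt.eventually_ne hv0).and hFe))
  obtain ⟨ε, hε, hεb⟩ := Metric.eventually_nhds_iff_ball.1 hev
  set rz : ℝ := ε / 2 with hrz
  have hrz0 : 0 < rz := by positivity
  have hw2 : ∀ᶠ y in 𝓝 (0 : ℂ × ℂ), (∀ j ∈ Finset.range d, ‖w j y‖ < rz ^ (d - j) / (d + 1)) ∧
      (∀ j ∈ Finset.range (d + 1), AnalyticAt ℂ (w j) y) ∧ y ∈ ball (0 : ℂ × ℂ) ε := by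
    refine ((Finset.eventually_all _).2 fun j hj => ?_).and
      (((Finset.eventually_all _).2 fun j _ => (hwa j).eventually_analyticAt).and
        (ball_mem_nhds _ hε))
    rw [Finset.mem_range] at hj
    refine (hwa j).continuousAt.norm.tendsto.eventually (gt_mem_nhds ?_)
    rw [hw0 j hj, norm_zero]
    positivity
  obtain ⟨δ, hδ, hδb'⟩ := Metric.eventually_nhds_iff_ball.1
    (hAc.eventually (hw2.and hB.eventually_analyticAt))
  have hδb := fun q hq => (hδb' q hq).1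
  set R : ℝ := min δ R₀ with hR
  have hR0 : 0 < R := lt_min hδ hR₀
  have hBD : ∀ q ∈ BD R R, q ∈ ball (0 : ℂ × ℂ) δ := by
    intro q hq
    rw [mem_ball, Prod.dist_eq, max_lt_iff]
    exact ⟨by simpa using hq.1.trans_le (min_le_left _ _),
      by simpa using hq.2.trans_le (min_le_left _ _)⟩
  have hwan : ∀ q ∈ BD R R, ∀ j, AnalyticAt ℂ (w j) (A q) := by
    intro q hq j
    rcases lt_or_ge d j with h | h
    · rw [hwz j h]; exact analyticAt_const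
    · exact (hδb q (hBD q hq)).2.1 j (Finset.mem_range.2 (by omega))
  have hmem : ∀ q ∈ BD R R, ∀ z : ℂ, ‖z‖ ≤ rz → ((A q, z) : (ℂ × ℂ) × ℂ) ∈
      ball (0 : (ℂ × ℂ) × ℂ) ε := by
    intro q hq z hz
    rw [mem_ball, Prod.dist_eq, max_lt_iff]
    refine ⟨(hδb q (hBD q hq)).2.2, ?_⟩
    have : dist z 0 = ‖z‖ := dist_zero_right z
    show dist z 0 < ε
    rw [this]; linarith
  have hWm : ∀ x, (Wp w d x).Monic := fun x => by
    refine monic_of_natDegree_le_of_coeff_eq_one d (degree_Wp_le w d x) ?_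
    rw [coeff_Wp, if_pos (Nat.lt_succ_self d), hw1]
  have hWn : ∀ x, (Wp w d x).natDegree = d := fun x => by
    refine le_antisymm (degree_Wp_le w d x) (le_natDegree_of_ne_zero ?_)
    rw [coeff_Wp, if_pos (Nat.lt_succ_self d), hw1]
    exact one_ne_zero
  obtain ⟨ρ, φ, hρ0, hρ1, hρR, hφ, hφ0, hφR, hinj, hDφ, hgal⟩ := hbr R hR0 (min_le_right _ _)
  -- contact data
  have hcon : ∀ i j, i ≠ j → ∃ (k : ℕ) (u : ℂ → ℂ), 0 < k ∧ AnalyticOnNhd ℂ u (ball 0 ρ) ∧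
      (∀ s ∈ ball (0 : ℂ) ρ, u s ≠ 0) ∧ ∀ s ∈ ball (0 : ℂ) ρ, φ i s - φ j s = s ^ k * u s := by
    intro i j hij
    exact exists_contact (g := fun s => φ i s - φ j s) hρ0 ((hφ i).sub (hφ j))
      (by simp [hφ0]) (fun s hs h0 h => hij (hinj s hs h0 (sub_eq_zero.1 h)))
  choose! k u hk hu hune hφs using hcon
  refine ⟨{
    A := A
    d := d
    P := fun q => Wp w d (A q)
    v := fun p => v (A p.1, p.2)
    R := R
    rz := rz
    R_pos := hR0
    rz_pos := hrz0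
    d_pos := hd0
    monic := fun q _ => hWm _
    deg := fun q _ => hWn _
    coeff_an := ?_
    P_zero := ?_
    f_an := fun q hq z hz => (hεb _ (hmem q hq z hz)).1
    v_an := ?_
    v_ne := fun q hq z hz => (hεb _ (hmem q hq z hz)).2.2.1
    f_eq := fun q hq z hz => ?_
    roots_in := ?_
    N₀ := N₀
    N₀_pos := hN₀
    m := m
    m_pos := hm
    ρ := ρ
    ρ_pos := hρ0
    ρ_le := hρ1
    ρ_R := hρR
    φ := φ
    φ_an := hφ
    φ_zero := hφ0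
    φ_R := hφR
    del := fun i j => if i = j then 1 else k i j
    u := u
    del_pos := ?_
    u_an := hu
    u_ne := hune
    φ_sub := ?_
    nodup := ?_ }, hgal, hLN, fun q hq => (hδb' q (hBD q hq)).2,
      fun s hs y hy hne => right_ne_zero_of_mul (hDφ s hs y hy hne)⟩
  · intro i q hq
    show AnalyticAt ℂ (fun q => (Wp w d (A q)).coeff i) q
    simp_rw [coeff_Wp]
    split_ifs
    · exact AnalyticAt.comp (g := w i) (f := A) (hwan q hq i) (hAan q)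
    · exact analyticAt_const
  · show Wp w d (A 0) = X ^ d
    rw [hA0]
    ext j
    rw [coeff_Wp, coeff_X_pow]
    split_ifs with h1 h2 h2
    · rw [h2, hw1]
    · exact hw0 j (by omega)
    · omega
    · rfl
  · intro q hq z hz
    exact AnalyticAt.comp (g := v) (f := fun p : (ℂ × ℂ) × ℂ => (A p.1, p.2))
      (x := ((q, z) : (ℂ × ℂ) × ℂ)) (hεb _ (hmem q hq z hz)).2.1
      ((AnalyticAt.comp (g := A) (f := Prod.fst) (hAan _) analyticAt_fst).prod analyticAt_snd)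
  · have := (hεb _ (hmem q hq z hz)).2.2.2
    rw [eval_Wp]
    exact this
  · intro q hq z hz
    rw [eval_Wp] at hz
    exact root_bound (hw1 _) hrz0
      (fun j hj => (hδb q (hBD q hq)).1 j (Finset.mem_range.2 hj)) hz
  · intro i j
    show 0 < if i = j then 1 else k i j
    split_ifs with h
    · exact one_pos
    · exact hk i j h
  · intro i j hij s hs
    show φ i s - φ j s = s ^ (if i = j then 1 else k i j) * u i j s
    rw [if_neg hij]
    exact hφs i j hij s hs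
  · intro s hs y hy hne
    exact nodup_of_Dsc (hw1 _) (left_ne_zero_of_mul (hDφ s hs y hy hne))

end Crest.Agent.R257.TB2_554
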