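import Crest.Agent.R257.TB2_554
import Crest.Agent.R257.NS0b_554
import Crest.Agent.R275.Loc2D_879

/-!
Row 257 (S0395), part C (helper554): two germs in three variables have no isolated common zero; the
hypersurface germ is irreducible; the norm of a germ.

* `no_isol3`     : `F` regular in `z`, `F 0 = A 0 = 0` ⇒ the common zero `0` is not isolated;
* `relprime`     : `Iso f`, `q ≢ 0` on `{f = 0}` ⇒ the germs of `f`, `q` are relatively prime;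
* `exists_norm`  : a nonzero plane germ `B` with `f = q = 0 ⇒ B (x₁, x₂) = 0`;
* `exists_normF` : the same for finitely many `q`.
-/

set_option autoImplicit false
set_option linter.unusedSectionVars false

open Set Filter Topology Metric
open Crest.AlgGeometry.Germ Crest.Agent.R257.AJ387 Crest.Agent.R257.Sh_297
open Crest.Agent.R257.Defs_219 Crest.Agent.R257.T387 Crest.Agent.R257.T0_939
open Crest.Agent.R275.Loc2879 Crest.Agent.R266.SCV Crest.Agent.R257.NS0554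
open scoped Polynomial

noncomputable section

namespace Crest.Agent.R257.TB3_554

/-- two germs of three variables have no isolated common zero -/
theorem no_isol3 {F A : (ℂ × ℂ) × ℂ → ℂ} (hF : AnalyticAt ℂ F ((0 : ℂ × ℂ), (0 : ℂ)))
    (hA : AnalyticAt ℂ A ((0 : ℂ × ℂ), (0 : ℂ))) {d : ℕ} (hreg : Reg (gm F hF) d)
    (hF0 : F ((0 : ℂ × ℂ), (0 : ℂ)) = 0) (hA0 : A ((0 : ℂ × ℂ), (0 : ℂ)) = 0)
    (hiso : ∀ᶠ p in 𝓝 (((0 : ℂ × ℂ), (0 : ℂ)) : (ℂ × ℂ) × ℂ), F p = 0 → A p = 0 →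
      p = ((0 : ℂ × ℂ), (0 : ℂ))) : False := by
  set z₀ : ℂ × ℂ := 0 with hz₀
  obtain ⟨P, u, hPm, hPd, hfP, hPc⟩ := wprep hreg
  have hregP : Reg (ev z₀ P) d := by
    rw [hfP] at hreg
    exact Reg.of_unit_mul' u hreg
  obtain ⟨P', hP', hPd', hPm'⟩ := Polynomial.lifts_and_natDegree_eq_and_monic
    (f := toO z₀) (p := P) ((Polynomial.mem_lifts P).2 (Polynomial.map_surjective _ (toO_surj z₀) P))
    hPm
  rw [hPd] at hPd'
  obtain ⟨q, r, hr, hGr⟩ := div_exists_poly hregP (gm A hA)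
  obtain ⟨r', hr'⟩ := Polynomial.map_surjective _ (toO_surj z₀) r
  set φ : (SS z₀)[X] →+* OO ((z₀, (0 : ℂ)) : (ℂ × ℂ) × ℂ) :=
    (ev z₀).comp (Polynomial.mapRingHom (toO z₀)) with hφ
  -- the norm vanishes at the origin
  have hnu : ∀ {G : (ℂ × ℂ) × ℂ → ℂ} (hG : AnalyticAt ℂ G ((0 : ℂ × ℂ), (0 : ℂ))),
      G ((0 : ℂ × ℂ), (0 : ℂ)) = 0 → gm G hG ∈ IsLocalRing.maximalIdeal
        (OO ((z₀, (0 : ℂ)) : (ℂ × ℂ) × ℂ)) := by
    intro G hG h0
    rw [IsLocalRing.mem_maximalIdeal, mem_nonunits_iff]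
    exact fun h => (isUnit_gm.1 h) h0
  have hevP : ev z₀ P ∈ IsLocalRing.maximalIdeal (OO ((z₀, (0 : ℂ)) : (ℂ × ℂ) × ℂ)) := by
    have : ev z₀ P = (u⁻¹ : (OO ((z₀, (0 : ℂ)) : (ℂ × ℂ) × ℂ))ˣ) * gm F hF := by
      rw [hfP, ← mul_assoc, Units.inv_mul, one_mul]
    rw [this]
    exact Ideal.mul_mem_left _ _ (hnu hF hF0)
  have hφP : φ P' ∈ IsLocalRing.maximalIdeal (OO ((z₀, (0 : ℂ)) : (ℂ × ℂ) × ℂ)) := by
    change ev z₀ (P'.map (toO z₀)) ∈ _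
    rw [hP']; exact hevP
  have hφr : φ r' ∈ IsLocalRing.maximalIdeal (OO ((z₀, (0 : ℂ)) : (ℂ × ℂ) × ℂ)) := by
    change ev z₀ (r'.map (toO z₀)) ∈ _
    rw [hr']
    have h1 : ev z₀ r = gm A hA - q * ev z₀ P := by rw [hGr]; ring
    rw [h1]
    exact Ideal.sub_mem _ (hnu hA hA0) (Ideal.mul_mem_left _ _ hevP)
  set D : SS z₀ := (mulMat P' r' d).det with hD
  have hD0 : D.1 0 = 0 := by
    by_contra hne
    have h1 := det_mem φ _ hPm' hPd' hφP hφr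
    have h2 : φ (Polynomial.C D) = iot z₀ (toO z₀ D) := by
      change ev z₀ ((Polynomial.C D).map (toO z₀)) = _
      rw [Polynomial.map_C]
      simp [ev]
    rw [h2, IsLocalRing.mem_maximalIdeal, mem_nonunits_iff] at h1
    refine h1 ?_
    have h3 : IsUnit (toO z₀ D) := (isUnit_gm (hf := D.2)).2 hne
    exact h3.map (iot z₀)
  refine no_isolated' (K := D.1) (p := 0) D.2 hD0 ?_
  -- the relations as functions
  have hrel : ∀ᶠ p in 𝓝 ((z₀, 0) : (ℂ × ℂ) × ℂ), ((P'.map (evy z₀ p.1)).eval p.2 = 0 → F p = 0) ∧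
      ((P'.map (evy z₀ p.1)).eval p.2 = 0 → (r'.map (evy z₀ p.1)).eval p.2 = 0 → A p = 0) := by
    obtain ⟨Q, hQ, hQq⟩ := exists_gm q
    obtain ⟨V, hV, hVu⟩ := exists_gm (u : OO ((z₀, (0 : ℂ)) : (ℂ × ℂ) × ℂ))
    obtain ⟨a1, e1⟩ := ev_toO P'
    obtain ⟨a2, e2⟩ := ev_toO r'
    have h1 := hGr
    rw [← hr', e2, ← hP', e1, ← hQq, gm_mul, gm_add, gm_eq_gm] at h1
    have h2 := hfP
    rw [← hP', e1, ← hVu, gm_mul, gm_eq_gm] at h2
    filter_upwards [h1, h2] with p hp hp'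
    refine ⟨fun h3 => ?_, fun h3 h4 => ?_⟩
    · rw [hp']
      simp only [Pi.mul_apply, h3, mul_zero]
    · rw [hp]
      simp only [Pi.add_apply, Pi.mul_apply, h3, h4, mul_zero, add_zero]
  have hall := hiso.and hrel
  rw [nhds_prod_eq] at hall
  obtain ⟨pa, hpa, pb, hpb, hab⟩ := Filter.eventually_prod_iff.1 hall
  obtain ⟨ρ, hρ, hρb⟩ := Metric.eventually_nhds_iff.1 hpb
  have h0 : ∀ i < d, (P'.coeff i).1 z₀ = 0 := by
    intro i hi
    have h1 := hPc i hi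
    rw [← hP', Polynomial.coeff_map] at h1
    exact h1
  filter_upwards [hpa, roots_small hPm' hPd' h0 hρ] with y hy hroots hDy
  have h1 : ∃ w, (P'.map (evy z₀ y)).IsRoot w ∧ (r'.map (evy z₀ y)).eval w = 0 := by
    by_contra hcon
    push Not at hcon
    refine det_ne_zero (p := P'.map (evy z₀ y)) (d := d) (hPm'.map _)
      (by rw [hPm'.natDegree_map, hPd']) (g := r'.map (evy z₀ y)) hcon ?_
    have h2 : (evy z₀ y).mapMatrix (mulMat P' r' d) =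
        mulMat (P'.map (evy z₀ y)) (r'.map (evy z₀ y)) d := mulMat_map _ hPm' d
    rw [← h2, ← RingHom.map_det]
    exact hDy
  obtain ⟨w, hw, hwr⟩ := h1
  have h4 := hroots w hw
  obtain ⟨h5, h6⟩ := hab hy (hρb (y := w) (by rw [dist_zero_right]; exact h4))
  exact congrArg Prod.fst (h5 (h6.1 hw) (h6.2 hw hwr))

/-- `pt` as a linear equivalence -/
def ptL : ((ℂ × ℂ) × ℂ) ≃L[ℂ] E3 :=
  LinearEquiv.toContinuousLinearEquiv
    { toFun := fun p => pt p.2 p.1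
      invFun := fun x => ((x 1, x 2), x 0)
      map_add' := fun p q => by ext i; fin_cases i <;> rfl
      map_smul' := fun c p => by ext i; fin_cases i <;> rfl
      left_inv := fun p => rfl
      right_inv := fun x => by ext i; fin_cases i <;> rfl }

lemma ptL_apply (p : (ℂ × ℂ) × ℂ) : ptL p = pt p.2 p.1 := rfl

/-- irreducibility of the hypersurface germ -/
theorem relprime {f q : E3 → ℂ} (hf : Iso f) (hq : AnalyticAt ℂ q 0)
    (hne : ∃ᶠ x in 𝓝 (0 : E3), f x = 0 ∧ q x ≠ 0) :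
    ∃ (hF : AnalyticAt ℂ (fun p : (ℂ × ℂ) × ℂ => f (pt p.2 p.1)) ((0 : ℂ × ℂ), (0 : ℂ)))
      (hQ : AnalyticAt ℂ (fun p : (ℂ × ℂ) × ℂ => q (pt p.2 p.1)) ((0 : ℂ × ℂ), (0 : ℂ))) (n : ℕ),
      Reg (gm _ hF) n ∧ IsRelPrime (gm _ hF) (gm _ hQ) := by
  have h00 : pt (0 : (ℂ × ℂ) × ℂ).2 (0 : (ℂ × ℂ) × ℂ).1 = 0 := pt_zero
  have hF : AnalyticAt ℂ (fun p : (ℂ × ℂ) × ℂ => f (pt p.2 p.1)) ((0 : ℂ × ℂ), (0 : ℂ)) :=
    AnalyticAt.comp (g := f) (f := fun p : (ℂ × ℂ) × ℂ => pt p.2 p.1) (x := (0 : (ℂ × ℂ) × ℂ))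
      (by rw [h00]; exact hf.an) (an_pt 0)
  have hQ : AnalyticAt ℂ (fun p : (ℂ × ℂ) × ℂ => q (pt p.2 p.1)) ((0 : ℂ × ℂ), (0 : ℂ)) :=
    AnalyticAt.comp (g := q) (f := fun p : (ℂ × ℂ) × ℂ => pt p.2 p.1) (x := (0 : (ℂ × ℂ) × ℂ))
      (by rw [h00]; exact hq) (an_pt 0)
  have hord : analyticOrderAt (fun z : ℂ => f (pt z (0 : ℂ × ℂ))) 0 ≠ ⊤ := by
    rw [Ne, analyticOrderAt_eq_top]
    intro h
    refine hf.reg ?_
    have h1 : ∀ᶠ z in 𝓝[≠] (0 : ℂ), f (pt z (0 : ℂ × ℂ)) = 0 := h.filter_mono nhdsWithin_le_nhds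
    filter_upwards [h1] with z hz hne
    refine hne ?_
    have h2 : (Fin.cons z 0 : Fin 3 → ℂ) = pt z 0 := by
      ext i; fin_cases i <;> rfl
    rw [h2]; exact hz
  obtain ⟨n, hn⟩ := ENat.ne_top_iff_exists.1 hord
  have hreg : Reg (gm _ hF) n := reg_iff_order.2 hn.symm
  refine ⟨hF, hQ, n, hreg, ?_⟩
  intro c hc1 hc2
  by_contra hcu
  have hF0 : gm _ hF ≠ 0 := hreg.ne_zero
  have hc0 : c ≠ 0 := by
    rintro rfl
    exact hF0 (zero_dvd_iff.1 hc1)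
  obtain ⟨π, hπi, hπd⟩ := WfDvdMonoid.exists_irreducible_factor hcu hc0
  obtain ⟨a, ha⟩ := hπd.trans hc1
  obtain ⟨b, hb⟩ := hπd.trans hc2
  have hreg2 := hreg
  rw [ha] at hreg2
  obtain ⟨m, m', hm, -, hmm⟩ := hreg2.of_mul
  obtain ⟨Sf, hS, rfl⟩ := exists_gm π
  obtain ⟨A, hA, rfl⟩ := exists_gm a
  obtain ⟨B, hB, rfl⟩ := exists_gm b
  have hS0 : Sf ((0 : ℂ × ℂ), (0 : ℂ)) = 0 := by
    by_contra hne'
    exact hπi.not_isUnit (isUnit_gm.2 hne')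
  rw [gm_mul, gm_eq_gm] at ha hb
  by_cases hA0 : A ((0 : ℂ × ℂ), (0 : ℂ)) = 0
  · -- both factors vanish on a curve of critical points
    refine no_isol3 hS hA hm hS0 hA0 ?_
    have hcrit := iso_of_colFin hf.an hf.fin
    have hc : Tendsto ptL (𝓝 (0 : (ℂ × ℂ) × ℂ)) (𝓝 (0 : E3)) :=
      ptL.continuous.tendsto' _ _ (map_zero _)
    filter_upwards [ha.eventually_nhds, hS.eventually_analyticAt, hA.eventually_analyticAt,
      hc.eventually hcrit, hc.eventually hf.an.eventually_analyticAt] with p hp h1 h2 h3 h4 h5 h6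
    by_contra hpne
    have h7 : ptL p ≠ 0 := by
      intro h8
      apply hpne
      have := congrArg ptL.symm h8
      rw [ContinuousLinearEquiv.symm_apply_apply, map_zero] at this
      exact this
    obtain ⟨i, hi⟩ := h3 h7
    apply hi
    -- derivative of `f ∘ ptL` at `p`
    have h8 : HasFDerivAt (fun p : (ℂ × ℂ) × ℂ => f (pt p.2 p.1)) (0 : ((ℂ × ℂ) × ℂ) →L[ℂ] ℂ) p := by
      have h9 : HasFDerivAt (fun p => Sf p * A p)
          (Sf p • fderiv ℂ A p + A p • fderiv ℂ Sf p) p :=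
        h1.differentiableAt.hasFDerivAt.mul h2.differentiableAt.hasFDerivAt
      have e : Sf p • fderiv ℂ A p + A p • fderiv ℂ Sf p = 0 := by
        refine ContinuousLinearMap.ext fun v => ?_
        simp [h5, h6]
      rw [e] at h9
      exact h9.congr_of_eventuallyEq hp
    have h9 : HasFDerivAt (fun p : (ℂ × ℂ) × ℂ => f (pt p.2 p.1))
        ((fderiv ℂ f (ptL p)).comp (ptL : ((ℂ × ℂ) × ℂ) →L[ℂ] E3)) p :=
      h4.differentiableAt.hasFDerivAt.comp p ptL.hasFDerivAt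
    have h10 := h9.unique h8
    unfold coordDeriv
    have h11 := congrArg (fun L : ((ℂ × ℂ) × ℂ) →L[ℂ] ℂ => L (ptL.symm (Pi.single i 1))) h10
    simpa using h11
  · -- `Sf` and `f` have the same zeros
    refine hne ?_
    have hsym : Tendsto ptL.symm (𝓝 (0 : E3)) (𝓝 (0 : (ℂ × ℂ) × ℂ)) :=
      ptL.symm.continuous.tendsto' _ _ (map_zero _)
    have hev : ∀ᶠ p in 𝓝 (0 : (ℂ × ℂ) × ℂ), f (pt p.2 p.1) = 0 → q (pt p.2 p.1) = 0 := by
      filter_upwards [ha, hb, hA.continuousAt.eventually_ne hA0] with p h1 h2 h3 h4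
      rw [h1, Pi.mul_apply] at h4
      rw [h2, Pi.mul_apply, (mul_eq_zero.1 h4).resolve_right h3, zero_mul]
    filter_upwards [hsym.eventually hev] with x hx hcon
    refine hcon.2 ?_
    have h1 : pt (ptL.symm x).2 (ptL.symm x).1 = x := ptL.apply_symm_apply x
    rw [h1] at hx
    exact hx hcon.1

/-- the norm of a germ -/
theorem exists_norm {f q : E3 → ℂ} (hf : Iso f) (hq : AnalyticAt ℂ q 0)
    (hne : ∃ᶠ x in 𝓝 (0 : E3), f x = 0 ∧ q x ≠ 0) :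
    ∃ B : ℂ × ℂ → ℂ, AnalyticAt ℂ B 0 ∧ (∃ᶠ p in 𝓝 (0 : ℂ × ℂ), B p ≠ 0) ∧
      ∀ᶠ p : (ℂ × ℂ) × ℂ in 𝓝 0, f (pt p.2 p.1) = 0 → q (pt p.2 p.1) = 0 → B p.1 = 0 := by
  obtain ⟨hF, hQ, n, hreg, hrel⟩ := relprime hf hq hne
  obtain ⟨c, hc, hmem⟩ := Crest.Agent.R275.Loc2879.elim hreg hrel
  obtain ⟨B, hB, rfl⟩ := exists_gm c
  obtain ⟨a, b, hab⟩ := Ideal.mem_span_pair.1 hmem
  obtain ⟨A, hA, rfl⟩ := exists_gm a
  obtain ⟨G, hG, rfl⟩ := exists_gm b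
  refine ⟨B, hB, fun h => hc (gm_eq_zero.2 ?_), ?_⟩
  · filter_upwards [h] with p hp
    exact not_not.1 hp
  rw [iot, pull_gm, gm_mul, gm_mul, gm_add, gm_eq_gm] at hab
  filter_upwards [hab] with p hp h1 h2
  simp only [Pi.add_apply, Pi.mul_apply, h1, h2, mul_zero, add_zero, Function.comp] at hp
  exact hp.symm

/-- the norm of finitely many germs -/
theorem exists_normF {f : E3 → ℂ} (hf : Iso f) {n : ℕ} (q : Fin n → E3 → ℂ)
    (hq : ∀ l, AnalyticAt ℂ (q l) 0) (hne : ∀ l, ∃ᶠ x in 𝓝 (0 : E3), f x = 0 ∧ q l x ≠ 0) :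
    ∃ B : ℂ × ℂ → ℂ, AnalyticAt ℂ B 0 ∧ (∃ᶠ p in 𝓝 (0 : ℂ × ℂ), B p ≠ 0) ∧
      ∀ᶠ p : (ℂ × ℂ) × ℂ in 𝓝 0, f (pt p.2 p.1) = 0 → ∀ l, q l (pt p.2 p.1) = 0 → B p.1 = 0 := by
  choose B hB hBne hBz using fun l => exists_norm hf (hq l) (hne l)
  refine ⟨fun p => ∏ l, B l p, ?_, ?_, ?_⟩
  · exact Finset.analyticAt_fun_prod _ fun l _ => hB l
  · intro hcon
    obtain ⟨l, -, hl⟩ := Crest.Agent.R257.Frm_547.prod_ev Finset.univ (g := B) (p := 0)
      (fun l _ => hB l) (by filter_upwards [hcon] with p hp; exact not_not.1 hp)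
    exact hBne l (by filter_upwards [hl] with p hp; exact not_not.2 hp)
  · filter_upwards [Filter.eventually_all.2 hBz] with p hp h1 l h2
    exact Finset.prod_eq_zero (Finset.mem_univ l) (hp l h1 h2)

end Crest.Agent.R257.TB3_554
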