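import Crest.Agent.R257.TB3_554
import Crest.Agent.R257.OrdT1_578

/-!
Row 257 (S0395), part C (helper554): germs in the charts of the T-frame are monomials times units.

* `small_roots`  : the roots of `T.P q` tend to `0` as `q → 0`;
* `chart_gen`    : in a small chart the generic points avoid all branches;
* `th_small`     : small charts are mapped to a given neighbourhood of the origin of `ℂ³`;
* `mono_of`      : monomiality in the chart of `q` with a norm `B` which does not vanish off the branches;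
* `exists_TBQ`   : `T : TB f` (with `GalPt T`, `L ∣ N₀`) such that finitely many given germs are monomials
                   times units in all small charts.
-/

set_option autoImplicit false
set_option linter.unusedSectionVars false

open Polynomial Set Filter Topology Metric
open Crest.AlgGeometry.Germ Crest.Agent.R257.AJ387 Crest.Agent.R257.Sh_297
open Crest.Agent.R257.Defs_219 Crest.Agent.R257.T387 Crest.Agent.R257.T0_939
open Crest.Agent.R257.TB2_554 Crest.Agent.R257.TB3_554 Crest.Agent.R257.OrdT_578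

noncomputable section

namespace Crest.Agent.R257.TB4_554

variable {f : E3 → ℂ} (T : TB f)

/-- the roots are small -/
theorem small_roots {ε : ℝ} (hε : 0 < ε) :
    ∀ᶠ q in 𝓝 (0 : ℂ × ℂ), ∀ z, (T.P q).eval z = 0 → ‖z‖ < ε := by
  have h0 : (0 : ℂ × ℂ) ∈ BD T.R T.R := ⟨by simpa using T.R_pos, by simpa using T.R_pos⟩
  have h1 : ∀ᶠ q in 𝓝 (0 : ℂ × ℂ), ∀ j ∈ Finset.range T.d,
      ‖(T.P q).coeff j‖ < ε ^ (T.d - j) / (T.d + 1) := by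
    refine (Finset.eventually_all _).2 fun j hj => ?_
    have h2 := (T.coeff_an j 0 h0).continuousAt.norm.tendsto
    refine h2.eventually (gt_mem_nhds ?_)
    rw [T.P_zero, coeff_X_pow, if_neg (Finset.mem_range.1 hj).ne, norm_zero]
    positivity
  have h3 : ∀ᶠ q in 𝓝 (0 : ℂ × ℂ), q ∈ BD T.R T.R := TB.BD_nhds T.R_pos
  filter_upwards [h1, h3] with q hq hqR z hz
  have hdeg := T.deg q hqR
  refine root_bound (w := fun j (q : ℂ × ℂ) => (T.P q).coeff j) (d := T.d) (y := q) ?_ hε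
    (fun j hj => hq j (Finset.mem_range.2 hj)) ?_
  · have := (T.monic q hqR).coeff_natDegree
    rwa [hdeg] at this
  · unfold Wf
    rw [← hz, eval_eq_sum_range, hdeg]

variable {T}

lemma map_zero' {c : Ch T.m} (hc : T.Valid c) : T.map c (0, 0) = 0 := by
  rcases c with ⟨i, k, k'⟩ | i | ⟨i, k, w₀⟩
  · exact map_edge2 (T.lev_pos hc.2.1) 0
  · exact map_leg i 0
  · exact map_vert (T.lev_pos hc.1) w₀ 0

/-- in a small chart the generic points avoid all branches -/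
theorem chart_gen {c : Ch T.m} (hc : T.Valid c) : ∃ r₀ > 0, ∀ p ∈ BD r₀ r₀,
    (T.map c p).1 ^ T.M ∈ ball (0 : ℂ) T.ρ ∧ (T.map c p).2 ∈ ball (0 : ℂ) T.R ∧
      (T.Gen c p → ∀ j, (T.map c p).2 ≠ T.φ j ((T.map c p).1 ^ T.M)) := by
  obtain ⟨r, hr, hr1, hmem, U, hUa, hUn, hU⟩ := T.exists_r hc
  have hM := T.M_pos
  have hpow : ∀ a : ℂ, ‖a‖ < r → ‖a ^ T.M‖ < r := fun a ha => by
    rw [norm_pow]
    exact (pow_le_of_le_one (norm_nonneg _) (ha.le.trans hr1) hM.ne').trans_lt ha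
  have hk : ∀ p ∈ BD r r, T.kap c p ∈ BD r r := by
    intro p hp
    rcases c with ⟨i, k, k'⟩ | i | ⟨i, k, w₀⟩
    · exact ⟨hpow _ hp.1, hpow _ hp.2⟩
    · exact ⟨hpow _ hp.1, hpow _ hp.2⟩
    · exact ⟨hpow _ hp.1, hp.2⟩
  refine ⟨r, hr, fun p hp => ?_⟩
  have h1 := hmem _ (hk p hp)
  rw [T.map_fst_pow, T.map_snd]
  refine ⟨h1.1, h1.2, fun hg j hj => ?_⟩
  have h2 := hU j _ (hk p hp)
  rw [← hj, sub_self] at h2
  exact mul_ne_zero (T.mono_ne ((T.gen_iff c p).1 hg) j) (hUn j _ (hk p hp)) h2.symm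

/-- small charts are mapped to a given neighbourhood of the origin -/
theorem base_small {c : Ch T.m} (hc : T.Valid c) {S : Set (ℂ × ℂ)} (hS : S ∈ 𝓝 (0 : ℂ × ℂ)) :
    ∃ r₀ > 0, ∀ p ∈ BD r₀ r₀, (((T.map c p).1 ^ T.N, (T.map c p).2) : ℂ × ℂ) ∈ S := by
  have h0 := map_zero' hc
  have h1 : AnalyticAt ℂ (T.map c) (0, 0) := map_an (by
    rw [h0, Prod.fst_zero, norm_zero, zero_pow T.M_pos.ne']; exact T.ρ_pos)
  have h2 : Tendsto (fun p => (((T.map c p).1 ^ T.N, (T.map c p).2) : ℂ × ℂ)) (𝓝 (0, 0))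
      (𝓝 (0 : ℂ × ℂ)) := by
    have h3 : Tendsto (T.map c) (𝓝 (0, 0)) (𝓝 (0 : ℂ × ℂ)) := by
      have := h1.continuousAt.tendsto
      rwa [h0] at this
    have h4 : Tendsto (fun q : ℂ × ℂ => ((q.1 ^ T.N, q.2) : ℂ × ℂ)) (𝓝 0) (𝓝 (0 : ℂ × ℂ)) :=
      (by fun_prop : Continuous fun q : ℂ × ℂ => ((q.1 ^ T.N, q.2) : ℂ × ℂ)).tendsto' _ _
        (by ext <;> simp [T.N_pos.ne'])
    exact h4.comp h3
  obtain ⟨r, hr, h⟩ := TB.exists_BD (h2 hS)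
  exact ⟨r, hr, fun p hp => h hp⟩

/-- the points `(x₁, x₂, z)` of the sheets of a small chart -/
theorem th_small {c : Ch T.m} (hc : T.Valid c) {S : Set ((ℂ × ℂ) × ℂ)}
    (hS : S ∈ 𝓝 (0 : (ℂ × ℂ) × ℂ)) :
    ∃ r₀ > 0, ∀ r, r ≤ r₀ → ∀ ζ, T.Sheets c r ζ → ∀ j, ∀ p ∈ BD r r,
      ((T.base (T.map c p), ζ j p) : (ℂ × ℂ) × ℂ) ∈ S := by
  have h00 : (0 : (ℂ × ℂ) × ℂ) = ((0 : ℂ × ℂ), (0 : ℂ)) := rfl
  rw [h00, nhds_prod_eq] at hS
  obtain ⟨pa, hpa, pb, hpb, hab⟩ := Filter.mem_prod_iff.1 hS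
  obtain ⟨ε, hε, hεb⟩ := Metric.mem_nhds_iff.1 hpb
  have hA : Tendsto T.A (𝓝 0) (𝓝 0) := T.A.continuous.tendsto' _ _ (map_zero _)
  obtain ⟨r₀, hr₀, h⟩ := base_small hc (Filter.inter_mem (hA hpa) (small_roots T hε))
  refine ⟨r₀, hr₀, fun r hr ζ hζ j p hp => ?_⟩
  obtain ⟨h1, h2⟩ := h p (TB.BD_mono hr hp)
  refine hab ⟨h1, hεb ?_⟩
  rw [mem_ball_zero_iff]
  refine h2 _ ?_
  have h3 := hζ.split p hp
  have h4 : T.P ((T.map c p).1 ^ T.N, (T.map c p).2) = ∏ j, (X - C (ζ j p)) := h3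
  rw [h4, eval_prod]
  exact Finset.prod_eq_zero (Finset.mem_univ j) (by simp)

/-- the sheets are in `{f = 0}` -/
lemma f_th {c : Ch T.m} {r : ℝ} {ζ : Fin T.d → ℂ × ℂ → ℂ} (hζ : T.Sheets c r ζ) (j : Fin T.d)
    {p : ℂ × ℂ} (hp : p ∈ BD r r) : f (T.th c (ζ j) p) = 0 := by
  have hm := hζ.mem p hp
  have hq : (((T.map c p).1 ^ T.N, (T.map c p).2) : ℂ × ℂ) ∈ BD T.R T.R := by
    refine ⟨?_, hm.1.2⟩
    show ‖(T.map c p).1 ^ T.N‖ < T.R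
    have h1 : (T.map c p).1 ^ T.M ∈ ball (0 : ℂ) T.ρ := by
      rw [mem_ball_zero_iff, norm_pow]; exact hm.2
    have h2 := T.ρ_R _ h1
    rwa [← pow_mul, mul_comm] at h2
  have h3 : (T.P ((T.map c p).1 ^ T.N, (T.map c p).2)).eval (ζ j p) = 0 := by
    have h4 : T.P ((T.map c p).1 ^ T.N, (T.map c p).2) = ∏ j, (X - C (ζ j p)) := hζ.split p hp
    rw [h4, eval_prod]
    exact Finset.prod_eq_zero (Finset.mem_univ j) (by simp)
  have h5 := T.f_eq _ hq (ζ j p) (T.roots_in _ hq _ h3).le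
  rw [h3, mul_zero] at h5
  exact h5

/-- **monomiality** -/
theorem mono_of {B : ℂ × ℂ → ℂ}
    (hBφ : ∀ s ∈ ball (0 : ℂ) T.ρ, ∀ y ∈ ball (0 : ℂ) T.R, (∀ i, y ≠ T.φ i s) →
      B (T.A (s ^ T.N₀, y)) ≠ 0)
    {q : E3 → ℂ} (hq : AnalyticAt ℂ q 0)
    (hBq : ∀ᶠ p : (ℂ × ℂ) × ℂ in 𝓝 0, f (pt p.2 p.1) = 0 → q (pt p.2 p.1) = 0 → B p.1 = 0)
    {c : Ch T.m} (hc : T.Valid c) :
    ∃ r₀ > 0, ∀ r > 0, r ≤ r₀ → ∀ ζ, T.Sheets c r ζ → ∀ j, ∃ (a b : ℕ) (w : ℂ × ℂ → ℂ),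
      AnalyticOnNhd ℂ w (BD r r) ∧ (∀ p ∈ BD r r, w p ≠ 0) ∧
      (∀ p ∈ BD r r, q (T.th c (ζ j) p) = p.1 ^ a * p.2 ^ b * w p) ∧
      ((∃ i k w₀, c = .vert i k w₀) → b = 0) := by
  have hpt : Tendsto (fun p : (ℂ × ℂ) × ℂ => pt p.2 p.1) (𝓝 0) (𝓝 0) := by
    have := (an_pt 0).continuousAt.tendsto
    have h00 : pt (0 : (ℂ × ℂ) × ℂ).2 (0 : (ℂ × ℂ) × ℂ).1 = 0 := T0_939.pt_zero
    rwa [h00] at this
  obtain ⟨r₁, hr₁, h1⟩ := th_small hc (hBq.and (hpt.eventually hq.eventually_analyticAt))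
  obtain ⟨r₂, hr₂, h2⟩ := chart_gen hc
  refine ⟨min r₁ r₂, lt_min hr₁ hr₂, fun r hr hrle ζ hζ j => ?_⟩
  have hr1 : r ≤ r₁ := hrle.trans (min_le_left _ _)
  have hr2 : r ≤ r₂ := hrle.trans (min_le_right _ _)
  have hga : AnalyticOnNhd ℂ (fun p => q (T.th c (ζ j) p)) (BD r r) := by
    intro p hp
    exact AnalyticAt.comp (g := q) (f := T.th c (ζ j)) (h1 r hr1 ζ hζ j p hp).2
      (th_an (hζ.an j p hp) (hζ.mem p hp).2)
  have hgn : ∀ p ∈ BD r r, T.Gen c p → q (T.th c (ζ j) p) ≠ 0 := by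
    intro p hp hg h0
    obtain ⟨h3, h4, h5⟩ := h2 p (TB.BD_mono hr2 hp)
    have h6 := (h1 r hr1 ζ hζ j p hp).1 (f_th hζ j hp) h0
    refine hBφ _ h3 _ h4 (h5 hg) ?_
    rw [← pow_mul, mul_comm T.M]
    exact h6
  have hgen : ∀ p : ℂ × ℂ, p.1 ≠ 0 → p.2 ≠ 0 → T.Gen c p := by
    intro p hp1 hp2
    rcases c with ⟨i, k, k'⟩ | i | ⟨i, k, w₀⟩
    · exact ⟨hp1, hp2⟩
    · exact ⟨hp1, hp2⟩
    · exact hp1
  obtain ⟨a, b, w, hw1, hw2, hw3⟩ := mono_bd hr hga fun p hp hp1 hp2 => hgn p hp (hgen p hp1 hp2)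
  refine ⟨a, b, w, hw1, hw2, hw3, ?_⟩
  rintro ⟨i, k, w₀, rfl⟩
  by_contra hb
  have hp : (((r / 2 : ℝ) : ℂ), (0 : ℂ)) ∈ BD r r := by
    refine ⟨?_, by simpa using hr⟩
    rw [Complex.norm_real, Real.norm_eq_abs, abs_of_pos (by positivity)]
    linarith
  have h7 : (((r / 2 : ℝ) : ℂ)) ≠ 0 := by
    rw [Ne, Complex.ofReal_eq_zero]; positivity
  refine hgn _ hp h7 ?_
  rw [hw3 _ hp]
  simp [hb]

/-- **the second frame**: finitely many germs are monomials times units in all small charts -/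
theorem exists_TBQ {f : E3 → ℂ} (hf : Iso f) {n : ℕ} (q : Fin n → E3 → ℂ)
    (hq : ∀ l, AnalyticAt ℂ (q l) 0) (hne : ∀ l, ∃ᶠ x in 𝓝 (0 : E3), f x = 0 ∧ q l x ≠ 0)
    {L : ℕ} (hL : 0 < L) :
    ∃ T : TB f, GalPt T ∧ L ∣ T.N₀ ∧ ∀ c, T.Valid c →
      ∃ r₀ > 0, ∀ r > 0, r ≤ r₀ → ∀ ζ, T.Sheets c r ζ → ∀ j l, ∃ (a b : ℕ) (w : ℂ × ℂ → ℂ),
        AnalyticOnNhd ℂ w (BD r r) ∧ (∀ p ∈ BD r r, w p ≠ 0) ∧
        (∀ p ∈ BD r r, q l (T.th c (ζ j) p) = p.1 ^ a * p.2 ^ b * w p) ∧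
        ((∃ i k w₀, c = .vert i k w₀) → b = 0) := by
  obtain ⟨B, hB, hBne, hBz⟩ := exists_normF hf q hq hne
  obtain ⟨T, hgal, hLN, -, hBφ⟩ := exists_TBE hf hB hBne hL
  refine ⟨T, hgal, hLN, fun c hc => ?_⟩
  have h := fun l => mono_of (T := T) (B := B) hBφ (hq l) (c := c)
    (by filter_upwards [hBz] with p hp h1 h2 using hp h1 l h2) hc
  choose r hr hall using h
  have hmin : ∃ r₀ > 0, ∀ l, r₀ ≤ r l := by
    rcases Nat.eq_zero_or_pos n with rfl | hn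
    · exact ⟨1, one_pos, fun l => l.elim0⟩
    · have hne' : (Finset.univ : Finset (Fin n)).Nonempty := ⟨⟨0, hn⟩, Finset.mem_univ _⟩
      obtain ⟨l₀, -, h⟩ := Finset.exists_min_image Finset.univ r hne'
      exact ⟨r l₀, hr l₀, fun l => h l (Finset.mem_univ _)⟩
  obtain ⟨r₀, hr₀, hle⟩ := hmin
  exact ⟨r₀, hr₀, fun r' hr' hr'' ζ hζ j l => hall l r' hr' (hr''.trans (hle l)) ζ hζ j⟩

end Crest.Agent.R257.TB4_554
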