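import Crest.Agent.R257.Wt7_258
import Crest.Agent.R257.V1_82

/-!
# Row 257 (S0395), C-WT, leaf (F4) (helper980), second axis: transfer of the tube statement

* `trans2` : a chart near a point of its second axis is the tube chart composed with `X2 c`;
* `ev2` : statements in the tube chart are statements in the chart;
* `loc_axis2_of` : `LocS P c j (a, 0)` from `TubeOut` and the strict positivity (`strict2` of (V2)).
-/

set_option autoImplicit false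
set_option linter.unusedSectionVars false
set_option linter.unusedVariables false

open Polynomial Set Filter Topology Metric
open Crest.AlgGeometry.Germ Crest.Agent.R257.AJ387 Crest.Agent.R257.T387
open Crest.Agent.R257.Gr1_157 Crest.Agent.R257.HoB_843 Crest.Agent.R257.BP_258
open Crest.Agent.R257.Frm_547 Crest.Agent.R257.Lab_931 Crest.Agent.R257.Wt_258
open Crest.Agent.R257.V1_82 Crest.Agent.R257.End_636

noncomputable section

namespace Crest.Agent.R257.Ta2_980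

variable {f : (Fin 3 → ℂ) → ℂ} {T : TB f} {U : Tub T} {S : Sh T}

/-- the tube coordinates of the second axis -/
def X2 (c : Ch T.m) (p : ℂ × ℂ) : ℂ × ℂ := ((T.map c p).1, W2 c p)

theorem X2_an {c : Ch T.m} (hc : Ok S c) {v : Vtx} (hv : v2 T c = some v) {a : ℂ} (h0 : a ≠ 0) :
    AnalyticAt ℂ (X2 c) (a, (0 : ℂ)) := by
  cases c with
  | edge i k k' =>
    have h1 : AnalyticAt ℂ (fun p : ℂ × ℂ => p.1 * p.2) (a, (0 : ℂ)) :=
      analyticAt_fst.mul analyticAt_snd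
    have h2 : AnalyticAt ℂ (fun p : ℂ × ℂ => ((p.1 * p.2, (0 : ℂ)) : ℂ × ℂ)) (a, (0 : ℂ)) :=
      h1.prod analyticAt_const
    have h3 : AnalyticAt ℂ (fun p : ℂ × ℂ => hk (T.φ i) k' ((p.1 * p.2) ^ T.M)) (a, (0 : ℂ)) := by
      refine AnalyticAt.comp (g := fun q : ℂ × ℂ => hk (T.φ i) k' (q.1 ^ T.M))
        (f := fun p : ℂ × ℂ => ((p.1 * p.2, (0 : ℂ)) : ℂ × ℂ)) ?_ h2
      show AnalyticAt ℂ _ ((a * 0, (0 : ℂ)) : ℂ × ℂ)
      rw [mul_zero]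
      exact hk_an i k' 0
    have h4 : AnalyticAt ℂ (fun p : ℂ × ℂ => (p.1 ^ (T.M * (k' - k)))⁻¹) (a, (0 : ℂ)) :=
      (analyticAt_fst.pow _).inv (pow_ne_zero _ h0)
    exact h1.prod (h3.add h4)
  | leg i => simp [v2] at hv
  | vert i k w₀ => simp [v2] at hv

theorem X2_axis {c : Ch T.m} (hc : Ok S c) {v : Vtx} (hv : v2 T c = some v) (a : ℂ) :
    X2 c (a, 0) = (0, (a ^ lx T c)⁻¹) := by
  unfold X2
  rw [W2_axis hc hv, map1_E (isV_v2 hv), mul_zero]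

lemma gen_open {c : Ch T.m} {p : ℂ × ℂ} (h : T.Gen c p) : ∀ᶠ q in 𝓝 p, T.Gen c q := by
  have h1 : p.1 ≠ 0 := gen_fst h
  have e1 : ∀ᶠ q : ℂ × ℂ in 𝓝 p, q.1 ≠ 0 := continuous_fst.continuousAt.eventually_ne h1
  cases c with
  | edge i k k' =>
    have e2 : ∀ᶠ q : ℂ × ℂ in 𝓝 p, q.2 ≠ 0 := continuous_snd.continuousAt.eventually_ne h.2
    filter_upwards [e1, e2] with q a b using ⟨a, b⟩
  | leg i =>
    have e2 : ∀ᶠ q : ℂ × ℂ in 𝓝 p, q.2 ≠ 0 := continuous_snd.continuousAt.eventually_ne h.2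
    filter_upwards [e1, e2] with q a b using ⟨a, b⟩
  | vert i k w₀ => exact e1

/-- **transfer** -/
theorem trans2 (hR : RetStmt U) {c : Ch T.m} (hc : Ok S c) {v : Vtx} (hv : v2 T c = some v)
    {γ : Fin T.d → ℂ → XV U v} (hγ : End2 U S c v γ) {a : ℂ} (ha : ‖a‖ ≤ S.r c) (h0 : a ≠ 0)
    (j : Fin T.d) (D : TC U v (γ j a)) :
    ∀ᶠ p in 𝓝 (a, (0 : ℂ)), T.Gen c p → wc S c j p = D.X (X2 c p) := by
  have hr := S.pos c
  have haP : a ∈ PDc S c := ⟨norm_pos_iff.2 h0, by linarith⟩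
  obtain ⟨l1, l2⟩ := hγ.lim j a haP
  have h := D.ident hR (l := 𝓝[{p : ℂ × ℂ | p.2 ≠ 0}] (a, (0 : ℂ))) (X := wc S c j)
    (by rw [eventually_nhdsWithin_iff]; exact l1)
    (fun O hO => by rw [eventually_nhdsWithin_iff]; exact l2 O hO)
  rw [eventually_nhdsWithin_iff] at h
  filter_upwards [h] with p hp hg
  have h1 := (hp (gen_snd_E (isV_v2 hv) hg)).1
  have h2 : wv T v (wc S c j p 1, wc S c j p 2) = W2 c p := W2_eq hc.1 hv hg
  rw [h2] at h1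
  exact h1

/-- statements in the tube chart are statements in the chart -/
theorem ev2 {c : Ch T.m} (hc : Ok S c) {v : Vtx} (hv : v2 T c = some v) {a : ℂ} (h0 : a ≠ 0)
    {q₀ : XV U v} (hq : pV U v q₀ = (a ^ lx T c)⁻¹) (D : TC U v q₀) {A : ℂ × ℂ → Prop}
    (h : ∀ᶠ q in D.Fl, A q) : ∀ᶠ p in 𝓝 (a, (0 : ℂ)), T.Gen c p → A (X2 c p) := by
  unfold TC.Fl at h
  rw [eventually_nhdsWithin_iff] at h
  have h1 : Tendsto (X2 c) (𝓝 (a, (0 : ℂ))) (𝓝 ((0 : ℂ), pV U v q₀)) := by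
    have h2 := (X2_an (S := S) hc hv h0).continuousAt.tendsto
    rwa [X2_axis hc hv, ← hq] at h2
  filter_upwards [h1.eventually h] with p hp hg
  refine hp ?_
  show (T.map c p).1 ≠ 0
  rw [map1_E (isV_v2 hv)]
  exact mul_ne_zero (gen_fst hg) (gen_snd_E (isV_v2 hv) hg)

variable {L : Lab U S} {y : II U → ℝ} {F : Finset (Ch T.m)} {K : DKill S F}
variable [Fintype (II U)] {τ₀ τ₁ : ℝ} (P : WPar L y K τ₀ τ₁)

variable (S) in
/-- the statement of `strict2` (V2) -/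
def Strict2 : Prop := ∀ {c : Ch T.m} (_ : Ok S c) {v : Vtx} (_ : v2 T c = some v) {a₀ : ℂ}
    (_ : ‖a₀‖ ≤ S.r c) (_ : a₀ ≠ 0) {H : ℂ → ℝ}
    (_ : ContDiffAt ℝ (⊤ : ℕ∞) H (a₀ ^ lx T c)⁻¹) (_ : 0 < lvE H (a₀ ^ lx T c)⁻¹ 1) (Y : ℝ),
    ∃ c₀ > 0, ∀ᶠ p in 𝓝 (a₀, (0 : ℂ)), T.Gen c p → ∀ w, c₀ * (‖w.1‖ ^ 2 + ‖w.2‖ ^ 2) ≤
      lvE (fun p => Y * Real.log (‖(T.map c p).1‖ ^ 2) + H (W2 c p) + ‖(T.map c p).1‖ ^ 2) p w

lemma Ψ_wc (c : Ch T.m) (j : Fin T.d) :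
    P.Ψ ∘ wc S c j = fun p => (P.Φ ∘ wc S c j) p + ‖(T.map c p).1‖ ^ 2 := rfl

/-- **the second axis** -/
theorem loc_axis2_of (h2s : Strict2 S) (hR : RetStmt U) (hτ : 0 < τ₀) (hu : Unk K τ₁)
    {c : Ch T.m} (hc : c ∈ F) (j : Fin T.d) {v : Vtx} (hv : v2 T c = some v) {a : ℂ}
    (ha : ‖a‖ ≤ S.r c) (h0 : a ≠ 0)
    (hT : ∀ {v : Vtx} {q₀ : XV U v} (D : TC U v q₀), TubeOut P D) : LocS P c j (a, 0) := by
  have hok := P.hF c hc
  have hvV : v ∈ Vs T := v2_mem hok.1 hv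
  have hE : IsE c := isV_v2 hv
  have hnV : ¬ IsV c := by
    intro h
    cases c with
    | edge i k k' => exact h
    | leg i => exact h
    | vert i k w => simp [v2] at hv
  obtain ⟨hE2, hlab⟩ := P.end2 c hok ⟨v, hvV⟩ hv
  have hr := S.pos c
  have haP : a ∈ PDc S c := ⟨norm_pos_iff.2 h0, by linarith⟩
  have han : 0 < ‖a‖ := norm_pos_iff.2 h0
  set q₀ := P.γ2 c v hvV j a with hq₀
  obtain ⟨D⟩ := exists_TC hR hvV q₀
  have hTO := hT D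
  have hpr : pV U v q₀ = (a ^ lx T c)⁻¹ := hE2.pr j a haP
  have hl2 : L.e2 c j = some (lab U ⟨v, D.hv⟩ q₀) := hlab j a haP
  have hY2 : yo y (L.e2 c j) = y (lab U ⟨v, D.hv⟩ q₀) := by rw [hl2]; rfl
  set Y2 := y (lab U ⟨v, D.hv⟩ q₀) with hY2d
  set Y1 := yo y (L.e1 c j) with hY1d
  -- transfer
  have htr := trans2 hR hok hv hE2 ha h0 j D
  have htr2 := eventually_eventually_nhds.2 htr
  have hXan := (X2_an (S := S) hok hv h0).eventually_analyticAt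
  have heq : ∀ᶠ p in 𝓝 (a, (0 : ℂ)), T.Gen c p →
      P.Φ ∘ wc S c j =ᶠ[𝓝 p] (P.Φ ∘ D.X) ∘ X2 c := by
    filter_upwards [htr2] with p hp hg
    filter_upwards [hp, gen_open hg] with p' h1 h2
    simp only [Function.comp_apply]
    rw [h1 h2]
  have hsan : ∀ᶠ p in 𝓝 (a, (0 : ℂ)), ContDiffAt ℂ (⊤ : ℕ∞) (fun p => (T.map c p).1) p := by
    refine Eventually.of_forall fun p => ?_
    have : (fun p : ℂ × ℂ => (T.map c p).1) = fun p => p.1 * p.2 := by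
      funext p; exact map1_E hE p
    rw [this]
    exact contDiffAt_fst.mul contDiffAt_snd
  have two : (2 : WithTop ℕ∞) ≤ ((⊤ : ℕ∞) : WithTop ℕ∞) := by norm_cast
  have hsm := ev2 (S := S) hok hv h0 hpr D hTO.sm
  -- smoothness and plurisubharmonicity
  have hA : ∀ᶠ p in 𝓝 (a, (0 : ℂ)), T.Gen c p →
      ContDiffAt ℝ (⊤ : ℕ∞) (P.Ψ ∘ wc S c j) p ∧ ∀ w, 0 ≤ lvE (P.Ψ ∘ wc S c j) p w := by
    filter_upwards [heq, hXan, hsm, hsan] with p e1 e2 e3 e4 hg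
    obtain ⟨s1, s2⟩ := e3 hg
    have c1 : ContDiffAt ℂ (⊤ : ℕ∞) (X2 c) p := e2.contDiffAt
    have c2 : ContDiffAt ℝ (⊤ : ℕ∞) ((P.Φ ∘ D.X) ∘ X2 c) p :=
      s1.comp p (c1.restrict_scalars ℝ)
    have c3 : ContDiffAt ℝ (⊤ : ℕ∞) (P.Φ ∘ wc S c j) p := c2.congr_of_eventuallyEq (e1 hg)
    have c4 : ContDiffAt ℝ (⊤ : ℕ∞) (fun p => ‖(T.map c p).1‖ ^ 2) p :=
      (contDiff_norm_sq ℝ).contDiffAt.comp p (e4.restrict_scalars ℝ)
    rw [Ψ_wc]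
    refine ⟨c3.add c4, fun w => ?_⟩
    rw [lvE_add (c3.of_le two) (c4.of_le two), lvE_congr (e1 hg),
      lvE_comp (c1.of_le two) (s1.of_le two), lvE_normSq (e4.of_le two)]
    exact add_nonneg (s2 _) (by positivity)
  -- logarithms
  have hlog : ∀ᶠ p : ℂ × ℂ in 𝓝 (a, (0 : ℂ)), |Real.log (‖p.1‖ ^ 2)| ≤
      |Real.log (‖a‖ ^ 2)| + 1 := by
    have h1 : Tendsto (fun p : ℂ × ℂ => |Real.log (‖p.1‖ ^ 2)|) (𝓝 (a, (0 : ℂ)))
        (𝓝 |Real.log (‖a‖ ^ 2)|) :=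
      (tend_log h0 (continuous_fst.tendsto ((a, (0 : ℂ)) : ℂ × ℂ))).abs
    exact (h1.eventually (gt_mem_nhds (lt_add_one _))).mono fun p hp => hp.le
  set A := |Real.log (‖a‖ ^ 2)| + 1 with hAd
  have hA0 : 0 ≤ A := by positivity
  have hs1 : ∀ᶠ p in 𝓝 (a, (0 : ℂ)), ‖(T.map c p).1‖ ^ 2 ≤ 1 := by
    have h1 : Tendsto (fun p : ℂ × ℂ => ‖(T.map c p).1‖ ^ 2) (𝓝 (a, (0 : ℂ))) (𝓝 0) := by
      have h2 : Tendsto (fun p : ℂ × ℂ => ‖p.1 * p.2‖ ^ 2) (𝓝 (a, (0 : ℂ))) (𝓝 0) := by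
        have h3 : Continuous fun p : ℂ × ℂ => ‖p.1 * p.2‖ ^ 2 := by fun_prop
        have := h3.tendsto (a, (0 : ℂ))
        simpa using this
      refine h2.congr fun p => ?_
      rw [map1_E hE]
    exact (h1.eventually (gt_mem_nhds one_pos)).mono fun p hp => hp.le
  have hlogs : ∀ᶠ p in 𝓝 (a, (0 : ℂ)), T.Gen c p → Real.log (‖(X2 c p).1‖ ^ 2) =
      Real.log (‖p.1‖ ^ 2) + Real.log (‖p.2‖ ^ 2) := by
    refine Eventually.of_forall fun p hg => ?_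
    show Real.log (‖(T.map c p).1‖ ^ 2) = _
    rw [map1_E hE, log_mul_sq (gen_fst hg) (gen_snd_E hE hg)]
  obtain ⟨C1, hub⟩ := hTO.ub
  have hub2 := ev2 (S := S) hok hv h0 hpr D hub
  have hB1 : ∀ᶠ p in 𝓝 (a, (0 : ℂ)), T.Gen c p → P.Ψ (wc S c j p) ≤
      Y1 * Real.log (‖p.1‖ ^ 2) + Y2 * Real.log (‖p.2‖ ^ 2) + ((|Y1| + |Y2|) * A + |C1| + 1) := by
    filter_upwards [htr, hub2, hlog, hs1, hlogs] with p e1 e2 e3 e4 e5 hg
    have e6 : P.Ψ (wc S c j p) = P.Φ (wc S c j p) + ‖(T.map c p).1‖ ^ 2 := rfl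
    rw [e6, e1 hg]
    have e7 := e2 hg
    rw [e5 hg] at e7
    have e8 : |Y1 * Real.log (‖p.1‖ ^ 2)| ≤ |Y1| * A := by
      rw [abs_mul]; exact mul_le_mul_of_nonneg_left e3 (abs_nonneg _)
    have e9 : |Y2 * Real.log (‖p.1‖ ^ 2)| ≤ |Y2| * A := by
      rw [abs_mul]; exact mul_le_mul_of_nonneg_left e3 (abs_nonneg _)
    have e10 := abs_le.1 e8
    have e11 := abs_le.1 e9
    have e12 := le_abs_self C1
    linarith [e10.1, e11.2]
  -- lower bound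
  have hB2 : q₀ ∉ Kd P v → ∃ C2 : ℝ, 0 ≤ C2 ∧ ∀ᶠ p in 𝓝 (a, (0 : ℂ)), T.Gen c p →
      Y1 * Real.log (‖p.1‖ ^ 2) + Y2 * Real.log (‖p.2‖ ^ 2) - C2 ≤ P.Ψ (wc S c j p) := by
    intro hk
    obtain ⟨C2, hlb⟩ := hTO.lb hk
    have hlb2 := ev2 (S := S) hok hv h0 hpr D hlb
    refine ⟨(|Y1| + |Y2|) * A + |C2|, by positivity, ?_⟩
    filter_upwards [htr, hlb2, hlog, hlogs] with p e1 e2 e3 e5 hg
    have e6 : P.Ψ (wc S c j p) = P.Φ (wc S c j p) + ‖(T.map c p).1‖ ^ 2 := rfl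
    have e4 : 0 ≤ ‖(T.map c p).1‖ ^ 2 := by positivity
    rw [e6, e1 hg]
    have e7 := e2 hg
    rw [e5 hg] at e7
    have e8 : |Y1 * Real.log (‖p.1‖ ^ 2)| ≤ |Y1| * A := by
      rw [abs_mul]; exact mul_le_mul_of_nonneg_left e3 (abs_nonneg _)
    have e9 : |Y2 * Real.log (‖p.1‖ ^ 2)| ≤ |Y2| * A := by
      rw [abs_mul]; exact mul_le_mul_of_nonneg_left e3 (abs_nonneg _)
    have e10 := abs_le.1 e8
    have e11 := abs_le.1 e9
    have e12 := le_abs_self C2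
    linarith [e10.2, e11.1]
  have hKe : K.κ = ∅ → q₀ ∉ Kd P v := by
    rintro hK ⟨c', j', h1, -⟩
    rw [hK] at h1
    exact h1
  have hKk : (c, j) ∈ K.κ → ‖a‖ ≤ τ₁ → q₀ ∉ Kd P v := by
    rintro hk h1 ⟨c', j', k1, k2, k3, k4⟩
    have hok' := P.hF c' (K.mem _ k1)
    have k5 := (P.end1 c' hok' ⟨v, hvV⟩ k3).1.pr j' 0
      ⟨Or.inl k2, by rw [norm_zero]; have := S.pos c'; linarith⟩
    rw [← k4, hpr] at k5
    have hl : lx T c' = 1 := by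
      cases c' with
      | edge i k k' => exact absurd k2 (by simp [IsV])
      | leg i => exact absurd k2 (by simp [IsV])
      | vert i k w => rfl
    rw [hl, pow_one, add_zero] at k5
    exact hu.unk2 c j hk v hv a h0 h1 c' j' k1 k2 k3 k5
  -- the logarithm at a kill
  have hlogk : (c, j) ∈ K.κ → ∀ᶠ p : ℂ × ℂ in 𝓝 (a, (0 : ℂ)),
      |K.t (c, j) * Real.log (‖p.1‖ ^ (2 * K.b (c, j)) + ‖p.2‖ ^ (2 * K.a (c, j)))| ≤
      |K.t (c, j) * Real.log (‖a‖ ^ (2 * K.b (c, j)) + ‖(0 : ℂ)‖ ^ (2 * K.a (c, j)))| + 1 := by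
    intro hk
    have c1 : ContinuousAt (fun p : ℂ × ℂ => |K.t (c, j) *
        Real.log (‖p.1‖ ^ (2 * K.b (c, j)) + ‖p.2‖ ^ (2 * K.a (c, j)))|) (a, (0 : ℂ)) := by
      refine (continuousAt_const.mul (ContinuousAt.log (by fun_prop) ?_)).abs
      show ‖a‖ ^ (2 * K.b (c, j)) + ‖(0 : ℂ)‖ ^ (2 * K.a (c, j)) ≠ 0
      have : 0 ≤ ‖(0 : ℂ)‖ ^ (2 * K.a (c, j)) := by positivity
      positivity
    exact (c1.tendsto.eventually (gt_mem_nhds (lt_add_one _))).mono fun p hp => hp.le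
  -- the kill clause
  have hkil : ∃ C3 : ℝ, ∀ᶠ p in 𝓝 (a, (0 : ℂ)), T.Gen c p → (c, j) ∈ K.κ → ‖p.1‖ < τ₁ →
      |P.Ψ (wc S c j p) - Y1 * Real.log (‖p.1‖ ^ 2) - Y2 * Real.log (‖p.2‖ ^ 2) -
      K.t (c, j) * Real.log (‖p.1‖ ^ (2 * K.b (c, j)) + ‖p.2‖ ^ (2 * K.a (c, j)))| ≤ C3 := by
    by_cases hk : (c, j) ∈ K.κ
    · by_cases h1 : ‖a‖ ≤ τ₁
      · obtain ⟨C2, hC2, hB2'⟩ := hB2 (hKk hk h1)
        refine ⟨((|Y1| + |Y2|) * A + |C1| + 1) + C2 +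
          (|K.t (c, j) * Real.log (‖a‖ ^ (2 * K.b (c, j)) + ‖(0 : ℂ)‖ ^ (2 * K.a (c, j)))| + 1), ?_⟩
        filter_upwards [hB1, hB2', hlogk hk] with p e1 e2 e3 hg _ _
        have e4 := e1 hg
        have e5 := e2 hg
        have e6 := abs_le.1 e3
        have e7 : 0 ≤ (|Y1| + |Y2|) * A + |C1| + 1 := by positivity
        rw [abs_le]
        constructor
        · linarith [e6.2]
        · linarith [e6.1]
      · refine ⟨0, ?_⟩
        have h2 : ∀ᶠ p : ℂ × ℂ in 𝓝 (a, (0 : ℂ)), τ₁ < ‖p.1‖ :=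
          (continuous_fst.norm.tendsto ((a, (0 : ℂ)) : ℂ × ℂ)).eventually
            (lt_mem_nhds (not_le.1 h1))
        filter_upwards [h2] with p e1 _ _ e2
        exact absurd (e1.trans e2) (lt_irrefl _)
    · exact ⟨0, Eventually.of_forall fun p _ h => absurd h hk⟩
  -- strictness
  have hst : ∃ c₀ > 0, ∀ᶠ p in 𝓝 (a, (0 : ℂ)), T.Gen c p → τ₀ ≤ ‖p.1‖ →
      (K.κ = ∅ ∨ ((c, j) ∈ K.κ ∧ ‖p.1‖ < τ₁)) →
      ∀ w, c₀ * (‖w.1‖ ^ 2 + ‖w.2‖ ^ 2) ≤ lvE (P.Ψ ∘ wc S c j) p w := by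
    by_cases h1 : τ₀ ≤ ‖a‖
    · by_cases h2 : K.κ = ∅ ∨ ((c, j) ∈ K.κ ∧ ‖a‖ ≤ τ₁)
      · have hq : q₀ ∉ Kd P v := by
          rcases h2 with h2 | ⟨h2, h3⟩
          · exact hKe h2
          · exact hKk h2 h3
        obtain ⟨t1, t2⟩ := P.str2 c hc j v hv a ha h1 h2
        have hnat := hTO.nat (fun c' j' k1 k2 b' k3 k4 k5 => by
            have hr' := P.τ_r c' j' k1
            have hs' := S.pos c'
            have hb' : b' ∈ PDv S c' := ⟨k4.imp id norm_pos_iff.2, by linarith⟩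
            have k6 := (P.end1 c' k1.1 ⟨v, hvV⟩ k2).1.pr j' b' hb'
            rw [k5, hpr] at k6
            exact t1 c' j' k1 k2 b' k3.le k6)
          (fun c' j' k1 k2 a' k3 k4 k5 => by
            have hr' := P.τ_r c' j' k1
            have hs' := S.pos c'
            have hb' : a' ∈ PDc S c' := ⟨norm_pos_iff.2 k4, by linarith⟩
            have k6 := (P.end2 c' k1.1 ⟨v, hvV⟩ k2).1.pr j' a' hb'
            rw [k5, hpr] at k6
            exact t2 c' j' k1 k2 a' k4 k3.le k6)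
        have hnat2 := ev2 (S := S) hok hv h0 hpr D hnat
        obtain ⟨s1, s2⟩ := (hσ P D hq).self_of_nhds
        rw [hpr] at s1 s2
        obtain ⟨c₀, hc₀, hst⟩ := h2s hok hv ha h0 s1 s2 Y2
        refine ⟨c₀, hc₀, ?_⟩
        have hnat3 := eventually_eventually_nhds.2 (hnat2.and htr)
        filter_upwards [hst, hnat3] with p e1 e2 hg _ _ w
        refine (e1 hg w).trans (le_of_eq ?_)
        refine lvE_congr ?_ w
        filter_upwards [e2, gen_open hg] with p' e3 e4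
        have e5 := e3.1 e4
        have e6 := e3.2 e4
        show _ = P.Φ (wc S c j p') + ‖(T.map c p').1‖ ^ 2
        rw [e6, e5]
        rfl
      · refine ⟨1, one_pos, ?_⟩
        rw [not_or, not_and] at h2
        have h4 : ∀ᶠ p : ℂ × ℂ in 𝓝 (a, (0 : ℂ)), (c, j) ∈ K.κ → τ₁ < ‖p.1‖ := by
          by_cases hk : (c, j) ∈ K.κ
          · exact ((continuous_fst.norm.tendsto ((a, (0 : ℂ)) : ℂ × ℂ)).eventually
              (lt_mem_nhds (not_le.1 (h2.2 hk)))).mono fun p hp _ => hp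
          · exact Eventually.of_forall fun p h => absurd h hk
        filter_upwards [h4] with p e1 _ _ e2
        rcases e2 with e2 | ⟨e2, e3⟩
        · exact absurd e2 h2.1
        · exact absurd ((e1 e2).trans e3) (lt_irrefl _)
    · refine ⟨1, one_pos, ?_⟩
      have h2 : ∀ᶠ p : ℂ × ℂ in 𝓝 (a, (0 : ℂ)), ‖p.1‖ < τ₀ :=
        (continuous_fst.norm.tendsto ((a, (0 : ℂ)) : ℂ × ℂ)).eventually
          (gt_mem_nhds (not_le.1 h1))
      filter_upwards [h2] with p e1 _ e2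
      exact absurd (e1.trans_le e2) (lt_irrefl _)
  have hp2 : ∀ᶠ p : ℂ × ℂ in 𝓝 (a, (0 : ℂ)), ‖p.2‖ < τ₀ := by
    have h1 := continuous_snd.norm.tendsto ((a, (0 : ℂ)) : ℂ × ℂ)
    simp only [norm_zero] at h1
    exact h1.eventually (gt_mem_nhds hτ)
  obtain ⟨C3, hkil⟩ := hkil
  obtain ⟨c₀, hc₀, hst⟩ := hst
  have hlb : ∃ C2 : ℝ, 0 ≤ C2 ∧ ∀ᶠ p in 𝓝 (a, (0 : ℂ)), T.Gen c p → K.κ = ∅ →
      Y1 * Real.log (‖p.1‖ ^ 2) + Y2 * Real.log (‖p.2‖ ^ 2) - C2 ≤ P.Ψ (wc S c j p) := by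
    by_cases hK : K.κ = ∅
    · obtain ⟨C2, h1, h2⟩ := hB2 (hKe hK)
      exact ⟨C2, h1, h2.mono fun p hp hg _ => hp hg⟩
    · exact ⟨0, le_rfl, Eventually.of_forall fun p _ h => absurd h hK⟩
  obtain ⟨C2, hC2, hlb⟩ := hlb
  refine ⟨((|Y1| + |Y2|) * A + |C1| + 1) + C2 + |C3|, c₀, hc₀, ?_⟩
  have e7 : 0 ≤ (|Y1| + |Y2|) * A + |C1| + 1 := by positivity
  have e8 := abs_nonneg C3
  have e9 := le_abs_self C3
  filter_upwards [hA, hB1, hlb, hkil, hst, hp2] with p f1 f2 f3 f4 f5 f6 _ _ hg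
  exact {
    sm := (f1 hg).1
    psh := (f1 hg).2
    ub := by
      rw [hY2]
      have := f2 hg
      linarith
    lb := fun hK => by
      rw [hY2]
      have := f3 hg hK
      linarith
    kil := fun hk h1 _ => by
      rw [hY2]
      have := f4 hg hk h1
      linarith
    st1 := fun _ _ h => by
      rcases h with h | h
      · exact absurd h hnV
      · exact absurd (f6.trans_le h) (lt_irrefl _)
    st2 := fun hK _ h => f5 hg h (Or.inl hK)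
    ks1 := fun _ _ _ _ h => absurd (f6.trans_le h) (lt_irrefl _)
    ks2 := fun hk h1 _ _ h => f5 hg h (Or.inr ⟨hk, h1⟩) }

end Crest.Agent.R257.Ta2_980
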