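import Crest.Agent.R257.Skel3_219
import Crest.Agent.R257.CNS_939
import Crest.Agent.R257.Glob_939
import Crest.Agent.R257.Fto_889
import Crest.Agent.R257.Sh14_297
import Crest.Agent.R257.Cmp_157
import Crest.Agent.R257.NS0_554
import Crest.Agent.R257.LcTop_980
import Crest.Agent.R257.Rig6_20
import Crest.Agent.R257.Flag3D_799
import Crest.Agent.R257.Line3_648
import Crest.Agent.R257.NodeB_547
import Crest.Agent.R257.LCf_472
import Crest.Agent.R257.N2L_328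
import Crest.Agent.R257.KedM3_941
import Crest.Agent.R257.Ked4_397
import Crest.Agent.R257.LimH_37
import Crest.Agent.R257.V1Top2_822
import Crest.Agent.R257.UpK4_938
import Crest.Agent.R257.Vol_397
import Crest.Agent.R257.M3Cnt_5

/-!
R257 / Top2_219: `S0395` from the Props that are still open (kept in sync with the landings).
-/

set_option autoImplicit false

open Topology Filter MeasureTheory Set
open scoped ENNReal
open Crest.AlgGeometry.Germ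

noncomputable section

namespace Crest.Agent.R257.Top2_219

open Crest.Agent.R257.Defs_219 Crest.Agent.R257.Skel_219 Crest.Agent.R257.LCDefs_472
open Crest.Agent.R257.LCTop_472 Crest.Agent.R257.Skel2_219
open Crest.Agent.R257.KED_952 Crest.Agent.R257.KEG_952

/-- S0395 from the remaining Props, first level -/
theorem top2 (lg : LGStmt) (ep : XF_157.EPStmt) (cne : XF_157.CNEStmt) (vs : VStmt3)
    (p8 : P8Stmt)
    (R : ℝ) (hR : 0 < R) (F : (Fin 3 → ℂ) × ℂ → ℂ)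
    (hF : ∀ t : ℂ, ‖t‖ < R → AnalyticAt ℂ F (0, t) ∧ F (0, t) = 0)
    (hcrit : ∀ t : ℂ, ‖t‖ < R → fderiv ℂ (fun x => F (x, t)) 0 = 0 ∧
      ∀ᶠ x in 𝓝[≠] (0 : Fin 3 → ℂ), fderiv ℂ (fun x => F (x, t)) x ≠ 0)
    (hμ : ∀ t : ℂ, ‖t‖ < R →
      Module.Finite ℂ (Crest.AlgGeometry.Germ.JacobianQuotient 3 (fun x => F (x, t))) ∧
      Crest.AlgGeometry.Germ.milnorNumber 3 (fun x => F (x, t)) =
        Crest.AlgGeometry.Germ.milnorNumber 3 (fun x => F (x, 0))) :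
    ∃ δ : ℝ, 0 < δ ∧ ∃ Φ : OpenPartialHomeomorph ((Fin 3 → ℂ) × ℂ) ((Fin 3 → ℂ) × ℂ),
      (∀ t : ℂ, ‖t‖ < δ → ((0 : Fin 3 → ℂ), t) ∈ Φ.source ∧ Φ (0, t) = (0, t)) ∧
      (∀ p ∈ Φ.source, (Φ p).2 = p.2 ∧ F (Φ p) = F (p.1, 0)) ∧
      (∀ x : Fin 3 → ℂ, (x, (0 : ℂ)) ∈ Φ.source → Φ (x, 0) = (x, 0)) :=
  S0395_of2 UI939.uscStmt UI939.cnStmt lg Fto_889.detStmt Sh_297.otStmt
    (Cmp_157.xStmt_of ep cne NS0554.isoFinStmt Fto_889.detStmt) vs LcTop_980.pos Rig20.ra_stmt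
    (m3_of Node_547.node Line_648.lineStmt p8) Flag3_799.flag3Stmt N2_328.n2Stmt LCf_472.splitStmt
    UI939.globStmt R hR F hF hcrit hμ

/-- (V1) from exact pairs -/
theorem v1_of (ep : XF_157.EPStmt) (cne : XF_157.CNEStmt) : V1Stmt :=
  V1Top2_822.v1' (Cmp_157.xuStmt_of ep cne NS0554.isoFinStmt Fto_889.detStmt) UpK_938.upStmt
    Vol_397.volStmt M3_5.m3Stmt

/-- (V) from its open parts -/
theorem vs_of (ep : XF_157.EPStmt) (cne : XF_157.CNEStmt) (bd : BdStmt) (gb0 : GB0Stmt)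
    (gb1 : GB1Stmt) (v31 : V31Stmt) (pos3 : PosStmt3) : VStmt3 :=
  Skel3_219.V_of3 KedM_941.nuStmt KedM_941.measStmt KedM_941.fatStmt KedM_941.cvIStmt
    Ked4_397.ctDStmt Ked2_397.bmyStmt Ked4_397.cvDStmt bd gb0 gb1 (v1_of ep cne) v31 pos3
    LimH_37.outStmt

/-- S0395 from the remaining Props -/
theorem top3 (lg : LGStmt) (p8 : P8Stmt) (ep : XF_157.EPStmt) (cne : XF_157.CNEStmt)
    (bd : BdStmt) (gb0 : GB0Stmt) (gb1 : GB1Stmt) (v31 : V31Stmt) (pos3 : PosStmt3)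
    (R : ℝ) (hR : 0 < R) (F : (Fin 3 → ℂ) × ℂ → ℂ)
    (hF : ∀ t : ℂ, ‖t‖ < R → AnalyticAt ℂ F (0, t) ∧ F (0, t) = 0)
    (hcrit : ∀ t : ℂ, ‖t‖ < R → fderiv ℂ (fun x => F (x, t)) 0 = 0 ∧
      ∀ᶠ x in 𝓝[≠] (0 : Fin 3 → ℂ), fderiv ℂ (fun x => F (x, t)) x ≠ 0)
    (hμ : ∀ t : ℂ, ‖t‖ < R →
      Module.Finite ℂ (Crest.AlgGeometry.Germ.JacobianQuotient 3 (fun x => F (x, t))) ∧
      Crest.AlgGeometry.Germ.milnorNumber 3 (fun x => F (x, t)) =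
        Crest.AlgGeometry.Germ.milnorNumber 3 (fun x => F (x, 0))) :
    ∃ δ : ℝ, 0 < δ ∧ ∃ Φ : OpenPartialHomeomorph ((Fin 3 → ℂ) × ℂ) ((Fin 3 → ℂ) × ℂ),
      (∀ t : ℂ, ‖t‖ < δ → ((0 : Fin 3 → ℂ), t) ∈ Φ.source ∧ Φ (0, t) = (0, t)) ∧
      (∀ p ∈ Φ.source, (Φ p).2 = p.2 ∧ F (Φ p) = F (p.1, 0)) ∧
      (∀ x : Fin 3 → ℂ, (x, (0 : ℂ)) ∈ Φ.source → Φ (x, 0) = (x, 0)) :=
  top2 lg ep cne (vs_of ep cne bd gb0 gb1 v31 pos3) p8 R hR F hF hcrit hμ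

end Crest.Agent.R257.Top2_219
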