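import Crest.Agent.R257.Top2_219
import Crest.Agent.R257.SkelU_952
import Crest.Agent.R257.LcxZ_759
import Crest.Agent.R257.Cne3_812
import Crest.Agent.R257.LCTop_472

/-!
R257 / TopC_952: **`S0395` from `CLogStmt` alone.**
-/

set_option autoImplicit false

open Topology Filter MeasureTheory Set
open scoped ENNReal
open Crest.AlgGeometry.Germ

noncomputable section

namespace Crest.Agent.R257.TopC_952

open Crest.Agent.R257.Defs_219 Crest.Agent.R257.Skel2_219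

/-- (V) for germs of multiplicity `≥ 3` from `CLogStmt` -/
theorem vstmt3 (cl : CLog_68.CLogStmt) : VStmt3 :=
  SkelU_952.vstmt3_of_clog cl LcxZ_759.posStmt3

theorem ep_of_clog (cl : CLog_68.CLogStmt) : XF_157.EPStmt := fun f hf hm => by
  obtain ⟨_, _, _, _, _, k, g, h, h1, -, -⟩ := cl f hf hm
  exact ⟨k, g, h, h1⟩

/-- **`S0395` from `CLogStmt`** -/
theorem top_clog (cl : CLog_68.CLogStmt) (R : ℝ) (hR : 0 < R) (F : (Fin 3 → ℂ) × ℂ → ℂ)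
    (hF : ∀ t : ℂ, ‖t‖ < R → AnalyticAt ℂ F (0, t) ∧ F (0, t) = 0)
    (hcrit : ∀ t : ℂ, ‖t‖ < R → fderiv ℂ (fun x => F (x, t)) 0 = 0 ∧
      ∀ᶠ x in 𝓝[≠] (0 : Fin 3 → ℂ), fderiv ℂ (fun x => F (x, t)) x ≠ 0)
    (hμ : ∀ t : ℂ, ‖t‖ < R →
      Module.Finite ℂ (Crest.AlgGeometry.Germ.JacobianQuotient 3 (fun x => F (x, t))) ∧
      Crest.AlgGeometry.Germ.milnorNumber 3 (fun x => F (x, t)) =
        Crest.AlgGeometry.Germ.milnorNumber 3 (fun x => F (x, 0))) :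
    ∃ δ : ℝ, 0 < δ ∧ ∃ Φ : OpenPartialHomeomorph ((Fin 3 → ℂ) × ℂ) ((Fin 3 → ℂ) × ℂ),
      (∀ t : ℂ, ‖t‖ < δ → ((0 : Fin 3 → ℂ), t) ∈ Φ.source ∧ Φ (0, t) = (0, t)) ∧
      (∀ p ∈ Φ.source, (Φ p).2 = p.2 ∧ F (Φ p) = F (p.1, 0)) ∧
      (∀ x : Fin 3 → ℂ, (x, (0 : ℂ)) ∈ Φ.source → Φ (x, 0) = (x, 0)) :=
  Top2_219.top2 LgA_827.lgStmt (ep_of_clog cl) Cne_812.cneStmt (vstmt3 cl) LCTop_472.p8Stmt
    R hR F hF hcrit hμ

end Crest.Agent.R257.TopC_952
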