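import Crest.Agent.R257.OB1_287

/-!
R257 / VX_287 ((VX) of 547's post 4220 and 578's post 4258): the vertices of BPDefs_258 against the
equivalence `Eqv` of FrmA_547.

* `vx_eq_iff`   : `vx T i k = vx T j k ↔ Eqv T k i j`
* `sh_eq`       : `sh T k i l 0 = co i k - co l k`
* `sp_iff`      : `w ∈ sp T (vx T i k) ↔ w - co T i k ∈ T.Sp i k`
* `sp_ci`       : `w ∈ sp T v ↔ w ∈ T.Sp (S.ci v) v.1`;  `tr_ci_iff`
* `rst`         : `φ_i (s^M) = tr(s^M) + s^(Mk) rst s`, analytic on `sD T`; `map_vert_yv`, `rst_ci`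
-/

set_option autoImplicit false
set_option linter.unusedSectionVars false

open Polynomial Set Filter Topology Metric
open Crest.AlgGeometry.Germ Crest.Agent.R257.AJ387 Crest.Agent.R257.T387
open Crest.Agent.R257.Frm_547
open Crest.Agent.R257.BP_258

noncomputable section

namespace Crest.Agent.R257.OB_287

variable {f : (Fin 3 → ℂ) → ℂ} {T : TB f}

/-- (c) of 578 -/
theorem vx_eq_iff {i j : Fin T.m} {k : ℕ} : vx T i k = vx T j k ↔ Eqv T k i j := by
  rw [← tr_eq_iff]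
  exact ⟨fun h => congrArg Prod.snd h, fun h => Prod.ext rfl h⟩

theorem sh_eq {i l : Fin T.m} {k : ℕ} (h : Eqv T k i l) :
    sh T k i l 0 = co T i k - co T l k := by
  by_cases hil : i = l
  · rw [hil, sh_self, sub_self]
  · have h1 := co_sub_del (T := T) hil k (h.resolve_left hil)
    rw [h1]
    by_cases hk : k = T.del i l
    · rw [if_pos hk, sh_zero_of_eq T hil hk.symm]
    · rw [if_neg hk, sh_zero_of_lt T (lt_of_le_of_ne (h.resolve_left hil) hk)]

theorem sp_iff {i : Fin T.m} {k : ℕ} {w : ℂ} :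
    w ∈ sp T (vx T i k) ↔ w - co T i k ∈ T.Sp i k := by
  rw [mem_sp, mem_Sp]
  constructor
  · rintro ⟨j, hj, hw⟩
    have he : Eqv T k i j := tr_eq_iff.1 hj.symm
    refine ⟨j, he, ?_⟩
    rw [sh_eq he]
    show w - co T i k = -(co T i k - co T j k)
    have hw' : co T j k = w := hw
    rw [hw']
    ring
  · rintro ⟨j, he, hw⟩
    refine ⟨j, (tr_eq_iff.2 he).symm, ?_⟩
    rw [sh_eq he] at hw
    show co T j k = w
    linear_combination -hw

variable (S : Sh T)

/-- (a) of 578 -/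
theorem sp_ci {v : Vtx} (hv : v ∈ Vs T) {w : ℂ} : w ∈ sp T v ↔ w ∈ T.Sp (S.ci v) v.1 := by
  have h := sp_iff (T := T) (i := S.ci v) (k := v.1) (w := w)
  rwa [ci_vx S hv, ci_co S hv, sub_zero] at h

/-- (b) of 578 -/
theorem tr_ci_iff {v : Vtx} (hv : v ∈ Vs T) {j : Fin T.m} :
    tr T j v.1 = v.2 ↔ Eqv T v.1 (S.ci v) j := by
  rw [← tr_eq_iff, ci_tr S hv]
  exact eq_comm

variable (T)

open Classical in
/-- the rest of the Taylor expansion in the `s`-variable -/
def rst (i : Fin T.m) (k : ℕ) (s : ℂ) : ℂ :=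
  if s = 0 then co T i k else (T.φ i (s ^ T.M) - (tr T i k).eval (s ^ T.M)) / s ^ (T.M * k)

theorem rst_zero (i : Fin T.m) (k : ℕ) : rst T i k 0 = co T i k := by simp [rst]

theorem rst_eq (i : Fin T.m) (k : ℕ) (s : ℂ) :
    T.φ i (s ^ T.M) = (tr T i k).eval (s ^ T.M) + s ^ (T.M * k) * rst T i k s := by
  by_cases hs : s = 0
  · subst hs
    obtain ⟨h, -, h0, hh⟩ := taylor (T := T) i k
    have h1 := hh 0
    rw [rst_zero, zero_pow T.M_pos.ne', pow_mul, zero_pow T.M_pos.ne', h1, h0]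
  · have h1 : s ^ (T.M * k) ≠ 0 := pow_ne_zero _ hs
    rw [rst, if_neg hs]
    field_simp
    ring

theorem rst_local (i : Fin T.m) (k : ℕ) {h : ℂ → ℂ} (h0 : h 0 = co T i k)
    (hh : ∀ s, T.φ i s = (tr T i k).eval s + s ^ k * h s) (s : ℂ) :
    rst T i k s = h (s ^ T.M) := by
  by_cases hs : s = 0
  · subst hs
    rw [rst_zero, zero_pow T.M_pos.ne', h0]
  · have h1 : s ^ (T.M * k) ≠ 0 := pow_ne_zero _ hs
    rw [rst, if_neg hs, hh (s ^ T.M), ← pow_mul]
    field_simp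
    ring

theorem rst_an (i : Fin T.m) (k : ℕ) : AnalyticOnNhd ℂ (rst T i k) (sD T) := by
  intro s hs
  by_cases h0 : s = 0
  · subst h0
    obtain ⟨h, ha, h0, hh⟩ := taylor (T := T) i k
    have h1 : rst T i k = fun s => h (s ^ T.M) := funext (rst_local T i k h0 hh)
    rw [h1]
    exact AnalyticAt.comp (g := h) (f := fun s : ℂ => s ^ T.M)
      (by rwa [zero_pow T.M_pos.ne']) (analyticAt_id.pow _)
  · have hp : AnalyticAt ℂ (fun s : ℂ => s ^ T.M) s := analyticAt_id.pow _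
    have h1 : AnalyticAt ℂ (fun s => (T.φ i (s ^ T.M) - (tr T i k).eval (s ^ T.M)) /
        s ^ (T.M * k)) s := by
      refine AnalyticAt.div (AnalyticAt.sub ?_ ?_) (analyticAt_id.pow _) (pow_ne_zero _ h0)
      · exact AnalyticAt.comp (g := T.φ i) (T.φ_an i _ (sD_pow T hs)) hp
      · exact AnalyticAt.comp (g := fun z => (tr T i k).eval z)
          ((tr T i k).differentiable.analyticAt _) hp
    refine h1.congr ?_
    filter_upwards [isOpen_ne.mem_nhds h0] with z hz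
    rw [rst, if_neg hz]

/-- vertex charts against the coordinates `(s, w)` of the vertex -/
theorem map_vert_yv (i : Fin T.m) (k : ℕ) (w₀ : ℂ) (p : ℂ × ℂ) :
    T.map (.vert i k w₀) p = (p.1, yv T (vx T i k) (p.1, w₀ + p.2 + rst T i k p.1)) := by
  simp only [TB.map, yv, vx]
  rw [rst_eq T i k p.1]
  congr 1
  ring

variable {T}

theorem rst_ci {v : Vtx} (hv : v ∈ Vs T) {s : ℂ} (hs : s ∈ sD T) :
    rst T (S.ci v) v.1 s = 0 := by
  by_cases h0 : s = 0
  · rw [h0, rst_zero, ci_co S hv]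
  · rw [rst, if_neg h0, S.ci_eq v hv _ (sD_pow T hs), ci_tr S hv, sub_self, zero_div]

/-- canonical vertex charts are the coordinates `(s, w - w₀)` -/
theorem map_vert_ci {v : Vtx} (hv : v ∈ Vs T) (w₀ : ℂ) {p : ℂ × ℂ} (hp : p.1 ∈ sD T) :
    T.map (.vert (S.ci v) v.1 w₀) p = (p.1, yv T v (p.1, w₀ + p.2)) := by
  rw [map_vert_yv, rst_ci S hv hp, add_zero, ci_vx S hv]

end Crest.Agent.R257.OB_287
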