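import Crest.Agent.R257.Vt3_558

/-!
Row 257 (S0395), part C: the rotation on sheets, labels and the intersection form
(helper558, task C-ROT).

* `exists_tau`   : the sheets of `c` and `rc T ξ c`;
* `lab1`, `lab2` : labels;
* `Mx_rot`       : the intersection form is invariant;
* `unity`        : the factors are roots of unity;
* `rot_of_nu`    : `RotStmt` from the invariance of `nu`.
-/

set_option autoImplicit false
set_option linter.unusedSectionVars false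

open Polynomial Set Filter Topology Metric
open Crest.AlgGeometry.Germ Crest.Agent.R257.AJ387 Crest.Agent.R257.T387
open Crest.Agent.R257.Frm_547 (mul_ev prod_ev)
open Crest.Agent.R257.Rot4_558 (match_sheets)
open Crest.Agent.R257.Rot1_558 Crest.Agent.R257.BP_258 Crest.Agent.R257.Vt1_558
open Crest.Agent.R257.Vt2_558 Crest.Agent.R257.Vt3_558

noncomputable section

namespace Crest.Agent.R257.Vt4_558

variable {f : (Fin 3 → ℂ) → ℂ} {T : TB f} {U : Tub T}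

lemma real_mem {t m : ℝ} (h0 : 0 < t) (h1 : t < m) : ‖((t : ℝ) : ℂ)‖ < m := by
  rw [Complex.norm_real, Real.norm_of_nonneg h0.le]; exact h1

lemma gen_real (c : Ch T.m) {t t' : ℝ} (h : 0 < t) (h' : 0 < t') :
    T.Gen c (((t : ℝ) : ℂ), ((t' : ℝ) : ℂ)) := by
  have h1 : ((t : ℝ) : ℂ) ≠ 0 := by exact_mod_cast h.ne'
  have h2 : ((t' : ℝ) : ℂ) ≠ 0 := by exact_mod_cast h'.ne'
  cases c with
  | edge i k k' => exact ⟨h1, h2⟩
  | leg i => exact ⟨h1, h2⟩
  | vert i k w => exact h1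

section

variable (hG : GalPt T) {ξ : ℂ} (hξ : ξ ^ T.N = 1) (S : Sh T)

include hG hξ

/-- the sheets of a rotated chart -/
theorem exists_tau {c : Ch T.m} (hc : T.Valid c) : ∃ τ : Equiv.Perm (Fin T.d), ∀ j, ∀ p : ℂ × ℂ,
    ‖p.1‖ < 2 * min (S.r c) (S.r (rc T ξ c)) → ‖p.2‖ < 2 * min (S.r c) (S.r (rc T ξ c)) →
    rot ξ (wc S c j p) = wc S (rc T ξ c) (τ j) (rp T ξ c p) := by
  set c' := rc T ξ c with hc'
  set r' := 2 * min (S.r c) (S.r c') with hr'
  have hr0 : 0 < r' := by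
    have := lt_min (S.pos c) (S.pos c')
    rw [hr']; linarith
  have h := S.sheets c hc
  have h' := S.sheets c' ((valid_rc hG hξ c).2 hc)
  have hB : ∀ p ∈ BD r' r', p ∈ BD (2 * S.r c) (2 * S.r c) := fun p hp => by
    refine TB.BD_mono ?_ hp
    rw [hr']
    exact mul_le_mul_of_nonneg_left (min_le_left _ _) (by norm_num)
  have hB' : ∀ p ∈ BD r' r', rp T ξ c p ∈ BD (2 * S.r c') (2 * S.r c') := fun p hp => by
    refine (rp_mem hξ c).2 (TB.BD_mono ?_ hp)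
    rw [hr']
    exact mul_le_mul_of_nonneg_left (min_le_right _ _) (by norm_num)
  have hχ : ∀ p, AnalyticAt ℂ (rp T ξ c) p := fun p =>
    (analyticAt_const.mul analyticAt_fst).prod (analyticAt_const.mul analyticAt_snd)
  have hmap : ∀ p ∈ BD r' r', T.map c' (rp T ξ c p) = (ξ * (T.map c p).1, (T.map c p).2) :=
    fun p hp => map_rot hG hξ hc (h.mem p (hB p hp)).2
  obtain ⟨τ, hτ⟩ := match_sheets hr0 (F := fun p => T.Q (T.map c p)) (a := S.ζ c)
    (b := fun l p => S.ζ c' l (rp T ξ c p)) (fun j p hp => h.an j p (hB p hp))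
    (fun l p hp => AnalyticAt.comp (g := S.ζ c' l) (h'.an l _ (hB' p hp)) (hχ p))
    (fun p hp => h.split p (hB p hp)) (fun p hp => by
      have h1 := h'.split _ (hB' p hp)
      rw [hmap p hp, Q_rot hξ] at h1
      exact h1) (by
      refine ⟨(((r' / 2 : ℝ) : ℂ), ((r' / 2 : ℝ) : ℂ)), ?_, ?_⟩
      · exact ⟨real_mem (by linarith) (by linarith), real_mem (by linarith) (by linarith)⟩
      · refine h.inj _ (hB _ ?_) (gen_real c (by linarith) (by linarith))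
        exact ⟨real_mem (by linarith) (by linarith), real_mem (by linarith) (by linarith)⟩)
  refine ⟨τ, fun j p h1 h2 => ?_⟩
  have hp : p ∈ BD r' r' := ⟨h1, h2⟩
  simp only [wc]
  rw [hmap p hp, hτ j p hp]
  funext i
  fin_cases i <;> rfl

end

section

variable (hG : GalPt T) (hR : RetStmt U) {ξ : ℂ} (hξ : ξ ^ T.N = 1) {S : Sh T} (L : Lab U S)

include hG hR hξ

/-- the general transfer of labels -/
lemma lab_gen {o o' : Option (II U)} {ov ov' : Option Vtx} (h1 : o.map (fun E => E.1.1) = ov)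
    (h1' : o'.map (fun E => E.1.1) = ov') (hv : ov' = ov.map (rv T ξ))
    (h2 : ∀ E E', o = some E → o' = some E' → ∃ x, InT U E.1.1 x ∧ InT U E'.1.1 (rot ξ x) ∧
      (∀ q, IsRet U E.1.1 x q → (q : ConnectedComponents _) = E.2) ∧
      (∀ q, IsRet U E'.1.1 (rot ξ x) q → (q : ConnectedComponents _) = E'.2)) :
    o' = o.map (pi hG hR hξ) := by
  cases ho : o with
  | none =>
    rw [ho] at h1
    simp only [Option.map_none] at h1 ⊢
    rw [← h1, Option.map_none] at hv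
    rw [hv] at h1'
    exact Option.map_eq_none_iff.1 h1'
  | some E =>
    rw [ho, Option.map_some] at h1
    rw [← h1, Option.map_some] at hv
    rw [hv] at h1'
    obtain ⟨E', ho', hE'⟩ := Option.map_eq_some_iff.1 h1'
    rw [ho', Option.map_some]
    obtain ⟨x, hx, hx', k1, k2⟩ := h2 E E' ho ho'
    obtain ⟨q, hq, -⟩ := (hR _ hx.mem).1 x hx
    obtain ⟨q', hq', -⟩ := (hR _ hx'.mem).1 _ hx'
    have hrr : RR U ξ ⟨E.1, q⟩ ⟨E'.1, q'⟩ := ⟨hE', x, hq, hq'⟩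
    have h3 := pi_spec hG hR hξ hrr
    have h4 : ka U ⟨E.1, q⟩ = E := by
      show (⟨E.1, (q : ConnectedComponents _)⟩ : II U) = E
      rw [k1 q hq]
    have h5 : ka U ⟨E'.1, q'⟩ = E' := by
      show (⟨E'.1, (q' : ConnectedComponents _)⟩ : II U) = E'
      rw [k2 q' hq']
    rw [h4, h5] at h3
    rw [h3]

theorem lab1 {c : Ch T.m} (hc : Ok S c) {j j' : Fin T.d} (hjj : ∀ p : ℂ × ℂ,
    ‖p.1‖ < 2 * min (S.r c) (S.r (rc T ξ c)) → ‖p.2‖ < 2 * min (S.r c) (S.r (rc T ξ c)) →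
    rot ξ (wc S c j p) = wc S (rc T ξ c) j' (rp T ξ c p)) :
    L.e1 (rc T ξ c) j' = (L.e1 c j).map (pi hG hR hξ) := by
  have hc' : Ok S (rc T ξ c) := ok_rc S hG hξ hc
  refine lab_gen hG hR hξ (L.v_e1 c hc j) (L.v_e1 _ hc' j') (v1_rc hG hξ c) fun E E' hE hE' => ?_
  set m := min (S.r c) (S.r (rc T ξ c)) with hm
  have hm0 : 0 < m := lt_min (S.pos _) (S.pos _)
  obtain ⟨a, ha, h1⟩ := L.near1 c hc j E hE m hm0
  obtain ⟨a', ha', h1'⟩ := L.near1 _ hc' j' E' hE' m hm0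
  set t := min (min a a') m / 2 with ht
  have ht0 : 0 < t := by
    have := lt_min (lt_min ha ha') hm0
    rw [ht]; linarith
  have hta : t < a := by
    have := min_le_left (min a a') m
    have := min_le_left a a'
    linarith
  have hta' : t < a' := by
    have := min_le_left (min a a') m
    have := min_le_right a a'
    linarith
  have htm : t < 2 * m := by
    have := min_le_right (min a a') m
    linarith
  have n1 : ‖((t : ℝ) : ℂ)‖ = t := by rw [Complex.norm_real, Real.norm_of_nonneg ht0.le]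
  have n2 : ‖((m : ℝ) : ℂ)‖ = m := by rw [Complex.norm_real, Real.norm_of_nonneg hm0.le]
  set p : ℂ × ℂ := (((t : ℝ) : ℂ), ((m : ℝ) : ℂ)) with hp
  obtain ⟨r1, r2⟩ := rp_norm hξ c p
  have k1 := h1 p (by show 0 < ‖((t : ℝ) : ℂ)‖; rw [n1]; exact ht0)
    (by show ‖((t : ℝ) : ℂ)‖ < a; rw [n1]; exact hta)
    (by show ‖((m : ℝ) : ℂ)‖ ≤ _; rw [n2]; exact min_le_left _ _)
    (Or.inr (by show m ≤ ‖((m : ℝ) : ℂ)‖; rw [n2]))
  have k2 := h1' (rp T ξ c p) (by rw [r1]; show 0 < ‖((t : ℝ) : ℂ)‖; rw [n1]; exact ht0)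
    (by rw [r1]; show ‖((t : ℝ) : ℂ)‖ < a'; rw [n1]; exact hta')
    (by rw [r2]; show ‖((m : ℝ) : ℂ)‖ ≤ _; rw [n2]; exact min_le_right _ _)
    (Or.inr (by rw [r2]; show m ≤ ‖((m : ℝ) : ℂ)‖; rw [n2]))
  have k3 := hjj p (by show ‖((t : ℝ) : ℂ)‖ < _; rw [n1]; exact htm)
    (by show ‖((m : ℝ) : ℂ)‖ < _; rw [n2]; linarith)
  rw [← k3] at k2
  exact ⟨wc S c j p, k1.1, k2.1, k1.2, k2.2⟩

theorem lab2 {c : Ch T.m} (hc : Ok S c) {j j' : Fin T.d} (hjj : ∀ p : ℂ × ℂ,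
    ‖p.1‖ < 2 * min (S.r c) (S.r (rc T ξ c)) → ‖p.2‖ < 2 * min (S.r c) (S.r (rc T ξ c)) →
    rot ξ (wc S c j p) = wc S (rc T ξ c) j' (rp T ξ c p)) :
    L.e2 (rc T ξ c) j' = (L.e2 c j).map (pi hG hR hξ) := by
  have hc' : Ok S (rc T ξ c) := ok_rc S hG hξ hc
  refine lab_gen hG hR hξ (L.v_e2 c hc j) (L.v_e2 _ hc' j') (v2_rc hG hξ c) fun E E' hE hE' => ?_
  set m := min (S.r c) (S.r (rc T ξ c)) with hm
  have hm0 : 0 < m := lt_min (S.pos _) (S.pos _)
  obtain ⟨a, ha, h1⟩ := L.near2 c hc j E hE m hm0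
  obtain ⟨a', ha', h1'⟩ := L.near2 _ hc' j' E' hE' m hm0
  set t := min (min a a') m / 2 with ht
  have ht0 : 0 < t := by
    have := lt_min (lt_min ha ha') hm0
    rw [ht]; linarith
  have hta : t < a := by
    have := min_le_left (min a a') m
    have := min_le_left a a'
    linarith
  have hta' : t < a' := by
    have := min_le_left (min a a') m
    have := min_le_right a a'
    linarith
  have htm : t < 2 * m := by
    have := min_le_right (min a a') m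
    linarith
  have n1 : ‖((t : ℝ) : ℂ)‖ = t := by rw [Complex.norm_real, Real.norm_of_nonneg ht0.le]
  have n2 : ‖((m : ℝ) : ℂ)‖ = m := by rw [Complex.norm_real, Real.norm_of_nonneg hm0.le]
  set p : ℂ × ℂ := (((m : ℝ) : ℂ), ((t : ℝ) : ℂ)) with hp
  obtain ⟨r1, r2⟩ := rp_norm hξ c p
  have k1 := h1 p (by show 0 < ‖((t : ℝ) : ℂ)‖; rw [n1]; exact ht0)
    (by show ‖((t : ℝ) : ℂ)‖ < a; rw [n1]; exact hta)
    (by show ‖((m : ℝ) : ℂ)‖ ≤ _; rw [n2]; exact min_le_left _ _)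
    (by show m ≤ ‖((m : ℝ) : ℂ)‖; rw [n2])
  have k2 := h1' (rp T ξ c p) (by rw [r2]; show 0 < ‖((t : ℝ) : ℂ)‖; rw [n1]; exact ht0)
    (by rw [r2]; show ‖((t : ℝ) : ℂ)‖ < a'; rw [n1]; exact hta')
    (by rw [r1]; show ‖((m : ℝ) : ℂ)‖ ≤ _; rw [n2]; exact min_le_right _ _)
    (by rw [r1]; show m ≤ ‖((m : ℝ) : ℂ)‖; rw [n2])
  have k3 := hjj p (by show ‖((m : ℝ) : ℂ)‖ < _; rw [n2]; linarith)
    (by show ‖((t : ℝ) : ℂ)‖ < _; rw [n1]; exact htm)
  rw [← k3] at k2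
  exact ⟨wc S c j p, k1.1, k2.1, k1.2, k2.2⟩

lemma ok_ec (S : Sh T) {v : Vtx} (hv : v ∈ Vs T) : Ok S (ec S v) :=
  ⟨S.kp_cons v hv, v, hv, rfl, rfl, rfl⟩

/-- **the intersection form is invariant** -/
theorem Mx_rot (E E' : II U) : Mx L (pi hG hR hξ E) (pi hG hR hξ E') = Mx L E E' := by
  classical
  have hinj := (pi hG hR hξ).injective
  unfold Mx
  symm
  refine Finset.sum_nbij' (rv T ξ) (rv T ξ⁻¹) (fun v hv => rv_mem hG hξ hv)
    (fun v hv => rv_mem hG (inv_root hξ) hv) (fun v _ => rv_inv hξ v) (fun v _ => rv_inv' hξ v)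
    fun v hv => ?_
  have hc : Ok S (ec S v) := ok_ec hG hR hξ S hv
  obtain ⟨τ, hτ⟩ := exists_tau hG hξ S hc.1
  have hcd : cd S (rv T ξ v) = cd S v := by
    simp only [cd, kp_rv S hG hξ hv, rv_fst]
  refine Fintype.sum_equiv τ _ _ fun j => ?_
  have e1 := lab1 hG hR hξ L hc (hτ j)
  have e2 := lab2 hG hR hξ L hc (hτ j)
  rw [hcd, ec_rv S hG hξ hv, e1, e2]
  have k : ∀ (o : Option (II U)) (F : II U),
      (o.map (pi hG hR hξ) = some (pi hG hR hξ F)) ↔ o = some F := by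
    intro o F
    cases o with
    | none => simp
    | some G => simp
  simp only [k, hinj.eq_iff]

end

/-! ### roots of unity -/

lemma unity_edge {ξ : ℂ} (hξ : ξ ^ T.N = 1) {i : Fin T.m} {k k' : ℕ} (h : k < k') :
    (rm T ξ (.edge i k k')).1 ^ (T.N * (k' - k)) = 1 ∧
    (rm T ξ (.edge i k k')).2 ^ (T.N * (k' - k)) = 1 := by
  have hn := norm_one T hξ
  have h2 := Complex.norm_mul_exp_arg_mul_I ξ
  rw [hn, Complex.ofReal_one, one_mul] at h2
  have hk : (k' : ℝ) - k ≠ 0 := by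
    have : (k : ℝ) < k' := by exact_mod_cast h
    intro h'
    linarith
  have hkC : (k' : ℂ) - k ≠ 0 := by exact_mod_cast hk
  have hcast : ((k' - k : ℕ) : ℂ) = (k' : ℂ) - k := by
    rw [Nat.cast_sub h.le]
  constructor
  · simp only [rm]
    rw [← Complex.exp_nat_mul]
    have h1 : ((T.N * (k' - k) : ℕ) : ℂ) *
        (((Complex.arg ξ * (k' / ((k' : ℝ) - k)) : ℝ) : ℂ) * Complex.I) =
        ((T.N * k' : ℕ) : ℂ) * (Complex.arg ξ * Complex.I) := by
      push_cast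
      rw [Nat.cast_sub h.le]
      field_simp
    rw [h1, Complex.exp_nat_mul, h2, pow_mul, hξ, one_pow]
  · simp only [rm]
    rw [← Complex.exp_nat_mul]
    have h1 : ((T.N * (k' - k) : ℕ) : ℂ) *
        (((-(Complex.arg ξ * (k / ((k' : ℝ) - k))) : ℝ) : ℂ) * Complex.I) =
        -(((T.N * k : ℕ) : ℂ) * (Complex.arg ξ * Complex.I)) := by
      push_cast
      rw [Nat.cast_sub h.le]
      field_simp
    rw [h1, Complex.exp_neg, Complex.exp_nat_mul, h2, pow_mul, hξ, one_pow, inv_one]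

lemma unity_leg {ξ : ℂ} (hξ : ξ ^ T.N = 1) (i : Fin T.m) :
    (rm T ξ (.leg i)).1 ^ T.N = 1 ∧ (rm T ξ (.leg i)).2 ^ T.N = 1 := by
  have hn := norm_one T hξ
  have h2 := Complex.norm_mul_exp_arg_mul_I ξ
  rw [hn, Complex.ofReal_one, one_mul] at h2
  refine ⟨hξ, ?_⟩
  simp only [rm]
  rw [← Complex.exp_nat_mul]
  have h1 : ((T.N : ℕ) : ℂ) * (((-(Complex.arg ξ * T.top i) : ℝ) : ℂ) * Complex.I) =
      -(((T.N * T.top i : ℕ) : ℂ) * (Complex.arg ξ * Complex.I)) := by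
    push_cast
    ring
  rw [h1, Complex.exp_neg, Complex.exp_nat_mul, h2, pow_mul, hξ, one_pow, inv_one]

/-- the factors are roots of unity of bounded order -/
theorem unity {ξ : ℂ} (hξ : ξ ^ T.N = 1) {c : Ch T.m} (hc : T.Valid c) :
    ∃ n : ℕ, 0 < n ∧ n ∣ T.N * (T.M * (Finset.univ.sup T.top).factorial) ∧
      (rm T ξ c).1 ^ n = 1 ∧ (rm T ξ c).2 ^ n = 1 := by
  cases c with
  | edge i k k' =>
    have hk : k < k' := hc.2.2.1
    refine ⟨T.N * (k' - k), Nat.mul_pos T.N_pos (by omega), ?_, unity_edge hξ hk⟩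
    refine Nat.mul_dvd_mul_left _ (Dvd.dvd.mul_left ?_ _)
    refine Nat.dvd_factorial (by omega) ?_
    have h1 : k' ≤ T.top i := (T.lev i).le_max' k' hc.2.1
    have h2 : T.top i ≤ Finset.univ.sup T.top := Finset.le_sup (f := T.top) (Finset.mem_univ i)
    omega
  | leg i => exact ⟨T.N, T.N_pos, Dvd.intro _ rfl, unity_leg hξ i⟩
  | vert i k w =>
    refine ⟨T.N, T.N_pos, Dvd.intro _ rfl, hξ, ?_⟩
    show ((ξ ^ (T.M * k))⁻¹) ^ T.N = 1
    rw [inv_pow, ← pow_mul, mul_comm, pow_mul, hξ, one_pow, inv_one]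

/-- **C-ROT from the invariance of `nu`** -/
theorem rot_of_nu (hG : GalPt T) (hR : RetStmt U) {S : Sh T} (L : Lab U S) {nu : II U → ℤ}
    (hnu : ∀ (ξ : ℂ) (hξ : ξ ^ T.N = 1) (E : II U), nu (pi hG hR hξ E) = nu E) : RotStmt L nu := by
  intro ξ hξ
  refine ⟨pi hG hR hξ, Mx_rot hG hR hξ L, hnu ξ hξ, fun c hc j => ?_⟩
  obtain ⟨τ, hτ⟩ := exists_tau hG hξ S hc.1
  exact ⟨rc T ξ c, τ j, ok_rc S hG hξ hc, isV_rc ξ c, isE_rc ξ c, lab1 hG hR hξ L hc (hτ j),
    lab2 hG hR hξ L hc (hτ j), (rm T ξ c).1, (rm T ξ c).2, unity hξ hc.1, hτ j⟩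

end Crest.Agent.R257.Vt4_558
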