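import Crest.Agent.R257.Vt5_558
import Crest.Agent.R257.Vt6_558

/-!
Row 257 (S0395), part C: the order of `∂f/∂z` along the vertex curves (helper558, task C-JAC).

* `GR v q n`    : near the point `q` of the vertex curve `|f_z| ≍ |s|^n` in the tube;
* `gr_exists`, `gr_unique`, `gr_cc` : `n` exists, is unique, and depends only on the component;
* `ord_e1`, `ord_e2` : the exponents in the charts;
* `exists_vert` : every component is the label of a vertex chart.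
-/

set_option autoImplicit false
set_option linter.unusedSectionVars false

open Polynomial Set Filter Topology Metric
open Crest.AlgGeometry.Germ Crest.Agent.R257.AJ387 Crest.Agent.R257.T387
open Crest.Agent.R257.Rot1_558 Crest.Agent.R257.BP_258 Crest.Agent.R257.Vt1_558
open Crest.Agent.R257.Vt2_558 Crest.Agent.R257.Vt3_558 Crest.Agent.R257.Vt5_558
open Crest.Agent.R257.Vt6_558

noncomputable section

namespace Crest.Agent.R257.Vt7_558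

variable {f : (Fin 3 → ℂ) → ℂ} {T : TB f} {U : Tub T}

/-- the order of `f_z` at a point of the vertex curve -/
def GR (U : Tub T) (v : Vtx) (q : XV U v) (n : ℕ) : Prop := ∃ K > 0, ∃ ε > 0, ∀ᶠ q' in 𝓝 q, ∀ x,
  IsRet U v x q' → ‖x 1‖ < ε → K⁻¹ * ‖x 1‖ ^ n ≤ ‖fz T x‖ ∧ ‖fz T x‖ ≤ K * ‖x 1‖ ^ n

/-- local data as sheets of the canonical vertex chart -/
lemma ld_sheets (S : Sh T) {v : Vtx} {w₀ : ℂ} (D : LD U v w₀) :
    T.Sheets (.vert (S.ci v) v.1 w₀) (min D.R D.r) (fun l p => D.Z l (p.1, w₀ + p.2)) ∧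
    ∀ p ∈ BD (min D.R D.r) (min D.R D.r),
      T.map (.vert (S.ci v) v.1 w₀) p = (p.1, yv T v (p.1, w₀ + p.2)) := by
  set r' := min D.R D.r with hr'
  have hmem : ∀ p ∈ BD r' r', (p.1, w₀ + p.2) ∈ ball (0 : ℂ) D.R ×ˢ ball w₀ D.r := fun p hp =>
    ⟨by simpa using hp.1.trans_le (min_le_left _ _), by
      rw [mem_ball, dist_eq_norm, add_sub_cancel_left]
      exact hp.2.trans_le (min_le_right _ _)⟩
  have hmap : ∀ p ∈ BD r' r',
      T.map (.vert (S.ci v) v.1 w₀) p = (p.1, yv T v (p.1, w₀ + p.2)) := fun p hp => by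
    have h1 := (D.split _ (hmem p hp)).2.1
    have h2 : p.1 ^ T.M ∈ ball (0 : ℂ) T.ρ := by simpa using h1
    simp only [TB.map, yv]
    rw [S.ci_eq v D.hv _ h2]
  refine ⟨⟨lt_min D.R_pos D.r_pos, fun p hp => ?_, fun j p hp => ?_, fun p hp => ?_,
    fun p hp hg => ?_⟩, hmap⟩
  · rw [hmap p hp]
    have h1 := D.split _ (hmem p hp)
    exact ⟨h1.1, h1.2.1⟩
  · have h2 : AnalyticAt ℂ (fun p : ℂ × ℂ => (p.1, w₀ + p.2)) p :=
      analyticAt_fst.prod (analyticAt_const.add analyticAt_snd)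
    exact AnalyticAt.comp (g := D.Z j) (f := fun p : ℂ × ℂ => (p.1, w₀ + p.2))
      (D.an j _ (hmem p hp)) h2
  · rw [hmap p hp]
    exact (D.split _ (hmem p hp)).2.2
  · exact D.inj _ (hmem p hp) hg

/-- near `q` the function `f_z` is `s ^ n` times a unit -/
theorem gr_exists (hR : RetStmt U) (S : Sh T) {v : Vtx} (q : XV U v) : ∃ n, GR U v q n := by
  set w₀ := pV U v q with hw₀
  obtain ⟨D⟩ : Nonempty (LD U v w₀) := exists_LD hR q.2.1 q.2.2.1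
  obtain ⟨j, hj⟩ := D.surj q D.w0_mem
  rw [← hw₀] at hj
  obtain ⟨hS, hmap⟩ := ld_sheets S D
  set r' := min D.R D.r with hr'
  have hr0 : 0 < r' := lt_min D.R_pos D.r_pos
  obtain ⟨a, b, w, h1, h2, h3, h4⟩ := hS.cd0_mono j
  have hb : b = 0 := h4 _ _ _ rfl
  have h00 : ((0 : ℂ), (0 : ℂ)) ∈ BD r' r' := ⟨by simpa using hr0, by simpa using hr0⟩
  have hw0 : 0 < ‖w (0, 0)‖ := norm_pos_iff.2 (h2 _ h00)
  have hcw : ContinuousAt (fun p => ‖w p‖) ((0 : ℂ), (0 : ℂ)) := (h1 _ h00).continuousAt.norm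
  have hlo : ∀ᶠ p in 𝓝 ((0 : ℂ), (0 : ℂ)), ‖w (0, 0)‖ / 2 < ‖w p‖ :=
    hcw.eventually (lt_mem_nhds (by linarith : ‖w (0, 0)‖ / 2 < ‖w (0, 0)‖))
  have hhi : ∀ᶠ p in 𝓝 ((0 : ℂ), (0 : ℂ)), ‖w p‖ < 2 * ‖w (0, 0)‖ :=
    hcw.eventually (gt_mem_nhds (by linarith : ‖w (0, 0)‖ < 2 * ‖w (0, 0)‖))
  have hBD : ∀ᶠ p in 𝓝 ((0 : ℂ), (0 : ℂ)), p ∈ BD r' r' := (isOpen_BD r' r').mem_nhds h00
  obtain ⟨ε, hε, hsub⟩ := TB.exists_BD (hBD.and (hlo.and hhi))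
  refine ⟨a, 2 * ‖w (0, 0)‖ + 2 / ‖w (0, 0)‖, by positivity, ε, hε, ?_⟩
  have hnear := D.near (j := j) (w := w₀) D.w0_mem
  rw [hj] at hnear
  have hp : Continuous (pV U v) := continuous_fst.comp continuous_subtype_val
  have hball : ∀ᶠ q' in 𝓝 q, pV U v q' ∈ ball w₀ ε :=
    hp.continuousAt.eventually (isOpen_ball.mem_nhds (mem_ball_self hε))
  filter_upwards [hnear, hball] with q' e1 e2 x hx hxε
  obtain ⟨l, k1, k2, k3, k4, k5⟩ := D.of_ret hx e1.2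
  have hl : l = j := D.σinj _ e1.2 (show D.σ l _ = D.σ j _ by rw [← k5, e1.1])
  rw [hl] at k4
  set p : ℂ × ℂ := (x 1, pV U v q' - w₀) with hpdef
  have hpε : p ∈ BD ε ε := by
    refine ⟨hxε, ?_⟩
    have : dist (pV U v q') w₀ < ε := e2
    rwa [dist_eq_norm] at this
  have hpall : p ∈ BD r' r' ∧ ‖w (0, 0)‖ / 2 < ‖w p‖ ∧ ‖w p‖ < 2 * ‖w (0, 0)‖ := hsub hpε
  have hfz : fz T x = (x 1) ^ a * w p := by
    have h5 := h3 p hpall.1
    have h6 : T.th (.vert (S.ci v) v.1 w₀) (fun p => D.Z j (p.1, w₀ + p.2)) p =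
        pt (x 0) (T.base (x 1, x 2)) := by
      show pt (D.Z j (p.1, w₀ + p.2)) (T.base (T.map _ p)) = _
      rw [hmap p hpall.1]
      simp only [hpdef, add_sub_cancel]
      rw [← k3, ← k4]
    rw [h6, hb, pow_zero, mul_one] at h5
    exact h5
  rw [hfz, norm_mul, norm_pow]
  have hx0 : 0 ≤ ‖x 1‖ ^ a := by positivity
  constructor
  · rw [mul_comm]
    refine mul_le_mul_of_nonneg_left ?_ hx0
    refine le_trans ?_ hpall.2.1.le
    rw [inv_le_comm₀ (by positivity) (by positivity)]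
    have : (‖w (0, 0)‖ / 2)⁻¹ = 2 / ‖w (0, 0)‖ := by rw [inv_div]
    rw [this]
    linarith
  · rw [mul_comm]
    refine mul_le_mul_of_nonneg_right ?_ hx0
    have : 0 < 2 / ‖w (0, 0)‖ := by positivity
    linarith [hpall.2.2]

/-- the standard path to a point of the vertex curve -/
lemma exists_path (hR : RetStmt U) {v : Vtx} (q : XV U v) : ∃ x : ℂ → Fin 3 → ℂ, (∀ t, x t 1 = t) ∧
    ∀ᶠ t in 𝓝[≠] (0 : ℂ), IsRet U v (x t) q := by
  obtain ⟨D⟩ : Nonempty (LD U v (pV U v q)) := exists_LD hR q.2.1 q.2.2.1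
  obtain ⟨j, hj⟩ := D.surj q D.w0_mem
  have hpos : 0 < U.ρ v (pV U v q) := U.pos v q.2.1 _ q.2.2.1
  refine ⟨fun t => pt (D.Z j (t, pV U v q)) (t, yv T v (t, pV U v q)), fun t => rfl, ?_⟩
  have h1 : ∀ᶠ t in 𝓝[≠] (0 : ℂ), ‖t‖ < U.ρ v (pV U v q) := by
    have : ∀ᶠ t in 𝓝 (0 : ℂ), ‖t‖ < U.ρ v (pV U v q) :=
      continuous_norm.continuousAt.eventually (gt_mem_nhds (by simpa using hpos))
    exact this.filter_mono nhdsWithin_le_nhds
  filter_upwards [h1, self_mem_nhdsWithin] with t h2 h3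
  have h4 := D.ret j _ D.w0_mem t h3 h2
  rw [hj] at h4
  exact h4

lemma gr_path {v : Vtx} {q : XV U v} {n : ℕ} (h : GR U v q n) {x : ℂ → Fin 3 → ℂ}
    (hx1 : ∀ t, x t 1 = t) (hx : ∀ᶠ t in 𝓝[≠] (0 : ℂ), IsRet U v (x t) q) :
    ∃ A > 0, ∃ B, ∀ᶠ t in 𝓝[≠] (0 : ℂ),
      A * ‖t‖ ^ (n : ℤ) ≤ ‖fz T (x t)‖ ∧ ‖fz T (x t)‖ ≤ B * ‖t‖ ^ (n : ℤ) := by
  obtain ⟨K, hK, ε, hε, he⟩ := h
  refine ⟨K⁻¹, inv_pos.2 hK, K, ?_⟩
  have h1 : ∀ᶠ t in 𝓝[≠] (0 : ℂ), ‖t‖ < ε := by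
    have : ∀ᶠ t in 𝓝 (0 : ℂ), ‖t‖ < ε :=
      continuous_norm.continuousAt.eventually (gt_mem_nhds (by simpa using hε))
    exact this.filter_mono nhdsWithin_le_nhds
  filter_upwards [hx, h1] with t e1 e2
  have h3 := he.self_of_nhds (x t) e1 (by rw [hx1]; exact e2)
  rw [hx1] at h3
  simpa only [zpow_natCast] using h3

theorem gr_unique (hR : RetStmt U) {v : Vtx} {q : XV U v} {n n' : ℕ} (h : GR U v q n)
    (h' : GR U v q n') : n = n' := by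
  obtain ⟨x, hx1, hx⟩ := exists_path hR q
  obtain ⟨A, hA, B, h1⟩ := gr_path h hx1 hx
  obtain ⟨A', hA', B', h2⟩ := gr_path h' hx1 hx
  exact_mod_cast exp_unique hA hA' h1 h2

lemma gr_open {v : Vtx} {q : XV U v} {n : ℕ} (h : GR U v q n) : ∀ᶠ q' in 𝓝 q, GR U v q' n := by
  obtain ⟨K, hK, ε, hε, he⟩ := h
  filter_upwards [he.eventually_nhds] with q' h1
  exact ⟨K, hK, ε, hε, h1⟩

/-- the order depends only on the component -/
theorem gr_cc (hR : RetStmt U) (S : Sh T) {v : Vtx} {q q' : XV U v} {n : ℕ}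
    (hq : (q : ConnectedComponents (XV U v)) = q') (h : GR U v q n) : GR U v q' n := by
  set g : XV U v → ℕ := fun q => (gr_exists hR S q).choose with hg
  have hgs : ∀ q, GR U v q (g q) := fun q => (gr_exists hR S q).choose_spec
  have hloc : IsLocallyConstant g := by
    rw [IsLocallyConstant.iff_eventually_eq]
    intro p
    filter_upwards [gr_open (hgs p)] with p' hp'
    exact gr_unique hR (hgs p') hp'
  have h1 : q ∈ connectedComponent q' := ConnectedComponents.coe_eq_coe'.1 hq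
  have h2 : g q = g q' := hloc.apply_eq_of_isPreconnected isPreconnected_connectedComponent h1
    mem_connectedComponent
  rw [gr_unique hR h (hgs q), h2]
  exact hgs q'

theorem exists_ord (hR : RetStmt U) (S : Sh T) (E : II U) : ∃ n, ∀ q : XV U E.1.1,
    (q : ConnectedComponents _) = E.2 → GR U E.1.1 q n := by
  obtain ⟨q, hq⟩ := ConnectedComponents.surjective_coe E.2
  obtain ⟨n, hn⟩ := gr_exists hR S q
  exact ⟨n, fun q' hq' => gr_cc hR S (by rw [hq, hq']) hn⟩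

/-- a section of local data stays in one component -/
lemma ld_cc {v : Vtx} {w₀ : ℂ} (D : LD U v w₀) (l : Fin T.d) {w w' : ℂ} (hw : w ∈ ball w₀ D.r)
    (hw' : w' ∈ ball w₀ D.r) :
    (D.σ l w : ConnectedComponents (XV U v)) = (D.σ l w' : ConnectedComponents (XV U v)) := by
  have h1 : IsPreconnected (D.σ l '' ball w₀ D.r) :=
    (convex_ball w₀ D.r).isPreconnected.image _ (D.cont l)
  rw [ConnectedComponents.coe_eq_coe']
  exact h1.subset_connectedComponent ⟨w', hw', rfl⟩ ⟨w, hw, rfl⟩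

/-- the general comparison: along an analytic arc `γ` in a chart -/
theorem ord_arc {v : Vtx} {w₀ : ℂ} (D : LD U v w₀) {l : Fin T.d}
    {n m : ℕ} (hn : GR U v (D.σ l w₀) n) {x : ℂ → Fin 3 → ℂ} {W : ℂ → ℂ}
    (hW : Tendsto W (𝓝[≠] 0) (𝓝 w₀)) (hx : ∀ᶠ t in 𝓝[≠] (0 : ℂ), IsRet U v (x t) (D.σ l (W t)))
    {κ : ℝ} (hκ : 0 < κ) (hx1 : ∀ᶠ t in 𝓝[≠] (0 : ℂ), ‖x t 1‖ = κ * ‖t‖) {A B : ℝ} (hA : 0 < A)
    (hm : ∀ᶠ t in 𝓝[≠] (0 : ℂ), A * ‖t‖ ^ m ≤ ‖fz T (x t)‖ ∧ ‖fz T (x t)‖ ≤ B * ‖t‖ ^ m) :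
    m = n := by
  obtain ⟨K, hK, ε, hε, he⟩ := hn
  have h1 : Tendsto (fun t => D.σ l (W t)) (𝓝[≠] 0) (𝓝 (D.σ l w₀)) :=
    ((D.cont l).continuousAt (isOpen_ball.mem_nhds D.w0_mem)).tendsto.comp hW
  have h2 : ∀ᶠ t in 𝓝[≠] (0 : ℂ), κ * ‖t‖ < ε := by
    have h3 : ContinuousAt (fun t : ℂ => κ * ‖t‖) 0 := by fun_prop
    have h4 : ∀ᶠ t in 𝓝 (0 : ℂ), κ * ‖t‖ < ε :=
      h3.eventually (gt_mem_nhds (by simpa using hε))
    exact h4.filter_mono nhdsWithin_le_nhds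
  have h3 : ∀ᶠ t in 𝓝[≠] (0 : ℂ), (K⁻¹ * κ ^ n) * ‖t‖ ^ (n : ℤ) ≤ ‖fz T (x t)‖ ∧
      ‖fz T (x t)‖ ≤ (K * κ ^ n) * ‖t‖ ^ (n : ℤ) := by
    filter_upwards [h1.eventually he, hx, hx1, h2] with t e1 e2 e3 e4
    have h5 := e1 _ e2 (by rw [e3]; exact e4)
    rw [e3, mul_pow] at h5
    rw [zpow_natCast, mul_assoc, mul_assoc]
    exact h5
  have h4 : ∀ᶠ t in 𝓝[≠] (0 : ℂ), A * ‖t‖ ^ (m : ℤ) ≤ ‖fz T (x t)‖ ∧
      ‖fz T (x t)‖ ≤ B * ‖t‖ ^ (m : ℤ) := by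
    simpa only [zpow_natCast] using hm
  have h5 : (m : ℤ) = n := exp_unique hA (by positivity) h4 h3
  exact_mod_cast h5

end Crest.Agent.R257.Vt7_558
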